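import Claimed.Agent.R289.Rsw.VerArm
import Claimed.Agent.R289.Defs.Top
import Claimed.Agent.R289.PppQ

/-!
# Row 289 (S0537), Exit/Arm1 : ANNEALED ONE ARM, EITHER COLOUR, UNIFORM IN THE MESH      (head helper262; unit RSW; prefix `pvr_`, exits `exit_pv_arm1*`)      0 sorry

`PvArm1 η b z s r` : a chain of sites of colour `b`, consecutive CELLS TOUCHING (weaker than Delaunay adjacency, so the event is the largest possible), from a site in `closedBall z s` to a site outside `ball z r`.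
* `exit_pv_arm1`        `∃ C a > 0, ∀ ε ≤ s ≤ r, z, b :  pvLaw ε {ω | PvArm1 (pvConf ω) b z s r} ≤ C (s/r)^a`      (OUTER measure: no measurability question)
* `exit_pv_arm1_meas`   the same with a measurable majorant event;      `exit_pv_arm1_q`  QUENCHED: measurable `q : PvGeoT → [0,1]` with `pvQ {arm} g ≤ q g`, `∫ q ≤ C (s/r)^a`
* `exit_pv_arm1_small`  no rate: `∀ δ ∃ κ : s ≤ κ r → P ≤ δ`;      `exit_pv_arm1_black`  region form (`rswArm`, `pvBlack`);      `pvr_arm1` region form on `Conf`, both colours (`pvrEv`, `pvrEvW`)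
* `pvr_arm1_of_VC`      a `PvVC η W A B` with `A ⊆ closedBall z s`, `B ⊆ (ball z r)ᶜ` is a `PvArm1 η true z s r`.
PROOF: RSW (`pvr_rsw`) + white FKG: the white `#` has probability `≥ c` at all scales and meshes; local version at the scales `≥ U ε` (mesh event of 127 / 54); independence of the scales `16^i` (`pvra_arm_le` of 54); `(1-c/2)^k ≤ C (s/r)^a`.
-/

set_option autoImplicit false

namespace Claimed.Agent.R289

open MeasureTheory ProbabilityTheory Set Filter Topology Metric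
open scoped ENNReal NNReal
open Claims.C0465

/-- **ONE ARM**, region form, every centre, both colours -/
theorem pvr_arm1 : ∃ C a : ℝ, 0 < C ∧ 0 < a ∧ ∀ (ε s r : ℝ) (z : ℂ), 0 < ε → ε ≤ s → s ≤ r →
    pvP ε (pvrEv (rswArm z.re z.im s r)) ≤ ENNReal.ofReal (C * (s / r) ^ a) ∧ pvP ε (pvrEvW (rswArm z.re z.im s r)) ≤ ENNReal.ofReal (C * (s / r) ^ a) := by
  obtain ⟨C, a, hC, ha, h⟩ := pvr_arm1_zero
  refine ⟨C, a, hC, ha, fun ε s r z hε hs hr => ?_⟩
  have h1 : pvP ε (pvrEv (rswArm z.re z.im s r)) = pvP ε (pvrEv (rswArm 0 0 s r)) := by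
    have h2 := pvr_inv_tr ε z (rswArm 0 0 s r)
    rwa [rsw_map_tr_Arm, zero_add, zero_add] at h2
  rw [pvr_flip_ev, h1]
  exact ⟨h ε s r hε hs hr, h ε s r hε hs hr⟩

/-- monochromatic VERTEX arm of colour `b`: a chain of sites of colour `b`, consecutive cells touching, from a site in `closedBall z s` to a site outside `ball z r` -/
def PvArm1 (η : Conf PvPt) (b : Bool) (z : ℂ) (s r : ℝ) : Prop :=
  ∃ u v : ℂ, ‖u - z‖ ≤ s ∧ r ≤ ‖v - z‖ ∧ (u, b) ∈ η.pts ∧ Relation.ReflTransGen (fun p q => (q, b) ∈ η.pts ∧ (cfCell η p ∩ cfCell η q).Nonempty) u v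

/-- the region of the colour `b` -/
def cfReg (η : Conf PvPt) (b : Bool) : Set ℂ := if b then cfB η else cfW η

theorem pvr_arm1_eqns_cite : True := by
  have := @PvArm1.eq_1
  have := @cfReg.eq_1
  trivial

theorem pvr_cell_sub {η : Conf PvPt} {b : Bool} {v : ℂ} (hv : (v, b) ∈ η.pts) : cfCell η v ⊆ cfReg η b := by
  intro z hz
  cases b
  · exact ⟨v, hv, fun w hw => hz _ hw⟩
  · exact ⟨v, hv, fun w hw => hz _ hw⟩

theorem pvr_chain_joined {η : Conf PvPt} {b : Bool} {u v : ℂ} (hu : (u, b) ∈ η.pts)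
    (h : Relation.ReflTransGen (fun p q => (q, b) ∈ η.pts ∧ (cfCell η p ∩ cfCell η q).Nonempty) u v) : (v, b) ∈ η.pts ∧ JoinedIn (cfReg η b) u v := by
  induction h with
  | refl =>
    refine ⟨hu, JoinedIn.refl (pvr_cell_sub hu ?_)⟩
    rw [cfCell_eq_vor]; exact vor_self_mem _ _
  | @tail p q _ hstep ih =>
    obtain ⟨hq, w, hw1, hw2⟩ := hstep
    refine ⟨hq, ih.2.trans ?_⟩
    have c1 : Convex ℝ (cfCell η p) := by rw [cfCell_eq_vor]; exact vor_convex_cell _ _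
    have c2 : Convex ℝ (cfCell η q) := by rw [cfCell_eq_vor]; exact vor_convex_cell _ _
    have m1 : p ∈ cfCell η p := by rw [cfCell_eq_vor]; exact vor_self_mem _ _
    have m2 : q ∈ cfCell η q := by rw [cfCell_eq_vor]; exact vor_self_mem _ _
    exact (JoinedIn.of_segment_subset ((c1.segment_subset m1 hw1).trans (pvr_cell_sub ih.1))).trans
      (JoinedIn.of_segment_subset ((c2.segment_subset hw2 m2).trans (pvr_cell_sub hq)))

/-- a vertex arm gives an arm of the region (squares: `closedBall z s ⊆ [-s,s]²`, `[-r/2,r/2]² ⊆ ball z r`) -/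
theorem pvr_arm1_det {η : Conf PvPt} {b : Bool} {z : ℂ} {s r : ℝ} (hsr : s ≤ r / 2) (h : PvArm1 η b z s r) : (rswArm z.re z.im s (r / 2)).Holds (cfReg η b) := by
  obtain ⟨u, v, hu, hv, hub, hch⟩ := h
  obtain ⟨-, hj⟩ := pvr_chain_joined hub hch
  have hre : |u.re - z.re| ≤ s := by
    have := Complex.abs_re_le_norm (u - z)
    rw [Complex.sub_re] at this
    exact this.trans hu
  have him : |u.im - z.im| ≤ s := by
    have := Complex.abs_im_le_norm (u - z)
    rw [Complex.sub_im] at this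
    exact this.trans hu
  rw [abs_le] at hre him
  have huS : u ∈ rswRect (z.re - s) (z.re + s) (z.im - s) (z.im + s) := ⟨by linarith, by linarith, by linarith, by linarith⟩
  have huK : u ∈ rswRect (z.re - r / 2) (z.re + r / 2) (z.im - r / 2) (z.im + r / 2) := ⟨by linarith, by linarith, by linarith, by linarith⟩
  obtain ⟨w, hw, hwb⟩ := rsw_first_exit hj huK (by
    rintro ⟨g1, g2, g3, g4⟩
    have h1 := Complex.norm_le_abs_re_add_abs_im (v - z)
    rw [Complex.sub_re, Complex.sub_im] at h1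
    have h2 : |v.re - z.re| < r / 2 := abs_lt.2 ⟨by linarith, by linarith⟩
    have h3 : |v.im - z.im| < r / 2 := abs_lt.2 ⟨by linarith, by linarith⟩
    linarith)
  exact ⟨u, huS, w, ⟨hw.target_mem.2, hwb⟩, hw⟩

/-- **ONE ARM**, vertex form on configurations (outer measure) -/
theorem pvr_arm1_vertex : ∃ C a : ℝ, 0 < C ∧ 0 < a ∧ ∀ (ε s r : ℝ) (z : ℂ) (b : Bool), 0 < ε → ε ≤ s → s ≤ r →
    pvP ε {η | PvArm1 η b z s r} ≤ ENNReal.ofReal (C * (s / r) ^ a) := by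
  obtain ⟨C, a, hC, ha, h⟩ := pvr_arm1
  refine ⟨max C 1 * 2 ^ a, a, by positivity, ha, fun ε s r z b hε hs hr => ?_⟩
  have hs0 : 0 < s := lt_of_lt_of_le hε hs
  have hr0 : 0 < r := lt_of_lt_of_le hs0 hr
  have e1 : (2 : ℝ) ^ a * (s / r) ^ a = (s / (r / 2)) ^ a := by
    rw [← Real.mul_rpow (by norm_num) (by positivity)]
    congr 1
    field_simp
  rcases le_or_gt s (r / 2) with hsr | hsr
  · have hsub : {η | PvArm1 η b z s r} ⊆ {η | (rswArm z.re z.im s (r / 2)).Holds (cfReg η b)} := fun η hη => pvr_arm1_det hsr hη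
    have h1 := h ε s (r / 2) z hε hs hsr
    have h2 : pvP ε {η | (rswArm z.re z.im s (r / 2)).Holds (cfReg η b)} ≤ ENNReal.ofReal (C * (s / (r / 2)) ^ a) := by
      cases b
      · exact h1.2
      · exact h1.1
    refine (measure_mono hsub).trans (h2.trans (ENNReal.ofReal_le_ofReal ?_))
    rw [mul_assoc, e1]
    exact mul_le_mul_of_nonneg_right (le_max_left _ _) (by positivity)
  · have h1 : (1 : ℝ) ≤ max C 1 * 2 ^ a * (s / r) ^ a := by
      rw [mul_assoc, e1]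
      have h2 : (1 : ℝ) ≤ (s / (r / 2)) ^ a := Real.one_le_rpow (by rw [le_div_iff₀ (by positivity)]; linarith) ha.le
      have h3 : (1 : ℝ) ≤ max C 1 := le_max_right _ _
      nlinarith
    calc pvP ε {η | PvArm1 η b z s r} ≤ 1 := prob_le_one
      _ = ENNReal.ofReal 1 := ENNReal.ofReal_one.symm
      _ ≤ _ := ENNReal.ofReal_le_ofReal h1

/-- outer measures: `pvLaw ε (pvConf ⁻¹' A) ≤ pvP ε A` for EVERY set -/
theorem pvr_law_le (ε : ℝ) (A : Set (Conf PvPt)) : pvLaw ε (pvConf ⁻¹' A) ≤ pvP ε A := by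
  unfold pvP
  exact Measure.le_map_apply measurable_pvConf.aemeasurable A

/-- **EXIT Arm1** (annealed one arm, either colour, uniform in the mesh `ε ≤ s`; OUTER measure of the vertex arm event) -/
theorem exit_pv_arm1 : ∃ C a : ℝ, 0 < C ∧ 0 < a ∧ ∀ (ε s r : ℝ) (z : ℂ) (b : Bool), 0 < ε → ε ≤ s → s ≤ r →
    pvLaw ε {ω | PvArm1 (pvConf ω) b z s r} ≤ ENNReal.ofReal (C * (s / r) ^ a) := by
  obtain ⟨C, a, hC, ha, h⟩ := pvr_arm1_vertex
  exact ⟨C, a, hC, ha, fun ε s r z b hε hs hr => (pvr_law_le ε {η | PvArm1 η b z s r}).trans (h ε s r z b hε hs hr)⟩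

/-- the same with a MEASURABLE majorant event -/
theorem exit_pv_arm1_meas : ∃ C a : ℝ, 0 < C ∧ 0 < a ∧ ∀ (ε s r : ℝ) (z : ℂ) (b : Bool), 0 < ε → ε ≤ s → s ≤ r →
    ∃ E : Set PVSample, MeasurableSet E ∧ {ω | PvArm1 (pvConf ω) b z s r} ⊆ E ∧ pvLaw ε E ≤ ENNReal.ofReal (C * (s / r) ^ a) := by
  obtain ⟨C, a, hC, ha, h⟩ := exit_pv_arm1
  refine ⟨C, a, hC, ha, fun ε s r z b hε hs hr => ?_⟩
  refine ⟨toMeasurable (pvLaw ε) {ω | PvArm1 (pvConf ω) b z s r}, measurableSet_toMeasurable _ _, subset_toMeasurable _ _, ?_⟩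
  rw [measure_toMeasurable]
  exact h ε s r z b hε hs hr

/-- QUENCHED form: a measurable function of the geometry which dominates the quenched probability of the arm event, with small mean -/
theorem exit_pv_arm1_q : ∃ C a : ℝ, 0 < C ∧ 0 < a ∧ ∀ (ε s r : ℝ) (z : ℂ) (b : Bool), 0 < ε → ε ≤ s → s ≤ r →
    ∃ q : PvGeoT → ℝ≥0∞, Measurable q ∧ (∀ g, q g ≤ 1) ∧ (∀ g, pvQ {ω | PvArm1 (pvConf ω) b z s r} g ≤ q g) ∧ ∫⁻ g, q g ∂(pvGeo ε) ≤ ENNReal.ofReal (C * (s / r) ^ a) := by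
  obtain ⟨C, a, hC, ha, h⟩ := exit_pv_arm1_meas
  refine ⟨C, a, hC, ha, fun ε s r z b hε hs hr => ?_⟩
  obtain ⟨E, hE, hsub, hle⟩ := h ε s r z b hε hs hr
  refine ⟨pvQ E, pvqu_Q_meas hE, pvqu_Q_le_one E, fun g => pvqu_Q_mono hsub g, ?_⟩
  rw [pvqu_Q_lintegral ε hE]
  exact hle

/-- no rate: the arm event is unlikely when `s ≤ κ r` -/
theorem exit_pv_arm1_small (δ : ℝ) (hδ : 0 < δ) : ∃ κ : ℝ, 0 < κ ∧ κ ≤ 1 ∧ ∀ (ε s r : ℝ) (z : ℂ) (b : Bool), 0 < ε → ε ≤ s → s ≤ κ * r →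
    pvLaw ε {ω | PvArm1 (pvConf ω) b z s r} ≤ ENNReal.ofReal δ := by
  obtain ⟨C, a, hC, ha, h⟩ := exit_pv_arm1
  set κ : ℝ := min 1 ((δ / C) ^ (1 / a)) with hκ
  have hκ0 : 0 < κ := lt_min one_pos (by positivity)
  refine ⟨κ, hκ0, min_le_left _ _, fun ε s r z b hε hs hr => ?_⟩
  have hs0 : 0 < s := lt_of_lt_of_le hε hs
  have hr0 : 0 < r := by
    by_contra hcon
    have : κ * r ≤ 0 := mul_nonpos_of_nonneg_of_nonpos hκ0.le (not_lt.1 hcon)
    linarith
  have hsr : s ≤ r := hr.trans (by have : κ ≤ 1 := min_le_left _ _; nlinarith)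
  refine (h ε s r z b hε hs hsr).trans (ENNReal.ofReal_le_ofReal ?_)
  have h1 : s / r ≤ (δ / C) ^ (1 / a) := by
    rw [div_le_iff₀ hr0]
    exact hr.trans (mul_le_mul_of_nonneg_right (min_le_right _ _) hr0.le)
  have h2 : (s / r) ^ a ≤ δ / C := by
    calc (s / r) ^ a ≤ ((δ / C) ^ (1 / a)) ^ a := Real.rpow_le_rpow (by positivity) h1 ha.le
      _ = δ / C := by rw [← Real.rpow_mul (by positivity), one_div, inv_mul_cancel₀ ha.ne', Real.rpow_one]
  calc C * (s / r) ^ a ≤ C * (δ / C) := mul_le_mul_of_nonneg_left h2 hC.le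
    _ = δ := by field_simp

/-- a black vertex crossing (`PvVC`, Defs/Top) from `closedBall z s` to the complement of `ball z r` is a black vertex arm -/
theorem pvr_arm1_of_VC {η : Conf PvPt} {W A B : Set ℂ} {z : ℂ} {s r : ℝ} (hA : A ⊆ closedBall z s) (hB : B ⊆ (ball z r)ᶜ) (h : PvVC η W A B) : PvArm1 η true z s r := by
  obtain ⟨u, v, hu, hv, hub, hch⟩ := h
  refine ⟨u, v, ?_, ?_, hub.1, Relation.ReflTransGen.mono (fun p q hpq => ⟨hpq.1.1, hpq.2⟩) u v hch⟩
  · have := hA hu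
    rwa [mem_closedBall, dist_eq_norm] at this
  · have := hB hv
    rwa [mem_compl_iff, mem_ball, dist_eq_norm, not_lt] at this

/-- region form, frozen vocabulary, black -/
theorem exit_pv_arm1_black : ∃ C a : ℝ, 0 < C ∧ 0 < a ∧ ∀ (ε s r : ℝ) (z : ℂ), 0 < ε → ε ≤ s → s ≤ r →
    pvLaw ε {ω | (rswArm z.re z.im s r).Holds (pvBlack ω)} ≤ ENNReal.ofReal (C * (s / r) ^ a) := by
  obtain ⟨C, a, hC, ha, h⟩ := pvr_arm1
  refine ⟨C, a, hC, ha, fun ε s r z hε hs hr => ?_⟩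
  rw [pvr_transfer (rsw_nice_Arm _ _ _ _)]
  exact (h ε s r z hε hs hr).1

end Claimed.Agent.R289
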