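import Claimed.Agent.R289.Cr.Inst
import Claimed.Agent.R289.Exit.Arm1

/-!
# Row 289 (S0537), Exit/Arm : THE EXIT OF ARM / S2 TOWARDS CR = `L9ExitArm`      (owner helper33, post AX of helper146; heads of ARM helper75 / helper146, architect helper241; S2 helper237; prefix `pvxa_`, record `PvNearExit`)

Consumer: `exit_pv_transport` (`Cr/Inst.lean`, helper161) asks `L9ExitArm c`:  for every bulk family, ball and sequence `ε → 0`
* `arm1`  `P(∃ reaching rim visiting B(y,s)) ≤ C₁ (s/R)^c`                                    (TeX 06 l.604-613)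
* `arm2`  `P(∃ reaching rim with a near return at (y; s, S)) ≤ C₁ (s/S)^(2+c) (S/R)^c`        (TeX 06 l.752-782)
eventually in `n`.      Consumer list of Section 2: `origin/helper33:notes/R289/arms_33.md`.

* `pvxa_site_col`, `pvxa_step`, `pvxa_chain`, **`pvxa_visit_arm`**   DETERMINISTIC: an encoded reaching rim which visits `closedBall y σ` (`σ ≤ R`, `‖y - x‖ ≤ 2R`) carries a `PvArm1 η b y σ R` (chain of sites of one colour, cells touching).
* `pvxa_law_le`           the upper probability `l9Up X ε` of an event which reads the configuration only is `≤ pvP ε` (OUTER measure)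
* **`pvxa_arm1`**         `arm1`, PROVED from `pvr_arm1_vertex` (helper262)
* **`PvNearExit c`**      THE INTERFACE ASKED FROM THE ANNEALED LAYER OF ARM / S2 (A5: 84 98 196, S2/Main sec. 6: 237): events `F y s S R` of the configuration with `prob` (outer measure, eventually) and `det` (every near return of a rim of ANY bulk family)
* `pvxa_arm2`             `arm2` from `PvNearExit`
* **`exit_pv_arm`**       `PvNearExit c₀ → ∃ c > 0, ∀ c' ∈ (0, c], L9ExitArm c'`      (all small exponents: `L9ExitTR c` of the WALL may choose)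
* `exit_pv_near`          SORRIED = the contract of the annealed layer;      `exit_pv_arm_main : ∃ c > 0, ∀ c' ∈ (0, c], L9ExitArm c'`
-/

set_option autoImplicit false

namespace Claimed.Agent.R289

open MeasureTheory ProbabilityTheory Set Filter Topology Metric
open scoped ENNReal NNReal
open Claims.C0465

/-! ## 1. deterministic: a visiting rim carries an arm -/

section det

variable {X : Type} (𝔅 : PvBulk X)

/-- a site of colour `b` (colouring of the bulk family) is a point `(p, b)` of the configuration -/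
theorem pvxa_site_col {η : Conf PvPt} {ξ : X → Bool} {v : 𝔅.V (cfSites η)} {p : ℂ} (hl : 𝔅.lab (cfSites η) v = Sum.inl p) (hp : p ∈ cfSites η) :
    (p, 𝔅.col η ξ v) ∈ η.pts := by
  classical
  have hc : 𝔅.col η ξ v = cfCol η p := by
    unfold PvBulk.col
    rw [hl]
    rfl
  rw [hc]
  unfold cfCol
  by_cases h : (p, true) ∈ η.pts
  · rw [decide_eq_true h]
    exact h
  · rw [decide_eq_false h]
    obtain ⟨⟨q, b⟩, hq, rfl⟩ := hp
    cases b
    · exact hq
    · exact absurd hq h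

/-- a vertex whose far-position is closer than `5R` to `y` is a site -/
theorem pvxa_lab_of_near {Y : Set ℂ} {x y : ℂ} {R : ℝ} (hy : ‖y - x‖ ≤ 2 * R) {v : 𝔅.V Y} (hv : ‖𝔅.posF Y (x + 7 * R) v - y‖ < 5 * R) :
    𝔅.lab Y v = Sum.inl (𝔅.posF Y (x + 7 * R) v) := by
  unfold PvBulk.posF at hv ⊢
  rcases h : 𝔅.lab Y v with p | e
  · rfl
  · exfalso
    rw [h] at hv
    simp only [Sum.elim_inr] at hv
    have hR : 0 ≤ R := by
      have := norm_nonneg (y - x)
      linarith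
    have h1 : ‖((7 * R : ℝ) : ℂ)‖ = 7 * R := by
      rw [Complex.norm_real, Real.norm_eq_abs, abs_of_nonneg (by linarith)]
    have h2 : ((7 * R : ℝ) : ℂ) = (x + 7 * R - y) + (y - x) := by
      push_cast
      ring
    have h3 : ‖((7 * R : ℝ) : ℂ)‖ ≤ ‖x + 7 * R - y‖ + ‖y - x‖ := by
      rw [h2]
      exact norm_add_le _ _
    linarith

/-- one step backwards along a cycle from a vertex in the good ball: the previous vertex is a Delaunay neighbour -/
theorem pvxa_step {Y : Set ℂ} {x y : ℂ} {R : ℝ} (hy : ‖y - x‖ ≤ 2 * R) (hOk : 𝔅.Ok Y (closedBall x (6 * R))) (c : (𝔅.T Y).Cyc) (j : ℕ)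
    (hj : ‖𝔅.posF Y (x + 7 * R) ((𝔅.T Y).src (c.e (j + 1))) - y‖ < R) :
    𝔅.lab Y ((𝔅.T Y).src (c.e j)) = Sum.inl (𝔅.posF Y (x + 7 * R) ((𝔅.T Y).src (c.e j))) ∧
      DelAdj Y (𝔅.posF Y (x + 7 * R) ((𝔅.T Y).src (c.e (j + 1)))) (𝔅.posF Y (x + 7 * R) ((𝔅.T Y).src (c.e j))) := by
  have hR : 0 ≤ R := by
    have := norm_nonneg (y - x)
    linarith
  set a := 𝔅.posF Y (x + 7 * R) ((𝔅.T Y).src (c.e (j + 1))) with ha
  have hl : 𝔅.lab Y ((𝔅.T Y).src (c.e (j + 1))) = Sum.inl a := pvxa_lab_of_near 𝔅 hy (by linarith)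
  have haK : a ∈ closedBall x (6 * R) := by
    rw [mem_closedBall, dist_eq_norm]
    have : a - x = (a - y) + (y - x) := by ring
    rw [this]
    have := norm_add_le (a - y) (y - x)
    linarith
  have hs : (𝔅.T Y).src ((𝔅.T Y).opp (c.e j)) = (𝔅.T Y).src (c.e (j + 1)) := by
    rw [(𝔅.T Y).src_opp', c.chain]
  obtain ⟨b, c', hb, -, htri⟩ := hOk.del ((𝔅.T Y).opp (c.e j)) a (by rw [hs]; exact hl) haK
  rw [(𝔅.T Y).tgt_opp] at hb
  have hpos : 𝔅.posF Y (x + 7 * R) ((𝔅.T Y).src (c.e j)) = b := by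
    unfold PvBulk.posF
    rw [hb]
    rfl
  rw [hpos]
  exact ⟨hb, (del_tri_adj htri).1⟩

/-- the chain backwards along a rim: from the vertex number `k` either we reach distance `R` from `y`, or we arrive at the vertex number `j ≤ k` -/
theorem pvxa_chain {η : Conf PvPt} {ξ : X → Bool} {x y : ℂ} {R : ℝ} (hy : ‖y - x‖ ≤ 2 * R) (hOk : 𝔅.Ok (cfSites η) (closedBall x (6 * R)))
    {c : (𝔅.T (cfSites η)).Cyc} (hc : c.IsRim (𝔅.col η ξ)) (k : ℕ) (i : ℕ) (hi : i ≤ k) :
    ∃ v : ℂ, Relation.ReflTransGen (fun p q => (q, 𝔅.col η ξ ((𝔅.T (cfSites η)).src (c.e 0))) ∈ η.pts ∧ (cfCell η p ∩ cfCell η q).Nonempty)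
        (𝔅.posF (cfSites η) (x + 7 * R) ((𝔅.T (cfSites η)).src (c.e k))) v ∧
      (R ≤ ‖v - y‖ ∨ v = 𝔅.posF (cfSites η) (x + 7 * R) ((𝔅.T (cfSites η)).src (c.e (k - i)))) := by
  induction i with
  | zero => exact ⟨_, Relation.ReflTransGen.refl, Or.inr rfl⟩
  | succ i ih =>
    obtain ⟨v, hv, h⟩ := ih (by omega)
    rcases h with h | h
    · exact ⟨v, hv, Or.inl h⟩
    · rcases le_or_gt R ‖v - y‖ with h' | h'
      · exact ⟨v, hv, Or.inl h'⟩
      · have e : k - i = (k - (i + 1)) + 1 := by omega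
        rw [e] at h
        rw [h] at h'
        obtain ⟨hl, hadj⟩ := pvxa_step 𝔅 hy hOk c (k - (i + 1)) h'
        refine ⟨_, hv.tail ⟨?_, ?_⟩, Or.inr rfl⟩
        · have := pvxa_site_col 𝔅 (ξ := ξ) hl hadj.2.1
          rwa [pl_rim_col hc (k - (i + 1)) 0] at this
        · rw [h, cfCell_eq_vor, cfCell_eq_vor]
          exact hadj.2.2.2

/-- **DETERMINISTIC HALF OF `arm1`**: a reaching rim which visits `closedBall y σ` carries an arm of its colour from `closedBall y σ` to distance `R` from `y` -/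
theorem pvxa_visit_arm {η : Conf PvPt} {ξ : X → Bool} {x y : ℂ} {R σ : ℝ} (hR : 0 < R) (hy : ‖y - x‖ ≤ 2 * R) (hσ : σ ≤ R)
    (hOk : 𝔅.Ok (cfSites η) (closedBall x (6 * R))) {P : PvbRim} (hP : P ∈ 𝔅.rimsAt (cfSites η) (𝔅.col η ξ) x R) (hv : PvbVisits P y σ) :
    ∃ b : Bool, PvArm1 η b y σ R := by
  obtain ⟨c, hc, hfar, rfl⟩ := hP
  obtain ⟨k, -, hk⟩ := hv
  have hk' : ‖𝔅.posF (cfSites η) (x + 7 * R) ((𝔅.T (cfSites η)).src (c.e k)) - y‖ ≤ σ := hk
  obtain ⟨v, hch, h⟩ := pvxa_chain 𝔅 hy hOk hc k k le_rfl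
  refine ⟨𝔅.col η ξ ((𝔅.T (cfSites η)).src (c.e 0)), _, v, hk', ?_, ?_, hch⟩
  · rcases h with h | h
    · exact h
    · rw [h, Nat.sub_self]
      set w := 𝔅.posF (cfSites η) (x + 7 * R) ((𝔅.T (cfSites η)).src (c.e 0)) with hw
      have e : w - x = (w - y) + (y - x) := by ring
      have := norm_add_le (w - y) (y - x)
      rw [← e] at this
      linarith
  · have hl := pvxa_lab_of_near 𝔅 hy (v := (𝔅.T (cfSites η)).src (c.e k)) (by linarith)
    have := pvxa_site_col 𝔅 (ξ := ξ) hl (hOk.site _ _ hl)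
    rwa [pl_rim_col hc k 0] at this

end det

/-! ## 2. measures -/

/-- the upper probability `l9Up` of an event which reads the configuration only (OUTER measure on the right: no measurability) -/
theorem pvxa_law_le (X : Type) (ε : ℝ) (A : Set (Conf PvPt)) : (l9Up X ε).P {w | pvConf (l9Sm w).1 ∈ A} ≤ pvP ε A :=
  (l9_up_le X ε (pvConf ⁻¹' A)).trans (Measure.le_map_apply measurable_pvConf.aemeasurable A)

/-- real form -/
theorem pvxa_law_le_real (X : Type) (ε : ℝ) {B : Set (L9Om X)} {A : Set (Conf PvPt)} (h : ∀ w ∈ B, pvConf (l9Sm w).1 ∈ A) :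
    ((l9Up X ε).P B).toReal ≤ (pvP ε A).toReal :=
  ENNReal.toReal_mono (measure_ne_top _ _) (((l9Up X ε).P_mono fun w hw => h w hw).trans (pvxa_law_le X ε A))

/-! ## 3. `arm1` -/

/-- comparison of powers: `t ≤ 1`, `c ≤ a` -/
theorem pvxa_rpow_le {t a c : ℝ} (h0 : 0 < t) (h1 : t ≤ 1) (hca : c ≤ a) : t ^ a ≤ t ^ c := Real.rpow_le_rpow_of_exponent_ge h0 h1 hca

/-- **`arm1`** with the exponent of the one-arm estimate (and every smaller one) -/
theorem pvxa_arm1 : ∃ C a : ℝ, 1 ≤ C ∧ 0 < a ∧ ∀ c : ℝ, 0 < c → c ≤ a → ∀ εs : ℕ → ℝ, (∀ n, 0 < εs n) → Tendsto εs atTop (𝓝 0) →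
    ∀ (X : Type) (𝔅 : PvBulk X) (x : ℂ) (R : ℝ), 0 < R → ∀ (y : ℂ) (s : ℝ), ‖y - x‖ ≤ 2 * R → 0 < s →
      ∀ᶠ n in atTop, ((l9Up X (εs n)).P {w | ∃ P ∈ 𝔅.rims x R (l9Sm w), PvbVisits P y s}).toReal ≤ C * (s / R) ^ c := by
  obtain ⟨C, a, hC, ha, h⟩ := pvr_arm1_vertex
  refine ⟨max (2 * C) 1, a, le_max_right _ _, ha, ?_⟩
  intro c hc hca εs h0 hε X 𝔅 x R hR y s hy hs
  rcases le_or_gt s R with hsR | hsR
  · have hev : ∀ᶠ n in atTop, εs n ≤ s := (hε.eventually (gt_mem_nhds hs)).mono fun n hn => le_of_lt hn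
    filter_upwards [hev] with n hn
    have hsub : ∀ o ∈ {o : L9Om X | ∃ P ∈ 𝔅.rims x R (l9Sm o), PvbVisits P y s},
        pvConf (l9Sm o).1 ∈ {η | PvArm1 η true y s R} ∪ {η | PvArm1 η false y s R} := by
      rintro o ⟨P, ⟨-, hOk, hP⟩, hv⟩
      obtain ⟨b, hb⟩ := pvxa_visit_arm 𝔅 hR hy hsR hOk hP hv
      cases b
      · exact Or.inr hb
      · exact Or.inl hb
    refine (pvxa_law_le_real X (εs n) hsub).trans ?_
    have h1 := h (εs n) s R y true (h0 n) hn hsR
    have h2 := h (εs n) s R y false (h0 n) hn hsR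
    have hnn : 0 ≤ C * (s / R) ^ a := by positivity
    have h3 : pvP (εs n) ({η | PvArm1 η true y s R} ∪ {η | PvArm1 η false y s R}) ≤ ENNReal.ofReal (2 * (C * (s / R) ^ a)) := by
      refine (measure_union_le _ _).trans ?_
      rw [two_mul, ENNReal.ofReal_add hnn hnn]
      exact add_le_add h1 h2
    have h4 : (pvP (εs n) ({η | PvArm1 η true y s R} ∪ {η | PvArm1 η false y s R})).toReal ≤ 2 * (C * (s / R) ^ a) := by
      have := ENNReal.toReal_mono ENNReal.ofReal_ne_top h3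
      rwa [ENNReal.toReal_ofReal (by positivity)] at this
    have h5 : (s / R) ^ a ≤ (s / R) ^ c := pvxa_rpow_le (by positivity) ((div_le_one hR).2 hsR) hca
    have h6 : 0 ≤ (s / R) ^ c := by positivity
    calc _ ≤ 2 * (C * (s / R) ^ a) := h4
      _ = 2 * C * (s / R) ^ a := by ring
      _ ≤ 2 * C * (s / R) ^ c := mul_le_mul_of_nonneg_left h5 (by positivity)
      _ ≤ max (2 * C) 1 * (s / R) ^ c := mul_le_mul_of_nonneg_right (le_max_left _ _) h6
  · refine Eventually.of_forall fun n => ?_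
    have h1 : ((l9Up X (εs n)).P {w | ∃ P ∈ 𝔅.rims x R (l9Sm w), PvbVisits P y s}).toReal ≤ 1 := by
      have := ENNReal.toReal_mono ENNReal.one_ne_top ((l9Up X (εs n)).P_le_one {w | ∃ P ∈ 𝔅.rims x R (l9Sm w), PvbVisits P y s})
      simpa using this
    have h2 : (1 : ℝ) ≤ (s / R) ^ c := Real.one_le_rpow (by rw [le_div_iff₀ hR]; linarith) hc.le
    have h3 : (1 : ℝ) ≤ max (2 * C) 1 := le_max_right _ _
    calc _ ≤ (1 : ℝ) := h1
      _ ≤ max (2 * C) 1 * (s / R) ^ c := by nlinarith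

/-! ## 4. the interface with the annealed layer of ARM / S2, and `arm2` -/

/-- **THE INTERFACE ASKED FROM THE ANNEALED LAYER OF ARM / S2** (near return `×` one arm; TeX Lemma 2.7 + 06 l.752-782).
`F y s S R` = the LOCAL NECESSARY EVENT, chosen by the producer: a set of configurations (mesh / frame failure included), e.g. "bad frame in `B(y,4R)`, or six arms `4 + 2` between radii `≈ s` and `≈ S` round `y` and one arm between radii `≈ 4S` and `≈ R`".
* `prob`: OUTER measure, eventually along every sequence `ε → 0`, at FIXED `y s S R`.      The factor `(S/R)^c` is cheapest quenched: on the frame event `P^η(arm from 4S to R) ≤ (1-q)^m`, and the colours of disjoint vertex sets are independent.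
* `det` : a near return of a rim of ANY bulk family which agrees with the Delaunay triangulation on `closedBall x (6R) ⊇ closedBall y (4R)`; the rim is cut at a vertex outside `B(x,4R)`, so BOTH complementary arcs leave `B(y,S)` and reach distance `2R` from `y`. -/
structure PvNearExit (c : ℝ) where
  C : ℝ
  F : ℂ → ℝ → ℝ → ℝ → Set (Conf PvPt)
  prob : ∀ εs : ℕ → ℝ, (∀ n, 0 < εs n) → Tendsto εs atTop (𝓝 0) → ∀ (y : ℂ) (s S R : ℝ), 0 < s → s ≤ S → S ≤ R →
    ∀ᶠ n in atTop, (pvP (εs n) (F y s S R)).toReal ≤ C * (s / S) ^ (2 + c) * (S / R) ^ c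
  det : ∀ (X : Type) [Fintype X] (𝔅 : PvBulk X) (η : Conf PvPt) (ξ : X → Bool) (x y : ℂ) (s S R : ℝ), ‖y - x‖ ≤ 2 * R → 0 < s → s ≤ S → S ≤ R →
    𝔅.Adm (cfSites η) → 𝔅.Ok (cfSites η) (closedBall x (6 * R)) → ∀ P ∈ 𝔅.rimsAt (cfSites η) (𝔅.col η ξ) x R, PvbNearRet P y s S → η ∈ F y s S R

/-- the constant of the interface is nonnegative (or may be replaced by its positive part) -/
theorem pvxa_near_le {c : ℝ} (N : PvNearExit c) {c' : ℝ} (hc : c' ≤ c) (εs : ℕ → ℝ) (h0 : ∀ n, 0 < εs n) (hε : Tendsto εs atTop (𝓝 0))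
    (y : ℂ) (s S R : ℝ) (hs : 0 < s) (hsS : s ≤ S) (hSR : S ≤ R) :
    ∀ᶠ n in atTop, (pvP (εs n) (N.F y s S R)).toReal ≤ max N.C 1 * (s / S) ^ (2 + c') * (S / R) ^ c' := by
  have hS : 0 < S := lt_of_lt_of_le hs hsS
  have hR : 0 < R := lt_of_lt_of_le hS hSR
  filter_upwards [N.prob εs h0 hε y s S R hs hsS hSR] with n hn
  have h1 : (s / S) ^ (2 + c) ≤ (s / S) ^ (2 + c') := pvxa_rpow_le (by positivity) ((div_le_one hS).2 hsS) (by linarith)
  have h2 : (S / R) ^ c ≤ (S / R) ^ c' := pvxa_rpow_le (by positivity) ((div_le_one hR).2 hSR) hc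
  have p1 : 0 ≤ (s / S) ^ (2 + c) := by positivity
  have p2 : 0 ≤ (S / R) ^ c := by positivity
  have p3 : 0 ≤ (s / S) ^ (2 + c') := by positivity
  have hm : (0 : ℝ) ≤ max N.C 1 := le_trans zero_le_one (le_max_right _ _)
  calc _ ≤ N.C * (s / S) ^ (2 + c) * (S / R) ^ c := hn
    _ ≤ max N.C 1 * (s / S) ^ (2 + c) * (S / R) ^ c := by
        refine mul_le_mul_of_nonneg_right (mul_le_mul_of_nonneg_right (le_max_left _ _) p1) p2
    _ ≤ max N.C 1 * (s / S) ^ (2 + c') * (S / R) ^ c' := by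
        refine mul_le_mul (mul_le_mul_of_nonneg_left h1 hm) h2 p2 (mul_nonneg hm p3)

/-- **`arm2`** from the interface -/
theorem pvxa_arm2 {c : ℝ} (N : PvNearExit c) {c' : ℝ} (hc : c' ≤ c) (εs : ℕ → ℝ) (h0 : ∀ n, 0 < εs n) (hε : Tendsto εs atTop (𝓝 0))
    (X : Type) [Fintype X] (𝔅 : PvBulk X) (x : ℂ) (R : ℝ) (y : ℂ) (s S : ℝ) (hy : ‖y - x‖ ≤ 2 * R) (hs : 0 < s) (hsS : s ≤ S) (hSR : S ≤ R) :
    ∀ᶠ n in atTop, ((l9Up X (εs n)).P {w | ∃ P ∈ 𝔅.rims x R (l9Sm w), PvbNearRet P y s S}).toReal ≤ max N.C 1 * (s / S) ^ (2 + c') * (S / R) ^ c' := by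
  filter_upwards [pvxa_near_le N hc εs h0 hε y s S R hs hsS hSR] with n hn
  refine (pvxa_law_le_real X (εs n) (A := N.F y s S R) ?_).trans hn
  rintro o ⟨P, ⟨hAdm, hOk, hP⟩, hret⟩
  exact N.det X 𝔅 (pvConf (l9Sm o).1) (l9Sm o).2 x y s S R hy hs hsS hSR hAdm hOk P hP hret

/-! ## 5. the exit -/

/-- **EXIT**, all small exponents at once -/
theorem exit_pv_arm {c₀ : ℝ} (hc₀ : 0 < c₀) (N : PvNearExit c₀) : ∃ c : ℝ, 0 < c ∧ ∀ c' : ℝ, 0 < c' → c' ≤ c → L9ExitArm c' := by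
  obtain ⟨C, a, hC, ha, h1⟩ := pvxa_arm1
  refine ⟨min a c₀, lt_min ha hc₀, ?_⟩
  intro c' hc' hle εs h0 hε X _ 𝔅 x R hR
  have hm : (0 : ℝ) ≤ max N.C 1 := le_trans zero_le_one (le_max_right _ _)
  refine ⟨⟨max C (25 * max (max N.C 1) 0), ?_, ?_⟩⟩
  · intro y s hy hs
    filter_upwards [h1 c' hc' (hle.trans (min_le_left _ _)) εs h0 hε X 𝔅 x R hR y s hy hs] with n hn
    refine hn.trans (mul_le_mul_of_nonneg_right (le_max_left _ _) (by positivity))
  · intro t s S B ht hts _ hsS hSR hB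
    exact pvb_arm2_of_pt_le (Pr := fun n => l9Up X (εs n)) (rims := fun _ w => 𝔅.rims x R (l9Sm w)) (le_max_right _ _)
      (fun y s S hy hs hsS hSR => pvxa_arm2 N (hle.trans (min_le_right _ _)) εs h0 hε X 𝔅 x R y s S hy hs hsS hSR) t s S B ht hts hsS hSR hB

/-! The node `exit_pv_near` is gone (146, 09:42Z): `Arm/Top.lean` (186) imports this file and proves `armt_near : ∃ c > 0, Nonempty (PvNearExit c)`; `Exit/Transport.lean` feeds it to `exit_pv_arm`. -/

end Claimed.Agent.R289
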