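import Claimed.Agent.R289.Exit.Arm1
import Claimed.Agent.R289.Cr.Inst
import Claimed.Agent.R289.Cr.All
import Claimed.Agent.R289.Defs.Up

/-!
# Row 289 (S0537), Exit/Arm1Rim : E2 = ONE ARM FOR THE REACHING RIMS OF A BULK FAMILY      (helper262; unit RSW / ARM; prefix `pvr1_`)      0 sorry

The field `arm1` of `L9Arm` (`Cr/Inst.lean`, 161).
* `pvr1_det`       deterministic: `𝔅.Ok (cfSites η) (closedBall x 6R)`, `c.IsRim (𝔅.col η ξ)`, cut vertex outside `B(x,4R)`, the encoded rim visits `B(y,s)`, `‖y - x‖ ≤ 2R`, `s ≤ R`   ⟹   `∃ b, PvArm1 η b y s R`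
                   (walk backwards along the rim from the visit: as long as the vertex is in `ball y R` it is a site in `closedBall x 6R`, its predecessor is a Delaunay neighbour by `Ok.del`, of the same colour by `pl_rim_col`)
* `pvr1_sub`       the event of E2 is contained in a `𝔅`-FREE event `(arm black ∪ arm white) ×ˢ univ`
* `pvr1_arm1_eps`  `∃ C ≥ 1, c > 0, ∀ c' ∈ (0,c], ∀ ε ≤ s :  (l9Up X ε).P {w | ∃ P ∈ 𝔅.rims x R (l9Sm w), PvbVisits P y s} ≤ C (s/R)^c'`      (two-level upper probability of `Cr/Inst`, no limsup)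
* `pvr1_arm1`      the literal field `arm1` (`∀ᶠ n`, `toReal`).
* `pvr1_subA`, `pvr1_arm1A_eps`, `pvr1_arm1A`      (helper149, order of 115) the same in the FAMILY-FREE form of `Cr/All.lean`: the literal field `arm1` of `L9ArmA` (rims `l9All`, outer measure of the plain sample).
-/

set_option autoImplicit false

namespace Claimed.Agent.R289

open MeasureTheory ProbabilityTheory Set Filter Topology Metric
open scoped ENNReal NNReal
open Claims.C0465

/-- a site of colour `cfCol η a` -/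
theorem pvr1_col_mem {η : Conf PvPt} {a : ℂ} (ha : a ∈ cfSites η) : (a, cfCol η a) ∈ η.pts := by
  classical
  unfold cfCol
  by_cases h : (a, true) ∈ η.pts
  · simp [h]
  · obtain ⟨⟨a', b⟩, hp, rfl⟩ := ha
    cases b
    · simpa [h] using hp
    · exact absurd hp h

/-- **deterministic half of E2**: a rim cut outside `B(x,4R)` which visits `B(y,s)` contains a monochromatic vertex arm from `B(y,s)` to distance `R` -/
theorem pvr1_det {X : Type} (𝔅 : PvBulk X) {η : Conf PvPt} {ξ : X → Bool} {x y : ℂ} {R s : ℝ} (hR : 0 < R) (hy : ‖y - x‖ ≤ 2 * R) (hs : s ≤ R)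
    (hOk : 𝔅.Ok (cfSites η) (closedBall x (6 * R))) {c : (𝔅.T (cfSites η)).Cyc} (hrim : c.IsRim (𝔅.col η ξ))
    (hfar : 4 * R ≤ ‖𝔅.posF (cfSites η) (x + 7 * R) ((𝔅.T (cfSites η)).src (c.e 0)) - x‖)
    (hv : PvbVisits (𝔅.enc (cfSites η) (x + 7 * R) c) y s) : ∃ b, PvArm1 η b y s R := by
  set zi : ℂ := x + 7 * R with hzi
  set pos : ℕ → ℂ := fun k => 𝔅.posF (cfSites η) zi ((𝔅.T (cfSites η)).src (c.e k)) with hpos
  set b0 : Bool := 𝔅.col η ξ ((𝔅.T (cfSites η)).src (c.e 0)) with hb0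
  obtain ⟨k, -, hk⟩ := hv
  have hk' : ‖pos k - y‖ ≤ s := hk
  -- a rim vertex near `y` is a site of colour `b0`
  have hsite : ∀ i, ‖pos i - y‖ < 5 * R → 𝔅.lab (cfSites η) ((𝔅.T (cfSites η)).src (c.e i)) = Sum.inl (pos i) ∧ (pos i, b0) ∈ η.pts := by
    intro i hi
    rcases hl : 𝔅.lab (cfSites η) ((𝔅.T (cfSites η)).src (c.e i)) with a | e
    · have hp : pos i = a := by simp only [hpos, PvBulk.posF, hl, Sum.elim_inl, id]
      rw [hp]
      refine ⟨rfl, ?_⟩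
      have hcol : 𝔅.col η ξ ((𝔅.T (cfSites η)).src (c.e i)) = cfCol η a := by
        show Sum.elim (cfCol η) ξ (𝔅.lab (cfSites η) ((𝔅.T (cfSites η)).src (c.e i))) = cfCol η a
        rw [hl]; rfl
      have h1 : b0 = cfCol η a := by rw [hb0, ← hcol]; exact pl_rim_col hrim 0 i
      rw [h1]
      exact pvr1_col_mem (hOk.site _ _ hl)
    · exfalso
      have hp : pos i = zi := by simp only [hpos, PvBulk.posF, hl, Sum.elim_inr]
      rw [hp, hzi] at hi
      have h1 : ‖(7 * R : ℂ)‖ = 7 * R := by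
        rw [show (7 * R : ℂ) = ((7 * R : ℝ) : ℂ) by push_cast; ring, Complex.norm_real, Real.norm_eq_abs, abs_of_pos (by positivity)]
      have h2 : ‖(7 * R : ℂ)‖ ≤ ‖x + 7 * R - y‖ + ‖y - x‖ := by
        have := norm_add_le (x + 7 * R - y) (y - x)
        have e : x + 7 * R - y + (y - x) = 7 * R := by ring
        rwa [e] at this
      linarith
  have hu := hsite k (by linarith)
  -- the walk backwards along the rim
  have walk : ∀ m, m ≤ k → (∃ v, R ≤ ‖v - y‖ ∧ Relation.ReflTransGen (fun p q => (q, b0) ∈ η.pts ∧ (cfCell η p ∩ cfCell η q).Nonempty) (pos k) v) ∨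
      (‖pos (k - m) - y‖ < R ∧ Relation.ReflTransGen (fun p q => (q, b0) ∈ η.pts ∧ (cfCell η p ∩ cfCell η q).Nonempty) (pos k) (pos (k - m))) := by
    intro m
    induction m with
    | zero =>
      intro _
      rcases lt_or_ge ‖pos k - y‖ R with h | h
      · exact Or.inr ⟨h, Relation.ReflTransGen.refl⟩
      · exact Or.inl ⟨pos k, h, Relation.ReflTransGen.refl⟩
    | succ m ih =>
      intro hm
      rcases ih (by omega) with h | ⟨h1, h2⟩
      · exact Or.inl h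
      · obtain ⟨j, hj⟩ : ∃ j, k - m = j + 1 := ⟨k - m - 1, by omega⟩
        have hj' : k - (m + 1) = j := by omega
        rw [hj] at h1 h2
        rw [hj']
        have hl := (hsite (j + 1) (by linarith)).1
        have hK : pos (j + 1) ∈ closedBall x (6 * R) := by
          rw [mem_closedBall, dist_eq_norm]
          have := norm_add_le (pos (j + 1) - y) (y - x)
          have e : pos (j + 1) - y + (y - x) = pos (j + 1) - x := by ring
          rw [e] at this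
          linarith
        have hsrc : (𝔅.T (cfSites η)).src ((𝔅.T (cfSites η)).opp (c.e j)) = (𝔅.T (cfSites η)).src (c.e (j + 1)) := by
          rw [(𝔅.T (cfSites η)).src_opp]; exact c.chain j
        have htgt : (𝔅.T (cfSites η)).tgt ((𝔅.T (cfSites η)).opp (c.e j)) = (𝔅.T (cfSites η)).src (c.e j) := by
          show (𝔅.T (cfSites η)).src ((𝔅.T (cfSites η)).nxt ((𝔅.T (cfSites η)).opp (c.e j))) = _
          rw [← (𝔅.T (cfSites η)).src_opp, (𝔅.T (cfSites η)).opp_opp]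
        obtain ⟨b, c', hb, -, hD⟩ := hOk.del ((𝔅.T (cfSites η)).opp (c.e j)) (pos (j + 1)) (by rw [hsrc]; exact hl) hK
        rw [htgt] at hb
        have hpj : pos j = b := by simp only [hpos, PvBulk.posF, hb, Sum.elim_inl, id]
        have hcolj : (pos j, b0) ∈ η.pts := by
          have hcol : 𝔅.col η ξ ((𝔅.T (cfSites η)).src (c.e j)) = cfCol η b := by
            show Sum.elim (cfCol η) ξ (𝔅.lab (cfSites η) ((𝔅.T (cfSites η)).src (c.e j))) = cfCol η b
            rw [hb]; rfl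
          have h3 : b0 = cfCol η b := by rw [hb0, ← hcol]; exact pl_rim_col hrim 0 j
          rw [hpj, h3]
          exact pvr1_col_mem hD.2.1
        have htouch : (cfCell η (pos (j + 1)) ∩ cfCell η (pos j)).Nonempty := by
          obtain ⟨w, ⟨hw1, hw2⟩, -⟩ := hD.2.2.2.2
          rw [cfCell_eq_vor, cfCell_eq_vor, hpj]
          exact ⟨w, hw1, hw2⟩
        have h3 := h2.tail ⟨hcolj, htouch⟩
        rcases lt_or_ge ‖pos j - y‖ R with h | h
        · exact Or.inr ⟨h, h3⟩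
        · exact Or.inl ⟨pos j, h, h3⟩
  rcases walk k le_rfl with ⟨v, hv1, hv2⟩ | ⟨h1, -⟩
  · exact ⟨b0, pos k, v, hk', hv1, hu.2, hv2⟩
  · exfalso
    rw [Nat.sub_self] at h1
    have := norm_add_le (pos 0 - y) (y - x)
    have e : pos 0 - y + (y - x) = pos 0 - x := by ring
    rw [e] at this
    have h4 : 4 * R ≤ ‖pos 0 - x‖ := hfar
    linarith

/-- the event of E2 is contained in the union of the two vertex arm events (a `𝔅`-free event) -/
theorem pvr1_sub {X : Type} (𝔅 : PvBulk X) {x y : ℂ} {R s : ℝ} (hR : 0 < R) (hy : ‖y - x‖ ≤ 2 * R) (hs : s ≤ R) :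
    {o : PVSample × (X → Bool) | ∃ P ∈ 𝔅.rims x R o, PvbVisits P y s} ⊆
      ({ω | PvArm1 (pvConf ω) true y s R} ∪ {ω | PvArm1 (pvConf ω) false y s R}) ×ˢ (univ : Set (X → Bool)) := by
  rintro o ⟨P, ⟨-, hOk, c, hrim, hfar, rfl⟩, hv⟩
  refine ⟨?_, mem_univ _⟩
  obtain ⟨b, hb⟩ := pvr1_det 𝔅 hR hy hs hOk hrim hfar hv
  cases b
  · exact Or.inr hb
  · exact Or.inl hb

/-- **E2 (one arm for the reaching rims)**, uniform in the mesh `ε ≤ s`, every exponent `c' ≤ c` -/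
theorem pvr1_arm1_eps : ∃ C c : ℝ, 1 ≤ C ∧ 0 < c ∧ ∀ c' : ℝ, 0 < c' → c' ≤ c → ∀ (ε : ℝ) (X : Type) [Fintype X] (𝔅 : PvBulk X) (x : ℂ) (R : ℝ), 0 < ε → 0 < R →
    ∀ (y : ℂ) (s : ℝ), ‖y - x‖ ≤ 2 * R → ε ≤ s → (l9Up X ε).P {w | ∃ P ∈ 𝔅.rims x R (l9Sm w), PvbVisits P y s} ≤ ENNReal.ofReal (C * (s / R) ^ c') := by
  obtain ⟨C, c, hC, hc, h⟩ := exit_pv_arm1
  refine ⟨max 1 (2 * C), c, le_max_left _ _, hc, fun c' hc' hcc ε X _ 𝔅 x R hε hR y s hy hn => ?_⟩
  have hs : 0 < s := lt_of_lt_of_le hε hn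
  rcases le_or_gt s R with hsR | hsR
  · have h1 : (l9Up X ε).P {w | ∃ P ∈ 𝔅.rims x R (l9Sm w), PvbVisits P y s} ≤
        pvLaw ε ({ω | PvArm1 (pvConf ω) true y s R} ∪ {ω | PvArm1 (pvConf ω) false y s R}) :=
      ((l9Up X ε).P_mono fun w hw => (pvr1_sub 𝔅 hR hy hsR (a := l9Sm w) hw).1).trans (l9_up_le X ε _)
    have h3 := (measure_union_le (μ := pvLaw ε) {ω | PvArm1 (pvConf ω) true y s R} {ω | PvArm1 (pvConf ω) false y s R}).trans
      (add_le_add (h ε s R y true hε hn hsR) (h ε s R y false hε hn hsR))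
    rw [← ENNReal.ofReal_add (by positivity) (by positivity)] at h3
    refine (h1.trans h3).trans (ENNReal.ofReal_le_ofReal ?_)
    have h5 : (s / R) ^ c ≤ (s / R) ^ c' := Real.rpow_le_rpow_of_exponent_ge (by positivity) (by rw [div_le_one hR]; exact hsR) hcc
    have h6 : 0 ≤ (s / R) ^ c' := by positivity
    have h7 : 2 * C ≤ max 1 (2 * C) := le_max_right _ _
    calc C * (s / R) ^ c + C * (s / R) ^ c = 2 * C * (s / R) ^ c := by ring
      _ ≤ 2 * C * (s / R) ^ c' := mul_le_mul_of_nonneg_left h5 (by positivity)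
      _ ≤ _ := mul_le_mul_of_nonneg_right h7 h6
  · have h2 : (1 : ℝ) ≤ (s / R) ^ c' := Real.one_le_rpow (by rw [le_div_iff₀ hR]; linarith) hc'.le
    have h3 : (1 : ℝ) ≤ max 1 (2 * C) := le_max_left _ _
    calc (l9Up X ε).P {w | ∃ P ∈ 𝔅.rims x R (l9Sm w), PvbVisits P y s} ≤ 1 := PvUp.P_le_one _ _
      _ = ENNReal.ofReal 1 := ENNReal.ofReal_one.symm
      _ ≤ _ := ENNReal.ofReal_le_ofReal (by nlinarith)

/-- the literal field `arm1` of `L9Arm` -/
theorem pvr1_arm1 : ∃ C c : ℝ, 1 ≤ C ∧ 0 < c ∧ ∀ c' : ℝ, 0 < c' → c' ≤ c → ∀ εs : ℕ → ℝ, (∀ n, 0 < εs n) → Tendsto εs atTop (𝓝 0) →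
    ∀ (X : Type) [Fintype X] (𝔅 : PvBulk X) (x : ℂ) (R : ℝ), 0 < R → ∀ (y : ℂ) (s : ℝ), ‖y - x‖ ≤ 2 * R → 0 < s →
      ∀ᶠ n in atTop, ((l9Up X (εs n)).P {w | ∃ P ∈ 𝔅.rims x R (l9Sm w), PvbVisits P y s}).toReal ≤ C * (s / R) ^ c' := by
  obtain ⟨C, c, hC, hc, h⟩ := pvr1_arm1_eps
  refine ⟨C, c, hC, hc, fun c' hc' hcc εs h0 hε X _ 𝔅 x R hR y s hy hs => ?_⟩
  have hev : ∀ᶠ n in atTop, εs n ≤ s := (hε.eventually (gt_mem_nhds hs)).mono fun n hn => le_of_lt hn
  filter_upwards [hev] with n hn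
  have h1 := ENNReal.toReal_mono ENNReal.ofReal_ne_top (h c' hc' hcc (εs n) X 𝔅 x R (h0 n) hR y s hy hn)
  rwa [ENNReal.toReal_ofReal (by positivity)] at h1

/-! ## family-free form (`Cr/All.lean` of helper115)      (helper149) -/

/-- the family-free event of E2 is contained in the union of the two vertex arm events -/
theorem pvr1_subA {x y : ℂ} {R s : ℝ} (hR : 0 < R) (hy : ‖y - x‖ ≤ 2 * R) (hs : s ≤ R) :
    {o : PVSample | ∃ P ∈ l9All x R o, PvbVisits P y s} ⊆ {ω | PvArm1 (pvConf ω) true y s R} ∪ {ω | PvArm1 (pvConf ω) false y s R} := by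
  rintro o ⟨P, hP, hv⟩
  obtain ⟨X, _, 𝔅, ξ, -, hOk, c, hrim, hfar, rfl⟩ := l9a_mem hP
  obtain ⟨b, hb⟩ := pvr1_det 𝔅 hR hy hs hOk hrim hfar hv
  cases b
  · exact Or.inr hb
  · exact Or.inl hb

/-- **E2, family-free form**, uniform in the mesh `ε ≤ s`, every exponent `c' ≤ c` (outer measure of the plain sample) -/
theorem pvr1_arm1A_eps : ∃ C c : ℝ, 1 ≤ C ∧ 0 < c ∧ ∀ c' : ℝ, 0 < c' → c' ≤ c → ∀ (ε : ℝ) (x : ℂ) (R : ℝ), 0 < ε → 0 < R →
    ∀ (y : ℂ) (s : ℝ), ‖y - x‖ ≤ 2 * R → ε ≤ s → pvLaw ε {o | ∃ P ∈ l9All x R o, PvbVisits P y s} ≤ ENNReal.ofReal (C * (s / R) ^ c') := by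
  obtain ⟨C, c, hC, hc, h⟩ := exit_pv_arm1
  refine ⟨max 1 (2 * C), c, le_max_left _ _, hc, fun c' hc' hcc ε x R hε hR y s hy hn => ?_⟩
  have hs : 0 < s := lt_of_lt_of_le hε hn
  rcases le_or_gt s R with hsR | hsR
  · have h1 := measure_mono (μ := pvLaw ε) (pvr1_subA (x := x) hR hy hsR)
    have h3 := (measure_union_le (μ := pvLaw ε) {ω | PvArm1 (pvConf ω) true y s R} {ω | PvArm1 (pvConf ω) false y s R}).trans
      (add_le_add (h ε s R y true hε hn hsR) (h ε s R y false hε hn hsR))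
    rw [← ENNReal.ofReal_add (by positivity) (by positivity)] at h3
    refine (h1.trans h3).trans (ENNReal.ofReal_le_ofReal ?_)
    have h5 : (s / R) ^ c ≤ (s / R) ^ c' := Real.rpow_le_rpow_of_exponent_ge (by positivity) (by rw [div_le_one hR]; exact hsR) hcc
    have h6 : 0 ≤ (s / R) ^ c' := by positivity
    have h7 : 2 * C ≤ max 1 (2 * C) := le_max_right _ _
    calc C * (s / R) ^ c + C * (s / R) ^ c = 2 * C * (s / R) ^ c := by ring
      _ ≤ 2 * C * (s / R) ^ c' := mul_le_mul_of_nonneg_left h5 (by positivity)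
      _ ≤ _ := mul_le_mul_of_nonneg_right h7 h6
  · have h2 : (1 : ℝ) ≤ (s / R) ^ c' := Real.one_le_rpow (by rw [le_div_iff₀ hR]; linarith) hc'.le
    have h3 : (1 : ℝ) ≤ max 1 (2 * C) := le_max_left _ _
    calc pvLaw ε {o | ∃ P ∈ l9All x R o, PvbVisits P y s} ≤ 1 := prob_le_one
      _ = ENNReal.ofReal 1 := ENNReal.ofReal_one.symm
      _ ≤ _ := ENNReal.ofReal_le_ofReal (by nlinarith)

/-- the literal field `arm1` of `L9ArmA` (`Cr/All.lean`, 115) -/
theorem pvr1_arm1A : ∃ C c : ℝ, 1 ≤ C ∧ 0 < c ∧ ∀ c' : ℝ, 0 < c' → c' ≤ c → ∀ εs : ℕ → ℝ, (∀ n, 0 < εs n) → Tendsto εs atTop (𝓝 0) →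
    ∀ (x : ℂ) (R : ℝ), 0 < R → ∀ (y : ℂ) (s : ℝ), ‖y - x‖ ≤ 2 * R → 0 < s →
      ∀ᶠ n in atTop, (pvLaw (εs n) {o | ∃ P ∈ l9All x R o, PvbVisits P y s}).toReal ≤ C * (s / R) ^ c' := by
  obtain ⟨C, c, hC, hc, h⟩ := pvr1_arm1A_eps
  refine ⟨C, c, hC, hc, fun c' hc' hcc εs h0 hε x R hR y s hy hs => ?_⟩
  have hev : ∀ᶠ n in atTop, εs n ≤ s := (hε.eventually (gt_mem_nhds hs)).mono fun n hn => le_of_lt hn
  filter_upwards [hev] with n hn
  have h1 := ENNReal.toReal_mono ENNReal.ofReal_ne_top (h c' hc' hcc (εs n) x R (h0 n) hR y s hy hn)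
  rwa [ENNReal.toReal_ofReal (by positivity)] at h1

end Claimed.Agent.R289
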