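import Claimed.Agent.R289.Qbx.Blocks
import Claimed.Agent.R289.Qbx.Dom
import Claimed.Agent.R289.Qbx.RepK
import Claimed.Agent.R289.Qbx.Link
import Claimed.Agent.R289.Qbx.Exit
import Claimed.Agent.R289.Arm.BxpPv

/-!
# Row 289 (S0537), Exit/Qbx : THE UNCONDITIONAL EXIT OF THE BOX QBX (quenched blocking in square annuli)      (wired by helper167; head of the box helper30; prefix `pvqzz`)

0 sorry, axioms = the standard three.      ROAD A: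
* `pvqzz_rev : PvqmRev (pvqcO 0) (pvqcF 0)`      = `pvqz_Rev` (167, Qbx/Blocks: numbers) + `pvqo_Dom : PvqzDom 5` (103 / 96, Qbx/Dom: SS1 + E1 E2 E3 of 30's Qbx/ExplM) + `pvqz_main : PvqmRepK` (233, Qbx/RepK);
* **`pvqzz_exit_Qc`**, `pvqzz_exit_unif`, `pvqzz_exit`      = the exits of 298 (Qbx/Exit) without hypotheses (`pvqn_lay : PvqmLay` of 248, Qbx/Link).
CONSUMERS: ARM (196: `PvaxQbx q` = `pvqzz_exit_Qc` after `cases b`), EXT, TR21 / TR22.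
-/

set_option autoImplicit false

namespace Claimed.Agent.R289

open MeasureTheory ProbabilityTheory Set Filter Topology
open scoped ENNReal NNReal

/-- **[REV]**, unconditional -/
theorem pvqzz_rev : PvqmRev (fun u => pvqcO 0 u) (fun u => pvqcF 0 u) := pvqz_Rev pvqz_main (by norm_num) (pvqo_Dom pvqz_main)

/-- **STAGE 1**, unconditional: the variance of the quenched blocking probability tends to `0` -/
theorem pvqzz_stage1 : ∀ e : ℝ, 0 < e → ∃ u1 : ℝ, ∀ u, u1 ≤ u → pvqmV (pvqcO 0 u) (pvqcF 0 u) 1 ≤ e :=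
  pvqm_stage1 pvqn_lay (fun _ hu => pvqc_win 0 hu) (fun u _ => pvqc_test 0 u) pvqzz_rev

/-- **THE EXIT OF QBX** in the vocabulary of 261 (`pvGeo`, `pvQc`) = `PvaxQbx q` of 196 after `cases b` -/
theorem pvqzz_exit_Qc : ∃ q : ℝ, 0 < q ∧ ∀ (z : ℂ) (u : ℝ), 0 < u →
    Tendsto (fun ε : ℝ => pvGeo ε {g | pvQc {η | ¬ (rswArm z.re z.im (u / 2) (5 * u / 2)).Holds (cfB η)} g < ENNReal.ofReal q}) (𝓝[>] 0) (𝓝 0) ∧
    Tendsto (fun ε : ℝ => pvGeo ε {g | pvQc {η | ¬ (rswArm z.re z.im (u / 2) (5 * u / 2)).Holds (cfW η)} g < ENNReal.ofReal q}) (𝓝[>] 0) (𝓝 0) :=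
  pvqx_exit_Qc_main pvqn_lay pvqzz_rev

/-- **THE EXIT OF QBX**, uniform form: the bad geometry set has probability `≤ δ` as soon as `scale ≥ U(δ) · mesh`, uniformly in the centre -/
theorem pvqzz_exit_unif : ∃ q : ℝ, 0 < q ∧ ∀ δ : ℝ, 0 < δ → ∃ U : ℝ, 0 < U ∧ ∀ ε : ℝ, 0 < ε → ∀ u : ℝ, U * ε ≤ u → ∀ z : ℂ,
    pvGeo ε {g | pvQc {η | ¬ (rswArm z.re z.im (u / 2) (5 * u / 2)).Holds (cfB η)} g < ENNReal.ofReal q} ≤ ENNReal.ofReal δ ∧
    pvGeo ε {g | pvQc {η | ¬ (rswArm z.re z.im (u / 2) (5 * u / 2)).Holds (cfW η)} g < ENNReal.ofReal q} ≤ ENNReal.ofReal δ :=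
  pvqx_exit_unif pvqzz_stage1

/-- **THE EXIT OF QBX** in the vocabulary of 268 (`pvfBaseLaw`, `colLaw`, `pvfGlue`) -/
theorem pvqzz_exit : ∃ q : ℝ, 0 < q ∧ ∀ (z : ℂ) (u : ℝ), 0 < u →
    Tendsto (fun ε => pvfBaseLaw ε {g | colLaw PvfIx {s | ¬ (rswArm z.re z.im (u / 2) (5 * u / 2)).Holds (cfB (pvConf (pvfGlue (g, s))))} < ENNReal.ofReal q})
      (𝓝[>] 0) (𝓝 0) ∧
    Tendsto (fun ε => pvfBaseLaw ε {g | colLaw PvfIx {s | ¬ (rswArm z.re z.im (u / 2) (5 * u / 2)).Holds (cfW (pvConf (pvfGlue (g, s))))} < ENNReal.ofReal q})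
      (𝓝[>] 0) (𝓝 0) :=
  pvqx_exit_main pvqn_lay pvqzz_rev

/-! ## the same under the names `exit_pv_qbx*` (helper277, owner of Qbx/Main), and the form `PvaxQbx` frozen by the consumer 196 -/

/-- the contract [LAY] -/
theorem exit_pv_qbx_lay : PvqmLay := pvqn_lay

/-- the contract [REP] -/
theorem exit_pv_qbx_repK : PvqmRepK := pvqn_repK

/-- the contract [REV] = (H2) for the blocking family of 167 centred at `0` (road A) -/
theorem exit_pv_qbx_rev : PvqmRev (fun u => pvqcO 0 u) (fun u => pvqcF 0 u) :=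
  pvqz_Rev pvqn_repK (by norm_num) (pvqo_Dom pvqn_repK)

/-- **STAGE 1** -/
theorem exit_pv_qbx_s1 : PvqxS1 :=
  pvqm_stage1 exit_pv_qbx_lay (fun _ hu => pvqc_win 0 hu) (fun u _ => pvqc_test 0 u) exit_pv_qbx_rev

/-- the exit in the vocabulary of 261 -/
theorem exit_pv_qbx_Qc : ∃ q : ℝ, 0 < q ∧ ∀ (z : ℂ) (u : ℝ), 0 < u →
    Tendsto (fun ε : ℝ => pvGeo ε {g | pvQc {η | ¬ (rswArm z.re z.im (u / 2) (5 * u / 2)).Holds (cfB η)} g < ENNReal.ofReal q}) (𝓝[>] 0) (𝓝 0) ∧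
    Tendsto (fun ε : ℝ => pvGeo ε {g | pvQc {η | ¬ (rswArm z.re z.im (u / 2) (5 * u / 2)).Holds (cfW η)} g < ENNReal.ofReal q}) (𝓝[>] 0) (𝓝 0) :=
  pvqx_exit_Qc exit_pv_qbx_s1

/-- **THE EXIT OF QBX** in the form frozen by the consumer (196, `Arm/BxpPv.lean`) -/
theorem exit_pv_qbx : ∃ q : ℝ, 0 < q ∧ PvaxQbx q := by
  obtain ⟨q, hq, h⟩ := exit_pv_qbx_Qc
  refine ⟨q, hq, fun z u b hu => ?_⟩
  cases b
  · exact (h z u hu).2
  · exact (h z u hu).1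

/-- the exit, uniform in the centre and in the scale -/
theorem exit_pv_qbx_unif : ∃ q : ℝ, 0 < q ∧ ∀ δ : ℝ, 0 < δ → ∃ U : ℝ, 0 < U ∧ ∀ ε : ℝ, 0 < ε → ∀ u : ℝ, U * ε ≤ u → ∀ z : ℂ,
    pvGeo ε {g | pvQc {η | ¬ (rswArm z.re z.im (u / 2) (5 * u / 2)).Holds (cfB η)} g < ENNReal.ofReal q} ≤ ENNReal.ofReal δ ∧
    pvGeo ε {g | pvQc {η | ¬ (rswArm z.re z.im (u / 2) (5 * u / 2)).Holds (cfW η)} g < ENNReal.ofReal q} ≤ ENNReal.ofReal δ :=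
  pvqx_exit_unif exit_pv_qbx_s1

end Claimed.Agent.R289
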