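import Claimed.Agent.R289.Tr.Dense
import Claimed.Agent.R289.Tr.DiA
import Claimed.Agent.R289.Defs.TrModel
import Claimed.Agent.R289.Arm.AdaptAB

/-!
# Row 289 (S0537), THE WALL, roof PINS (12, `Exit/Pins.lean`), sub-exit (X2) : A6 = GATE DENSITY IN THE `A'`-FORM      (helper200 with helper281; prefix `pvx2_`, `PvX2`, `pvx2`)

Text of record: `origin/helper281:notes/R289/A6_281.md` (THEOREM A6), ruling of 281 (TOP = DENSE of 101 on the PIECES + split), text of 12 (X2).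
**STATEMENT OF RECORD** `pvx2_main` (`pvx2_a6` = the same in the unfolded vocabulary of `exit_pins_a6`, `Exit/Pins.lean`):   for all `a0 S g Cw` there are `g` FIXED annuli `a j < b j` (units of `h`), a block side `L`, a threshold `ζ > 0` such that
for all scales `h m ↓ 0`, `r m ≥ (h m)^(1-κ)`, ANY flags `Fl m ε p` (they MAY DEPEND ON `ε`: road P, annealed propensities; ARBITRARY events of the marked PPP read from the `h`-boxes at sup-distance `≤ w ≤ Cw L` of the box `p`, of probability `≤ ζ` in the ordered limit, uniformly over the centres of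
`clB(x,6R)`), all balls: `PvX2 g a b h r Fl x R`, i.e. in the ordered limit, upper probability `pvhbUp ε` `→ 1`:
every arc inside `clB(x,2R)` with end points at distance `≥ r_m` of every rim of every completion (`pvhbAll`) has a vertex `k` and a grid point `z`, `|P.v k - z| ≤ h`, `PvdaGate` (212, plane, family free) in the `g` annuli at `z`
for the colour of the rim, `z` NOT flagged.
* sec. 1  `pvx2_dense_prob`, `pvx2_dense_ord` : DENSE of 101 over UPPER EXPECTATIONS (rims may depend on the level)                                   PROVED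
* sec. 2  `pvx2_first_exit`, **`pvx2_di_flag`** (FLAGS ARE STATIC: they are added to the static bad blocks by the glue; A6 itself never sees a flag), `pvx2FB`, `pvx2_fb_reads`, `pvx2_fb_le`      PROVED
* sec. 3  `PvX2At` (place), `pvx2Pl`, `pvx2PlF`, `PvX2`
* sec. 4  `PvX2Glob` (constants + static bad block at unit scale), `PvX2Loc` (pieces, adaptive bad blocks, exceptional events: `Ex_ord AB_ord split mesh di`), **`PvX2Loc.x2`** : the glue      PROVED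
* sec. 5  THE MODEL (total Delaunay plane `pvx2T Y`, shape of `pvaa_hab_rims` of 237): `pvx2Sub`, `PvX2Car`, `PvX2Mac`, `PvX2Few`, `PvX2Fr` (frame events of ONE PATCH), `PvX2Ad` (selection, numbers), `PvX2Fr.pc` (PIECES = arcs of ACTUAL rims carried by one chord), `PvX2Pat` (finite family of patches: defect of 75),
          `PvX2Ad.AB` (`pvaaAB` of 237), `PvX2Ad.AB_ord` PROVED.      LEAVES (B) SPLIT, (C) COUNT, (D) DI PACKAGE + ASSEMBLY + `pvx2_main`, `pvx2_a6`: `Exit/PinsA6X.lean`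
-/

set_option autoImplicit false

namespace Claimed.Agent.R289

open MeasureTheory Filter Topology Set Claims.C0465
open scoped ENNReal

/-! ## 1. DENSE (101, `Tr/Dense.lean` sec. 7-8) over upper expectations -/

section up

variable {Ω τ ι : Type}

/-- `pvtd_dense_prob` for an upper expectation -/
theorem pvx2_dense_prob (U : PvUp Ω) {cf : Ω → Conf PvPt} {ε : ℝ} (hlaw : ∀ A, U.P (cf ⁻¹' A) ≤ pvP ε A) (rims : Ω → Set PvbRim)
    (pins : Ω → PvbRim → Set (PvbPin τ)) {ℓ r R : ℝ} {x : ℂ} (hℓ : 0 < ℓ) (k a a' : ℕ)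
    (SB : ℤ × ℤ → Set (Conf PvPt)) (AB : Ω → PvbRim → ℤ × ℤ → Prop) (Start : Finset (ℤ × ℤ)) (Ex : Set Ω)
    (hSr : ∀ b ∈ pvtdReach Start k, Conf.ReadsSet (pvtdWin ℓ a' b) (SB b)) (hSq : ∀ b ∈ pvtdReach Start k, pvP ε (SB b) ≤ pvtdQ a')
    (hmesh : ∀ o ∉ Ex, ∀ P ∈ rims o, ∀ t < P.len, ‖P.v t - x‖ ≤ 2 * R → ‖P.v (t + 1) - P.v t‖ ≤ ℓ)
    (hDI : ∀ o ∉ Ex, ∀ P ∈ rims o, PvtdDI ℓ a x R P (pins o P) (fun b => cf o ∈ SB b) (AB o P))
    (hr : (((k + a : ℕ) : ℝ) + 1) * (2 * ℓ) ≤ r) (hStart : ∀ w : ℂ, ‖w - x‖ ≤ 2 * R → pv5Blk ℓ w ∈ Start) :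
    U.P {o | ¬ ∀ P ∈ rims o, PvtdDense x R r P (pins o P)} ≤
      U.P Ex + Start.card * (pvtdC a' * (2⁻¹ : ℝ≥0∞) ^ k) + U.P {o | ∃ P ∈ rims o, PvtdHalf Start k (AB o P)} := by
  let _ : MeasurableSpace Ω := ⊤
  refine (U.P_mono (pvtd_dense_sub cf rims pins hℓ k a SB AB Start Ex hmesh hDI hr hStart)).trans ?_
  refine (U.P_union_le _ _).trans (add_le_add ((U.P_union_le _ _).trans (add_le_add le_rfl ?_)) le_rfl)
  exact (hlaw _).trans (pvtd_peierls_half (pv_isPpp ε) ℓ a' SB Start k hSr hSq)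

/-- **`pvtd_dense_ord` for upper expectations** -/
theorem pvx2_dense_ord (l : Filter ι) (Pr : ι → PvUp Ω) {cf : Ω → Conf PvPt} (εs : ι → ℝ)
    (hlaw : ∀ i A, (Pr i).P (cf ⁻¹' A) ≤ pvP (εs i) A) (rims : ℕ → ι → Ω → Set PvbRim) (pins : ℕ → ι → Ω → PvbRim → Set (PvbPin τ)) (ℓ r : ℕ → ℝ) {R : ℝ} {x : ℂ}
    (k : ℕ → ℕ) (a a' : ℕ) (SB : ℕ → ι → ℤ × ℤ → Set (Conf PvPt)) (AB : ℕ → ι → Ω → PvbRim → ℤ × ℤ → Prop) (Start : ℕ → Finset (ℤ × ℤ)) (Ex : ℕ → ι → Set Ω)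
    (hℓ : ∀ m, 0 < ℓ m) (hSr : ∀ m i, ∀ b ∈ pvtdReach (Start m) (k m), Conf.ReadsSet (pvtdWin (ℓ m) a' b) (SB m i b))
    (hSq : ∀ᶠ m in atTop, ∀ᶠ i in l, ∀ b ∈ pvtdReach (Start m) (k m), pvP (εs i) (SB m i b) ≤ pvtdQ a')
    (hEx : PvtdOrd l fun m i => ((Pr i).P (Ex m i)).toReal)
    (hAB : PvtdOrd l fun m i => ((Pr i).P {o | ∃ P ∈ rims m i o, PvtdHalf (Start m) (k m) (AB m i o P)}).toReal)
    (hmesh : ∀ m i, ∀ o ∉ Ex m i, ∀ P ∈ rims m i o, ∀ t < P.len, ‖P.v t - x‖ ≤ 2 * R → ‖P.v (t + 1) - P.v t‖ ≤ ℓ m)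
    (hDI : ∀ m i, ∀ o ∉ Ex m i, ∀ P ∈ rims m i o, PvtdDI (ℓ m) a x R P (pins m i o P) (fun b => cf o ∈ SB m i b) (AB m i o P))
    (hr : ∀ᶠ m in atTop, (((k m + a : ℕ) : ℝ) + 1) * (2 * ℓ m) ≤ r m) (hStart : ∀ m, ∀ w : ℂ, ‖w - x‖ ≤ 2 * R → pv5Blk (ℓ m) w ∈ Start m)
    (hnum : Tendsto (fun m => ((Start m).card : ℝ) * (2⁻¹ : ℝ) ^ k m) atTop (𝓝 0)) :
    PvtdOrd l fun m i => ((Pr i).P (Ex m i ∪ {o | ¬ ∀ P ∈ rims m i o, PvtdDense x R (r m) P (pins m i o P)})).toReal := by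
  have hb : Tendsto (fun m => (pvtdC a').toReal * (((Start m).card : ℝ) * (2⁻¹ : ℝ) ^ k m)) atTop (𝓝 0) := by
    simpa using hnum.const_mul (pvtdC a').toReal
  refine (hEx.add ((hEx.add (PvtdOrd.of_tendsto hb)).add hAB)).mono ?_
  filter_upwards [hSq, hr] with m hm1 hm2
  filter_upwards [hm1] with n hn
  have h1 := pvx2_dense_prob (Pr n) (hlaw n) (rims m n) (pins m n) (hℓ m) (k m) a a' (SB m n) (AB m n) (Start m) (Ex m n) (hSr m n) hn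
    (hmesh m n) (hDI m n) hm2 (hStart m)
  have hfin : ((Start m).card : ℝ≥0∞) * (pvtdC a' * (2⁻¹ : ℝ≥0∞) ^ k m) ≠ ⊤ :=
    ENNReal.mul_ne_top (ENNReal.natCast_ne_top _) (ENNReal.mul_ne_top (pvtd_C_ne_top a') (ENNReal.pow_ne_top (by norm_num)))
  have h2 := ENNReal.toReal_mono (ENNReal.add_ne_top.2 ⟨ENNReal.add_ne_top.2 ⟨(Pr n).P_ne_top _, hfin⟩, (Pr n).P_ne_top _⟩) h1
  rw [ENNReal.toReal_add (ENNReal.add_ne_top.2 ⟨(Pr n).P_ne_top _, hfin⟩) ((Pr n).P_ne_top _), ENNReal.toReal_add ((Pr n).P_ne_top _) hfin] at h2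
  have h3 := ENNReal.toReal_mono (ENNReal.add_ne_top.2 ⟨(Pr n).P_ne_top _, (Pr n).P_ne_top _⟩)
    ((Pr n).P_union_le (Ex m n) {o | ¬ ∀ P ∈ rims m n o, PvtdDense x R (r m) P (pins m n o P)})
  rw [ENNReal.toReal_add ((Pr n).P_ne_top _) ((Pr n).P_ne_top _)] at h3
  refine h3.trans (add_le_add le_rfl (h2.trans (le_of_eq ?_)))
  rw [ENNReal.toReal_mul, ENNReal.toReal_mul, ENNReal.toReal_pow, ENNReal.toReal_inv, ENNReal.toReal_natCast]
  norm_num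
  ring

end up

/-! ## 2. flags are static: the first exit of a passage -/

/-- **the first exit**: a passage from the block of `v j` to sup-distance `≥ a` contains a passage which stays at sup-distance `≤ a` -/
theorem pvx2_first_exit {ℓ : ℝ} (hℓ : 0 < ℓ) (v : ℕ → ℂ) {j j' : ℕ} (hjj : j ≤ j') (hstep : ∀ t, j ≤ t → t < j' → ‖v (t + 1) - v t‖ ≤ ℓ) (a : ℕ)
    (ha : (a : ℤ) ≤ pv5Dist (pv5Blk ℓ (v j)) (pv5Blk ℓ (v j'))) :
    ∃ j'', j ≤ j'' ∧ j'' ≤ j' ∧ (a : ℤ) ≤ pv5Dist (pv5Blk ℓ (v j)) (pv5Blk ℓ (v j'')) ∧ ∀ t, j ≤ t → t ≤ j'' → pv5Dist (pv5Blk ℓ (v j)) (pv5Blk ℓ (v t)) ≤ a := by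
  classical
  have hex : ∃ n, (a : ℤ) ≤ pv5Dist (pv5Blk ℓ (v j)) (pv5Blk ℓ (v (j + n))) := ⟨j' - j, by rwa [Nat.add_sub_cancel' hjj]⟩
  have hle : Nat.find hex ≤ j' - j := Nat.find_min' hex (by rwa [Nat.add_sub_cancel' hjj])
  have hlt : ∀ n, n < Nat.find hex → pv5Dist (pv5Blk ℓ (v j)) (pv5Blk ℓ (v (j + n))) < a := fun n hn => not_le.1 (Nat.find_min hex hn)
  refine ⟨j + Nat.find hex, by omega, by omega, Nat.find_spec hex, fun t h1 h2 => ?_⟩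
  obtain ⟨n, rfl⟩ := Nat.exists_eq_add_of_le h1
  rcases Nat.lt_or_ge n (Nat.find hex) with h | h
  · exact (hlt n h).le
  · have hn : n = Nat.find hex := by omega
    rcases Nat.eq_zero_or_pos n with h0 | h0
    · subst h0
      have : pv5Dist (pv5Blk ℓ (v j)) (pv5Blk ℓ (v (j + 0))) = 0 := by simp [pv5Dist]
      rw [this]
      exact_mod_cast Nat.zero_le a
    · obtain ⟨n', rfl⟩ : ∃ n', n = n' + 1 := ⟨n - 1, by omega⟩
      have e1 := hlt n' (by omega)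
      have e2 : pv5Dist (pv5Blk ℓ (v (j + n'))) (pv5Blk ℓ (v (j + n' + 1))) ≤ ((1 : ℕ) : ℤ) := by
        rw [pvtd_dist_comm]
        exact pvtd_blk_close hℓ (by simpa using hstep (j + n') (by omega) (by omega))
      have e3 := pv5_dist_triangle (pv5Blk ℓ (v j)) (pv5Blk ℓ (v (j + n'))) (pv5Blk ℓ (v (j + n' + 1)))
      have e4 : j + (n' + 1) = j + n' + 1 := by omega
      rw [e4]
      push_cast at e2
      linarith

/-- **FLAGS ARE STATIC**: (DI) for the unflagged places, with the blocks which have a flagged centre in their enlargement as new static bad blocks -/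
theorem pvx2_di_flag {τ : Type} {ℓ : ℝ} (hℓ : 0 < ℓ) (a : ℕ) {x : ℂ} {R : ℝ} {P : PvbRim} {pins : Set (PvbPin τ)} {SB AB : ℤ × ℤ → Prop} (Fz : PvbPin τ → Prop) (FB : ℤ × ℤ → Prop)
    (hmesh : ∀ t < P.len, ‖P.v t - x‖ ≤ 2 * R → ‖P.v (t + 1) - P.v t‖ ≤ ℓ) (hDI : PvtdDI ℓ a x R P pins SB AB)
    (hnear : ∀ s ∈ pins, ‖P.v s.idx - s.ctr‖ ≤ ℓ) (hFB : ∀ s ∈ pins, ∀ b, pv5Dist (pv5Blk ℓ s.ctr) b ≤ ((a + 1 : ℕ) : ℤ) → Fz s → FB b) :
    PvtdDI ℓ a x R P {s | s ∈ pins ∧ ¬ Fz s} (fun b => SB b ∨ FB b) AB := by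
  intro j j' hjj hj' hin hfar hS hA
  obtain ⟨j'', h1, h2, h3, h4⟩ := pvx2_first_exit hℓ P.v hjj (fun t a1 a2 => hmesh t (by omega) (hin t a1 a2.le)) a hfar
  obtain ⟨s, hs, hs1, hs2⟩ := hDI j j'' h1 (h2.trans hj') (fun t a1 a2 => hin t a1 (a2.trans h2)) h3 (fun h => hS (Or.inl h)) hA
  refine ⟨s, ⟨hs, fun hF => hS (Or.inr (hFB s hs _ ?_ hF))⟩, hs1, hs2.trans h2⟩
  have e1 : pv5Dist (pv5Blk ℓ s.ctr) (pv5Blk ℓ (P.v s.idx)) ≤ ((1 : ℕ) : ℤ) := by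
    refine pvtd_blk_close hℓ ?_
    rw [norm_sub_rev]
    simpa using hnear s hs
  have e2 := h4 s.idx hs1 hs2
  rw [pvtd_dist_comm] at e2
  have e3 := pv5_dist_triangle (pv5Blk ℓ s.ctr) (pv5Blk ℓ (P.v s.idx)) (pv5Blk ℓ (P.v j))
  push_cast at e1 ⊢
  linarith

/-- the box of a grid point -/
theorem pvx2_box_pt {h : ℝ} (h0 : 0 < h) (p : ℤ × ℤ) : pv5Blk h (l9Pt h p) = p := by
  unfold pv5Blk l9Pt
  ext
  · simp [mul_div_cancel_right₀ _ h0.ne']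
  · simp [mul_div_cancel_right₀ _ h0.ne']

/-- the block of a grid point -/
theorem pvx2_blk_pt {h : ℝ} (h0 : 0 < h) {L : ℕ} (hL : 0 < L) (p : ℤ × ℤ) : pv5Blk (L * h) (l9Pt h p) = pvagCg L p := by
  rw [pvtd_blk_cg h0 hL, pvx2_box_pt h0]

/-- the blocks with a flagged centre in their `e`-enlargement -/
def pvx2FB (L e : ℕ) (Fl : ℤ × ℤ → Set (Conf PvPt)) (b : ℤ × ℤ) : Set (Conf PvPt) := ⋃ p ∈ pvtdCells L e b, Fl p

/-- windows of boxes inside windows of blocks -/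
theorem pvx2_win_sub {L e Cw w : ℕ} (hL : 0 < L) (hw : w ≤ Cw * L) {h : ℝ} (h0 : 0 < h) {p b : ℤ × ℤ} (hp : p ∈ pvtdCells L e b) : pvtdWin h w p ⊆ pvtdWin (L * h) (Cw + e) b := by
  intro y hy
  have hy' : pv5Dist (pv5Blk h y.1) p ≤ w := hy
  show pv5Dist (pv5Blk (L * h) y.1) b ≤ ((Cw + e : ℕ) : ℤ)
  rw [pvtd_blk_cg h0 hL]
  have e1 : pv5Dist (pvagCg L (pv5Blk h y.1)) (pvagCg L p) ≤ Cw := pvtd_cg_dist hL (hy'.trans (by exact_mod_cast hw))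
  have e2 := (pvtd_cells_mem hL e b p).1 hp
  have e3 := pv5_dist_triangle (pvagCg L (pv5Blk h y.1)) (pvagCg L p) b
  push_cast
  linarith

theorem pvx2_fb_reads {L e Cw w : ℕ} (hL : 0 < L) (hw : w ≤ Cw * L) {h : ℝ} (h0 : 0 < h) {Fl : ℤ × ℤ → Set (Conf PvPt)}
    (hr : ∀ p, Conf.ReadsSet (pvtdWin h w p) (Fl p)) (b : ℤ × ℤ) : Conf.ReadsSet (pvtdWin (L * h) (Cw + e) b) (pvx2FB L e Fl b) :=
  Conf.ReadsSet.iUnion fun p => Conf.ReadsSet.iUnion fun hp => (hr p).mono (pvx2_win_sub hL hw h0 hp)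

theorem pvx2_fb_le {L e : ℕ} {Fl : ℤ × ℤ → Set (Conf PvPt)} (μ : Measure (Conf PvPt)) {ζ : ℝ≥0∞} (hq : ∀ p, μ (Fl p) ≤ ζ) (b : ℤ × ℤ) :
    μ (pvx2FB L e Fl b) ≤ ((L * (2 * e + 1)) ^ 2 : ℕ) * ζ := by
  refine (measure_biUnion_finset_le _ _).trans ?_
  refine (Finset.sum_le_card_nsmul _ _ ζ fun p _ => hq p).trans (le_of_eq ?_)
  rw [pvtd_cells_card, nsmul_eq_mul]

/-! ## 3. PLACES; the statement of record of (X2) -/

/-- **A PLACE** of the encoded rim `P` in the sample `ω`: the vertex number `k` lies within `h` of the grid point `l9Pt h p`, and the Delaunay PLANE of the sample has two-site gates (212: `PvdaGate`, family free), for the colour of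
the rim, in the `g` FIXED annuli `clB(z, b j h) \ clB(z, a j h)` -/
structure PvX2At (g : ℕ) (a b : ℕ → ℝ) (h : ℝ) (ω : PVSample) (P : PvbRim) (k : ℕ) (p : ℤ × ℤ) : Prop where
  near : ‖P.v k - l9Pt h p‖ ≤ h
  gate : ∀ j < g, PvdaGate (cfSites (pvConf ω)) (cfCol (pvConf ω)) (cfCol (pvConf ω) (P.v k)) (l9Pt h p) (a j * h) (b j * h)

/-- the places of a rim, as pins whose type is the index of the grid point -/
def pvx2Pl (g : ℕ) (a b : ℕ → ℝ) (h : ℝ) (ω : PVSample) (P : PvbRim) : Set (PvbPin (ℤ × ℤ)) := {s | s.ctr = l9Pt h s.typ ∧ PvX2At g a b h ω P s.idx s.typ}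

/-- the UNFLAGGED places -/
def pvx2PlF (g : ℕ) (a b : ℕ → ℝ) (h : ℝ) (Fl : ℤ × ℤ → Set (Conf PvPt)) (ω : PVSample) (P : PvbRim) : Set (PvbPin (ℤ × ℤ)) :=
  {s | s ∈ pvx2Pl g a b h ω P ∧ pvConf ω ∉ Fl s.typ}

/-- **(X2), THE STATEMENT OF RECORD**: in the ordered limit (`ε ↓ 0`, then `m → ∞`), with upper probability `→ 1` under `pvhbUp ε`: every arc inside `clB(x,2R)`, with end points at distance `≥ r m`, of every encoded rim of
every completion carries an UNFLAGGED PLACE -/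
def PvX2 (g : ℕ) (a b : ℕ → ℝ) (h r : ℕ → ℝ) (Fl : ℕ → ℝ → ℤ × ℤ → Set (Conf PvPt)) (x : ℂ) (R : ℝ) : Prop :=
  PvhbOrd fun m ε => ((pvhbUp ε).P {q | ¬ ∀ P ∈ pvhbAll x R (pvMerge q), PvtdDense x R (r m) P (pvx2PlF g a b (h m) (Fl m ε) (pvMerge q) P)}).toReal

theorem pvx2_eqns_cite : True := by
  have := @pvx2FB.eq_1; have := @pvx2Pl.eq_1; have := @pvx2PlF.eq_1; have := @PvX2.eq_1
  trivial

/-- a place only reads the position of the vertex -/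
theorem PvX2At.congr {g : ℕ} {a b : ℕ → ℝ} {h : ℝ} {ω : PVSample} {P P' : PvbRim} {k k' : ℕ} {p : ℤ × ℤ} (H : PvX2At g a b h ω P' k' p) (e : P'.v k' = P.v k) : PvX2At g a b h ω P k p :=
  ⟨e ▸ H.near, fun j hj => e ▸ H.gate j hj⟩

/-! ## 4. THE CORE OF A6 (no flags) as two records, and the glue -/

/-- **A6, THE GLOBAL DATA** (chosen before the scales, the ball, the flags): the `g` annuli, the side `L` of the blocks (units of `h`), the enlargement `ae` of a passage, the range `aw` of the windows,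
the STATIC BAD BLOCKS `SB h b` (scale `h`, block `b` of side `L h`; form of 101 `Tr/DenseS.lean`, request of 237): frame failure, c-bad, J-bad -/
structure PvX2Glob (g : ℕ) where
  a : ℕ → ℝ
  b : ℕ → ℝ
  L : ℕ
  L0 : 0 < L
  ae : ℕ
  aw : ℕ
  SB : ℝ → ℤ × ℤ → Set (Conf PvPt)
  reads : ∀ h : ℝ, 0 < h → ∀ b, Conf.ReadsSet (pvtdWin (L * h) aw b) (SB h b)
  small : ∀ h : ℝ, 0 < h → ∀ b, ∀ᶠ ε in 𝓝[>] (0 : ℝ), pvP ε (SB h b) ≤ pvtdQ aw / 2

/-- the threshold of the flags -/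
noncomputable def PvX2Glob.zeta {g : ℕ} (G : PvX2Glob g) : ℝ≥0∞ := pvtdQ G.aw / 2 / ((G.L * (2 * (G.ae + 1) + 1)) ^ 2 : ℕ)

/-- **A6, THE LOCAL DATA** for one pair of scales and one ball: the PIECES (`Γ(χ_e)`, the simple paths carried by ONE chord, encoded), their adaptive bad blocks with THEIR Peierls bound, the exceptional events;
off them: SPLIT, mesh, (DI) WITHOUT FLAGS -/
structure PvX2Loc {g : ℕ} (G : PvX2Glob g) (h r : ℕ → ℝ) (x : ℂ) (R : ℝ) where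
  /-- displacement of the arc on one piece: `r m / K0 m` -/
  r' : ℕ → ℝ
  kap : ℝ
  kap0 : 0 < kap
  r'_ge : ∀ᶠ m in atTop, (G.L * h m) ^ (1 - kap) ≤ r' m
  pc : ℕ → ℝ → PvGeoT × PvColT → Set PvbRim
  AB : ℕ → ℝ → PvGeoT × PvColT → PvbRim → ℤ × ℤ → Prop
  Ex : ℕ → ℝ → Set (PvGeoT × PvColT)
  Ex_ord : PvhbOrd fun m ε => ((pvhbUp ε).P (Ex m ε)).toReal
  /-- (ii) + (iii) of A6: quenched, adaptive -/
  AB_ord : PvhbOrd fun m ε => ((pvhbUp ε).P {q | ∃ P ∈ pc m ε q, PvtdHalf (pvtdStart (G.L * h m) x R) (pvtdK (G.L * h m) (r' m) G.ae) (AB m ε q P)}).toReal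
  /-- (o) of A6 = L8: a long arc of a rim contains a long arc `s .. s + n` which is the arc `u .. u + n` of a piece -/
  split : ∀ m ε, ∀ q ∉ Ex m ε, ∀ P ∈ pvhbAll x R (pvMerge q), ∀ i i', i ≤ i' → i' ≤ P.len → (∀ k, i ≤ k → k ≤ i' → ‖P.v k - x‖ ≤ 2 * R) → r m ≤ ‖P.v i' - P.v i‖ →
    ∃ P' ∈ pc m ε q, ∃ s u n, i ≤ s ∧ s + n ≤ i' ∧ u + n ≤ P'.len ∧ (∀ t, t ≤ n → P'.v (u + t) = P.v (s + t)) ∧ r' m ≤ ‖P'.v (u + n) - P'.v u‖
  mesh : ∀ m ε, ∀ q ∉ Ex m ε, ∀ P ∈ pc m ε q, ∀ t < P.len, ‖P.v t - x‖ ≤ 2 * R → ‖P.v (t + 1) - P.v t‖ ≤ G.L * h m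
  /-- (DI): a passage of a piece from a block which is neither statically nor adaptively bad carries a place -/
  di : ∀ m ε, ∀ q ∉ Ex m ε, ∀ P ∈ pc m ε q, PvtdDI (G.L * h m) G.ae x R P (pvx2Pl g G.a G.b (h m) (pvMerge q) P)
    (fun b => pvConf (pvMerge q) ∈ G.SB (h m) b) (AB m ε q P)

theorem pvx2_zeta_eqns_cite : True := by
  have := @PvX2Glob.zeta.eq_1
  trivial

theorem PvX2Glob.zeta_pos {g : ℕ} (G : PvX2Glob g) : 0 < G.zeta := by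
  unfold PvX2Glob.zeta
  refine ENNReal.div_pos (ENNReal.div_pos (pvtd_Q_pos _).ne' (by norm_num)).ne' (ENNReal.natCast_ne_top _)

theorem PvX2Glob.zeta_mul {g : ℕ} (G : PvX2Glob g) : ((G.L * (2 * (G.ae + 1) + 1)) ^ 2 : ℕ) * G.zeta ≤ pvtdQ G.aw / 2 := by
  unfold PvX2Glob.zeta
  exact ENNReal.mul_div_le

open Classical in
/-- **THE GLUE OF (X2)**: the core of A6 (no flags) ⟹ (X2) for ANY flags `Fl m p` read from the `h`-boxes at sup-distance `≤ w ≤ Cw L` of the box `p`, of probability `≤ ζ` for the centres of `clB(x, 6R)` -/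
theorem PvX2Loc.x2 {g : ℕ} {G : PvX2Glob g} {h r : ℕ → ℝ} {x : ℂ} {R : ℝ} (𝔏 : PvX2Loc G h r x R) (hR : 0 < R) (h0 : ∀ m, 0 < h m) (hlim : Tendsto h atTop (𝓝 0))
    (Cw w : ℕ) (hCw : Cw + (G.ae + 1) ≤ G.aw) (hw : w ≤ Cw * G.L) (Fl : ℕ → ℝ → ℤ × ℤ → Set (Conf PvPt))
    (hFr : ∀ m ε p, Conf.ReadsSet (pvtdWin (h m) w p) (Fl m ε p))
    (hFq : ∀ᶠ m in atTop, ∀ᶠ ε in 𝓝[>] (0 : ℝ), ∀ p, ‖l9Pt (h m) p - x‖ ≤ 6 * R → pvP ε (Fl m ε p) ≤ G.zeta) : PvX2 g G.a G.b h r Fl x R := by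
  have hL : (0 : ℝ) < G.L := by exact_mod_cast G.L0
  have hℓ0 : ∀ m, 0 < G.L * h m := fun m => mul_pos hL (h0 m)
  have hℓ : Tendsto (fun m => G.L * h m) atTop (𝓝 0) := by simpa using hlim.const_mul (G.L : ℝ)
  obtain ⟨hnum, hlong⟩ := pvtd_num_lim (fun m => G.L * h m) 𝔏.r' hℓ0 hℓ 𝔏.kap0 𝔏.r'_ge x hR.le G.ae
  -- the flags, cut outside the ball
  set Fc : ℕ → ℝ → ℤ × ℤ → Set (Conf PvPt) := fun m ε p => if ‖l9Pt (h m) p - x‖ ≤ 6 * R then Fl m ε p else ∅ with hFc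
  have hFcr : ∀ m ε p, Conf.ReadsSet (pvtdWin (h m) w p) (Fc m ε p) := by
    intro m ε p
    simp only [hFc]
    split_ifs
    · exact hFr m ε p
    · exact fun η => Iff.rfl
  have key := pvx2_dense_ord (τ := ℤ × ℤ) (𝓝[>] (0 : ℝ)) pvhbUp (cf := fun q => pvConf (pvMerge q)) id (fun ε A => pvhb_up_P_conf ε A) 𝔏.pc
    (fun m ε q P => pvx2PlF g G.a G.b (h m) (Fc m ε) (pvMerge q) P) (fun m => G.L * h m) 𝔏.r' (R := R) (x := x) (fun m => pvtdK (G.L * h m) (𝔏.r' m) G.ae) G.ae G.aw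
    (fun m ε b => G.SB (h m) b ∪ pvx2FB G.L (G.ae + 1) (Fc m ε) b) 𝔏.AB (fun m => pvtdStart (G.L * h m) x R) 𝔏.Ex hℓ0
    (fun m ε b _ => (G.reads (h m) (h0 m) b).union (((pvx2_fb_reads G.L0 hw (h0 m) (hFcr m ε) b)).mono (pvtd_win_mono _ hCw b)))
    ?_ 𝔏.Ex_ord 𝔏.AB_ord 𝔏.mesh ?_ ?_ (fun m w hw => pvtd_start_mem (hℓ0 m) hw) hnum
  · -- from the pieces to the rims
    refine PvtdOrd.mono key ?_
    filter_upwards [hlim.eventually (ge_mem_nhds hR)] with m hm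
    refine Eventually.of_forall fun ε => ?_
    refine ENNReal.toReal_mono (PvUp.P_ne_top _ _) (PvUp.P_mono _ fun q hq => ?_)
    by_contra hcon
    rw [mem_union, not_or] at hcon
    obtain ⟨hEx, hD⟩ := hcon
    have hD' : ∀ P ∈ 𝔏.pc m ε q, PvtdDense x R (𝔏.r' m) P (pvx2PlF g G.a G.b (h m) (Fc m ε) (pvMerge q) P) := not_not.1 hD
    refine hq fun P hP i i' hii hi' hin hfar => ?_
    obtain ⟨P', hP', s, u, n, hs1, hs2, hu, hv, hr'⟩ := 𝔏.split m ε q hEx P hP i i' hii hi' hin hfar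
    have hv' : ∀ k, u ≤ k → k ≤ u + n → P'.v k = P.v (s + (k - u)) := fun k h1 h2 => by
      have := hv (k - u) (by omega)
      rwa [Nat.add_sub_cancel' h1] at this
    obtain ⟨t, ht, ht1, ht2⟩ := hD' P' hP' u (u + n) (Nat.le_add_right _ _) hu (fun k h1 h2 => by rw [hv' k h1 h2]; exact hin _ (by omega) (by omega)) hr'
    have hat : PvX2At g G.a G.b (h m) (pvMerge q) P (s + (t.idx - u)) t.typ := PvX2At.congr ht.1.2 (hv' _ ht1 ht2)
    refine ⟨⟨s + (t.idx - u), t.ctr, t.typ⟩, ⟨⟨ht.1.1, hat⟩, fun hF => ht.2 ?_⟩, by show i ≤ s + (t.idx - u); omega, by show s + (t.idx - u) ≤ i'; omega⟩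
    have h6 : ‖l9Pt (h m) t.typ - x‖ ≤ 6 * R := by
      have e1 := hin (s + (t.idx - u)) (by omega) (by omega)
      have e2 := hat.near
      calc ‖l9Pt (h m) t.typ - x‖ = ‖-(P.v (s + (t.idx - u)) - l9Pt (h m) t.typ) + (P.v (s + (t.idx - u)) - x)‖ := by ring_nf
        _ ≤ ‖-(P.v (s + (t.idx - u)) - l9Pt (h m) t.typ)‖ + ‖P.v (s + (t.idx - u)) - x‖ := norm_add_le _ _
        _ ≤ 6 * R := by rw [norm_neg]; linarith
    simp only [hFc, if_pos h6]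
    exact hF
  · -- the static bad blocks
    filter_upwards [hFq] with m hm
    have h1 : ∀ᶠ ε in 𝓝[>] (0 : ℝ), ∀ b ∈ pvtdReach (pvtdStart (G.L * h m) x R) (pvtdK (G.L * h m) (𝔏.r' m) G.ae), pvP ε (G.SB (h m) b) ≤ pvtdQ G.aw / 2 := by
      rw [Filter.eventually_all_finite (pvtd_reach_finite _ _)]
      exact fun b _ => G.small (h m) (h0 m) b
    filter_upwards [hm, h1] with ε a1 a2 b hb
    refine (measure_union_le _ _).trans ?_
    have a1' : ∀ p, pvP ε (Fc m ε p) ≤ G.zeta := by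
      intro p
      simp only [hFc]
      split_ifs with hp
      · exact a1 p hp
      · simp
    have e1 := a2 b hb
    have e2 := (pvx2_fb_le (L := G.L) (e := G.ae + 1) (pvP ε) a1' b).trans G.zeta_mul
    calc _ ≤ pvtdQ G.aw / 2 + pvtdQ G.aw / 2 := add_le_add e1 e2
      _ = pvtdQ G.aw := ENNReal.add_halves _
  · -- (DI) with flags
    intro m ε q hq P hP
    have hLh : h m ≤ G.L * h m := by
      have : (1 : ℝ) ≤ G.L := by exact_mod_cast G.L0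
      nlinarith [h0 m]
    refine pvx2_di_flag (hℓ0 m) G.ae (fun s => pvConf (pvMerge q) ∈ Fc m ε s.typ) (fun b => pvConf (pvMerge q) ∈ pvx2FB G.L (G.ae + 1) (Fc m ε) b)
      (𝔏.mesh m ε q hq P hP) (𝔏.di m ε q hq P hP) (fun s hs => by rw [hs.1]; exact hs.2.near.trans hLh) ?_
    intro s hs b hb hF
    rw [hs.1, pvx2_blk_pt (h0 m) G.L0] at hb
    exact mem_biUnion ((pvtd_cells_mem G.L0 _ b s.typ).2 hb) hF
  · filter_upwards [hlong, 𝔏.r'_ge] with m hm1 hm2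
    exact pvtd_K_le (hℓ0 m) ((Real.rpow_nonneg (hℓ0 m).le _).trans hm2) hm1

/-- the gate of 212 in the vocabulary of 187 / 12 (`PvxpGate` of `Exit/Pins.lean`, unfolded) -/
theorem pvx2_gate_conv {ω : PVSample} {c : Bool} {z : ℂ} {ρ₁ ρ₂ : ℝ} (H : PvdaGate (cfSites (pvConf ω)) (cfCol (pvConf ω)) c z ρ₁ ρ₂) :
    DelGood (pvxY ω) ∧ ∃ G X, PvgGate (pvxT ω) (pvxCol ω c) true (pvdiB (pvxT ω) (pvxPos ω) z ρ₁) (pvdiB (pvxT ω) (pvxPos ω) z ρ₂) G X := by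
  obtain ⟨h, G, X, hg⟩ := H
  refine ⟨h, ?_⟩
  unfold pvxT pvxY
  rw [delb_pl_eq h]
  refine ⟨G, X, hg.face, hg.inner, hg.outer, hg.card, fun v hv => ?_, fun v hv => ?_⟩
  · have := hg.col v hv
    simp only [pvxCol, beq_iff_eq]
    exact this
  · rcases hg.other v hv with h1 | h1
    · left
      simp only [pvxCol, ne_eq, beq_iff_eq]
      exact h1
    · exact Or.inr h1

/-! ## 5. THE MODEL: the instance on the total Delaunay plane (definitions; leaves and assembly in `Exit/PinsA6X.lean`)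

PATCHES (defect of 75): the only blocking on main has ratio 5 (cycle in the shell `(r, 5r/4)`, `BXP` between `5r/4` and `4r`), the completions agree with the plane on `clB(x,6R)` only, the rims are only known to leave `B(x,4R)`.
So the chords are the chords of SMALL discs `C0 j` round the points `ctr j` of a finite net of `clB(x,2R)`; an arc is first trimmed to diameter `≤ ρ / 2`. -/

/-- the TOTAL Delaunay plane of a site set (219) -/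
noncomputable abbrev pvx2T (Y : Set ℂ) : PvMap ↥Y (delbPl Y).Dart := (delbPl Y).toMap

/-- the sub-arc `s .. s + n` of an encoded rim -/
def pvx2Sub (P : PvbRim) (s n : ℕ) : PvbRim := ⟨n, fun t => P.v (s + t), fun _ => 0, fun _ => 0, fun _ => 0⟩

section model

variable [∀ Y : Set ℂ, DecidableEq ↥Y]

/-- **the chord of the entrance `e` of `C0.Left` (plane, `true` = the colour `b`) CARRIES the encoded arc `P'`**, which lies in the core `clB(y,ρ)` of the patch -/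
def PvX2Car (Y : Set ℂ) (σ : ↥Y → Bool) (y : ℂ) (ρ : ℝ) (C0 : (pvx2T Y).Cyc) (P' : PvbRim) (b : Bool) (e : (delbPl Y).Dart) : Prop :=
  (∀ t ≤ P'.len, ‖P'.v t - y‖ ≤ ρ) ∧ pvasIn (pvx2T Y) C0.Left (fun v => σ v == b) e ∧
    ∀ t < P'.len, ∃ f : (delbPl Y).Dart, ((pvx2T Y).src f : ℂ) = P'.v t ∧ ((pvx2T Y).tgt f : ℂ) = P'.v (t + 1) ∧ PvafOn (pvx2T Y) (fun v => σ v == b) C0.Left e f

/-- **THE MACROSCOPIC FRAME OF ONE PATCH** (centre `y`, core radius `ρ`) at the site set `Y` -/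
structure PvX2Mac (x : ℂ) (R q0 : ℝ) (y : ℂ) (ρ : ℝ) (Y : Set ℂ) (C0 C1 : (pvx2T Y).Cyc) : Prop where
  good : DelGood Y
  geo : PvaaGeo (pvx2T Y) C1 C0 q0
  in1 : ∀ v : ↥Y, ‖(v : ℂ) - y‖ ≤ ρ → v ∈ (pvx2T Y).Int C1.Left
  out0 : ∀ v ∈ (pvx2T Y).VOf C0.Left, ‖(v : ℂ) - x‖ < 4 * R

/-- at most `K` chords reach `C1.Left`, for both colours -/
def PvX2Few (Y : Set ℂ) (σ : ↥Y → Bool) (C0 C1 : (pvx2T Y).Cyc) (K : ℕ) : Prop :=
  ∀ b : Bool, ∃ F : Finset (delbPl Y).Dart, F.card ≤ K ∧ ∀ e, PvaaK (pvx2T Y) C1 C0 (fun v => σ v == b) e → e ∈ F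

/-- **THE FRAME EVENTS** of one patch -/
structure PvX2Fr (x : ℂ) (R : ℝ) (y : ℂ) (ρ : ℝ) where
  q0 : ℝ
  q0_pos : 0 < q0
  q0_le : q0 ≤ 1
  G : ℕ → Set ℂ → Prop
  C0 : ∀ m Y, G m Y → (pvx2T Y).Cyc
  C1 : ∀ m Y, G m Y → (pvx2T Y).Cyc
  mac : ∀ m Y (h : G m Y), PvX2Mac x R q0 y ρ Y (C0 m Y h) (C1 m Y h)
  G_ord : PvhbOrd fun m ε => ((pvhbUp ε).P {p | ¬ G m (cfSites (pvConf (pvMerge p)))}).toReal

variable {x : ℂ} {R : ℝ} {y : ℂ} {ρ : ℝ}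

/-- **THE ADAPTIVE DATA** over the frame of a patch: the selection of the trials (ANY function of the explored chord), the numbers -/
structure PvX2Ad (F : PvX2Fr x R y ρ) where
  q : ℝ
  q_le : q ≤ 1
  w : ℕ
  mt : ℕ → ℕ
  N : ℕ → ℕ
  hp : ∀ᶠ m in atTop, ENNReal.ofReal (N m * (1 - q) ^ mt m) ≤ pvtdQ w
  Sel : ∀ (m : ℕ) (Y : Set ℂ), F.G m Y → (delbPl Y).Dart → ℤ × ℤ → (↥Y → Bool) → Finset (PvaaTrial (pvx2T Y))
  hSel : ∀ m Y (h : F.G m Y), ∀ e, e ∈ (F.C0 m Y h).Left → (pvx2T Y).opp e ∉ (F.C0 m Y h).Left → ∀ b, PvaMeas (pvasExpl (pvx2T Y) e (F.C0 m Y h).Leftᶜ) (Sel m Y h e b)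

/-- **THE PIECES OF A PATCH**: the arcs inside the core of the patch of the rims of the completions which are carried by ONE chord which reaches `C1.Left` -/
def PvX2Fr.pc (F : PvX2Fr x R y ρ) (m : ℕ) (p : PvGeoT × PvColT) : Set PvbRim :=
  {P' | ∃ (hG : F.G m (cfSites (pvConf (pvMerge p)))), ∃ P ∈ pvhbAll x R (pvMerge p), ∃ s n, s + n ≤ P.len ∧ P' = pvx2Sub P s n ∧ ∃ (b : Bool) (e : (delbPl (cfSites (pvConf (pvMerge p)))).Dart),
    PvX2Car _ (fun v => cfCol (pvConf (pvMerge p)) v) y ρ (F.C0 m _ hG) P' b e ∧ PvaaK (pvx2T _) (F.C1 m _ hG) (F.C0 m _ hG) (fun v => cfCol (pvConf (pvMerge p)) v == b) e}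

/-- the relation `Car` of 237 -/
def PvX2Fr.car (F : PvX2Fr x R y ρ) (m : ℕ) (p : PvGeoT × PvColT) (P' : PvbRim) (b : Bool) (e : (delbPl (cfSites (pvConf (pvMerge p)))).Dart) : Prop :=
  ∃ hG : F.G m (cfSites (pvConf (pvMerge p))), PvX2Car _ (fun v => cfCol (pvConf (pvMerge p)) v) y ρ (F.C0 m _ hG) P' b e

/-- **THE ADAPTIVE BAD BLOCKS OF AN ARC, IN ONE PATCH** (`pvaaAB` of 237: bad for EVERY chord of the patch which carries the arc) -/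
def PvX2Ad.AB {F : PvX2Fr x R y ρ} (A : PvX2Ad F) (ℓ : ℕ → ℝ) (m : ℕ) (p : PvGeoT × PvColT) (P' : PvbRim) : ℤ × ℤ → Prop :=
  pvaaAB pvx2T (F.G m) (F.C0 m) (ℓ m) A.w (A.mt m) (A.N m) A.q (A.Sel m) (cfSites (pvConf (pvMerge p))) (fun v => cfCol (pvConf (pvMerge p)) v) (F.car m p P')

omit [∀ Y : Set ℂ, DecidableEq ↥Y] in
theorem pvx2_model_eqns_cite : True := by
  have := @pvx2Sub.eq_1; have := @PvX2Car.eq_1; have := @PvX2Few.eq_1; have := @PvX2Fr.pc.eq_1; have := @PvX2Fr.car.eq_1; have := @PvX2Ad.AB.eq_1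
  trivial

/-- `AB_ord` of one patch = `pvaa_hab_rims` of 237 -/
theorem PvX2Ad.AB_ord {F : PvX2Fr x R y ρ} (A : PvX2Ad F) (ℓ : ℕ → ℝ) (Start : ℕ → Finset (ℤ × ℤ)) (k : ℕ → ℕ) (hnum : Tendsto (fun m => ((Start m).card : ℝ) * (2⁻¹ : ℝ) ^ k m) atTop (𝓝 0)) :
    PvhbOrd fun m ε => ((pvhbUp ε).P {p | ∃ P ∈ F.pc m p, PvtdHalf (Start m) (k m) (A.AB ℓ m p P)}).toReal := by
  refine pvaa_hab_rims pvx2T F.G F.C0 F.C1 F.q0_pos F.q0_le A.q_le (fun m Y h => (F.mac m Y h).geo) ℓ A.w A.mt A.N A.hp A.Sel A.hSel Start k hnum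
    (fun m _ p => F.pc m p) (fun m _ p => F.car m p) ?_
  rintro m ε p P ⟨hG, -, -, -, -, -, -, b, e, h1, h2⟩
  exact ⟨hG, b, e, ⟨hG, h1⟩, h2⟩

/-- **THE PATCHES OF ONE BALL**: a finite net of `clB(x,2R)`, a frame and adaptive data for every patch -/
structure PvX2Pat (x : ℂ) (R : ℝ) where
  nJ : ℕ
  ctr : Fin nJ → ℂ
  ρ : ℝ
  ρ0 : 0 < ρ
  net : ∀ z : ℂ, ‖z - x‖ ≤ 2 * R → ∃ j, ‖z - ctr j‖ ≤ ρ / 2
  F : ∀ j, PvX2Fr x R (ctr j) ρ
  A : ∀ j, PvX2Ad (F j)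

end model

end Claimed.Agent.R289
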