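-- KEEP
import Claimed.Agent.R289.Tr.StateP
import Claimed.Agent.R289.Tr.RoadPU
import Claimed.Agent.R289.Tr.Lim
import Claimed.Agent.R289.Tr.Dbl

/-!
# Row 289 (S0537), Exit/TrP : THE INSTANCE OF THE WALL, ROAD P = COMPILED GLUE  `L9ExitTR c`  ⟸  `pvty_exit_Q` (283)  ⟸  `PvrpBaseQ.toLocQ` (286)  ⟸  the data of record of road P      (pen helper79, post of 82 / 24; prefix `pvrx_`, `Pvrx`, `exit_pvrx_`)

LEVELS.   0 `L9ExitTR c` (161)  ⟸  1 Spine (129)  ⟸  2 Hub (73: two-level upper expectation `pvhbUp ε`, NO measurability)  ⟸  2' `pvty_exit_Q` (283: THE FIELD `Q` ALONE + (A4))  ⟸  2'' roof of road P, Q-form (286 `Tr/RoadPU.lean` sec. 4)  ⟸  3 THIS FILE  ⟸  the blocks P1-P19 of `origin/helper273:notes/R289/ROADP_273.md` (+ P4 of 273, 10:20Z).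
THE DATA OF RECORD.   `PvrxPar τ c` = model of 185 (`PvspMod τ`: numbers, placed geometry `ty h z t`, `QB`, exact fit) + numbers of the menu `PvbMenu τ` + doors `Γ m` + ONE reading radius `Lr` (units of `h`) + first level `m0` (for `m < m0`: `G = ∅`, no pins).
   Scales of record: `pvlmH m`, `pvlmR c m`, `pvlmDel c m` (247).      `K G Hg pins` are NOT chosen here: they are `PvspMod.K .G .Hg`, `pvspPins` of `Tr/StateP.lean` at the scale `pvlmH m`.      `cf = pvConf ∘ pvMerge`, `Ok = DelgpOk`.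
THE RECORDS (all statements over `pvhbUp ε`, for `Q` ALONE):
* `PvrxPinsOK 𝔓 x R`  (Prop)   field `pinsOK`      P8 212, P9 281, P14 P15 DI-P + DENSE-P: pen 8 (`Exit/PinsP.lean`), 12 101 220 36
* `PvrxAna 𝔓`         numbers `W kin00 CA kV` (= `PvtyNumQ`; 34 259 52), FUNCTIONS OF THE STATE `kout0 kin0 ke0 cV0` + reading + `cyc1ν thickν thickVν`      58 (`Tr/SysP.lean`, `Exit/AnaP.lean`), 95 (`Tr/CycP.lean`), 263 (`Tr/CutP.lean`)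
* `PvrxPat 𝔓 x R`     DATA: patterns and fit (`Pat Pat_fin pat pat_ok far Fit fit_s fit_t`)      138 (`Tr/FitP.lean`)
* `PvrxCover 𝔇`       (Prop)   field `cover`      pen 236 (`Exit/CoverP.lean`), 143
* `PvrxArc 𝔄 𝔇`       `Z stab n1ν` (279 286 59 `Tr/N1P.lean`, `Tr/N1SysP.lean`; 212 113 97 `Tr/Stab.lean`) + `cP stabV telP` (263)
THE SUB-EXIT (file `Exit/TopP.lean`, which imports the roofs).   `exit_pvrx_all : ∃ τ 𝔓, PvrxAll 𝔓`: ONE existential (readings of 273 86 186: `∀ 𝔓, 𝔓.Wf → ..` is false as long as `Wf` does not describe the model; `∀ 𝔄` and `∀ 𝔇` are false: the arcs pin down the potentials).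
   NEXT CUT = at the EXPLICIT parameter `pvrxParOf N` (mod := `Tr/ModP.lean` of 8, numbers `Tr/NumP.lean` of 186, doors of helper1), explicit `𝔄` (`PvypDat` of 58) and explicit `𝔇` (138): then every field of `PvrxAll` is a roof of its own AT these terms.
PROVED HERE (THIS FILE HAS 0 SORRY): sec. 1-2 (ONE radius `Lr` ⟹ the four blindness facts), `pvrx_reads` (`𝔓.Wf → 𝔓.Rd`, from sec. 6 of 185), `pvrx_dom1 pvrx_dom2` (= `pvnz_K_dom1/2` of 286 at the data of record; sections of the lane event measurable by `pvnz_sec_meas`),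
   `pvrxBase` = THE BASE `PvrpBaseQ` OF 286 AT THE DATA OF RECORD, `pvrx_bl`, `PvrxArc.toLoc` (modular roof `PvrpBaseQ.toLocQ`; `stab stabV telP` are asked for SMALL `ε` only), **`pvrx_exit_of : PvrxAll 𝔓 → L9ExitTR c`**.
-/

set_option autoImplicit false

namespace Claimed.Agent.R289

open MeasureTheory Filter Topology Set Claims.C0465
open scoped ENNReal

/-! ## 1. the preparation operator of 263 as a finite weight operator -/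

section op

variable {S S' : Set ℂ} {b b' : Bool} {𝒜 𝒜' : Set (Conf PvPt)}

theorem pvrx_op (S : Set ℂ) (b : Bool) (𝒜 : Set (Conf PvPt)) (F : Conf PvPt → ℝ≥0∞) : (pvspKer S b 𝒜).Op F = pvpOp S b 𝒜 F := rfl

theorem pvrx_av (S : Set ℂ) (b : Bool) (𝒜 : Set (Conf PvPt)) (Y : Conf PvPt → ℂ) : (pvspKer S b 𝒜).Av Y = pvpAv S b 𝒜 Y := rfl

theorem pvrx_blind {γ : Type} {f : Conf PvPt → γ} (h : PvpBlind S f) (b : Bool) (𝒜 : Set (Conf PvPt)) : (pvspKer S b 𝒜).Blind f :=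
  fun ξ B _ => h b B ξ

theorem pvrx_blindS {A : Set (Conf PvPt)} (h : PvpBlind S (fun ζ => ζ ∈ A)) (b : Bool) (𝒜 : Set (Conf PvPt)) : (pvspKer S b 𝒜).BlindS A :=
  fun ξ B _ => iff_of_eq (h b B ξ)

/-- an event which reads a region off the strip is blind -/
theorem pvrx_blind_set {W : Set PvPt} {A : Set (Conf PvPt)} (h : Conf.ReadsSet W A) (hW : Disjoint (Prod.fst ⁻¹' S) W) : PvpBlind S (fun ζ => ζ ∈ A) :=
  Conf.Reads.pvpBlind (f := fun ζ => ζ ∈ A) (fun η => propext (h η)) hW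

theorem pvrx_blind_ind {A : Set (Conf PvPt)} {Y : Conf PvPt → ℂ} (hA : PvpBlind S (fun ζ => ζ ∈ A)) (hY : PvpBlind S Y) : PvpBlind S (A.indicator Y) := by
  classical
  intro b B ξ
  have e : (cfPaint S b B ξ ∈ A) = (ξ ∈ A) := hA b B ξ
  by_cases h : ξ ∈ A
  · rw [Set.indicator_of_mem h, Set.indicator_of_mem (e ▸ h), hY b B ξ]
  · rw [Set.indicator_of_notMem h, Set.indicator_of_notMem (e ▸ h)]

/-- `K(·,G)` as an average -/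
theorem pvrx_gam_eq (K : PvrpK (Conf PvPt) (Finset ℂ)) (G : Set (Conf PvPt)) (ξ : Conf PvPt) : K.gam G ξ = (K.Av (G.indicator fun _ => (1 : ℂ)) ξ).re := by
  rw [pvrp_av_const, mul_one, Complex.ofReal_re]

/-- the average over a far strip is blind -/
theorem pvrx_av_blind (hd : Disjoint S S') (hA : PvpBlind S' (fun ζ => ζ ∈ 𝒜)) {Y : Conf PvPt → ℂ} (hY : PvpBlind S' Y) (b b' : Bool) (𝒜' : Set (Conf PvPt)) :
    (pvspKer S' b' 𝒜').Blind ((pvspKer S b 𝒜).Av Y) :=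
  pvrx_blind (pvpAv_blind' hd hA hY b) b' 𝒜'

theorem pvrx_gam_blind (hd : Disjoint S S') (hA : PvpBlind S' (fun ζ => ζ ∈ 𝒜)) {G : Set (Conf PvPt)} (hG : PvpBlind S' (fun ζ => ζ ∈ G)) (b b' : Bool) (𝒜' : Set (Conf PvPt)) :
    (pvspKer S' b' 𝒜').Blind ((pvspKer S b 𝒜).gam G) := by
  intro ξ B hB
  rw [pvrx_gam_eq, pvrx_gam_eq]
  congr 1
  exact pvrx_av_blind hd hA (pvrx_blind_ind hG fun _ _ _ => rfl) b b' 𝒜' ξ B hB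

end op

/-! ## 2. the local data of road P, blindness of far candidates -/

/-- **THE LOCAL DATA OF ROAD P**.      A candidate is `(z,t)` at level `m` (scale `h m`), mesh `ε`. -/
structure PvrxLoc (τ : Type) where
  /-- the scale of the pins -/
  h : ℕ → ℝ
  /-- the range of a candidate, in units of `h` -/
  Lr : ℝ
  /-- P6: the strip `z + h U(M_t)` -/
  S : ℕ → ℂ → τ → Set ℂ
  /-- the colour which the preparation forces in the strip (the colour opposite to the rim) -/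
  b : ℕ → ℂ → τ → Bool
  /-- P6: `A_κ` = a walk of colour `b` through the strip, door to door -/
  𝒜 : ℕ → ℂ → τ → Set (Conf PvPt)
  /-- `p_*` (M12) -/
  ps : ℝ
  /-- P5: the usable states `Gq_τ` -/
  G : ℕ → ℝ → ℂ → τ → Set (Conf PvPt)
  /-- `κ_out`, `κ_in` of the field `Q`, functions of the state;   arguments `m ε z t ξ` -/
  kout0 : ℕ → ℝ → ℂ → τ → Conf PvPt → ℂ
  kin0 : ℕ → ℝ → ℂ → τ → Conf PvPt → ℂ

namespace PvrxLoc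

variable {τ : Type} (𝔏 : PvrxLoc τ)

/-- the marked points which a candidate at `z` may read -/
def Rg (m : ℕ) (z : ℂ) : Set PvPt := Prod.fst ⁻¹' Metric.closedBall z (𝔏.Lr * 𝔏.h m)

/-- the preparation operator of a candidate -/
noncomputable def K (m : ℕ) (z : ℂ) (t : τ) : PvrpK (Conf PvPt) (Finset ℂ) := pvspKer (𝔏.S m z t) (𝔏.b m z t) (𝔏.𝒜 m z t)

/-- the geometries with `P^η(A_κ) ≥ p_*` (not F3) -/
def Hg (m : ℕ) (z : ℂ) (t : τ) : Set (Conf PvPt) := {ξ | 𝔏.ps ≤ pvpQ (𝔏.S m z t) (𝔏.b m z t) (𝔏.𝒜 m z t) ξ}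

/-- **LOCALITY**: everything of a candidate reads the ball of radius `Lr h` only -/
structure Wf : Prop where
  ps_pos : 0 < 𝔏.ps
  S_meas : ∀ m z t, MeasurableSet (𝔏.S m z t)
  S_sub : ∀ m z t, 𝔏.S m z t ⊆ Metric.closedBall z (𝔏.Lr * 𝔏.h m)
  /-- the strip event is increasing in the sites of colour `b` of the strip -/
  inc : ∀ m z t, PvpInc (𝔏.S m z t) (𝔏.b m z t) (𝔏.𝒜 m z t)
  A_reads : ∀ m z t, Conf.ReadsSet (𝔏.Rg m z) (𝔏.𝒜 m z t)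
  G_reads : ∀ m ε z t, Conf.ReadsSet (𝔏.Rg m z) (𝔏.G m ε z t)
  kout_reads : ∀ m ε z t, Conf.Reads (𝔏.Rg m z) (𝔏.kout0 m ε z t)
  kin_reads : ∀ m ε z t, Conf.Reads (𝔏.Rg m z) (𝔏.kin0 m ε z t)

end PvrxLoc

theorem pvrx_eqns_cite : True := by
  have := @PvrxLoc.Rg.eq_1; have := @PvrxLoc.K.eq_1; have := @PvrxLoc.Hg.eq_1
  trivial

section far

variable {τ : Type} {𝔏 : PvrxLoc τ}

theorem pvrx_S_bdd (h : 𝔏.Wf) (m : ℕ) (z : ℂ) (t : τ) : Bornology.IsBounded (𝔏.S m z t) := Metric.isBounded_closedBall.subset (h.S_sub m z t)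

/-- the strip of a candidate misses the range of a far candidate -/
theorem pvrx_far (h : 𝔏.Wf) {m : ℕ} {z z' : ℂ} (hz : 2 * 𝔏.Lr * 𝔏.h m < ‖z - z'‖) (t : τ) : Disjoint (Prod.fst ⁻¹' 𝔏.S m z t) (𝔏.Rg m z') := by
  rw [Set.disjoint_left]
  intro p hp hp'
  have h1 : dist p.1 z ≤ 𝔏.Lr * 𝔏.h m := h.S_sub m z t hp
  have h2 : dist p.1 z' ≤ 𝔏.Lr * 𝔏.h m := hp'
  have h3 : ‖z - z'‖ ≤ dist p.1 z + dist p.1 z' := by
    rw [← dist_eq_norm, dist_comm p.1 z]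
    exact dist_triangle _ _ _
  linarith

theorem pvrx_far_strip (h : 𝔏.Wf) {m : ℕ} {z z' : ℂ} (hz : 2 * 𝔏.Lr * 𝔏.h m < ‖z - z'‖) (t t' : τ) : Disjoint (𝔏.S m z t) (𝔏.S m z' t') := by
  rw [Set.disjoint_left]
  intro p hp hp'
  have := Set.disjoint_left.1 (pvrx_far h hz t)
  exact this (show ((p, true) : PvPt) ∈ Prod.fst ⁻¹' 𝔏.S m z t from hp) (h.S_sub m z' t' hp')

/-- **`bl_G`** -/
theorem pvrx_bl_G (h : 𝔏.Wf) {m : ℕ} {z z' : ℂ} (hz : 2 * 𝔏.Lr * 𝔏.h m < ‖z - z'‖) (ε : ℝ) (t t' : τ) : (𝔏.K m z t).BlindS (𝔏.G m ε z' t') :=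
  pvrx_blindS (pvrx_blind_set (h.G_reads m ε z' t') (pvrx_far h hz t)) _ _

/-- **`bl_kin`** -/
theorem pvrx_bl_kin (h : 𝔏.Wf) {m : ℕ} {z z' : ℂ} (hz : 2 * 𝔏.Lr * 𝔏.h m < ‖z - z'‖) (ε : ℝ) (t t' : τ) : (𝔏.K m z t).Blind (𝔏.kin0 m ε z' t') :=
  pvrx_blind ((h.kin_reads m ε z' t').pvpBlind (pvrx_far h hz t)) _ _

/-- **`bl_gam`** -/
theorem pvrx_bl_gam (h : 𝔏.Wf) {m : ℕ} {z z' : ℂ} (hz : 2 * 𝔏.Lr * 𝔏.h m < ‖z - z'‖) (ε : ℝ) (t t' : τ) : (𝔏.K m z t).Blind ((𝔏.K m z' t').gam (𝔏.G m ε z' t')) :=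
  pvrx_gam_blind (pvrx_far_strip h hz t t').symm (pvrx_blind_set (h.A_reads m z' t') (pvrx_far h hz t)) (pvrx_blind_set (h.G_reads m ε z' t') (pvrx_far h hz t)) _ _ _

/-- **`bl_av`** -/
theorem pvrx_bl_av (h : 𝔏.Wf) {m : ℕ} {z z' : ℂ} (hz : 2 * 𝔏.Lr * 𝔏.h m < ‖z - z'‖) (ε : ℝ) (t t' : τ) :
    (𝔏.K m z t).Blind ((𝔏.K m z' t').Av ((𝔏.G m ε z' t').indicator (𝔏.kout0 m ε z' t'))) :=
  pvrx_av_blind (pvrx_far_strip h hz t t').symm (pvrx_blind_set (h.A_reads m z' t') (pvrx_far h hz t))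
    (pvrx_blind_ind (pvrx_blind_set (h.G_reads m ε z' t') (pvrx_far h hz t)) ((h.kout_reads m ε z' t').pvpBlind (pvrx_far h hz t))) _ _ _

end far

/-! ## 3. the data of record of road P -/

/-- **THE PARAMETERS OF ROAD P** -/
structure PvrxPar (τ : Type) (c : ℝ) where
  /-- the model of 185: numbers `M mu β p_*`, placed geometry `ty h z t`, QBX-good geometry, exact fit -/
  mod : PvspMod τ
  /-- the numbers of the finite menu (S6b) -/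
  𝔐 : PvbMenu τ
  /-- doors and reference words of level `m` -/
  Γ : ℕ → PvtsGeo τ
  /-- ONE reading radius, in units of `h`: all that belongs to the candidate `(z,t)` is read in `closedBall z (Lr h)` -/
  Lr : ℝ
  /-- the first level at which doors, funnels and cells fit in a plug (`δ_m ≪ h_m`): below it there are no usable states and no pins -/
  m0 : ℕ

namespace PvrxPar

variable {τ : Type} {c : ℝ} (𝔓 : PvrxPar τ c)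

/-- the placed geometry of the candidate `(z,t)` of level `m` -/
noncomputable def ty (m : ℕ) (z : ℂ) (t : τ) : PvspTy := 𝔓.mod.ty (pvlmH m) z t
/-- field `K` -/
noncomputable def K (m : ℕ) (z : ℂ) (t : τ) : PvrpK (Conf PvPt) (Finset ℂ) := 𝔓.mod.K (pvlmH m) z t
/-- **the candidate `(z,t)` of level `m` is SWITCHED ON** (v6, RULING P10 of 273): from the first level on, BLACK types only -/
def On (m : ℕ) (z : ℂ) (t : τ) : Prop := 𝔓.m0 ≤ m ∧ (𝔓.ty m z t).col = true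
/-- field `G`:   EMPTY unless the candidate is switched on -/
noncomputable def G (m : ℕ) (ε : ℝ) (z : ℂ) (t : τ) : Set (Conf PvPt) := {ξ | 𝔓.On m z t ∧ ξ ∈ 𝔓.mod.G ε (pvlmH m) z t}
/-- field `Hg` -/
noncomputable def Hg (m : ℕ) (z : ℂ) (t : τ) : Set (Conf PvPt) := 𝔓.mod.Hg (pvlmH m) z t
/-- field `pins`: the qualified pins of 185 with centre ON THE GRID `h ℤ²`, of the candidates which are switched on (first level, BLACK type: v6), WHOSE READING BALL LIES IN THE PATCH `clB(x,3R)` (v5: H7 of 186, M-C of 36;   outside `clB(x,6R)` a completion is arbitrary) -/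
def pins (x : ℂ) (R : ℝ) (m : ℕ) (ε : ℝ) (ω : PVSample) (P : PvbRim) : Set (PvbPin τ) :=
  {s | 𝔓.On m s.ctr s.typ ∧ ‖s.ctr - x‖ + 𝔓.Lr * pvlmH m ≤ 3 * R ∧ (∃ p : ℤ × ℤ, s.ctr = l9Pt (pvlmH m) p) ∧ s ∈ pvspPins 𝔓.mod ε (pvlmH m) x R ω P}
/-- the marked points which a candidate at `z` may read -/
def Rg (m : ℕ) (z : ℂ) : Set PvPt := Prod.fst ⁻¹' Metric.closedBall z (𝔓.Lr * pvlmH m)
/-- `ζ` is obtained from `ξ` by a move of POSITIVE WEIGHT of the preparation of the candidate `(z,t)` (a whitening of its strip which realises the lane event) -/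
def Mv (m : ℕ) (z : ℂ) (t : τ) (ξ ζ : Conf PvPt) : Prop := ∃ i ∈ (𝔓.K m z t).I ξ, (𝔓.K m z t).wt ξ i ≠ 0 ∧ ζ = (𝔓.K m z t).mv ξ i

/-- **explicit constraints on the parameters**: what THE GLUE of this file uses      (a LEMMA at the explicit parameter: `pvmh_wf` of 8 + windows in the ball `Lr h`) -/
structure Wf : Prop where
  ty_wf : ∀ m z t, (𝔓.ty m z t).Wf 𝔓.mod.N z (pvlmH m)
  pst0 : 0 < 𝔓.mod.N.pst
  /-- the three windows of a candidate lie in its reading ball -/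
  Ep_sub : ∀ m z t, (𝔓.ty m z t).Ep ⊆ Metric.closedBall z (𝔓.Lr * pvlmH m)
  Em_sub : ∀ m z t, (𝔓.ty m z t).Em ⊆ Metric.closedBall z (𝔓.Lr * pvlmH m)
  EJ_sub : ∀ m z t, (𝔓.ty m z t).EJ ⊆ Metric.closedBall z (𝔓.Lr * pvlmH m)
  QB_reads : ∀ m z, Conf.ReadsSet (𝔓.Rg m z) (𝔓.mod.QB (pvlmH m) z)

/-- **READING** -/
structure Rd : Prop where
  inc : ∀ m z t, PvpInc (pvspJ (𝔓.ty m z t)) (!(𝔓.ty m z t).col) (pvspLane 𝔓.mod.N (𝔓.ty m z t) (pvlmH m))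
  lane : ∀ m z t, Conf.ReadsSet (𝔓.Rg m z) (pvspLane 𝔓.mod.N (𝔓.ty m z t) (pvlmH m))
  G : ∀ m ε z t, Conf.ReadsSet (𝔓.Rg m z) (𝔓.G m ε z t)
  J_sub : ∀ m z t, pvspJ (𝔓.ty m z t) ⊆ Metric.closedBall z (𝔓.Lr * pvlmH m)

end PvrxPar

/-- **READING, PROVED** from sec. 6 of `Tr/StateP.lean` (185) -/
theorem pvrx_reads {τ : Type} {c : ℝ} {𝔓 : PvrxPar τ c} (h : 𝔓.Wf) : 𝔓.Rd where
  inc := fun m z t => pvsp_lane_inc _ _ _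
  lane := fun m z t => (pvsp_lane_reads _ _ _).mono (by rw [Set.prod_univ]; exact Set.preimage_mono (h.EJ_sub m z t))
  G := fun m ε z t η => and_congr_right fun _ =>
    pvsp_Gq_reads (h.ty_wf m z t) ε (W := 𝔓.Rg m z) (Set.preimage_mono (h.Ep_sub m z t)) (Set.preimage_mono (h.Em_sub m z t)) (h.QB_reads m z) η
  J_sub := fun m z t => (h.ty_wf m z t).J_sub.trans (h.EJ_sub m z t)

section roofs

variable {τ : Type} {c : ℝ} (𝔓 : PvrxPar τ c)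

/-- **PINS** = field `pinsOK`      [P8 P9 P14 P15: DI-P + DENSE-P] -/
def PvrxPinsOK (x : ℂ) (R : ℝ) : Prop :=
  PvhbOrd (fun m ε => ((pvhbUp ε).P {q | ¬ ∀ P ∈ pvdbBlk x R (pvMerge q),
    (∀ s ∈ 𝔓.pins x R m ε (pvMerge q) P, PvbIsPin 𝔓.𝔐 (pvlmH m) P s ∧ ∃ p : ℤ × ℤ, s.ctr = l9Pt (pvlmH m) p) ∧
    (∀ i i', i ≤ i' → i' ≤ P.len → (∀ k, i ≤ k → k ≤ i' → ‖P.v k - x‖ ≤ 2 * R) → pvlmR c m ≤ ‖P.v i' - P.v i‖ → ∃ s ∈ 𝔓.pins x R m ε (pvMerge q) P, i ≤ s.idx ∧ s.idx ≤ i')}).toReal)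

/-- **THE ANALYTIC DATA OF ROAD P, `Q` ALONE**: the numbers of `PvtyNumQ`, the FUNCTIONS OF THE STATE `kout0 kin0 ke0 cV0` and the `ν`-level statements on them.      GLOBAL: no ball in the data.
ORDINARY statements on the event `G` = "the state is usable": no preparation, no pins, no rims. -/
structure PvrxAna where
  /-- the three cell means of `Q` (TR25) -/
  W : ℕ → ℝ → PvtW
  /-- the constant of the reference plug -/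
  kin00 : ℕ → ℝ → ℂ
  CA : ℝ
  /-- TR28 (ii) -/
  a_bdd : ∀ m, ∀ᶠ ε in 𝓝[>] (0 : ℝ), ‖(𝔓.Γ m).a (W m ε)‖ ≤ CA
  /-- TR27 (hexagon) -/
  rel_lim : ∀ m, Tendsto (fun ε => (W m ε).rel) (𝓝[>] (0 : ℝ)) (𝓝 0)
  /-- the free constant of the cut point (283) -/
  kV : ℕ → ℝ → ℂ
  /-- arguments `m ε z t ξ` -/
  kout0 : ℕ → ℝ → ℂ → τ → Conf PvPt → ℂ
  kin0 : ℕ → ℝ → ℂ → τ → Conf PvPt → ℂ
  ke0 : ℕ → ℝ → ℂ → τ → Conf PvPt → ℂ
  /-- the cut point: (marked vertex of the state) − (`V`-mass of the inner arc before it with tag in the cut-off ball) -/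
  cV0 : ℕ → ℝ → ℂ → τ → Conf PvPt → ℂ
  kout_reads : ∀ m ε z t, Conf.Reads (𝔓.Rg m z) (kout0 m ε z t)
  kin_reads : ∀ m ε z t, Conf.Reads (𝔓.Rg m z) (kin0 m ε z t)
  /-- TR3' + TR2 + TR25 on `G` -/
  cyc1ν : ∀ (m : ℕ) (p : ℤ × ℤ) (t : τ), Tendsto (fun ε => (pvhbUp ε).E (fun q => (𝔓.G m ε (l9Pt (pvlmH m) p) t).indicator (fun ξ =>
    ‖kout0 m ε (l9Pt (pvlmH m) p) t ξ + pvtSum (W m ε) ((𝔓.Γ m).dout t) ((𝔓.Γ m).l1 t) + kin00 m ε + ke0 m ε (l9Pt (pvlmH m) p) t ξ‖ₑ ^ 2) (pvConf (pvMerge q)))) (𝓝[>] (0 : ℝ)) (𝓝 0)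
  Ce0 : ℝ
  /-- TR5 + I.BES + the deterministic masks on `G` -/
  thickν : ∀ (m : ℕ) (p : ℤ × ℤ) (t : τ), ∀ᶠ ε in 𝓝[>] (0 : ℝ),
    (pvhbUp ε).E (fun q => (𝔓.G m ε (l9Pt (pvlmH m) p) t).indicator (fun ξ => ‖ke0 m ε (l9Pt (pvlmH m) p) t ξ‖ₑ ^ 2) (pvConf (pvMerge q))) ≤ ENNReal.ofReal (Ce0 * pvlmH m ^ 2)
  CV0 : ℝ
  /-- `thick` for the weight `side`, pathwise, mask `M-` -/
  thickVν : ∀ (m : ℕ) (p : ℤ × ℤ) (t : τ), ∀ᶠ ε in 𝓝[>] (0 : ℝ),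
    (pvhbUp ε).E (fun q => (𝔓.G m ε (l9Pt (pvlmH m) p) t).indicator (fun ξ => ‖cV0 m ε (l9Pt (pvlmH m) p) t ξ - l9Pt (pvlmH m) p - (𝔓.Γ m).zu t - kV m ε‖ₑ ^ 2) (pvConf (pvMerge q)))
      ≤ ENNReal.ofReal (CV0 * pvlmH m ^ 2)

/-- **PATTERNS AND FIT** in the patch `(x,R)`: DATA (no probability) -/
structure PvrxPat (x : ℂ) (R : ℝ) where
  Pat : ℕ → Type
  Pat_fin : ∀ m, Finite (Pat m)
  pat : ∀ m, Pat m → PvtsPat τ
  pat_ok : ∀ m π, (𝔓.Γ m).Ok (pat m π)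
  /-- the two candidates of a pattern are far apart (⟹ blindness, at EVERY level;   for small `m` `Pat m` may be empty: `cover` is eventual in `m`) -/
  far : ∀ m π, 2 * 𝔓.Lr * pvlmH m < ‖(pat m π).zs - (pat m π).zt‖
  Fit : ∀ m : ℕ, ℝ → PVSample → PvbRim → PvbPin τ → PvbPin τ → Pat m → Prop
  fit_s : ∀ m ε ω P s t π, Fit m ε ω P s t π → s.ctr = (pat m π).zs ∧ s.typ = (pat m π).ts
  fit_t : ∀ m ε ω P s t π, Fit m ε ω P s t π → t.ctr = (pat m π).zt ∧ t.typ = (pat m π).tt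

variable {𝔓}

/-- **COVER** = field `cover`: TR20 with the tentacled obstacles (P10 = M8) -/
def PvrxCover {x : ℂ} {R : ℝ} (𝔇 : PvrxPat 𝔓 x R) : Prop :=
  PvhbOrd (fun m ε => ((pvhbUp ε).P {q | ¬ ∀ P ∈ pvdbBlk x R (pvMerge q), ∀ s ∈ 𝔓.pins x R m ε (pvMerge q) P, ∀ t ∈ 𝔓.pins x R m ε (pvMerge q) P, s.idx < t.idx →
    (∀ k, s.idx ≤ k → k ≤ t.idx → ‖P.v k - x‖ ≤ 2 * R) → R / 3 ≤ ‖s.ctr - t.ctr‖ → ∃ π : 𝔇.Pat m, 𝔇.Fit m ε (pvMerge q) P s t π}).toReal)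

/-- **THE FREE ARC OF ROAD P** in the patch `(x,R)`: the integrand `Z_π`, STAB, `N1` for `Q`;   the cut point of a pin, RIM ⟹ STATE, (A4) for `V` -/
structure PvrxArc (𝔄 : PvrxAna 𝔓) {x : ℂ} {R : ℝ} (𝔇 : PvrxPat 𝔓 x R) where
  /-- P17: the integrand of the free arc   (ANY function) -/
  Z : ∀ m : ℕ, ℝ → 𝔇.Pat m → Conf PvPt → ℝ≥0∞
  /-- **P12 STAB + P17 (b)** (deterministic; asked for small `ε` only): after ANY preparation of positive weight of the two strips which makes both states usable, the actual arc is one of the arcs counted by `Z_π` -/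
  stab : ∀ (m : ℕ) (π : 𝔇.Pat m), ∀ᶠ ε in 𝓝[>] (0 : ℝ), ∀ ω : PVSample, DelgpOk ω → ∀ P ∈ pvdbBlk x R ω, ∀ s ∈ 𝔓.pins x R m ε ω P, ∀ t ∈ 𝔓.pins x R m ε ω P, 𝔇.Fit m ε ω P s t π →
    ∀ ξ ζ : Conf PvPt, 𝔓.Mv m s.ctr s.typ (pvConf ω) ξ → 𝔓.Mv m t.ctr t.typ ξ ζ → ζ ∈ 𝔓.G m ε s.ctr s.typ → ζ ∈ 𝔓.G m ε t.ctr t.typ →
      ‖pvbArcI 𝔓.𝔐 (pvlmH m) P P.xQ s t +
        (𝔄.kout0 m ε t.ctr t.typ ζ + pvtSum (𝔄.W m ε) ((𝔓.Γ m).dout (𝔇.pat m π).tt) (𝔇.pat m π).l + 𝔄.kin0 m ε s.ctr s.typ ζ)‖ₑ ^ 2 ≤ Z m ε π ζ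
  /-- **P17 (a)** = N1 for region states: an ORDINARY `ν`-statement -/
  n1ν : ∀ (m : ℕ) (π : 𝔇.Pat m), Tendsto (fun ε => (pvhbUp ε).E (fun q => Z m ε π (pvConf (pvMerge q)))) (𝓝[>] (0 : ℝ)) (𝓝 0)
  /-- the cut point of a pin of a rim:   in the model `P.v s.idx - ∑_{k < s.idx, tag in the cut-off ball of s} P.xV k` -/
  cP : ℕ → ℝ → PVSample → PvbRim → PvbPin τ → ℂ
  /-- RIM ⟹ STATE for the cut point, AT THE TWO PINS OF A FITTING ARC: every usable prepared state carries the cut point of the rim (deterministic; small `ε` only) -/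
  stabV : ∀ (m : ℕ) (π : 𝔇.Pat m), ∀ᶠ ε in 𝓝[>] (0 : ℝ), ∀ ω : PVSample, DelgpOk ω → ∀ P ∈ pvdbBlk x R ω, ∀ s ∈ 𝔓.pins x R m ε ω P, ∀ t ∈ 𝔓.pins x R m ε ω P, 𝔇.Fit m ε ω P s t π →
    (∀ ξ : Conf PvPt, 𝔓.Mv m s.ctr s.typ (pvConf ω) ξ → ξ ∈ 𝔓.G m ε s.ctr s.typ → 𝔄.cV0 m ε s.ctr s.typ ξ = cP m ε ω P s) ∧
    (∀ ξ : Conf PvPt, 𝔓.Mv m t.ctr t.typ (pvConf ω) ξ → ξ ∈ 𝔓.G m ε t.ctr t.typ → 𝔄.cV0 m ε t.ctr t.typ ξ = cP m ε ω P t)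
  /-- (A4), deterministic: TRAP + far apart + mesh (the mesh goes into `Fit`;   small `ε` only) -/
  telP : ∀ (m : ℕ) (π : 𝔇.Pat m), ∀ᶠ ε in 𝓝[>] (0 : ℝ), ∀ ω : PVSample, DelgpOk ω → ∀ P ∈ pvdbBlk x R ω, ∀ s ∈ 𝔓.pins x R m ε ω P, ∀ t ∈ 𝔓.pins x R m ε ω P, 𝔇.Fit m ε ω P s t π →
    pvbArcI 𝔓.𝔐 (pvlmH m) P P.xV s t = cP m ε ω P t - cP m ε ω P s

/-- the numbers of the wall -/
noncomputable def PvrxAna.toNum (𝔄 : PvrxAna 𝔓) (c0 : 0 < c) : PvtyNumQ τ c where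
  𝔐 := 𝔓.𝔐
  h := pvlmH
  r := pvlmR c
  h0 := pvlm_H_pos
  h_lim := pvlm_H_lim
  r_lim := (pvlm_R_spec c0 𝔓.𝔐.L).1
  Lh_r := (pvlm_R_spec c0 𝔓.𝔐.L).2.1
  lim2 := (pvlm_R_spec c0 𝔓.𝔐.L).2.2
  Γ := 𝔓.Γ
  W := 𝔄.W
  kin0 := 𝔄.kin00
  CA := 𝔄.CA
  a_bdd := 𝔄.a_bdd
  rel_lim := 𝔄.rel_lim

/-- the local data of sec. 2 at the data of record -/
noncomputable def PvrxAna.loc (𝔄 : PvrxAna 𝔓) : PvrxLoc τ where
  h := pvlmH
  Lr := 𝔓.Lr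
  S := fun m z t => pvspJ (𝔓.ty m z t)
  b := fun m z t => !(𝔓.ty m z t).col
  𝒜 := fun m z t => pvspLane 𝔓.mod.N (𝔓.ty m z t) (pvlmH m)
  ps := 𝔓.mod.N.pst
  G := 𝔓.G
  kout0 := 𝔄.kout0
  kin0 := 𝔄.kin0

theorem pvrx_loc_K (𝔄 : PvrxAna 𝔓) (m : ℕ) (z : ℂ) (t : τ) : 𝔄.loc.K m z t = 𝔓.K m z t := rfl

theorem pvrx_loc_Hg (𝔄 : PvrxAna 𝔓) (m : ℕ) (z : ℂ) (t : τ) : 𝔄.loc.Hg m z t = 𝔓.Hg m z t := rfl

theorem pvrx_loc_wf (𝔄 : PvrxAna 𝔓) (hW : 𝔓.Wf) : 𝔄.loc.Wf where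
  ps_pos := hW.pst0
  S_meas := fun m z t => (hW.ty_wf m z t).mMm.union (hW.ty_wf m z t).mMp
  S_sub := (pvrx_reads hW).J_sub
  inc := (pvrx_reads hW).inc
  A_reads := (pvrx_reads hW).lane
  G_reads := (pvrx_reads hW).G
  kout_reads := 𝔄.kout_reads
  kin_reads := 𝔄.kin_reads

end roofs

theorem pvrx_eqns_cite2 : True := by
  have := @PvrxPar.ty.eq_1; have := @PvrxPar.K.eq_1; have := @PvrxPar.On.eq_1; have := @PvrxPar.G.eq_1; have := @PvrxPar.Hg.eq_1; have := @PvrxPar.pins.eq_1; have := @PvrxPar.Rg.eq_1; have := @PvrxPar.Mv.eq_1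
  have := @PvrxPinsOK.eq_1; have := @PvrxCover.eq_1; have := @PvrxAna.toNum.eq_1; have := @PvrxAna.loc.eq_1
  trivial

/-! ## 4. the roof of road P at the data of record -/

section port

variable {τ : Type} {c : ℝ} {𝔓 : PvrxPar τ c}

theorem pvrx_Rg_bdd (𝔓 : PvrxPar τ c) (m : ℕ) (z : ℂ) : Bornology.IsBounded (Prod.fst '' 𝔓.Rg m z) :=
  Metric.isBounded_closedBall.subset (Set.image_preimage_subset _ _)

/-- the sections of the lane event at a fixed geometry are measurable -/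
theorem pvrx_lane_sec (hW : 𝔓.Wf) (m : ℕ) (z : ℂ) (t : τ) (g : PvGeoT) (hg : PvgOk g) :
    MeasurableSet {k : PvColT | pvConf (pvMerge (g, k)) ∈ pvspLane 𝔓.mod.N (𝔓.ty m z t) (pvlmH m)} :=
  pvnz_sec_meas (pvrx_Rg_bdd 𝔓 m z) ((pvrx_reads hW).lane m z t) hg

theorem pvrx_J_bdd (hW : 𝔓.Wf) (m : ℕ) (z : ℂ) (t : τ) : Bornology.IsBounded (pvspJ (𝔓.ty m z t)) := Metric.isBounded_closedBall.subset ((pvrx_reads hW).J_sub m z t)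

/-- **field `dom1`** -/
theorem pvrx_dom1 (hW : 𝔓.Wf) (m : ℕ) (ε : ℝ) (z : ℂ) (t : τ) (F : Conf PvPt → ℝ≥0∞) :
    (pvhbUp ε).E (fun q => (𝔓.Hg m z t).indicator ((𝔓.K m z t).Op F) (pvConf (pvMerge q))) ≤ ENNReal.ofReal 𝔓.mod.N.pst⁻¹ * (pvhbUp ε).E (fun q => F (pvConf (pvMerge q))) :=
  pvnz_K_dom1 ε (pvrx_J_bdd hW m z t) ((pvrx_reads hW).inc m z t) (pvrx_lane_sec hW m z t) hW.pst0 F

/-- **field `dom2`** -/
theorem pvrx_dom2 (𝔄 : PvrxAna 𝔓) (hW : 𝔓.Wf) (m : ℕ) (ε : ℝ) {z z' : ℂ} (hz : 2 * 𝔓.Lr * pvlmH m < ‖z - z'‖) (t t' : τ) (Z : Conf PvPt → ℝ≥0∞) :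
    (pvhbUp ε).E (fun q => (𝔓.Hg m z t ∩ 𝔓.Hg m z' t').indicator ((𝔓.K m z t).Op ((𝔓.K m z' t').Op Z)) (pvConf (pvMerge q)))
      ≤ ENNReal.ofReal (𝔓.mod.N.pst⁻¹ ^ 2) * (pvhbUp ε).E (fun q => Z (pvConf (pvMerge q))) :=
  pvnz_K_dom2 ε (pvrx_far_strip (pvrx_loc_wf 𝔄 hW) hz t t') (pvrx_J_bdd hW m z t) (pvrx_J_bdd hW m z' t') ((pvrx_reads hW).inc m z t) ((pvrx_reads hW).inc m z' t')
    (pvrx_lane_sec hW m z t) (pvrx_lane_sec hW m z' t') (pvrx_blind_set ((pvrx_reads hW).lane m z' t') (pvrx_far (pvrx_loc_wf 𝔄 hW) hz t)) hW.pst0 Z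

/-- at a candidate which is switched on the usable states are those of 185 -/
theorem pvrx_G_eq (𝔓 : PvrxPar τ c) {m : ℕ} {z : ℂ} {t : τ} (hm : 𝔓.On m z t) (ε : ℝ) : 𝔓.G m ε z t = 𝔓.mod.G ε (pvlmH m) z t := by
  ext ξ
  exact ⟨fun h => h.2, fun h => ⟨hm, h⟩⟩

/-- **field `pin_U`** -/
theorem pvrx_pin_U (𝔓 : PvrxPar τ c) {x : ℂ} {R : ℝ} {m : ℕ} {ε : ℝ} {ω : PVSample} {P : PvbRim} {s : PvbPin τ} (hs : s ∈ 𝔓.pins x R m ε ω P) :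
    pvConf ω ∈ 𝔓.Hg m s.ctr s.typ ∧ 1 / 2 ≤ (𝔓.K m s.ctr s.typ).gam (𝔓.G m ε s.ctr s.typ) (pvConf ω) := by
  rw [pvrx_G_eq 𝔓 hs.1]
  exact ⟨hs.2.2.2.hg, hs.2.2.2.gam⟩

/-- **THE BASE OF 286 (`PvrpBaseQ`) AT THE DATA OF RECORD**: data + `pin_U` + `dom1`.      The potentials of road P are `(pvrxBase ..).kout .kin .ke .cV` = normalised averages of `kout0 kin0 ke0 cV0` -/
noncomputable def pvrxBase (𝔄 : PvrxAna 𝔓) {x : ℂ} {R : ℝ} (𝔇 : PvrxPat 𝔓 x R) (c0 : 0 < c) (hW : 𝔓.Wf) : PvrpBaseQ (𝔄.toNum c0) pvhbUp (Conf PvPt) (Finset ℂ) where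
  cf := fun q => pvConf (pvMerge q)
  Ok := {q | DelgpOk (pvMerge q)}
  Ok_ae := pvru_ok
  K := fun m _ z t => 𝔓.K m z t
  G := 𝔓.G
  Hg := fun m _ z t => 𝔓.Hg m z t
  kout0 := 𝔄.kout0
  kin0 := 𝔄.kin0
  ke0 := 𝔄.ke0
  cV0 := 𝔄.cV0
  pins := fun m ε q P => 𝔓.pins x R m ε (pvMerge q) P
  pin_U := fun _ _ _ _ _ hs => pvrx_pin_U 𝔓 hs
  Pat := 𝔇.Pat
  Pat_fin := 𝔇.Pat_fin
  pat := 𝔇.pat
  pat_ok := 𝔇.pat_ok
  Fit := fun m ε q => 𝔇.Fit m ε (pvMerge q)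
  fit_s := fun m ε q => 𝔇.fit_s m ε (pvMerge q)
  fit_t := fun m ε q => 𝔇.fit_t m ε (pvMerge q)
  Cp := 𝔓.mod.N.pst⁻¹
  Cp0 := (inv_pos.2 hW.pst0).le
  dom1 := fun m ε z t F => pvrx_dom1 hW m ε z t F

/-- the four blindness facts of a pattern -/
theorem pvrx_bl (𝔄 : PvrxAna 𝔓) {x : ℂ} {R : ℝ} (𝔇 : PvrxPat 𝔓 x R) (c0 : 0 < c) (hW : 𝔓.Wf) (m : ℕ) (ε : ℝ) (π : 𝔇.Pat m) : (pvrxBase 𝔄 𝔇 c0 hW).Bl m ε π where
  bl_G := pvrx_bl_G (pvrx_loc_wf 𝔄 hW) (by rw [norm_sub_rev]; exact 𝔇.far m π) ε _ _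
  bl_kin := pvrx_bl_kin (pvrx_loc_wf 𝔄 hW) (by rw [norm_sub_rev]; exact 𝔇.far m π) ε _ _
  bl_gam := pvrx_bl_gam (pvrx_loc_wf 𝔄 hW) (𝔇.far m π) ε _ _
  bl_av := pvrx_bl_av (pvrx_loc_wf 𝔄 hW) (𝔇.far m π) ε _ _

/-- **field `tel`**: probability `0` (as `pvru_q_tel` of 286, with `stabV` at the two pins of the fitting arc only) -/
theorem pvrx_tel {𝔄 : PvrxAna 𝔓} {x : ℂ} {R : ℝ} {𝔇 : PvrxPat 𝔓 x R} (𝔅 : PvrxArc 𝔄 𝔇) (c0 : 0 < c) (hW : 𝔓.Wf) (m : ℕ) (π : 𝔇.Pat m) {u : ℝ} (hu : 0 < u) :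
    Tendsto (fun ε => ((pvhbUp ε).P ((pvrxBase 𝔄 𝔇 c0 hW).BadTel (fun q => pvdbBlk x R (pvMerge q)) m π u ε)).toReal) (𝓝[>] (0 : ℝ)) (𝓝 0) := by
  refine (tendsto_const_nhds (x := (0 : ℝ))).congr' ?_
  filter_upwards [𝔅.stabV m π, 𝔅.telP m π] with ε h1 h2
  have h0 : (pvhbUp ε).P ((pvrxBase 𝔄 𝔇 c0 hW).BadTel (fun q => pvdbBlk x R (pvMerge q)) m π u ε) = 0 := by
    refine le_antisymm (le_trans ((pvhbUp ε).P_mono ?_) (le_of_eq (pvru_ok ε))) zero_le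
    rintro q ⟨P, hP, s, hs, t, ht, ⟨hF, -⟩, hlt⟩ hq
    obtain ⟨hs', ht'⟩ := h1 (pvMerge q) hq P hP s hs t ht hF
    rw [pvru_q_cV_eq (pvrxBase 𝔄 𝔇 c0 hW) hs (v := 𝔅.cP m ε (pvMerge q) P s) (fun i hi hi0 hG => hs' _ ⟨i, hi, hi0, rfl⟩ hG),
      pvru_q_cV_eq (pvrxBase 𝔄 𝔇 c0 hW) ht (v := 𝔅.cP m ε (pvMerge q) P t) (fun i hi hi0 hG => ht' _ ⟨i, hi, hi0, rfl⟩ hG)] at hlt
    have e := h2 (pvMerge q) hq P hP s hs t ht hF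
    have e' : pvbArcI (𝔄.toNum c0).𝔐 ((𝔄.toNum c0).h m) P P.xV s t = 𝔅.cP m ε (pvMerge q) P t - 𝔅.cP m ε (pvMerge q) P s := e
    rw [e', sub_self, norm_zero] at hlt
    exact absurd hlt (not_lt.2 hu.le)
  rw [h0]
  rfl

/-- **THE RECORD OF 283 (`PvtyLocQ`) AT THE DATA OF RECORD**, by the modular roof of 286 -/
noncomputable def PvrxArc.toLoc {𝔄 : PvrxAna 𝔓} {x : ℂ} {R : ℝ} {𝔇 : PvrxPat 𝔓 x R} (𝔅 : PvrxArc 𝔄 𝔇) (c0 : 0 < c) (hW : 𝔓.Wf) (hP : PvrxPinsOK 𝔓 x R) (hC : PvrxCover 𝔇) :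
    PvtyLocQ (𝔄.toNum c0) 𝔄.kV pvhbUp (fun q => pvdbBlk x R (pvMerge q)) x R :=
  (pvrxBase 𝔄 𝔇 c0 hW).toLocQ 𝔄.kV _ x R hP hC
    (fun m π _ hu => pvru_q_n1 (pvrxBase 𝔄 𝔇 c0 hW) (Z := fun ε => 𝔅.Z m ε π)
      ((𝔅.stab m π).mono fun _ h q hq P hP s hs t ht hF i hi hi0 j hj hj0 h1 h2 => h (pvMerge q) hq P hP s hs t ht hF _ _ ⟨i, hi, hi0, rfl⟩ ⟨j, hj, hj0, rfl⟩ h1 h2)
      (Eventually.of_forall fun ε => pvrx_bl 𝔄 𝔇 c0 hW m ε π)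
      (Eventually.of_forall fun ε => pvrx_dom2 𝔄 hW m ε (𝔇.far m π) _ _ _) (𝔅.n1ν m π) hu)
    (fun m p t _ => pvru_q_cyc1 (pvrxBase 𝔄 𝔇 c0 hW) m _ t (𝔄.cyc1ν m p t))
    (4 * 𝔓.mod.N.pst⁻¹ * 𝔄.Ce0)
    (fun m p t _ => pvru_q_thick (pvrxBase 𝔄 𝔇 c0 hW) m _ t (𝔄.thickν m p t))
    (fun m π _ hu => pvrx_tel 𝔅 c0 hW m π hu)
    (4 * 𝔓.mod.N.pst⁻¹ * 𝔄.CV0)
    (fun m p t _ => pvru_q_cVL2 (pvrxBase 𝔄 𝔇 c0 hW) 𝔄.kV m _ t (𝔄.thickVν m p t))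

theorem pvrx_eqns_cite3 : True := by
  have := @pvrxBase.eq_1; have := @PvrxArc.toLoc.eq_1
  trivial

end port

/-! ## 5. the wall from one parameter -/

/-- **ALL THAT ROAD P OWES, AT ONE PARAMETER** -/
structure PvrxAll {τ : Type} {c : ℝ} (𝔓 : PvrxPar τ c) : Prop where
  /-- [8 `Tr/ModP.lean` (`pvmh_wf`), 186 `Tr/NumP.lean`] -/
  wf : 𝔓.Wf
  /-- [pen 8 `Exit/PinsP.lean`;  12 101 220 36 212 281] -/
  pins : ∀ (x : ℂ) (R : ℝ), 0 < R → PvrxPinsOK 𝔓 x R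
  /-- [`𝔄`: 58 `Exit/AnaP.lean`, 95, 263, numbers 34 259 52;  `𝔇`: 138 222;  cover: pen 236 `Exit/CoverP.lean`;  arc: 279 286 59 / 212 113 97 / 263] -/
  ana : ∃ 𝔄 : PvrxAna 𝔓, ∀ (x : ℂ) (R : ℝ), 0 < R → ∃ 𝔇 : PvrxPat 𝔓 x R, PvrxCover 𝔇 ∧ Nonempty (PvrxArc 𝔄 𝔇)

/-- **THE WALL FROM ONE PARAMETER OF ROAD P** -/
theorem pvrx_exit_of {τ : Type} [Fintype τ] [Nonempty τ] {c : ℝ} (c0 : 0 < c) {𝔓 : PvrxPar τ c} (H : PvrxAll 𝔓) : L9ExitTR c := by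
  obtain ⟨𝔄, hA⟩ := H.ana
  refine pvdb_exit c0 τ (𝔄.toNum c0) 𝔄.kV fun x R hR => ?_
  obtain ⟨𝔇, hC, ⟨𝔅⟩⟩ := hA x R hR
  exact ⟨𝔅.toLoc c0 H.wf (H.pins x R hR) hC⟩

end Claimed.Agent.R289
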