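import Claimed.Agent.R289.Defs.TrModel
import Claimed.Agent.R289.Tr.Dom
import Claimed.Agent.R289.S1.Closed
import Claimed.Agent.R289.Tr.Geo
import Claimed.Agent.R289.Tr.DomY

/-!
# Row 289 (S0537), THE WALL, Exit/N1 : ROOF OF THE FIELD `n1` OF `PvhbLocU` / `PvxAna` (E5 of `W1_208_v3.md`, THEOREM N1')      (pen helper170; second pens 274 60 191; prefix `pvxn_`, `pvxn`, `Pvxn`)

LEVELS.   `PvxAna.n1` (187, `Defs/TrModel`)  ⟸  **`pvxn_n1`** (sec. 3, PROVED)  ⟸  for every pattern a record **`PvxnIn`** (sec. 2) = [a system `S ε : PvdmSys ι` of 159 with `Hyp`] + (TAIL) + (GEO) + (ACT).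
The probability is finished here: TR23 in the upper form (`pvdm_up_cheb`, 159, 0 sorry) + Chebyshev + union with the bad geometry, over `pvhbUp ε = PvUp.iter (pvGeo ε) pvCol`; NO measurability of anything about rims.
* sec. 1  `pvxn_roof`   abstract: `Hyp`, `q ≤ S.q`, `E[H] → 0`, `P(G) → 0`, `B ⊆ G ∪ {∃ i, A i, u ≤ |X i + ŷ i|}`  ⟹  `P(B) → 0`                                                            PROVED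
* sec. 2  `PvxnIn 𝔓 x R m π a K`   THE CONTRACT for one pattern; `K ε ω` = the number `kout(t) + pvtSum W + kin(s)` of the Hub.      Fields = the sub-exits, with owners
* sec. 3  `pvxn_pat` (one pattern), **`pvxn_n1`** (= the field `n1` of `PvxAna`, verbatim, for ANY `kout kin W` which have contracts)                                                              PROVED
* sec. 4  the majorant of record `pvxnH ε B a₀ D = D · Θ` (`Θ` = measurable version of `pvclSum · B a₀`, I.TAIL = `pvcl_closed`): `pvxn_H_meas`, `pvxn_H_ae`, `pvxn_H_lim`                          PROVED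
* sec. 5  THE INSTANCE, semi-concrete: `PvxnKit` (`C r E W N B q` = what v3 leaves free: D17 `E(D)`, D18 `WO`, read sites), `PvxnIx` (label free index `F N g X`), `PvxnYd` (`w Y ŷ D_c`), `PvxnWit` (a datum of index `i`: `PvwDat.Ok`, `Cyl`, labels, hulls of `π`,
          read sites finite and FAR from `C`), `PvxnPA`, `PvxnPW`, **`pvxnSys`**.      `frz yf X` are CONSTANTS of the index;   `hq` holds BY CONSTRUCTION (clause `P(WO | D) ≥ q` inside `A i`);   clause `uni` gives (C2) one datum for `E` and `WO`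
* sec. 6  sub-exits.   ANY kit: `pvxn_fin pvxn_dis pvxn_hq` PROVED, `pvxn_ok_ae pvxn_cnt` open.   **`PvxnOk 𝔓 x R m π a 𝔎 𝔜 G K`** = the list of what kit + `Y` side + bad event must satisfy
          (`E_mono W_mono yh_stab mw mY rd jen dom geo act`: one field = one sub-exit with owners);   `PvxnOk.stab stabW` open;   `PvxnOk.hyp`, `PvxnOk.toIn`, **`pvxn_n1_kit`** PROVED
COLOUR.   `PvdmSys` is typed for events decreasing in `true`; a rim of colour `b = 𝔓.col π.p.ts` is read on `pvxnFl b ζ` (`cfFlip` if `b = false`); `pvxn_up_flip`: `pvhbUp` is flip invariant.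
-/

set_option autoImplicit false

namespace Claimed.Agent.R289

open MeasureTheory Filter Topology Set Claims.C0465
open scoped ENNReal

/-! ## 1. the abstract roof -/

/-- the configuration seen by a rim of colour `b`: `true` = the colour of the rim (`PvdmSys` is typed for events DECREASING in `true`) -/
def pvxnFl (b : Bool) (ζ : Conf PvPt) : Conf PvPt := if b then ζ else cfFlip ζ

/-- the two-level upper probability is invariant under the colour flip (no measurability) -/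
theorem pvxn_up_flip (ε : ℝ) (A : Set (PvGeoT × PvColT)) : (pvhbUp ε).P {p | (p.1, pvColFlip p.2) ∈ A} = (pvhbUp ε).P A := by
  unfold pvhbUp
  rw [pvup_iter_P, pvup_iter_P]
  congr 1
  funext g
  exact pvqu_col_flip.measure_preimage_equiv {k | (g, k) ∈ A}

/-- **THE ROOF, ABSTRACT**: cylinder domination + Chebyshev + bad geometry, over the two-level upper expectation -/
theorem pvxn_roof {ι : Type*} (S : ℝ → PvdmSys ι) {q : ℝ≥0∞} (hq0 : q ≠ 0)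
    (hS : ∀ᶠ ε in 𝓝[>] (0 : ℝ), (S ε).Hyp ε ∧ q ≤ (S ε).q)
    (hH : Tendsto (fun ε => ∫⁻ ω, (S ε).H ω ∂pvP ε) (𝓝[>] (0 : ℝ)) (𝓝 0))
    (G : ℝ → Set (PvGeoT × PvColT)) (hG : Tendsto (fun ε => (pvhbUp ε).P (G ε)) (𝓝[>] (0 : ℝ)) (𝓝 0))
    (B : ℝ → Set (PvGeoT × PvColT)) {u : ℝ} (hu : 0 < u) (b : Bool)
    (hB : ∀ᶠ ε in 𝓝[>] (0 : ℝ), ∀ p ∈ B ε, p ∈ G ε ∨
      ∃ i, pvxnFl b (pvConf (pvMerge p)) ∈ (S ε).A i ∧ u ≤ ‖(S ε).X i (pvxnFl b (pvConf (pvMerge p))) + (S ε).yh i (pvxnFl b (pvConf (pvMerge p)))‖) :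
    Tendsto (fun ε => ((pvhbUp ε).P (B ε)).toReal) (𝓝[>] (0 : ℝ)) (𝓝 0) := by
  set q' : ℝ≥0∞ := min q 1 with hq'
  have q0 : q' ≠ 0 := by simp [hq', hq0]
  have q1 : q' ≠ ⊤ := ne_top_of_le_ne_top ENNReal.one_ne_top (min_le_right _ _)
  set k : ℝ≥0∞ := q' * ENNReal.ofReal u ^ 2 with hk
  have k0 : k ≠ 0 := mul_ne_zero q0 (pow_ne_zero _ (by simpa using hu))
  have k1 : k ≠ ⊤ := ENNReal.mul_ne_top q1 (ENNReal.pow_ne_top ENNReal.ofReal_ne_top)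
  have hlim : Tendsto (fun ε => (pvhbUp ε).P (G ε) + (∫⁻ ω, (S ε).H ω ∂pvP ε) / k) (𝓝[>] (0 : ℝ)) (𝓝 0) := by
    have h2 := ENNReal.Tendsto.div_const hH (b := k) (Or.inr k0)
    rw [ENNReal.zero_div] at h2
    simpa using hG.add h2
  have hle : ∀ᶠ ε in 𝓝[>] (0 : ℝ), (pvhbUp ε).P (B ε) ≤ (pvhbUp ε).P (G ε) + (∫⁻ ω, (S ε).H ω ∂pvP ε) / k := by
    filter_upwards [hS, hB] with ε h1 h2
    set B' : Set (PvGeoT × PvColT) := {p | ∃ i, pvConf (pvMerge p) ∈ (S ε).A i ∧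
      ENNReal.ofReal u ≤ ‖(S ε).X i (pvConf (pvMerge p)) + (S ε).yh i (pvConf (pvMerge p))‖ₑ} with hB'
    have s1 : ∃ B'' : Set (PvGeoT × PvColT), B ε ⊆ G ε ∪ B'' ∧ (pvhbUp ε).P B'' = (pvhbUp ε).P B' := by
      cases b
      · refine ⟨{p | (p.1, pvColFlip p.2) ∈ B'}, fun p hp => ?_, pvxn_up_flip ε B'⟩
        rcases h2 p hp with h | ⟨i, hi, hui⟩
        · exact Or.inl h
        · have e : pvxnFl false (pvConf (pvMerge p)) = pvConf (pvMerge (p.1, pvColFlip p.2)) := pvqu_flip_conf p.1 p.2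
          rw [e] at hi hui
          refine Or.inr ⟨i, hi, ?_⟩
          rw [← ofReal_norm]
          exact ENNReal.ofReal_le_ofReal hui
      · refine ⟨B', fun p hp => ?_, rfl⟩
        rcases h2 p hp with h | ⟨i, hi, hui⟩
        · exact Or.inl h
        · refine Or.inr ⟨i, hi, ?_⟩
          rw [← ofReal_norm]
          exact ENNReal.ofReal_le_ofReal hui
    obtain ⟨B'', s1, s1'⟩ := s1
    have s2 : (S ε).q * (ENNReal.ofReal u ^ 2 * (pvhbUp ε).P B') ≤ ∫⁻ ω, (S ε).H ω ∂pvP ε :=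
      pvdm_up_cheb h1.1 (B := B') (u := ENNReal.ofReal u) fun p hp => hp
    have s3 : (pvhbUp ε).P B' ≤ (∫⁻ ω, (S ε).H ω ∂pvP ε) / k := by
      rw [ENNReal.le_div_iff_mul_le (Or.inl k0) (Or.inl k1)]
      refine le_trans ?_ s2
      rw [hk, mul_comm, mul_assoc]
      exact mul_le_mul_left ((min_le_left _ _).trans h1.2) _
    rw [← s1'] at s3
    exact ((pvhbUp ε).P_mono s1).trans (((pvhbUp ε).P_union_le _ _).trans (by gcongr))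
  have hz : Tendsto (fun ε => (pvhbUp ε).P (B ε)) (𝓝[>] (0 : ℝ)) (𝓝 0) :=
    tendsto_of_tendsto_of_tendsto_of_le_of_le' tendsto_const_nhds hlim (Eventually.of_forall fun _ => zero_le) hle
  have := (ENNReal.tendsto_toReal ENNReal.zero_ne_top).comp hz
  simpa [Function.comp_def] using this

/-! ## 2. the contract for one pattern -/

section contract

variable {τ : Type} {c : ℝ}

/-- **THE CONTRACT OF N1' FOR ONE PATTERN `π`** of level `m` in the patch `(x,R)`, field `y_a = Q - a V`;   `K ε ω` = the number `kout(Σ_out t) + pvtSum W + kin(Σ_in s)`.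
* `S ε`   the system of 159 (`Tr/Dom`): index of the data, corridor `C`, `A i = Cyl(D_i) ∩ E(D_i) ∩ {η good off C}`, `WO i`, frozen sites, unread sites, `X i`, `ŷ i`, weight `w`, closing sum `Y`, majorant `H`
* `hyp`   = (C3) [`stab stabW hq`: 5 193 `Tr/DatC3`, QBX 165 229 30], HYBRID [`rd`: 29 `Tr/GeoLoc`], JENSEN [`jen`: 193 141 218 `Tr/DomY`, ChainE], (C2) + INJ [`dom`: 194 227 `Tr/C12`, `Tr/DatC2` + `pvin_th_ge` of 43]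
* `tail`  = I.TAIL (`pvxn_H_lim` below when `H = pvxnH ε B a₀ D`, `D` independent of `ε`)
* `geo`   = the bad geometry (mesh, QBX-bad `η`, not `DelGood`) removed BEFORE the sum over the data (296 R4)
* `act`   = (C1) + DICT + LOCALITY + TR2: off `G`, an actual pinned arc fitting `π` IS a present datum, `X i = I_{y_a}(P;s,t)`, `ŷ i = K`      [22 `Tr/LocalX`, 195 161 `Tr/Dict`, 278 `Tr/Loc`; 95 218 TR2] -/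
structure PvxnIn (𝔓 : PvxPar τ c) (x : ℂ) (R : ℝ) (m : ℕ) (π : PvxIx τ) (a : ℂ) (K : ℝ → PVSample → ℂ) where
  ι : Type
  S : ℝ → PvdmSys ι
  q : ℝ≥0∞
  q0 : q ≠ 0
  hyp : ∀ᶠ ε in 𝓝[>] (0 : ℝ), (S ε).Hyp ε ∧ q ≤ (S ε).q
  tail : Tendsto (fun ε => ∫⁻ ω, (S ε).H ω ∂pvP ε) (𝓝[>] (0 : ℝ)) (𝓝 0)
  G : ℝ → Set (PvGeoT × PvColT)
  geo : Tendsto (fun ε => (pvhbUp ε).P (G ε)) (𝓝[>] (0 : ℝ)) (𝓝 0)
  act : ∀ᶠ ε in 𝓝[>] (0 : ℝ), ∀ p, p ∉ G ε → ∀ P ∈ pvhbAll x R (pvMerge p), ∀ s ∈ pvxPins 𝔓 x R m (pvMerge p) P, ∀ t ∈ pvxPins 𝔓 x R m (pvMerge p) P,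
    pvxFit 𝔓 x R m (pvMerge p) P s t π → ∃ i, pvxnFl (𝔓.col π.p.ts) (pvConf (pvMerge p)) ∈ (S ε).A i ∧
      (S ε).X i (pvxnFl (𝔓.col π.p.ts) (pvConf (pvMerge p))) = pvbArcI 𝔓.𝔐 (pvlmH m) P (fun k => P.xQ k - a * P.xV k) s t ∧
      (S ε).yh i (pvxnFl (𝔓.col π.p.ts) (pvConf (pvMerge p))) = K ε (pvMerge p)

/-! ## 3. the roof -/

/-- N1' for one pattern -/
theorem pvxn_pat {𝔓 : PvxPar τ c} {x : ℂ} {R : ℝ} {m : ℕ} {π : PvxIx τ} {a : ℂ} {K : ℝ → PVSample → ℂ} (I : PvxnIn 𝔓 x R m π a K) {u : ℝ} (hu : 0 < u) :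
    Tendsto (fun ε => ((pvhbUp ε).P {q | ∃ P ∈ pvhbAll x R (pvMerge q), ∃ s ∈ pvxPins 𝔓 x R m (pvMerge q) P, ∃ t ∈ pvxPins 𝔓 x R m (pvMerge q) P, pvxFit 𝔓 x R m (pvMerge q) P s t π ∧
      u < ‖pvbArcI 𝔓.𝔐 (pvlmH m) P (fun k => P.xQ k - a * P.xV k) s t + K ε (pvMerge q)‖}).toReal) (𝓝[>] (0 : ℝ)) (𝓝 0) := by
  refine pvxn_roof I.S I.q0 I.hyp I.tail I.G I.geo _ hu (𝔓.col π.p.ts) ?_
  filter_upwards [I.act] with ε h p hp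
  by_cases hG : p ∈ I.G ε
  · exact Or.inl hG
  obtain ⟨P, hP, s, hs, t, ht, hfit, hlt⟩ := hp
  obtain ⟨i, hi, hX, hy⟩ := h p hG P hP s hs t ht hfit
  exact Or.inr ⟨i, hi, by rw [hX, hy]; exact hlt.le⟩

/-- **THE FIELD `n1` OF `PvxAna`, VERBATIM**, for any `kout kin W` which have a contract at every pattern -/
theorem pvxn_n1 (𝔓 : PvxPar τ c) (W : ℕ → ℝ → ℂ → PvtW) (kout kin : ℕ → ℝ → ℂ → ℂ → τ → PVSample → ℂ)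
    (H : ∀ (x : ℂ) (R : ℝ), 0 < R → ∀ (a : ℂ) (m : ℕ), ∀ π ∈ pvxPatSet 𝔓 x R m, Nonempty (PvxnIn 𝔓 x R m π a fun ε ω =>
      kout m ε a π.p.zt π.p.tt ω + pvtSum (W m ε a) ((𝔓.Γ m).dout π.p.tt) π.p.l + kin m ε a π.p.zs π.p.ts ω)) :
    ∀ (x : ℂ) (R : ℝ), 0 < R → ∀ (a : ℂ) (m : ℕ), ∀ π ∈ pvxPatSet 𝔓 x R m, ∀ u : ℝ, 0 < u →
    Tendsto (fun ε => ((pvhbUp ε).P {q | ∃ P ∈ pvhbAll x R (pvMerge q), ∃ s ∈ pvxPins 𝔓 x R m (pvMerge q) P, ∃ t ∈ pvxPins 𝔓 x R m (pvMerge q) P, pvxFit 𝔓 x R m (pvMerge q) P s t π ∧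
      u < ‖pvbArcI 𝔓.𝔐 (pvlmH m) P (fun k => P.xQ k - a * P.xV k) s t +
        (kout m ε a t.ctr t.typ (pvMerge q) + pvtSum (W m ε a) ((𝔓.Γ m).dout π.p.tt) π.p.l + kin m ε a s.ctr s.typ (pvMerge q))‖}).toReal) (𝓝[>] (0 : ℝ)) (𝓝 0) := by
  intro x R hR a m π hπ u hu
  obtain ⟨I⟩ := H x R hR a m π hπ
  refine (pvxn_pat I hu).congr fun ε => ?_
  congr 2
  ext q
  simp only [mem_ofPred_eq]
  constructor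
  · rintro ⟨P, hP, s, hs, t, ht, hfit, hlt⟩
    refine ⟨P, hP, s, hs, t, ht, hfit, ?_⟩
    rw [hfit.1.1, hfit.1.2, hfit.2.1.1, hfit.2.1.2]
    exact hlt
  · rintro ⟨P, hP, s, hs, t, ht, hfit, hlt⟩
    refine ⟨P, hP, s, hs, t, ht, hfit, ?_⟩
    rw [hfit.1.1, hfit.1.2, hfit.2.1.1, hfit.2.1.2] at hlt
    exact hlt

end contract

/-! ## 4. the majorant of record -/

/-- **`H = D Θ`**, `Θ` = a measurable version of the closed sum `pvclSum · B a₀` (rims inside `B`, diameter `≥ a₀`) -/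
noncomputable def pvxnH (ε : ℝ) {B : Set ℂ} (hB : MeasurableSet B) (a₀ : ℝ) (D : ℝ≥0∞) : Conf PvPt → ℝ≥0∞ :=
  fun η => D * (pvcl_sum_aem ε hB a₀).mk (fun η => pvclSum η B a₀) η

theorem pvxn_H_meas (ε : ℝ) {B : Set ℂ} (hB : MeasurableSet B) (a₀ : ℝ) (D : ℝ≥0∞) : Measurable (pvxnH ε hB a₀ D) :=
  (pvcl_sum_aem ε hB a₀).measurable_mk.const_mul D

theorem pvxn_H_ae (ε : ℝ) {B : Set ℂ} (hB : MeasurableSet B) (a₀ : ℝ) (D : ℝ≥0∞) : ∀ᵐ η ∂pvP ε, pvxnH ε hB a₀ D η = D * pvclSum η B a₀ := by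
  filter_upwards [(pvcl_sum_aem ε hB a₀).ae_eq_mk] with η h
  unfold pvxnH
  rw [← h]

/-- I.TAIL for the majorant of record -/
theorem pvxn_H_lim {B : Set ℂ} (hB : MeasurableSet B) (hb : Bornology.IsBounded B) {a₀ : ℝ} (ha : 0 < a₀) {D : ℝ≥0∞} (hD : D ≠ ⊤) :
    Tendsto (fun ε => ∫⁻ η, pvxnH ε hB a₀ D η ∂pvP ε) (𝓝[>] (0 : ℝ)) (𝓝 0) := by
  have h1 : ∀ ε, ∫⁻ η, pvxnH ε hB a₀ D η ∂pvP ε = D * ∫⁻ η, pvclSum η B a₀ ∂pvP ε := fun ε => by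
    rw [lintegral_congr_ae (pvxn_H_ae ε hB a₀ D), lintegral_const_mul'' _ (pvcl_sum_aem ε hB a₀)]
  simp_rw [h1]
  simpa using ENNReal.Tendsto.const_mul (pvcl_closed hb ha) (Or.inr hD)


/-! ## 5. THE INSTANCE, SEMI-CONCRETE: everything of record is concrete (`PvwDat.Ok Cyl fz X`, hulls of `PvxIx`, collar mesh of 29, majorant); the events in flux (D17 `E(D)`, D18 `WO`, the class of the read sites) = THE KIT -/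

section inst

/-- **THE KIT** = what `W1_208_v3` leaves free.   All predicates are at a FIXED site set `Y`, on the plane map `(delbPl Y).toMap`, colourings `↥Y → Bool`, `true` = BLACK = the colour of the rim.
* `C r`  the region whose geometry is resampled, the mesh radius of its collar (`pvgeCollar C r`, `pvgeFar C r` of 29)
* `E`    the no-bypass event `E_patch(D)` (D17, E6);   `W` = `WO(D)` in the far half of the outer lane (+ the white circuit of E6);   `N` = the sites whose colour the `X` side reads (frozen sites included): FINITE, far from `C`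
* `B`    a bounded set which contains all closed rims `P'`;   `q` = `q_W` -/
structure PvxnKit where
  C : Set ℂ
  r : ℝ
  E : ∀ Y : Set ℂ, PvwDat (delbPl Y).toMap → (↥Y → Bool) → Prop
  W : ∀ Y : Set ℂ, PvwDat (delbPl Y).toMap → (↥Y → Bool) → Prop
  N : ∀ Y : Set ℂ, PvwDat (delbPl Y).toMap → Set ↥Y
  B : Set ℂ
  mB : MeasurableSet B
  q : ℝ≥0∞

/-- **THE INDEX OF A DATUM**, label free: frozen sites, read sites, the vertices of `g₀`, the VALUE `X(D)`.      (So `frz yf X` of `PvdmSys` are constants: no uniqueness of the state is consumed by `stab`.) -/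
structure PvxnIx where
  F : Set ℂ
  N : Set ℂ
  g : List ℂ
  X : ℂ

/-- the `Y` side: weight, closing sum, `ŷ`, bound `D_c` of the weight      [193 141 218 161 7 129: `Tr/DomY`, ChainE, `Tr/InstE`] -/
structure PvxnYd where
  w : ℝ → Conf PvPt → ℝ≥0∞
  Y : ℝ → Conf PvPt → ℂ
  yh : ℝ → PvxnIx → Conf PvPt → ℂ
  D : ℝ≥0∞

variable {τ : Type} {c : ℝ} (𝔓 : PvxPar τ c) (m : ℕ) (π : PvxIx τ) (a : ℂ) (𝔎 : PvxnKit)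

/-- the field `y_a = Q - a V` on the plane map of `Y` -/
noncomputable def pvxnFd (Y : Set ℂ) (a : ℂ) : (delbPl Y).Dart → ℂ := fun d => (delbPl Y).toMap.qpart Subtype.val d - a * (delbPl Y).toMap.side Subtype.val d

/-- **`𝔇` IS A DATUM OF INDEX `i`** at the site set `Y` for the colouring `σ` (which is read on the frozen sites only) -/
structure PvxnWit (Y : Set ℂ) (i : PvxnIx) (σ : ↥Y → Bool) (𝔇 : PvwDat (delbPl Y).toMap) : Prop where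
  ok : 𝔇.Ok Subtype.val 𝔓.num (pvlmH m) (𝔓.reg m π)
  cyl : σ ∈ 𝔇.Cyl
  labF : Subtype.val '' 𝔇.fz = i.F
  labN : Subtype.val '' 𝔎.N Y 𝔇 = i.N
  labg : (List.ofFn fun k : Fin (𝔇.g.n + 1) => ((𝔇.g.v k : ↥Y) : ℂ)) = i.g
  labX : 𝔇.X Subtype.val (pvxnFd Y a) 𝔓.num (pvlmH m) (𝔓.reg m π) = i.X
  hull_s : (π.Zs : Set (ℤ × ℤ)) = pvtCells (pvlmDel c m) (Subtype.val '' 𝔇.s.fzIn ∪ Metric.closedBall (pvxYs 𝔓 m π.p) (𝔓.num.rho * pvlmH m))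
  hull_t : (π.Zt : Set (ℤ × ℤ)) = pvtCells (pvlmDel c m) (Subtype.val '' 𝔇.t.fzOut ∪ Metric.closedBall (pvxYt 𝔓 m π.p) (𝔓.num.rho * pvlmH m))
  sub : 𝔇.fz ⊆ 𝔎.N Y 𝔇
  fin : (𝔎.N Y 𝔇).Finite
  far : ∀ v ∈ 𝔎.N Y 𝔇, (v : ℂ) ∈ pvgeFar 𝔎.C 𝔎.r

/-- `WO i` at `(Y, σ)`  (with the collar mesh: patch of 29, else `rd` is false for `WO`) -/
def PvxnPW (i : PvxnIx) (Y : Set ℂ) (σ : ℂ → Bool) : Prop :=
  VorDense Y (pvgeCollar 𝔎.C 𝔎.r) 𝔎.r ∧ ∃ 𝔇, PvxnWit 𝔓 m π a 𝔎 Y i (fun v => σ v) 𝔇 ∧ 𝔎.W Y 𝔇 (fun v => σ v)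

/-- `A i` at `(Y, σ)`: collar mesh (read off `C`), a datum of index `i` with `E(D)`;   `uni`: all data of index `i` have the same `WO` (so that (C2) gets ONE datum);   `hq` BY CONSTRUCTION: `P(WO | D) ≥ q`
(the data with `P(WO | D) < q` are removed with the bad geometry: 296 R4) -/
def PvxnPA (i : PvxnIx) (Y : Set ℂ) (σ : ℂ → Bool) : Prop :=
  VorDense Y (pvgeCollar 𝔎.C 𝔎.r) 𝔎.r ∧ (∃ 𝔇, PvxnWit 𝔓 m π a 𝔎 Y i (fun v => σ v) 𝔇 ∧ 𝔎.E Y 𝔇 (fun v => σ v) ∧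
    ∀ 𝔇', PvxnWit 𝔓 m π a 𝔎 Y i (fun v => σ v) 𝔇' → ∀ τ' : ↥Y → Bool, 𝔎.W Y 𝔇' τ' → 𝔎.W Y 𝔇 τ') ∧
  𝔎.q ≤ colLaw ℂ {κ | PvxnPW 𝔓 m π a 𝔎 i Y (pvdmOv i.Fᶜ κ σ)}

/-- **THE SYSTEM OF N1' FOR THE PATTERN `π`** -/
noncomputable def pvxnSys (𝔜 : PvxnYd) (ε : ℝ) : PvdmSys PvxnIx where
  Ok Y := DelGood Y ∧ ∀ᵐ ω₂ ∂pvP ε, DelGood (Y \ 𝔎.C ∪ cfSites ω₂ ∩ 𝔎.C)
  C := 𝔎.C
  A i := {ζ | PvxnPA 𝔓 m π a 𝔎 i (cfSites ζ) (cfCol ζ)}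
  WO i := {ζ | PvxnPW 𝔓 m π a 𝔎 i (cfSites ζ) (cfCol ζ)}
  frz i _ := i.F
  yf i _ := i.Nᶜ
  X i _ := i.X
  yh := 𝔜.yh ε
  w := 𝔜.w ε
  Y := 𝔜.Y ε
  H := pvxnH ε 𝔎.mB (pvlmH m) 𝔜.D
  q := 𝔎.q

end inst

/-! ## 6. the sub-exits of the instance -/

section sub

variable {τ : Type} {c : ℝ} (𝔓 : PvxPar τ c) (x : ℂ) (R : ℝ) (m : ℕ) (π : PvxIx τ) (a : ℂ) (𝔎 : PvxnKit) (𝔜 : PvxnYd)

/-- `PvxnPW` reads the colours of the sites only -/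
theorem pvxn_PW_congr {i : PvxnIx} {Y : Set ℂ} {σ σ' : ℂ → Bool} (h : ∀ z ∈ Y, σ' z = σ z) : PvxnPW 𝔓 m π a 𝔎 i Y σ' ↔ PvxnPW 𝔓 m π a 𝔎 i Y σ := by
  have e : (fun v : ↥Y => σ' v) = fun v : ↥Y => σ v := funext fun v => h v v.2
  unfold PvxnPW
  rw [e]

/-- `PvxnPA` reads the colours of the sites only -/
theorem pvxn_PA_congr {i : PvxnIx} {Y : Set ℂ} {σ σ' : ℂ → Bool} (h : ∀ z ∈ Y, σ' z = σ z) : PvxnPA 𝔓 m π a 𝔎 i Y σ' ↔ PvxnPA 𝔓 m π a 𝔎 i Y σ := by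
  have e : (fun v : ↥Y => σ' v) = fun v : ↥Y => σ v := funext fun v => h v v.2
  have e2 : {κ | PvxnPW 𝔓 m π a 𝔎 i Y (pvdmOv i.Fᶜ κ σ')} = {κ | PvxnPW 𝔓 m π a 𝔎 i Y (pvdmOv i.Fᶜ κ σ)} := by
    ext κ
    refine pvxn_PW_congr 𝔓 m π a 𝔎 fun z hz => ?_
    by_cases hF : z ∈ i.Fᶜ
    · rw [pvdm_ov_mem hF, pvdm_ov_mem hF]
    · rw [pvdm_ov_notMem hF, pvdm_ov_notMem hF, h z hz]
  unfold PvxnPA
  rw [e, e2]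

theorem pvxn_mem_A {ε : ℝ} {i : PvxnIx} {Y : Set ℂ} {σ : ℂ → Bool} : cfOf Y σ ∈ (pvxnSys 𝔓 m π a 𝔎 𝔜 ε).A i ↔ PvxnPA 𝔓 m π a 𝔎 i Y σ := by
  show PvxnPA 𝔓 m π a 𝔎 i (cfSites (cfOf Y σ)) (cfCol (cfOf Y σ)) ↔ _
  rw [cfOf_sites]
  exact pvxn_PA_congr 𝔓 m π a 𝔎 fun z hz => pvdy_cfCol_cfOf σ hz

theorem pvxn_mem_W {ε : ℝ} {i : PvxnIx} {Y : Set ℂ} {σ : ℂ → Bool} : cfOf Y σ ∈ (pvxnSys 𝔓 m π a 𝔎 𝔜 ε).WO i ↔ PvxnPW 𝔓 m π a 𝔎 i Y σ := by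
  show PvxnPW 𝔓 m π a 𝔎 i (cfSites (cfOf Y σ)) (cfCol (cfOf Y σ)) ↔ _
  rw [cfOf_sites]
  exact pvxn_PW_congr 𝔓 m π a 𝔎 fun z hz => pvdy_cfCol_cfOf σ hz

/-- (X0) `ok_ae`: `DelGood` of the sample and of almost every splice      [274;  `pvti_rs_ae` of 141 + `IsPpp.splice`, hint of 29] -/
theorem pvxn_ok_ae (hC : MeasurableSet 𝔎.C) {ε : ℝ} (hε : 0 < ε) : ∀ᵐ ω ∂pvP ε, (pvxnSys 𝔓 m π a 𝔎 𝔜 ε).Ok (cfSites ω) := by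
  show ∀ᵐ ω ∂pvP ε, DelGood (cfSites ω) ∧ ∀ᵐ ω₂ ∂pvP ε, DelGood (cfSites ω \ 𝔎.C ∪ cfSites ω₂ ∩ 𝔎.C)
  have h0 : ∀ᵐ η ∂pvP ε, DelGood (cfSites η) := (pvqf_good_ae ε hε.ne').mono fun _ h => h.del
  have hO : MeasurableSet (𝔎.C ×ˢ (univ : Set Bool) : Set PvPt) := hC.prod MeasurableSet.univ
  have h1 := (pv_isPpp ε).ae_ae_splice' hO h0
  filter_upwards [h0, h1] with ω a1 a2
  refine ⟨a1, a2.mono fun ω₂ h => ?_⟩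
  have e : cfSites (Conf.union (Conf.restr (𝔎.C ×ˢ (univ : Set Bool)) ω₂) (Conf.restr (𝔎.C ×ˢ (univ : Set Bool))ᶜ ω)) = cfSites ω \ 𝔎.C ∪ cfSites ω₂ ∩ 𝔎.C := by
    ext z
    constructor
    · rintro ⟨p, hp, rfl⟩
      rcases hp with hp | hp
      · exact Or.inr ⟨⟨p, hp.1, rfl⟩, hp.2.1⟩
      · exact Or.inl ⟨⟨p, hp.1, rfl⟩, fun hz => hp.2 ⟨hz, mem_univ _⟩⟩
    · rintro (⟨⟨p, hp, rfl⟩, hz⟩ | ⟨⟨p, hp, rfl⟩, hz⟩)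
      · exact ⟨p, Or.inr ⟨hp, fun h => hz h.1⟩, rfl⟩
      · exact ⟨p, Or.inl ⟨hp, hz, mem_univ _⟩, rfl⟩
  rw [← e]
  exact h

open Classical in
/-- the mass of the entries number `i ≤ k < j` of a LIST of darts (`pvwMass` read on a list) -/
noncomputable def pvxnLm {V D : Type} (T : PvMap V D) (pos : V → ℂ) (w : D → ℂ) (K : Set ℂ) (l : List D) (i j : ℕ) : ℂ :=
  ∑ k ∈ Finset.Ico i j, (l[k]?).elim 0 fun d => if T.bary pos (T.opp d) ∈ K then w (T.opp d) else 0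

theorem pvxn_Lm_eqns_cite : True := by
  have := @pvxnLm.eq_1
  trivial

theorem pvxn_Lm_eq {V D : Type} (T : PvMap V D) (pos : V → ℂ) (w : D → ℂ) (K : Set ℂ) (p : T.Pth) (n : ℕ) {i j : ℕ} (hj : j ≤ n) :
    pvwMass T pos w K p i j = pvxnLm T pos w K (List.ofFn fun k : Fin n => p.e k) i j := by
  unfold pvwMass pvxnLm
  refine Finset.sum_congr rfl fun k hk => ?_
  have hk' : k < n := lt_of_lt_of_le (Finset.mem_Ico.1 hk).2 hj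
  rw [List.getElem?_ofFn, dif_pos hk']
  rfl

/-- (X1) `cnt`: finite subsets and lists of a countable set; `X(D)` is a function of finitely many darts      [274 60] -/
theorem pvxn_cnt (ε : ℝ) : ∀ Y, (pvxnSys 𝔓 m π a 𝔎 𝔜 ε).Ok Y → {i | ∃ σ, cfOf Y σ ∈ (pvxnSys 𝔓 m π a 𝔎 𝔜 ε).A i}.Countable := by
  intro Y hOk
  have hY : Y.Countable := hOk.1.lf.countable
  haveI : Countable ↥Y := hY.to_subtype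
  haveI : Countable (delbPl Y).Dart := by
    unfold PlTri.Dart
    infer_instance
  let T := (delbPl Y).toMap
  let Φ : (Finset ↥Y × Finset ↥Y × List ↥Y) × ((ℕ × ℕ × ℕ × ℕ) × (List (delbPl Y).Dart × List (delbPl Y).Dart × List (delbPl Y).Dart)) → PvxnIx := fun p =>
    ⟨Subtype.val '' (p.1.1 : Set ↥Y), Subtype.val '' (p.1.2.1 : Set ↥Y), p.1.2.2.map Subtype.val,
      pvxnLm T Subtype.val (pvxnFd Y a) (Metric.closedBall (𝔓.reg m π).zs (𝔓.num.m * pvlmH m)) p.2.2.1 0 p.2.1.1 +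
        pvxnLm T Subtype.val (pvxnFd Y a) (PvwDat.offCut 𝔓.num (pvlmH m) (𝔓.reg m π)) p.2.2.1 p.2.1.2.1 p.2.1.1 +
        pvxnLm T Subtype.val (pvxnFd Y a) (PvwDat.offCut 𝔓.num (pvlmH m) (𝔓.reg m π)) p.2.2.2.1 0 p.2.1.2.2.1 +
        pvxnLm T Subtype.val (pvxnFd Y a) (PvwDat.offCut 𝔓.num (pvlmH m) (𝔓.reg m π)) p.2.2.2.2 0 p.2.1.2.2.2⟩
  refine (Set.countable_range Φ).mono ?_
  rintro i ⟨σ, hA⟩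
  obtain ⟨-, ⟨𝔇, hW, -⟩, -⟩ := (pvxn_mem_A 𝔓 m π a 𝔎 𝔜).1 hA
  have hfz : 𝔇.fz.Finite := hW.fin.subset hW.sub
  refine ⟨((hfz.toFinset, hW.fin.toFinset, List.ofFn fun k : Fin (𝔇.g.n + 1) => 𝔇.g.v k),
    ((𝔇.s.inn.n, 𝔇.s.ip, 𝔇.g.n, 𝔇.t.ip), (List.ofFn fun k : Fin 𝔇.s.inn.n => 𝔇.s.inn.e k, List.ofFn fun k : Fin 𝔇.g.n => 𝔇.g.e k, List.ofFn fun k : Fin 𝔇.t.ip => 𝔇.t.inn.e k))), ?_⟩
  obtain ⟨iF, iN, ig, iX⟩ := i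
  have e1 : Subtype.val '' ((hfz.toFinset : Finset ↥Y) : Set ↥Y) = iF := by rw [Set.Finite.coe_toFinset]; exact hW.labF
  have e2 : Subtype.val '' ((hW.fin.toFinset : Finset ↥Y) : Set ↥Y) = iN := by rw [Set.Finite.coe_toFinset]; exact hW.labN
  have e3 : (List.ofFn fun k : Fin (𝔇.g.n + 1) => 𝔇.g.v k).map Subtype.val = ig := by
    rw [List.map_ofFn]; exact hW.labg
  have e4 := hW.labX
  unfold PvwDat.X at e4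
  rw [pvxn_Lm_eq _ _ _ _ 𝔇.s.inn 𝔇.s.inn.n le_rfl, pvxn_Lm_eq _ _ _ _ 𝔇.s.inn 𝔇.s.inn.n le_rfl, pvxn_Lm_eq _ _ _ _ 𝔇.g 𝔇.g.n le_rfl,
    pvxn_Lm_eq _ _ _ _ 𝔇.t.inn 𝔇.t.ip le_rfl] at e4
  show PvxnIx.mk _ _ _ _ = _
  rw [PvxnIx.mk.injEq]
  exact ⟨e1, e2, e3, e4⟩

/-- (X2) `fin` -/
theorem pvxn_fin (ε : ℝ) : ∀ Y, (pvxnSys 𝔓 m π a 𝔎 𝔜 ε).Ok Y → ∀ i σ, cfOf Y σ ∈ (pvxnSys 𝔓 m π a 𝔎 𝔜 ε).A i →
    (Y \ (pvxnSys 𝔓 m π a 𝔎 𝔜 ε).yf i (cfOf Y σ)).Finite := by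
  intro Y _ i σ hA
  obtain ⟨-, ⟨𝔇, hW, -⟩, -⟩ := (pvxn_mem_A 𝔓 m π a 𝔎 𝔜).1 hA
  refine ((hW.fin.image Subtype.val).subset ?_)
  rintro z ⟨-, hz⟩
  rw [hW.labN]
  exact not_not.1 hz

/-- (X3) `dis` -/
theorem pvxn_dis (ε : ℝ) : ∀ Y, (pvxnSys 𝔓 m π a 𝔎 𝔜 ε).Ok Y → ∀ i σ, cfOf Y σ ∈ (pvxnSys 𝔓 m π a 𝔎 𝔜 ε).A i →
    Disjoint ((pvxnSys 𝔓 m π a 𝔎 𝔜 ε).frz i (cfOf Y σ)) ((pvxnSys 𝔓 m π a 𝔎 𝔜 ε).yf i (cfOf Y σ)) := by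
  intro Y _ i σ hA
  obtain ⟨-, ⟨𝔇, hW, -⟩, -⟩ := (pvxn_mem_A 𝔓 m π a 𝔎 𝔜).1 hA
  refine disjoint_left.2 fun z hz hz' => hz' ?_
  have hz1 : z ∈ i.F := hz
  rw [← hW.labF] at hz1
  rw [← hW.labN]
  exact image_mono hW.sub hz1

/-- (X4) `hq`, BY CONSTRUCTION -/
theorem pvxn_hq (ε : ℝ) : ∀ Y, (pvxnSys 𝔓 m π a 𝔎 𝔜 ε).Ok Y → ∀ i σ, cfOf Y σ ∈ (pvxnSys 𝔓 m π a 𝔎 𝔜 ε).A i →
    (pvxnSys 𝔓 m π a 𝔎 𝔜 ε).q ≤ colLaw ℂ {κ | cfOf Y (pvdmOv ((pvxnSys 𝔓 m π a 𝔎 𝔜 ε).frz i (cfOf Y σ))ᶜ κ σ) ∈ (pvxnSys 𝔓 m π a 𝔎 𝔜 ε).WO i} := by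
  intro Y _ i σ hA
  obtain ⟨-, -, h⟩ := (pvxn_mem_A 𝔓 m π a 𝔎 𝔜).1 hA
  refine le_trans h (le_of_eq ?_)
  congr 1
  ext κ
  exact (pvxn_mem_W 𝔓 m π a 𝔎 𝔜 (ε := ε) (i := i) (Y := Y) (σ := pvdmOv i.Fᶜ κ σ)).symm

/-- **WHAT THE KITS `𝔎s ε`, THE `Y` SIDE AND THE BAD EVENT `G` MUST SATISFY** (each field = one sub-exit, with its owners).      The kit may depend on `ε` (the tiles of `Tr/InstE` are typed with `ε`); `q`, `B`, `D` are uniform. -/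
structure PvxnOk (𝔎s : ℝ → PvxnKit) (G : ℝ → Set (PvGeoT × PvColT)) (K : ℝ → PVSample → ℂ) : Prop where
  mC : ∀ᶠ ε in 𝓝[>] (0 : ℝ), MeasurableSet (𝔎s ε).C
  /-- all closed rims `P'` lie in one bounded set -/
  bB : ∃ B₀ : Set ℂ, Bornology.IsBounded B₀ ∧ ∀ᶠ ε in 𝓝[>] (0 : ℝ), (𝔎s ε).B ⊆ B₀
  /-- `q_W` is uniform in `ε` -/
  q0 : ∃ q : ℝ≥0∞, q ≠ 0 ∧ ∀ᶠ ε in 𝓝[>] (0 : ℝ), q ≤ (𝔎s ε).q
  D1 : 𝔜.D ≠ ⊤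
  /-- (C3a) `E(D)` is decreasing in black and reads the sites of `N` only      [5 158 `Tr/DatC3` `pvc3_stab_nb`, 193, 194, 72 `PvjdEv`] -/
  E_mono : ∀ᶠ ε in 𝓝[>] (0 : ℝ), ∀ (Y : Set ℂ) (𝔇 : PvwDat (delbPl Y).toMap) (σ σ' : ↥Y → Bool), DelGood Y → 𝔇.Ok Subtype.val 𝔓.num (pvlmH m) (𝔓.reg m π) → σ ∈ 𝔇.Cyl →
    (∀ v ∈ 𝔇.fz, σ' v = σ v) → (∀ v ∈ (𝔎s ε).N Y 𝔇, σ' v ≤ σ v) → (𝔎s ε).E Y 𝔇 σ → (𝔎s ε).E Y 𝔇 σ'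
  /-- (C3b) the same for `WO(D)`      [5 158 `pvc3_stab_wo`] -/
  W_mono : ∀ᶠ ε in 𝓝[>] (0 : ℝ), ∀ (Y : Set ℂ) (𝔇 : PvwDat (delbPl Y).toMap) (σ σ' : ↥Y → Bool), DelGood Y → 𝔇.Ok Subtype.val 𝔓.num (pvlmH m) (𝔓.reg m π) → σ ∈ 𝔇.Cyl →
    (∀ v ∈ 𝔇.fz, σ' v = σ v) → (∀ v ∈ (𝔎s ε).N Y 𝔇, σ' v ≤ σ v) → (𝔎s ε).W Y 𝔇 σ → (𝔎s ε).W Y 𝔇 σ'
  /-- (Y-b) `ŷ` reads the frozen colours only      [193 `HypY.hat_stab`] -/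
  yh_stab : ∀ᶠ ε in 𝓝[>] (0 : ℝ), ∀ Y, (pvxnSys 𝔓 m π a (𝔎s ε) 𝔜 ε).Ok Y → ∀ i σ σ', cfOf Y σ ∈ (pvxnSys 𝔓 m π a (𝔎s ε) 𝔜 ε).A i → (∀ z ∈ Y, z ∈ i.F → σ' z = σ z) →
    (∀ z ∈ Y, z ∈ i.N → σ' z ≤ σ z) → 𝔜.yh ε i (cfOf Y σ') = 𝔜.yh ε i (cfOf Y σ)
  /-- SECTIONWISE measurability of the weight and of the closing sum (form of 296, 193, 159)      [247 289 282] -/
  mw : ∀ᶠ ε in 𝓝[>] (0 : ℝ), ∀ Y, (pvxnSys 𝔓 m π a (𝔎s ε) 𝔜 ε).Ok Y → ∀ i σ, cfOf Y σ ∈ (pvxnSys 𝔓 m π a (𝔎s ε) 𝔜 ε).A i → cfOf Y σ ∈ (pvxnSys 𝔓 m π a (𝔎s ε) 𝔜 ε).WO i →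
    Measurable fun p : (ℂ → Bool) × Conf PvPt => 𝔜.w ε ((pvxnSys 𝔓 m π a (𝔎s ε) 𝔜 ε).R i Y σ p.1 p.2)
  mY : ∀ᶠ ε in 𝓝[>] (0 : ℝ), ∀ Y, (pvxnSys 𝔓 m π a (𝔎s ε) 𝔜 ε).Ok Y → ∀ i σ, cfOf Y σ ∈ (pvxnSys 𝔓 m π a (𝔎s ε) 𝔜 ε).A i → cfOf Y σ ∈ (pvxnSys 𝔓 m π a (𝔎s ε) 𝔜 ε).WO i →
    Measurable fun p : (ℂ → Bool) × Conf PvPt => 𝔜.Y ε ((pvxnSys 𝔓 m π a (𝔎s ε) 𝔜 ε).R i Y σ p.1 p.2)
  /-- HYBRID: the `X` side does not read the corridor      [29 `Tr/Rd.lean`, `Exit/N1R.lean`; 22 `Tr/LocalW`] -/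
  rd : ∀ᶠ ε in 𝓝[>] (0 : ℝ), ∀ Y, (pvxnSys 𝔓 m π a (𝔎s ε) 𝔜 ε).Ok Y → ∀ σ, ∀ᵐ ω₂ ∂pvP ε, ∀ i,
    (Conf.spl (pvdmU (𝔎s ε).C) (cfOf Y σ, ω₂) ∈ (pvxnSys 𝔓 m π a (𝔎s ε) 𝔜 ε).A i ↔ cfOf Y σ ∈ (pvxnSys 𝔓 m π a (𝔎s ε) 𝔜 ε).A i) ∧
    (Conf.spl (pvdmU (𝔎s ε).C) (cfOf Y σ, ω₂) ∈ (pvxnSys 𝔓 m π a (𝔎s ε) 𝔜 ε).WO i ↔ cfOf Y σ ∈ (pvxnSys 𝔓 m π a (𝔎s ε) 𝔜 ε).WO i)
  /-- JENSEN for the experiment      [193 `Tr/DomY`; 141 218 ChainE exit (3) with `w = D_c 1_Ev`] -/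
  jen : ∀ᶠ ε in 𝓝[>] (0 : ℝ), ∀ Y, (pvxnSys 𝔓 m π a (𝔎s ε) 𝔜 ε).Ok Y → ∀ i σ, cfOf Y σ ∈ (pvxnSys 𝔓 m π a (𝔎s ε) 𝔜 ε).A i → cfOf Y σ ∈ (pvxnSys 𝔓 m π a (𝔎s ε) 𝔜 ε).WO i →
    ‖i.X + 𝔜.yh ε i (cfOf Y σ)‖ₑ ^ 2 ≤ ∫⁻ κ, ∫⁻ ω₂, 𝔜.w ε ((pvxnSys 𝔓 m π a (𝔎s ε) 𝔜 ε).R i Y σ κ ω₂) * ‖i.X + 𝔜.Y ε ((pvxnSys 𝔓 m π a (𝔎s ε) 𝔜 ε).R i Y σ κ ω₂)‖ₑ ^ 2 ∂pvP ε ∂colLaw ℂ
  /-- (C2) + INJ + I.TAIL (deterministic part `pvcl_tsum_ge` / `pvin_th_ge`)      [194 `Tr/C12F` `pvwf_C2_rim`, 227 `Tr/DatC2`, 43 226, 191] -/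
  dom : ∀ᶠ ε in 𝓝[>] (0 : ℝ), ∀ᵐ ω ∂pvP ε, ∑' i, ((pvxnSys 𝔓 m π a (𝔎s ε) 𝔜 ε).A i ∩ (pvxnSys 𝔓 m π a (𝔎s ε) 𝔜 ε).WO i).indicator (fun ω => 𝔜.w ε ω * ‖i.X + 𝔜.Y ε ω‖ₑ ^ 2) ω
    ≤ 𝔜.D * pvclSum ω (𝔎s ε).B (pvlmH m)
  /-- the bad event: not `DelGood`, meshes fail, some datum fitting `π` has `P(WO | D) < q` (QBX-bad `η`)      [35 `Tr/HookE` `pvhe_good_up`, 21 `Tr/LinkQ`, 226 `pvni_G_lim`; mesh 220 29] -/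
  geo : Tendsto (fun ε => (pvhbUp ε).P (G ε)) (𝓝[>] (0 : ℝ)) (𝓝 0)
  /-- (C1) + DICT + LOCALITY + TR2      [60 `Exit/N1B`; 22 `pvlx_act`, 199 `pvkd_X_fit`, 278 `pvlo_all`; `uni`: 72 `pvjd_enc_iff`, 25 `Tr/StKit`; clause `q`: 35 `pvhe_hq`; `ŷ = K`: 218 161 188] -/
  act : ∀ᶠ ε in 𝓝[>] (0 : ℝ), ∀ p, p ∉ G ε → ∀ P ∈ pvhbAll x R (pvMerge p), ∀ s ∈ pvxPins 𝔓 x R m (pvMerge p) P, ∀ t ∈ pvxPins 𝔓 x R m (pvMerge p) P,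
    pvxFit 𝔓 x R m (pvMerge p) P s t π → ∃ i, pvxnFl (𝔓.col π.p.ts) (pvConf (pvMerge p)) ∈ (pvxnSys 𝔓 m π a (𝔎s ε) 𝔜 ε).A i ∧
      i.X = pvbArcI 𝔓.𝔐 (pvlmH m) P (fun k => P.xQ k - a * P.xV k) s t ∧ 𝔜.yh ε i (pvxnFl (𝔓.col π.p.ts) (pvConf (pvMerge p))) = K ε (pvMerge p)

variable {𝔓 x R m π a 𝔎 𝔜}

/-- a datum of index `i` stays a datum of index `i` when the colours off the frozen sites change -/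
theorem PvxnWit.move {Y : Set ℂ} {i : PvxnIx} {σ σ' : ↥Y → Bool} {𝔇 : PvwDat (delbPl Y).toMap} (h : PvxnWit 𝔓 m π a 𝔎 Y i σ 𝔇) (hF : ∀ v : ↥Y, (v : ℂ) ∈ i.F → σ' v = σ v) :
    PvxnWit 𝔓 m π a 𝔎 Y i σ' 𝔇 := by
  have hfz : ∀ v ∈ 𝔇.fz, σ' v = σ v := fun v hv => hF v (by rw [← h.labF]; exact ⟨v, hv, rfl⟩)
  refine { h with cyl := ?_ }
  obtain ⟨c1, c2, c3⟩ := h.cyl
  refine ⟨fun v hv => ?_, fun v hv => ?_, fun v hv => ?_⟩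
  · rw [hfz v (Or.inl (Or.inl hv))]; exact c1 v hv
  · rw [hfz v (Or.inl (Or.inr hv))]; exact c2 v hv
  · rw [hfz v (Or.inr hv)]; exact c3 v hv

/-- (X5) `stab` from (C3a), for one kit -/
theorem pvxn_stab {ε : ℝ} (hE : ∀ (Y : Set ℂ) (𝔇 : PvwDat (delbPl Y).toMap) (σ σ' : ↥Y → Bool), DelGood Y → 𝔇.Ok Subtype.val 𝔓.num (pvlmH m) (𝔓.reg m π) → σ ∈ 𝔇.Cyl →
      (∀ v ∈ 𝔇.fz, σ' v = σ v) → (∀ v ∈ 𝔎.N Y 𝔇, σ' v ≤ σ v) → 𝔎.E Y 𝔇 σ → 𝔎.E Y 𝔇 σ') :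
    ∀ Y, (pvxnSys 𝔓 m π a 𝔎 𝔜 ε).Ok Y → ∀ i σ σ', cfOf Y σ ∈ (pvxnSys 𝔓 m π a 𝔎 𝔜 ε).A i → (∀ z ∈ Y, z ∈ i.F → σ' z = σ z) → (∀ z ∈ Y, z ∉ i.Nᶜ → σ' z ≤ σ z) →
    cfOf Y σ' ∈ (pvxnSys 𝔓 m π a 𝔎 𝔜 ε).A i := by
  intro Y hY i σ σ' hA k1 k2
  obtain ⟨hm, ⟨𝔇, hW, hE', huni⟩, hq⟩ := (pvxn_mem_A 𝔓 m π a 𝔎 𝔜).1 hA
  refine (pvxn_mem_A 𝔓 m π a 𝔎 𝔜).2 ⟨hm, ⟨𝔇, hW.move fun v hv => k1 v v.2 hv, ?_, fun 𝔇' hW' => huni 𝔇' (hW'.move fun v hv => (k1 v v.2 hv).symm)⟩, ?_⟩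
  · refine hE Y 𝔇 _ _ hY.1 hW.ok hW.cyl (fun v hv => k1 v v.2 (by rw [← hW.labF]; exact ⟨v, hv, rfl⟩)) (fun v hv => k2 v v.2 (not_not.2 ?_)) hE'
    rw [← hW.labN]; exact ⟨v, hv, rfl⟩
  · refine le_trans hq (le_of_eq ?_)
    congr 1
    ext κ
    refine (pvxn_PW_congr 𝔓 m π a 𝔎 fun z hz => ?_).symm
    by_cases hF : z ∈ i.Fᶜ
    · rw [pvdm_ov_mem hF, pvdm_ov_mem hF]
    · rw [pvdm_ov_notMem hF, pvdm_ov_notMem hF, k1 z hz (not_not.1 hF)]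

/-- (X6) `stabW` from (C3b), for one kit -/
theorem pvxn_stabW {ε : ℝ} (hWm : ∀ (Y : Set ℂ) (𝔇 : PvwDat (delbPl Y).toMap) (σ σ' : ↥Y → Bool), DelGood Y → 𝔇.Ok Subtype.val 𝔓.num (pvlmH m) (𝔓.reg m π) → σ ∈ 𝔇.Cyl →
      (∀ v ∈ 𝔇.fz, σ' v = σ v) → (∀ v ∈ 𝔎.N Y 𝔇, σ' v ≤ σ v) → 𝔎.W Y 𝔇 σ → 𝔎.W Y 𝔇 σ') :
    ∀ Y, (pvxnSys 𝔓 m π a 𝔎 𝔜 ε).Ok Y → ∀ i σ₀ σ σ', cfOf Y σ₀ ∈ (pvxnSys 𝔓 m π a 𝔎 𝔜 ε).A i → (∀ z ∈ Y, z ∈ i.F → σ z = σ₀ z) → (∀ z ∈ Y, z ∈ i.F → σ' z = σ₀ z) →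
    (∀ z ∈ Y, z ∉ i.Nᶜ → σ' z ≤ σ z) → cfOf Y σ ∈ (pvxnSys 𝔓 m π a 𝔎 𝔜 ε).WO i → cfOf Y σ' ∈ (pvxnSys 𝔓 m π a 𝔎 𝔜 ε).WO i := by
  intro Y hY i σ₀ σ σ' _ k1 k1' k2 hw
  obtain ⟨hm, 𝔇, hW, hWO⟩ := (pvxn_mem_W 𝔓 m π a 𝔎 𝔜).1 hw
  have e : ∀ z ∈ Y, z ∈ i.F → σ' z = σ z := fun z hz hF => (k1' z hz hF).trans (k1 z hz hF).symm
  refine (pvxn_mem_W 𝔓 m π a 𝔎 𝔜).2 ⟨hm, 𝔇, hW.move fun v hv => e v v.2 hv, ?_⟩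
  refine hWm Y 𝔇 _ _ hY.1 hW.ok hW.cyl (fun v hv => e v v.2 (by rw [← hW.labF]; exact ⟨v, hv, rfl⟩)) (fun v hv => k2 v v.2 (not_not.2 ?_)) hWO
  rw [← hW.labN]; exact ⟨v, hv, rfl⟩

/-- the hypotheses of TR23 -/
theorem PvxnOk.hyp {𝔎s : ℝ → PvxnKit} {G : ℝ → Set (PvGeoT × PvColT)} {K : ℝ → PVSample → ℂ} (h : PvxnOk 𝔓 x R m π a 𝔜 𝔎s G K) :
    ∀ᶠ ε in 𝓝[>] (0 : ℝ), (pvxnSys 𝔓 m π a (𝔎s ε) 𝔜 ε).Hyp ε ∧ h.q0.choose ≤ (pvxnSys 𝔓 m π a (𝔎s ε) 𝔜 ε).q := by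
  filter_upwards [h.yh_stab, h.rd, h.jen, h.dom, self_mem_nhdsWithin, h.mw, h.mY, h.mC, h.E_mono, h.W_mono, h.q0.choose_spec.2] with ε h1 h2 h3 h4 hε h5 h6 h7 h8 h9 h10
  refine ⟨⟨pvxn_ok_ae 𝔓 m π a (𝔎s ε) 𝔜 h7 hε, h7, h5, h6, pvxn_H_meas ε (𝔎s ε).mB _ _, pvxn_cnt 𝔓 m π a (𝔎s ε) 𝔜 ε, pvxn_fin 𝔓 m π a (𝔎s ε) 𝔜 ε, pvxn_dis 𝔓 m π a (𝔎s ε) 𝔜 ε, ?_,
    pvxn_stabW h9, pvxn_hq 𝔓 m π a (𝔎s ε) 𝔜 ε, ?_, h3, ?_⟩, h10⟩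
  · intro Y hY i σ σ' hA k1 k2
    exact ⟨pvxn_stab h8 Y hY i σ σ' hA k1 k2, rfl, rfl, rfl, h1 Y hY i σ σ' hA k1 fun z hz hN => k2 z hz (not_not.2 hN)⟩
  · intro Y hY σ
    filter_upwards [h2 Y hY σ] with ω₂ hω i
    exact ⟨(hω i).1, (hω i).2, rfl⟩
  · filter_upwards [h4, pvxn_H_ae ε (𝔎s ε).mB (pvlmH m) 𝔜.D] with ω k1 k2
    exact k1.trans (le_of_eq k2.symm)

/-- I.TAIL for the majorants of the kits -/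
theorem PvxnOk.tail {𝔎s : ℝ → PvxnKit} {G : ℝ → Set (PvGeoT × PvColT)} {K : ℝ → PVSample → ℂ} (h : PvxnOk 𝔓 x R m π a 𝔜 𝔎s G K) :
    Tendsto (fun ε => ∫⁻ ω, (pvxnSys 𝔓 m π a (𝔎s ε) 𝔜 ε).H ω ∂pvP ε) (𝓝[>] (0 : ℝ)) (𝓝 0) := by
  obtain ⟨B₀, hb, hB⟩ := h.bB
  have h0 : Tendsto (fun ε => 𝔜.D * ∫⁻ η, pvclSum η B₀ (pvlmH m) ∂pvP ε) (𝓝[>] (0 : ℝ)) (𝓝 0) := by
    simpa using ENNReal.Tendsto.const_mul (pvcl_closed hb (pvlm_H_pos m)) (Or.inr h.D1)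
  refine tendsto_of_tendsto_of_tendsto_of_le_of_le' tendsto_const_nhds h0 (Eventually.of_forall fun _ => zero_le) ?_
  filter_upwards [hB] with ε hε
  show ∫⁻ η, pvxnH ε (𝔎s ε).mB (pvlmH m) 𝔜.D η ∂pvP ε ≤ _
  rw [lintegral_congr_ae (pvxn_H_ae ε (𝔎s ε).mB (pvlmH m) 𝔜.D), lintegral_const_mul'' _ (pvcl_sum_aem ε (𝔎s ε).mB (pvlmH m))]
  gcongr
  exact pvcl_sum_mono _ hε _

/-- **THE CONTRACT FROM THE KITS** -/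
noncomputable def PvxnOk.toIn {𝔎s : ℝ → PvxnKit} {G : ℝ → Set (PvGeoT × PvColT)} {K : ℝ → PVSample → ℂ} (h : PvxnOk 𝔓 x R m π a 𝔜 𝔎s G K) : PvxnIn 𝔓 x R m π a K where
  ι := PvxnIx
  S := fun ε => pvxnSys 𝔓 m π a (𝔎s ε) 𝔜 ε
  q := h.q0.choose
  q0 := h.q0.choose_spec.1
  hyp := h.hyp
  tail := h.tail
  G := G
  geo := h.geo
  act := h.act

end sub

/-- **THE FIELD `n1` OF `PvxAna` FROM THE KITS** -/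
theorem pvxn_n1_kit {τ : Type} {c : ℝ} (𝔓 : PvxPar τ c) (W : ℕ → ℝ → ℂ → PvtW) (kout kin : ℕ → ℝ → ℂ → ℂ → τ → PVSample → ℂ)
    (H : ∀ (x : ℂ) (R : ℝ), 0 < R → ∀ (a : ℂ) (m : ℕ), ∀ π ∈ pvxPatSet 𝔓 x R m, ∃ (𝔜 : PvxnYd) (𝔎s : ℝ → PvxnKit) (G : ℝ → Set (PvGeoT × PvColT)), PvxnOk 𝔓 x R m π a 𝔜 𝔎s G fun ε ω =>
      kout m ε a π.p.zt π.p.tt ω + pvtSum (W m ε a) ((𝔓.Γ m).dout π.p.tt) π.p.l + kin m ε a π.p.zs π.p.ts ω) :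
    ∀ (x : ℂ) (R : ℝ), 0 < R → ∀ (a : ℂ) (m : ℕ), ∀ π ∈ pvxPatSet 𝔓 x R m, ∀ u : ℝ, 0 < u →
    Tendsto (fun ε => ((pvhbUp ε).P {q | ∃ P ∈ pvhbAll x R (pvMerge q), ∃ s ∈ pvxPins 𝔓 x R m (pvMerge q) P, ∃ t ∈ pvxPins 𝔓 x R m (pvMerge q) P, pvxFit 𝔓 x R m (pvMerge q) P s t π ∧
      u < ‖pvbArcI 𝔓.𝔐 (pvlmH m) P (fun k => P.xQ k - a * P.xV k) s t +
        (kout m ε a t.ctr t.typ (pvMerge q) + pvtSum (W m ε a) ((𝔓.Γ m).dout π.p.tt) π.p.l + kin m ε a s.ctr s.typ (pvMerge q))‖}).toReal) (𝓝[>] (0 : ℝ)) (𝓝 0) :=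
  pvxn_n1 𝔓 W kout kin fun x R hR a m π hπ => by
    obtain ⟨𝔜, 𝔎s, G, h⟩ := H x R hR a m π hπ
    exact ⟨h.toIn⟩

theorem pvxn1_eqns_cite : True := by
  have := @pvxnH.eq_1; have := @pvxnFl.eq_1; have := @pvxnFd.eq_1; have := @PvxnPW.eq_1; have := @PvxnPA.eq_1; have := @pvxnSys.eq_1
  trivial


end Claimed.Agent.R289
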