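-- KEEP
import Claimed.Agent.R289.Exit.TrP
import Claimed.Agent.R289.Tr.N1Q
import Claimed.Agent.R289.Tr.N1R
import Claimed.Agent.R289.Tr.DomE
import Claimed.Agent.R289.Tr.DomFl
import Claimed.Agent.R289.Tr.LaneW

/-!
# Row 289 (S0537), Exit/ArcP : ROOF OF `PvrxArc 𝔄 𝔇` (THE FREE ARC OF ROAD P: `Z stab n1ν` | `cP stabV telP`) = COMPILED GLUE OVER NAMED CONTRACTS      (pen helper286; prefix `pvra_`, `pvra`, `Pvra`)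

`PvrxArc 𝔄 𝔇` (79, `Exit/TrP.lean`) is what the roof of road P asks of the lines P12 + P17 (`Q`) and (A4) (`V`).      THIS FILE cuts it, with ALL the probability and measure theory done:

      `pvraArc : (∀ m, 𝔓.m0 ≤ m → ∀ π, PvraPat 𝔄 𝔇 m π) → PvraV 𝔄 𝔇 → PvrxArc 𝔄 𝔇`

* sec. 1  **EXCEPTIONAL EVENTS PER PATTERN ARE FREE**: `𝔇.cut Exc` (`Fit` cut down by `ω ∉ Exc m ε π`), `pvra_cover_cut : PvrxCover 𝔇 → (∀ m π, P(Exc m ε π) → 0 as ε ↓ 0) → PvrxCover (𝔇.cut Exc)`.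
          `pvra_exc_geo`, **`pvra_exc_lane`** (M12 of 277: the lane of a pattern is good up to an exceptional event), `pvra_exc_union`, `pvra_exc_conf`.
          USE: the QBX-good geometry of the tube and of the white lane of `π`, the mesh of the patch, .. (facts on the GEOMETRY which `hq`, `act`, `telP` need and which hold with probability `→ 1` at fixed `(m, π)`): nobody has to touch `Fit` of 138 or the proof of `cover` of 236.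
* sec. 2  `PvraPrep 𝔇 m π ε ω P s t ζ` = "`ζ` is a doubly prepared, doubly usable configuration of the fitting arc `(P; s, t)` of the sample `ω`" (the hypothesis of STAB, bundled, K-free words `𝔓.Mv`).
          **`PvraPat 𝔄 𝔇 m π`** = THE CONTRACT OF ONE PATTERN, SYSTEM FORM: `S ε : PvdmSys κ` of 159, `hyp yh act q0 tail` + a NULL SET `Nl ε` of configurations on which nothing is asked (a.e. identities of the engine, measurable modifications).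
          `PvraPat.Z`, `pvra_stab`, `pvra_n1ν`.
* sec. 3  the levels `m < 𝔓.m0` (no pins): `pvraTriv`.
* sec. 4  `PvraV 𝔄 𝔇` (`cP stabV telP`: 263 `Tr/CutP.lean`), **`pvraArc`**.
* sec. 5  **`PvraGeo 𝔄 𝔇 m π`** = THE CONTRACT OF ONE PATTERN, GEOMETRIC FORM: `𝔊 ε : PvnwGeo κ U C` of 279 (`Tr/N1Q.lean`) + `yh` (TR2 + TR25: 58 183) + `ends` + `act` + numbers;   `PvraGeo.toPat`.
* sec. 6  CLOSE AND TAIL FOR `PvnwGeo`: `PvraCl 𝔊 B a₀ η` (closing contract at ONE configuration, on the plane map `pvieT η`, words `PvdeCl` of 37), **`pvra_close`** = field `close` of `PvnwGeo.Hyp` VERBATIM for `Θ := pvxnH ε hB a₀ 1` (170),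
          `pvra_mΘ`, **`pvra_tail`** (I.TAIL), `pvra_Dc_le` (`D_c ≤ β⁻¹^|Cu| q⁻¹^|Cf|`).
* sec. 7  **`PvraOne 𝔄 𝔇 m π`** = THE `Q`-HALF FOR ONE PATTERN, FINAL FORM (`Z stab n1ν` at the candidates of the pattern): `PvraPat.one`, **`PvraYp 𝔄 𝔇 m π`** (the contract at the data of 58 in the form `PvnyPat` of 279, `Tr/N1R.lean`) + `PvraYp.one`,
          `pvraOneAll`, `pvra_one_stab`, **`pvraArcOne`**.
WHO OWES WHAT AFTER THIS FILE (road P, line P17):   the DEFINITION `𝔊 m π ε` at the model (59 225 `Tr/N1SysP.lean`; chain 183 `Tr/PatP.lean`);   `PvnwGeo.Hyp` minus `mΘ close` (field by field: see `Tr/N1Q.lean`);   `PvraCl` a.e. (113 202: CLOSE-P);   `yh` (58 183);   `act` (212 97 191);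
   `hq` numbers `q0` (147), `D0` (ADM 34 140 + forcing 272 68).
-/

set_option autoImplicit false
set_option linter.unusedSectionVars false

namespace Claimed.Agent.R289

open MeasureTheory Filter Topology Set Claims.C0465
open scoped ENNReal

variable {τ : Type} {c : ℝ} {𝔓 : PvrxPar τ c} {x : ℂ} {R : ℝ}

/-! ## 1. exceptional events per pattern are free -/

section cut

/-- the same patterns, `Fit` cut down by an exceptional event of the sample per pattern -/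
def PvrxPat.cut (𝔇 : PvrxPat 𝔓 x R) (Exc : ∀ m : ℕ, ℝ → 𝔇.Pat m → Set PVSample) : PvrxPat 𝔓 x R where
  Pat := 𝔇.Pat
  Pat_fin := 𝔇.Pat_fin
  pat := 𝔇.pat
  pat_ok := 𝔇.pat_ok
  far := 𝔇.far
  Fit := fun m ε ω P s t π => 𝔇.Fit m ε ω P s t π ∧ ω ∉ Exc m ε π
  fit_s := fun m ε ω P s t π h => 𝔇.fit_s m ε ω P s t π h.1
  fit_t := fun m ε ω P s t π h => 𝔇.fit_t m ε ω P s t π h.1

theorem pvra_eqns_cite : True := by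
  have := @PvrxPat.cut.eq_1
  trivial

/-- a finite family of events of upper probability `→ 0` -/
theorem pvra_union_lim {Ω ι : Type} [Finite ι] (Pr : ℝ → PvUp Ω) (A : ℝ → ι → Set Ω) (h : ∀ i, Tendsto (fun ε => (Pr ε).P (A ε i)) (𝓝[>] (0 : ℝ)) (𝓝 0)) :
    Tendsto (fun ε => ((Pr ε).P (⋃ i, A ε i)).toReal) (𝓝[>] (0 : ℝ)) (𝓝 0) := by
  classical
  have := Fintype.ofFinite ι
  have h1 : Tendsto (fun ε => ∑ i, (Pr ε).P (A ε i)) (𝓝[>] (0 : ℝ)) (𝓝 0) := by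
    have := tendsto_finsetSum (Finset.univ : Finset ι) fun i _ => h i
    simpa using this
  have h2 : Tendsto (fun ε => (Pr ε).P (⋃ i, A ε i)) (𝓝[>] (0 : ℝ)) (𝓝 0) := by
    refine tendsto_of_tendsto_of_tendsto_of_le_of_le tendsto_const_nhds h1 (fun ε => zero_le) fun ε => ?_
    have := (Pr ε).P_biUnion_le Finset.univ (A ε)
    simpa using this
  exact (ENNReal.tendsto_toReal ENNReal.zero_ne_top).comp h2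

/-- **EXCEPTIONAL EVENTS PER PATTERN ARE FREE**: `cover` survives -/
theorem pvra_cover_cut {𝔇 : PvrxPat 𝔓 x R} (hC : PvrxCover 𝔇) (Exc : ∀ m : ℕ, ℝ → 𝔇.Pat m → Set PVSample)
    (hE : ∀ m (π : 𝔇.Pat m), Tendsto (fun ε => (pvhbUp ε).P {q | pvMerge q ∈ Exc m ε π}) (𝓝[>] (0 : ℝ)) (𝓝 0)) : PvrxCover (𝔇.cut Exc) := by
  have hsum : PvhbOrd (fun m ε => ((pvhbUp ε).P (⋃ π : 𝔇.Pat m, {q | pvMerge q ∈ Exc m ε π})).toReal) :=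
    PvhbOrd.of_tendsto fun m => by
      have := 𝔇.Pat_fin m
      exact pvra_union_lim pvhbUp (fun ε (π : 𝔇.Pat m) => {q | pvMerge q ∈ Exc m ε π}) (hE m)
  refine (PvhbOrd.add hC hsum).mono fun m ε => ?_
  rw [← ENNReal.toReal_add ((pvhbUp ε).P_ne_top _) ((pvhbUp ε).P_ne_top _)]
  refine ENNReal.toReal_mono (ENNReal.add_ne_top.2 ⟨(pvhbUp ε).P_ne_top _, (pvhbUp ε).P_ne_top _⟩) (le_trans ((pvhbUp ε).P_mono ?_) ((pvhbUp ε).P_union_le _ _))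
  intro q hq
  by_cases hx : q ∈ ⋃ π : 𝔇.Pat m, {q | pvMerge q ∈ Exc m ε π}
  · exact Or.inr hx
  · refine Or.inl fun hall => hq fun P hP s hs t ht h1 h2 h3 => ?_
    obtain ⟨π, hπ⟩ := hall P hP s hs t ht h1 h2 h3
    exact ⟨π, hπ, fun hE' => hx (mem_iUnion.2 ⟨π, hE'⟩)⟩

/-- an exceptional event of the GEOMETRY whose probability is small as soon as `U(θ) ε ≤ δ` (the shape of all the exits of QBX / mesh: `pvmw_exit` of 277, `pvln_err`) is exceptional in the sense of `pvra_cover_cut` -/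
theorem pvra_exc_geo {δ : ℝ} (hδ : 0 < δ) (B : ℝ → Set PvGeoT)
    (h : ∀ θ : ℝ, 0 < θ → ∃ U : ℝ, 1 ≤ U ∧ ∀ ε : ℝ, 0 < ε → U * ε ≤ δ → pvGeo ε (B ε) ≤ ENNReal.ofReal θ) :
    Tendsto (fun ε => (pvhbUp ε).P {q | pvGeoOf (pvMerge q) ∈ B ε}) (𝓝[>] (0 : ℝ)) (𝓝 0) := by
  rw [ENNReal.tendsto_nhds_zero]
  intro e he
  obtain ⟨θ, hθ, hθe⟩ : ∃ θ : ℝ, 0 < θ ∧ ENNReal.ofReal θ ≤ e := by
    rcases eq_or_ne e ∞ with rfl | htop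
    · exact ⟨1, one_pos, le_top⟩
    · exact ⟨e.toReal, ENNReal.toReal_pos he.ne' htop, (ENNReal.ofReal_toReal htop).le⟩
  obtain ⟨U, hU, H⟩ := h θ hθ
  have hU0 : 0 < U := lt_of_lt_of_le one_pos hU
  have hev : ∀ᶠ ε in 𝓝[>] (0 : ℝ), ε < δ / U := by
    have : Set.Iio (δ / U) ∈ 𝓝 (0 : ℝ) := Iio_mem_nhds (div_pos hδ hU0)
    exact mem_nhdsWithin_of_mem_nhds this
  filter_upwards [hev, self_mem_nhdsWithin] with ε h1 h2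
  have h3 : U * ε ≤ δ := by
    have := (lt_div_iff₀ hU0).1 h1
    linarith
  exact ((pvhb_up_P_geo ε (B ε)).trans (H ε h2 h3)).trans hθe

/-- **THE LANE OF A PATTERN IS GOOD, UP TO AN EXCEPTIONAL EVENT** (M12 of 277 = QBX): ONE constant `q`; for every lane `L` of at most `n` cells of a FIXED side `δ` the geometries which are not good at the level `q^(15n)/2` are exceptional.
USE (D4 of 59): `Exc m ε π := {ω | ¬ PvmwGood (q ^ (15 * n) / 2) δ c L (pvGeoOf ω)}` in `𝔇.cut Exc`. -/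
theorem pvra_exc_lane : ∃ q : ℝ, 0 < q ∧ q ≤ 1 ∧ ∀ (n : ℕ) (δ : ℝ), 0 < δ → ∀ (c : Bool) (L : List (ℤ × ℤ)), L ≠ [] → L.IsChain PvlnAdj → L.length ≤ n →
    Tendsto (fun ε => (pvhbUp ε).P {o | pvMerge o ∈ {ω | ¬ PvmwGood (q ^ (15 * n) / 2) δ c L (pvGeoOf ω)}}) (𝓝[>] (0 : ℝ)) (𝓝 0) := by
  obtain ⟨q, hq0, hq1, H⟩ := pvmw_exit
  refine ⟨q, hq0, hq1, fun n δ hδ c L hne hc hn => ?_⟩
  refine pvra_exc_geo hδ (fun _ => {g | ¬ PvmwGood (q ^ (15 * n) / 2) δ c L g}) fun θ hθ => ?_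
  obtain ⟨U, hU, HU⟩ := H n θ hθ
  exact ⟨U, hU, fun ε hε hUε => HU ε hε δ hUε c L hne hc hn⟩

/-- finitely many exceptional events -/
theorem pvra_exc_union {A B : ℝ → Set PVSample} (hA : Tendsto (fun ε => (pvhbUp ε).P {q | pvMerge q ∈ A ε}) (𝓝[>] (0 : ℝ)) (𝓝 0))
    (hB : Tendsto (fun ε => (pvhbUp ε).P {q | pvMerge q ∈ B ε}) (𝓝[>] (0 : ℝ)) (𝓝 0)) :
    Tendsto (fun ε => (pvhbUp ε).P {q | pvMerge q ∈ A ε ∪ B ε}) (𝓝[>] (0 : ℝ)) (𝓝 0) := by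
  have h := hA.add hB
  rw [add_zero] at h
  exact tendsto_of_tendsto_of_tendsto_of_le_of_le tendsto_const_nhds h (fun ε => zero_le) fun ε => (pvhbUp ε).P_union_le _ _

/-- an event of the configuration of `pvP ε`-outer measure `→ 0` is exceptional -/
theorem pvra_exc_conf {A : ℝ → Set (Conf PvPt)} (hA : Tendsto (fun ε => pvP ε (A ε)) (𝓝[>] (0 : ℝ)) (𝓝 0)) :
    Tendsto (fun ε => (pvhbUp ε).P {q | pvMerge q ∈ pvConf ⁻¹' A ε}) (𝓝[>] (0 : ℝ)) (𝓝 0) :=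
  tendsto_of_tendsto_of_tendsto_of_le_of_le tendsto_const_nhds hA (fun _ => zero_le) fun ε => pvhb_up_P_conf ε (A ε)

end cut

/-! ## 2. the contract of one pattern, system form -/

section pat

/-- **`ζ` IS A DOUBLY PREPARED, DOUBLY USABLE CONFIGURATION OF THE FITTING ARC `(P; s, t)` OF THE SAMPLE `ω`** (= the hypotheses of the field `stab` of `PvrxArc`, bundled) -/
structure PvraPrep (𝔇 : PvrxPat 𝔓 x R) (m : ℕ) (π : 𝔇.Pat m) (ε : ℝ) (ω : PVSample) (P : PvbRim) (s t : PvbPin τ) (ζ : Conf PvPt) : Prop where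
  ok : DelgpOk ω
  rim : P ∈ pvdbBlk x R ω
  hs : s ∈ 𝔓.pins x R m ε ω P
  ht : t ∈ 𝔓.pins x R m ε ω P
  fit : 𝔇.Fit m ε ω P s t π
  /-- first a move of positive weight of the strip of `s`, then one of the strip of `t` -/
  mv : ∃ ξ, 𝔓.Mv m s.ctr s.typ (pvConf ω) ξ ∧ 𝔓.Mv m t.ctr t.typ ξ ζ
  gs : ζ ∈ 𝔓.G m ε s.ctr s.typ
  gt : ζ ∈ 𝔓.G m ε t.ctr t.typ

/-- **THE CONTRACT OF ONE PATTERN, SYSTEM FORM**.      Everything is asked for small `ε` only, at the fixed level `m` and pattern `π`.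
* `S ε`    the cylinder domination system of 159: index `κ` = the free arcs `g`;   `hyp` = TR23 (`pvnw_hyp` of 279)
* `col`    THE COLOUR OF THE MONOTONE MOVES (`Tr/DomFl.lean`): `stab`, `stabW` of the system are asked along the moves which only ADD the colour `col` off the frozen part (`col = true`: the form `PvdmSys.Hyp` of 159, `pvdf_hyp_true`)
* `Nl ε`   a set of configurations of `pvP ε`-OUTER measure `0` on which nothing is asked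
* `yh`     TR2 + TR25, exact: the mean of the closing chain is `kout0(t) + ∑ W + kin0(s)`
* `act`    P12 STAB + ACT: the ACTUAL arc is a present datum of the prepared configuration, with the SAME `Q`-mass
* `q0 hq`  P16' (white lane);   `tail` = `D_c ·` I.TAIL -/
structure PvraPat (𝔄 : PvrxAna 𝔓) (𝔇 : PvrxPat 𝔓 x R) (m : ℕ) (π : 𝔇.Pat m) where
  κ : Type
  S : ℝ → PvdmSys κ
  col : Bool
  Nl : ℝ → Set (Conf PvPt)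
  Nl0 : ∀ᶠ ε in 𝓝[>] (0 : ℝ), pvP ε (Nl ε) = 0
  hyp : ∀ᶠ ε in 𝓝[>] (0 : ℝ), (S ε).HypC col ε
  yh : ∀ᶠ ε in 𝓝[>] (0 : ℝ), ∀ g ζ, ζ ∈ (S ε).A g → ζ ∉ Nl ε → (S ε).yh g ζ =
    𝔄.kout0 m ε (𝔇.pat m π).zt (𝔇.pat m π).tt ζ + pvtSum (𝔄.W m ε) ((𝔓.Γ m).dout (𝔇.pat m π).tt) (𝔇.pat m π).l + 𝔄.kin0 m ε (𝔇.pat m π).zs (𝔇.pat m π).ts ζ
  act : ∀ᶠ ε in 𝓝[>] (0 : ℝ), ∀ ω P s t ζ, PvraPrep 𝔇 m π ε ω P s t ζ → ζ ∉ Nl ε → ∃ g, ζ ∈ (S ε).A g ∧ (S ε).X g ζ = pvbArcI 𝔓.𝔐 (pvlmH m) P P.xQ s t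
  q0 : ℝ≥0∞
  q0_ne : q0 ≠ 0
  q0_top : q0 ≠ ∞
  hq : ∀ᶠ ε in 𝓝[>] (0 : ℝ), q0 ≤ (S ε).q
  tail : Tendsto (fun ε => ∫⁻ ω, (S ε).H ω ∂pvP ε) (𝓝[>] (0 : ℝ)) (𝓝 0)

variable {𝔄 : PvrxAna 𝔓} {𝔇 : PvrxPat 𝔓 x R} {m : ℕ} {π : 𝔇.Pat m}

/-- **THE INTEGRAND `Z_π`**: the sum over the present data, `∞` on the null set -/
noncomputable def PvraPat.Z (𝔛 : PvraPat 𝔄 𝔇 m π) (ε : ℝ) (ζ : Conf PvPt) : ℝ≥0∞ := pvruZ (𝔛.S ε) ζ + (𝔛.Nl ε).indicator (fun _ => ∞) ζ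

theorem pvra_eqns_cite2 : True := by
  have := @PvraPat.Z.eq_1
  trivial

/-- **field `stab` of `PvrxArc`** for one pattern -/
theorem pvra_stab (𝔛 : PvraPat 𝔄 𝔇 m π) : ∀ᶠ ε in 𝓝[>] (0 : ℝ), ∀ ω : PVSample, DelgpOk ω → ∀ P ∈ pvdbBlk x R ω, ∀ s ∈ 𝔓.pins x R m ε ω P, ∀ t ∈ 𝔓.pins x R m ε ω P, 𝔇.Fit m ε ω P s t π →
    ∀ ξ ζ : Conf PvPt, 𝔓.Mv m s.ctr s.typ (pvConf ω) ξ → 𝔓.Mv m t.ctr t.typ ξ ζ → ζ ∈ 𝔓.G m ε s.ctr s.typ → ζ ∈ 𝔓.G m ε t.ctr t.typ →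
      ‖pvbArcI 𝔓.𝔐 (pvlmH m) P P.xQ s t +
        (𝔄.kout0 m ε t.ctr t.typ ζ + pvtSum (𝔄.W m ε) ((𝔓.Γ m).dout (𝔇.pat m π).tt) (𝔇.pat m π).l + 𝔄.kin0 m ε s.ctr s.typ ζ)‖ₑ ^ 2 ≤ 𝔛.Z ε ζ := by
  filter_upwards [𝔛.yh, 𝔛.act] with ε hy ha ω hω P hP s hs t ht hF ξ ζ h1 h2 h3 h4
  unfold PvraPat.Z
  by_cases hN : ζ ∈ 𝔛.Nl ε
  · rw [indicator_of_mem hN, add_top]
    exact le_top
  · obtain ⟨hs1, hs2⟩ := 𝔇.fit_s m ε ω P s t π hF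
    obtain ⟨ht1, ht2⟩ := 𝔇.fit_t m ε ω P s t π hF
    obtain ⟨g, hg, hX⟩ := ha ω P s t ζ ⟨hω, hP, hs, ht, hF, ⟨ξ, h1, h2⟩, h3, h4⟩ hN
    refine le_trans (le_trans (le_of_eq ?_) (pvru_le_Z (𝔛.S ε) hg)) le_self_add
    rw [hX, hy g ζ hg hN, ← hs1, ← hs2, ← ht1, ← ht2]

/-- a null set of configurations carries no upper expectation -/
theorem pvra_null {ε : ℝ} {Nl : Set (Conf PvPt)} (h : pvP ε Nl = 0) : (pvhbUp ε).E (fun q => Nl.indicator (fun _ => ∞) (pvConf (pvMerge q))) = 0 := by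
  refine le_antisymm ?_ zero_le
  have h1 : ∀ᵐ η ∂(pvP ε), Nl.indicator (fun _ => (∞ : ℝ≥0∞)) η ≤ (fun _ => (0 : ℝ≥0∞)) η := by
    have h2 : ∀ᵐ η ∂(pvP ε), η ∉ Nl := measure_eq_zero_iff_ae_notMem.1 h
    filter_upwards [h2] with η hη
    rw [indicator_of_notMem hη]
  refine (pvhb_up_E_conf ε (φ := fun _ => 0) aemeasurable_const h1).trans ?_
  simp

/-- **field `n1ν` of `PvrxArc`** for one pattern -/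
theorem pvra_n1ν (𝔛 : PvraPat 𝔄 𝔇 m π) : Tendsto (fun ε => (pvhbUp ε).E (fun q => 𝔛.Z ε (pvConf (pvMerge q)))) (𝓝[>] (0 : ℝ)) (𝓝 0) := by
  have h1 : Tendsto (fun ε => (pvhbUp ε).E (fun q => pvruZ (𝔛.S ε) (pvConf (pvMerge q)))) (𝓝[>] (0 : ℝ)) (𝓝 0) :=
    pvdf_n1 𝔛.S (fun _ => 𝔛.col) 𝔛.hyp 𝔛.q0_ne 𝔛.q0_top 𝔛.hq 𝔛.tail
  refine tendsto_of_tendsto_of_tendsto_of_le_of_le' tendsto_const_nhds h1 (Eventually.of_forall fun ε => zero_le) ?_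
  filter_upwards [𝔛.Nl0] with ε h0
  refine ((pvhbUp ε).add_le _ _).trans ?_
  rw [pvra_null h0, add_zero]

end pat

/-! ## 3. the levels below `m0` -/

section triv

/-- the empty system of 159 -/
noncomputable def pvraEmpty : PvdmSys Empty where
  Ok := fun _ => True
  C := ∅
  A := fun i => i.elim
  WO := fun i => i.elim
  frz := fun i => i.elim
  yf := fun i => i.elim
  X := fun i => i.elim
  yh := fun i => i.elim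
  w := fun _ => 0
  Y := fun _ => 0
  H := fun _ => 0
  q := 1

theorem pvra_empty_hyp (ε : ℝ) : pvraEmpty.Hyp ε where
  ok_ae := Eventually.of_forall fun _ => trivial
  mC := MeasurableSet.empty
  mw := fun _ _ i => i.elim
  mY := fun _ _ i => i.elim
  mH := measurable_const
  cnt := fun _ _ => Set.to_countable _
  fin := fun _ _ i => i.elim
  dis := fun _ _ i => i.elim
  stab := fun _ _ i => i.elim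
  stabW := fun _ _ i => i.elim
  hq := fun _ _ i => i.elim
  rd := fun _ _ _ => Eventually.of_forall fun _ i => i.elim
  jen := fun _ _ i => i.elim
  dom := Eventually.of_forall fun _ => by simp

/-- below the first level there are no pins: the contract is empty -/
noncomputable def pvraTriv (𝔄 : PvrxAna 𝔓) (𝔇 : PvrxPat 𝔓 x R) {m : ℕ} (hm : ¬ 𝔓.m0 ≤ m) (π : 𝔇.Pat m) : PvraPat 𝔄 𝔇 m π where
  κ := Empty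
  S := fun _ => pvraEmpty
  col := true
  Nl := fun _ => ∅
  Nl0 := Eventually.of_forall fun _ => measure_empty
  hyp := Eventually.of_forall fun ε => pvdf_hyp_true.2 (pvra_empty_hyp ε)
  yh := Eventually.of_forall fun _ g => g.elim
  act := Eventually.of_forall fun _ _ _ _ _ _ h => absurd h.hs.1.1 hm
  q0 := 1
  q0_ne := one_ne_zero
  q0_top := ENNReal.one_ne_top
  hq := Eventually.of_forall fun _ => le_rfl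
  tail := by
    have e : ∀ ε : ℝ, ∫⁻ ω, pvraEmpty.H ω ∂pvP ε = 0 := fun ε => by
      show ∫⁻ _, (0 : ℝ≥0∞) ∂pvP ε = 0
      simp
    simp only [e]
    exact tendsto_const_nhds

theorem pvra_eqns_cite3 : True := by
  have := @pvraEmpty.eq_1; have := @pvraTriv.eq_1
  trivial

end triv

/-! ## 4. the `V` part, the roof -/

section roof

/-- **THE `V` PART OF THE FREE ARC** (fields of `PvrxArc` verbatim)      [263 76: `Tr/CutP.lean`: `cP := pvkvC`, `pvkv_stabV`, `pvkv_tel`] -/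
structure PvraV (𝔄 : PvrxAna 𝔓) (𝔇 : PvrxPat 𝔓 x R) where
  cP : ℕ → ℝ → PVSample → PvbRim → PvbPin τ → ℂ
  stabV : ∀ (m : ℕ) (π : 𝔇.Pat m), ∀ᶠ ε in 𝓝[>] (0 : ℝ), ∀ ω : PVSample, DelgpOk ω → ∀ P ∈ pvdbBlk x R ω, ∀ s ∈ 𝔓.pins x R m ε ω P, ∀ t ∈ 𝔓.pins x R m ε ω P, 𝔇.Fit m ε ω P s t π →
    (∀ ξ : Conf PvPt, 𝔓.Mv m s.ctr s.typ (pvConf ω) ξ → ξ ∈ 𝔓.G m ε s.ctr s.typ → 𝔄.cV0 m ε s.ctr s.typ ξ = cP m ε ω P s) ∧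
    (∀ ξ : Conf PvPt, 𝔓.Mv m t.ctr t.typ (pvConf ω) ξ → ξ ∈ 𝔓.G m ε t.ctr t.typ → 𝔄.cV0 m ε t.ctr t.typ ξ = cP m ε ω P t)
  telP : ∀ (m : ℕ) (π : 𝔇.Pat m), ∀ᶠ ε in 𝓝[>] (0 : ℝ), ∀ ω : PVSample, DelgpOk ω → ∀ P ∈ pvdbBlk x R ω, ∀ s ∈ 𝔓.pins x R m ε ω P, ∀ t ∈ 𝔓.pins x R m ε ω P, 𝔇.Fit m ε ω P s t π →
    pvbArcI 𝔓.𝔐 (pvlmH m) P P.xV s t = cP m ε ω P t - cP m ε ω P s

open Classical in
/-- the contracts of all levels -/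
noncomputable def pvraAll {𝔄 : PvrxAna 𝔓} {𝔇 : PvrxPat 𝔓 x R} (X : ∀ m, 𝔓.m0 ≤ m → ∀ π : 𝔇.Pat m, PvraPat 𝔄 𝔇 m π) (m : ℕ) (π : 𝔇.Pat m) : PvraPat 𝔄 𝔇 m π :=
  if hm : 𝔓.m0 ≤ m then X m hm π else pvraTriv 𝔄 𝔇 hm π

/-- **THE ROOF OF THE FREE ARC OF ROAD P** -/
noncomputable def pvraArc {𝔄 : PvrxAna 𝔓} {𝔇 : PvrxPat 𝔓 x R} (X : ∀ m, 𝔓.m0 ≤ m → ∀ π : 𝔇.Pat m, PvraPat 𝔄 𝔇 m π) (V : PvraV 𝔄 𝔇) : PvrxArc 𝔄 𝔇 where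
  Z := fun m ε π => (pvraAll X m π).Z ε
  stab := fun m π => pvra_stab (pvraAll X m π)
  n1ν := fun m π => pvra_n1ν (pvraAll X m π)
  cP := V.cP
  stabV := V.stabV
  telP := V.telP

theorem pvra_eqns_cite4 : True := by
  have := @pvraAll.eq_1; have := @pvraArc.eq_1
  trivial

end roof

/-! ## 5. the contract of one pattern, geometric form (`PvnwGeo` of 279) -/

section geo

/-- **THE CONTRACT OF ONE PATTERN, GEOMETRIC FORM**.      `𝔊 ε : PvnwGeo κ U C` = (engine system of the closing chain `c : t → … → s`; corridor; arcs `V g, E g, Xg g`; white lane `W`; `Θ`; `qW`), `Tr/N1Q.lean`.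
* `hyp`   the contracts of 279, field by field (`close`, `mΘ`: sec. 6 below)
* `yh`    TR2 + TR25: `y_c = kout0(t) + ∑ W + kin0(s)` at the usable marked states which carry a datum, off the null set      [58 `pvsk_chainY`, 183, 279 `pvnw_yh`]
* `ends`  the usable states of record are usable for the engine
* `act`   STAB + ACT -/
structure PvraGeo (𝔄 : PvrxAna 𝔓) (𝔇 : PvrxPat 𝔓 x R) (m : ℕ) (π : 𝔇.Pat m) where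
  κ : Type
  U : Type
  C : Type
  fU : Fintype U
  fC : Fintype C
  dU : DecidableEq U
  dC : DecidableEq C
  𝔊 : ℝ → PvnwGeo κ U C
  Nl : ℝ → Set (Conf PvPt)
  Nl0 : ∀ᶠ ε in 𝓝[>] (0 : ℝ), pvP ε (Nl ε) = 0
  hyp : ∀ᶠ ε in 𝓝[>] (0 : ℝ), (𝔊 ε).Hyp ε
  yh : ∀ᶠ ε in 𝓝[>] (0 : ℝ), ∀ g ζ, ζ ∈ (𝔊 ε).Sy.Ends (𝔊 ε).Cu (𝔊 ε).Cf → ζ ∈ (𝔊 ε).E g → ζ ∉ Nl ε → (𝔊 ε).Sy.y (pvP ε) (𝔊 ε).X (𝔊 ε).Cu (𝔊 ε).Cf ζ =
    𝔄.kout0 m ε (𝔇.pat m π).zt (𝔇.pat m π).tt ζ + pvtSum (𝔄.W m ε) ((𝔓.Γ m).dout (𝔇.pat m π).tt) (𝔇.pat m π).l + 𝔄.kin0 m ε (𝔇.pat m π).zs (𝔇.pat m π).ts ζ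
  ends : ∀ᶠ ε in 𝓝[>] (0 : ℝ), ∀ ζ, ζ ∈ 𝔓.G m ε (𝔇.pat m π).zs (𝔇.pat m π).ts → ζ ∈ 𝔓.G m ε (𝔇.pat m π).zt (𝔇.pat m π).tt → ζ ∉ Nl ε → ζ ∈ (𝔊 ε).Sy.Ends (𝔊 ε).Cu (𝔊 ε).Cf
  act : ∀ᶠ ε in 𝓝[>] (0 : ℝ), ∀ ω P s t ζ, PvraPrep 𝔇 m π ε ω P s t ζ → ζ ∉ Nl ε → ∃ g, ζ ∈ (𝔊 ε).E g ∧ (𝔊 ε).Xg g ζ = pvbArcI 𝔓.𝔐 (pvlmH m) P P.xQ s t
  q0 : ℝ≥0∞
  q0_ne : q0 ≠ 0
  q0_top : q0 ≠ ∞
  hq : ∀ᶠ ε in 𝓝[>] (0 : ℝ), q0 ≤ (𝔊 ε).qW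
  D0 : ℝ≥0∞
  D0_top : D0 ≠ ∞
  hD : ∀ᶠ ε in 𝓝[>] (0 : ℝ), (𝔊 ε).Sy.Dc (pvP ε) (𝔊 ε).Cu (𝔊 ε).Cf (𝔊 ε).qf ≤ D0
  tail : Tendsto (fun ε => ∫⁻ ω, (𝔊 ε).Θ ω ∂pvP ε) (𝓝[>] (0 : ℝ)) (𝓝 0)

/-- the geometric form gives the system form -/
noncomputable def PvraGeo.toPat {𝔄 : PvrxAna 𝔓} {𝔇 : PvrxPat 𝔓 x R} {m : ℕ} {π : 𝔇.Pat m} (𝔜 : PvraGeo 𝔄 𝔇 m π) : PvraPat 𝔄 𝔇 m π where
  κ := 𝔜.κ
  S := fun ε => (𝔜.𝔊 ε).toDom ε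
  col := true
  Nl := 𝔜.Nl
  Nl0 := 𝔜.Nl0
  hyp := 𝔜.hyp.mono fun ε h => by
    let _ := 𝔜.fU; let _ := 𝔜.fC; let _ := 𝔜.dU; let _ := 𝔜.dC
    exact pvdf_hyp_true.2 (pvnw_hyp h)
  yh := 𝔜.yh.mono fun ε h g ζ hζ hN => h g ζ hζ.1 hζ.2 hN
  act := by
    filter_upwards [𝔜.act, 𝔜.ends] with ε ha he ω P s t ζ hp hN
    obtain ⟨g, hg, hX⟩ := ha ω P s t ζ hp hN
    obtain ⟨hs1, hs2⟩ := 𝔇.fit_s m ε ω P s t π hp.fit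
    obtain ⟨ht1, ht2⟩ := 𝔇.fit_t m ε ω P s t π hp.fit
    exact ⟨g, ⟨he ζ (by rw [← hs1, ← hs2]; exact hp.gs) (by rw [← ht1, ← ht2]; exact hp.gt) hN, hg⟩, hX⟩
  q0 := 𝔜.q0
  q0_ne := 𝔜.q0_ne
  q0_top := 𝔜.q0_top
  hq := 𝔜.hq
  tail := by
    have h1 : Tendsto (fun ε => 𝔜.D0 * ∫⁻ ω, (𝔜.𝔊 ε).Θ ω ∂pvP ε) (𝓝[>] (0 : ℝ)) (𝓝 0) := by
      have := ENNReal.Tendsto.const_mul (a := 𝔜.D0) 𝔜.tail (Or.inr 𝔜.D0_top)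
      rwa [mul_zero] at this
    refine tendsto_of_tendsto_of_tendsto_of_le_of_le' tendsto_const_nhds h1 (Eventually.of_forall fun ε => zero_le) ?_
    filter_upwards [𝔜.hyp, 𝔜.hD] with ε h2 h3
    have e : ∫⁻ ω, ((𝔜.𝔊 ε).toDom ε).H ω ∂pvP ε = (𝔜.𝔊 ε).Sy.Dc (pvP ε) (𝔜.𝔊 ε).Cu (𝔜.𝔊 ε).Cf (𝔜.𝔊 ε).qf * ∫⁻ ω, (𝔜.𝔊 ε).Θ ω ∂pvP ε :=
      lintegral_const_mul _ h2.mΘ
    rw [e]
    exact mul_le_mul_left h3 _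

theorem pvra_eqns_cite5 : True := by
  have := @PvraGeo.toPat.eq_1
  trivial

end geo

/-! ## 6. CLOSE and TAIL for `PvnwGeo` -/

section close

variable {κ U C : Type}

/-- the datum `g` is present and closed off by the white lane -/
def PvnwGeo.Pr (𝔊 : PvnwGeo κ U C) (η : Conf PvPt) (g : κ) : Prop := η ∈ 𝔊.Sy.Ends 𝔊.Cu 𝔊.Cf ∩ 𝔊.E g ∩ 𝔊.W

/-- **THE CLOSING CONTRACT OF ROAD P AT ONE CONFIGURATION** (TR13 CLOSE + TR12 injectivity + TR14 masks), on the plane map `pvieT η` (161), words of 37 (`PvdeCl 0 B a₀ η c z`: `c` is a rim of either colour, vertices in `B`,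
two vertices `a₀` apart, `Q`-mass `z`):   when the chain succeeds, every present datum closes to a rim of the patch of mass `X_g + Y_c`, and two present data with the same rim are equal.      [113 202: CLOSE-P] -/
structure PvraCl (𝔊 : PvnwGeo κ U C) (B : Set ℂ) (a₀ : ℝ) (η : Conf PvPt) : Prop where
  cl : η ∈ 𝔊.Sy.Ev 𝔊.Cu 𝔊.Cf → ∃ Cl : κ → (pvieT η).Cyc → Prop, (∀ g, 𝔊.Pr η g → ∃ c, Cl g c) ∧
    (∀ g c, 𝔊.Pr η g → Cl g c → PvdeCl 0 B a₀ η c (𝔊.Xg g η + pvsyY 𝔊.X 𝔊.Cf η)) ∧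
    ∀ g g' c c', 𝔊.Pr η g → 𝔊.Pr η g' → Cl g c → Cl g' c' → c'.e 0 ∈ c.darts → g = g'

/-- the auxiliary system: weight = indicator of the success of the chain -/
noncomputable def PvnwGeo.aux (𝔊 : PvnwGeo κ U C) : PvdmSys κ where
  Ok := 𝔊.Ok
  C := 𝔊.C0
  A g := 𝔊.Sy.Ends 𝔊.Cu 𝔊.Cf ∩ 𝔊.E g
  WO _ := 𝔊.W
  frz g _ := 𝔊.V g ∪ 𝔊.O2
  yf _ _ := 𝔊.Tᶜ
  X := 𝔊.Xg
  yh _ _ := 0
  w := (𝔊.Sy.Ev 𝔊.Cu 𝔊.Cf).indicator fun _ => 1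
  Y := pvsyY 𝔊.X 𝔊.Cf
  H := 𝔊.Θ
  q := 𝔊.qW

theorem pvra_eqns_cite6 : True := by
  have := @PvnwGeo.Pr.eq_1; have := @PvnwGeo.aux.eq_1
  trivial

theorem pvra_rim {𝔊 : PvnwGeo κ U C} {B : Set ℂ} {a₀ : ℝ} {η : Conf PvPt} (h : PvraCl 𝔊 B a₀ η) : PvdeRim 𝔊.aux 0 B a₀ 1 η where
  w_le := fun _ _ => by
    show (𝔊.Sy.Ev 𝔊.Cu 𝔊.Cf).indicator (fun _ => (1 : ℝ≥0∞)) η ≤ 1
    exact indicator_le_self' (fun _ _ => zero_le) η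
  cl := fun hw => by
    have hE : η ∈ 𝔊.Sy.Ev 𝔊.Cu 𝔊.Cf := by
      by_contra hn
      exact hw (show (𝔊.Sy.Ev 𝔊.Cu 𝔊.Cf).indicator (fun _ => (1 : ℝ≥0∞)) η = 0 from indicator_of_notMem hn _)
    obtain ⟨Cl, h1, h2, h3⟩ := h.cl hE
    exact ⟨Cl, fun g hg => h1 g ⟨hg.1, hg.2⟩, fun g c hg => h2 g c ⟨hg.1, hg.2⟩, fun g g' c c' hg hg' => h3 g g' c c' ⟨hg.1, hg.2⟩ ⟨hg'.1, hg'.2⟩⟩

/-- the deterministic half: at a good configuration the sum of `close` is bounded by the closed sum of I.TAIL -/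
theorem pvra_sum_le {𝔊 : PvnwGeo κ U C} {B : Set ℂ} {a₀ : ℝ} {η : Conf PvPt} (hg : DelGood (cfSites η)) (hB : Bornology.IsBounded B) (h : PvraCl 𝔊 B a₀ η)
    (hE : η ∈ 𝔊.Sy.Ev 𝔊.Cu 𝔊.Cf) :
    ∑' g, (𝔊.Sy.Ends 𝔊.Cu 𝔊.Cf ∩ 𝔊.E g ∩ 𝔊.W).indicator (fun ω => ‖𝔊.Xg g ω + pvsyY 𝔊.X 𝔊.Cf ω‖ₑ ^ 2) η ≤ pvclSum η B a₀ := by
  have key := pvde_sum_le hg hB (pvra_rim h)
  rw [one_mul] at key
  refine le_trans (le_of_eq (tsum_congr fun g => ?_)) key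
  show _ = (𝔊.Sy.Ends 𝔊.Cu 𝔊.Cf ∩ 𝔊.E g ∩ 𝔊.W).indicator (fun ω => (𝔊.Sy.Ev 𝔊.Cu 𝔊.Cf).indicator (fun _ => (1 : ℝ≥0∞)) ω * ‖𝔊.Xg g ω + pvsyY 𝔊.X 𝔊.Cf ω‖ₑ ^ 2) η
  by_cases hm : η ∈ 𝔊.Sy.Ends 𝔊.Cu 𝔊.Cf ∩ 𝔊.E g ∩ 𝔊.W
  · rw [indicator_of_mem hm, indicator_of_mem hm, indicator_of_mem hE, one_mul]
  · rw [indicator_of_notMem hm, indicator_of_notMem hm]

/-- **THE FIELD `close` OF `PvnwGeo.Hyp`, VERBATIM**, for the majorant of record `Θ := pvxnH ε hB a₀ 1` -/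
theorem pvra_close {𝔊 : PvnwGeo κ U C} {ε : ℝ} (hε : 0 < ε) {B : Set ℂ} (hBm : MeasurableSet B) (hB : Bornology.IsBounded B) {a₀ : ℝ} (hΘ : 𝔊.Θ = pvxnH ε hBm a₀ 1)
    (hc : ∀ᵐ η ∂pvP ε, PvraCl 𝔊 B a₀ η) :
    ∀ᵐ ω ∂pvP ε, ω ∈ 𝔊.Sy.Ev 𝔊.Cu 𝔊.Cf →
      ∑' g, (𝔊.Sy.Ends 𝔊.Cu 𝔊.Cf ∩ 𝔊.E g ∩ 𝔊.W).indicator (fun ω => ‖𝔊.Xg g ω + pvsyY 𝔊.X 𝔊.Cf ω‖ₑ ^ 2) ω ≤ 𝔊.Θ ω := by
  filter_upwards [hc, pvxn_H_ae ε hBm a₀ 1, pvqf_good_ae ε hε.ne'] with η h1 h2 h3 hE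
  rw [hΘ, h2, one_mul]
  exact pvra_sum_le h3.del hB h1 hE

/-- the field `mΘ` -/
theorem pvra_mΘ {𝔊 : PvnwGeo κ U C} {ε : ℝ} {B : Set ℂ} (hBm : MeasurableSet B) {a₀ : ℝ} (hΘ : 𝔊.Θ = pvxnH ε hBm a₀ 1) : Measurable 𝔊.Θ := by
  rw [hΘ]
  exact pvxn_H_meas ε hBm a₀ 1

/-- **THE FIELD `tail` OF `PvraGeo`** = I.TAIL;   `B`, `a₀` depend on the level and on the pattern only -/
theorem pvra_tail (𝔊 : ℝ → PvnwGeo κ U C) {B : Set ℂ} (hBm : MeasurableSet B) (hB : Bornology.IsBounded B) {a₀ : ℝ} (ha : 0 < a₀)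
    (hΘ : ∀ᶠ ε in 𝓝[>] (0 : ℝ), (𝔊 ε).Θ = pvxnH ε hBm a₀ 1) : Tendsto (fun ε => ∫⁻ ω, (𝔊 ε).Θ ω ∂pvP ε) (𝓝[>] (0 : ℝ)) (𝓝 0) := by
  refine (pvxn_H_lim hBm hB ha (D := 1) ENNReal.one_ne_top).congr' ?_
  filter_upwards [hΘ] with ε h
  rw [h]

/-- **THE FIELD `hD` OF `PvraGeo`**: `D_c ≤ β⁻¹^|Cu| q⁻¹^|Cf|` -/
theorem pvra_Dc_le {E : Type*} [MeasurableSpace E] (S : PvsySys E U C) (μ : Measure (Conf E)) (Cu : Finset U) (Cf : Finset C) (qf : C → ℝ≥0∞) {β q : ℝ≥0∞}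
    (hβ : ∀ u ∈ Cu, β ≤ μ (S.G u)) (hq : ∀ e ∈ Cf, q ≤ qf e) : S.Dc μ Cu Cf qf ≤ β⁻¹ ^ Cu.card * q⁻¹ ^ Cf.card := by
  unfold PvsySys.Dc
  refine mul_le_mul' ?_ ?_
  · exact Finset.prod_le_pow_card _ _ _ fun u hu => ENNReal.inv_le_inv.2 (hβ u hu)
  · exact Finset.prod_le_pow_card _ _ _ fun e he => ENNReal.inv_le_inv.2 (hq e he)

end close

/-! ## 7. THE `Q`-HALF FOR ONE PATTERN, FINAL FORM; the form at the data of 58 / 279 -/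

section one

variable {𝔄 : PvrxAna 𝔓} {𝔇 : PvrxPat 𝔓 x R}

/-- **THE `Q`-HALF OF THE FREE ARC FOR ONE PATTERN** = the fields `Z stab n1ν` of `PvrxArc` at a fixed `(m, π)`, potentials AT THE CANDIDATES OF THE PATTERN, hypotheses of STAB bundled (`PvraPrep`).
EVERY form of the contract (`PvraPat`, `PvraGeo`, `PvraYp`) ends here;   the assembly (79 `Exit/RestP.lean`) takes `X : ∀ m, 𝔓.m0 ≤ m → ∀ π, PvraOne 𝔄 𝔇 m π`. -/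
structure PvraOne (𝔄 : PvrxAna 𝔓) (𝔇 : PvrxPat 𝔓 x R) (m : ℕ) (π : 𝔇.Pat m) where
  Z : ℝ → Conf PvPt → ℝ≥0∞
  stab : ∀ᶠ ε in 𝓝[>] (0 : ℝ), ∀ ω P s t ζ, PvraPrep 𝔇 m π ε ω P s t ζ →
    ‖pvbArcI 𝔓.𝔐 (pvlmH m) P P.xQ s t + (𝔄.kout0 m ε (𝔇.pat m π).zt (𝔇.pat m π).tt ζ + pvtSum (𝔄.W m ε) ((𝔓.Γ m).dout (𝔇.pat m π).tt) (𝔇.pat m π).l
      + 𝔄.kin0 m ε (𝔇.pat m π).zs (𝔇.pat m π).ts ζ)‖ₑ ^ 2 ≤ Z ε ζ
  n1ν : Tendsto (fun ε => (pvhbUp ε).E (fun q => Z ε (pvConf (pvMerge q)))) (𝓝[>] (0 : ℝ)) (𝓝 0)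

/-- **field `stab` of `PvrxArc`, VERBATIM** -/
theorem pvra_one_stab {m : ℕ} {π : 𝔇.Pat m} (𝔛 : PvraOne 𝔄 𝔇 m π) : ∀ᶠ ε in 𝓝[>] (0 : ℝ), ∀ ω : PVSample, DelgpOk ω → ∀ P ∈ pvdbBlk x R ω, ∀ s ∈ 𝔓.pins x R m ε ω P, ∀ t ∈ 𝔓.pins x R m ε ω P,
    𝔇.Fit m ε ω P s t π → ∀ ξ ζ : Conf PvPt, 𝔓.Mv m s.ctr s.typ (pvConf ω) ξ → 𝔓.Mv m t.ctr t.typ ξ ζ → ζ ∈ 𝔓.G m ε s.ctr s.typ → ζ ∈ 𝔓.G m ε t.ctr t.typ →
      ‖pvbArcI 𝔓.𝔐 (pvlmH m) P P.xQ s t +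
        (𝔄.kout0 m ε t.ctr t.typ ζ + pvtSum (𝔄.W m ε) ((𝔓.Γ m).dout (𝔇.pat m π).tt) (𝔇.pat m π).l + 𝔄.kin0 m ε s.ctr s.typ ζ)‖ₑ ^ 2 ≤ 𝔛.Z ε ζ := by
  filter_upwards [𝔛.stab] with ε h ω hω P hP s hs t ht hF ξ ζ h1 h2 h3 h4
  obtain ⟨hs1, hs2⟩ := 𝔇.fit_s m ε ω P s t π hF
  obtain ⟨ht1, ht2⟩ := 𝔇.fit_t m ε ω P s t π hF
  have := h ω P s t ζ ⟨hω, hP, hs, ht, hF, ⟨ξ, h1, h2⟩, h3, h4⟩
  rw [hs1, hs2, ht1, ht2]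
  exact this

/-- a doubly prepared configuration is usable AT THE CANDIDATES OF THE PATTERN -/
theorem PvraPrep.gs' {m : ℕ} {π : 𝔇.Pat m} {ε : ℝ} {ω : PVSample} {P : PvbRim} {s t : PvbPin τ} {ζ : Conf PvPt} (h : PvraPrep 𝔇 m π ε ω P s t ζ) :
    ζ ∈ 𝔓.G m ε (𝔇.pat m π).zs (𝔇.pat m π).ts := by
  obtain ⟨hs1, hs2⟩ := 𝔇.fit_s m ε ω P s t π h.fit
  rw [← hs1, ← hs2]
  exact h.gs

theorem PvraPrep.gt' {m : ℕ} {π : 𝔇.Pat m} {ε : ℝ} {ω : PVSample} {P : PvbRim} {s t : PvbPin τ} {ζ : Conf PvPt} (h : PvraPrep 𝔇 m π ε ω P s t ζ) :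
    ζ ∈ 𝔓.G m ε (𝔇.pat m π).zt (𝔇.pat m π).tt := by
  obtain ⟨ht1, ht2⟩ := 𝔇.fit_t m ε ω P s t π h.fit
  rw [← ht1, ← ht2]
  exact h.gt

/-- the system form ends in the final form -/
noncomputable def PvraPat.one {m : ℕ} {π : 𝔇.Pat m} (𝔛 : PvraPat 𝔄 𝔇 m π) : PvraOne 𝔄 𝔇 m π where
  Z := 𝔛.Z
  stab := by
    filter_upwards [pvra_stab 𝔛] with ε h ω P s t ζ hp
    obtain ⟨hs1, hs2⟩ := 𝔇.fit_s m ε ω P s t π hp.fit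
    obtain ⟨ht1, ht2⟩ := 𝔇.fit_t m ε ω P s t π hp.fit
    obtain ⟨ξ, h1, h2⟩ := hp.mv
    have := h ω hp.ok P hp.rim s hp.hs t hp.ht hp.fit ξ ζ h1 h2 hp.gs hp.gt
    rwa [hs1, hs2, ht1, ht2] at this
  n1ν := pvra_n1ν 𝔛

/-- below the first level there are no pins -/
noncomputable def pvraOneTriv (𝔄 : PvrxAna 𝔓) (𝔇 : PvrxPat 𝔓 x R) {m : ℕ} (hm : ¬ 𝔓.m0 ≤ m) (π : 𝔇.Pat m) : PvraOne 𝔄 𝔇 m π where
  Z := fun _ _ => 0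
  stab := Eventually.of_forall fun _ _ _ _ _ _ h => absurd h.hs.1.1 hm
  n1ν := by
    simp only [PvUp.E_zero]
    exact tendsto_const_nhds

open Classical in
/-- the contracts of all levels -/
noncomputable def pvraOneAll (X : ∀ m, 𝔓.m0 ≤ m → ∀ π : 𝔇.Pat m, PvraOne 𝔄 𝔇 m π) (m : ℕ) (π : 𝔇.Pat m) : PvraOne 𝔄 𝔇 m π :=
  if hm : 𝔓.m0 ≤ m then X m hm π else pvraOneTriv 𝔄 𝔇 hm π

/-- **THE ROOF OF THE FREE ARC OF ROAD P, FINAL FORM**      (79: `pvrvArc hW hV hc hR hF (fun m ε π => (pvraOneAll X m π).Z ε) (fun m π => pvra_one_stab _) (fun m π => (pvraOneAll X m π).n1ν)`) -/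
noncomputable def pvraArcOne (X : ∀ m, 𝔓.m0 ≤ m → ∀ π : 𝔇.Pat m, PvraOne 𝔄 𝔇 m π) (V : PvraV 𝔄 𝔇) : PvrxArc 𝔄 𝔇 where
  Z := fun m ε π => (pvraOneAll X m π).Z ε
  stab := fun m π => pvra_one_stab (pvraOneAll X m π)
  n1ν := fun m π => (pvraOneAll X m π).n1ν
  cP := V.cP
  stabV := V.stabV
  telP := V.telP

/-- **THE CONTRACT OF ONE PATTERN AT THE DATA OF 58, FORM OF 279** (`Tr/N1R.lean`: null-measurable chain forced a.e., normal form of the mean from the start).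
* `D`        the sectors of the colour of the pattern (58 `Exit/DatP.lean`);   `ko ki` = the potentials of `𝔄` at the two candidates are those of `D` (`rfl` at `pvyaAna`);   `Gs Gt` = `Gq_τ ⊆ G_τ`
* `𝔞 ε`      the arc side (59 `Tr/N1SysP.lean`, 212 `Tr/ArcP.lean`);   `pat` = `PvnyPat` (chain 183 `pvyt_pat`; regions 225; arc side 59)
* `Nl ε`     a `pvP ε`-null set of configurations on which nothing is asked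
* `act`      P12 STAB + ACT      * `q0 hq` P16'      * `D0 hD` (`pvyt_Dc_le` of 183)      * `tail` I.TAIL (`pvcl_closed`) -/
structure PvraYp (𝔄 : PvrxAna 𝔓) (𝔇 : PvrxPat 𝔓 x R) (m : ℕ) (π : 𝔇.Pat m) where
  D : PvypDat τ
  κ : Type
  𝔞 : ℝ → PvnyArc κ
  q : ℝ → ℕ → ℝ≥0∞
  ko : ∀ᶠ ε in 𝓝[>] (0 : ℝ), ∀ ζ, 𝔄.kout0 m ε (𝔇.pat m π).zt (𝔇.pat m π).tt ζ = D.kout0 𝔓.Γ m ε 0 (𝔇.pat m π).zt (𝔇.pat m π).tt ζ
  ki : ∀ᶠ ε in 𝓝[>] (0 : ℝ), ∀ ζ, 𝔄.kin0 m ε (𝔇.pat m π).zs (𝔇.pat m π).ts ζ = D.kin0 𝔓.Γ m ε 0 (𝔇.pat m π).zs (𝔇.pat m π).ts ζ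
  Gs : ∀ᶠ ε in 𝓝[>] (0 : ℝ), 𝔓.G m ε (𝔇.pat m π).zs (𝔇.pat m π).ts ⊆ D.G m ε (𝔇.pat m π).zs (𝔇.pat m π).ts
  Gt : ∀ᶠ ε in 𝓝[>] (0 : ℝ), 𝔓.G m ε (𝔇.pat m π).zt (𝔇.pat m π).tt ⊆ D.G m ε (𝔇.pat m π).zt (𝔇.pat m π).tt
  pat : ∀ᶠ ε in 𝓝[>] (0 : ℝ), PvnyPat D 𝔓.Γ (𝔄.W m ε) 0 m ε (𝔇.pat m π) (q ε) (𝔞 ε)
  Nl : ℝ → Set (Conf PvPt)
  Nl0 : ∀ᶠ ε in 𝓝[>] (0 : ℝ), pvP ε (Nl ε) = 0
  act : ∀ᶠ ε in 𝓝[>] (0 : ℝ), ∀ ω P s t ζ, PvraPrep 𝔇 m π ε ω P s t ζ → ζ ∉ Nl ε → ∃ g, ζ ∈ (𝔞 ε).E g ∧ (𝔞 ε).Xg g ζ = pvbArcI 𝔓.𝔐 (pvlmH m) P P.xQ s t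
  q0 : ℝ
  q0_pos : 0 < q0
  hq : ∀ᶠ ε in 𝓝[>] (0 : ℝ), ENNReal.ofReal q0 ≤ (𝔞 ε).qW
  D0 : ℝ
  hD : ∀ᶠ ε in 𝓝[>] (0 : ℝ), pvnyDc D 𝔓.Γ m ε (𝔇.pat m π) (q ε) ≤ ENNReal.ofReal D0
  tail : Tendsto (fun ε => ∫⁻ ω, (𝔞 ε).Θ ω ∂pvP ε) (𝓝[>] (0 : ℝ)) (𝓝 0)

/-- the form of 279 ends in the final form -/
noncomputable def PvraYp.one {m : ℕ} {π : 𝔇.Pat m} (𝔜 : PvraYp 𝔄 𝔇 m π) : PvraOne 𝔄 𝔇 m π where
  Z := fun ε ζ => (𝔜.𝔞 ε).Z (pvnyEn 𝔜.D m ε (𝔇.pat m π)) (pvnyYN 𝔜.D 𝔓.Γ (𝔄.W m ε) 0 m ε (𝔇.pat m π)) ζ + (𝔜.Nl ε).indicator (fun _ => ∞) ζ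
  stab := by
    filter_upwards [𝔜.ko, 𝔜.ki, 𝔜.Gs, 𝔜.Gt, 𝔜.act] with ε h1 h2 h3 h4 h5 ω P s t ζ hp
    by_cases hN : ζ ∈ 𝔜.Nl ε
    · rw [indicator_of_mem hN, add_top]
      exact le_top
    · obtain ⟨g, hg, hX⟩ := h5 ω P s t ζ hp hN
      rw [h1 ζ, h2 ζ]
      exact (pvny_yp_stab 𝔜.D 𝔓.Γ (𝔄.W m ε) 0 m ε (𝔇.pat m π) (𝔜.𝔞 ε) (h4 hp.gt') (h3 hp.gs') hg hX).trans le_self_add
  n1ν := by
    have h1 := pvny_yp_n1nu (W := fun ε => 𝔄.W m ε) 𝔜.q0_pos 𝔜.pat 𝔜.hq 𝔜.hD 𝔜.tail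
    refine tendsto_of_tendsto_of_tendsto_of_le_of_le' tendsto_const_nhds h1 (Eventually.of_forall fun ε => zero_le) ?_
    filter_upwards [𝔜.Nl0] with ε h0
    refine ((pvhbUp ε).add_le _ _).trans ?_
    rw [pvra_null h0, add_zero]

theorem pvra_eqns_cite7 : True := by
  have := @PvraPat.one.eq_1; have := @pvraOneTriv.eq_1; have := @pvraOneAll.eq_1; have := @pvraArcOne.eq_1; have := @PvraYp.one.eq_1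
  trivial

end one

end Claimed.Agent.R289
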