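import Claimed.Agent.R289.Tr.SysP
import Claimed.Agent.R289.Exit.TrP

/-!
# Row 289 (S0537), Exit/AnaP : ROOF (P-S3) OF ROAD P = `PvrxAna 𝔓` (Q-FORM) AT THE EXPLICIT POTENTIALS `D.kout0 D.kin0 D.ke0` OF `Tr/SysP`      (pen helper58; prefix `pvya_`, `pvya`, `Pvya`)

`PvrxAna 𝔓` (79, `Exit/TrP.lean` v2) = numbers `W kin00 CA` + functions of the state `kout0 kin0 ke0` + reading + `cyc1ν thickν` (U-form over `pvhbUp ε`, field `Q` alone) + the `V` part `kV cV0 CV0 thickVν`.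
HERE: compiled glue      `PvyaNum 𝔓` (numbers: 34 259 52)  +  `PvyaV 𝔓` (cut point: 263 `Tr/CutP.lean`)  +  `D : Bool → PvypDat τ` (sectors, ONE DATUM PER COLOUR; at the model `pvydDat 𝔓 𝔤` of `Exit/DatP.lean`)  +  `PvyaOk` (one record of NAMED hypotheses)   ⟹   `pvyaAna : PvrxAna 𝔓`
with `kout0 m ε z t := (D (𝔓.ty m z t).col).kout0 𝔓.Γ m ε 0 z t`, the same for `kin0 ke0`, BY DEFINITION      (D1 of 273: the arc roof must be stated at `pvyaAna`, not at an arbitrary `𝔄`).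
SMALL LEVELS (254): for `m < 𝔓.m0` the usable states are EMPTY by the definition of `𝔓.G` (79 v2), the fields are trivial;   the contract is asked for `𝔓.m0 ≤ m` only.
-/

set_option autoImplicit false

namespace Claimed.Agent.R289

open MeasureTheory Filter Topology Set Claims.C0465
open scoped ENNReal

variable {τ : Type} {c : ℝ}

/-- the numbers of the wall at the parameters `𝔓`, field `Q`      [34 259 52: `Exit/TrNum.lean`, `pvnoNumQ`] -/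
structure PvyaNum (𝔓 : PvrxPar τ c) where
  W : ℕ → ℝ → PvtW
  kin00 : ℕ → ℝ → ℂ
  CA : ℝ
  a_bdd : ∀ m, ∀ᶠ ε in 𝓝[>] (0 : ℝ), ‖(𝔓.Γ m).a (W m ε)‖ ≤ CA
  rel_lim : ∀ m, Tendsto (fun ε => (W m ε).rel) (𝓝[>] (0 : ℝ)) (𝓝 0)

/-- the cut point      [263: `Tr/CutP.lean`] -/
structure PvyaV (𝔓 : PvrxPar τ c) where
  kV : ℕ → ℝ → ℂ
  cV0 : ℕ → ℝ → ℂ → τ → Conf PvPt → ℂ
  CV0 : ℝ
  thickVν : ∀ (m : ℕ) (p : ℤ × ℤ) (t : τ), ∀ᶠ ε in 𝓝[>] (0 : ℝ),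
    (pvhbUp ε).E (fun q => (𝔓.G m ε (l9Pt (pvlmH m) p) t).indicator (fun ξ => ‖cV0 m ε (l9Pt (pvlmH m) p) t ξ - l9Pt (pvlmH m) p - (𝔓.Γ m).zu t - kV m ε‖ₑ ^ 2) (pvConf (pvMerge q)))
      ≤ ENNReal.ofReal (CV0 * pvlmH m ^ 2)

variable {𝔓 : PvrxPar τ c}

/-- **THE CONTRACT OF (P-S3)**: what the sectors owe at the parameters `𝔓` and the numbers `Nm`, at the candidates which are SWITCHED ON (`𝔓.On m z t`: `𝔓.m0 ≤ m`, BLACK type: P10).      v3: ONE DATUM PER COLOUR OF THE RIM (`D c`; the type `t` is served by `D (𝔓.ty m z t).col`);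
`G_sub` instead of `G_eq` (279 272 58: `𝔓.G = pvspGq` does not read the region of the state; `D.G := pvspG ⊇ 𝔓.G`; the fields are integrals of nonnegative functions).
`G_sub O_sub` 185 79 58;   `cyc` = `PvypCyc` (see its docstring for the producers);   `thk` = `PvypThk`, constants `βu qb qe CB` UNIFORM. -/
structure PvyaOk (D : Bool → PvypDat τ) (Nm : PvyaNum 𝔓) (βu qb qe CB : ℝ≥0∞) (Ce0 : ℝ) : Prop where
  G_sub : ∀ m, 𝔓.m0 ≤ m → ∀ ε z t, 𝔓.G m ε z t ⊆ (D (𝔓.ty m z t).col).G m ε z t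
  O_sub : ∀ c m ε z t, (D c).O m ε z t ⊆ 𝔓.Rg m z
  cyc : ∀ (m : ℕ) (p : ℤ × ℤ) (t : τ), 𝔓.On m (l9Pt (pvlmH m) p) t → PvypCyc (D (𝔓.ty m (l9Pt (pvlmH m) p) t).col) 𝔓.Γ (Nm.W m) (Nm.kin00 m) 0 m (l9Pt (pvlmH m) p) t
  thk : ∀ (m : ℕ) (p : ℤ × ℤ) (t : τ), 𝔓.On m (l9Pt (pvlmH m) p) t → PvypThk (D (𝔓.ty m (l9Pt (pvlmH m) p) t).col) (pvlmH m) βu qb qe CB 0 m (l9Pt (pvlmH m) p) t
  Ce : βu⁻¹ * (qb⁻¹ * qe⁻¹) * CB ≤ ENNReal.ofReal Ce0

/-- no usable state at a candidate which is switched off (level below `m0`, or WHITE type: P10) -/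
theorem pvya_G_small (𝔓 : PvrxPar τ c) {m : ℕ} {z : ℂ} {t : τ} (hm : ¬ 𝔓.On m z t) (ε : ℝ) : 𝔓.G m ε z t = ∅ :=
  eq_empty_of_forall_notMem fun _ hξ => hm hξ.1

/-- an integrand carried by the empty event -/
theorem pvya_E_empty (ε : ℝ) {G : Set (Conf PvPt)} (hG : G = ∅) (F : Conf PvPt → ℝ≥0∞) : (pvhbUp ε).E (fun q => G.indicator F (pvConf (pvMerge q))) = 0 := by
  subst hG
  simp only [indicator_empty]
  exact PvUp.E_zero _

/-- monotonicity in the event -/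
theorem pvya_E_mono (ε : ℝ) {G G' : Set (Conf PvPt)} (hG : G ⊆ G') (F : Conf PvPt → ℝ≥0∞) :
    (pvhbUp ε).E (fun q => G.indicator F (pvConf (pvMerge q))) ≤ (pvhbUp ε).E (fun q => G'.indicator F (pvConf (pvMerge q))) :=
  (pvhbUp ε).mono fun _ => indicator_le_indicator_of_subset hG (fun _ => zero_le) _

/-- **(P-S3) AT THE EXPLICIT POTENTIALS** -/
noncomputable def pvyaAna (D : Bool → PvypDat τ) (Nm : PvyaNum 𝔓) (V : PvyaV 𝔓) {βu qb qe CB : ℝ≥0∞} {Ce0 : ℝ} (h : PvyaOk D Nm βu qb qe CB Ce0) : PvrxAna 𝔓 where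
  W := Nm.W
  kin00 := Nm.kin00
  CA := Nm.CA
  a_bdd := Nm.a_bdd
  rel_lim := Nm.rel_lim
  kV := V.kV
  kout0 := fun m ε z t => (D (𝔓.ty m z t).col).kout0 𝔓.Γ m ε 0 z t
  kin0 := fun m ε z t => (D (𝔓.ty m z t).col).kin0 𝔓.Γ m ε 0 z t
  ke0 := fun m ε z t => (D (𝔓.ty m z t).col).ke0 m ε 0 z t
  cV0 := V.cV0
  kout_reads := fun m ε z t => (pvyp_kout0_reads (D (𝔓.ty m z t).col) 𝔓.Γ m ε 0 z t).mono (h.O_sub _ m ε z t)
  kin_reads := fun m ε z t => (pvyp_kin0_reads (D (𝔓.ty m z t).col) 𝔓.Γ m ε 0 z t).mono (h.O_sub _ m ε z t)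
  cyc1ν := fun m p t => by
    by_cases hm : 𝔓.On m (l9Pt (pvlmH m) p) t
    · exact tendsto_of_tendsto_of_tendsto_of_le_of_le tendsto_const_nhds (pvyp_cyc1_up (h.cyc m p t hm)) (fun _ => zero_le)
        (fun ε => pvya_E_mono ε (h.G_sub m hm.1 ε _ t) _)
    · simp only [pvya_E_empty _ (pvya_G_small 𝔓 hm _)]
      exact tendsto_const_nhds
  Ce0 := Ce0
  thickν := fun m p t => by
    by_cases hm : 𝔓.On m (l9Pt (pvlmH m) p) t
    · filter_upwards [pvyp_thick_up (h.thk m p t hm) h.Ce] with ε hε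
      exact (pvya_E_mono ε (h.G_sub m hm.1 ε _ t) _).trans hε
    · simp only [pvya_E_empty _ (pvya_G_small 𝔓 hm _)]
      exact Eventually.of_forall fun _ => zero_le
  CV0 := V.CV0
  thickVν := V.thickVν

end Claimed.Agent.R289
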