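-- KEEP
import Claimed.Agent.R289.Exit.TrP
import Claimed.Agent.R289.Tr.CutP

/-!
# Row 289 (S0537), Exit/ArcVP : ROAD P, THE `V`-FIELDS AT THE DATA OF RECORD = `Tr/CutP.lean` (263 48 9 299 128) PLUGGED INTO THE RECORDS OF `Exit/TrP.lean`      (pen helper79; prefix `pvrv_`, `Pvrv`)

THE TERMS OF RECORD.   `𝔓.cV0 m ε z t ζ := pvkvC0 𝔓.mod.N (𝔓.ty m z t) z (pvlmH m) (𝔓.𝔐.mc t) ζ` (cut point of the STATE),   `𝔓.cP m ε ω P s := pvkvC 𝔓.𝔐 (pvlmH m) P s` (cut point of a pin of a RIM),   `kV := 0`.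
WHAT THE PARAMETER OWES: `𝔓.WfV` = the fields of `PvkvWf` of 263 which do not see the patch (numbers `mu1 mc_lo mc_hi a1 a3 L`, `sense miss` of the exact fit: `pvmh_in_Nm`, `pvmh_miss` of 8) + `Lr_ge : 2 L + 1 ≤ Lr`.
WHAT THE FIT OWES: `PvrvFit 𝔓 x R m P s t` = `s.idx < t.idx`, the arc in `clB(x,5R)`, the regions of the two states in `clB(x,3R)`.      **ALL FREE IN `cover`**: `pvrv_fit` produces it from the hypotheses of the field `cover` (`s.idx < t.idx`, arc in `clB(x,2R)`)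
and `(rO + 2) h_m ≤ R` (true for large `m`: `cover` is eventual in `m`).      236: put `PvrvFit ..` as a conjunct of your `Fit`.
PROVED HERE (0 sorry in this file): `pvrv_stabV`, `pvrv_telP` (= fields `stabV telP` of `PvrxArc`), `pvrv_thickV` (= field `thickVν` of `PvrxAna`, from the bound on the ENTRANCE MASS `pvkvE0` = instance 2 of the thick bound of 58),
`pvrvArc` : the `Q`-half (`Z stab n1ν`) ⟹ `PvrxArc 𝔄 𝔇`.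
-/

set_option autoImplicit false

namespace Claimed.Agent.R289

open MeasureTheory Filter Topology Set Metric Claims.C0465
open scoped ENNReal

namespace PvrxPar

variable {τ : Type} {c : ℝ} (𝔓 : PvrxPar τ c)

/-- **the cut point of the state, OF RECORD** (263) -/
noncomputable def cV0 (m : ℕ) (_ε : ℝ) (z : ℂ) (t : τ) (ζ : Conf PvPt) : ℂ := pvkvC0 𝔓.mod.N (𝔓.ty m z t) z (pvlmH m) (𝔓.𝔐.mc t) ζ

/-- **the cut point of a pin of a rim, OF RECORD** (263) -/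
noncomputable def cP (m : ℕ) (_ε : ℝ) (_ω : PVSample) (P : PvbRim) (s : PvbPin τ) : ℂ := pvkvC 𝔓.𝔐 (pvlmH m) P s

/-- the entrance mass of the state (263) -/
noncomputable def eV0 (m : ℕ) (z : ℂ) (t : τ) (ζ : Conf PvPt) : ℂ := pvkvE0 𝔓.mod.N (𝔓.ty m z t) z (pvlmH m) (𝔓.𝔐.mc t) ζ

/-- **what the parameter owes for the cut point** = `PvkvWf` of 263 without `R0 wf patch` -/
structure WfV : Prop where
  mu1 : 2 * 𝔓.mod.N.mu ≤ 1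
  mc_lo : ∀ m z t, (𝔓.ty m z t).b 𝔓.mod.N 0 + 2 * 𝔓.mod.N.mu ≤ 𝔓.𝔐.mc t
  mc_hi : ∀ m z t, 𝔓.𝔐.mc t + 2 * 𝔓.mod.N.mu ≤ (𝔓.ty m z t).a 𝔓.mod.N 1
  a1 : ∀ m z t, 1 ≤ (𝔓.ty m z t).a 𝔓.mod.N 0
  a3 : ∀ m z t, 𝔓.𝔐.a3 t ≤ (𝔓.ty m z t).a 𝔓.mod.N 2
  L : ∀ m z t, (𝔓.ty m z t).b 𝔓.mod.N 2 + 𝔓.mod.N.mu ≤ 𝔓.𝔐.L
  /-- SENSE (`pvmh_in_Nm` of 8 + the door `Dm` lies off the star zone of `S₂`) -/
  sense : ∀ m z t (P : PvbRim) (k : ℕ), 𝔓.mod.Fit (pvlmH m) P k z t →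
    ∃ j ≤ k, P.v j ∉ closedBall z (((𝔓.ty m z t).b 𝔓.mod.N 1 + 1) * pvlmH m) ∧ ∀ i, j ≤ i → i ≤ k → P.v i ∈ (𝔓.ty m z t).Nm
  /-- the rim misses the strip (`pvmh_miss` of 8) -/
  miss : ∀ m z t (P : PvbRim) (k : ℕ), 𝔓.mod.Fit (pvlmH m) P k z t → ∀ j ≤ P.len, P.v j ∉ pvspJ (𝔓.ty m z t)
  /-- two candidates of a pattern (`far`) are far apart in the sense of (A4) -/
  Lr_ge : 2 * 𝔓.𝔐.L + 1 ≤ 𝔓.Lr

end PvrxPar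

/-- **what the `V`-fields ask of the fit** -/
structure PvrvFit {τ : Type} {c : ℝ} (𝔓 : PvrxPar τ c) (x : ℂ) (R : ℝ) (m : ℕ) (P : PvbRim) (s t : PvbPin τ) : Prop where
  lt : s.idx < t.idx
  arc : ∀ k, s.idx ≤ k → k < t.idx → ‖P.v k - x‖ ≤ 5 * R
  patch_s : closedBall s.ctr (((𝔓.ty m s.ctr s.typ).rO 𝔓.mod.N + 1) * pvlmH m) ⊆ closedBall x (3 * R)
  patch_t : closedBall t.ctr (((𝔓.ty m t.ctr t.typ).rO 𝔓.mod.N + 1) * pvlmH m) ⊆ closedBall x (3 * R)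

theorem pvrv_eqns_cite : True := by
  have := @PvrxPar.cV0.eq_1; have := @PvrxPar.cP.eq_1; have := @PvrxPar.eV0.eq_1
  trivial

section glue

variable {τ : Type} {c : ℝ} {𝔓 : PvrxPar τ c}

/-- `PvkvWf` of 263 at a candidate whose region lies in the patch -/
theorem pvrv_wf (hW : 𝔓.Wf) (hV : 𝔓.WfV) {x : ℂ} {R : ℝ} (hR : 0 < R) {m : ℕ} {z : ℂ} {t : τ}
    (hp : closedBall z (((𝔓.ty m z t).rO 𝔓.mod.N + 1) * pvlmH m) ⊆ closedBall x (3 * R)) : PvkvWf 𝔓.mod 𝔓.𝔐 (pvlmH m) x R z t where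
  R0 := hR
  wf := hW.ty_wf m z t
  mu1 := hV.mu1
  mc_lo := hV.mc_lo m z t
  mc_hi := hV.mc_hi m z t
  a1 := hV.a1 m z t
  a3 := hV.a3 m z t
  L := hV.L m z t
  patch := hp
  sense := hV.sense m z t
  miss := hV.miss m z t

/-- the region of the state of a pin whose marked vertex lies in `clB(x,2R)` lies in the patch, at the large levels -/
theorem pvrv_patch {x : ℂ} {R : ℝ} {m : ℕ} {ε : ℝ} {ω : PVSample} {P : PvbRim} {s : PvbPin τ} (hs : s ∈ 𝔓.pins x R m ε ω P) (hx : ‖P.v s.idx - x‖ ≤ 2 * R)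
    (hm : ((𝔓.ty m s.ctr s.typ).rO 𝔓.mod.N + 2) * pvlmH m ≤ R) : closedBall s.ctr (((𝔓.ty m s.ctr s.typ).rO 𝔓.mod.N + 1) * pvlmH m) ⊆ closedBall x (3 * R) := by
  intro w hw
  rw [mem_closedBall_iff_norm] at hw ⊢
  have h1 : ‖P.v s.idx - s.ctr‖ ≤ pvlmH m := hs.2.2.2.near
  have h2 : ‖w - x‖ ≤ ‖w - s.ctr‖ + ‖P.v s.idx - s.ctr‖ + ‖P.v s.idx - x‖ := by
    have e : w - x = (w - s.ctr) - (P.v s.idx - s.ctr) + (P.v s.idx - x) := by ring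
    rw [e]
    exact (norm_add_le _ _).trans (add_le_add_left (norm_sub_le _ _) _)
  nlinarith

/-- the same AT EVERY LEVEL from the location clause of `𝔓.pins` (TrP v5), as soon as `rO + 1 ≤ Lr` -/
theorem pvrv_patch_loc {x : ℂ} {R : ℝ} {m : ℕ} {ε : ℝ} {ω : PVSample} {P : PvbRim} {s : PvbPin τ} (hs : s ∈ 𝔓.pins x R m ε ω P)
    (hL : (𝔓.ty m s.ctr s.typ).rO 𝔓.mod.N + 1 ≤ 𝔓.Lr) : closedBall s.ctr (((𝔓.ty m s.ctr s.typ).rO 𝔓.mod.N + 1) * pvlmH m) ⊆ closedBall x (3 * R) := by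
  intro w hw
  rw [mem_closedBall_iff_norm] at hw ⊢
  have h0 := pvlm_H_pos m
  have h1 : ‖s.ctr - x‖ + 𝔓.Lr * pvlmH m ≤ 3 * R := hs.2.1
  have h2 : ‖w - x‖ ≤ ‖w - s.ctr‖ + ‖s.ctr - x‖ := by
    have e : w - x = (w - s.ctr) + (s.ctr - x) := by ring
    rw [e]
    exact norm_add_le _ _
  nlinarith

/-- **`PvrvFit` IS FREE IN `cover`**: from the hypotheses of the field and `(rO + 2) h_m ≤ R` -/
theorem pvrv_fit {x : ℂ} {R : ℝ} (hR : 0 < R) {m : ℕ} {ε : ℝ} {ω : PVSample} {P : PvbRim} {s t : PvbPin τ} (hs : s ∈ 𝔓.pins x R m ε ω P) (ht : t ∈ 𝔓.pins x R m ε ω P)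
    (hst : s.idx < t.idx) (harc : ∀ k, s.idx ≤ k → k ≤ t.idx → ‖P.v k - x‖ ≤ 2 * R)
    (hms : ((𝔓.ty m s.ctr s.typ).rO 𝔓.mod.N + 2) * pvlmH m ≤ R) (hmt : ((𝔓.ty m t.ctr t.typ).rO 𝔓.mod.N + 2) * pvlmH m ≤ R) : PvrvFit 𝔓 x R m P s t where
  lt := hst
  arc := fun k h1 h2 => (harc k h1 h2.le).trans (by linarith)
  patch_s := pvrv_patch hs (harc _ le_rfl hst.le) hms
  patch_t := pvrv_patch ht (harc _ hst.le le_rfl) hmt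

/-- **half of the field `stabV`**: RIM ⟹ STATE for the cut point at one pin -/
theorem pvrv_stabV (hW : 𝔓.Wf) (hV : 𝔓.WfV) {x : ℂ} {R : ℝ} (hR : 0 < R) {m : ℕ} {ε : ℝ} {ω : PVSample} {P : PvbRim} (hP : P ∈ pvhbAll x R ω) {s : PvbPin τ} (hs : s ∈ 𝔓.pins x R m ε ω P)
    (hp : closedBall s.ctr (((𝔓.ty m s.ctr s.typ).rO 𝔓.mod.N + 1) * pvlmH m) ⊆ closedBall x (3 * R)) {ξ : Conf PvPt} (hξ : 𝔓.Mv m s.ctr s.typ (pvConf ω) ξ) (hG : ξ ∈ 𝔓.G m ε s.ctr s.typ) :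
    𝔓.cV0 m ε s.ctr s.typ ξ = 𝔓.cP m ε ω P s := by
  obtain ⟨B, hB, hw, rfl⟩ := hξ
  exact (pvkv_stabV 𝔓.mod 𝔓.𝔐 (x := x) (R := R) hP hs.2.2.2 (pvrv_wf hW hV hR hp) hW.pst0 hB hw hG.2).symm

/-- **the field `telP`** -/
theorem pvrv_telP (hW : 𝔓.Wf) (hV : 𝔓.WfV) {x : ℂ} {R : ℝ} (hR : 0 < R) {m : ℕ} {ε : ℝ} {ω : PVSample} {P : PvbRim} (hP : P ∈ pvhbAll x R ω) {s t : PvbPin τ}
    (hs : s ∈ 𝔓.pins x R m ε ω P) (ht : t ∈ 𝔓.pins x R m ε ω P) (hF : PvrvFit 𝔓 x R m P s t) (hfar : 2 * 𝔓.Lr * pvlmH m < ‖s.ctr - t.ctr‖) :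
    pvbArcI 𝔓.𝔐 (pvlmH m) P P.xV s t = 𝔓.cP m ε ω P t - 𝔓.cP m ε ω P s := by
  refine pvkv_telP 𝔓.mod 𝔓.𝔐 (x := x) (R := R) hP hs.2.2.2 ht.2.2.2 (pvrv_wf hW hV hR hF.patch_s) (pvrv_wf hW hV hR hF.patch_t) hF.lt (lt_of_le_of_lt ?_ hfar) hF.arc
  have h0 := pvlm_H_pos m
  have h1 := hV.Lr_ge
  nlinarith

/-- **the field `thickVν`** (with `kV := 0`) from the bound on the entrance mass -/
theorem pvrv_thickV (hW : 𝔓.Wf) {C1 C2 : ℝ} (hC1 : 0 ≤ C1) (hb : ∀ m z t, (𝔓.ty m z t).b 𝔓.mod.N 1 + 1 ≤ C2) (hzu : ∀ m t, ‖(𝔓.Γ m).zu t‖ ≤ C2 * pvlmH m)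
    (hE : ∀ m, 𝔓.m0 ≤ m → ∀ (p : ℤ × ℤ) (t : τ), ∀ᶠ ε in 𝓝[>] (0 : ℝ),
      (pvhbUp ε).E (fun q => (𝔓.G m ε (l9Pt (pvlmH m) p) t).indicator (fun ξ => ‖𝔓.eV0 m (l9Pt (pvlmH m) p) t ξ‖ₑ ^ 2) (pvConf (pvMerge q))) ≤ ENNReal.ofReal (C1 * pvlmH m ^ 2))
    (m : ℕ) (p : ℤ × ℤ) (t : τ) : ∀ᶠ ε in 𝓝[>] (0 : ℝ),
      (pvhbUp ε).E (fun q => (𝔓.G m ε (l9Pt (pvlmH m) p) t).indicator (fun ξ => ‖𝔓.cV0 m ε (l9Pt (pvlmH m) p) t ξ - l9Pt (pvlmH m) p - (𝔓.Γ m).zu t - (fun _ _ => (0 : ℂ)) m ε‖ₑ ^ 2) (pvConf (pvMerge q)))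
        ≤ ENNReal.ofReal ((3 * C1 + 6 * C2 ^ 2) * pvlmH m ^ 2) := by
  simp only [sub_zero]
  by_cases hm : 𝔓.On m (l9Pt (pvlmH m) p) t
  · have h1 := hE m hm.1 p t
    simp only [pvrx_G_eq 𝔓 hm] at h1 ⊢
    exact pvkv_thick 𝔓.mod 𝔓.𝔐 pvhbUp (fun q => pvConf (pvMerge q)) (pvlm_H_pos m) (hW.ty_wf m _ t) hC1 (hb m _ t) (hzu m t) h1
  · refine Eventually.of_forall fun ε => ?_
    have e : 𝔓.G m ε (l9Pt (pvlmH m) p) t = ∅ := by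
      ext ξ
      exact ⟨fun h => hm h.1, fun h => h.elim⟩
    simp only [e, Set.indicator_empty]
    rw [(pvhbUp ε).E_zero]
    exact zero_le

/-- **THE FREE ARC FROM ITS `Q`-HALF**: `cV0 cP` of record, `stabV telP` proved -/
noncomputable def pvrvArc (hW : 𝔓.Wf) (hV : 𝔓.WfV) {𝔄 : PvrxAna 𝔓} (hc : 𝔄.cV0 = 𝔓.cV0) {x : ℂ} {R : ℝ} (hR : 0 < R) {𝔇 : PvrxPat 𝔓 x R}
    (hF : ∀ m ε ω P s t π, 𝔇.Fit m ε ω P s t π → PvrvFit 𝔓 x R m P s t)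
    (Z : ∀ m : ℕ, ℝ → 𝔇.Pat m → Conf PvPt → ℝ≥0∞)
    (stab : ∀ (m : ℕ) (π : 𝔇.Pat m), ∀ᶠ ε in 𝓝[>] (0 : ℝ), ∀ ω : PVSample, DelgpOk ω → ∀ P ∈ pvdbBlk x R ω, ∀ s ∈ 𝔓.pins x R m ε ω P, ∀ t ∈ 𝔓.pins x R m ε ω P, 𝔇.Fit m ε ω P s t π →
      ∀ ξ ζ : Conf PvPt, 𝔓.Mv m s.ctr s.typ (pvConf ω) ξ → 𝔓.Mv m t.ctr t.typ ξ ζ → ζ ∈ 𝔓.G m ε s.ctr s.typ → ζ ∈ 𝔓.G m ε t.ctr t.typ →
        ‖pvbArcI 𝔓.𝔐 (pvlmH m) P P.xQ s t +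
          (𝔄.kout0 m ε t.ctr t.typ ζ + pvtSum (𝔄.W m ε) ((𝔓.Γ m).dout (𝔇.pat m π).tt) (𝔇.pat m π).l + 𝔄.kin0 m ε s.ctr s.typ ζ)‖ₑ ^ 2 ≤ Z m ε π ζ)
    (n1ν : ∀ (m : ℕ) (π : 𝔇.Pat m), Tendsto (fun ε => (pvhbUp ε).E (fun q => Z m ε π (pvConf (pvMerge q)))) (𝓝[>] (0 : ℝ)) (𝓝 0)) : PvrxArc 𝔄 𝔇 where
  Z := Z
  stab := stab
  n1ν := n1ν
  cP := 𝔓.cP
  stabV := fun m π => Eventually.of_forall fun ε ω _ P hP s hs t ht hfit => by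
    rw [hc]
    exact ⟨fun ξ h1 h2 => pvrv_stabV hW hV hR hP.1 hs (hF m ε ω P s t π hfit).patch_s h1 h2, fun ξ h1 h2 => pvrv_stabV hW hV hR hP.1 ht (hF m ε ω P s t π hfit).patch_t h1 h2⟩
  telP := fun m π => Eventually.of_forall fun ε ω _ P hP s hs t ht hfit => by
    refine pvrv_telP hW hV hR hP.1 hs ht (hF m ε ω P s t π hfit) ?_
    rw [(𝔇.fit_s m ε ω P s t π hfit).1, (𝔇.fit_t m ε ω P s t π hfit).1]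
    exact 𝔇.far m π

end glue

end Claimed.Agent.R289
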