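-- KEEP
import Claimed.Agent.R289.Exit.ArcVP
import Claimed.Agent.R289.Exit.AnaP
import Claimed.Agent.R289.Tr.CutT

/-!
# Row 289 (S0537), Exit/CutVP : ROAD P, THE PRODUCER OF `PvyaV 𝔓` (58, `Exit/AnaP.lean`) AT THE CUT POINT OF RECORD `𝔓.cV0` (79, `Exit/ArcVP.lean`)      (pen helper263; prefix `pvvt_`, `pvvt`, `Pvvt`)
TEX: 03-plugs.tex (cutoff masses), 04-affine.tex (thick links), 06-actual-arcs.tex (A4).

`kV := 0` HAS NO SOURCE (a deterministic mask has two ends: Bessel bounds only differences of cut points).      **THE CONSTANT OF RECORD**: `kV m ε` = mean over `G_u` of the cut point of the REFERENCE PLUG, in its own frame.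
`PvvtCand 𝔓 D Cu kV βu qb qe CB m z t` = what ONE candidate owes:
  `O_eq G_le G_has`      the datum `D` of 58 sits on the states of 185 (true by definition at `pvydDat`: `O := pvspO ×ˢ univ`, `G := pvspG`);
  `wf frc adm`      = the fields of the same names of `PvypThk` (short cycle `t -b-> u -e-> t`);      `pvvt_cand_of_thk`: they are read off `PvypThk`;
  `mCu rCu iCu`      `Cu` = cut point of the reference plug `u(z,t)`: measurable, read from `D.Ou`, integrable over `G_u` (`PvcnV.meas reads int` of 52 34, carried by the frame);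
  `mean`      `E[Cu | G_u] = z + zu t + kV ε` (I.INV: the frame);
  `bes`      `∫_{G ∩ cycle} |𝔓.cV0 - Cu|² ≤ CB h²`:      on the cycle event the ring rim `λ` has `V_λ(1_M) = 𝔓.cV0 - Cu` (A4 = `pvkv_tel` + `pvkv_act` at `t`, `PvcnV.tel`-type identity at `u`), `M` = mask of the link `e` + cut-off ball of `u`;  then `pvbe_one_mask pvbe_in_V`.
PROVED HERE (modulo `pvvt_kin` of `Tr/CutT.lean`): **`pvvt_cand`** (U-form of `thickVν` at one candidate), **`pvvtV : PvyaV 𝔓`**, `pvvtV_cV0`.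
-/

set_option autoImplicit false

namespace Claimed.Agent.R289

open MeasureTheory Filter Topology Set Metric Claims.C0465
open scoped ENNReal

variable {τ : Type} {c : ℝ}

/-- **what one candidate owes for `thickVν`** -/
structure PvvtCand (𝔓 : PvrxPar τ c) (D : PvypDat τ) (Cu : ℝ → Conf PvPt → ℂ) (kV : ℝ → ℂ) (βu qb qe CB : ℝ≥0∞) (m : ℕ) (z : ℂ) (t : τ) : Prop where
  O_eq : ∀ᶠ ε in 𝓝[>] (0 : ℝ), D.O m ε z t = pvspO 𝔓.mod.N (𝔓.ty m z t) z (pvlmH m) ×ˢ univ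
  G_le : ∀ᶠ ε in 𝓝[>] (0 : ℝ), 𝔓.G m ε z t ⊆ D.G m ε z t
  G_has : ∀ᶠ ε in 𝓝[>] (0 : ℝ), D.G m ε z t ⊆ pvspEvt 𝔓.mod.N (𝔓.ty m z t) z (pvlmH m) .has
  wf : ∀ᶠ ε in 𝓝[>] (0 : ℝ), PvsyCycWF (pvP ε) 2 (D.cyc2 m ε z t)
  frc : ∀ᶠ ε in 𝓝[>] (0 : ℝ), PvsyCycForced (pvP ε) 2 (D.cyc2 m ε z t) (Finset.Ioo 0 2) (Finset.range 2) (pvypQ2 qb qe)
  adm : ∀ᶠ ε in 𝓝[>] (0 : ℝ), βu ≤ pvP ε (D.Gu m ε z t)
  mCu : ∀ᶠ ε in 𝓝[>] (0 : ℝ), Measurable (Cu ε)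
  rCu : ∀ᶠ ε in 𝓝[>] (0 : ℝ), Conf.Reads (D.Ou m ε z t) (Cu ε)
  iCu : ∀ᶠ ε in 𝓝[>] (0 : ℝ), Integrable (Cu ε) ((pvP ε).withDensity ((D.sRef m ε z t).g (pvP ε)))
  mean : ∀ᶠ ε in 𝓝[>] (0 : ℝ), pvvtAv (D.sRef m ε z t) (pvP ε) (Cu ε) = z + (𝔓.Γ m).zu t + kV ε
  bes : ∀ᶠ ε in 𝓝[>] (0 : ℝ), ∫⁻ η in D.G m ε z t ∩ pvsyEv 2 (D.cyc2 m ε z t) (Finset.Ioo 0 2) (Finset.range 2), ‖𝔓.cV0 m ε z t η - Cu ε η‖ₑ ^ 2 ∂(pvP ε)
    ≤ CB * ENNReal.ofReal (pvlmH m ^ 2)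

variable {𝔓 : PvrxPar τ c} {D : PvypDat τ} {Cu : ℝ → Conf PvPt → ℂ} {kV : ℝ → ℂ} {βu qb qe CB : ℝ≥0∞} {m : ℕ} {z : ℂ} {t : τ}

/-- **`thickVν` AT ONE CANDIDATE, U-FORM** -/
theorem pvvt_cand (hW : 𝔓.Wf) (H : PvvtCand 𝔓 D Cu kV βu qb qe CB m z t) :
    ∀ᶠ ε in 𝓝[>] (0 : ℝ), (pvhbUp ε).E (fun q => (𝔓.G m ε z t).indicator (fun ξ => ‖𝔓.cV0 m ε z t ξ - z - (𝔓.Γ m).zu t - kV ε‖ₑ ^ 2) (pvConf (pvMerge q)))
      ≤ βu⁻¹ * (qb⁻¹ * qe⁻¹) * (CB * ENNReal.ofReal (pvlmH m ^ 2)) := by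
  obtain ⟨F, hFm, hFr, hFe⟩ := pvvt_rep_C0 (hW.ty_wf m z t) (𝔓.𝔐.mc t)
  have hae : ∀ᶠ ε in 𝓝[>] (0 : ℝ), ∀ᵐ η ∂(pvP ε), η ∈ D.G m ε z t → F η = 𝔓.cV0 m ε z t η := by
    filter_upwards [H.G_has, self_mem_nhdsWithin] with ε h1 hε
    filter_upwards [dls_ae_conf (show (0 : ℝ) < ε from hε)] with η hη hG
    exact hFe η (h1 hG) hη.del
  have HV : PvvtThk D (pvlmH m) βu qb qe CB (fun _ => F) Cu (fun ε => z + (𝔓.Γ m).zu t + kV ε) m z t := by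
    refine ⟨H.wf, H.frc, H.adm, Eventually.of_forall fun ε => hFm.aemeasurable, ?_, H.mCu, H.rCu, H.iCu, H.mean, ?_⟩
    · filter_upwards [H.O_eq] with ε h1
      rw [h1]
      exact hFr
    · filter_upwards [H.bes, hae, H.wf] with ε h1 h2 h3
      refine le_trans (le_of_eq ?_) h1
      refine lintegral_congr_ae ?_
      have h4 : ∀ᵐ η ∂((pvP ε).restrict (D.G m ε z t)), F η = 𝔓.cV0 m ε z t η := (ae_restrict_iff'₀ (h3.mG 0 (by norm_num))).2 h2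
      have h5 : ∀ᵐ η ∂((pvP ε).restrict (D.G m ε z t ∩ pvsyEv 2 (D.cyc2 m ε z t) (Finset.Ioo 0 2) (Finset.range 2))), F η = 𝔓.cV0 m ε z t η :=
        ae_mono (Measure.restrict_mono inter_subset_left le_rfl) h4
      filter_upwards [h5] with η hη
      rw [hη]
  filter_upwards [pvvt_thick HV, hae, H.wf, H.G_le] with ε h1 h2 h3 h4
  have hG : NullMeasurableSet (D.G m ε z t) (pvP ε) := h3.mG 0 (by norm_num)
  have hφ : AEMeasurable ((D.G m ε z t).indicator fun ξ => ‖F ξ - (z + (𝔓.Γ m).zu t + kV ε)‖ₑ ^ 2) (pvP ε) :=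
    ((hFm.sub_const _).enorm.pow_const 2).aemeasurable.indicator₀ hG
  refine (pvhb_up_E_conf ε hφ ?_).trans ?_
  · filter_upwards [h2] with η hη
    by_cases h5 : η ∈ 𝔓.G m ε z t
    · rw [indicator_of_mem h5, indicator_of_mem (h4 h5), hη (h4 h5)]
      refine le_of_eq ?_
      congr 2
      ring
    · rw [indicator_of_notMem h5]
      exact zero_le
  · rw [lintegral_indicator₀ hG]
    exact h1

/-- the three fields of the short cycle are those of `PvypThk` -/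
theorem pvvt_cand_of_thk {CB' : ℝ≥0∞} {a : ℂ} (T : PvypThk D (pvlmH m) βu qb qe CB' a m z t)
    (O_eq : ∀ᶠ ε in 𝓝[>] (0 : ℝ), D.O m ε z t = pvspO 𝔓.mod.N (𝔓.ty m z t) z (pvlmH m) ×ˢ univ)
    (G_le : ∀ᶠ ε in 𝓝[>] (0 : ℝ), 𝔓.G m ε z t ⊆ D.G m ε z t)
    (G_has : ∀ᶠ ε in 𝓝[>] (0 : ℝ), D.G m ε z t ⊆ pvspEvt 𝔓.mod.N (𝔓.ty m z t) z (pvlmH m) .has)
    (mCu : ∀ᶠ ε in 𝓝[>] (0 : ℝ), Measurable (Cu ε)) (rCu : ∀ᶠ ε in 𝓝[>] (0 : ℝ), Conf.Reads (D.Ou m ε z t) (Cu ε))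
    (iCu : ∀ᶠ ε in 𝓝[>] (0 : ℝ), Integrable (Cu ε) ((pvP ε).withDensity ((D.sRef m ε z t).g (pvP ε))))
    (mean : ∀ᶠ ε in 𝓝[>] (0 : ℝ), pvvtAv (D.sRef m ε z t) (pvP ε) (Cu ε) = z + (𝔓.Γ m).zu t + kV ε)
    (bes : ∀ᶠ ε in 𝓝[>] (0 : ℝ), ∫⁻ η in D.G m ε z t ∩ pvsyEv 2 (D.cyc2 m ε z t) (Finset.Ioo 0 2) (Finset.range 2), ‖𝔓.cV0 m ε z t η - Cu ε η‖ₑ ^ 2 ∂(pvP ε)
      ≤ CB * ENNReal.ofReal (pvlmH m ^ 2)) : PvvtCand 𝔓 D Cu kV βu qb qe CB m z t :=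
  ⟨O_eq, G_le, G_has, T.wf, T.frc, T.adm, mCu, rCu, iCu, mean, bes⟩

/-- **THE PRODUCER OF `PvyaV 𝔓`**: the cut point of record, the constant `kV` of the reference plug;   one datum `D m z t` per candidate (58: one datum per colour) -/
noncomputable def pvvtV (hW : 𝔓.Wf) (kV : ℕ → ℝ → ℂ) {βu qb qe CB : ℝ≥0∞} {CV0 : ℝ} (hC : βu⁻¹ * (qb⁻¹ * qe⁻¹) * CB ≤ ENNReal.ofReal CV0)
    (D : ℕ → ℂ → τ → PvypDat τ) (Cu : ℕ → ℂ → τ → ℝ → Conf PvPt → ℂ)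
    (H : ∀ (m : ℕ) (p : ℤ × ℤ) (t : τ), 𝔓.On m (l9Pt (pvlmH m) p) t → PvvtCand 𝔓 (D m (l9Pt (pvlmH m) p) t) (Cu m (l9Pt (pvlmH m) p) t) (kV m) βu qb qe CB m (l9Pt (pvlmH m) p) t) : PvyaV 𝔓 where
  kV := kV
  cV0 := 𝔓.cV0
  CV0 := CV0
  thickVν := fun m p t => by
    by_cases hm : 𝔓.On m (l9Pt (pvlmH m) p) t
    · filter_upwards [pvvt_cand hW (H m p t hm)] with ε h1
      refine h1.trans ?_
      by_cases h0 : 0 ≤ CV0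
      · rw [ENNReal.ofReal_mul h0, ← mul_assoc]
        gcongr
      · have e0 : ENNReal.ofReal CV0 = 0 := ENNReal.ofReal_of_nonpos (le_of_not_ge h0)
        rw [e0, nonpos_iff_eq_zero] at hC
        rw [← mul_assoc, hC, zero_mul]
        exact zero_le
    · simp only [pvya_E_empty _ (pvya_G_small 𝔓 hm _)]
      exact Eventually.of_forall fun _ => zero_le

theorem pvvt_eqns_cite4 : True := by
  have := @pvvtV.eq_1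
  trivial

/-- the hypothesis `hc` of `pvrvArc` (79) -/
theorem pvvtV_cV0 (hW : 𝔓.Wf) (kV : ℕ → ℝ → ℂ) {βu qb qe CB : ℝ≥0∞} {CV0 : ℝ} (hC : βu⁻¹ * (qb⁻¹ * qe⁻¹) * CB ≤ ENNReal.ofReal CV0)
    (D : ℕ → ℂ → τ → PvypDat τ) (Cu : ℕ → ℂ → τ → ℝ → Conf PvPt → ℂ)
    (H : ∀ (m : ℕ) (p : ℤ × ℤ) (t : τ), 𝔓.On m (l9Pt (pvlmH m) p) t → PvvtCand 𝔓 (D m (l9Pt (pvlmH m) p) t) (Cu m (l9Pt (pvlmH m) p) t) (kV m) βu qb qe CB m (l9Pt (pvlmH m) p) t) :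
    (pvvtV hW kV hC D Cu H).cV0 = 𝔓.cV0 := rfl

end Claimed.Agent.R289
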