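import Claimed.Agent.R289.Tr.LaneQ
import Claimed.Agent.R289.Exit.Qbx

/-!
# Row 289 (S0537), Exit/LaneQ : THE QUENCHED LANE LEMMA, UNCONDITIONAL      (owner helper21; prefix `exit_pvlq_`)

`Tr/LaneQ.lean` takes the uniform exit of QBX as a hypothesis (`PvlqQbx q`).      QBX is closed on main (`Exit/Qbx.lean`: `exit_pv_qbx_lay`, `exit_pv_qbx_rev`), so here is ONE constant `q ∈ (0,1]` with all the exits.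
* `exit_pvlq_q`         `∃ q, 0 < q ∧ q ≤ 1 ∧ PvlqQbx q`
* `exit_pvlq_all`       ONE `q` for: local packages (`q^(5n)/2`), lanes (`q^(15n)/2`), corridors (`(q^(15n)/2)^2`), each off a set of labelled geometries of probability `≤ θ`, at all scales `≥ U(n,θ) ε`
* `exit_pvlq_lane_lim`  limit form: for a FIXED lane and mesh `δ > 0`, `pvGeo ε {g | pvQc (lane) g < q^(15n)/2} → 0` as `ε ↓ 0`
-/

set_option autoImplicit false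

namespace Claimed.Agent.R289

open MeasureTheory Filter Topology Set Claims.C0465
open scoped ENNReal

/-- the constant of the quenched lanes -/
theorem exit_pvlq_q : ∃ q : ℝ, 0 < q ∧ q ≤ 1 ∧ PvlqQbx q := pvlq_main exit_pv_qbx_lay exit_pv_qbx_rev

/-- **ONE CONSTANT FOR ALL THE EXITS OF `Tr/LaneQ`** -/
theorem exit_pvlq_all : ∃ q : ℝ, 0 < q ∧ q ≤ 1 ∧ PvlqQbx q ∧
    (∀ (n : ℕ) (θ : ℝ), 0 < θ → ∃ U : ℝ, 1 ≤ U ∧ ∀ ε : ℝ, 0 < ε → ∀ δ v : ℝ, U * ε ≤ δ → U * ε ≤ v → ∀ (N : Set ℂ) (c : Bool) (l : List RswTri) (cen : List ℂ),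
      PvlnFit N l cen v → cen ≠ [] → (∀ e ∈ l, PvlqShape δ e) → l.length ≤ n → cen.length ≤ n →
      pvGeo ε {g | pvQc (pvlnLoc N c l cen v) g < ENNReal.ofReal (q ^ (5 * n) / 2)} ≤ ENNReal.ofReal θ) ∧
    (∀ (n : ℕ) (θ : ℝ), 0 < θ → ∃ U : ℝ, 1 ≤ U ∧ ∀ ε : ℝ, 0 < ε → ∀ δ : ℝ, U * ε ≤ δ → ∀ (c : Bool) (L : List (ℤ × ℤ)), L ≠ [] → L.IsChain PvlnAdj → L.length ≤ n →
      pvGeo ε {g | pvQc (pvlnLaneEv δ c L) g < ENNReal.ofReal (q ^ (15 * n) / 2)} ≤ ENNReal.ofReal θ) ∧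
    (∀ (n : ℕ) (θ : ℝ), 0 < θ → ∃ U : ℝ, 1 ≤ U ∧ ∀ ε : ℝ, 0 < ε → ∀ δ : ℝ, U * ε ≤ δ → ∀ (c c' : Bool) (L L' : List (ℤ × ℤ)), L ≠ [] → L' ≠ [] → L.IsChain PvlnAdj → L'.IsChain PvlnAdj →
      L.length ≤ n → L'.length ≤ n → Disjoint (pvlnW δ L) (pvlnW δ L') →
      pvGeo ε {g | pvQc (pvlnLaneEv δ c L ∩ pvlnLaneEv δ c' L') g < ENNReal.ofReal ((q ^ (15 * n) / 2) ^ 2)} ≤ ENNReal.ofReal θ) := by
  obtain ⟨q, h0, h1, hQ⟩ := exit_pvlq_q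
  exact ⟨q, h0, h1, hQ, fun n θ hθ => pvlq_loc h0 h1 hQ n hθ, fun n θ hθ => pvlq_lane h0 h1 hQ n hθ, fun n θ hθ => pvlq_corridor h0 h1 hQ n hθ⟩

/-- from "`≤ θ` at all scales `≥ U ε`" to a limit `ε ↓ 0` at a fixed scale -/
theorem exit_pvlq_lim_of_unif {F : ℝ → ℝ≥0∞} {δ : ℝ} (hδ : 0 < δ)
    (h : ∀ θ : ℝ, 0 < θ → ∃ U : ℝ, 1 ≤ U ∧ ∀ ε : ℝ, 0 < ε → U * ε ≤ δ → F ε ≤ ENNReal.ofReal θ) : Tendsto F (𝓝[>] (0 : ℝ)) (𝓝 0) := by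
  rw [ENNReal.tendsto_nhds_zero]
  intro a ha
  obtain ⟨θ, hθ, hθa⟩ : ∃ θ : ℝ, 0 < θ ∧ ENNReal.ofReal θ ≤ a := by
    rcases eq_or_ne a ⊤ with rfl | hne
    · exact ⟨1, one_pos, le_top⟩
    · exact ⟨a.toReal, ENNReal.toReal_pos ha.ne' hne, (ENNReal.ofReal_toReal hne).le⟩
  obtain ⟨U, hU, H⟩ := h θ hθ
  have hU0 : 0 < U := by linarith
  have hmem : Ioo (0 : ℝ) (δ / U) ∈ 𝓝[>] (0 : ℝ) := Ioo_mem_nhdsGT (by positivity)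
  filter_upwards [hmem] with ε hε
  refine (H ε hε.1 ?_).trans hθa
  have := hε.2
  rw [lt_div_iff₀ hU0] at this
  linarith

/-- **LIMIT FORM OF THE LANE LEMMA** -/
theorem exit_pvlq_lane_lim : ∃ q : ℝ, 0 < q ∧ q ≤ 1 ∧ ∀ (δ : ℝ), 0 < δ → ∀ (c : Bool) (L : List (ℤ × ℤ)), L ≠ [] → L.IsChain PvlnAdj →
    Tendsto (fun ε : ℝ => pvGeo ε {g | pvQc (pvlnLaneEv δ c L) g < ENNReal.ofReal (q ^ (15 * L.length) / 2)}) (𝓝[>] (0 : ℝ)) (𝓝 0) := by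
  obtain ⟨q, h0, h1, hQ⟩ := exit_pvlq_q
  refine ⟨q, h0, h1, fun δ hδ c L hne hc => exit_pvlq_lim_of_unif hδ fun θ hθ => ?_⟩
  obtain ⟨U, hU, H⟩ := pvlq_lane h0 h1 hQ L.length hθ
  exact ⟨U, hU, fun ε hε hle => H ε hε δ hle c L hne hc le_rfl⟩

/-- **LIMIT FORM OF THE CORRIDOR** -/
theorem exit_pvlq_corridor_lim : ∃ q : ℝ, 0 < q ∧ q ≤ 1 ∧ ∀ (δ : ℝ), 0 < δ → ∀ (n : ℕ) (c c' : Bool) (L L' : List (ℤ × ℤ)), L ≠ [] → L' ≠ [] → L.IsChain PvlnAdj → L'.IsChain PvlnAdj →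
    L.length ≤ n → L'.length ≤ n → Disjoint (pvlnW δ L) (pvlnW δ L') →
    Tendsto (fun ε : ℝ => pvGeo ε {g | pvQc (pvlnLaneEv δ c L ∩ pvlnLaneEv δ c' L') g < ENNReal.ofReal ((q ^ (15 * n) / 2) ^ 2)}) (𝓝[>] (0 : ℝ)) (𝓝 0) := by
  obtain ⟨q, h0, h1, hQ⟩ := exit_pvlq_q
  refine ⟨q, h0, h1, fun δ hδ n c c' L L' hne hne' hc hc' hn hn' hd => exit_pvlq_lim_of_unif hδ fun θ hθ => ?_⟩
  obtain ⟨U, hU, H⟩ := pvlq_corridor h0 h1 hQ n hθ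
  exact ⟨U, hU, fun ε hε hle => H ε hε δ hle c c' L L' hne hne' hc hc' hn hn' hd⟩

end Claimed.Agent.R289
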