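-- KEEP
import Claimed.Agent.R289.Exit.TrP
import Claimed.Agent.R289.Exit.AnaP
import Claimed.Agent.R289.Tr.CycP
import Claimed.Agent.R289.Tr.SysP
import Claimed.Agent.R289.Tr.ForceS
import Claimed.Agent.R289.Tr.ForceM

/-!
# Row 289 (S0537), Exit/DatP : THE TERM `pvydDat 𝔓 𝔤 c : PvypDat τ` = THE SECTORS OF ROAD P AT THE MODEL      (pen helper58; post B of 273 (P8, P9); prefix `pvyd_`, `pvyd`, `Pvyd`)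

`PvydGeo τ` (= the consumer record `PvlgDat` asked by 273, P9) = ALL THE DATA which `Tr/StateP` (185) does not fix:
  cell kit `kit X₀` (34 52), reference plug `Ou Gu` (S1 of P9: a kit plug at the scale `h`), ENDS of the kit plugs `en eu` (`PvnkEnd` of 272; producers 34 52 294), TEN WALKS + zones `wo wi we wb wr` (`Tr/LinkGeo`: 1 114),
  forcing constants `qo qi qr qe qb`, GLOBAL masses of the five links `Xo Xi Xe Xb Xr` (113 34).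
THE TERM.   regions `O := pvspO ×ˢ univ`, states **`G := pvspG`** (the STATE part of `𝔓.G = pvspGq = pvspG ∩ pvspHq`: `Hq` does not read `O`; the fields `cyc1ν thickν` are integrals of nonnegative functions, so `𝔓.G ⊆ D.G` is enough);
  every link is a `PvnkLink Λ` of 272 WITH A WINDOW `Et` OF ITS CORRIDOR AND A GUARD `M` (v4, `Tr/ForceM` of 272: the rim runs BETWEEN the two lanes; fields `Et M` of `PvydWalk`; contract `PvnhWin Et M`):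
  `K := pvnhKp Λ Et ×ˢ univ` (all that `Λ` reads off the two plugs),   `A := pvnhA Λ M ε q G G'` (bare event `Λ.A₀ ∩ M`, FORCED BY CONSTRUCTION, 34 272),   `X := pvpgLoc (pvP ε) (pvnhRd Λ Et) XG` (SOFT LOCALISATION of the global mass, 34).
  So measurability, reading and FORCING are free;   the model owes the a.e. dictionaries (`pvnh_link_ae` = P16, at the term: `pvnd_o_ae ..` of `Tr/EndP`;  `pvpg_loc_ae` = a.s. locality of the mass).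
COLOUR.   The rims have BOTH colours, the kit of 34 is black on the left.   `c : Bool` = the colour of the rim:   kit of colour `c` := `pvydKit kit c` (pull back by the colour flip), ONE datum per colour; a type `t` is served by `pvydDat 𝔓 𝔤 (𝔓.ty m z t).col`.
  `pvyd_W` : the cell means do not depend on the colour.
ROOF (sec. 8-12, 0 sorry).   `pvyd_for pvyd_forX pvyd_frc1 pvyd_wf2 pvyd_fld2 pvyd_frc2` (fixed mesh) ⟹ **`pvyd_cyc`** : `PvypCyc` at the term ⟸ `𝔓.Wf`, `KitOk`, `CandOk`, admission of `u`, `PvydFin`, `PvydTail`;   **`pvyd_thk`** : `PvypThk` ⟸ .., `PvydBes`;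
  **`pvyd_ok`** : `PvydAll 𝔓 𝔤 βu CB CA → PvyaOk (pvydDat 𝔓 𝔤) (pvydNum H) βu 𝔤.qb 𝔤.qe CB Ce0`;   sec. 12: [FIN] [TAIL] [BES] ⟸ `PvcpClose1 PvcpClose2` of 95;   **`PvydAllC 𝔓 𝔤 βu cM CA`** = the DETERMINISTIC list;   **`pvydAna hW H V : PvrxAna 𝔓`**.
  sec. 11: `pvyd_loc_of_reads` (soft localisation of an exact reader is the identity), `pvyd_of_fam` (kit fields + numbers from ONE `PvcnFamQ` of 52).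
REFERENCE PLUG.   `u` and its entrance funnel `r` are given in the REFERENCE FRAME (centre `0`, black) and carried by the frame `pvydE c (z + zu t)` BY DEFINITION:   **`pvyd_kref`** : `D.kref` does not depend on `(z, t, c)` (field `kin0_eq` of `PvypCyc`: I.INV).
-/

set_option autoImplicit false

namespace Claimed.Agent.R289

open MeasureTheory Filter Topology Set Claims.C0465
open scoped ENNReal

/-! ## 1. frames: translation and colour -/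

/-- the frame `(c, w)` on coloured points: translation by `w`; the colour `c` is called black -/
def pvydE (c : Bool) (w : ℂ) : PvPt ≃ᵐ PvPt where
  toFun p := (p.1 + w, p.2 == c)
  invFun p := (p.1 - w, p.2 == c)
  left_inv p := by
    refine Prod.ext ?_ ?_
    · show p.1 + w - w = p.1
      ring
    · show ((p.2 == c) == c) = p.2
      cases p.2 <;> cases c <;> rfl
  right_inv p := by
    refine Prod.ext ?_ ?_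
    · show p.1 - w + w = p.1
      ring
    · show ((p.2 == c) == c) = p.2
      cases p.2 <;> cases c <;> rfl
  measurable_toFun := by
    show Measurable fun p : PvPt => (p.1 + w, p.2 == c)
    exact (measurable_fst.add_const w).prodMk ((measurable_of_countable fun b : Bool => b == c).comp measurable_snd)
  measurable_invFun := by
    show Measurable fun p : PvPt => (p.1 - w, p.2 == c)
    exact (measurable_fst.sub_const w).prodMk ((measurable_of_countable fun b : Bool => b == c).comp measurable_snd)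

/-- the configuration in which the colour `c` is called black -/
def pvydFl (c : Bool) (η : Conf PvPt) : Conf PvPt := Conf.image (fun p : PvPt => (p.1, p.2 == c)) η

/-- **the kit of colour `c`** -/
def pvydKit (kit : PvthKit) (c : Bool) : PvthKit := ⟨kit.δ, kit.O₀, kit.K₀, pvydFl c ⁻¹' kit.G₀, fun τ => pvydFl c ⁻¹' kit.A₀ τ⟩

/-- the field of the cells of colour `c` -/
def pvydX (X₀ : PvtTurn → Conf PvPt → ℂ) (c : Bool) (τ : PvtTurn) (η : Conf PvPt) : ℂ := X₀ τ (pvydFl c η)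

/-- a sector carried by a measurable equivalence of the points -/
def pvydT (g : PvPt ≃ᵐ PvPt) (a : PvsySec PvPt) : PvsySec PvPt :=
  ⟨g '' a.O, Conf.image g.toEquiv.symm ⁻¹' a.G, g '' a.K, Conf.image g.toEquiv.symm ⁻¹' a.A⟩

/-! ## 2. the data -/

/-- the two walks of a link (fine cells of mesh `δ`, ABSOLUTE grid coordinates) and the zones of the mixed order -/
structure PvydWalk where
  δ : ℝ
  L₁ : List (ℤ × ℤ)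
  L₂ : List (ℤ × ℤ)
  K₁ : Set ℂ
  K₂ : Set ℂ
  /-- the WINDOW of the corridor (the rim runs BETWEEN the two lanes: the link reads it too;  272, `Tr/ForceM`) -/
  Et : Set ℂ
  /-- the GUARD of the window (e.g. `pvjoMesh ρ Et`, or two meshes for a funnel) -/
  M : Set (Conf PvPt)

/-- the link with the walks `w` from the end `e` to the end `e'` -/
def PvydWalk.lk (w : PvydWalk) (e e' : PvnkEnd) : PvnkLink := ⟨e, e', w.δ, w.L₁, w.L₂, w.K₁, w.K₂⟩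

/-- an end with a prescribed state region -/
def pvydEnd (e : PvnkEnd) (O : Set ℂ) : PvnkEnd := { e with O := O }

/-- **THE DATA OF THE SECTORS OF ROAD P** (`PvlgDat` of 273 P9).      `m` = level, `z` = centre of the candidate, `t` = type. -/
structure PvydGeo (τ : Type) where
  /-- the cell kit of level `m` at the mesh `ε`, BLACK rims   [34: `(𝔊 m).kit (pvP ε) b q`] -/
  kit : ℕ → ℝ → PvthKit
  /-- the field `Q` of a cell   [34: `(𝔊 m).fQ (pvP ε)`] -/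
  X₀ : ℕ → ℝ → PvtTurn → Conf PvPt → ℂ
  /-- the reference plug, reference frame (centre `0`, direction `1`, black): region, usable states   [S1 of P9: kit plug at the scale `h`] -/
  Ou : ℕ → Set ℂ
  Gu : ℕ → ℝ → Set (Conf PvPt)
  /-- the ends of a door plug: level, colour, side (`true` = exit), door `z d`   [34 52 294];   the field `O` is overridden by the region of the kit -/
  en : ℕ → Bool → Bool → ℂ → ℂ → PvnkEnd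
  /-- the ends of the reference plug: level, colour, side, centre -/
  eu : ℕ → Bool → Bool → ℂ → PvnkEnd
  /-- walks of the exit funnel `t → door (z + pout t, dout t)` -/
  wo : ℕ → ℂ → τ → PvydWalk
  /-- walks of the entrance funnel `door (z + pin t, din t) → t` -/
  wi : ℕ → ℂ → τ → PvydWalk
  /-- walks of the thick link `u → t` -/
  we : ℕ → ℂ → τ → PvydWalk
  /-- walks of the thick return link `t → u` -/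
  wb : ℕ → ℂ → τ → PvydWalk
  /-- walks of the entrance funnel `door (pin0, din0) → u`, REFERENCE FRAME -/
  wr : ℕ → PvydWalk
  /-- the forcing constants (funnels: may depend on the level;  thick links: UNIFORM) -/
  qo : ℕ → ℝ≥0∞
  qi : ℕ → ℝ≥0∞
  qr : ℕ → ℝ≥0∞
  qe : ℝ≥0∞
  qb : ℝ≥0∞
  /-- the GLOBAL `Q`-masses of the links   [113 34] -/
  Xo : ℕ → ℂ → τ → Conf PvPt → ℂ
  Xi : ℕ → ℂ → τ → Conf PvPt → ℂ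
  Xe : ℕ → ℂ → τ → Conf PvPt → ℂ
  Xb : ℕ → ℂ → τ → Conf PvPt → ℂ
  /-- REFERENCE FRAME -/
  Xr : ℕ → Conf PvPt → ℂ

section big

variable {τ : Type} {cc : ℝ} (𝔓 : PvrxPar τ cc)

/-- the exit end of the big plug -/
noncomputable def pvydEP (m : ℕ) (z : ℂ) (t : τ) : PvnkEnd := pvfvEndP 𝔓.mod.N (𝔓.ty m z t) z (pvlmH m)
/-- the entrance end of the big plug -/
noncomputable def pvydEM (m : ℕ) (z : ℂ) (t : τ) : PvnkEnd := pvfvEndM 𝔓.mod.N (𝔓.ty m z t) z (pvlmH m)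
/-- the centre of the reference plug of the candidate `(z,t)` -/
def pvydWu (m : ℕ) (z : ℂ) (t : τ) : ℂ := z + (𝔓.Γ m).zu t
/-- the usable states of the big plug: THE STATE PART of `𝔓.G` -/
noncomputable def pvydG (m : ℕ) (ε : ℝ) (z : ℂ) (t : τ) : Set (Conf PvPt) := pvspG 𝔓.mod.N ε (𝔓.ty m z t) z (pvlmH m)

end big

namespace PvydGeo

variable {τ : Type} {cc : ℝ} (𝔤 : PvydGeo τ) (𝔓 : PvrxPar τ cc) (c : Bool)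

/-- the end of side `σ` of the door plug of colour `c` at `(z,d)` -/
def eD (m : ℕ) (ε : ℝ) (σ : Bool) (z d : ℂ) : PvnkEnd := pvydEnd (𝔤.en m c σ z d) (pvthSim z d '' (𝔤.kit m ε).O₀)
/-- the end of side `σ` of the reference plug of colour `c` centred at `w` -/
def eU (m : ℕ) (σ : Bool) (w : ℂ) : PvnkEnd := pvydEnd (𝔤.eu m c σ w) (pvthSim w 1 '' 𝔤.Ou m)
/-- the usable states of the reference plug of `(z,t)` -/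
def GU (m : ℕ) (ε : ℝ) (z : ℂ) (t : τ) : Set (Conf PvPt) := Conf.image (pvydE c (pvydWu 𝔓 m z t)).toEquiv.symm ⁻¹' 𝔤.Gu m ε

/-- the exit funnel -/
noncomputable def lo (m : ℕ) (ε : ℝ) (z : ℂ) (t : τ) : PvnkLink := (𝔤.wo m z t).lk (pvydEP 𝔓 m z t) (𝔤.eD c m ε false (z + (𝔓.Γ m).pout t) ((𝔓.Γ m).dout t))
/-- the entrance funnel -/
noncomputable def li (m : ℕ) (ε : ℝ) (z : ℂ) (t : τ) : PvnkLink := (𝔤.wi m z t).lk (𝔤.eD c m ε true (z + (𝔓.Γ m).pin t) ((𝔓.Γ m).din t)) (pvydEM 𝔓 m z t)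
/-- the thick link `u → t` -/
noncomputable def le (m : ℕ) (z : ℂ) (t : τ) : PvnkLink := (𝔤.we m z t).lk (𝔤.eU c m true (pvydWu 𝔓 m z t)) (pvydEM 𝔓 m z t)
/-- the thick return link `t → u` -/
noncomputable def lb (m : ℕ) (z : ℂ) (t : τ) : PvnkLink := (𝔤.wb m z t).lk (pvydEP 𝔓 m z t) (𝔤.eU c m false (pvydWu 𝔓 m z t))
/-- the entrance funnel of the reference plug, REFERENCE FRAME -/
def lr (m : ℕ) (ε : ℝ) : PvnkLink := (𝔤.wr m).lk (𝔤.eD true m ε true (𝔓.Γ m).pin0 (𝔓.Γ m).din0) (𝔤.eU true m false 0)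

/-- success of the funnel `r`, REFERENCE FRAME -/
noncomputable def Ar₀ (m : ℕ) (ε : ℝ) : Set (Conf PvPt) := pvnhA (𝔤.lr 𝔓 m ε) (𝔤.wr m).M ε (𝔤.qr m) ((𝔤.kit m ε).G (𝔓.Γ m).pin0 (𝔓.Γ m).din0) (𝔤.Gu m ε)
/-- field of the funnel `r`, REFERENCE FRAME -/
noncomputable def Xr₀ (m : ℕ) (ε : ℝ) : Conf PvPt → ℂ := pvpgLoc (pvP ε) (pvnhRd (𝔤.lr 𝔓 m ε) (𝔤.wr m).Et) (𝔤.Xr m)

/-- **the constant of the reference plug** (field `kin00` of the numbers) -/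
noncomputable def kin00 (m : ℕ) (ε : ℝ) : ℂ :=
  (pvskDoor (𝔤.kit m ε) (𝔓.Γ m).pin0 (𝔓.Γ m).din0 (pvnhKp (𝔤.lr 𝔓 m ε) (𝔤.wr m).Et ×ˢ univ) (𝔤.Ar₀ 𝔓 m ε)).k ⟨𝔤.Ou m ×ˢ univ, 𝔤.Gu m ε, ∅, univ⟩ (pvP ε) (𝔤.Xr₀ 𝔓 m ε)

end PvydGeo

/-- **THE SECTORS OF ROAD P AT THE MODEL**, rims of colour `c` -/
noncomputable def pvydDat {τ : Type} {cc : ℝ} (𝔓 : PvrxPar τ cc) (𝔤 : PvydGeo τ) (c : Bool) : PvypDat τ where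
  kit := fun m ε => pvydKit (𝔤.kit m ε) c
  X₀ := fun m ε _ => pvydX (𝔤.X₀ m ε) c
  O := fun m _ z t => pvspO 𝔓.mod.N (𝔓.ty m z t) z (pvlmH m) ×ˢ univ
  G := pvydG 𝔓
  Ko := fun m ε z t => pvnhKp (𝔤.lo 𝔓 c m ε z t) (𝔤.wo m z t).Et ×ˢ univ
  Ao := fun m ε z t => pvnhA (𝔤.lo 𝔓 c m ε z t) (𝔤.wo m z t).M ε (𝔤.qo m) (pvydG 𝔓 m ε z t) ((pvydKit (𝔤.kit m ε) c).G (z + (𝔓.Γ m).pout t) ((𝔓.Γ m).dout t))
  Xo := fun m ε _ z t => pvpgLoc (pvP ε) (pvnhRd (𝔤.lo 𝔓 c m ε z t) (𝔤.wo m z t).Et) (𝔤.Xo m z t)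
  Ki := fun m ε z t => pvnhKp (𝔤.li 𝔓 c m ε z t) (𝔤.wi m z t).Et ×ˢ univ
  Ai := fun m ε z t => pvnhA (𝔤.li 𝔓 c m ε z t) (𝔤.wi m z t).M ε (𝔤.qi m) ((pvydKit (𝔤.kit m ε) c).G (z + (𝔓.Γ m).pin t) ((𝔓.Γ m).din t)) (pvydG 𝔓 m ε z t)
  Xi := fun m ε _ z t => pvpgLoc (pvP ε) (pvnhRd (𝔤.li 𝔓 c m ε z t) (𝔤.wi m z t).Et) (𝔤.Xi m z t)
  Ou := fun m _ z t => (pvthSim (pvydWu 𝔓 m z t) 1 '' 𝔤.Ou m) ×ˢ univ
  Gu := 𝔤.GU 𝔓 c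
  Kr := fun m ε z t => (pvthSim (pvydWu 𝔓 m z t) 1 '' pvnhKp (𝔤.lr 𝔓 m ε) (𝔤.wr m).Et) ×ˢ univ
  Ar := fun m ε z t => Conf.image (pvydE c (pvydWu 𝔓 m z t)).toEquiv.symm ⁻¹' 𝔤.Ar₀ 𝔓 m ε
  Xr := fun m ε _ z t => pvciT (pvydE c (pvydWu 𝔓 m z t)).toEquiv (𝔤.Xr₀ 𝔓 m ε)
  Ke := fun m _ z t => pvnhKp (𝔤.le 𝔓 c m z t) (𝔤.we m z t).Et ×ˢ univ
  Ae := fun m ε z t => pvnhA (𝔤.le 𝔓 c m z t) (𝔤.we m z t).M ε 𝔤.qe (𝔤.GU 𝔓 c m ε z t) (pvydG 𝔓 m ε z t)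
  Xe := fun m ε _ z t => pvpgLoc (pvP ε) (pvnhRd (𝔤.le 𝔓 c m z t) (𝔤.we m z t).Et) (𝔤.Xe m z t)
  Kb := fun m _ z t => pvnhKp (𝔤.lb 𝔓 c m z t) (𝔤.wb m z t).Et ×ˢ univ
  Ab := fun m ε z t => pvnhA (𝔤.lb 𝔓 c m z t) (𝔤.wb m z t).M ε 𝔤.qb (pvydG 𝔓 m ε z t) (𝔤.GU 𝔓 c m ε z t)
  Xb := fun m ε _ z t => pvpgLoc (pvP ε) (pvnhRd (𝔤.lb 𝔓 c m z t) (𝔤.wb m z t).Et) (𝔤.Xb m z t)

theorem pvyd_eqns_cite : True := by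
  have := @pvydE.eq_1; have := @pvydFl.eq_1; have := @pvydKit.eq_1; have := @pvydX.eq_1; have := @pvydT.eq_1; have := @PvydWalk.lk.eq_1; have := @pvydEnd.eq_1
  have := @pvydEP.eq_1; have := @pvydEM.eq_1; have := @PvydGeo.eD.eq_1; have := @PvydGeo.eU.eq_1; have := @pvydWu.eq_1; have := @pvydG.eq_1; have := @PvydGeo.GU.eq_1
  have := @PvydGeo.lo.eq_1; have := @PvydGeo.li.eq_1; have := @PvydGeo.le.eq_1; have := @PvydGeo.lb.eq_1; have := @PvydGeo.lr.eq_1; have := @PvydGeo.Ar₀.eq_1; have := @PvydGeo.Xr₀.eq_1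
  have := @PvydGeo.kin00.eq_1; have := @pvydDat.eq_1
  trivial

/-! ## 3. what the data owe -/

/-- disjointness of the regions of a list of sectors -/
structure PvydDj (n : ℕ) (sec : ℕ → PvsySec PvPt) : Prop where
  dOO : ∀ i < n, ∀ j < n, i ≠ j → Disjoint (sec i).O (sec j).O
  dKK : ∀ i < n, ∀ j < n, i ≠ j → Disjoint (sec i).K (sec j).K
  dOK : ∀ i < n, ∀ j < n, Disjoint (sec i).O (sec j).K

namespace PvydGeo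

variable {τ : Type} {cc : ℝ} (𝔤 : PvydGeo τ) (𝔓 : PvrxPar τ cc)

/-- **WHAT THE KIT, THE REFERENCE PLUG AND ITS FUNNEL OWE AT THE LEVEL `m`**      [kit: 34 52 (`pvpg_wf pvpg_fldQ pvpg_forced`);  ends: 34 52 294;  `r_geo`: 1 114;  `mXr`: 113 34] -/
structure KitOk (m : ℕ) (β' qk : ℝ≥0∞) : Prop where
  wf : ∀ᶠ ε in 𝓝[>] (0 : ℝ), (𝔤.kit m ε).WF
  fld : ∀ᶠ ε in 𝓝[>] (0 : ℝ), (𝔤.kit m ε).Fld (𝔤.X₀ m ε)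
  del : ∀ᶠ ε in 𝓝[>] (0 : ℝ), (𝔤.kit m ε).δ = (𝔓.Γ m).δ
  frc : ∀ᶠ ε in 𝓝[>] (0 : ℝ), (𝔤.kit m ε).Forced (pvP ε) β' qk
  qk1 : qk ≤ 1
  mOu : MeasurableSet (𝔤.Ou m)
  mGu : ∀ᶠ ε in 𝓝[>] (0 : ℝ), MeasurableSet (𝔤.Gu m ε)
  rGu : ∀ᶠ ε in 𝓝[>] (0 : ℝ), Conf.ReadsSet (𝔤.Ou m ×ˢ univ) (𝔤.Gu m ε)
  en_ok : ∀ (c σ : Bool) (z d : ℂ), d ^ 4 = 1 → ∀ᶠ ε in 𝓝[>] (0 : ℝ), (𝔤.eD c m ε σ z d).Ok
  eu_ok : ∀ (c σ : Bool) (w : ℂ), (𝔤.eU c m σ w).Ok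
  r_geo : ∀ᶠ ε in 𝓝[>] (0 : ℝ), (𝔤.lr 𝔓 m ε).Geo
  r_win : PvnhWin (𝔤.wr m).Et (𝔤.wr m).M
  mXr : Measurable (𝔤.Xr m)
  qr0 : 𝔤.qr m ≠ 0
  qr1 : 𝔤.qr m ≤ 1
  qo0 : 𝔤.qo m ≠ 0
  qo1 : 𝔤.qo m ≤ 1
  qi0 : 𝔤.qi m ≠ 0
  qi1 : 𝔤.qi m ≤ 1

/-- **WHAT THE GEOMETRY OF THE LINKS OWES AT THE CANDIDATE `(z,t)` OF LEVEL `m`** (`c` = the colour of the type)      [`Tr/LinkGeo`: 1 114;  masses: 113 34] -/
structure CandOk (m : ℕ) (z : ℂ) (t : τ) : Prop where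
  d4o : ((𝔓.Γ m).dout t) ^ 4 = 1
  d4i : ((𝔓.Γ m).din t) ^ 4 = 1
  o_geo : ∀ᶠ ε in 𝓝[>] (0 : ℝ), (𝔤.lo 𝔓 (𝔓.ty m z t).col m ε z t).Geo
  i_geo : ∀ᶠ ε in 𝓝[>] (0 : ℝ), (𝔤.li 𝔓 (𝔓.ty m z t).col m ε z t).Geo
  e_geo : (𝔤.le 𝔓 (𝔓.ty m z t).col m z t).Geo
  b_geo : (𝔤.lb 𝔓 (𝔓.ty m z t).col m z t).Geo
  o_win : PvnhWin (𝔤.wo m z t).Et (𝔤.wo m z t).M
  i_win : PvnhWin (𝔤.wi m z t).Et (𝔤.wi m z t).M
  e_win : PvnhWin (𝔤.we m z t).Et (𝔤.we m z t).M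
  b_win : PvnhWin (𝔤.wb m z t).Et (𝔤.wb m z t).M
  mXo : Measurable (𝔤.Xo m z t)
  mXi : Measurable (𝔤.Xi m z t)
  mXe : Measurable (𝔤.Xe m z t)
  mXb : Measurable (𝔤.Xb m z t)
  /-- the regions of the cycle   `t -o-> cells of l1 t -r-> u -e-> t`   are pairwise disjoint -/
  dj1 : ∀ᶠ ε in 𝓝[>] (0 : ℝ), PvydDj (((𝔓.Γ m).l1 t).length + 3)
    (pvskList ((pvydDat 𝔓 𝔤 (𝔓.ty m z t).col).sOut m ε z t) ((pvydDat 𝔓 𝔤 (𝔓.ty m z t).col).kit m ε) (z + (𝔓.Γ m).pout t) ((𝔓.Γ m).dout t) ((𝔓.Γ m).l1 t)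
      ((pvydDat 𝔓 𝔤 (𝔓.ty m z t).col).Kr m ε z t) ((pvydDat 𝔓 𝔤 (𝔓.ty m z t).col).Ar m ε z t) ((pvydDat 𝔓 𝔤 (𝔓.ty m z t).col).sRef m ε z t))
  /-- the regions of the short cycle   `t -b-> u -e-> t`   are pairwise disjoint -/
  dj2 : ∀ᶠ ε in 𝓝[>] (0 : ℝ), PvydDj 2 ((pvydDat 𝔓 𝔤 (𝔓.ty m z t).col).cyc2 m ε z t)

end PvydGeo

/-! ## 4. one link: `Tr/ForceM` of 272 (`pvnh_rd pvnh_rd_meas pvnh_Kp_meas pvnh_A_meas pvnh_A_reads' pvnh_A_forced pvnh_X_reads pvnh_X_meas`) -/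

/-! ## 5. frames -/

section frame

theorem pvyd_fl_meas (c : Bool) : Measurable (pvydFl c) :=
  Conf.measurable_image (measurable_fst.prodMk ((measurable_of_countable fun b : Bool => b == c).comp measurable_snd))

theorem pvyd_fl_eq (c : Bool) : pvydFl c = Conf.image (pvydE c 0).toEquiv.symm := by
  funext η
  unfold pvydFl
  congr 1
  funext p
  exact Prod.ext (sub_zero p.1).symm rfl

/-- a frame = a colour frame followed by a translation -/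
theorem pvyd_E_symm (c : Bool) (w : ℂ) (η : Conf PvPt) : Conf.image (pvydE c w).toEquiv.symm η = pvydFl c (cfMap (pvthInv w 1) η) := by
  unfold pvydFl cfMap
  rw [pvci_image_image]
  congr 1
  funext p
  refine Prod.ext ?_ rfl
  show p.1 - w = (p.1 - w) / 1
  rw [div_one]

theorem pvyd_fl_cfMap (c : Bool) (g : ℂ → ℂ) (η : Conf PvPt) : pvydFl c (cfMap g η) = cfMap g (pvydFl c η) := by
  unfold pvydFl cfMap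
  rw [pvci_image_image, pvci_image_image]
  rfl

theorem pvyd_fl_true (η : Conf PvPt) : pvydFl true η = η := by
  unfold pvydFl
  have : (fun p : PvPt => (p.1, p.2 == true)) = id := by
    funext p
    refine Prod.ext rfl ?_
    show (p.2 == true) = p.2
    cases p.2 <;> rfl
  rw [this, pvci_image_id]

theorem pvyd_fl_false (η : Conf PvPt) : pvydFl false η = cfFlip η := by
  unfold pvydFl cfFlip
  congr 1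
  funext p
  refine Prod.ext rfl ?_
  show (p.2 == false) = !p.2
  cases p.2 <;> rfl

/-- the law is invariant under the colour frames -/
theorem pvyd_law_fl (c : Bool) (ε : ℝ) : (pvP ε).map (pvydFl c) = pvP ε := by
  cases c
  · rw [show pvydFl false = cfFlip from funext pvyd_fl_false]
    exact pvP_flip ε
  · rw [show pvydFl true = id from funext pvyd_fl_true]
    exact Measure.map_id

/-- **the law is invariant under the frames** -/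
theorem pvyd_law (c : Bool) (w : ℂ) (ε : ℝ) : (pvP ε).map (Conf.image (pvydE c w)) = pvP ε := by
  have e : Conf.image (pvydE c w) = cfMap (fun z => z + w) ∘ pvydFl c := by
    funext η
    unfold pvydFl cfMap
    rw [Function.comp, pvci_image_image]
    rfl
  have hm : Measurable fun z : ℂ => z + w := measurable_id.add_const w
  rw [e, ← Measure.map_map (measurable_cfMap hm) (pvyd_fl_meas c), pvyd_law_fl, pvP_translate]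

/-- a planar region carried by a frame -/
theorem pvyd_E_image (c : Bool) (w : ℂ) (S : Set ℂ) : pvydE c w '' (S ×ˢ (univ : Set Bool)) = (pvthSim w 1 '' S) ×ˢ univ := by
  ext p
  constructor
  · rintro ⟨q, hq, rfl⟩
    refine ⟨⟨q.1, hq.1, ?_⟩, mem_univ _⟩
    show w + 1 * q.1 = q.1 + w
    ring
  · rintro ⟨⟨x, hx, e⟩, -⟩
    refine ⟨(x, p.2 == c), ⟨hx, mem_univ _⟩, Prod.ext ?_ ?_⟩
    · show x + w = p.1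
      rw [← e]
      show x + w = w + 1 * x
      ring
    · show ((p.2 == c) == c) = p.2
      cases p.2 <;> cases c <;> rfl

theorem pvyd_sim_comp (w z d : ℂ) (S : Set ℂ) : pvthSim w 1 '' (pvthSim z d '' S) = pvthSim (w + z) d '' S := by
  rw [image_image]
  refine image_congr fun x _ => ?_
  show w + 1 * (z + d * x) = w + z + d * x
  ring

theorem pvyd_sim_meas (w : ℂ) {S : Set ℂ} (hS : MeasurableSet S) : MeasurableSet (pvthSim w 1 '' S) := by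
  have e : pvthSim w 1 '' S = (fun x => x - w) ⁻¹' S := by
    ext x
    constructor
    · rintro ⟨y, hy, rfl⟩
      show w + 1 * y - w ∈ S
      have : w + 1 * y - w = y := by ring
      rwa [this]
    · intro hx
      exact ⟨x - w, hx, by show w + 1 * (x - w) = x; ring⟩
  rw [e]
  exact (measurable_id.sub_const w) hS

end frame

/-! ## 6. the kit of colour `c` -/

section colour

/-- a region which does not see the colours -/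
def PvydCb (W : Set PvPt) : Prop := ∀ (p : PvPt) (b : Bool), (p.1, b) ∈ W ↔ p ∈ W

theorem pvyd_eqns_cite2 : True := by
  have := @PvydCb.eq_1
  trivial

theorem pvyd_cb_prod (S : Set ℂ) : PvydCb (S ×ˢ (univ : Set Bool)) := fun p b => by
  simp only [mem_prod, mem_univ, and_true]

theorem PvydCb.union {W W' : Set PvPt} (h : PvydCb W) (h' : PvydCb W') : PvydCb (W ∪ W') := fun p b => or_congr (h p b) (h' p b)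

theorem pvyd_cb_O (kit : PvthKit) (z d : ℂ) : PvydCb (kit.O z d) := pvyd_cb_prod _
theorem pvyd_cb_K (kit : PvthKit) (z d : ℂ) (τ : PvtTurn) : PvydCb (kit.K z d τ) := pvyd_cb_prod _
theorem pvyd_cb_OO (kit : PvthKit) (z d : ℂ) (τ : PvtTurn) : PvydCb (kit.OO z d τ) := (pvyd_cb_O _ _ _).union (pvyd_cb_O _ _ _)

theorem pvyd_E0_image (c : Bool) {W : Set PvPt} (hW : PvydCb W) : pvydE c 0 '' W = W := by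
  ext p
  constructor
  · rintro ⟨q, hq, rfl⟩
    show (q.1 + 0, q.2 == c) ∈ W
    rw [add_zero]
    exact (hW q _).2 hq
  · intro hp
    refine ⟨(p.1, p.2 == c), (hW p _).2 hp, Prod.ext ?_ ?_⟩
    · show p.1 + 0 = p.1
      rw [add_zero]
    · show ((p.2 == c) == c) = p.2
      cases p.2 <;> cases c <;> rfl

theorem pvyd_reads_fl {β : Type*} (c : Bool) {W : Set PvPt} (hW : PvydCb W) {f : Conf PvPt → β} (h : Conf.Reads W f) : Conf.Reads W (fun η => f (pvydFl c η)) := by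
  have := pvci_T_reads (pvydE c 0).toEquiv h
  rw [show (pvydE c 0).toEquiv '' W = W from pvyd_E0_image c hW] at this
  intro η
  have e := this η
  unfold pvciT at e
  rw [← pvyd_fl_eq] at e
  exact e

variable (kit : PvthKit) (c : Bool)

theorem pvyd_kit_G (z d : ℂ) : (pvydKit kit c).G z d = pvydFl c ⁻¹' kit.G z d := by
  ext η
  show pvydFl c (cfMap (pvthInv z d) η) ∈ kit.G₀ ↔ cfMap (pvthInv z d) (pvydFl c η) ∈ kit.G₀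
  rw [pvyd_fl_cfMap]

theorem pvyd_kit_A (z d : ℂ) (τ : PvtTurn) : (pvydKit kit c).A z d τ = pvydFl c ⁻¹' kit.A z d τ := by
  ext η
  show pvydFl c (cfMap (pvthInv z d) η) ∈ kit.A₀ τ ↔ cfMap (pvthInv z d) (pvydFl c η) ∈ kit.A₀ τ
  rw [pvyd_fl_cfMap]

variable {kit}

theorem pvyd_kit_wf (h : kit.WF) : (pvydKit kit c).WF where
  δ0 := h.δ0
  mO := h.mO
  mK := h.mK
  mG := pvyd_fl_meas c h.mG
  mA := fun τ => pvyd_fl_meas c (h.mA τ)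
  rG := pvyd_reads_fl c (pvyd_cb_O kit 0 1) h.rG
  rA := fun τ => pvyd_reads_fl c ((pvyd_cb_OO kit 0 1 τ).union (pvyd_cb_K kit 0 1 τ)) (h.rA τ)

theorem pvyd_kit_fld {X₀ : PvtTurn → Conf PvPt → ℂ} (h : kit.Fld X₀) : (pvydKit kit c).Fld (pvydX X₀ c) where
  meas := fun τ => (h.meas τ).comp (pvyd_fl_meas c)
  reads := fun τ => pvyd_reads_fl c ((pvyd_cb_OO kit 0 1 τ).union (pvyd_cb_K kit 0 1 τ)) (h.reads τ)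

theorem pvyd_measure_fl (ε : ℝ) (S : Set (Conf PvPt)) : pvP ε (pvydFl c ⁻¹' S) = pvP ε S := by
  rw [pvyd_fl_eq]
  exact pvci_measure_T (pvydE c 0) (pvyd_law c 0 ε) S

theorem pvyd_P_fl (ε : ℝ) {W : Set PvPt} (hW : PvydCb W) (S : Set (Conf PvPt)) (σ : Conf PvPt) :
    pvtiP (pvP ε) W (pvydFl c ⁻¹' S) σ = pvtiP (pvP ε) W S (pvydFl c σ) := by
  have := congrFun (pvci_P_T (pvydE c 0) (pvyd_law c 0 ε) W S) σ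
  rw [pvyd_E0_image c hW] at this
  unfold pvciT at this
  rw [← pvyd_fl_eq] at this
  exact this

theorem pvyd_W_fl (ε : ℝ) {W : Set PvPt} (hW : PvydCb W) (S : Set (Conf PvPt)) (σ : Conf PvPt) :
    pvtiW (pvP ε) W (pvydFl c ⁻¹' S) σ = pvtiW (pvP ε) W S (pvydFl c σ) := by
  have := congrFun (pvci_W_T (pvydE c 0) (pvyd_law c 0 ε) W S) σ
  rw [pvyd_E0_image c hW] at this
  unfold pvciT at this
  rw [← pvyd_fl_eq] at this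
  exact this

theorem pvyd_kit_forced {ε : ℝ} {β' q : ℝ≥0∞} (h : kit.Forced (pvP ε) β' q) : (pvydKit kit c).Forced (pvP ε) β' q where
  β0 := h.β0
  q0 := h.q0
  adm := by
    show β' ≤ pvP ε (pvydFl c ⁻¹' kit.G₀)
    rw [pvyd_measure_fl]
    exact h.adm
  frc := fun τ σ h1 h2 => by
    show q ≤ pvtiP (pvP ε) (kit.OO 0 1 τ) (pvydFl c ⁻¹' kit.A₀ τ) σ
    rw [pvyd_P_fl c ε (pvyd_cb_OO kit 0 1 τ)]
    rw [pvyd_kit_G] at h2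
    exact h.frc τ _ h1 h2

theorem pvyd_kit_g (kit : PvthKit) (ε : ℝ) (z d : ℂ) (η : Conf PvPt) : (pvydKit kit c).g (pvP ε) z d η = kit.g (pvP ε) z d (pvydFl c η) := by
  unfold PvthKit.g
  rw [pvyd_kit_G, show (pvydKit kit c).G₀ = pvydFl c ⁻¹' kit.G₀ from rfl, pvyd_measure_fl]
  rfl

theorem pvyd_kit_w (kit : PvthKit) (ε : ℝ) (z d : ℂ) (τ : PvtTurn) (η : Conf PvPt) : (pvydKit kit c).w (pvP ε) z d τ η = kit.w (pvP ε) z d τ (pvydFl c η) := by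
  unfold PvthKit.w
  rw [pvyd_kit_A]
  exact pvyd_W_fl c ε (pvyd_cb_OO kit z d τ) _ η

theorem pvyd_kit_w2 (kit : PvthKit) (ε : ℝ) (z d : ℂ) (τ : PvtTurn) (η : Conf PvPt) : (pvydKit kit c).w2 (pvP ε) z d τ η = kit.w2 (pvP ε) z d τ (pvydFl c η) := by
  unfold PvthKit.w2
  rw [pvyd_kit_g, pvyd_kit_g, pvyd_kit_w]
  rfl

/-- the cell constants do not depend on the colour -/
theorem pvyd_kit_k (kit : PvthKit) (ε : ℝ) (X₀ : PvtTurn → Conf PvPt → ℂ) (τ : PvtTurn) : (pvydKit kit c).k (pvP ε) (pvydX X₀ c) τ = kit.k (pvP ε) X₀ τ := by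
  unfold PvthKit.k
  have := pvci_integral_withDensity_T (pvydE c 0) (pvyd_law c 0 ε) (kit.w2 (pvP ε) 0 1 τ) (X₀ τ)
  rw [← this]
  have e1 : (pvydKit kit c).w2 (pvP ε) 0 1 τ = pvciT (pvydE c 0).toEquiv (kit.w2 (pvP ε) 0 1 τ) := by
    funext η
    rw [pvyd_kit_w2]
    unfold pvciT
    rw [← pvyd_fl_eq]
  have e2 : pvydX X₀ c τ = pvciT (pvydE c 0).toEquiv (X₀ τ) := by
    funext η
    unfold pvciT pvydX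
    rw [← pvyd_fl_eq]
  rw [e1, e2]

/-- **`W_eq`**: the three cell means do not depend on the colour -/
theorem pvyd_W (kit : PvthKit) (ε : ℝ) (X₀ : PvtTurn → Conf PvPt → ℂ) : (pvydKit kit c).W (pvP ε) (pvydX X₀ c) = kit.W (pvP ε) X₀ := by
  unfold PvthKit.W
  rw [pvyd_kit_k, pvyd_kit_k, pvyd_kit_k]

end colour

/-! ## 7. sectors carried by a frame; the constant of the reference plug -/

section carry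

variable (g : PvPt ≃ᵐ PvPt) {μ : Measure (Conf PvPt)} (hμ : μ.map (Conf.image g) = μ) (a b : PvsySec PvPt)

include hμ in
theorem pvyd_g_T : (pvydT g a).g μ = pvciT g.toEquiv (a.g μ) := by
  funext η
  unfold PvsySec.g pvciT
  rw [show (pvydT g a).G = Conf.image g.toEquiv.symm ⁻¹' a.G from rfl, pvci_measure_T g hμ]
  rfl

include hμ in
theorem pvyd_w_T : (pvydT g a).w (pvydT g b) μ = pvciT g.toEquiv (a.w b μ) := by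
  unfold PvsySec.w
  rw [show (pvydT g a).O ∪ (pvydT g b).O = g '' (a.O ∪ b.O) from (image_union _ _ _).symm]
  exact pvci_W_T g hμ _ _

include hμ in
theorem pvyd_w2_T : (pvydT g a).w2 (pvydT g b) μ = pvciT g.toEquiv (a.w2 b μ) := by
  funext η
  unfold PvsySec.w2
  rw [pvyd_g_T g hμ, pvyd_g_T g hμ, pvyd_w_T g hμ]
  rfl

include hμ in
/-- **I.INV for sectors**: the constant of a carried connector -/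
theorem pvyd_k_T (X : Conf PvPt → ℂ) : (pvydT g a).k (pvydT g b) μ (pvciT g.toEquiv X) = a.k b μ X := by
  unfold PvsySec.k
  rw [pvyd_w2_T g hμ]
  exact pvci_integral_withDensity_T g hμ _ _

end carry

section kref

variable {τ : Type} {cc : ℝ} (𝔓 : PvrxPar τ cc) (𝔤 : PvydGeo τ) (c : Bool)

/-- the usable states of a door plug of colour `c` in a frame -/
theorem pvyd_kit_G_E (kit : PvthKit) (w z d : ℂ) : (pvydKit kit c).G (w + z) d = Conf.image (pvydE c w).toEquiv.symm ⁻¹' kit.G z d := by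
  ext η
  show pvydFl c (cfMap (pvthInv (w + z) d) η) ∈ kit.G₀ ↔ cfMap (pvthInv z d) (Conf.image (pvydE c w).toEquiv.symm η) ∈ kit.G₀
  rw [pvyd_E_symm, ← pvyd_fl_cfMap, pvci_cfMap_comp, pvth_inv_comp w 1 z d one_ne_zero, one_mul, one_mul]

theorem pvyd_kit_O_E (kit : PvthKit) (w z d : ℂ) : (pvydKit kit c).O (w + z) d = pvydE c w '' kit.O z d := by
  show (pvthSim (w + z) d '' kit.O₀) ×ˢ univ = pvydE c w '' ((pvthSim z d '' kit.O₀) ×ˢ univ)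
  rw [pvyd_E_image, pvyd_sim_comp]

theorem pvyd_door_E (m : ℕ) (ε : ℝ) (z : ℂ) (t : τ) :
    pvskDoor ((pvydDat 𝔓 𝔤 c).kit m ε) (z + (𝔓.Γ m).zu t + (𝔓.Γ m).pin0) (𝔓.Γ m).din0 ((pvydDat 𝔓 𝔤 c).Kr m ε z t) ((pvydDat 𝔓 𝔤 c).Ar m ε z t)
      = pvydT (pvydE c (pvydWu 𝔓 m z t)) (pvskDoor (𝔤.kit m ε) (𝔓.Γ m).pin0 (𝔓.Γ m).din0 (pvnhKp (𝔤.lr 𝔓 m ε) (𝔤.wr m).Et ×ˢ univ) (𝔤.Ar₀ 𝔓 m ε)) := by
  unfold pvskDoor pvydT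
  congr 1
  · exact pvyd_kit_O_E c (𝔤.kit m ε) (pvydWu 𝔓 m z t) _ _
  · exact pvyd_kit_G_E c (𝔤.kit m ε) (pvydWu 𝔓 m z t) _ _
  · exact (pvyd_E_image c _ _).symm

theorem pvyd_sRef_O (m : ℕ) (ε : ℝ) (z : ℂ) (t : τ) :
    ((pvydDat 𝔓 𝔤 c).sRef m ε z t).O = (pvydT (pvydE c (pvydWu 𝔓 m z t)) ⟨𝔤.Ou m ×ˢ univ, 𝔤.Gu m ε, ∅, univ⟩).O :=
  (pvyd_E_image c _ _).symm

theorem pvyd_sRef_G (m : ℕ) (ε : ℝ) (z : ℂ) (t : τ) :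
    ((pvydDat 𝔓 𝔤 c).sRef m ε z t).G = (pvydT (pvydE c (pvydWu 𝔓 m z t)) ⟨𝔤.Ou m ×ˢ univ, 𝔤.Gu m ε, ∅, univ⟩).G := rfl

theorem pvyd_Xr (m : ℕ) (ε : ℝ) (a z : ℂ) (t : τ) : (pvydDat 𝔓 𝔤 c).Xr m ε a z t = pvciT (pvydE c (pvydWu 𝔓 m z t)).toEquiv (𝔤.Xr₀ 𝔓 m ε) := rfl

/-- **`kin0_eq`** (I.INV + colour symmetry): the constant of the reference plug does not depend on the candidate -/
theorem pvyd_kref (m : ℕ) (ε : ℝ) (a z : ℂ) (t : τ) : (pvydDat 𝔓 𝔤 c).kref 𝔓.Γ m ε a z t = 𝔤.kin00 𝔓 m ε := by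
  unfold PvypDat.kref PvydGeo.kin00
  rw [pvyd_door_E, pvyd_Xr, pvsk_k_congr _ (pvyd_sRef_O 𝔓 𝔤 c m ε z t) (pvyd_sRef_G 𝔓 𝔤 c m ε z t)]
  exact pvyd_k_T (pvydE c (pvydWu 𝔓 m z t)) (pvyd_law c _ ε) _ _ _

end kref

/-! ## 8. the plugs and the links of the term, one by one (fixed mesh) -/

section parts

variable {τ : Type} {cc : ℝ} {𝔓 : PvrxPar τ cc} {𝔤 : PvydGeo τ} {c : Bool} {m : ℕ} {ε : ℝ} {z : ℂ} {t : τ}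

theorem pvyd_EP_ok (hW : 𝔓.Wf) (m : ℕ) (z : ℂ) (t : τ) : (pvydEP 𝔓 m z t).Ok := pvfv_endP_ok (hW.ty_wf m z t)
theorem pvyd_EM_ok (hW : 𝔓.Wf) (m : ℕ) (z : ℂ) (t : τ) : (pvydEM 𝔓 m z t).Ok := pvfv_endM_ok (hW.ty_wf m z t)

theorem pvyd_G_meas (hW : 𝔓.Wf) (m : ℕ) (ε : ℝ) (z : ℂ) (t : τ) : MeasurableSet (pvydG 𝔓 m ε z t) := pvsp_G_meas (hW.ty_wf m z t) ε

theorem pvyd_G_reads (hW : 𝔓.Wf) (m : ℕ) (ε : ℝ) (z : ℂ) (t : τ) : Conf.ReadsSet (pvspO 𝔓.mod.N (𝔓.ty m z t) z (pvlmH m) ×ˢ univ) (pvydG 𝔓 m ε z t) :=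
  pvsp_G_reads (hW.ty_wf m z t) ε

/-- the door plugs of colour `c` -/
theorem pvyd_door_meas (hk : (𝔤.kit m ε).WF) (c : Bool) (z d : ℂ) : MeasurableSet ((pvydKit (𝔤.kit m ε) c).G z d) := pvth_mG (pvyd_kit_wf c hk) z d

theorem pvyd_door_reads (hk : (𝔤.kit m ε).WF) (c : Bool) (z : ℂ) {d : ℂ} (hd : d ^ 4 = 1) :
    Conf.ReadsSet ((pvthSim z d '' (𝔤.kit m ε).O₀) ×ˢ univ) ((pvydKit (𝔤.kit m ε) c).G z d) :=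
  Conf.readsSet_iff_reads.2 (pvth_rG (pvyd_kit_wf c hk) z d (pvth_ne_zero (pvth_norm_of_pow hd)))

/-- the reference plug -/
theorem pvyd_GU_meas (mGu : MeasurableSet (𝔤.Gu m ε)) (𝔓 : PvrxPar τ cc) (c : Bool) (z : ℂ) (t : τ) : MeasurableSet (𝔤.GU 𝔓 c m ε z t) :=
  pvci_T_measurableSet (pvydE c (pvydWu 𝔓 m z t)) mGu

theorem pvyd_GU_reads (rGu : Conf.ReadsSet (𝔤.Ou m ×ˢ univ) (𝔤.Gu m ε)) (𝔓 : PvrxPar τ cc) (c : Bool) (z : ℂ) (t : τ) :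
    Conf.ReadsSet ((pvthSim (pvydWu 𝔓 m z t) 1 '' 𝔤.Ou m) ×ˢ univ) (𝔤.GU 𝔓 c m ε z t) := by
  have := pvci_T_reads (pvydE c (pvydWu 𝔓 m z t)).toEquiv (Conf.readsSet_iff_reads.1 rGu)
  rw [show (pvydE c (pvydWu 𝔓 m z t)).toEquiv '' (𝔤.Ou m ×ˢ univ) = (pvthSim (pvydWu 𝔓 m z t) 1 '' 𝔤.Ou m) ×ˢ univ from pvyd_E_image c _ _] at this
  exact Conf.readsSet_iff_reads.2 this

theorem pvyd_GU_measure (𝔤 : PvydGeo τ) (𝔓 : PvrxPar τ cc) (c : Bool) (m : ℕ) (ε : ℝ) (z : ℂ) (t : τ) : pvP ε (𝔤.GU 𝔓 c m ε z t) = pvP ε (𝔤.Gu m ε) :=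
  pvci_measure_T (pvydE c (pvydWu 𝔓 m z t)) (pvyd_law c _ ε) _

/-- the funnel `r` in the reference frame -/
theorem pvyd_Ar₀_meas (hk : (𝔤.kit m ε).WF) (mGu : MeasurableSet (𝔤.Gu m ε)) (er : (𝔤.eD true m ε true (𝔓.Γ m).pin0 (𝔓.Γ m).din0).Ok) (eu : (𝔤.eU true m false 0).Ok)
    (gr : (𝔤.lr 𝔓 m ε).Geo) (Wr : PvnhWin (𝔤.wr m).Et (𝔤.wr m).M) : MeasurableSet (𝔤.Ar₀ 𝔓 m ε) :=
  pvnh_A_meas (Λ := 𝔤.lr 𝔓 m ε) er eu gr Wr.mM ε _ (pvth_mG hk _ _) mGu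

theorem pvyd_sim_zero (S : Set ℂ) : pvthSim 0 1 '' S = S := by
  rw [pvth_sim_id, image_id]

theorem pvyd_Ar₀_reads (hk : (𝔤.kit m ε).WF) (rGu : Conf.ReadsSet (𝔤.Ou m ×ˢ univ) (𝔤.Gu m ε)) (hd : (𝔓.Γ m).din0 ^ 4 = 1)
    (er : (𝔤.eD true m ε true (𝔓.Γ m).pin0 (𝔓.Γ m).din0).Ok) (eu : (𝔤.eU true m false 0).Ok) (Wr : PvnhWin (𝔤.wr m).Et (𝔤.wr m).M) :
    Conf.ReadsSet (pvnhRd (𝔤.lr 𝔓 m ε) (𝔤.wr m).Et) (𝔤.Ar₀ 𝔓 m ε) := by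
  refine pvnh_A_reads (Λ := 𝔤.lr 𝔓 m ε) er eu Wr.rM ε _ ?_ ?_
  · exact Conf.readsSet_iff_reads.2 (pvth_rG hk _ _ (pvth_ne_zero (pvth_norm_of_pow hd)))
  · show Conf.ReadsSet ((pvthSim 0 1 '' 𝔤.Ou m) ×ˢ univ) (𝔤.Gu m ε)
    rw [pvyd_sim_zero]
    exact rGu

/-- all that the carried funnel `r` reads -/
theorem pvyd_r_win (𝔓 : PvrxPar τ cc) (𝔤 : PvydGeo τ) (c : Bool) (m : ℕ) (ε : ℝ) (w : ℂ) :
    (pvydKit (𝔤.kit m ε) c).O (w + (𝔓.Γ m).pin0) (𝔓.Γ m).din0 ∪ (pvthSim w 1 '' 𝔤.Ou m) ×ˢ univ ∪ (pvthSim w 1 '' pvnhKp (𝔤.lr 𝔓 m ε) (𝔤.wr m).Et) ×ˢ univ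
      = pvydE c w '' (pvnhRd (𝔤.lr 𝔓 m ε) (𝔤.wr m).Et) := by
  rw [← pvnh_rd, image_union, image_union, pvyd_E_image, pvyd_E_image, pvyd_E_image]
  show _ = (pvthSim w 1 '' (pvthSim (𝔓.Γ m).pin0 (𝔓.Γ m).din0 '' (𝔤.kit m ε).O₀)) ×ˢ univ ∪ (pvthSim w 1 '' (pvthSim 0 1 '' 𝔤.Ou m)) ×ˢ univ ∪ _
  rw [pvyd_sim_comp, pvyd_sim_zero]
  rfl

/-- the last door of the reference word, at the term -/
theorem pvyd_last (hδ : (𝔤.kit m ε).δ = (𝔓.Γ m).δ) (c : Bool) (z : ℂ) (t : τ) :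
    pvthZ ((pvydDat 𝔓 𝔤 c).kit m ε).δ (z + (𝔓.Γ m).pout t) ((𝔓.Γ m).dout t) ((𝔓.Γ m).l1 t) ((𝔓.Γ m).l1 t).length = pvydWu 𝔓 m z t + (𝔓.Γ m).pin0 ∧
      pvthD ((𝔓.Γ m).dout t) ((𝔓.Γ m).l1 t) ((𝔓.Γ m).l1 t).length = (𝔓.Γ m).din0 :=
  pvyp_door_ref (𝔓.Γ m) (δ := ((pvydDat 𝔓 𝔤 c).kit m ε).δ) hδ z t

theorem pvyd_last' (hδ : (𝔤.kit m ε).δ = (𝔓.Γ m).δ) (c : Bool) (z : ℂ) (t : τ) :
    pvthZ (pvydKit (𝔤.kit m ε) c).δ (z + (𝔓.Γ m).pout t) ((𝔓.Γ m).dout t) ((𝔓.Γ m).l1 t) ((𝔓.Γ m).l1 t).length = pvydWu 𝔓 m z t + (𝔓.Γ m).pin0 ∧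
      pvthD ((𝔓.Γ m).dout t) ((𝔓.Γ m).l1 t) ((𝔓.Γ m).l1 t).length = (𝔓.Γ m).din0 :=
  pvyp_door_ref (𝔓.Γ m) (δ := (pvydKit (𝔤.kit m ε) c).δ) hδ z t

theorem pvyd_din0 (d4 : ((𝔓.Γ m).dout t) ^ 4 = 1) : (𝔓.Γ m).din0 ^ 4 = 1 := by
  rw [← (𝔓.Γ m).l1_dir t]
  exact pvtDir_pow_four _ d4 _

/-- **what the cycle `t -o-> cells of l1 t -r-> u -e-> t` owes to the engine: regions, measurability, reading** (fixed mesh) -/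
theorem pvyd_for (hW : 𝔓.Wf) (hk : (𝔤.kit m ε).WF) (hδ : (𝔤.kit m ε).δ = (𝔓.Γ m).δ) (mOu : MeasurableSet (𝔤.Ou m)) (mGu : MeasurableSet (𝔤.Gu m ε))
    (rGu : Conf.ReadsSet (𝔤.Ou m ×ˢ univ) (𝔤.Gu m ε)) (d4 : ((𝔓.Γ m).dout t) ^ 4 = 1)
    (eo : (𝔤.eD c m ε false (z + (𝔓.Γ m).pout t) ((𝔓.Γ m).dout t)).Ok) (er : (𝔤.eD true m ε true (𝔓.Γ m).pin0 (𝔓.Γ m).din0).Ok) (eu0 : (𝔤.eU true m false 0).Ok)
    (eu1 : (𝔤.eU c m true (pvydWu 𝔓 m z t)).Ok) (go : (𝔤.lo 𝔓 c m ε z t).Geo) (gr : (𝔤.lr 𝔓 m ε).Geo) (ge : (𝔤.le 𝔓 c m z t).Geo)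
    (Wo : PvnhWin (𝔤.wo m z t).Et (𝔤.wo m z t).M) (Wr : PvnhWin (𝔤.wr m).Et (𝔤.wr m).M) (We : PvnhWin (𝔤.we m z t).Et (𝔤.we m z t).M)
    (dj : PvydDj (((𝔓.Γ m).l1 t).length + 3) (pvskList ((pvydDat 𝔓 𝔤 c).sOut m ε z t) ((pvydDat 𝔓 𝔤 c).kit m ε) (z + (𝔓.Γ m).pout t) ((𝔓.Γ m).dout t) ((𝔓.Γ m).l1 t)
      ((pvydDat 𝔓 𝔤 c).Kr m ε z t) ((pvydDat 𝔓 𝔤 c).Ar m ε z t) ((pvydDat 𝔓 𝔤 c).sRef m ε z t))) :
    PvskFor (pvP ε) ((pvydDat 𝔓 𝔤 c).sOut m ε z t) ((pvydDat 𝔓 𝔤 c).kit m ε) (z + (𝔓.Γ m).pout t) ((𝔓.Γ m).dout t) ((𝔓.Γ m).l1 t)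
      ((pvydDat 𝔓 𝔤 c).Kr m ε z t) ((pvydDat 𝔓 𝔤 c).Ar m ε z t) ((pvydDat 𝔓 𝔤 c).sRef m ε z t) where
  mOa := (pvyd_EP_ok hW m z t).mO.prod MeasurableSet.univ
  mKa := (pvnh_Kp_meas (Λ := 𝔤.lo 𝔓 c m ε z t) (pvyd_EP_ok hW m z t) eo Wo.mEt).prod MeasurableSet.univ
  mGa := (pvyd_G_meas hW m ε z t).nullMeasurableSet
  mAa := (pvnh_A_meas (Λ := 𝔤.lo 𝔓 c m ε z t) (pvyd_EP_ok hW m z t) eo go Wo.mM ε _ (pvyd_G_meas hW m ε z t) (pvyd_door_meas hk c _ _)).nullMeasurableSet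
  rGa := pvyd_G_reads hW m ε z t
  rAa := pvnh_A_reads' (Λ := 𝔤.lo 𝔓 c m ε z t) (pvyd_EP_ok hW m z t) eo Wo.rM ε _ (pvyd_G_reads hW m ε z t) (pvyd_door_reads hk c _ d4)
  mKf := (pvyd_sim_meas _ (pvnh_Kp_meas (Λ := 𝔤.lr 𝔓 m ε) er eu0 Wr.mEt)).prod MeasurableSet.univ
  mAf := (pvci_T_measurableSet (pvydE c (pvydWu 𝔓 m z t)) (pvyd_Ar₀_meas hk mGu er eu0 gr Wr)).nullMeasurableSet
  rAf := by
    rw [(pvyd_last hδ c z t).1, (pvyd_last hδ c z t).2]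
    have h1 := pvci_T_reads (pvydE c (pvydWu 𝔓 m z t)).toEquiv (Conf.readsSet_iff_reads.1 (pvyd_Ar₀_reads hk rGu (pvyd_din0 d4) er eu0 Wr))
    have h2 := pvyd_r_win 𝔓 𝔤 c m ε (pvydWu 𝔓 m z t)
    refine Conf.readsSet_iff_reads.2 ?_
    show Conf.Reads ((pvydKit (𝔤.kit m ε) c).O (pvydWu 𝔓 m z t + (𝔓.Γ m).pin0) (𝔓.Γ m).din0 ∪ (pvthSim (pvydWu 𝔓 m z t) 1 '' 𝔤.Ou m) ×ˢ univ ∪
      (pvthSim (pvydWu 𝔓 m z t) 1 '' pvnhKp (𝔤.lr 𝔓 m ε) (𝔤.wr m).Et) ×ˢ univ) _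
    rw [h2]
    exact h1
  mOc := (pvyd_sim_meas _ mOu).prod MeasurableSet.univ
  mKc := (pvnh_Kp_meas (Λ := 𝔤.le 𝔓 c m z t) eu1 (pvyd_EM_ok hW m z t) We.mEt).prod MeasurableSet.univ
  mGc := (pvyd_GU_meas mGu 𝔓 c z t).nullMeasurableSet
  mAc := (pvnh_A_meas (Λ := 𝔤.le 𝔓 c m z t) eu1 (pvyd_EM_ok hW m z t) ge We.mM ε _ (pvyd_GU_meas mGu 𝔓 c z t) (pvyd_G_meas hW m ε z t)).nullMeasurableSet
  rGc := pvyd_GU_reads rGu 𝔓 c z t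
  rAc := pvnh_A_reads' (Λ := 𝔤.le 𝔓 c m z t) eu1 (pvyd_EM_ok hW m z t) We.rM ε _ (pvyd_GU_reads rGu 𝔓 c z t) (pvyd_G_reads hW m ε z t)
  dOO := dj.dOO
  dKK := dj.dKK
  dOK := dj.dOK

/-- **the fields of the cycle** (fixed mesh) -/
theorem pvyd_forX (hW : 𝔓.Wf) (hδ : (𝔤.kit m ε).δ = (𝔓.Γ m).δ) (a : ℂ)
    (eo : (𝔤.eD c m ε false (z + (𝔓.Γ m).pout t) ((𝔓.Γ m).dout t)).Ok) (er : (𝔤.eD true m ε true (𝔓.Γ m).pin0 (𝔓.Γ m).din0).Ok) (eu0 : (𝔤.eU true m false 0).Ok)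
    (eu1 : (𝔤.eU c m true (pvydWu 𝔓 m z t)).Ok) (mXo : Measurable (𝔤.Xo m z t)) (mXr : Measurable (𝔤.Xr m)) (mXe : Measurable (𝔤.Xe m z t))
    (Wo : PvnhWin (𝔤.wo m z t).Et (𝔤.wo m z t).M) (Wr : PvnhWin (𝔤.wr m).Et (𝔤.wr m).M) (We : PvnhWin (𝔤.we m z t).Et (𝔤.we m z t).M) :
    PvskForFld (pvP ε) ((pvydDat 𝔓 𝔤 c).sOut m ε z t) ((pvydDat 𝔓 𝔤 c).kit m ε) (z + (𝔓.Γ m).pout t) ((𝔓.Γ m).dout t) ((𝔓.Γ m).l1 t)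
      ((pvydDat 𝔓 𝔤 c).Kr m ε z t) ((pvydDat 𝔓 𝔤 c).sRef m ε z t) ((pvydDat 𝔓 𝔤 c).Xo m ε a z t) ((pvydDat 𝔓 𝔤 c).Xr m ε a z t) ((pvydDat 𝔓 𝔤 c).Xe m ε a z t) where
  mXa := (pvnh_X_meas (Λ := 𝔤.lo 𝔓 c m ε z t) (pvyd_EP_ok hW m z t) eo Wo.mEt ε mXo).aemeasurable
  rXa := pvnh_X_reads (𝔤.lo 𝔓 c m ε z t) _ ε _
  mXf := (pvci_T_measurable (pvydE c (pvydWu 𝔓 m z t)) (pvnh_X_meas (Λ := 𝔤.lr 𝔓 m ε) er eu0 Wr.mEt ε mXr)).aemeasurable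
  rXf := by
    rw [(pvyd_last hδ c z t).1, (pvyd_last hδ c z t).2]
    have h1 := pvci_T_reads (pvydE c (pvydWu 𝔓 m z t)).toEquiv (pvpg_loc_reads (pvP ε) (pvnhRd (𝔤.lr 𝔓 m ε) (𝔤.wr m).Et) (𝔤.Xr m))
    have h2 := pvyd_r_win 𝔓 𝔤 c m ε (pvydWu 𝔓 m z t)
    show Conf.Reads ((pvydKit (𝔤.kit m ε) c).O (pvydWu 𝔓 m z t + (𝔓.Γ m).pin0) (𝔓.Γ m).din0 ∪ (pvthSim (pvydWu 𝔓 m z t) 1 '' 𝔤.Ou m) ×ˢ univ ∪
      (pvthSim (pvydWu 𝔓 m z t) 1 '' pvnhKp (𝔤.lr 𝔓 m ε) (𝔤.wr m).Et) ×ˢ univ) _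
    rw [h2]
    exact h1
  mXc := (pvnh_X_meas (Λ := 𝔤.le 𝔓 c m z t) eu1 (pvyd_EM_ok hW m z t) We.mEt ε mXe).aemeasurable
  rXc := pvnh_X_reads (𝔤.le 𝔓 c m z t) _ ε _

/-- the carried funnel `r` is forced, POINTWISE -/
theorem pvyd_r_forced (hk : (𝔤.kit m ε).WF) (rGu : Conf.ReadsSet (𝔤.Ou m ×ˢ univ) (𝔤.Gu m ε)) (hd : (𝔓.Γ m).din0 ^ 4 = 1) (q1 : 𝔤.qr m ≤ 1) (c : Bool) (z : ℂ) (t : τ) {σ : Conf PvPt}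
    (h1 : σ ∈ (pvydKit (𝔤.kit m ε) c).G (pvydWu 𝔓 m z t + (𝔓.Γ m).pin0) (𝔓.Γ m).din0) (h2 : σ ∈ 𝔤.GU 𝔓 c m ε z t) :
    𝔤.qr m ≤ pvtiP (pvP ε) ((pvydKit (𝔤.kit m ε) c).O (pvydWu 𝔓 m z t + (𝔓.Γ m).pin0) (𝔓.Γ m).din0 ∪ (pvthSim (pvydWu 𝔓 m z t) 1 '' 𝔤.Ou m) ×ˢ univ)
      (Conf.image (pvydE c (pvydWu 𝔓 m z t)).toEquiv.symm ⁻¹' 𝔤.Ar₀ 𝔓 m ε) σ := by
  have e : (pvydKit (𝔤.kit m ε) c).O (pvydWu 𝔓 m z t + (𝔓.Γ m).pin0) (𝔓.Γ m).din0 ∪ (pvthSim (pvydWu 𝔓 m z t) 1 '' 𝔤.Ou m) ×ˢ univ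
      = pvydE c (pvydWu 𝔓 m z t) '' (𝔤.lr 𝔓 m ε).OO := by
    show _ = pvydE c (pvydWu 𝔓 m z t) '' ((pvthSim (𝔓.Γ m).pin0 (𝔓.Γ m).din0 '' (𝔤.kit m ε).O₀) ×ˢ univ ∪ (pvthSim 0 1 '' 𝔤.Ou m) ×ˢ univ)
    rw [image_union, pvyd_E_image, pvyd_E_image, pvyd_sim_comp, pvyd_sim_zero]
    rfl
  rw [e, pvci_P_T (pvydE c (pvydWu 𝔓 m z t)) (pvyd_law c _ ε)]
  rw [pvyd_kit_G_E] at h1
  refine pvnh_A_forced (Λ := 𝔤.lr 𝔓 m ε) _ ε q1 ?_ ?_ h1 h2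
  · exact Conf.readsSet_iff_reads.2 (pvth_rG hk _ _ (pvth_ne_zero (pvth_norm_of_pow hd)))
  · show Conf.ReadsSet ((pvthSim 0 1 '' 𝔤.Ou m) ×ˢ univ) (𝔤.Gu m ε)
    rw [pvyd_sim_zero]
    exact rGu

/-- **admission and forcing along the cycle: FREE** (fixed mesh) -/
theorem pvyd_frc1 {β' qk : ℝ≥0∞} (hW : 𝔓.Wf) (hk : (𝔤.kit m ε).WF) (hδ : (𝔤.kit m ε).δ = (𝔓.Γ m).δ) (hF : (𝔤.kit m ε).Forced (pvP ε) β' qk) (hqk : qk ≤ 1)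
    (rGu : Conf.ReadsSet (𝔤.Ou m ×ˢ univ) (𝔤.Gu m ε)) (hGu : pvP ε (𝔤.Gu m ε) ≠ 0) (d4 : ((𝔓.Γ m).dout t) ^ 4 = 1)
    (qo0 : 𝔤.qo m ≠ 0) (qo1 : 𝔤.qo m ≤ 1) (qr0 : 𝔤.qr m ≠ 0) (qr1 : 𝔤.qr m ≤ 1) (qe0 : 𝔤.qe ≠ 0) (qe1 : 𝔤.qe ≤ 1) :
    PvsyCycForced (pvP ε) (((𝔓.Γ m).l1 t).length + 3)
      (pvskList ((pvydDat 𝔓 𝔤 c).sOut m ε z t) ((pvydDat 𝔓 𝔤 c).kit m ε) (z + (𝔓.Γ m).pout t) ((𝔓.Γ m).dout t) ((𝔓.Γ m).l1 t)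
        ((pvydDat 𝔓 𝔤 c).Kr m ε z t) ((pvydDat 𝔓 𝔤 c).Ar m ε z t) ((pvydDat 𝔓 𝔤 c).sRef m ε z t))
      (Finset.Ioo 0 (((𝔓.Γ m).l1 t).length + 3)) (Finset.range (((𝔓.Γ m).l1 t).length + 3)) (pvskQ (𝔤.qo m) qk (𝔤.qr m) 𝔤.qe ((𝔓.Γ m).l1 t).length) := by
  refine pvsk_forced (pvyd_kit_forced c hF) hqk d4 (by simp) (fun _ => ?_) qo0 qo1 (Eventually.of_forall fun σ h1 h2 => ?_) qr0 qr1 (Eventually.of_forall fun σ h1 h2 => ?_)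
    (fun _ => ⟨qe0, qe1, Eventually.of_forall fun σ h1 h2 => ?_⟩)
  · show pvP ε (𝔤.GU 𝔓 c m ε z t) ≠ 0
    rw [pvyd_GU_measure]
    exact hGu
  · exact pvnh_A_forced (Λ := 𝔤.lo 𝔓 c m ε z t) _ ε qo1 (pvyd_G_reads hW m ε z t) (pvyd_door_reads hk c _ d4) h1 h2
  · rw [(pvyd_last' hδ c z t).1, (pvyd_last' hδ c z t).2] at h1 ⊢
    exact pvyd_r_forced hk rGu (pvyd_din0 d4) qr1 c z t h1 h2
  · exact pvnh_A_forced (Λ := 𝔤.le 𝔓 c m z t) _ ε qe1 (pvyd_GU_reads rGu 𝔓 c z t) (pvyd_G_reads hW m ε z t) h1 h2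

theorem pvyd_two {P : ℕ → Prop} (h0 : P 0) (h1 : P 1) : ∀ j < 2, P j := by
  intro j hj
  interval_cases j
  · exact h0
  · exact h1

/-- **the short cycle `t -b-> u -e-> t`: regions, measurability, reading** (fixed mesh) -/
theorem pvyd_wf2 (hW : 𝔓.Wf) (mOu : MeasurableSet (𝔤.Ou m)) (mGu : MeasurableSet (𝔤.Gu m ε)) (rGu : Conf.ReadsSet (𝔤.Ou m ×ˢ univ) (𝔤.Gu m ε))
    (eu1 : (𝔤.eU c m true (pvydWu 𝔓 m z t)).Ok) (eu2 : (𝔤.eU c m false (pvydWu 𝔓 m z t)).Ok) (ge : (𝔤.le 𝔓 c m z t).Geo) (gb : (𝔤.lb 𝔓 c m z t).Geo)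
    (We : PvnhWin (𝔤.we m z t).Et (𝔤.we m z t).M) (Wb : PvnhWin (𝔤.wb m z t).Et (𝔤.wb m z t).M)
    (dj : PvydDj 2 ((pvydDat 𝔓 𝔤 c).cyc2 m ε z t)) : PvsyCycWF (pvP ε) 2 ((pvydDat 𝔓 𝔤 c).cyc2 m ε z t) where
  two := le_rfl
  mO := pvyd_two ((pvyd_EP_ok hW m z t).mO.prod MeasurableSet.univ) ((pvyd_sim_meas _ mOu).prod MeasurableSet.univ)
  mK := pvyd_two ((pvnh_Kp_meas (Λ := 𝔤.lb 𝔓 c m z t) (pvyd_EP_ok hW m z t) eu2 Wb.mEt).prod MeasurableSet.univ)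
    ((pvnh_Kp_meas (Λ := 𝔤.le 𝔓 c m z t) eu1 (pvyd_EM_ok hW m z t) We.mEt).prod MeasurableSet.univ)
  mG := pvyd_two (pvyd_G_meas hW m ε z t).nullMeasurableSet (pvyd_GU_meas mGu 𝔓 c z t).nullMeasurableSet
  mA := pvyd_two (pvnh_A_meas (Λ := 𝔤.lb 𝔓 c m z t) (pvyd_EP_ok hW m z t) eu2 gb Wb.mM ε _ (pvyd_G_meas hW m ε z t) (pvyd_GU_meas mGu 𝔓 c z t)).nullMeasurableSet
    (pvnh_A_meas (Λ := 𝔤.le 𝔓 c m z t) eu1 (pvyd_EM_ok hW m z t) ge We.mM ε _ (pvyd_GU_meas mGu 𝔓 c z t) (pvyd_G_meas hW m ε z t)).nullMeasurableSet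
  dOO := dj.dOO
  dKK := dj.dKK
  dOK := dj.dOK
  rG := pvyd_two (pvyd_G_reads hW m ε z t) (pvyd_GU_reads rGu 𝔓 c z t)
  rA := pvyd_two (pvnh_A_reads' (Λ := 𝔤.lb 𝔓 c m z t) (pvyd_EP_ok hW m z t) eu2 Wb.rM ε _ (pvyd_G_reads hW m ε z t) (pvyd_GU_reads rGu 𝔓 c z t))
    (pvnh_A_reads' (Λ := 𝔤.le 𝔓 c m z t) eu1 (pvyd_EM_ok hW m z t) We.rM ε _ (pvyd_GU_reads rGu 𝔓 c z t) (pvyd_G_reads hW m ε z t))

theorem pvyd_fld2 (hW : 𝔓.Wf) (a : ℂ) (eu1 : (𝔤.eU c m true (pvydWu 𝔓 m z t)).Ok) (eu2 : (𝔤.eU c m false (pvydWu 𝔓 m z t)).Ok)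
    (mXe : Measurable (𝔤.Xe m z t)) (mXb : Measurable (𝔤.Xb m z t)) (We : PvnhWin (𝔤.we m z t).Et (𝔤.we m z t).M) (Wb : PvnhWin (𝔤.wb m z t).Et (𝔤.wb m z t).M) :
    PvsyCycFld (pvP ε) 2 ((pvydDat 𝔓 𝔤 c).cyc2 m ε z t) ((pvydDat 𝔓 𝔤 c).fld2 m ε a z t) where
  meas := pvyd_two (pvnh_X_meas (Λ := 𝔤.lb 𝔓 c m z t) (pvyd_EP_ok hW m z t) eu2 Wb.mEt ε mXb).aemeasurable
    (pvnh_X_meas (Λ := 𝔤.le 𝔓 c m z t) eu1 (pvyd_EM_ok hW m z t) We.mEt ε mXe).aemeasurable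
  reads := pvyd_two (pvnh_X_reads (𝔤.lb 𝔓 c m z t) _ ε _) (pvnh_X_reads (𝔤.le 𝔓 c m z t) _ ε _)

/-- **admission and forcing along the short cycle: FREE** -/
theorem pvyd_frc2 (hW : 𝔓.Wf) (rGu : Conf.ReadsSet (𝔤.Ou m ×ˢ univ) (𝔤.Gu m ε)) (hGu : pvP ε (𝔤.Gu m ε) ≠ 0)
    (qe0 : 𝔤.qe ≠ 0) (qe1 : 𝔤.qe ≤ 1) (qb0 : 𝔤.qb ≠ 0) (qb1 : 𝔤.qb ≤ 1) :
    PvsyCycForced (pvP ε) 2 ((pvydDat 𝔓 𝔤 c).cyc2 m ε z t) (Finset.Ioo 0 2) (Finset.range 2) (pvypQ2 𝔤.qb 𝔤.qe) where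
  G_pos := fun j hj hj2 => by
    have : j = 1 := by
      rw [Finset.mem_Ioo] at hj
      omega
    subst this
    show pvP ε (𝔤.GU 𝔓 c m ε z t) ≠ 0
    rw [pvyd_GU_measure]
    exact hGu
  q_pos := fun j _ hj => pvyd_two (P := fun j => pvypQ2 𝔤.qb 𝔤.qe j ≠ 0) qb0 qe0 j hj
  q_le := fun j _ hj => pvyd_two (P := fun j => pvypQ2 𝔤.qb 𝔤.qe j ≤ 1) qb1 qe1 j hj
  frc := fun j _ hj => pvyd_two (P := fun j => ∀ᵐ σ ∂(pvP ε), σ ∈ ((pvydDat 𝔓 𝔤 c).cyc2 m ε z t j).G → σ ∈ ((pvydDat 𝔓 𝔤 c).cyc2 m ε z t ((j + 1) % 2)).G →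
      pvypQ2 𝔤.qb 𝔤.qe j ≤ pvtiP (pvP ε) (((pvydDat 𝔓 𝔤 c).cyc2 m ε z t j).O ∪ ((pvydDat 𝔓 𝔤 c).cyc2 m ε z t ((j + 1) % 2)).O) ((pvydDat 𝔓 𝔤 c).cyc2 m ε z t j).A σ)
    (Eventually.of_forall fun σ h1 h2 => pvnh_A_forced (Λ := 𝔤.lb 𝔓 c m z t) _ ε qb1 (pvyd_G_reads hW m ε z t) (pvyd_GU_reads rGu 𝔓 c z t) h1 h2)
    (Eventually.of_forall fun σ h1 h2 => pvnh_A_forced (Λ := 𝔤.le 𝔓 c m z t) _ ε qe1 (pvyd_GU_reads rGu 𝔓 c z t) (pvyd_G_reads hW m ε z t) h1 h2) j hj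

end parts

/-! ## 9. the two records of `Tr/SysP` at the term -/

section roof

variable {τ : Type} {cc : ℝ} (𝔓 : PvrxPar τ cc) (𝔤 : PvydGeo τ)

/-- the list of the cycle   `t -o-> cells of l1 t -r-> u -e-> t`   at the term (colour of the type) -/
noncomputable def pvydL1 (m : ℕ) (ε : ℝ) (z : ℂ) (t : τ) : ℕ → PvsySec PvPt :=
  pvskList ((pvydDat 𝔓 𝔤 (𝔓.ty m z t).col).sOut m ε z t) ((pvydDat 𝔓 𝔤 (𝔓.ty m z t).col).kit m ε) (z + (𝔓.Γ m).pout t) ((𝔓.Γ m).dout t) ((𝔓.Γ m).l1 t)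
    ((pvydDat 𝔓 𝔤 (𝔓.ty m z t).col).Kr m ε z t) ((pvydDat 𝔓 𝔤 (𝔓.ty m z t).col).Ar m ε z t) ((pvydDat 𝔓 𝔤 (𝔓.ty m z t).col).sRef m ε z t)

/-- its fields (`Q` alone) -/
noncomputable def pvydF1 (m : ℕ) (ε : ℝ) (z : ℂ) (t : τ) : ℕ → Conf PvPt → ℂ :=
  pvskFld ((pvydDat 𝔓 𝔤 (𝔓.ty m z t).col).Xo m ε 0 z t) ((pvydDat 𝔓 𝔤 (𝔓.ty m z t).col).kit m ε) ((pvydDat 𝔓 𝔤 (𝔓.ty m z t).col).X₀ m ε 0) (z + (𝔓.Γ m).pout t) ((𝔓.Γ m).dout t)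
    ((𝔓.Γ m).l1 t) ((pvydDat 𝔓 𝔤 (𝔓.ty m z t).col).Xr m ε 0 z t) ((pvydDat 𝔓 𝔤 (𝔓.ty m z t).col).Xe m ε 0 z t)

/-- the event of the cycle: the state of `t` is usable, all the inner plugs are usable, all the connectors succeed -/
noncomputable def pvydEv1 (m : ℕ) (ε : ℝ) (z : ℂ) (t : τ) : Set (Conf PvPt) :=
  pvydG 𝔓 m ε z t ∩ pvsyEv (((𝔓.Γ m).l1 t).length + 3) (pvydL1 𝔓 𝔤 m ε z t) (Finset.Ioo 0 (((𝔓.Γ m).l1 t).length + 3)) (Finset.range (((𝔓.Γ m).l1 t).length + 3))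

/-- the event of the short cycle -/
noncomputable def pvydEv2 (m : ℕ) (ε : ℝ) (z : ℂ) (t : τ) : Set (Conf PvPt) :=
  pvydG 𝔓 m ε z t ∩ pvsyEv 2 ((pvydDat 𝔓 𝔤 (𝔓.ty m z t).col).cyc2 m ε z t) (Finset.Ioo 0 2) (Finset.range 2)

/-- **[FIN]** integrability of the fields on the event of the cycle      [183 `pvyt_fin_of_count`; 113] -/
def PvydFin (m : ℕ) (z : ℂ) (t : τ) : Prop :=
  ∀ᶠ ε in 𝓝[>] (0 : ℝ), ∀ j < ((𝔓.Γ m).l1 t).length + 3, ∫⁻ η in pvydEv1 𝔓 𝔤 m ε z t, ‖pvydF1 𝔓 𝔤 m ε z t j η‖ₑ ∂(pvP ε) ≠ ∞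

/-- **[TAIL]** = CLOSE-P + I.TAIL: the closed sum of the cycle is small      [95 113 43] -/
def PvydTail (m : ℕ) (z : ℂ) (t : τ) : Prop :=
  Tendsto (fun ε => ∫⁻ η in pvydEv1 𝔓 𝔤 m ε z t, ‖∑ j ∈ Finset.range (((𝔓.Γ m).l1 t).length + 3), pvydF1 𝔓 𝔤 m ε z t j η‖ₑ ^ 2 ∂(pvP ε)) (𝓝[>] (0 : ℝ)) (𝓝 0)

/-- **[BES]** = CLOSE-P with the deterministic mask of the thick link + I.BES      [95 113 223 181 43] -/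
def PvydBes (CB : ℝ≥0∞) (m : ℕ) (z : ℂ) (t : τ) : Prop :=
  ∀ᶠ ε in 𝓝[>] (0 : ℝ), ∫⁻ η in pvydEv2 𝔓 𝔤 m ε z t, ‖(pvydDat 𝔓 𝔤 (𝔓.ty m z t).col).Xe m ε 0 z t η‖ₑ ^ 2 ∂(pvP ε) ≤ CB * ENNReal.ofReal (pvlmH m ^ 2)

theorem pvyd_eqns_cite3 : True := by
  have := @pvydL1.eq_1; have := @pvydF1.eq_1; have := @pvydEv1.eq_1; have := @pvydEv2.eq_1; have := @PvydFin.eq_1; have := @PvydTail.eq_1; have := @PvydBes.eq_1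
  trivial

variable {𝔓 𝔤} {m : ℕ} {z : ℂ} {t : τ} {β' qk βu CB : ℝ≥0∞}

/-- **`PvypCyc` AT THE TERM**   ⟸   `𝔓.Wf` + contracts + admission of the reference plug + [FIN] + [TAIL] -/
theorem pvyd_cyc (hW : 𝔓.Wf) (hK : 𝔤.KitOk 𝔓 m β' qk) (hC : 𝔤.CandOk 𝔓 m z t) (qe0 : 𝔤.qe ≠ 0) (qe1 : 𝔤.qe ≤ 1) (βu0 : βu ≠ 0)
    (adm : ∀ᶠ ε in 𝓝[>] (0 : ℝ), βu ≤ pvP ε (𝔤.Gu m ε)) (fin : PvydFin 𝔓 𝔤 m z t) (tail : PvydTail 𝔓 𝔤 m z t) :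
    PvypCyc (pvydDat 𝔓 𝔤 (𝔓.ty m z t).col) 𝔓.Γ (fun ε => (𝔤.kit m ε).W (pvP ε) (𝔤.X₀ m ε)) (𝔤.kin00 𝔓 m) 0 m z t where
  d4 := hC.d4o
  del := hK.del
  W_eq := Eventually.of_forall fun ε => (pvyd_W _ (𝔤.kit m ε) ε (𝔤.X₀ m ε)).symm
  kin0_eq := Eventually.of_forall fun ε => pvyd_kref 𝔓 𝔤 _ m ε 0 z t
  wf := hK.wf.mono fun ε h => pvyd_kit_wf _ h
  fld := hK.fld.mono fun ε h => pvyd_kit_fld _ h
  for_ := by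
    filter_upwards [hK.wf, hK.del, hK.mGu, hK.rGu, hK.en_ok (𝔓.ty m z t).col false _ _ hC.d4o, hK.en_ok true true _ _ (pvyd_din0 hC.d4o), hC.o_geo, hK.r_geo, hC.dj1]
      with ε h1 h2 h3 h4 h5 h6 h7 h8 h9
    exact pvyd_for hW h1 h2 hK.mOu h3 h4 hC.d4o h5 h6 (hK.eu_ok _ _ _) (hK.eu_ok _ _ _) h7 h8 hC.e_geo hC.o_win hK.r_win hC.e_win h9
  forX := by
    filter_upwards [hK.del, hK.en_ok (𝔓.ty m z t).col false _ _ hC.d4o, hK.en_ok true true _ _ (pvyd_din0 hC.d4o)] with ε h2 h5 h6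
    exact pvyd_forX hW h2 0 h5 h6 (hK.eu_ok _ _ _) (hK.eu_ok _ _ _) hC.mXo hK.mXr hC.mXe hC.o_win hK.r_win hC.e_win
  frc := by
    obtain ⟨ε₀, hε₀⟩ := hK.frc.exists
    refine ⟨β', βu, 𝔤.qo m, qk, 𝔤.qr m, 𝔤.qe, hε₀.β0, βu0, hK.qo0, hε₀.q0, hK.qr0, qe0, ?_, ?_, ?_⟩
    · exact hK.frc.mono fun ε h => (pvyd_kit_forced (𝔓.ty m z t).col h).adm
    · filter_upwards [adm] with ε h
      show βu ≤ pvP ε (𝔤.GU 𝔓 _ m ε z t)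
      rw [pvyd_GU_measure]
      exact h
    · filter_upwards [hK.wf, hK.del, hK.frc, hK.rGu, adm] with ε h1 h2 h3 h4 h5
      exact pvyd_frc1 hW h1 h2 h3 hK.qk1 h4 (fun h0 => βu0 (le_antisymm (h0 ▸ h5) zero_le)) hC.d4o hK.qo0 hK.qo1 hK.qr0 hK.qr1 qe0 qe1
  fin := fin
  tail := tail

/-- **`PvypThk` AT THE TERM**   ⟸   `𝔓.Wf` + contracts + admission of the reference plug + [BES] -/
theorem pvyd_thk (hW : 𝔓.Wf) (hK : 𝔤.KitOk 𝔓 m β' qk) (hC : 𝔤.CandOk 𝔓 m z t) (qe0 : 𝔤.qe ≠ 0) (qe1 : 𝔤.qe ≤ 1) (qb0 : 𝔤.qb ≠ 0) (qb1 : 𝔤.qb ≤ 1) (βu0 : βu ≠ 0)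
    (adm : ∀ᶠ ε in 𝓝[>] (0 : ℝ), βu ≤ pvP ε (𝔤.Gu m ε)) (bes : PvydBes 𝔓 𝔤 CB m z t) :
    PvypThk (pvydDat 𝔓 𝔤 (𝔓.ty m z t).col) (pvlmH m) βu 𝔤.qb 𝔤.qe CB 0 m z t where
  wf := by
    filter_upwards [hK.mGu, hK.rGu, hC.dj2] with ε h3 h4 h9
    exact pvyd_wf2 hW hK.mOu h3 h4 (hK.eu_ok _ _ _) (hK.eu_ok _ _ _) hC.e_geo hC.b_geo hC.e_win hC.b_win h9
  fld := Eventually.of_forall fun ε => pvyd_fld2 hW 0 (hK.eu_ok _ _ _) (hK.eu_ok _ _ _) hC.mXe hC.mXb hC.e_win hC.b_win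
  frc := by
    filter_upwards [hK.rGu, adm] with ε h4 h5
    exact pvyd_frc2 hW h4 (fun h0 => βu0 (le_antisymm (h0 ▸ h5) zero_le)) qe0 qe1 qb0 qb1
  adm := by
    filter_upwards [adm] with ε h
    show βu ≤ pvP ε (𝔤.GU 𝔓 _ m ε z t)
    rw [pvyd_GU_measure]
    exact h
  bes := bes

end roof

/-! ## 10. the contract of (P-S3) at the term -/

section top

variable {τ : Type} {cc : ℝ} (𝔓 : PvrxPar τ cc) (𝔤 : PvydGeo τ)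

/-- **ALL THAT (P-S3) OWES AT THE TERM**      (P10: the candidates which are SWITCHED ON only: `𝔓.On m z t` = `𝔓.m0 ≤ m` and BLACK type) -/
structure PvydAll (βu CB : ℝ≥0∞) (CA : ℝ) : Prop where
  /-- [34 52 294 (kit, ends), 1 114 (`r_geo`)] -/
  kit : ∀ m, 𝔓.m0 ≤ m → ∃ β' qk : ℝ≥0∞, 𝔤.KitOk 𝔓 m β' qk
  /-- [`Tr/LinkGeo`: 1 114 138;  masses 113 34] -/
  cand : ∀ (m : ℕ) (p : ℤ × ℤ) (t : τ), 𝔓.On m (l9Pt (pvlmH m) p) t → 𝔤.CandOk 𝔓 m (l9Pt (pvlmH m) p) t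
  qe0 : 𝔤.qe ≠ 0
  qe1 : 𝔤.qe ≤ 1
  qb0 : 𝔤.qb ≠ 0
  qb1 : 𝔤.qb ≤ 1
  βu0 : βu ≠ 0
  /-- [P18 = ADM: 127 140 224], UNIFORM in the level -/
  adm : ∀ m, 𝔓.m0 ≤ m → ∀ᶠ ε in 𝓝[>] (0 : ℝ), βu ≤ pvP ε (𝔤.Gu m ε)
  fin : ∀ (m : ℕ) (p : ℤ × ℤ) (t : τ), 𝔓.On m (l9Pt (pvlmH m) p) t → PvydFin 𝔓 𝔤 m (l9Pt (pvlmH m) p) t
  tail : ∀ (m : ℕ) (p : ℤ × ℤ) (t : τ), 𝔓.On m (l9Pt (pvlmH m) p) t → PvydTail 𝔓 𝔤 m (l9Pt (pvlmH m) p) t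
  bes : ∀ (m : ℕ) (p : ℤ × ℤ) (t : τ), 𝔓.On m (l9Pt (pvlmH m) p) t → PvydBes 𝔓 𝔤 CB m (l9Pt (pvlmH m) p) t
  /-- the numbers [34 259 52] -/
  a_bdd : ∀ m, ∀ᶠ ε in 𝓝[>] (0 : ℝ), ‖(𝔓.Γ m).a ((𝔤.kit m ε).W (pvP ε) (𝔤.X₀ m ε))‖ ≤ CA
  rel_lim : ∀ m, Tendsto (fun ε => ((𝔤.kit m ε).W (pvP ε) (𝔤.X₀ m ε)).rel) (𝓝[>] (0 : ℝ)) (𝓝 0)

variable {𝔓 𝔤} {βu CB : ℝ≥0∞} {CA : ℝ}

/-- the numbers at the term -/
noncomputable def pvydNum (H : PvydAll 𝔓 𝔤 βu CB CA) : PvyaNum 𝔓 where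
  W := fun m ε => (𝔤.kit m ε).W (pvP ε) (𝔤.X₀ m ε)
  kin00 := 𝔤.kin00 𝔓
  CA := CA
  a_bdd := H.a_bdd
  rel_lim := H.rel_lim

theorem pvyd_eqns_cite4 : True := by
  have := @pvydNum.eq_1
  trivial

theorem pvyd_G_sub (𝔓 : PvrxPar τ cc) (m : ℕ) (ε : ℝ) (z : ℂ) (t : τ) : 𝔓.G m ε z t ⊆ pvydG 𝔓 m ε z t :=
  fun _ h => pvsp_Gq_sub_G _ _ _ _ _ _ h.2

theorem pvyd_O_sub (hW : 𝔓.Wf) (m : ℕ) (z : ℂ) (t : τ) : pvspO 𝔓.mod.N (𝔓.ty m z t) z (pvlmH m) ×ˢ (univ : Set Bool) ⊆ 𝔓.Rg m z :=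
  fun _ hp => hW.Ep_sub m z t ((hW.ty_wf m z t).O_p hp.1)

/-- **THE CONTRACT OF (P-S3) AT THE TERM** -/
theorem pvyd_ok (hW : 𝔓.Wf) (H : PvydAll 𝔓 𝔤 βu CB CA) {Ce0 : ℝ} (hCe : βu⁻¹ * (𝔤.qb⁻¹ * 𝔤.qe⁻¹) * CB ≤ ENNReal.ofReal Ce0) :
    PvyaOk (pvydDat 𝔓 𝔤) (pvydNum H) βu 𝔤.qb 𝔤.qe CB Ce0 where
  G_sub := fun m _ ε z t => pvyd_G_sub 𝔓 m ε z t
  O_sub := fun _ m _ z t => pvyd_O_sub hW m z t
  cyc := fun m p t hm => by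
    obtain ⟨β', qk, hK⟩ := H.kit m hm.1
    exact pvyd_cyc hW hK (H.cand m p t hm) H.qe0 H.qe1 H.βu0 (H.adm m hm.1) (H.fin m p t hm) (H.tail m p t hm)
  thk := fun m p t hm => by
    obtain ⟨β', qk, hK⟩ := H.kit m hm.1
    exact pvyd_thk hW hK (H.cand m p t hm) H.qe0 H.qe1 H.qb0 H.qb1 H.βu0 (H.adm m hm.1) (H.bes m p t hm)
  Ce := hCe

end top

/-! ## 11. two bridges -/

section bridge

/-- the soft localisation of a function which is read in the window is the function itself -/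
theorem pvyd_loc_of_reads {μ : Measure (Conf PvPt)} [IsProbabilityMeasure μ] {W W' : Set PvPt} {F : Conf PvPt → ℂ} (h : Conf.Reads W' F) (hW : W' ⊆ W) : pvpgLoc μ W F = F := by
  funext σ
  unfold pvpgLoc
  have e : ∀ ξ, F (Conf.spl W (σ, ξ)) = F σ := fun ξ => by
    refine (h.mono hW).eq_of_restr ?_
    exact pvi_restr_splice W σ ξ
  simp only [e, integral_const]
  simp

variable {τ : Type} {cc : ℝ} {𝔓 : PvrxPar τ cc} {𝔤 : PvydGeo τ}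

/-- **the numbers and the kit fields of the contracts from ONE family of 52** (`PvcnFamQ`; at the model `PvkmUnitQ.fam` of `Tr/BuNum.lean`: all levels by scaling of a unit family) -/
theorem pvyd_of_fam (F : PvcnFamQ (fun m => (𝔓.Γ m).δ)) (hk : 𝔤.kit = F.kit) (hX : 𝔤.X₀ = F.XQ) :
    (∀ m, ∀ᶠ ε in 𝓝[>] (0 : ℝ), (𝔤.kit m ε).WF) ∧ (∀ m, ∀ᶠ ε in 𝓝[>] (0 : ℝ), (𝔤.kit m ε).Fld (𝔤.X₀ m ε)) ∧ (∀ m, ∀ᶠ ε in 𝓝[>] (0 : ℝ), (𝔤.kit m ε).δ = (𝔓.Γ m).δ) ∧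
    (∀ m, ∀ᶠ ε in 𝓝[>] (0 : ℝ), (𝔤.kit m ε).Forced (pvP ε) F.β' F.q) ∧
    (∀ m, ∀ᶠ ε in 𝓝[>] (0 : ℝ), ‖(𝔓.Γ m).a ((𝔤.kit m ε).W (pvP ε) (𝔤.X₀ m ε))‖ ≤ F.CA) ∧
    (∀ m, Tendsto (fun ε => ((𝔤.kit m ε).W (pvP ε) (𝔤.X₀ m ε)).rel) (𝓝[>] (0 : ℝ)) (𝓝 0)) := by
  rw [hk, hX]
  exact ⟨fun m => (F.ok m).mono fun _ h => h.wf, fun m => (F.ok m).mono fun _ h => h.fQ, fun m => Eventually.of_forall fun ε => F.kδ m ε,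
    fun m => (F.ok m).mono fun _ h => h.frc, F.a_bdd, F.rel_lim⟩

end bridge

/-! ## 12. [FIN] [TAIL] [BES] from CLOSE-P (95, `Tr/CycP.lean`) -/

section close

variable {τ : Type} {cc : ℝ} {𝔓 : PvrxPar τ cc} {𝔤 : PvydGeo τ} {m : ℕ} {z : ℂ} {t : τ} {β' qk : ℝ≥0∞}

theorem pvyd_for_ev (hW : 𝔓.Wf) (hK : 𝔤.KitOk 𝔓 m β' qk) (hC : 𝔤.CandOk 𝔓 m z t) :
    ∀ᶠ ε in 𝓝[>] (0 : ℝ), PvskFor (pvP ε) ((pvydDat 𝔓 𝔤 (𝔓.ty m z t).col).sOut m ε z t) ((pvydDat 𝔓 𝔤 (𝔓.ty m z t).col).kit m ε) (z + (𝔓.Γ m).pout t) ((𝔓.Γ m).dout t) ((𝔓.Γ m).l1 t)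
      ((pvydDat 𝔓 𝔤 (𝔓.ty m z t).col).Kr m ε z t) ((pvydDat 𝔓 𝔤 (𝔓.ty m z t).col).Ar m ε z t) ((pvydDat 𝔓 𝔤 (𝔓.ty m z t).col).sRef m ε z t) := by
  filter_upwards [hK.wf, hK.del, hK.mGu, hK.rGu, hK.en_ok (𝔓.ty m z t).col false _ _ hC.d4o, hK.en_ok true true _ _ (pvyd_din0 hC.d4o), hC.o_geo, hK.r_geo, hC.dj1]
    with ε h1 h2 h3 h4 h5 h6 h7 h8 h9
  exact pvyd_for hW h1 h2 hK.mOu h3 h4 hC.d4o h5 h6 (hK.eu_ok _ _ _) (hK.eu_ok _ _ _) h7 h8 hC.e_geo hC.o_win hK.r_win hC.e_win h9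

theorem pvyd_wf2_ev (hW : 𝔓.Wf) (hK : 𝔤.KitOk 𝔓 m β' qk) (hC : 𝔤.CandOk 𝔓 m z t) :
    ∀ᶠ ε in 𝓝[>] (0 : ℝ), PvsyCycWF (pvP ε) 2 ((pvydDat 𝔓 𝔤 (𝔓.ty m z t).col).cyc2 m ε z t) := by
  filter_upwards [hK.mGu, hK.rGu, hC.dj2] with ε h3 h4 h9
  exact pvyd_wf2 hW hK.mOu h3 h4 (hK.eu_ok _ _ _) (hK.eu_ok _ _ _) hC.e_geo hC.b_geo hC.e_win hC.b_win h9

/-- **[TAIL]** from CLOSE-P on the long cycle -/
theorem pvyd_tail_of_close (hW : 𝔓.Wf) (hK : 𝔤.KitOk 𝔓 m β' qk) (hC : 𝔤.CandOk 𝔓 m z t) {Mk : ℝ → ℕ → Set ℂ} {B : Set ℂ} {a₀ : ℝ}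
    (h : PvcpClose1 (pvydDat 𝔓 𝔤 (𝔓.ty m z t).col) 𝔓.Γ 0 m z t Mk B a₀) : PvydTail 𝔓 𝔤 m z t :=
  pvcp_tail h hC.d4o (hK.wf.mono fun _ h => pvyd_kit_wf _ h) (pvyd_for_ev hW hK hC)

/-- **[FIN]** from CLOSE-P on the long cycle -/
theorem pvyd_fin_of_close (hW : 𝔓.Wf) (hK : 𝔤.KitOk 𝔓 m β' qk) (hC : 𝔤.CandOk 𝔓 m z t) {Mk : ℝ → ℕ → Set ℂ} {B : Set ℂ} {a₀ : ℝ}
    (h : PvcpClose1 (pvydDat 𝔓 𝔤 (𝔓.ty m z t).col) 𝔓.Γ 0 m z t Mk B a₀) : PvydFin 𝔓 𝔤 m z t :=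
  pvcp_fin h hC.d4o (hK.wf.mono fun _ h => pvyd_kit_wf _ h) (pvyd_for_ev hW hK hC)

/-- **[BES]** from CLOSE-P on the short cycle -/
theorem pvyd_bes_of_close (hW : 𝔓.Wf) (hK : 𝔤.KitOk 𝔓 m β' qk) (hC : 𝔤.CandOk 𝔓 m z t) {M : ℝ → Set ℂ} {cM : ℝ}
    (h : PvcpClose2 (pvydDat 𝔓 𝔤 (𝔓.ty m z t).col) 0 m z t M cM (pvlmH m)) : PvydBes 𝔓 𝔤 (pvbeCB * ENNReal.ofReal cM) m z t :=
  pvcp_bes h (pvyd_wf2_ev hW hK hC)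

/-- **ALL THAT (P-S3) OWES AT THE TERM, DETERMINISTIC FORM**: contracts (regions, ends, kit) + admission + the two a.s. rings of CLOSE-P + the numbers -/
structure PvydAllC (𝔓 : PvrxPar τ cc) (𝔤 : PvydGeo τ) (βu : ℝ≥0∞) (cM CA : ℝ) : Prop where
  kit : ∀ m, 𝔓.m0 ≤ m → ∃ β' qk : ℝ≥0∞, 𝔤.KitOk 𝔓 m β' qk
  cand : ∀ (m : ℕ) (p : ℤ × ℤ) (t : τ), 𝔓.On m (l9Pt (pvlmH m) p) t → 𝔤.CandOk 𝔓 m (l9Pt (pvlmH m) p) t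
  qe0 : 𝔤.qe ≠ 0
  qe1 : 𝔤.qe ≤ 1
  qb0 : 𝔤.qb ≠ 0
  qb1 : 𝔤.qb ≤ 1
  βu0 : βu ≠ 0
  adm : ∀ m, 𝔓.m0 ≤ m → ∀ᶠ ε in 𝓝[>] (0 : ℝ), βu ≤ pvP ε (𝔤.Gu m ε)
  /-- [95 113 34 244 272] -/
  close1 : ∀ (m : ℕ) (p : ℤ × ℤ) (t : τ), 𝔓.On m (l9Pt (pvlmH m) p) t → ∃ (Mk : ℝ → ℕ → Set ℂ) (B : Set ℂ) (a₀ : ℝ),
    PvcpClose1 (pvydDat 𝔓 𝔤 (𝔓.ty m (l9Pt (pvlmH m) p) t).col) 𝔓.Γ 0 m (l9Pt (pvlmH m) p) t Mk B a₀
  /-- `cM` = a number of the menu -/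
  close2 : ∀ (m : ℕ) (p : ℤ × ℤ) (t : τ), 𝔓.On m (l9Pt (pvlmH m) p) t → ∃ M : ℝ → Set ℂ, PvcpClose2 (pvydDat 𝔓 𝔤 (𝔓.ty m (l9Pt (pvlmH m) p) t).col) 0 m (l9Pt (pvlmH m) p) t M cM (pvlmH m)
  a_bdd : ∀ m, ∀ᶠ ε in 𝓝[>] (0 : ℝ), ‖(𝔓.Γ m).a ((𝔤.kit m ε).W (pvP ε) (𝔤.X₀ m ε))‖ ≤ CA
  rel_lim : ∀ m, Tendsto (fun ε => ((𝔤.kit m ε).W (pvP ε) (𝔤.X₀ m ε)).rel) (𝓝[>] (0 : ℝ)) (𝓝 0)

theorem PvydAllC.all {βu : ℝ≥0∞} {cM CA : ℝ} (hW : 𝔓.Wf) (H : PvydAllC 𝔓 𝔤 βu cM CA) : PvydAll 𝔓 𝔤 βu (pvbeCB * ENNReal.ofReal cM) CA where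
  kit := H.kit
  cand := H.cand
  qe0 := H.qe0
  qe1 := H.qe1
  qb0 := H.qb0
  qb1 := H.qb1
  βu0 := H.βu0
  adm := H.adm
  fin := fun m p t hm => by
    obtain ⟨β', qk, hK⟩ := H.kit m hm.1
    obtain ⟨Mk, B, a₀, h⟩ := H.close1 m p t hm
    exact pvyd_fin_of_close hW hK (H.cand m p t hm) h
  tail := fun m p t hm => by
    obtain ⟨β', qk, hK⟩ := H.kit m hm.1
    obtain ⟨Mk, B, a₀, h⟩ := H.close1 m p t hm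
    exact pvyd_tail_of_close hW hK (H.cand m p t hm) h
  bes := fun m p t hm => by
    obtain ⟨β', qk, hK⟩ := H.kit m hm.1
    obtain ⟨M, h⟩ := H.close2 m p t hm
    exact pvyd_bes_of_close hW hK (H.cand m p t hm) h
  a_bdd := H.a_bdd
  rel_lim := H.rel_lim

/-- the constant of `thickν` -/
noncomputable def pvydCe (𝔤 : PvydGeo τ) (βu : ℝ≥0∞) (cM : ℝ) : ℝ := (βu⁻¹ * (𝔤.qb⁻¹ * 𝔤.qe⁻¹) * (pvbeCB * ENNReal.ofReal cM)).toReal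

theorem pvyd_eqns_cite5 : True := by
  have := @pvydCe.eq_1
  trivial

theorem pvyd_Ce {βu : ℝ≥0∞} {cM CA : ℝ} (H : PvydAllC 𝔓 𝔤 βu cM CA) :
    βu⁻¹ * (𝔤.qb⁻¹ * 𝔤.qe⁻¹) * (pvbeCB * ENNReal.ofReal cM) ≤ ENNReal.ofReal (pvydCe 𝔤 βu cM) := by
  unfold pvydCe
  rw [ENNReal.ofReal_toReal]
  exact ENNReal.mul_ne_top (ENNReal.mul_ne_top (ENNReal.inv_ne_top.2 H.βu0) (ENNReal.mul_ne_top (ENNReal.inv_ne_top.2 H.qb0) (ENNReal.inv_ne_top.2 H.qe0)))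
    (ENNReal.mul_ne_top pvbe_CB_ne_top ENNReal.ofReal_ne_top)

/-- **THE ANALYTIC DATA OF ROAD P AT THE TERM** (`PvrxAna 𝔓` of 79) -/
noncomputable def pvydAna {βu : ℝ≥0∞} {cM CA : ℝ} (hW : 𝔓.Wf) (H : PvydAllC 𝔓 𝔤 βu cM CA) (V : PvyaV 𝔓) : PvrxAna 𝔓 :=
  pvyaAna (pvydDat 𝔓 𝔤) (pvydNum (H.all hW)) V (pvyd_ok hW (H.all hW) (pvyd_Ce H))

theorem pvyd_eqns_cite6 : True := by
  have := @pvydAna.eq_1
  trivial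

theorem pvyd_ana_kout {βu : ℝ≥0∞} {cM CA : ℝ} (hW : 𝔓.Wf) (H : PvydAllC 𝔓 𝔤 βu cM CA) (V : PvyaV 𝔓) (m : ℕ) (ε : ℝ) (z : ℂ) (t : τ) :
    (pvydAna hW H V).kout0 m ε z t = (pvydDat 𝔓 𝔤 (𝔓.ty m z t).col).kout0 𝔓.Γ m ε 0 z t := rfl

theorem pvyd_ana_kin {βu : ℝ≥0∞} {cM CA : ℝ} (hW : 𝔓.Wf) (H : PvydAllC 𝔓 𝔤 βu cM CA) (V : PvyaV 𝔓) (m : ℕ) (ε : ℝ) (z : ℂ) (t : τ) :
    (pvydAna hW H V).kin0 m ε z t = (pvydDat 𝔓 𝔤 (𝔓.ty m z t).col).kin0 𝔓.Γ m ε 0 z t := rfl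

theorem pvyd_ana_W {βu : ℝ≥0∞} {cM CA : ℝ} (hW : 𝔓.Wf) (H : PvydAllC 𝔓 𝔤 βu cM CA) (V : PvyaV 𝔓) (m : ℕ) (ε : ℝ) :
    (pvydAna hW H V).W m ε = (𝔤.kit m ε).W (pvP ε) (𝔤.X₀ m ε) := rfl

end close

end Claimed.Agent.R289
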