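-- KEEP
import Claimed.Agent.R289.Exit.CutVP
import Claimed.Agent.R289.Exit.DatP

/-!
# Row 289 (S0537), Exit/CutVM : ROAD P, `PvyaV 𝔓` AT THE TERM `pvydDat 𝔓 𝔤` OF 58 (`Exit/DatP.lean`)      (pen helper263; prefix `pvvt_`, `pvvt`, `Pvvt`)
TEX: 03-plugs.tex (cutoff masses), 04-affine.tex (thick links), 06-actual-arcs.tex (A4).      (T3) of ruling P11 of 273.

DATA: `f m ε : Conf PvPt → ℂ` = THE CUT POINT OF THE REFERENCE PLUG IN THE REFERENCE FRAME (centre `0`, black) = the only new datum.      **IT MUST NOT DEPEND ON `(z,t)`**: the part of the mask of the thick link `e : u → t` which is met by the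
inner arc of `u` has to be ONE set of the frame of `u` (273 P11: `East part of u`), the same for all types `t`; otherwise `kV` would depend on `t`.
* `PvvtRef 𝔤 f m`      `meas reads int` in the reference frame (`PvcnV` of 52 34 at the scale `h`; measurability: copy `pvvt_rep`, dart rules + `pvzf_main` of 107).
* `pvvtK 𝔤 f m ε`      **THE CONSTANT `kV` OF RECORD** = mean of `f m ε` over `𝔤.Gu m ε`.
* `pvvtCu 𝔓 f m z t ε`      the cut point of `u(z,t)` := `w + f (frame⁻¹ ·)`, `w = z + zu t`, frame `pvydE col w` of 58.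
* `PvvtBes 𝔓 𝔤 f CB m z t`      **[BES-V]** (T4: 206 76 95): `∫_{pvydEv2} |𝔓.cV0 - pvvtCu|² ≤ CB h²`.
PROVED (0 sorry): `pvvt_av_T` (I.INV for the mean), `pvvt_cu_meas _reads _int _mean`, **`pvvt_cand_term`** : `PvvtCand` at the term, **`pvvtVT : PvyaV 𝔓`** from `PvydAll` (58) + `PvvtRef` + `PvvtBes`.
sec. 3: `PvvtClose 𝔓 𝔤 f m z t M cM` = CLOSE-V = THE TWIN OF `PvcpClose2` (95) FOR THE WEIGHT `V` (`recg : PvbeRec ε pvbeWV 1_M Ev2 (cV0 - Cu)` = the conclusion of `PvvmRec.rec` of 206), **`pvvt_bes_of_close : PvvtClose → PvvtBes`** (constant `pvbeCB * cM`), `pvvt_thickV_term`.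
CONSUMER: field `cutV` of `PvrsGeoOk` (79, `Exit/RestP.lean`) = `PvvtRef` + `PvvtBes`.
-/

set_option autoImplicit false

namespace Claimed.Agent.R289

open MeasureTheory Filter Topology Set Metric Claims.C0465
open scoped ENNReal

/-! ## 1. the mean of a carried function -/

section carry

variable (g : PvPt ≃ᵐ PvPt) {μ : Measure (Conf PvPt)}

/-- the density of the usable states of a carried plug -/
theorem pvvt_g_T (hμ : μ.map (Conf.image g) = μ) {a b : PvsySec PvPt} (hb : b.G = Conf.image g.toEquiv.symm ⁻¹' a.G) : b.g μ = pvciT g.toEquiv (a.g μ) := by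
  funext η
  unfold PvsySec.g pvciT
  rw [hb, pvci_measure_T g hμ]
  rfl

/-- the normalised density of an event of positive probability -/
theorem pvvt_g_prob [IsProbabilityMeasure μ] {a : PvsySec PvPt} (mG : NullMeasurableSet a.G μ) (hG : μ a.G ≠ 0) : IsProbabilityMeasure (μ.withDensity (a.g μ)) := ⟨by
  rw [withDensity_apply _ MeasurableSet.univ, Measure.restrict_univ]
  unfold PvsySec.g
  simp_rw [div_eq_mul_inv]
  have hm : AEMeasurable (a.G.indicator (1 : Conf PvPt → ℝ≥0∞)) μ := aemeasurable_const.indicator₀ mG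
  rw [lintegral_mul_const'' _ hm, lintegral_indicator_one₀ mG]
  exact ENNReal.mul_inv_cancel hG (measure_ne_top _ _)⟩

/-- integrability is carried -/
theorem pvvt_int_T (hμ : μ.map (Conf.image g) = μ) {a b : PvsySec PvPt} (hb : b.G = Conf.image g.toEquiv.symm ⁻¹' a.G) {f : Conf PvPt → ℂ}
    (hf : Integrable f (μ.withDensity (a.g μ))) : Integrable (pvciT g.toEquiv f) (μ.withDensity (b.g μ)) := by
  let Φ : Conf PvPt ≃ᵐ Conf PvPt :=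
    { toFun := Conf.image g
      invFun := Conf.image g.symm
      left_inv := fun η => pvci_image_symm g.toEquiv η
      right_inv := fun η => pvci_image_symm' g.toEquiv η
      measurable_toFun := Conf.measurable_image g.measurable
      measurable_invFun := Conf.measurable_image g.symm.measurable }
  rw [pvvt_g_T g hμ hb, ← pvci_withDensity_T g hμ (a.g μ)]
  have e : (μ.withDensity (a.g μ)).map (Conf.image g) = (μ.withDensity (a.g μ)).map Φ := rfl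
  rw [e, integrable_map_equiv]
  refine hf.congr (ae_of_all _ fun η => ?_)
  exact (pvci_T_image g.toEquiv f η).symm

/-- **I.INV for the mean of the cut point** -/
theorem pvvt_av_T [IsProbabilityMeasure μ] (hμ : μ.map (Conf.image g) = μ) {a b : PvsySec PvPt} (hb : b.G = Conf.image g.toEquiv.symm ⁻¹' a.G)
    (mG : NullMeasurableSet a.G μ) (hG : μ a.G ≠ 0) {f : Conf PvPt → ℂ} (hf : Integrable f (μ.withDensity (a.g μ))) (w : ℂ) :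
    pvvtAv b μ (fun η => w + pvciT g.toEquiv f η) = w + pvvtAv a μ f := by
  have := pvvt_g_prob mG hG
  unfold pvvtAv
  have e : (fun η => w + pvciT g.toEquiv f η) = pvciT g.toEquiv (fun η => w + f η) := rfl
  rw [e, pvvt_g_T g hμ hb, pvci_integral_withDensity_T g hμ (a.g μ) (fun η => w + f η), integral_add (integrable_const w) hf, integral_const]
  simp

end carry

/-! ## 2. the data at the term -/

section term

variable {τ : Type} {cc : ℝ}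

/-- the bare reference plug, reference frame -/
def pvvtU (𝔤 : PvydGeo τ) (m : ℕ) (ε : ℝ) : PvsySec PvPt := ⟨𝔤.Ou m ×ˢ univ, 𝔤.Gu m ε, ∅, univ⟩

/-- **what the cut point of the reference plug owes**, reference frame -/
structure PvvtRef (𝔤 : PvydGeo τ) (f : ℕ → ℝ → Conf PvPt → ℂ) (m : ℕ) : Prop where
  meas : ∀ᶠ ε in 𝓝[>] (0 : ℝ), Measurable (f m ε)
  reads : ∀ᶠ ε in 𝓝[>] (0 : ℝ), Conf.Reads (𝔤.Ou m ×ˢ univ) (f m ε)
  int : ∀ᶠ ε in 𝓝[>] (0 : ℝ), Integrable (f m ε) ((pvP ε).withDensity ((pvvtU 𝔤 m ε).g (pvP ε)))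

/-- **THE CONSTANT `kV` OF RECORD** -/
noncomputable def pvvtK (𝔤 : PvydGeo τ) (f : ℕ → ℝ → Conf PvPt → ℂ) (m : ℕ) (ε : ℝ) : ℂ := pvvtAv (pvvtU 𝔤 m ε) (pvP ε) (f m ε)

/-- the cut point of the reference plug `u(z,t)` -/
noncomputable def pvvtCu (𝔓 : PvrxPar τ cc) (f : ℕ → ℝ → Conf PvPt → ℂ) (m : ℕ) (z : ℂ) (t : τ) (ε : ℝ) (η : Conf PvPt) : ℂ :=
  pvydWu 𝔓 m z t + pvciT (pvydE (𝔓.ty m z t).col (pvydWu 𝔓 m z t)).toEquiv (f m ε) η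

/-- **[BES-V]** = CLOSE-P with the deterministic mask of the thick link, weight `side` + (A4) + I.BES for `V`      [206 76 95] -/
def PvvtBes (𝔓 : PvrxPar τ cc) (𝔤 : PvydGeo τ) (f : ℕ → ℝ → Conf PvPt → ℂ) (CB : ℝ≥0∞) (m : ℕ) (z : ℂ) (t : τ) : Prop :=
  ∀ᶠ ε in 𝓝[>] (0 : ℝ), ∫⁻ η in pvydEv2 𝔓 𝔤 m ε z t, ‖𝔓.cV0 m ε z t η - pvvtCu 𝔓 f m z t ε η‖ₑ ^ 2 ∂(pvP ε) ≤ CB * ENNReal.ofReal (pvlmH m ^ 2)

theorem pvvt_eqns_cite5 : True := by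
  have := @pvvtU.eq_1; have := @pvvtK.eq_1; have := @pvvtCu.eq_1; have := @PvvtBes.eq_1
  trivial

variable {𝔓 : PvrxPar τ cc} {𝔤 : PvydGeo τ} {f : ℕ → ℝ → Conf PvPt → ℂ} {m : ℕ} {ε : ℝ}

theorem pvvt_cu_meas (hf : Measurable (f m ε)) (z : ℂ) (t : τ) : Measurable (pvvtCu 𝔓 f m z t ε) :=
  measurable_const.add (pvci_T_measurable _ hf)

theorem pvvt_cu_reads (hf : Conf.Reads (𝔤.Ou m ×ˢ univ) (f m ε)) (z : ℂ) (t : τ) :
    Conf.Reads ((pvydDat 𝔓 𝔤 (𝔓.ty m z t).col).Ou m ε z t) (pvvtCu 𝔓 f m z t ε) := by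
  have h1 := pvci_T_reads (pvydE (𝔓.ty m z t).col (pvydWu 𝔓 m z t)).toEquiv hf
  have e : (pvydE (𝔓.ty m z t).col (pvydWu 𝔓 m z t)).toEquiv '' (𝔤.Ou m ×ˢ (univ : Set Bool)) = (pvthSim (pvydWu 𝔓 m z t) 1 '' 𝔤.Ou m) ×ˢ univ :=
    pvyd_E_image _ _ _
  rw [e] at h1
  exact fun η => congrArg (fun x => pvydWu 𝔓 m z t + x) (h1 η)

theorem pvvt_cu_int (hf : Integrable (f m ε) ((pvP ε).withDensity ((pvvtU 𝔤 m ε).g (pvP ε)))) (mG : NullMeasurableSet (𝔤.Gu m ε) (pvP ε)) (hG : pvP ε (𝔤.Gu m ε) ≠ 0)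
    (z : ℂ) (t : τ) : Integrable (pvvtCu 𝔓 f m z t ε) ((pvP ε).withDensity (((pvydDat 𝔓 𝔤 (𝔓.ty m z t).col).sRef m ε z t).g (pvP ε))) := by
  have := (pv_isPpp ε).prob
  have hb : ((pvydDat 𝔓 𝔤 (𝔓.ty m z t).col).sRef m ε z t).G = Conf.image (pvydE (𝔓.ty m z t).col (pvydWu 𝔓 m z t)).toEquiv.symm ⁻¹' (pvvtU 𝔤 m ε).G := rfl
  have h1 := pvvt_int_T (pvydE (𝔓.ty m z t).col (pvydWu 𝔓 m z t)) (pvyd_law _ _ ε) hb hf
  have h2 : IsProbabilityMeasure ((pvP ε).withDensity (((pvydDat 𝔓 𝔤 (𝔓.ty m z t).col).sRef m ε z t).g (pvP ε))) := by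
    rw [pvvt_g_T _ (pvyd_law _ _ ε) hb, ← pvci_withDensity_T _ (pvyd_law _ _ ε)]
    have := pvvt_g_prob (a := pvvtU 𝔤 m ε) mG hG
    exact Measure.isProbabilityMeasure_map (Conf.measurable_image (pvydE (𝔓.ty m z t).col (pvydWu 𝔓 m z t)).measurable).aemeasurable
  exact (integrable_const _).add h1

theorem pvvt_cu_mean (hf : Integrable (f m ε) ((pvP ε).withDensity ((pvvtU 𝔤 m ε).g (pvP ε)))) (mG : NullMeasurableSet (𝔤.Gu m ε) (pvP ε)) (hG : pvP ε (𝔤.Gu m ε) ≠ 0)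
    (z : ℂ) (t : τ) : pvvtAv ((pvydDat 𝔓 𝔤 (𝔓.ty m z t).col).sRef m ε z t) (pvP ε) (pvvtCu 𝔓 f m z t ε) = z + (𝔓.Γ m).zu t + pvvtK 𝔤 f m ε := by
  have := (pv_isPpp ε).prob
  have hb : ((pvydDat 𝔓 𝔤 (𝔓.ty m z t).col).sRef m ε z t).G = Conf.image (pvydE (𝔓.ty m z t).col (pvydWu 𝔓 m z t)).toEquiv.symm ⁻¹' (pvvtU 𝔤 m ε).G := rfl
  exact pvvt_av_T (pvydE (𝔓.ty m z t).col (pvydWu 𝔓 m z t)) (pvyd_law _ _ ε) hb mG hG hf (pvydWu 𝔓 m z t)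

/-- **`PvvtCand` AT THE TERM** -/
theorem pvvt_cand_term {βu CB CB' : ℝ≥0∞} {z : ℂ} {t : τ} (T : PvypThk (pvydDat 𝔓 𝔤 (𝔓.ty m z t).col) (pvlmH m) βu 𝔤.qb 𝔤.qe CB' 0 m z t) (βu0 : βu ≠ 0)
    (mGu : ∀ᶠ ε in 𝓝[>] (0 : ℝ), MeasurableSet (𝔤.Gu m ε)) (adm : ∀ᶠ ε in 𝓝[>] (0 : ℝ), βu ≤ pvP ε (𝔤.Gu m ε)) (R : PvvtRef 𝔤 f m) (B : PvvtBes 𝔓 𝔤 f CB m z t) :
    PvvtCand 𝔓 (pvydDat 𝔓 𝔤 (𝔓.ty m z t).col) (pvvtCu 𝔓 f m z t) (pvvtK 𝔤 f m) βu 𝔤.qb 𝔤.qe CB m z t := by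
  refine pvvt_cand_of_thk T (Eventually.of_forall fun _ => rfl) (Eventually.of_forall fun ε => pvyd_G_sub 𝔓 m ε z t)
    (Eventually.of_forall fun ε => pvsp_G_sub_has _ _ _ _ _) ?_ ?_ ?_ ?_ B
  · exact R.meas.mono fun ε h => pvvt_cu_meas h z t
  · exact R.reads.mono fun ε h => pvvt_cu_reads h z t
  · filter_upwards [R.int, mGu, adm] with ε h1 h2 h3
    exact pvvt_cu_int h1 h2.nullMeasurableSet (fun h0 => βu0 (le_antisymm (h0 ▸ h3) zero_le)) z t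
  · filter_upwards [R.int, mGu, adm] with ε h1 h2 h3
    exact pvvt_cu_mean h1 h2.nullMeasurableSet (fun h0 => βu0 (le_antisymm (h0 ▸ h3) zero_le)) z t

/-- **`PvyaV 𝔓` AT THE TERM**   ⟸   the contract `PvydAll` of 58 + the cut point of the reference plug + [BES-V] -/
noncomputable def pvvtVT (hW : 𝔓.Wf) {βu CB CB' : ℝ≥0∞} {CA : ℝ} (H : PvydAll 𝔓 𝔤 βu CB' CA) (f : ℕ → ℝ → Conf PvPt → ℂ) (R : ∀ m, 𝔓.m0 ≤ m → PvvtRef 𝔤 f m)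
    (B : ∀ (m : ℕ) (p : ℤ × ℤ) (t : τ), 𝔓.On m (l9Pt (pvlmH m) p) t → PvvtBes 𝔓 𝔤 f CB m (l9Pt (pvlmH m) p) t) {CV0 : ℝ} (hC : βu⁻¹ * (𝔤.qb⁻¹ * 𝔤.qe⁻¹) * CB ≤ ENNReal.ofReal CV0) : PvyaV 𝔓 :=
  pvvtV hW (pvvtK 𝔤 f) hC (fun m z t => pvydDat 𝔓 𝔤 (𝔓.ty m z t).col) (fun m z t => pvvtCu 𝔓 f m z t) fun m p t hm => by
    obtain ⟨β', qk, hK⟩ := H.kit m hm.1
    exact pvvt_cand_term (pvyd_thk hW hK (H.cand m p t hm) H.qe0 H.qe1 H.qb0 H.qb1 H.βu0 (H.adm m hm.1) (H.bes m p t hm)) H.βu0 hK.mGu (H.adm m hm.1) (R m hm.1) (B m p t hm)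

theorem pvvt_eqns_cite6 : True := by
  have := @pvvtVT.eq_1
  trivial

/-! ## 3. CLOSE-V : the twin of `PvcpClose2` (95) for the weight `V`; the roof `exit_pvrs_thickV` of 79 at the term -/

/-- **CLOSE-P FOR `V`, SHORT CYCLE** `t -b-> u -e-> t` (twin of `PvcpClose2` of 95): a.s. on the event of the cycle, `cut point of t − cut point of u` is the `V`-mass of ONE rim in a deterministic mask of area `≤ cM h²`
[206 `PvvmRec.rec` (`Tr/CloseV.lean`);  76 `Tr/CutPl.lean` (plane readings of the two cut points);  the ring = THE SAME as that of `close2`] -/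
structure PvvtClose (𝔓 : PvrxPar τ cc) (𝔤 : PvydGeo τ) (f : ℕ → ℝ → Conf PvPt → ℂ) (m : ℕ) (z : ℂ) (t : τ) (M : ℝ → Set ℂ) (cM : ℝ) : Prop where
  c0 : 0 ≤ cM
  mM : ∀ᶠ ε in 𝓝[>] (0 : ℝ), MeasurableSet (M ε)
  bM : ∀ᶠ ε in 𝓝[>] (0 : ℝ), Bornology.IsBounded (M ε)
  vol : ∀ᶠ ε in 𝓝[>] (0 : ℝ), volume (M ε) ≤ ENNReal.ofReal (cM * pvlmH m ^ 2)
  recg : ∀ᶠ ε in 𝓝[>] (0 : ℝ), PvbeRec ε pvbeWV ((M ε).indicator 1) (pvydEv2 𝔓 𝔤 m ε z t) (fun η => 𝔓.cV0 m ε z t η - pvvtCu 𝔓 f m z t ε η)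

/-- **[BES-V]** from CLOSE-V      (I.BES for `V`: `pvbe_in_V` of 223) -/
theorem pvvt_bes_of_close {z : ℂ} {t : τ} {M : ℝ → Set ℂ} {cM : ℝ} (hwf : ∀ᶠ ε in 𝓝[>] (0 : ℝ), PvsyCycWF (pvP ε) 2 ((pvydDat 𝔓 𝔤 (𝔓.ty m z t).col).cyc2 m ε z t))
    (H : PvvtClose 𝔓 𝔤 f m z t M cM) : PvvtBes 𝔓 𝔤 f (pvbeCB * ENNReal.ofReal cM) m z t := by
  filter_upwards [hwf, H.mM, H.bM, H.vol, H.recg, self_mem_nhdsWithin] with ε h1 h2 h3 h4 h5 h6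
  have hEv : NullMeasurableSet (pvydEv2 𝔓 𝔤 m ε z t) (pvP ε) := pvcp_ev0_null h1 _ _
  rw [pvcp_set_eq hEv, mul_assoc, ← ENNReal.ofReal_mul H.c0]
  exact (pvbe_one_mask pvbe_in_V h6 h2 h3 h5).trans (by gcongr)

/-- the constant of `thickVν` -/
noncomputable def pvvtCV (𝔤 : PvydGeo τ) (βu : ℝ≥0∞) (cM : ℝ) : ℝ := (βu⁻¹ * (𝔤.qb⁻¹ * 𝔤.qe⁻¹) * (pvbeCB * ENNReal.ofReal cM)).toReal

theorem pvvt_eqns_cite7 : True := by
  have := @pvvtCV.eq_1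
  trivial

theorem pvvt_CV_nonneg (𝔤 : PvydGeo τ) (βu : ℝ≥0∞) (cM : ℝ) : 0 ≤ pvvtCV 𝔤 βu cM := ENNReal.toReal_nonneg

theorem pvvt_CV {βu : ℝ≥0∞} (βu0 : βu ≠ 0) (qb0 : 𝔤.qb ≠ 0) (qe0 : 𝔤.qe ≠ 0) (cM : ℝ) :
    βu⁻¹ * (𝔤.qb⁻¹ * 𝔤.qe⁻¹) * (pvbeCB * ENNReal.ofReal cM) = ENNReal.ofReal (pvvtCV 𝔤 βu cM) := by
  unfold pvvtCV
  rw [ENNReal.ofReal_toReal]
  exact ENNReal.mul_ne_top (ENNReal.mul_ne_top (ENNReal.inv_ne_top.2 βu0) (ENNReal.mul_ne_top (ENNReal.inv_ne_top.2 qb0) (ENNReal.inv_ne_top.2 qe0)))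
    (ENNReal.mul_ne_top pvbe_CB_ne_top ENNReal.ofReal_ne_top)

/-- **`thickVν` AT ONE CANDIDATE OF THE TERM**, constant `kV := pvvtK 𝔤 f`, `CV0 := pvvtCV 𝔤 βu cM`   ⟸   THK (58) + the cut point of the reference plug + CLOSE-V -/
theorem pvvt_thickV_term (hW : 𝔓.Wf) {βu CB' : ℝ≥0∞} {z : ℂ} {t : τ} {M : ℝ → Set ℂ} {cM : ℝ}
    (T : PvypThk (pvydDat 𝔓 𝔤 (𝔓.ty m z t).col) (pvlmH m) βu 𝔤.qb 𝔤.qe CB' 0 m z t) (βu0 : βu ≠ 0) (qb0 : 𝔤.qb ≠ 0) (qe0 : 𝔤.qe ≠ 0)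
    (mGu : ∀ᶠ ε in 𝓝[>] (0 : ℝ), MeasurableSet (𝔤.Gu m ε)) (adm : ∀ᶠ ε in 𝓝[>] (0 : ℝ), βu ≤ pvP ε (𝔤.Gu m ε)) (R : PvvtRef 𝔤 f m) (C : PvvtClose 𝔓 𝔤 f m z t M cM) :
    ∀ᶠ ε in 𝓝[>] (0 : ℝ), (pvhbUp ε).E (fun q => (𝔓.G m ε z t).indicator (fun ξ => ‖𝔓.cV0 m ε z t ξ - z - (𝔓.Γ m).zu t - pvvtK 𝔤 f m ε‖ₑ ^ 2) (pvConf (pvMerge q)))
      ≤ ENNReal.ofReal (pvvtCV 𝔤 βu cM * pvlmH m ^ 2) := by
  filter_upwards [pvvt_cand hW (pvvt_cand_term T βu0 mGu adm R (pvvt_bes_of_close T.wf C))] with ε h1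
  rw [ENNReal.ofReal_mul (pvvt_CV_nonneg 𝔤 βu cM), ← pvvt_CV βu0 qb0 qe0 cM, mul_assoc]
  exact h1

end term

end Claimed.Agent.R289
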