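-- KEEP
import Claimed.Agent.R289.Exit.ArcVP
import Claimed.Agent.R289.Tr.NumP

/-!
# Row 289 (S0537), THE WALL, ROAD P, Exit/ParP : THE CUT OF `exit_pvrx_all` AT THE EXPLICIT PARAMETER      (pen helper186, post of 273 / leave of 79; prefix `pvrz_`, `pvrz`, `Pvrz`)

`Exit/TrP.lean` (79) ends in ONE existential `exit_pvrx_all : ∃ τ 𝔓, PvrxAll 𝔓`.      HERE: the parameter is THE EXPLICIT TERM
    `pvrzPar c 𝔤 H Γ m0 : PvrxPar (PvmhT 𝔤) c`  :=  model `pvmhMod 𝔤 QB` of 8 (`Tr/ModP.lean`), `QB := univ`, menu `pvmhMenu 𝔤`, reading radius `𝔤.Lr + 3` (`2 L + 1 ≤ Lr`: 79, `WfV`), doors `Γ`, first level `m0`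
and the three fields of `PvrxAll` are three SEPARATE roofs at that term.      ORDER OF THE CONSTANTS (this is the whole content of the cut):
* **PINS** `PvrzPins c` (`exit_pvrz_pins`) CHOOSES THE NUMBERS `𝔤` (A6 answers the annuli and `ζ`; then `e₁ → d₁ → e₀ → d₀ → dl → mu → p_*`), and a LARGEST threshold `𝔤.β`:   it holds for EVERY `0 < β ≤ 𝔤.β` (the cost of F5 is `≤ 8 β / p_*`, `G` grows when `β` decreases),
  for EVERY `Γ`, `m0` (the pins do not see the doors;  `pinsOK` is eventual in `m`).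
* **REST** `PvrzRest c 𝔤 H` (`exit_pvrz_rest`) holds AT EVERY GOOD `𝔤`;   it chooses a threshold `β₀` (ADMISSION P18: `ν(G_{τ₀}) ≥ β'` needs `β` small against the geometry) and, for every `0 < β ≤ β₀`, the doors `Γ`, the level `m0`, the analytic data, patterns, cover, arc.
* `PvrzGood 𝔤` = NUMERIC constraints only (a roof which needs one more asks 186: it must survive `pvnp_choose` of `Tr/NumP.lean`, the satisfiability lemma in the order of the constants).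
* `QB := univ`:   no typed consumer reads the clause `ξ ∈ QB` of `pvspHq` (`pvfw_lane_P` of 147 takes any `QB`);   the QBX-good geometry of the lanes is a PATTERN-level event: it goes into `Fit` / `A i` (colour blind: it survives the preparation).
PROVED HERE (0 sorry): `pvrz_wf`, `pvrz_wfV` (on `pvmh_wf`, `pvmh_Ep_sub` .. of 8), `pvrz_all_of` = the glue from the two roofs AS STATEMENTS `PvrzPins c`, `PvrzRest c 𝔤 H`;   the roofs meet in `Exit/TopP.lean`.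
-/

set_option autoImplicit false

namespace Claimed.Agent.R289

open MeasureTheory Filter Topology Set Claims.C0465
open scoped ENNReal

/-! ## 1. the numbers -/

/-- the same numbers with another propensity threshold -/
def PvmhNum.wβ (𝔤 : PvmhNum) (β : ℝ) : PvmhNum := { 𝔤 with β := β }

theorem PvmhNum.OK.wβ {𝔤 : PvmhNum} (H : 𝔤.OK) (β : ℝ) : (𝔤.wβ β).OK :=
  ⟨H.a_pos, H.ab, H.nest01, H.nest12, H.mu0, H.mu_le, H.mu_eq, H.nd0, H.nd40, H.dl_eq, H.d0_ge, H.d0_le, H.e0_le, H.d1_le, H.e1_le⟩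

/-- **ALL THE NUMERIC CONSTRAINTS OF ROAD P** (none on `β`) -/
structure PvrzGood (𝔤 : PvmhNum) : Prop where
  ok : 𝔤.OK
  pst0 : 0 < 𝔤.pst
  pst1 : 𝔤.pst ≤ 1

theorem PvrzGood.wβ {𝔤 : PvmhNum} (H : PvrzGood 𝔤) (β : ℝ) : PvrzGood (𝔤.wβ β) := ⟨H.ok.wβ β, H.pst0, H.pst1⟩

/-! ## 2. the parameter -/

/-- **THE PARAMETER OF ROAD P** -/
noncomputable def pvrzPar (c : ℝ) (𝔤 : PvmhNum) (H : PvrzGood 𝔤) (Γ : ℕ → PvtsGeo (PvmhT 𝔤)) (m0 : ℕ) : PvrxPar (PvmhT 𝔤) c where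
  mod := pvmhMod 𝔤 fun _ _ => univ
  𝔐 := pvmhMenu 𝔤 H.ok
  Γ := Γ
  Lr := 𝔤.Lr + 3
  m0 := m0

theorem pvrz_eqns_cite : True := by
  have := @PvmhNum.wβ.eq_1; have := @pvrzPar.eq_1
  trivial

section wf

variable {c : ℝ} {𝔤 : PvmhNum} (H : PvrzGood 𝔤)

include H

omit H in
theorem pvrz_ball (z : ℂ) {h : ℝ} (hh : 0 ≤ h) : Metric.closedBall z (𝔤.Lr * h) ⊆ Metric.closedBall z ((𝔤.Lr + 3) * h) :=
  Metric.closedBall_subset_closedBall (mul_le_mul_of_nonneg_right (by linarith) hh)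

/-- **field `wf` of `PvrxAll`** -/
theorem pvrz_wf (Γ : ℕ → PvtsGeo (PvmhT 𝔤)) (m0 : ℕ) : (pvrzPar c 𝔤 H Γ m0).Wf where
  ty_wf := fun m z t => pvmh_wf H.ok z t (pvlm_H_pos m)
  pst0 := H.pst0
  Ep_sub := fun m z t => (pvmh_Ep_sub H.ok z t (pvlm_H_pos m)).trans (pvrz_ball z (pvlm_H_pos m).le)
  Em_sub := fun m z t => (pvmh_Em_sub H.ok z t (pvlm_H_pos m)).trans (pvrz_ball z (pvlm_H_pos m).le)
  EJ_sub := fun m z t => (pvmh_EJ_sub H.ok z t (pvlm_H_pos m)).trans (pvrz_ball z (pvlm_H_pos m).le)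
  QB_reads := fun _ _ _ => Iff.rfl

/-- SENSE: before the pin vertex the rim comes from beyond the star zone of `S₂` inside the tube `Nm` -/
theorem pvrz_sense {h : ℝ} (hh : 0 < h) {P : PvbRim} {z : ℂ} {i0 : ℕ} {s : PvmhT 𝔤} (F : 𝔤.Fit h P i0 z s) :
    ∃ j ≤ i0, P.v j ∉ Metric.closedBall z ((𝔤.b 1 + 1) * h) ∧ ∀ i, j ≤ i → i ≤ i0 → P.v i ∈ (𝔤.ty h z s).Nm := by
  obtain ⟨-, tt, h5, hin, hfit⟩ := F
  have hm := hin.marks 4 (by norm_num) (by norm_num)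
  have e0 : tt (5 - 4) = tt 1 := rfl
  rw [e0, h5] at hm
  have hδ : 0 < 𝔤.dl * h := mul_pos H.ok.dl0 hh
  refine ⟨tt 1, hm.mm_le, fun hc => ?_, fun k hk1 hk2 => ?_⟩
  · rw [mem_closedBall_iff_norm] at hc
    have h1 := hm.mm_far
    obtain ⟨-, -, h2, h3, -, -⟩ := pvmh_basic H.ok
    have e3 : 𝔤.b3 = 𝔤.b 2 + 1 := rfl
    rw [e3] at h1
    push_cast at h1
    have h4 : (𝔤.b 1 + 1) * h < (4 + 1) * ((𝔤.b 2 + 1) * h) := by
      have : (𝔤.b 1 + 1) * h < (5 * (𝔤.b 2 + 1)) * h := mul_lt_mul_of_pos_right (by linarith) hh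
      linarith
    linarith
  · have h1 := pvmh_vertex_cells hδ hfit (a := 1) (b := 5) (by norm_num) (by norm_num) (k := k) hk1 (by rw [h5]; exact hk2)
    exact pvmg_near (k := 2) hδ h1 (by rw [sub_self, norm_zero]; positivity)

/-- **what the parameter owes for the cut point** (79, `Exit/ArcVP.lean`) -/
theorem pvrz_wfV (Γ : ℕ → PvtsGeo (PvmhT 𝔤)) (m0 : ℕ) : (pvrzPar c 𝔤 H Γ m0).WfV := by
  obtain ⟨s1, s2, s3, s4, s5, s6, s7, s8, s9⟩ := pvnp_small H.ok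
  obtain ⟨r1, r2, r3, r4, r5, r6⟩ := pvnp_radii H.ok
  have n1 := H.ok.nest01
  refine ⟨?_, fun m z t => ?_, fun m z t => ?_, fun m z t => ?_, fun m z t => le_rfl, fun m z t => ?_, fun m z t P k F => pvrz_sense H (pvlm_H_pos m) F,
    fun m z t P k F j hj hJ => ?_, ?_⟩
  · show 2 * 𝔤.mu ≤ 1
    linarith
  · show 𝔤.b 0 + 2 * 𝔤.mu ≤ 100 * 𝔤.b 0
    linarith
  · show 100 * 𝔤.b 0 + 2 * 𝔤.mu ≤ 𝔤.a 1
    linarith
  · show 1 ≤ 𝔤.a 0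
    linarith
  · show 𝔤.b 2 + 𝔤.mu ≤ 10 * (𝔤.b 2 + 1) + 1
    linarith
  · have := pvmh_miss H.ok (pvlm_H_pos m) F j hj _ hJ
    rw [sub_self, norm_zero] at this
    exact absurd this (not_lt.2 (mul_pos H.ok.dl0 (pvlm_H_pos m)).le)
  · show 2 * (10 * (𝔤.b 2 + 1) + 1) + 1 ≤ 20 * (𝔤.b 2 + 1) + 3
    linarith

end wf

/-! ## 3. the two roofs, AS STATEMENTS      (the proofs import this file: `Exit/PinsP.lean` of 8, `Exit/RestP.lean` of 79;  they meet in `Exit/TopP.lean`) -/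

/-- **ROOF PINS OF ROAD P** = field `pins` of `PvrxAll`      [PROVED from 9 named sub-exits: `pvxq_main` of 8, `Exit/PinsP.lean`;  A6 281 200 12;  flags 220 36 277;  DI-P 212 97;  numbers `pvnp_choose` 186]      CHOOSES THE NUMBERS -/
def PvrzPins (c : ℝ) : Prop := ∃ (𝔤 : PvmhNum) (H : PvrzGood 𝔤), 0 < 𝔤.β ∧ ∀ β : ℝ, 0 < β → β ≤ 𝔤.β →
    ∀ (Γ : ℕ → PvtsGeo (PvmhT (𝔤.wβ β))) (m0 : ℕ) (x : ℂ) (R : ℝ), 0 < R → PvrxPinsOK (pvrzPar c (𝔤.wβ β) (H.wβ β) Γ m0) x R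

/-- **ROOF REST OF ROAD P** = field `ana` of `PvrxAll`, AT EVERY GOOD `𝔤`      [doors `Γ`: 138 222 236;  `𝔄`: 58 `Exit/AnaP.lean`, 95, 263, 34;  `𝔇`, cover: 138, 236 `Exit/CoverP.lean`;  arc: 279 286 59 / 212 113 97 / 263;  admission 127 34 140]
v2 (186, 11:55Z): the field `pins` AT THE CHOSEN `(Γ, m0)` IS A HYPOTHESIS (`pvrc_cover` of 236 consumes `PvrcPinsOK` = `PvrxPinsOK`, `Iff.rfl`);   no circle: PINS holds for EVERY `Γ m0`. -/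
def PvrzRest (c : ℝ) (𝔤 : PvmhNum) (H : PvrzGood 𝔤) : Prop := ∃ β₀ : ℝ, 0 < β₀ ∧ ∀ β : ℝ, 0 < β → β ≤ β₀ →
    ∃ (Γ : ℕ → PvtsGeo (PvmhT (𝔤.wβ β))) (m0 : ℕ), (∀ (x : ℂ) (R : ℝ), 0 < R → PvrxPinsOK (pvrzPar c (𝔤.wβ β) (H.wβ β) Γ m0) x R) →
      ∃ 𝔄 : PvrxAna (pvrzPar c (𝔤.wβ β) (H.wβ β) Γ m0),
        ∀ (x : ℂ) (R : ℝ), 0 < R → ∃ 𝔇 : PvrxPat (pvrzPar c (𝔤.wβ β) (H.wβ β) Γ m0) x R, PvrxCover 𝔇 ∧ Nonempty (PvrxArc 𝔄 𝔇)

theorem pvrz_eqns_cite2 : True := by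
  have := @PvrzPins.eq_1; have := @PvrzRest.eq_1
  trivial

/-! ## 4. the glue -/

/-- **`exit_pvrx_all`** from the two roofs -/
theorem pvrz_all_of {c : ℝ} (hp : PvrzPins c) (hr : ∀ (𝔤 : PvmhNum) (H : PvrzGood 𝔤), PvrzRest c 𝔤 H) :
    ∃ (τ : Type) (_ : Fintype τ) (_ : Nonempty τ) (𝔓 : PvrxPar τ c), PvrxAll 𝔓 := by
  obtain ⟨𝔤, H, hβ, hP⟩ := hp
  obtain ⟨β₀, hβ₀, hR⟩ := hr 𝔤 H
  obtain ⟨Γ, m0, hA⟩ := hR (min 𝔤.β β₀) (lt_min hβ hβ₀) (min_le_right _ _)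
  have hpin := fun x R h => hP _ (lt_min hβ hβ₀) (min_le_left _ _) Γ m0 x R h
  exact ⟨PvmhT (𝔤.wβ (min 𝔤.β β₀)), inferInstance, pvmh_nonempty (H.wβ _).ok, pvrzPar c (𝔤.wβ (min 𝔤.β β₀)) (H.wβ _) Γ m0,
    ⟨pvrz_wf (H.wβ _) Γ m0, hpin, hA hpin⟩⟩

end Claimed.Agent.R289
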