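import Claimed.Agent.R289.Exit.CoverP
import Claimed.Agent.R289.Exit.ParP
import Claimed.Agent.R289.Tr.PlugMet

/-!
# Row 289 (S0537), THE WALL, ROAD P, Exit/MetP : THE DEBT (K3) `PvrcMet` OF THE ROOF `cover` (236, `Exit/CoverP.lean`) AT THE MODEL OF ROAD P, AND THE FIELDS `𝔇 : PvrxPat`, `PvrxCover 𝔇`      (owner helper222; prefix `pvqg_`)      0 sorry

* sec. 1  `PvqgRel 𝔤 𝔑` (relations between the numbers of 236 and of 8: `𝔑.dl = 𝔤.dl`, `6 + 2 kμ ≤ kρ`, `kσ + 1 ≤ 10 b₃`), `pvqg_pin_of_fit` (`𝔤.Fit` ⟹ `PvqgPin`), `pvqg_num2_ev` (the numbers of the assembly hold eventually in `m`),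
          **`pvqg_met_gen`** (`PvrcMet` for ANY family of pins which are fitted in the sense of `Tr/ModP`), **`pvqg_met_par`** (at `pvrzPar c 𝔤 H Γ m0` of 186)
* sec. 2  `pvqgPL 𝔤` (the plug of the menu), `pvqg_PL_wf`, **`pvqgPat`** `: PvrxPat (pvrzPar c 𝔤 H Γ m0) x R` (for ANY doors `Γ` with `PvrcDoors 𝔑 c (pvqgPL 𝔤) Γ`), **`pvqg_cover`** `: PvrxPinsOK .. → PvrxCover (pvqgPat ..)`, numbers `pvqgNum 𝔤 mm Lr`, `pvqg_num_rel`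
-/

set_option autoImplicit false
set_option linter.unusedSectionVars false
set_option linter.unusedVariables false

namespace Claimed.Agent.R289

open MeasureTheory Filter Topology Set Claims.C0465

section model

variable {𝔤 : PvmhNum} {𝔑 : PvrcNum} {c R : ℝ} {x : ℂ}

/-- the relations between the numbers of the roof `cover` (236) and the numbers of the model (8) -/
structure PvqgRel (𝔤 : PvmhNum) (𝔑 : PvrcNum) : Prop where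
  ok : 𝔑.Ok
  dl : 𝔑.dl = 𝔤.dl
  kρ : 6 + 2 * 𝔑.kμ ≤ 𝔑.kρ
  kσ : 𝔑.kσ + 1 ≤ 10 * 𝔤.b3

/-- a fitted pin of `Tr/ModP` is a fitted pin of `Tr/PlugMet` -/
theorem pvqg_pin_of_fit (H : 𝔤.OK) {h : ℝ} {P : PvbRim} {s : PvbPin (PvmhT 𝔤)} (F : 𝔤.Fit h P s.idx s.ctr s.typ) :
    ∃ (cs : ℤ × ℤ) (ts : ℕ → ℕ), PvqgPin PvmhT.typ (𝔤.dl * h) (𝔤.mu * h) h (𝔤.a3 * h) (𝔤.b3 * h) (10 * 𝔤.b3 * h) (𝔤.d0 * h) (𝔤.e0 * h) (𝔤.d1 * h) (𝔤.e1 * h) P s cs ts := by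
  obtain ⟨⟨p, hp⟩, ts, h5, hI, hF⟩ := F
  refine ⟨((𝔤.nd : ℤ) * p.1, (𝔤.nd : ℤ) * p.2), ts, ?_, h5, hI, hF⟩
  rw [hp]
  refine pvrc_l9 ?_ p
  have h0 : (𝔤.nd : ℝ) ≠ 0 := by exact_mod_cast H.nd0.ne'
  rw [H.dl_eq]
  push_cast
  field_simp

/-- the numbers of the assembly hold eventually -/
theorem pvqg_num2_ev (H : 𝔤.OK) (hrel : PvqgRel 𝔤 𝔑) (c0 : 0 < c) (hR : 0 < R) (nB : ℕ) :
    ∀ᶠ m in atTop, PvqgNum2 (𝔑.dc c m) (𝔤.dl * pvlmH m) (𝔑.mu c m) (𝔑.rho c m) (𝔑.sig m) (pvlmH m) (𝔤.b3 * pvlmH m) (10 * 𝔤.b3 * pvlmH m) R (R / 3) nB := by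
  obtain ⟨h0, h1, h2, h3, h4, h5⟩ := pvmh_basic H
  have hb3 : 0 < 𝔤.b3 := by
    have : 𝔤.b3 = 𝔤.b 2 + 1 := rfl
    linarith
  set A : ℝ := 6 * 𝔤.b3 + 1 + 2 * ((2 * nB + 2 : ℕ) : ℝ) * 𝔤.dl + 2 * ((nB : ℝ) + 1) * 𝔤.dl + 10 * 𝔤.dl with hA
  have hA0 : 0 < A := by positivity
  have l1 : Tendsto (fun m => A * pvlmH m) atTop (𝓝 0) := by simpa using pvlm_H_lim.const_mul A
  filter_upwards [l1.eventually (ge_mem_nhds (show (0 : ℝ) < R / 3 by positivity))] with m hm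
  have hh := pvlm_H_pos m
  have hdc := pvrc_dc_pos hrel.ok c m
  have hdc' : 𝔑.dc c m ≤ 𝔤.dl * pvlmH m := by
    unfold PvrcNum.dc
    rw [hrel.dl]
    exact mul_le_mul_of_nonneg_left (pvlm_Del_le_H c0 m) h0.le
  have k0 := hrel.ok.kμ0; have k1 := hrel.ok.kμ1
  have hmu : 𝔑.mu c m ≤ 𝔑.dc c m / 10 := by
    unfold PvrcNum.mu
    nlinarith
  have t1 : 0 ≤ 2 * ((2 * nB + 2 : ℕ) : ℝ) * 𝔤.dl * pvlmH m := by positivity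
  have t2 : 0 ≤ 2 * ((nB : ℝ) + 1) * 𝔤.dl * pvlmH m := by positivity
  have t3 : 0 ≤ 𝔤.b3 * pvlmH m := by positivity
  have t4 : 0 ≤ 𝔤.dl * pvlmH m := by positivity
  have eA : A * pvlmH m = 6 * (𝔤.b3 * pvlmH m) + pvlmH m + 2 * ((2 * nB + 2 : ℕ) : ℝ) * 𝔤.dl * pvlmH m + 2 * ((nB : ℝ) + 1) * 𝔤.dl * pvlmH m + 10 * (𝔤.dl * pvlmH m) := by
    rw [hA]; ring
  rw [eA] at hm
  refine ⟨hR, (pvrc_mu_pos hrel.ok c m).le, by linarith, ?_, ?_, by linarith, ?_, by linarith, ?_, by linarith⟩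
  · have := hrel.kρ
    unfold PvrcNum.rho PvrcNum.mu
    nlinarith
  · have := hrel.kσ
    unfold PvrcNum.sig
    have e : 10 * 𝔤.b3 * pvlmH m = (10 * 𝔤.b3) * pvlmH m := rfl
    have : 𝔑.kσ * pvlmH m + pvlmH m ≤ 10 * 𝔤.b3 * pvlmH m := by nlinarith
    have : 𝔤.dl * pvlmH m ≤ pvlmH m := by nlinarith
    linarith
  · have e : 2 * ((2 * nB + 2 : ℕ) : ℝ) * (𝔤.dl * pvlmH m) = 2 * ((2 * nB + 2 : ℕ) : ℝ) * 𝔤.dl * pvlmH m := by ring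
    rw [e]
    linarith
  · have e : 2 * ((nB : ℝ) + 1) * (𝔤.dl * pvlmH m) = 2 * ((nB : ℝ) + 1) * 𝔤.dl * pvlmH m := by ring
    rw [e]
    linarith

/-- **(K3) OF THE ROOF `cover`, GENERIC IN THE PINS**: every family of pins which are fitted in the sense of `Tr/ModP` -/
theorem pvqg_met_gen (H : 𝔤.OK) (hrel : PvqgRel 𝔤 𝔑) (c0 : 0 < c) (hR : 0 < R) (𝔐 : PvbMenu (PvmhT 𝔤)) (pins : ℕ → ℝ → PVSample → PvbRim → Set (PvbPin (PvmhT 𝔤)))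
    (hpins : ∀ m ε ω P, ∀ s ∈ pins m ε ω P, 𝔤.Fit (pvlmH m) P s.idx s.ctr s.typ) : PvrcMet 𝔑 c (pvfjmPlug 𝔤.NN PvmhT.typ) 𝔐 pins x R := by
  unfold PvrcMet
  filter_upwards [pvqg_num2_ev H hrel c0 hR (pvfjmPlug 𝔤.NN (PvmhT.typ (𝔤 := 𝔤))).nB] with m hm
  intro ε ω P s t kb kf _ _ _ hpair _ _ _ _ HP
  obtain ⟨cs, ts, Ss⟩ := pvqg_pin_of_fit H (hpins m ε ω P s hpair.hs)
  obtain ⟨ct, tt, St⟩ := pvqg_pin_of_fit H (hpins m ε ω P t hpair.ht)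
  have I : PvqgIn 𝔤.NN PvmhT.typ (pvlmN c m) (𝔑.dc c m) (𝔤.dl * pvlmH m) (𝔤.mu * pvlmH m) (𝔑.mu c m) (𝔑.rho c m) (𝔑.sig m) (pvlmH m) (𝔤.a3 * pvlmH m) (𝔤.b3 * pvlmH m) (10 * 𝔤.b3 * pvlmH m)
      (𝔤.d0 * pvlmH m) (𝔤.e0 * pvlmH m) (𝔤.d1 * pvlmH m) (𝔤.e1 * pvlmH m) (𝔤.dl * pvlmH m * 𝔤.NN.rB) R (R / 3) (pvlmH m) x 𝔐 P s t cs ct ts tt kb kf :=
    { numOK := pvmh_numOK H
      hWP := by have := pvmh_bars H; omega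
      hty := fun t => t.isType
      hk := pvlm_N_pos c m
      hdc := pvrc_dc_pos hrel.ok c m
      hδ := by rw [pvrc_dc_mul hrel.ok c m, hrel.dl]
      N := pvmh_num H (pvlm_H_pos m)
      hr := rfl
      N2 := hm
      Ss := Ss
      St := St
      H := HP
      lt := hpair.lt
      arc := hpair.arc
      far := hpair.far }
  exact ⟨_, _, I.met (pvrc_kB_spec hrel.ok c m x R)⟩

/-- **(K3) AT THE PARAMETER OF ROAD P** (186, `Exit/ParP.lean`) -/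
theorem pvqg_met_par (H : PvrzGood 𝔤) (hrel : PvqgRel 𝔤 𝔑) (c0 : 0 < c) (hR : 0 < R) (Γ : ℕ → PvtsGeo (PvmhT 𝔤)) (m0 : ℕ) :
    PvrcMet 𝔑 c (pvfjmPlug 𝔤.NN PvmhT.typ) (pvrzPar c 𝔤 H Γ m0).𝔐 ((pvrzPar c 𝔤 H Γ m0).pins x R) x R :=
  pvqg_met_gen H.ok hrel c0 hR _ _ fun m ε ω P s hs => (hs.2.2.2 : PvspQual _ _ _ _ _ _ _ _).fit

end model

/-! ## 2. the fields `𝔇 : PvrxPat`, `PvrxCover 𝔇` at the parameter of road P -/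

section fields

variable {𝔤 : PvmhNum} {𝔑 : PvrcNum} {c R : ℝ} {x : ℂ}

/-- the plug of the menu of road P, in menu cells -/
noncomputable def pvqgPL (𝔤 : PvmhNum) : PvfjPlug (PvmhT 𝔤) := pvfjmPlug 𝔤.NN PvmhT.typ

theorem pvqg_PL_wf (H : 𝔤.OK) : (pvqgPL 𝔤).WF := pvfjm_wf (pvmh_numOK H) (by have := pvmh_bars H; omega) fun t => t.isType

/-- **THE PATTERNS OF ROAD P IN THE PATCH `(x,R)`**: the family of 138 / 236 at the parameter of 186 -/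
noncomputable def pvqgPat (H : PvrzGood 𝔤) (hrel : PvqgRel 𝔤 𝔑) (Γ : ℕ → PvtsGeo (PvmhT 𝔤)) (hΓ : PvrcDoors 𝔑 c (pvqgPL 𝔤) Γ) (m0 : ℕ) (hLr : (pvrzPar c 𝔤 H Γ m0).Lr ≤ 𝔑.Lr) (x : ℂ) (R : ℝ) :
    PvrxPat (pvrzPar c 𝔤 H Γ m0) x R where
  Pat := pvrcPat 𝔑 c (pvqgPL 𝔤) x R
  Pat_fin := fun m => pvrc_pat_fin (pvqg_PL_wf H.ok) m
  pat := fun m π => pvrcPatOf m π
  pat_ok := fun m π => pvrc_pat_ok hrel.ok hΓ m π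
  far := fun m π => by
    have h1 := pvrc_pat_far m π
    have h2 := pvlm_H_pos m
    have h3 : 2 * (pvrzPar c 𝔤 H Γ m0).Lr * pvlmH m ≤ 2 * 𝔑.Lr * pvlmH m := by nlinarith
    exact lt_of_le_of_lt h3 h1
  Fit := fun m _ ω P s t π => PvrcFit (pvmhMenu 𝔤 H.ok) m ω P s t π
  fit_s := fun _ _ _ _ _ _ _ h => pvrc_fit_s h
  fit_t := fun _ _ _ _ _ _ _ h => pvrc_fit_t h

theorem pvqg_eqns_cite4 : True := by
  have := @pvqgPL.eq_1; have := @pvqgPat.eq_1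
  trivial

/-- **THE FIELD `cover` OF ROAD P AT THE PARAMETER**: from `pinsOK` alone -/
theorem pvqg_cover (H : PvrzGood 𝔤) (hrel : PvqgRel 𝔤 𝔑) (c0 : 0 < c) (hR : 0 < R) (Γ : ℕ → PvtsGeo (PvmhT 𝔤)) (hΓ : PvrcDoors 𝔑 c (pvqgPL 𝔤) Γ) (m0 : ℕ)
    (hLr : (pvrzPar c 𝔤 H Γ m0).Lr ≤ 𝔑.Lr) (_hpins : PvrxPinsOK (pvrzPar c 𝔤 H Γ m0) x R) : PvrxCover (pvqgPat H hrel Γ hΓ m0 hLr x R) := by
  have h := pvrc_cover_det (𝔐 := pvmhMenu 𝔤 H.ok) (pins := (pvrzPar c 𝔤 H Γ m0).pins x R) (Ex := fun _ _ _ _ _ _ => True) hrel.ok c0 hR (pvqg_PL_wf H.ok)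
    (fun m ε ω P s hs => by
      obtain ⟨lo, hi, Hp⟩ := hs.2.2.2.pass
      exact ⟨pvmh_isPin H.ok (pvlm_H_pos m).le s.typ Hp hs.2.2.2.near, hs.2.2.1⟩)
    (pvqg_met_par H hrel c0 hR Γ m0) (Eventually.of_forall fun _ _ _ _ _ _ _ => trivial)
  simp only [and_true] at h
  exact pvrc_ord_rims (pvdb_blk_sub x R) h

/-- numbers of the roof which satisfy all the relations -/
noncomputable def pvqgNum (𝔤 : PvmhNum) (mm : ℤ) (Lr : ℝ) : PvrcNum := ⟨𝔤.dl, mm, 7, 2, 1 / 10, Lr⟩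

theorem pvqg_num_rel (H : 𝔤.OK) {mm : ℤ} (hmm : 10 ≤ mm) (Lr : ℝ) : PvqgRel 𝔤 (pvqgNum 𝔤 mm Lr) := by
  obtain ⟨h0, h1, h2, h3, h4, h5⟩ := pvmh_basic H
  have hb3 : 𝔤.b3 = 𝔤.b 2 + 1 := rfl
  refine ⟨⟨h0, by show 𝔤.dl ≤ 1; linarith, hmm, by show (0 : ℝ) < 7; norm_num, by show (1 : ℝ) < 2; norm_num, by show (0 : ℝ) < 1 / 10; norm_num, le_rfl⟩, rfl, ?_, ?_⟩
  · show (6 : ℝ) + 2 * (1 / 10) ≤ 7
    norm_num
  · show (2 : ℝ) + 1 ≤ 10 * 𝔤.b3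
    rw [hb3]
    linarith

theorem pvqg_eqns_cite5 : True := by
  have := @pvqgNum.eq_1
  trivial

end fields

end Claimed.Agent.R289
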