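import Claimed.Agent.R289.Tr.CellRef
import Claimed.Agent.R289.Tr.InB

/-!
# Row 289 (S0537), Exit/CoverP : THE ROOF OF THE FIELD `cover` ON ROAD P      (pen helper236, post of 273 id 80086; prefix `pvrc_`, `pvrc`, `Pvrc`; cell kit in `Tr/CellRef.lean`)

WHAT.   The fields `Pat Pat_fin pat pat_ok far Fit fit_s fit_t cover` of the record of road P (`PvrxArc` of 79 `Exit/TrP.lean`, `PvrpBaseQ` / `PvruInQ` of 286 `Tr/RoadPU.lean`), as DEFINITIONS + PROVED statements, GENERIC in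
`(τ, 𝔐 : PvbMenu τ, Γ : ℕ → PvtsGeo τ, pins : ℕ → ℝ → PVSample → PvbRim → Set (PvbPin τ))`:   nothing of the model of road P is unfolded, so the file survives every retyping of `StateP / ModP / TrP`.
SCALES OF LEVEL `m` (`𝔑 : PvrcNum`):   `h = pvlmH m`, `r = pvlmR c m`;   coarse cell of the patterns `dc = dl · pvlmDel c m` (`= dl h / N`, `N = pvlmN c m`);   fine cell `dc / (2 mm + 1) = (Γ m).δ`;
      mesh `μ = kμ dc`;   near returns excluded at `(ρ, σ - h)`, `ρ = kρ dc`, `σ = kσ h`, at ALL centres of `B(x,2R)`.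
INPUTS.   (K0) `PL : PvfjPlug τ`, `PL.WF` = the plug of the menu in MENU cells (138 `Tr/FitPM.lean`); level `m` uses `PL.ref N`.      (K1) `PvrcPinsOK` = field `pinsOK` VERBATIM (8 12 `Exit/PinsP.lean`).
      (K2) near returns: `pvni_near_main` (ARM, CLOSED) + `pvlm_zeta_lim_any` (247 295).      (K3) **`PvrcMet`** = THE ONLY DEBT, DETERMINISTIC (222 `Tr/PlugGeo.lean` sec. 3): fine mesh + pair of pins `(A1)` + `PvtvPolyIn` ⟹ `PvfjMet (PL.ref N) dc k P s t cs ct`.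
OUTPUT.   `pvrcPat`, `pvrcPatOf`, `PvrcFit`, `pvrc_pat_fin`, `pvrc_pat_ok`, `pvrc_far`', `pvrc_fit_s`, `pvrc_fit_t`, **`pvrc_cover`**.      `PvrcFit` carries ALL that is known on the good event (mesh, `(A1)`, `PvbIsPin`, grid centres, no near return): for `telP`, `stab`, `act`.
sec. 7 (11:58Z): **`pvrc_cover_det`** = the same roof WITHOUT `pinsOK` (the cut of 186 `exit_pvrz_rest` has no `pinsOK`): the density of the pins is not used, only the deterministic facts "a qualified pin is `PvbIsPin` with a grid centre";   + an extra clause `Ex` in the fit (79: `PvrvFit`).      AT THE MODEL: `Exit/CoverPM.lean`.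
sec. 8 (12:25Z): `pvrc_ord_rims` = every statement "∀ rims of a family, off an ordered-small event" passes to a SUBFAMILY of rims (ruling P10 of 273: `pvdbBlk ⊆ pvhbAll`).
-/

set_option autoImplicit false
set_option linter.unusedSectionVars false

namespace Claimed.Agent.R289

open MeasureTheory Filter Topology Set Claims.C0465

/-! ## 1. ordered limits: finitely many exceptional events -/

section setform

variable {τ : Type} {Ω J : Type} {l : Filter J} {cap : J → Set Ω → ℝ} {x : ℂ} {R : ℝ}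

theorem pvrc_ord_mono {p q : ℕ → J → ℝ} (hq : PvtvOrd l q) (h : ∀ᶠ m in atTop, ∀ᶠ j in l, p m j ≤ q m j) : PvtvOrd l p := by
  intro η hη
  filter_upwards [hq η hη, h] with m h1 h2
  filter_upwards [h1, h2] with j g1 g2
  exact g2.trans g1

/-- finitely many ordered-small terms -/
theorem pvrc_ord_sum {ι : Type} (S : Finset ι) {p : ι → ℕ → J → ℝ} (hp : ∀ i ∈ S, PvtvOrd l (p i)) : PvtvOrd l (fun m j => ∑ i ∈ S, p i m j) := by
  classical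
  induction S using Finset.induction_on with
  | empty =>
    intro η hη
    exact Eventually.of_forall fun m => Eventually.of_forall fun j => by simpa using hη.le
  | insert a s ha ih =>
    refine pvtv_ord_add_gen (hp a (Finset.mem_insert_self _ _)) (ih fun i hi => hp i (Finset.mem_insert_of_mem hi)) ?_
    exact Eventually.of_forall fun m => Eventually.of_forall fun j => by rw [Finset.sum_insert ha]

/-- **COVER, SET FORM**: finitely many ordered-small exceptional events, off which (eventually in `m`, then in `j`) every `(A1)` pair is fitted -/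
theorem pvrc_cover_set {κ : Type} {Pat : ℕ → Type} (hcap : ∀ j, PvtvCap (cap j)) {rims : Ω → Set PvbRim}
    {pins : ℕ → J → Ω → PvbRim → Set (PvbPin τ)} {Fit : ∀ m : ℕ, J → Ω → PvbRim → PvbPin τ → PvbPin τ → Pat m → Prop}
    (E : Finset κ) {Exc : κ → ℕ → J → Set Ω} (hexc : ∀ i ∈ E, PvtvOrd l (fun m j => cap j (Exc i m j)))
    (fit : ∀ᶠ m in atTop, ∀ᶠ j in l, ∀ o, (∀ i ∈ E, o ∉ Exc i m j) → ∀ P ∈ rims o, ∀ s t, PvtvPair x R P (pins m j o P) s t → ∃ π : Pat m, Fit m j o P s t π) :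
    PvtvOrd l (fun m j => cap j {o | ¬ ∀ P ∈ rims o, ∀ s ∈ pins m j o P, ∀ t ∈ pins m j o P, s.idx < t.idx →
      (∀ k, s.idx ≤ k → k ≤ t.idx → ‖P.v k - x‖ ≤ 2 * R) → R / 3 ≤ ‖s.ctr - t.ctr‖ → ∃ π : Pat m, Fit m j o P s t π}) := by
  refine pvrc_ord_mono (pvrc_ord_sum E hexc) ?_
  filter_upwards [fit] with m hm
  filter_upwards [hm] with j hj
  refine ((hcap j).mono ?_).trans ((hcap j).biUnion E fun i => Exc i m j)
  intro o ho
  by_contra hcon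
  apply ho
  intro P hP s hs t ht hlt hin hfar
  exact hj o (fun i hi hoi => hcon (Set.mem_biUnion hi hoi)) P hP s t ⟨hs, ht, hlt, hin, hfar⟩

end setform

/-! ## 2. the numbers and the scales -/

/-- the numbers of the roof -/
structure PvrcNum where
  /-- the cell of the menu, in units of `h` -/
  dl : ℝ
  /-- a coarse cell of the patterns = `(2 mm + 1)²` fine cells -/
  mm : ℤ
  /-- `ρ = kρ dc` -/
  kρ : ℝ
  /-- `σ = kσ h` -/
  kσ : ℝ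
  /-- `μ = kμ dc` -/
  kμ : ℝ
  /-- the reading radius of a candidate, in units of `h` -/
  Lr : ℝ

structure PvrcNum.Ok (𝔑 : PvrcNum) : Prop where
  dl0 : 0 < 𝔑.dl
  dl1 : 𝔑.dl ≤ 1
  mm10 : 10 ≤ 𝔑.mm
  kρ0 : 0 < 𝔑.kρ
  kσ1 : 1 < 𝔑.kσ
  kμ0 : 0 < 𝔑.kμ
  kμ1 : 𝔑.kμ ≤ 1 / 10

namespace PvrcNum

variable (𝔑 : PvrcNum) (c : ℝ) (m : ℕ)

/-- the coarse cell of the patterns of level `m` -/
noncomputable def dc : ℝ := 𝔑.dl * pvlmDel c m
noncomputable def rho : ℝ := 𝔑.kρ * 𝔑.dc c m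
noncomputable def sig : ℝ := 𝔑.kσ * pvlmH m
noncomputable def mu : ℝ := 𝔑.kμ * 𝔑.dc c m
/-- half side, in coarse cells, of a box centred at `0` which contains `B(x,3R)` -/
noncomputable def kB (x : ℂ) (R : ℝ) : ℕ := ⌈(‖x‖ + 3 * R) / 𝔑.dc c m⌉₊ + 1
/-- half side of the box of the patterns, in fine cells -/
noncomputable def nB (x : ℂ) (R : ℝ) : ℕ := ((2 * 𝔑.mm + 1) * ((𝔑.kB c m x R : ℤ) + 1) + 1).toNat

end PvrcNum

theorem pvrc_eqns_cite2 : True := by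
  have := @PvrcNum.dc.eq_1; have := @PvrcNum.rho.eq_1; have := @PvrcNum.sig.eq_1; have := @PvrcNum.mu.eq_1; have := @PvrcNum.kB.eq_1; have := @PvrcNum.nB.eq_1
  trivial

section scales

variable {𝔑 : PvrcNum} (H : 𝔑.Ok) (c : ℝ) (m : ℕ)

include H

theorem pvrc_dc_pos : 0 < 𝔑.dc c m := mul_pos H.dl0 (pvlm_Del_pos c m)

theorem pvrc_rho_pos : 0 < 𝔑.rho c m := mul_pos H.kρ0 (pvrc_dc_pos H c m)

theorem pvrc_mu_pos : 0 < 𝔑.mu c m := mul_pos H.kμ0 (pvrc_dc_pos H c m)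

/-- the cell of the menu is `N` coarse cells -/
theorem pvrc_dc_mul : (pvlmN c m : ℝ) * 𝔑.dc c m = 𝔑.dl * pvlmH m := by
  unfold PvrcNum.dc
  rw [← pvlm_N_mul_Del c m]
  ring

theorem pvrc_nB_spec (x : ℂ) (R : ℝ) : (2 * 𝔑.mm + 1) * ((𝔑.kB c m x R : ℤ) + 1) + 1 ≤ (𝔑.nB c m x R : ℤ) := by
  unfold PvrcNum.nB
  exact Int.self_le_toNat _

theorem pvrc_kB_spec (x : ℂ) (R : ℝ) : ‖x‖ + 3 * R + 𝔑.dc c m ≤ (𝔑.kB c m x R : ℝ) * 𝔑.dc c m := by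
  have hd := pvrc_dc_pos H c m
  have h1 : (‖x‖ + 3 * R) / 𝔑.dc c m ≤ (⌈(‖x‖ + 3 * R) / 𝔑.dc c m⌉₊ : ℝ) := Nat.le_ceil _
  rw [div_le_iff₀ hd] at h1
  unfold PvrcNum.kB
  push_cast
  nlinarith

end scales

/-- `μ_m ≤ h_m / 10` -/
theorem pvrc_mu_le {𝔑 : PvrcNum} (H : 𝔑.Ok) {c : ℝ} (c0 : 0 < c) (m : ℕ) : 𝔑.mu c m ≤ pvlmH m / 10 := by
  have h1 := pvlm_Del_le_H c0 m
  have h2 := pvlm_Del_pos c m
  have h3 : 𝔑.dc c m ≤ pvlmH m := by
    unfold PvrcNum.dc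
    have := H.dl0; have := H.dl1
    nlinarith
  have h4 := pvrc_dc_pos H c m
  unfold PvrcNum.mu
  have := H.kμ0; have := H.kμ1
  nlinarith

/-- the numerical relations which hold eventually -/
theorem pvrc_num_ev {𝔑 : PvrcNum} (H : 𝔑.Ok) {c : ℝ} (c0 : 0 < c) {R : ℝ} (hR : 0 < R) :
    ∀ᶠ m in atTop, 6 * 𝔑.rho c m ≤ 𝔑.sig m - pvlmH m ∧ 𝔑.sig m - pvlmH m ≤ R ∧ 𝔑.rho c m ≤ R ∧ 𝔑.mu c m ≤ R ∧ 2 * 𝔑.Lr * pvlmH m < R / 3 := by
  have hk : 0 < 𝔑.kσ - 1 := by have := H.kσ1; linarith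
  have l1 := pvlm_Del_beats_any c0 (c1 := 1) one_pos (6 * 𝔑.kρ * 𝔑.dl / (𝔑.kσ - 1)) 1
  have l2 : Tendsto (fun m => (𝔑.kσ - 1) * pvlmH m) atTop (𝓝 0) := by simpa using pvlm_H_lim.const_mul (𝔑.kσ - 1)
  have l3 : Tendsto (fun m => 2 * 𝔑.Lr * pvlmH m) atTop (𝓝 0) := by simpa using pvlm_H_lim.const_mul (2 * 𝔑.Lr)
  have l4 : Tendsto (fun m => pvlmH m / 10) atTop (𝓝 0) := by simpa using pvlm_H_lim.div_const 10
  filter_upwards [l1.eventually (ge_mem_nhds one_pos), l2.eventually (ge_mem_nhds hR), l3.eventually (gt_mem_nhds (show (0 : ℝ) < R / 3 by positivity)),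
    l4.eventually (ge_mem_nhds hR)] with m h1 h2 h3 h4
  have hh := pvlm_H_pos m
  have hρ := pvrc_rho_pos H c m
  rw [Real.rpow_one, Real.rpow_neg hh.le, Real.rpow_one] at h1
  have e : 6 * 𝔑.kρ * 𝔑.dl / (𝔑.kσ - 1) * (pvlmDel c m * (pvlmH m)⁻¹) = 6 * 𝔑.rho c m / ((𝔑.kσ - 1) * pvlmH m) := by
    unfold PvrcNum.rho PvrcNum.dc
    field_simp
  rw [e, div_le_one (by positivity)] at h1
  have e2 : 𝔑.sig m - pvlmH m = (𝔑.kσ - 1) * pvlmH m := by unfold PvrcNum.sig; ring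
  rw [e2]
  exact ⟨h1, h2, by linarith, (pvrc_mu_le H c0 m).trans h4, h3⟩

/-! ## 3. the pattern family, the fit -/

section family

variable {τ : Type} (𝔑 : PvrcNum) (c : ℝ) (PL : PvfjPlug τ) (x : ℂ) (R : ℝ)

/-- the plug of level `m` -/
noncomputable def pvrcPL (m : ℕ) : PvfjPlug τ := PL.ref (pvlmN c m)

/-- **field `Pat`**: the patterns of TR19-P at the pattern scale whose two candidates are far apart -/
def pvrcPat (m : ℕ) : Type :=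
  {π : PvfjPat (pvrcPL c PL m) 𝔑.mm (𝔑.nB c m x R) // 2 * 𝔑.Lr * pvlmH m < ‖pvmgPt (𝔑.dc c m) π.1.cs - pvmgPt (𝔑.dc c m) π.1.ct‖}

variable {𝔑 c PL x R}

/-- **field `pat`** -/
noncomputable def pvrcPatOf (m : ℕ) (π : pvrcPat 𝔑 c PL x R m) : PvtsPat τ := π.1.pat (𝔑.dc c m)

/-- **field `Pat_fin`** -/
theorem pvrc_pat_fin [Finite τ] (hPL : PL.WF) (m : ℕ) : Finite (pvrcPat 𝔑 c PL x R m) := by
  have : Finite (PvfjPat (pvrcPL c PL m) 𝔑.mm (𝔑.nB c m x R)) := pvfj_pat_finite (hPL.ref (pvlm_N_pos c m))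
  exact Subtype.finite

/-- **field `far`** -/
theorem pvrc_pat_far (m : ℕ) (π : pvrcPat 𝔑 c PL x R m) : 2 * 𝔑.Lr * pvlmH m < ‖(pvrcPatOf m π).zs - (pvrcPatOf m π).zt‖ := π.2

/-- **the doors of record**: `Γ m` is built from the plug of level `m`      [pen of `Γ`-P: 222 / 186] -/
structure PvrcDoors (𝔑 : PvrcNum) (c : ℝ) (PL : PvfjPlug τ) (Γ : ℕ → PvtsGeo τ) : Prop where
  del : ∀ m, (Γ m).δ = 𝔑.dc c m / (2 * (𝔑.mm : ℝ) + 1)
  pout : ∀ m t, (Γ m).pout t = pvfjDoor 𝔑.mm (𝔑.dc c m) ((pvrcPL c PL m).yp t) (PL.dp t)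
  dout : ∀ m t, (Γ m).dout t = pvtZ (PL.dp t)
  pin : ∀ m t, (Γ m).pin t = pvfjDoor 𝔑.mm (𝔑.dc c m) ((pvrcPL c PL m).ym t) (PL.dm t)
  din : ∀ m t, (Γ m).din t = - pvtZ (PL.dm t)

/-- **field `pat_ok`** -/
theorem pvrc_pat_ok (H : 𝔑.Ok) {Γ : ℕ → PvtsGeo τ} (hΓ : PvrcDoors 𝔑 c PL Γ) (m : ℕ) (π : pvrcPat 𝔑 c PL x R m) : (Γ m).Ok (pvrcPatOf m π) :=
  pvfj_pat_ok (Γ m) (by have := H.mm10; omega) (hΓ.del m) (hΓ.pout m) (hΓ.dout m) (hΓ.pin m) (hΓ.din m) π.1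

/-- **field `Fit`**: the pattern is the one of `(P, s, t)`, and ALL that is known on the good event -/
structure PvrcFit (𝔐 : PvbMenu τ) (m : ℕ) (ω : PVSample) (P : PvbRim) (s t : PvbPin τ) (π : pvrcPat 𝔑 c PL x R m) : Prop where
  fit : PvfjFit (𝔑.dc c m) P s t π.1.1
  rim : P ∈ pvhbAll x R ω
  /-- general position and fine mesh on `B(x,6R)` -/
  good : PvqfGood (pvConf ω)
  fine : L9Fine (pvxY ω) (Metric.closedBall x (6 * R)) (𝔑.mu c m)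
  /-- `(A1)` -/
  lt : s.idx < t.idx
  arc : ∀ k, s.idx ≤ k → k ≤ t.idx → ‖P.v k - x‖ ≤ 2 * R
  apart : R / 3 ≤ ‖s.ctr - t.ctr‖
  pin_s : PvbIsPin 𝔐 (pvlmH m) P s
  pin_t : PvbIsPin 𝔐 (pvlmH m) P t
  grid_s : ∃ p : ℤ × ℤ, s.ctr = l9Pt (pvlmH m) p
  grid_t : ∃ p : ℤ × ℤ, t.ctr = l9Pt (pvlmH m) p
  /-- no near return at the pattern scale -/
  nr : ∀ w, ‖w - x‖ ≤ 2 * R → ¬ PvbNearRet P w (𝔑.rho c m) (𝔑.sig m - pvlmH m)
  /-- the polygonal form -/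
  poly : ∃ kb kf, PvtvPolyIn 𝔐 x R (pvlmH m) (𝔑.mu c m) (𝔑.rho c m) (𝔑.sig m) P s t kb kf

/-- **field `fit_s`** -/
theorem pvrc_fit_s {𝔐 : PvbMenu τ} {m : ℕ} {ω : PVSample} {P : PvbRim} {s t : PvbPin τ} {π : pvrcPat 𝔑 c PL x R m} (h : PvrcFit 𝔐 m ω P s t π) :
    s.ctr = (pvrcPatOf m π).zs ∧ s.typ = (pvrcPatOf m π).ts := pvfj_fit_s h.fit

/-- **field `fit_t`** -/
theorem pvrc_fit_t {𝔐 : PvbMenu τ} {m : ℕ} {ω : PVSample} {P : PvbRim} {s t : PvbPin τ} {π : pvrcPat 𝔑 c PL x R m} (h : PvrcFit 𝔐 m ω P s t π) :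
    t.ctr = (pvrcPatOf m π).zt ∧ t.typ = (pvrcPatOf m π).tt := pvfj_fit_t h.fit

end family

/-! ## 4. the inputs -/

section inputs

variable {τ : Type} (𝔑 : PvrcNum) (c : ℝ) (PL : PvfjPlug τ) (𝔐 : PvbMenu τ) (pins : ℕ → ℝ → PVSample → PvbRim → Set (PvbPin τ)) (x : ℂ) (R : ℝ)

/-- the event of the field `pinsOK` -/
def pvrcPinsBad (m : ℕ) (ε : ℝ) : Set (PvGeoT × PvColT) := {q | ¬ ∀ P ∈ pvhbAll x R (pvMerge q),
    (∀ s ∈ pins m ε (pvMerge q) P, PvbIsPin 𝔐 (pvlmH m) P s ∧ ∃ p : ℤ × ℤ, s.ctr = l9Pt (pvlmH m) p) ∧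
    (∀ i i', i ≤ i' → i' ≤ P.len → (∀ k, i ≤ k → k ≤ i' → ‖P.v k - x‖ ≤ 2 * R) → pvlmR c m ≤ ‖P.v i' - P.v i‖ → ∃ s ∈ pins m ε (pvMerge q) P, i ≤ s.idx ∧ s.idx ≤ i')}

/-- **(K1)** = the field `pinsOK`, VERBATIM (`PvrxPinsOK 𝔓 x R` of 79 at `pins := 𝔓.pins x R`, `𝔐 := 𝔓.𝔐`: `Iff.rfl`) -/
def PvrcPinsOK : Prop := PvhbOrd (fun m ε => ((pvhbUp ε).P (pvrcPinsBad c 𝔐 pins x R m ε)).toReal)

/-- **(K3) THE DETERMINISTIC DEBT OF THE ROOF**      [222 `Tr/PlugGeo.lean` sec. 3;  type level 138 `Tr/FitPM.lean`;  per pin 8 `Tr/ModP.lean`, `Tr/MenuFit.lean`]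
for all large levels: fine mesh, `P` an encoded reaching rim of a completion, `(s,t)` an `(A1)` pair of QUALIFIED pins with grid centres which are `PvbIsPin`, the polygonal input of TR19 at the pattern scale ⟹ the metric contract of 138 for the REFINED plug -/
def PvrcMet : Prop :=
  ∀ᶠ m in atTop, ∀ (ε : ℝ) (ω : PVSample) (P : PvbRim) (s t : PvbPin τ) (kb kf : ℕ), PvqfGood (pvConf ω) → L9Fine (pvxY ω) (Metric.closedBall x (6 * R)) (𝔑.mu c m) → P ∈ pvhbAll x R ω →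
    PvtvPair x R P (pins m ε ω P) s t → PvbIsPin 𝔐 (pvlmH m) P s → PvbIsPin 𝔐 (pvlmH m) P t → (∃ p : ℤ × ℤ, s.ctr = l9Pt (pvlmH m) p) → (∃ p : ℤ × ℤ, t.ctr = l9Pt (pvlmH m) p) →
    PvtvPolyIn 𝔐 x R (pvlmH m) (𝔑.mu c m) (𝔑.rho c m) (𝔑.sig m) P s t kb kf →
      ∃ cs ct : ℤ × ℤ, PvfjMet (pvrcPL c PL m) (𝔑.dc c m) (𝔑.kB c m x R) P s t cs ct

/-- the event "some reaching rim has a near return at the pattern scale, at some centre of `B(x,2R)`" -/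
def pvrcNR (m : ℕ) : Set (PvGeoT × PvColT) := {q | ∃ P ∈ pvhbAll x R (pvMerge q), ∃ w, ‖w - x‖ ≤ 2 * R ∧ PvbNearRet P w (𝔑.rho c m) (𝔑.sig m - pvlmH m)}

end inputs

theorem pvrc_eqns_cite3 : True := by
  have := @pvrcPL.eq_1; have := @pvrcPat.eq_1; have := @pvrcPatOf.eq_1; have := @pvrcPinsBad.eq_1; have := @PvrcPinsOK.eq_1; have := @PvrcMet.eq_1; have := @pvrcNR.eq_1
  trivial

/-! ## 5. (K2) near returns at the pattern scale -/

/-- **(K2)**: ordered small -/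
theorem pvrc_nr_ord {𝔑 : PvrcNum} (H : 𝔑.Ok) {c : ℝ} (c0 : 0 < c) (x : ℂ) {R : ℝ} (hR : 0 < R) : PvhbOrd (fun m ε => ((pvhbUp ε).P (pvrcNR 𝔑 c x R m)).toReal) := by
  obtain ⟨c1, C, hc1, -, harm⟩ := pvni_near_main
  have hk : 0 < 𝔑.kσ - 1 := by have := H.kσ1; linarith
  have hζ := pvlm_zeta_lim_any c0 hc1 C R (k1 := 𝔑.kρ * 𝔑.dl) (k2 := 𝔑.kσ - 1) (mul_pos H.kρ0 H.dl0) hk hR
  intro η hη
  filter_upwards [hζ.eventually (ge_mem_nhds hη), pvrc_num_ev H c0 hR] with m hm hn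
  have e1 : 𝔑.kρ * 𝔑.dl * pvlmDel c m = 𝔑.rho c m := by unfold PvrcNum.rho PvrcNum.dc; ring
  have e2 : (𝔑.kσ - 1) * pvlmH m = 𝔑.sig m - pvlmH m := by unfold PvrcNum.sig; ring
  rw [e1, e2] at hm
  have hu := pvtv_union_rim_genA (l := 𝓝[>] (0 : ℝ)) (cap := fun ε A => ((pvhbUp ε).P A).toReal) (x := x) (R := R) (C1 := C) (c := c1) (A := R)
    (fun ε => pvtv_cap_up _) (rims := fun _ q => pvhbAll x R (pvMerge q)) (fun y s S hy hs hsS hSR => harm c1 le_rfl x R y s S hy hs hsS hSR)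
    (pvrc_rho_pos H c m) hn.1 hn.2.1 hn.2.2.1 hR
  filter_upwards [hu] with ε hε
  have e3 : (R / R) ^ 2 = 1 := by rw [div_self hR.ne', one_pow]
  rw [e3, one_mul] at hε
  exact le_trans hε hm

/-! ## 6. the roof -/

section roof

variable {τ : Type} {𝔑 : PvrcNum} {c : ℝ} {PL : PvfjPlug τ} {𝔐 : PvbMenu τ} {pins : ℕ → ℝ → PVSample → PvbRim → Set (PvbPin τ)} {x : ℂ} {R : ℝ}

/-- **THE FIELD `cover` OF ROAD P** -/
theorem pvrc_cover (H : 𝔑.Ok) (c0 : 0 < c) (hR : 0 < R) (hPL : PL.WF) (hpins : PvrcPinsOK c 𝔐 pins x R) (hmet : PvrcMet 𝔑 c PL 𝔐 pins x R) :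
    PvhbOrd (fun m ε => ((pvhbUp ε).P {q | ¬ ∀ P ∈ pvhbAll x R (pvMerge q), ∀ s ∈ pins m ε (pvMerge q) P, ∀ t ∈ pins m ε (pvMerge q) P, s.idx < t.idx →
      (∀ k, s.idx ≤ k → k ≤ t.idx → ‖P.v k - x‖ ≤ 2 * R) → R / 3 ≤ ‖s.ctr - t.ctr‖ → ∃ π : pvrcPat 𝔑 c PL x R m, PvrcFit 𝔐 m (pvMerge q) P s t π}).toReal) := by
  refine pvrc_cover_set (l := 𝓝[>] (0 : ℝ)) (cap := fun ε A => ((pvhbUp ε).P A).toReal) (Pat := pvrcPat 𝔑 c PL x R) (fun ε => pvtv_cap_up _)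
    (rims := fun q => pvhbAll x R (pvMerge q)) (pins := fun m ε q P => pins m ε (pvMerge q) P) (Fit := fun m _ q P s t π => PvrcFit 𝔐 m (pvMerge q) P s t π)
    (Finset.univ : Finset (Fin 3))
    (Exc := fun i m ε => if i = 0 then (pvniG x R (𝔑.mu c m))ᶜ else if i = 1 then pvrcPinsBad c 𝔐 pins x R m ε else pvrcNR 𝔑 c x R m) ?_ ?_
  · intro i _
    fin_cases i
    · exact pvni_G_ord x hR fun m => pvrc_mu_pos H c m
    · exact hpins
    · exact pvrc_nr_ord H c0 x hR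
  · filter_upwards [hmet, pvrc_num_ev H c0 hR, pvlm_par 𝔐 c0 hR (fun m => (pvrc_mu_pos H c m).le) (pvrc_mu_le H c0)] with m hm hn hpar
    refine Eventually.of_forall fun ε q hq P hP s t hpair => ?_
    have a0 : q ∈ pvniG x R (𝔑.mu c m) := by
      have := hq 0 (Finset.mem_univ _)
      simpa using this
    have a1 : q ∉ pvrcPinsBad c 𝔐 pins x R m ε := hq 1 (Finset.mem_univ _)
    have a2 : q ∉ pvrcNR 𝔑 c x R m := hq 2 (Finset.mem_univ _)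
    have hpin := (not_not.1 a1) P hP
    obtain ⟨m1, m2, m3, m4⟩ := pvni_all_mesh hR hn.2.2.2.1 a0.2 hP
    have hgood : PvbRimGood 𝔐 x R (pvlmH m) (pvlmR c m) (𝔑.mu c m) P (pins m ε (pvMerge q) P) :=
      ⟨m1, m2, m3, m4, fun u hu => (hpin.1 u hu).1, hpin.2⟩
    have hσ : pvlmH m ≤ 𝔑.sig m := by
      have := pvrc_rho_pos H c m
      linarith [hn.1]
    have hno : ∀ w, ‖w - x‖ ≤ 2 * R → ¬ PvbNearRet P w (𝔑.rho c m) (𝔑.sig m - pvlmH m) := fun w hw hnr => a2 ⟨P, hP, w, hw, hnr⟩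
    have HF := pvtv_fitIn hgood hpar hσ hno hpair
    obtain ⟨kb, kf, HP⟩ := pvtv_polyIn hgood hR hpair HF
    obtain ⟨cs, ct, M⟩ := hm ε (pvMerge q) P s t kb kf a0.1 a0.2 hP hpair (hpin.1 s hpair.hs).1 (hpin.1 t hpair.ht).1 (hpin.1 s hpair.hs).2 (hpin.1 t hpair.ht).2 HP
    obtain ⟨π, hπ⟩ := pvfj_met_fit (m := 𝔑.mm) (n := 𝔑.nB c m x R) (hPL.ref (pvlm_N_pos c m)) (pvrc_dc_pos H c m) H.mm10 (pvrc_nB_spec H c m x R) M
    have hfar : 2 * 𝔑.Lr * pvlmH m < ‖pvmgPt (𝔑.dc c m) π.1.cs - pvmgPt (𝔑.dc c m) π.1.ct‖ := by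
      rw [← hπ.1, ← hπ.2.2.1]
      exact lt_of_lt_of_le hn.2.2.2.2 hpair.far
    exact ⟨⟨π, hfar⟩, ⟨hπ, hP, a0.1, a0.2, hpair.lt, hpair.arc, hpair.far, (hpin.1 s hpair.hs).1, (hpin.1 t hpair.ht).1, (hpin.1 s hpair.hs).2, (hpin.1 t hpair.ht).2, hno, kb, kf, HP⟩⟩

end roof

/-! ## 7. the roof WITHOUT `pinsOK`, with an extra clause in the fit -/

section roof2

variable {τ : Type} {𝔑 : PvrcNum} {c : ℝ} {PL : PvfjPlug τ} {𝔐 : PvbMenu τ} {pins : ℕ → ℝ → PVSample → PvbRim → Set (PvbPin τ)} {x : ℂ} {R : ℝ}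

/-- **THE FIELD `cover` OF ROAD P, SECOND FORM**: the density of the pins is not used;   what is used of the pins is DETERMINISTIC (`hpin`: a qualified pin is a pin of the menu with a grid centre).
`Ex` = any clause which holds for every `(A1)` pair at all large levels (79: `PvrvFit`). -/
theorem pvrc_cover_det (H : 𝔑.Ok) (c0 : 0 < c) (hR : 0 < R) (hPL : PL.WF)
    (hpin : ∀ m ε ω P, ∀ s ∈ pins m ε ω P, PvbIsPin 𝔐 (pvlmH m) P s ∧ ∃ p : ℤ × ℤ, s.ctr = l9Pt (pvlmH m) p)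
    (hmet : PvrcMet 𝔑 c PL 𝔐 pins x R)
    {Ex : ℕ → ℝ → PVSample → PvbRim → PvbPin τ → PvbPin τ → Prop}
    (hex : ∀ᶠ m in atTop, ∀ ε ω P s t, PvtvPair x R P (pins m ε ω P) s t → Ex m ε ω P s t) :
    PvhbOrd (fun m ε => ((pvhbUp ε).P {q | ¬ ∀ P ∈ pvhbAll x R (pvMerge q), ∀ s ∈ pins m ε (pvMerge q) P, ∀ t ∈ pins m ε (pvMerge q) P, s.idx < t.idx →
      (∀ k, s.idx ≤ k → k ≤ t.idx → ‖P.v k - x‖ ≤ 2 * R) → R / 3 ≤ ‖s.ctr - t.ctr‖ →
        ∃ π : pvrcPat 𝔑 c PL x R m, PvrcFit 𝔐 m (pvMerge q) P s t π ∧ Ex m ε (pvMerge q) P s t}).toReal) := by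
  refine pvrc_cover_set (l := 𝓝[>] (0 : ℝ)) (cap := fun ε A => ((pvhbUp ε).P A).toReal) (Pat := pvrcPat 𝔑 c PL x R) (fun ε => pvtv_cap_up _)
    (rims := fun q => pvhbAll x R (pvMerge q)) (pins := fun m ε q P => pins m ε (pvMerge q) P)
    (Fit := fun m ε q P s t π => PvrcFit 𝔐 m (pvMerge q) P s t π ∧ Ex m ε (pvMerge q) P s t)
    (Finset.univ : Finset (Fin 2))
    (Exc := fun i m _ => if i = 0 then (pvniG x R (𝔑.mu c m))ᶜ else pvrcNR 𝔑 c x R m) ?_ ?_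
  · intro i _
    fin_cases i
    · exact pvni_G_ord x hR fun m => pvrc_mu_pos H c m
    · exact pvrc_nr_ord H c0 x hR
  · filter_upwards [hmet, pvrc_num_ev H c0 hR, pvlm_par 𝔐 c0 hR (fun m => (pvrc_mu_pos H c m).le) (pvrc_mu_le H c0), hex] with m hm hn hpar hE
    refine Eventually.of_forall fun ε q hq P hP s t hpair => ?_
    have a0 : q ∈ pvniG x R (𝔑.mu c m) := by
      have := hq 0 (Finset.mem_univ _)
      simpa using this
    have a2 : q ∉ pvrcNR 𝔑 c x R m := hq 1 (Finset.mem_univ _)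
    have hs := hpin m ε (pvMerge q) P s hpair.hs
    have ht := hpin m ε (pvMerge q) P t hpair.ht
    obtain ⟨m1, m2, m3, m4⟩ := pvni_all_mesh hR hn.2.2.2.1 a0.2 hP
    have hgood : PvbRimGood 𝔐 x R (pvlmH m) (4 * R + 1) (𝔑.mu c m) P (pins m ε (pvMerge q) P) := by
      refine ⟨m1, m2, m3, m4, fun u hu => (hpin m ε (pvMerge q) P u hu).1, fun i i' hii _ hin hr => ?_⟩
      exfalso
      have b1 := hin i le_rfl hii
      have b2 := hin i' hii le_rfl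
      have b3 := pvtv_tri (P.v i') x (P.v i)
      rw [norm_sub_rev x (P.v i)] at b3
      linarith
    have hσ : pvlmH m ≤ 𝔑.sig m := by
      have := pvrc_rho_pos H c m
      linarith [hn.1]
    have hno : ∀ w, ‖w - x‖ ≤ 2 * R → ¬ PvbNearRet P w (𝔑.rho c m) (𝔑.sig m - pvlmH m) := fun w hw hnr => a2 ⟨P, hP, w, hw, hnr⟩
    have hnum := pvtv_par_num hpar s.typ
    have HF : PvtvFitIn 𝔐 x R (pvlmH m) (𝔑.rho c m) (𝔑.sig m) P s t :=
      ⟨pvtv_sep hpair hs.1.near ht.1.near ht.1.idx_lt.le hσ hno, fun k' h1 h2 => pvtv_fwd_s hpair hs.1 ht.1 hnum h1 h2,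
        fun k' h1 => pvtv_back_t hpair hs.1 ht.1 hnum h1, m2, by rw [m1]; exact m2⟩
    obtain ⟨kb, kf, HP⟩ := pvtv_polyIn hgood hR hpair HF
    obtain ⟨cs, ct, M⟩ := hm ε (pvMerge q) P s t kb kf a0.1 a0.2 hP hpair hs.1 ht.1 hs.2 ht.2 HP
    obtain ⟨π, hπ⟩ := pvfj_met_fit (m := 𝔑.mm) (n := 𝔑.nB c m x R) (hPL.ref (pvlm_N_pos c m)) (pvrc_dc_pos H c m) H.mm10 (pvrc_nB_spec H c m x R) M
    have hfar : 2 * 𝔑.Lr * pvlmH m < ‖pvmgPt (𝔑.dc c m) π.1.cs - pvmgPt (𝔑.dc c m) π.1.ct‖ := by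
      rw [← hπ.1, ← hπ.2.2.1]
      exact lt_of_lt_of_le hn.2.2.2.2 hpair.far
    exact ⟨⟨π, hfar⟩, ⟨hπ, hP, a0.1, a0.2, hpair.lt, hpair.arc, hpair.far, hs.1, ht.1, hs.2, ht.2, hno, kb, kf, HP⟩, hE ε (pvMerge q) P s t hpair⟩

end roof2

/-! ## 8. fewer rims (ruling P10 of 273: black rims only) -/

/-- **a statement "for all rims of a family, off an ordered-small event" passes to every SUBFAMILY of rims** (`Φ` arbitrary: `cover`, `pinsOK` first half, ..) -/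
theorem pvrc_ord_rims {rims rims' : PVSample → Set PvbRim} (hsub : ∀ ω, rims' ω ⊆ rims ω) {Φ : ℕ → ℝ → PvGeoT × PvColT → PvbRim → Prop}
    (h : PvhbOrd (fun m ε => ((pvhbUp ε).P {q | ¬ ∀ P ∈ rims (pvMerge q), Φ m ε q P}).toReal)) :
    PvhbOrd (fun m ε => ((pvhbUp ε).P {q | ¬ ∀ P ∈ rims' (pvMerge q), Φ m ε q P}).toReal) := by
  refine pvrc_ord_mono (l := 𝓝[>] (0 : ℝ)) h (Eventually.of_forall fun m => Eventually.of_forall fun ε => (pvtv_cap_up (pvhbUp ε)).mono ?_)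
  intro q hq hall
  exact hq fun P hP => hall P (hsub _ hP)

end Claimed.Agent.R289
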