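import Claimed.Agent.R289.Exit.DatP
import Claimed.Agent.R289.Exit.CoverP
import Claimed.Agent.R289.Tr.PatPF

/-!
# Row 289 (S0537, Cardy for Poisson-Voronoi), THE WALL, ROAD P, file Exit/PatD : `PvypPat` AT THE TERM `pvydDat 𝔓 𝔤 c` OF 58      (pen helper183; prefix `pvyt_`, `pvyt`, `Pvyt`, as `Tr/PatP`, `Tr/PatPF`)

`Tr/PatP` : `PvytKit PvytOut PvytIn PvytGeo ⟹ PvypPat`.      `Tr/PatPF` : `PvytCand` (twice) `⟹ PvytGeo` at a pattern of 138.      HERE all these records are PRODUCED at the sectors of road P (`Exit/DatP` of 58) from HIS contracts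
`𝔤.KitOk 𝔓 m β' qk`, `𝔤.CandOk 𝔓 m z t`, `𝔓.Wf` and THREE small debts which his contracts do not contain:
* `PvytSq 𝔤 m`      second moment of the cell field under the two-plug weight (TR28 (ii));   PAID by `pvyt_sq_of_bes` from Bessel on the hexagon (`pvcn_bound`), e.g. at the kit of 34 (`pvpg_besQ`): `pvyt_sq_glob`
* `PvytL1 𝔓 𝔤 m z t`      the fields of the two funnels are integrable ON THE EVENT OF THE FUNNEL;   PAID by `pvyt_l1_glob` (global masses in `L¹`: `PvytL1G`, `pvyt_l1_of_count`, `pvyt_l1_of_gen`), `pvyt_l1_ev` (masses read by the link, integrable on the event: `Tr/ConnL1`)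
* `PvytPl 𝔓 𝔤 𝔉 ..`      PLANAR containments: the ball `pvspO`, the windows of the four ends and the four walks of the two funnels lie in the closed fine cells of the body `D_{mm+9}(hull B)` of 138 (THE BODY WITH ITS HOLES: `pvytFull`)
* sec. 1  soft: `pvyt_loc_l1` (`‖Loc F‖_1 ≤ ‖F‖_1`), crude bounds
* sec. 2  `pvyt_d_kit`, `pvyt_d_out`, `pvyt_d_in`
* sec. 3  `pvyt_d_cand`
* sec. 4  **`pvyt_d_pat`** : `∀ᶠ ε, PvypPat (pvydDat 𝔓 𝔤 c) 𝔓.Γ ((𝔤.kit m ε).W (pvP ε) (𝔤.X₀ m ε)) a m ε (π.pat δc) (pvskQ (𝔤.qo m) qk (𝔤.qi m) 1 |π.w|)`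
-/

set_option autoImplicit false

namespace Claimed.Agent.R289

open MeasureTheory Filter Topology Set Claims.C0465
open scoped ENNReal

/-! ## 1. soft -/

section soft

variable {E : Type*} [MeasurableSpace E] {m₀ : Measure E} {μ : Measure (Conf E)} {W : Set E}

/-- **the soft localisation contracts `L¹`** -/
theorem pvyt_loc_l1 (h : IsPpp m₀ μ) (hW : MeasurableSet W) {F : Conf E → ℂ} (hF : Measurable F) :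
    ∫⁻ σ, ‖pvpgLoc μ W F σ‖ₑ ∂μ ≤ ∫⁻ η, ‖F η‖ₑ ∂μ := by
  rw [h.lintegral_spl hW hF.enorm]
  exact lintegral_mono fun σ => enorm_integral_le_lintegral_enorm _

theorem pvyt_loc_fin (h : IsPpp m₀ μ) (hW : MeasurableSet W) {F : Conf E → ℂ} (hF : Measurable F) (hi : ∫⁻ η, ‖F η‖ₑ ∂μ ≠ ∞) (S : Set (Conf E)) :
    ∫⁻ σ in S, ‖pvpgLoc μ W F σ‖ₑ ∂μ ≠ ∞ :=
  ne_top_of_le_ne_top hi ((lintegral_mono' Measure.restrict_le_self le_rfl).trans (pvyt_loc_l1 h hW hF))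

end soft

/-- crude bound, linear -/
theorem pvyt_l1_of_count (ε : ℝ) {X : Conf PvPt → ℂ} {B : Set PvPt} (hB : MeasurableSet B) (hb : pvInt ε B ≠ ∞) {C : ℝ≥0∞} (hC : C ≠ ∞)
    (h : ∀ᵐ η ∂(pvP ε), ‖X η‖ₑ ≤ C * (η.pts ∩ B).encard) : ∫⁻ η, ‖X η‖ₑ ∂(pvP ε) ≠ ∞ := by
  have := pvyt_fin_of_count ε (Ev := univ) nullMeasurableSet_univ hB hb hC (X := X) (by filter_upwards [h] with η hη _ using hη)
  rwa [Measure.restrict_univ] at this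

/-- crude bound, exponential in the number of points of a window (hence: any polynomial) -/
theorem pvyt_l1_of_gen (ε : ℝ) {X : Conf PvPt → ℂ} {B : Set PvPt} (hB : MeasurableSet B) (hb : pvInt ε B ≠ ∞) {C z : ℝ≥0∞} (hC : C ≠ ∞) (hz : z ≠ ∞)
    (h : ∀ᵐ η ∂(pvP ε), ‖X η‖ₑ ≤ C * z ^ (η.pts ∩ B).ncard) : ∫⁻ η, ‖X η‖ₑ ∂(pvP ε) ≠ ∞ := by
  have h1 : ∫⁻ η, ‖X η‖ₑ ∂(pvP ε) ≤ ∫⁻ η, C * z ^ (η.pts ∩ B).ncard ∂(pvP ε) := lintegral_mono_ae h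
  rw [lintegral_const_mul' _ _ hC, pvc_gen (pv_isPpp ε) hB hb hz] at h1
  refine ne_top_of_le_ne_top (ENNReal.mul_ne_top hC (ENNReal.mul_ne_top ?_ ENNReal.ofReal_ne_top)) h1
  exact ne_top_of_le_ne_top ENNReal.one_ne_top (by
    rw [← (pv_isPpp ε).void B hB]
    exact prob_le_one)

/-! ## 2. the kit, the exit side, the entrance side at `pvydDat` -/

section recs

variable {τ : Type} {cc : ℝ} {𝔓 : PvrxPar τ cc} {𝔤 : PvydGeo τ} {m : ℕ} {β' qk : ℝ≥0∞}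

/-- **DEBT 1** (TR28 (ii)): second moment of the cell field under the two-plug weight, BLACK kit -/
def PvytSq (𝔤 : PvydGeo τ) (m : ℕ) : Prop :=
  ∀ᶠ ε in 𝓝[>] (0 : ℝ), ∀ σ : PvtTurn, ∫⁻ η, ‖𝔤.X₀ m ε σ η‖ₑ ^ 2 * (𝔤.kit m ε).w2 (pvP ε) 0 1 σ η ∂(pvP ε) ≠ ∞

/-- **DEBT 2**: the fields of the two funnels of a candidate are integrable ON THE EVENT OF THE FUNNEL (two usable states + success).      PAID by `pvyt_l1_glob` (the global masses are integrable),   `Tr/ConnL1` + `pvyt_l1_ev` (masses of 113: a.e. on the event the guard of the window holds) -/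
structure PvytL1 (𝔓 : PvrxPar τ cc) (𝔤 : PvydGeo τ) (m : ℕ) (z : ℂ) (t : τ) : Prop where
  o : ∀ᶠ ε in 𝓝[>] (0 : ℝ), ∫⁻ η in (pvydDat 𝔓 𝔤 (𝔓.ty m z t).col).G m ε z t ∩ ((pvydDat 𝔓 𝔤 (𝔓.ty m z t).col).kit m ε).G (z + (𝔓.Γ m).pout t) ((𝔓.Γ m).dout t) ∩ (pvydDat 𝔓 𝔤 (𝔓.ty m z t).col).Ao m ε z t,
    ‖(pvydDat 𝔓 𝔤 (𝔓.ty m z t).col).Xo m ε 0 z t η‖ₑ ∂(pvP ε) ≠ ∞
  i : ∀ᶠ ε in 𝓝[>] (0 : ℝ), ∫⁻ η in ((pvydDat 𝔓 𝔤 (𝔓.ty m z t).col).kit m ε).G (z + (𝔓.Γ m).pin t) ((𝔓.Γ m).din t) ∩ (pvydDat 𝔓 𝔤 (𝔓.ty m z t).col).G m ε z t ∩ (pvydDat 𝔓 𝔤 (𝔓.ty m z t).col).Ai m ε z t,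
    ‖(pvydDat 𝔓 𝔤 (𝔓.ty m z t).col).Xi m ε 0 z t η‖ₑ ∂(pvP ε) ≠ ∞

/-- the GLOBAL masses of the two funnels of a candidate are integrable -/
structure PvytL1G (𝔤 : PvydGeo τ) (m : ℕ) (z : ℂ) (t : τ) : Prop where
  o : ∀ᶠ ε in 𝓝[>] (0 : ℝ), ∫⁻ η, ‖𝔤.Xo m z t η‖ₑ ∂(pvP ε) ≠ ∞
  i : ∀ᶠ ε in 𝓝[>] (0 : ℝ), ∫⁻ η, ‖𝔤.Xi m z t η‖ₑ ∂(pvP ε) ≠ ∞

theorem pvyt_eqns_cite3 : True := by
  have := @PvytSq.eq_1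
  trivial

/-- DEBT 1 from Bessel on the hexagon -/
theorem pvyt_sq_of_bes {r : ℝ → ℝ} {B : ℝ → ℝ≥0∞} (H : 𝔤.KitOk 𝔓 m β' qk) (hR : ∀ᶠ ε in 𝓝[>] (0 : ℝ), PvccKitRef (𝔤.kit m ε) (r ε)) (hB : ∀ᶠ ε in 𝓝[>] (0 : ℝ), B ε ≠ ∞)
    (hb : ∀ᶠ ε in 𝓝[>] (0 : ℝ), ∀ j < 8, ∫⁻ η, ‖(𝔤.kit m ε).Xj (𝔤.X₀ m ε) 0 1 pvcnHex j η‖ₑ ^ 2 * ((𝔤.kit m ε).Ev 0 1 pvcnHex).indicator 1 η ∂(pvP ε) ≤ B ε) :
    PvytSq 𝔤 m := by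
  filter_upwards [H.wf, H.fld, H.frc, hR, hB, hb] with ε h1 h2 h3 h4 h5 h6 σ
  exact ne_top_of_le_ne_top (ENNReal.mul_ne_top (pvcn_D_ne_top h3) h5) (pvcn_bound h1 h4 h2 h3 h6 σ).1

/-- DEBT 1 at the soft kit of 34 (`Tr/Plug`) -/
theorem pvyt_sq_glob {𝔊 : ℝ → PvpgGlob} {b q β₁ : ℝ → ℝ≥0∞} {CB r : ℝ → ℝ} (hk : ∀ᶠ ε in 𝓝[>] (0 : ℝ), 𝔤.kit m ε = (𝔊 ε).kit (pvP ε) (b ε) (q ε))
    (hX : ∀ᶠ ε in 𝓝[>] (0 : ℝ), 𝔤.X₀ m ε = (𝔊 ε).fQ (pvP ε)) (H : ∀ᶠ ε in 𝓝[>] (0 : ℝ), (𝔊 ε).Ok ε (b ε) (q ε) (β₁ ε) (CB ε) (r ε)) : PvytSq 𝔤 m := by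
  filter_upwards [hk, hX, H] with ε h1 h2 h3 σ
  rw [h1, h2]
  have R : PvccKitRef ((𝔊 ε).kit (pvP ε) (b ε) (q ε)) (r ε) := ⟨h3.ref.δ0, h3.ref.r_le, h3.ref.O_sub, h3.ref.K_cell, h3.ref.K_off⟩
  exact ne_top_of_le_ne_top (ENNReal.mul_ne_top (pvcn_D_ne_top (pvpg_forced h3)) ENNReal.ofReal_ne_top)
    (pvcn_bound (pvpg_wf h3) R (pvpg_fldQ h3) (pvpg_forced h3) (pvpg_besQ h3) σ).1

/-- DEBT 1 and the reference regions at ONE family of 52 (`PvcnFamQ`: field `num` of `PvrsGeoOk` of 79) -/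
theorem pvyt_sq_fam {δ : ℕ → ℝ} (F : PvcnFamQ δ) (h : ∀ ε, 𝔤.kit m ε = F.kit m ε ∧ 𝔤.X₀ m ε = F.XQ m ε) :
    PvytSq 𝔤 m ∧ ∀ᶠ ε in 𝓝[>] (0 : ℝ), PvccKitRef (𝔤.kit m ε) (F.r m ε) := by
  constructor
  · filter_upwards [F.ok m] with ε H σ
    rw [(h ε).1, (h ε).2]
    exact ne_top_of_le_ne_top (ENNReal.mul_ne_top (pvcn_D_ne_top H.frc) H.B_fin) (pvcn_bound H.wf H.ref H.fQ H.frc H.besQ σ).1
  · filter_upwards [F.ok m] with ε H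
    rw [(h ε).1]
    exact H.ref

/-- the second moment does not depend on the colour -/
theorem pvyt_sq_fl (kit : PvthKit) (X₀ : PvtTurn → Conf PvPt → ℂ) (c : Bool) (ε : ℝ) (σ : PvtTurn) :
    ∫⁻ η, ‖pvydX X₀ c σ η‖ₑ ^ 2 * (pvydKit kit c).w2 (pvP ε) 0 1 σ η ∂(pvP ε) = ∫⁻ η, ‖X₀ σ η‖ₑ ^ 2 * kit.w2 (pvP ε) 0 1 σ η ∂(pvP ε) := by
  rw [← pvci_lintegral_T (pvydE c 0) (pvyd_law c 0 ε) (fun η => ‖X₀ σ η‖ₑ ^ 2 * kit.w2 (pvP ε) 0 1 σ η)]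
  refine lintegral_congr fun η => ?_
  unfold pvciT pvydX
  rw [pvyd_kit_w2, ← pvyd_fl_eq]

/-- **`PvytKit` AT THE TERM OF 58** -/
theorem pvyt_d_kit (H : 𝔤.KitOk 𝔓 m β' qk) (hs : PvytSq 𝔤 m) (c : Bool) (a : ℂ) : ∀ᶠ ε in 𝓝[>] (0 : ℝ), PvytKit (pvydDat 𝔓 𝔤 c) a m ε β' qk := by
  filter_upwards [H.wf, H.fld, H.frc, hs] with ε h1 h2 h3 h4
  exact
    { wf := pvyd_kit_wf c h1
      fld := pvyd_kit_fld c h2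
      frc := pvyd_kit_forced c h3
      q1 := H.qk1
      sq := fun σ => by
        show ∫⁻ η, ‖pvydX (𝔤.X₀ m ε) c σ η‖ₑ ^ 2 * (pvydKit (𝔤.kit m ε) c).w2 (pvP ε) 0 1 σ η ∂(pvP ε) ≠ ∞
        rw [pvyt_sq_fl]
        exact h4 σ }

theorem pvyt_ne_zero_of_pow4 {d : ℂ} (h : d ^ 4 = 1) : d ≠ 0 := by
  rintro rfl
  norm_num at h

/-- DEBT 2 from the integrability of the global masses (the soft localisation contracts `L¹`) -/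
theorem pvyt_l1_glob (hW : 𝔓.Wf) (H : 𝔤.KitOk 𝔓 m β' qk) {z : ℂ} {t : τ} (C : 𝔤.CandOk 𝔓 m z t) (L : PvytL1G 𝔤 m z t) : PvytL1 𝔓 𝔤 m z t where
  o := by
    filter_upwards [H.en_ok (𝔓.ty m z t).col false (z + (𝔓.Γ m).pout t) ((𝔓.Γ m).dout t) C.d4o, L.o] with ε he' hl
    have he : (𝔤.lo 𝔓 (𝔓.ty m z t).col m ε z t).e.Ok := pvfv_endP_ok (hW.ty_wf m z t)
    have he' : (𝔤.lo 𝔓 (𝔓.ty m z t).col m ε z t).e'.Ok := he'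
    exact pvyt_loc_fin (pv_isPpp ε) (pvnh_rd_meas he he' C.o_win.mEt) C.mXo hl _
  i := by
    filter_upwards [H.en_ok (𝔓.ty m z t).col true (z + (𝔓.Γ m).pin t) ((𝔓.Γ m).din t) C.d4i, L.i] with ε he hl
    have he : (𝔤.li 𝔓 (𝔓.ty m z t).col m ε z t).e.Ok := he
    have he' : (𝔤.li 𝔓 (𝔓.ty m z t).col m ε z t).e'.Ok := pvfv_endM_ok (hW.ty_wf m z t)
    exact pvyt_loc_fin (pv_isPpp ε) (pvnh_rd_meas he he' C.i_win.mEt) C.mXi hl _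

/-- DEBT 2 from masses which are read by the links and are integrable on the events of the funnels -/
theorem pvyt_l1_ev {z : ℂ} {t : τ} {Wo Wi : Set PvPt} (ro : Conf.Reads Wo (𝔤.Xo m z t)) (ri : Conf.Reads Wi (𝔤.Xi m z t))
    (so : ∀ᶠ ε in 𝓝[>] (0 : ℝ), Wo ⊆ pvnhRd (𝔤.lo 𝔓 (𝔓.ty m z t).col m ε z t) (𝔤.wo m z t).Et) (si : ∀ᶠ ε in 𝓝[>] (0 : ℝ), Wi ⊆ pvnhRd (𝔤.li 𝔓 (𝔓.ty m z t).col m ε z t) (𝔤.wi m z t).Et)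
    (fo : ∀ᶠ ε in 𝓝[>] (0 : ℝ), ∫⁻ η in (pvydDat 𝔓 𝔤 (𝔓.ty m z t).col).G m ε z t ∩ ((pvydDat 𝔓 𝔤 (𝔓.ty m z t).col).kit m ε).G (z + (𝔓.Γ m).pout t) ((𝔓.Γ m).dout t) ∩ (pvydDat 𝔓 𝔤 (𝔓.ty m z t).col).Ao m ε z t,
      ‖𝔤.Xo m z t η‖ₑ ∂(pvP ε) ≠ ∞)
    (fi : ∀ᶠ ε in 𝓝[>] (0 : ℝ), ∫⁻ η in ((pvydDat 𝔓 𝔤 (𝔓.ty m z t).col).kit m ε).G (z + (𝔓.Γ m).pin t) ((𝔓.Γ m).din t) ∩ (pvydDat 𝔓 𝔤 (𝔓.ty m z t).col).G m ε z t ∩ (pvydDat 𝔓 𝔤 (𝔓.ty m z t).col).Ai m ε z t,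
      ‖𝔤.Xi m z t η‖ₑ ∂(pvP ε) ≠ ∞) : PvytL1 𝔓 𝔤 m z t where
  o := by
    filter_upwards [so, fo] with ε hs hf
    have e : (pvydDat 𝔓 𝔤 (𝔓.ty m z t).col).Xo m ε 0 z t = 𝔤.Xo m z t := funext fun σ => pvnh_loc_eq hs ro ε σ
    rwa [e]
  i := by
    filter_upwards [si, fi] with ε hs hf
    have e : (pvydDat 𝔓 𝔤 (𝔓.ty m z t).col).Xi m ε 0 z t = 𝔤.Xi m z t := funext fun σ => pvnh_loc_eq hs ri ε σ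
    rwa [e]

/-- **`PvytOut` AT THE TERM OF 58** -/
theorem pvyt_d_out (hW : 𝔓.Wf) (H : 𝔤.KitOk 𝔓 m β' qk) {z : ℂ} {t : τ} (C : 𝔤.CandOk 𝔓 m z t) (L : PvytL1 𝔓 𝔤 m z t) (a : ℂ) :
    ∀ᶠ ε in 𝓝[>] (0 : ℝ), PvytOut (pvydDat 𝔓 𝔤 (𝔓.ty m z t).col) 𝔓.Γ a m ε z t (𝔤.qo m) := by
  filter_upwards [H.wf, H.en_ok (𝔓.ty m z t).col false (z + (𝔓.Γ m).pout t) ((𝔓.Γ m).dout t) C.d4o, C.o_geo, L.o] with ε h1 he' hg hl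
  have he : (𝔤.lo 𝔓 (𝔓.ty m z t).col m ε z t).e.Ok := pvfv_endP_ok (hW.ty_wf m z t)
  have he' : (𝔤.lo 𝔓 (𝔓.ty m z t).col m ε z t).e'.Ok := he'
  have wf := pvyd_kit_wf (𝔓.ty m z t).col h1
  have d0 := pvyt_ne_zero_of_pow4 C.d4o
  have mG : MeasurableSet (pvydG 𝔓 m ε z t) := pvsp_G_meas (hW.ty_wf m z t) ε
  have rG : Conf.ReadsSet ((𝔤.lo 𝔓 (𝔓.ty m z t).col m ε z t).e.O ×ˢ univ) (pvydG 𝔓 m ε z t) := pvsp_G_reads (hW.ty_wf m z t) ε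
  have mG' := pvth_mG wf (z + (𝔓.Γ m).pout t) ((𝔓.Γ m).dout t)
  have rG' : Conf.ReadsSet ((𝔤.lo 𝔓 (𝔓.ty m z t).col m ε z t).e'.O ×ˢ univ) ((pvydKit (𝔤.kit m ε) (𝔓.ty m z t).col).G (z + (𝔓.Γ m).pout t) ((𝔓.Γ m).dout t)) :=
    fun η => iff_of_eq (pvth_rG wf (z + (𝔓.Γ m).pout t) ((𝔓.Γ m).dout t) d0 η)
  exact
    { mO := measurableSet_closedBall.prod MeasurableSet.univ
      mG := mG.nullMeasurableSet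
      rG := rG
      mK := (pvnh_Kp_meas he he' C.o_win.mEt).prod MeasurableSet.univ
      mA := (pvnh_A_meas he he' hg C.o_win.mM ε _ mG mG').nullMeasurableSet
      rA := pvnh_A_reads' he he' C.o_win.rM ε _ rG rG'
      mX := (pvnh_X_meas he he' C.o_win.mEt ε C.mXo).aemeasurable
      rX := pvnh_X_reads _ _ ε _
      q0 := H.qo0
      q1 := H.qo1
      frc := Eventually.of_forall fun σ h h' => pvnh_A_forced _ ε H.qo1 rG rG' h h'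
      fin := hl }

/-- **`PvytIn` AT THE TERM OF 58** -/
theorem pvyt_d_in (hW : 𝔓.Wf) (H : 𝔤.KitOk 𝔓 m β' qk) {z : ℂ} {t : τ} (C : 𝔤.CandOk 𝔓 m z t) (L : PvytL1 𝔓 𝔤 m z t) (a : ℂ) :
    ∀ᶠ ε in 𝓝[>] (0 : ℝ), PvytIn (pvydDat 𝔓 𝔤 (𝔓.ty m z t).col) 𝔓.Γ a m ε z t (𝔤.qi m) := by
  filter_upwards [H.wf, H.en_ok (𝔓.ty m z t).col true (z + (𝔓.Γ m).pin t) ((𝔓.Γ m).din t) C.d4i, C.i_geo, L.i] with ε h1 he hg hl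
  have he : (𝔤.li 𝔓 (𝔓.ty m z t).col m ε z t).e.Ok := he
  have he' : (𝔤.li 𝔓 (𝔓.ty m z t).col m ε z t).e'.Ok := pvfv_endM_ok (hW.ty_wf m z t)
  have wf := pvyd_kit_wf (𝔓.ty m z t).col h1
  have d0 := pvyt_ne_zero_of_pow4 C.d4i
  have mG : MeasurableSet (pvydG 𝔓 m ε z t) := pvsp_G_meas (hW.ty_wf m z t) ε
  have rG : Conf.ReadsSet ((𝔤.li 𝔓 (𝔓.ty m z t).col m ε z t).e'.O ×ˢ univ) (pvydG 𝔓 m ε z t) := pvsp_G_reads (hW.ty_wf m z t) ε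
  have mG' := pvth_mG wf (z + (𝔓.Γ m).pin t) ((𝔓.Γ m).din t)
  have rG' : Conf.ReadsSet ((𝔤.li 𝔓 (𝔓.ty m z t).col m ε z t).e.O ×ˢ univ) ((pvydKit (𝔤.kit m ε) (𝔓.ty m z t).col).G (z + (𝔓.Γ m).pin t) ((𝔓.Γ m).din t)) :=
    fun η => iff_of_eq (pvth_rG wf (z + (𝔓.Γ m).pin t) ((𝔓.Γ m).din t) d0 η)
  exact
    { mO := measurableSet_closedBall.prod MeasurableSet.univ
      mG := mG.nullMeasurableSet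
      rG := rG
      mK := (pvnh_Kp_meas he he' C.i_win.mEt).prod MeasurableSet.univ
      mA := (pvnh_A_meas he he' hg C.i_win.mM ε _ mG' mG).nullMeasurableSet
      rA := pvnh_A_reads' he he' C.i_win.rM ε _ rG' rG
      mX := (pvnh_X_meas he he' C.i_win.mEt ε C.mXi).aemeasurable
      rX := pvnh_X_reads _ _ ε _
      q0 := H.qi0
      q1 := H.qi1
      frc := Eventually.of_forall fun σ h h' => pvnh_A_forced _ ε H.qi1 rG' rG h h'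
      fin := hl }

end recs

/-! ## 3. where the regions of a candidate live -/

section cand

variable {τ : Type} {cc : ℝ} {𝔓 : PvrxPar τ cc} {𝔤 : PvydGeo τ} {m : ℕ} {ε : ℝ}

/-- all that a link reads off its two plugs, from the five pieces (two windows, two walks, the window of the corridor) -/
theorem pvyt_Kp_sub {Λ : PvnkLink} {Et S : Set ℂ} (h1 : Λ.e.E \ (Λ.e.O ∪ Λ.e'.O) ⊆ S) (h2 : Λ.e'.E \ (Λ.e.O ∪ Λ.e'.O) ⊆ S) (h3 : pvlnW Λ.δ Λ.L₁ ⊆ S) (h4 : pvlnW Λ.δ Λ.L₂ ⊆ S)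
    (h5 : Et \ (Λ.e.O ∪ Λ.e'.O) ⊆ S) : pvnhKp Λ Et ⊆ S := by
  rintro w ⟨((((hw | hw) | hw) | hw) | hw), hn⟩
  · exact h1 ⟨hw, hn⟩
  · exact h2 ⟨hw, hn⟩
  · exact h3 hw
  · exact h4 hw
  · exact h5 ⟨hw, hn⟩

theorem pvyt_Kp_off (Λ : PvnkLink) (Et : Set ℂ) : Disjoint (Λ.e.O ×ˢ (univ : Set Bool)) (pvnhKp Λ Et ×ˢ univ) ∧ Disjoint (Λ.e'.O ×ˢ (univ : Set Bool)) (pvnhKp Λ Et ×ˢ univ) :=
  ⟨Set.disjoint_left.2 fun _ h h' => h'.1.2 (Or.inl h.1), Set.disjoint_left.2 fun _ h h' => h'.1.2 (Or.inr h.1)⟩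

/-- **DEBT 3** (PLANAR; `Tr/LinkGeo` (L5)): the state ball and the two funnels of the candidate with centre cell `c` live in the closed fine cells of the body `D_{mm+9}(hull B)` of 138 (with its holes);
only the exit (entrance) funnel enters the last cell of the exit (entrance) nozzle, off the `r`-square of its door -/
structure PvytPl (𝔓 : PvrxPar τ cc) (𝔤 : PvydGeo τ) (𝔉 : PvfjPlug τ) (mm : ℤ) (δc : ℝ) (col : Bool) (m : ℕ) (ε : ℝ) (r : ℝ) (c : ℤ × ℤ) (t : τ) : Prop where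
  O : pvspO 𝔓.mod.N (𝔓.ty m (pvmgPt δc c) t) (pvmgPt δc c) (pvlmH m) ⊆ pvtU (𝔤.kit m ε).δ (pvytBody 𝔉 mm c t)
  Ko : pvnhKp (𝔤.lo 𝔓 col m ε (pvmgPt δc c) t) (𝔤.wo m (pvmgPt δc c) t).Et ⊆ pvtU (𝔤.kit m ε).δ (pvytBody 𝔉 mm c t) ∪
    (pvtSq (𝔤.kit m ε).δ (pvytSh mm (pvytBo 𝔉 mm c t)) \ pvccSq (pvmgPt δc c + (𝔓.Γ m).pout t) r)
  Ki : pvnhKp (𝔤.li 𝔓 col m ε (pvmgPt δc c) t) (𝔤.wi m (pvmgPt δc c) t).Et ⊆ pvtU (𝔤.kit m ε).δ (pvytBody 𝔉 mm c t) ∪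
    (pvtSq (𝔤.kit m ε).δ (pvytSh mm (pvytBi 𝔉 mm c t)) \ pvccSq (pvmgPt δc c + (𝔓.Γ m).pin t) r)

/-- **`PvytCand` AT THE TERM OF 58** -/
theorem pvyt_d_cand {𝔉 : PvfjPlug τ} {mm : ℤ} {δc r : ℝ} {col : Bool} {c : ℤ × ℤ} {t : τ} (h : PvytPl 𝔓 𝔤 𝔉 mm δc col m ε r c t) :
    PvytCand (pvydDat 𝔓 𝔤 col) 𝔓.Γ 𝔉 mm δc m ε r c t where
  O_sub := Set.prod_mono h.O le_rfl
  Ko_sub := Set.prod_mono h.Ko le_rfl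
  Ki_sub := Set.prod_mono h.Ki le_rfl
  dOKo := (pvyt_Kp_off (𝔤.lo 𝔓 col m ε (pvmgPt δc c) t) _).1
  dOKi := (pvyt_Kp_off (𝔤.li 𝔓 col m ε (pvmgPt δc c) t) _).2

end cand

/-! ## 4. the record of 58 at the patterns of record (236: `pvrcPat`) -/

section far

variable {τ : Type}

/-- two bodies (with their holes) whose centres are metrically far apart do not touch -/
theorem pvyt_far_of_norm {𝔉 : PvfjPlug τ} (h𝔉 : 𝔉.WF) {δc ρ : ℝ} (hδ : 0 < δc) (hρ : ((𝔉.nB : ℝ) + 1) * (2 * δc) ≤ ρ) {cs ct : ℤ × ℤ} (hf : 2 * ρ < ‖pvmgPt δc cs - pvmgPt δc ct‖) (ts tt : τ) :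
    ∀ p ∈ pvfjSh ct (pvtbHull (𝔉.B tt)), ∀ q ∈ pvfjSh cs (pvtbHull (𝔉.B ts)), PvfjFar p q := by
  rintro _ ⟨b, hb, rfl⟩ _ ⟨b', hb', rfl⟩
  obtain ⟨u1, u2, u3, u4⟩ := pvtb_hull_box (h𝔉.B_box tt) hb
  obtain ⟨v1, v2, v3, v4⟩ := pvtb_hull_box (h𝔉.B_box ts) hb'
  rw [pvfj_far_iff]
  by_contra hc
  simp only [Prod.fst_add, Prod.snd_add, not_or, not_le] at hc
  obtain ⟨c1, c2, c3, c4⟩ := hc
  have a1 : |cs.1 - ct.1| ≤ 2 * (𝔉.nB : ℤ) + 1 := by rw [abs_le]; constructor <;> omega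
  have a2 : |cs.2 - ct.2| ≤ 2 * (𝔉.nB : ℤ) + 1 := by rw [abs_le]; constructor <;> omega
  have b1 : |((cs.1 : ℝ) - ct.1)| ≤ 2 * (𝔉.nB : ℝ) + 1 := by exact_mod_cast a1
  have b2 : |((cs.2 : ℝ) - ct.2)| ≤ 2 * (𝔉.nB : ℝ) + 1 := by exact_mod_cast a2
  have n1 : ‖pvmgPt δc cs - pvmgPt δc ct‖ ≤ |((cs.1 : ℝ) - ct.1)| * δc + |((cs.2 : ℝ) - ct.2)| * δc := by
    refine (Complex.norm_le_abs_re_add_abs_im _).trans (le_of_eq ?_)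
    simp only [pvmgPt, Complex.sub_re, Complex.sub_im]
    rw [← sub_mul, ← sub_mul, abs_mul, abs_mul, abs_of_pos hδ]
  nlinarith

/-- the bodies of level `m` of 236 lie well inside the reading ball -/
theorem pvyt_nB_le {𝔑 : PvrcNum} (hN : 𝔑.Ok) (c : ℝ) (PL : PvfjPlug τ) (m : ℕ) (hLr : 2 * ((PL.nB : ℝ) + 2) * 𝔑.dl ≤ 𝔑.Lr) :
    (((pvrcPL c PL m).nB : ℝ) + 1) * (2 * 𝔑.dc c m) ≤ 𝔑.Lr * pvlmH m := by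
  have e : ((pvrcPL c PL m).nB : ℝ) = (pvlmN c m : ℝ) * ((PL.nB : ℝ) + 1) := by
    show ((pvlmN c m * (PL.nB + 1) : ℕ) : ℝ) = _
    push_cast
    ring
  have h1 := pvrc_dc_mul hN c m
  have h2 : (1 : ℝ) ≤ pvlmN c m := by exact_mod_cast pvlm_N_pos c m
  have h3 := pvrc_dc_pos hN c m
  have h4 := pvlm_H_pos m
  have h5 : 𝔑.dc c m ≤ 𝔑.dl * pvlmH m := by rw [← h1]; nlinarith
  have h6 : 2 * ((PL.nB : ℝ) + 2) * 𝔑.dl * pvlmH m ≤ 𝔑.Lr * pvlmH m := mul_le_mul_of_nonneg_right hLr h4.le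
  rw [e]
  have h7 : ((pvlmN c m : ℝ) * ((PL.nB : ℝ) + 1) + 1) * (2 * 𝔑.dc c m) = 2 * ((PL.nB : ℝ) + 1) * ((pvlmN c m : ℝ) * 𝔑.dc c m) + 2 * 𝔑.dc c m := by ring
  rw [h7, h1]
  nlinarith

end far

section final

variable {τ : Type} {cc : ℝ} {𝔓 : PvrxPar τ cc} {𝔤 : PvydGeo τ} {m : ℕ} {β' qk : ℝ≥0∞} {𝔑 : PvrcNum} {c : ℝ} {PL : PvfjPlug τ} {x : ℂ} {R : ℝ}

theorem pvyt_ref_col {kit : PvthKit} {r : ℝ} (h : PvccKitRef kit r) (col : Bool) : PvccKitRef (pvydKit kit col) r := ⟨h.δ0, h.r_le, h.O_sub, h.K_cell, h.K_off⟩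

/-- **THE RECORD `PvypPat` OF 58 AT THE SECTORS OF ROAD P AND THE PATTERNS OF RECORD**      (`Pat m := pvrcPat 𝔑 c PL x R m` of 236, `pat := pvrcPatOf m`).
Inputs: the contracts of 58 (`KitOk`, `CandOk` at the two candidates), the doors of record AT THE LEVEL `m` (`PvrsDoors` of 79), the reference regions of the kit, ONE number (`hLr`), ONE colour, and the three debts `PvytSq PvytL1 PvytPl`. -/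
theorem pvyt_d_pat_lv (hW : 𝔓.Wf) (H : 𝔤.KitOk 𝔓 m β' qk) (hs : PvytSq 𝔤 m) (hN : 𝔑.Ok) (hPL : PL.WF)
    (hdel : (𝔓.Γ m).δ = 𝔑.dc c m / (2 * (𝔑.mm : ℝ) + 1))
    (hpo : ∀ t, (𝔓.Γ m).pout t = pvfjDoor 𝔑.mm (𝔑.dc c m) ((pvrcPL c PL m).yp t) ((pvrcPL c PL m).dp t)) (hdo : ∀ t, (𝔓.Γ m).dout t = pvtZ ((pvrcPL c PL m).dp t))
    (hpi : ∀ t, (𝔓.Γ m).pin t = pvfjDoor 𝔑.mm (𝔑.dc c m) ((pvrcPL c PL m).ym t) ((pvrcPL c PL m).dm t)) (hdi : ∀ t, (𝔓.Γ m).din t = - pvtZ ((pvrcPL c PL m).dm t))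
    (hLr : 2 * ((PL.nB : ℝ) + 2) * 𝔑.dl ≤ 𝔑.Lr) {r : ℝ → ℝ} (hR : ∀ᶠ ε in 𝓝[>] (0 : ℝ), PvccKitRef (𝔤.kit m ε) (r ε))
    (π : pvrcPat 𝔑 c PL x R m) {col : Bool}
    (ct : (𝔓.ty m (pvrcPatOf m π).zt (pvrcPatOf m π).tt).col = col) (cs : (𝔓.ty m (pvrcPatOf m π).zs (pvrcPatOf m π).ts).col = col)
    (Ct : 𝔤.CandOk 𝔓 m (pvrcPatOf m π).zt (pvrcPatOf m π).tt) (Cs : 𝔤.CandOk 𝔓 m (pvrcPatOf m π).zs (pvrcPatOf m π).ts)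
    (Lt : PvytL1 𝔓 𝔤 m (pvrcPatOf m π).zt (pvrcPatOf m π).tt) (Ls : PvytL1 𝔓 𝔤 m (pvrcPatOf m π).zs (pvrcPatOf m π).ts)
    (Pt : ∀ᶠ ε in 𝓝[>] (0 : ℝ), PvytPl 𝔓 𝔤 (pvrcPL c PL m) 𝔑.mm (𝔑.dc c m) col m ε (r ε) π.1.1.ct π.1.1.tt)
    (Ps : ∀ᶠ ε in 𝓝[>] (0 : ℝ), PvytPl 𝔓 𝔤 (pvrcPL c PL m) 𝔑.mm (𝔑.dc c m) col m ε (r ε) π.1.1.cs π.1.1.ts) (a : ℂ) :
    ∀ᶠ ε in 𝓝[>] (0 : ℝ), PvypPat (pvydDat 𝔓 𝔤 col) 𝔓.Γ ((𝔤.kit m ε).W (pvP ε) (𝔤.X₀ m ε)) a m ε (pvrcPatOf m π)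
      (pvskQ (𝔤.qo m) qk (𝔤.qi m) 1 (pvrcPatOf m π).l.length) := by
  have hO := pvyt_d_out hW H Ct Lt a
  have hI := pvyt_d_in hW H Cs Ls a
  rw [ct] at hO
  rw [cs] at hI
  have hfar := pvyt_far_of_norm (hPL.ref (pvlm_N_pos c m)) (pvrc_dc_pos hN c m) (pvyt_nB_le hN c PL m hLr) (cs := π.1.1.cs) (ct := π.1.1.ct)
    (by have := π.2; linarith) π.1.1.ts π.1.1.tt
  filter_upwards [pvyt_d_kit H hs col a, hO, hI, H.del, hR, Pt, Ps] with ε hK hO hI hd hR Pt Ps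
  have := pvyt_pat_fit (D := pvydDat 𝔓 𝔤 col) (Γ := 𝔓.Γ) (a := a) (m := m) (ε := ε) (δc := 𝔑.dc c m) (r := r ε) π.1 (hPL.ref (pvlm_N_pos c m)) (pvyt_ref_col hR col) hd
    hdel hpo hdo hpi hdi hfar hK hO hI (pvyt_d_cand Pt) (pvyt_d_cand Ps)
  rwa [show ((pvydDat 𝔓 𝔤 col).kit m ε).W (pvP ε) ((pvydDat 𝔓 𝔤 col).X₀ m ε a) = (𝔤.kit m ε).W (pvP ε) (𝔤.X₀ m ε) from pvyd_W col _ ε _] at this

/-- the same with the doors of record at all levels (`PvrcDoors` of 236) -/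
theorem pvyt_d_pat (hW : 𝔓.Wf) (H : 𝔤.KitOk 𝔓 m β' qk) (hs : PvytSq 𝔤 m) (hN : 𝔑.Ok) (hPL : PL.WF) (hΓ : PvrcDoors 𝔑 c PL 𝔓.Γ)
    (hLr : 2 * ((PL.nB : ℝ) + 2) * 𝔑.dl ≤ 𝔑.Lr) {r : ℝ → ℝ} (hR : ∀ᶠ ε in 𝓝[>] (0 : ℝ), PvccKitRef (𝔤.kit m ε) (r ε))
    (π : pvrcPat 𝔑 c PL x R m) {col : Bool}
    (ct : (𝔓.ty m (pvrcPatOf m π).zt (pvrcPatOf m π).tt).col = col) (cs : (𝔓.ty m (pvrcPatOf m π).zs (pvrcPatOf m π).ts).col = col)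
    (Ct : 𝔤.CandOk 𝔓 m (pvrcPatOf m π).zt (pvrcPatOf m π).tt) (Cs : 𝔤.CandOk 𝔓 m (pvrcPatOf m π).zs (pvrcPatOf m π).ts)
    (Lt : PvytL1 𝔓 𝔤 m (pvrcPatOf m π).zt (pvrcPatOf m π).tt) (Ls : PvytL1 𝔓 𝔤 m (pvrcPatOf m π).zs (pvrcPatOf m π).ts)
    (Pt : ∀ᶠ ε in 𝓝[>] (0 : ℝ), PvytPl 𝔓 𝔤 (pvrcPL c PL m) 𝔑.mm (𝔑.dc c m) col m ε (r ε) π.1.1.ct π.1.1.tt)
    (Ps : ∀ᶠ ε in 𝓝[>] (0 : ℝ), PvytPl 𝔓 𝔤 (pvrcPL c PL m) 𝔑.mm (𝔑.dc c m) col m ε (r ε) π.1.1.cs π.1.1.ts) (a : ℂ) :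
    ∀ᶠ ε in 𝓝[>] (0 : ℝ), PvypPat (pvydDat 𝔓 𝔤 col) 𝔓.Γ ((𝔤.kit m ε).W (pvP ε) (𝔤.X₀ m ε)) a m ε (pvrcPatOf m π)
      (pvskQ (𝔤.qo m) qk (𝔤.qi m) 1 (pvrcPatOf m π).l.length) :=
  pvyt_d_pat_lv hW H hs hN hPL (hΓ.del m) (hΓ.pout m) (hΓ.dout m) (hΓ.pin m) (hΓ.din m) hLr hR π ct cs Ct Cs Lt Ls Pt Ps a

end final

end Claimed.Agent.R289
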