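-- KEEP
import Claimed.Agent.R289.Exit.MetP
import Claimed.Agent.R289.Exit.DatP
import Claimed.Agent.R289.Exit.ArcP
import Claimed.Agent.R289.Exit.CutVM
import Claimed.Agent.R289.Exit.PatD
import Claimed.Agent.R289.Tr.CellNum

/-!
# Row 289 (S0537), THE WALL, ROAD P, Exit/RestP : THE CUT OF THE ROOF REST (`PvrzRest c 𝔤 H` of 186, `Exit/ParP.lean`) AT EXPLICIT TERMS      (pen helper79, hostile reader 186; prefix `pvrs_`, `pvrs`, `Pvrs`, `exit_pvrs_`)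

DATA NOT FIXED BY THE MODEL OF 8:   `Γ : ℕ → PvtsGeo (PvmhT 𝔤)` (doors, reference words),   `m0` (first level),   `𝔶 : PvydGeo (PvmhT 𝔤)` (58 `Exit/DatP.lean`: kit, reference plug, ends, ten walks, forcing constants, global masses).
THE TERMS OF RECORD, functions of `(c, 𝔤, Γ, m0, 𝔶)`:
* `𝔓 := pvrzPar c 𝔤 H Γ m0` (186);
* sectors `pvrsD 𝔓 𝔶 m z t := pvydDat 𝔓 𝔶 (𝔓.ty m z t).col` (58; RULING P10 of 273, ported by 186 12:55Z: only the candidates which are SWITCHED ON, `𝔓.On m z t` = `m0 ≤ m ∧ col = true`, are consumed; rims = `pvdbBlk`);   cell means `pvrsW 𝔶 m ε` = those of the BLACK kit (`pvyd_W` of 58), `0` below `m0`;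
* `𝔄 := PvrsAna.toAna` :   `kout0 kin0 ke0 :=` those of `pvrsD`, `kin00 := 𝔶.kin00 𝔓`, `cV0 := 𝔓.cV0` (263 79), `kV` FREE (ruling P11 of 273: 185);
* `𝔇 := (pvrsPat ..).cut Exc` :   patterns of 138 236 at the numbers `pvrsNum 𝔤` (222), plug `pvrsPL 𝔤 = pvfjmPlug 𝔤.NN PvmhT.typ`, NO PATTERN BELOW `m0` NOR BELOW THE FIRST LEVEL `m1` OF THE PATCH,   `Fit := PvrcFit ∧ PvrvFit ∧ s ∈ pins ∧ t ∈ pins`,   cut by the exceptional events of the arc (286).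
PROVED HERE:   `PvrsAna.toAna` (`G_sub` form: `𝔓.G ⊆ pvspG`),   `pvrs_num` (`a_bdd rel_lim` from ONE family `PvcnFamQ` of 52 258),   `pvrsPat`, **`pvrs_cover`** (236 `pvrc_cover` + 222 `pvqg_met_par`: NO DEBT LEFT but the doors),   `pvrs_fitV`,   `pvrs_arc` (79 `pvrvArc` + 286 `PvraOne`),   **`pvrs_rest : PvrzRest c 𝔤 H`**.
**v3 (79, 13:30Z): THIS FILE HAS NO SORRY: THE TWO ROOFS LEFT ARE STATEMENTS** `PvrsGeoSt c 𝔤 H`, `PvrsArcSt H hG` (hypotheses of `pvrs_rest`); their producers IMPORT this file; they meet in `Exit/TopP.lean`: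
* `PvrsGeoSt`     EXISTENCE OF THE DATA WITH THE CONTRACT `PvrsGeoOk` (doors, ONE family of kits, `KitOk`, `CandOk`, forcing constants, ADM, CLOSE-P `close1 close2`, CUT-V `cutV`)      [pen 36 `Exit/GeoP.lean`, second 270; arbiter 205;  `Γ`, funnels `o i r`: 114 `Tr/LinkGam.lean`;  cells, `πu`: 138;  thick links `e b`: 164 15;  kit, `F`: 34 52 258 291;  ends: 272 68 174;  masses, CLOSE-P: 113 95 203;  ADM: 127 34 31 227;  CUT-V: 263 76 206]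
* `PvrsArcSt`     per patch: THE FIRST LEVEL `m1` OF THE PATCH (free; seam of 205), exceptional events `Exc` of probability `→ 0`, `PvraOne` for every pattern      [CUT: 286 `Exit/ArcRP.lean`: `pvus_arc` from `exit_pvus_reg _chain _close`]
PROVED FROM THE CONTRACT:   `exit_pvrs_fin _tail _bes` (203, from `close1 close2` = `PvydAllC.close1 close2` of 58),   `pvrs_cyc`, `pvrs_thk` (58 `pvyd_cyc`, `pvyd_thk`),   `exit_pvrs_thickV` (79, from `cutV`; 263 `Exit/CutVM.lean`: `kV := pvvtK 𝔶 f`).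
PROTOCOL.   A roof which needs ONE MORE FACT ON THE DATA adds a field to `PvrsGeoOk` IN PLACE (one line to 79 205): the contract grows, the roofs never see the construction.
-/

set_option autoImplicit false
set_option linter.unusedSectionVars false
set_option linter.unusedVariables false

namespace Claimed.Agent.R289

open MeasureTheory Filter Topology Set Metric Claims.C0465
open scoped ENNReal

/-! ## 1. the analytic data at the sectors of 58 -/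

section ana

variable {τ : Type} {c : ℝ} (𝔓 : PvrxPar τ c) (𝔶 : PvydGeo τ)

/-- **the sectors which serve the candidate `(z,t)` of level `m`**: the datum of 58 of the colour of the type -/
noncomputable def pvrsD (m : ℕ) (z : ℂ) (t : τ) : PvypDat τ := pvydDat 𝔓 𝔶 (𝔓.ty m z t).col

/-- the three cell means of `Q` (BLACK kit; the kit of the other colour has the same: `pvyd_W` of 58) -/
noncomputable def pvrsW (m : ℕ) (ε : ℝ) : PvtW := (𝔶.kit m ε).W (pvP ε) (𝔶.X₀ m ε)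

/-- the cell means of record: `0` below the first level -/
noncomputable def pvrsW0 (m : ℕ) (ε : ℝ) : PvtW := if 𝔓.m0 ≤ m then pvrsW 𝔶 m ε else ⟨0, 0, 0⟩

theorem pvrs_W0_eq {m : ℕ} (hm : 𝔓.m0 ≤ m) (ε : ℝ) : pvrsW0 𝔓 𝔶 m ε = pvrsW 𝔶 m ε := if_pos hm

/-- `Gq_τ ⊆ G_τ` : the usable states of record are usable states of the sectors (of either colour) -/
theorem pvrs_G_sub (b : Bool) (m : ℕ) (ε : ℝ) (z : ℂ) (t : τ) : 𝔓.G m ε z t ⊆ (pvydDat 𝔓 𝔶 b).G m ε z t :=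
  fun _ h => pvsp_Gq_sub_G _ _ _ _ _ _ h.2

/-- the region of a state lies in the reading ball -/
theorem pvrs_O_sub (hL : ∀ m z t, (𝔓.ty m z t).rO 𝔓.mod.N + 1 ≤ 𝔓.Lr) (b : Bool) (m : ℕ) (ε : ℝ) (z : ℂ) (t : τ) : (pvydDat 𝔓 𝔶 b).O m ε z t ⊆ 𝔓.Rg m z := by
  rintro ⟨p, e⟩ ⟨hp, -⟩
  have hp' : p ∈ closedBall z ((𝔓.ty m z t).rO 𝔓.mod.N * pvlmH m) := hp
  exact closedBall_subset_closedBall (mul_le_mul_of_nonneg_right (by have := hL m z t; linarith) (pvlm_H_pos m).le) hp'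

/-- **THE ANALYTIC HALF OF ROAD P AT THE SECTORS OF 58**: constants + the free constant `kV` + the contracts, at the candidates which are SWITCHED ON (`𝔓.On m z t` : `𝔓.m0 ≤ m`, BLACK type: ruling P10 of 273) -/
structure PvrsAna where
  CA : ℝ
  CA0 : 0 ≤ CA
  a_bdd : ∀ m, 𝔓.m0 ≤ m → ∀ᶠ ε in 𝓝[>] (0 : ℝ), ‖(𝔓.Γ m).a (pvrsW 𝔶 m ε)‖ ≤ CA
  rel_lim : ∀ m, 𝔓.m0 ≤ m → Tendsto (fun ε => (pvrsW 𝔶 m ε).rel) (𝓝[>] (0 : ℝ)) (𝓝 0)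
  cyc : ∀ (m : ℕ) (p : ℤ × ℤ) (t : τ), 𝔓.On m (l9Pt (pvlmH m) p) t → PvypCyc (pvrsD 𝔓 𝔶 m (l9Pt (pvlmH m) p) t) 𝔓.Γ (pvrsW 𝔶 m) (𝔶.kin00 𝔓 m) 0 m (l9Pt (pvlmH m) p) t
  βu : ℝ≥0∞
  qb : ℝ≥0∞
  qe : ℝ≥0∞
  CB : ℝ≥0∞
  Ce0 : ℝ
  thk : ∀ (m : ℕ) (p : ℤ × ℤ) (t : τ), 𝔓.On m (l9Pt (pvlmH m) p) t → PvypThk (pvrsD 𝔓 𝔶 m (l9Pt (pvlmH m) p) t) (pvlmH m) βu qb qe CB 0 m (l9Pt (pvlmH m) p) t
  Ce : βu⁻¹ * (qb⁻¹ * qe⁻¹) * CB ≤ ENNReal.ofReal Ce0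
  kV : ℕ → ℝ → ℂ
  CV0 : ℝ
  thickV : ∀ (m : ℕ) (p : ℤ × ℤ) (t : τ), 𝔓.On m (l9Pt (pvlmH m) p) t → ∀ᶠ ε in 𝓝[>] (0 : ℝ),
    (pvhbUp ε).E (fun q => (𝔓.G m ε (l9Pt (pvlmH m) p) t).indicator (fun ξ => ‖𝔓.cV0 m ε (l9Pt (pvlmH m) p) t ξ - l9Pt (pvlmH m) p - (𝔓.Γ m).zu t - kV m ε‖ₑ ^ 2) (pvConf (pvMerge q)))
      ≤ ENNReal.ofReal (CV0 * pvlmH m ^ 2)

variable {𝔓 𝔶}

/-- no usable state at a candidate which is switched off -/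
theorem pvrs_G_small {m : ℕ} {z : ℂ} {t : τ} (hm : ¬ 𝔓.On m z t) (ε : ℝ) : 𝔓.G m ε z t = ∅ := eq_empty_of_forall_notMem fun _ hξ => hm hξ.1

/-- an integrand carried by the empty event -/
theorem pvrs_E_empty (ε : ℝ) {G : Set (Conf PvPt)} (hG : G = ∅) (F : Conf PvPt → ℝ≥0∞) : (pvhbUp ε).E (fun q => G.indicator F (pvConf (pvMerge q))) = 0 := by
  subst hG
  simp only [indicator_empty]
  exact PvUp.E_zero _

/-- upper expectations of nonnegative integrands grow with the event -/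
theorem pvrs_E_mono (ε : ℝ) {G G' : Set (Conf PvPt)} (h : G ⊆ G') (F : Conf PvPt → ℝ≥0∞) :
    (pvhbUp ε).E (fun q => G.indicator F (pvConf (pvMerge q))) ≤ (pvhbUp ε).E (fun q => G'.indicator F (pvConf (pvMerge q))) :=
  (pvhbUp ε).mono fun q => indicator_le_indicator_of_subset h (fun _ => zero_le) _

/-- **THE ANALYTIC DATA OF RECORD OF ROAD P** -/
noncomputable def PvrsAna.toAna (A : PvrsAna 𝔓 𝔶) (hL : ∀ m z t, (𝔓.ty m z t).rO 𝔓.mod.N + 1 ≤ 𝔓.Lr) : PvrxAna 𝔓 where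
  W := pvrsW0 𝔓 𝔶
  kin00 := 𝔶.kin00 𝔓
  CA := A.CA
  a_bdd := fun m => by
    by_cases hm : 𝔓.m0 ≤ m
    · simp only [pvrs_W0_eq 𝔓 𝔶 hm]
      exact A.a_bdd m hm
    · simp only [pvrsW0, if_neg hm, PvtsGeo.a, zero_div, norm_zero]
      exact Eventually.of_forall fun _ => A.CA0
  rel_lim := fun m => by
    by_cases hm : 𝔓.m0 ≤ m
    · simp only [pvrs_W0_eq 𝔓 𝔶 hm]
      exact A.rel_lim m hm
    · simp only [pvrsW0, if_neg hm, PvtW.rel, zero_mul, mul_zero, sub_zero, add_zero]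
      exact tendsto_const_nhds
  kV := A.kV
  kout0 := fun m ε z t => (pvrsD 𝔓 𝔶 m z t).kout0 𝔓.Γ m ε 0 z t
  kin0 := fun m ε z t => (pvrsD 𝔓 𝔶 m z t).kin0 𝔓.Γ m ε 0 z t
  ke0 := fun m ε z t => (pvrsD 𝔓 𝔶 m z t).ke0 m ε 0 z t
  cV0 := 𝔓.cV0
  kout_reads := fun m ε z t => (pvyp_kout0_reads (pvrsD 𝔓 𝔶 m z t) 𝔓.Γ m ε 0 z t).mono (pvrs_O_sub 𝔓 𝔶 hL _ m ε z t)
  kin_reads := fun m ε z t => (pvyp_kin0_reads (pvrsD 𝔓 𝔶 m z t) 𝔓.Γ m ε 0 z t).mono (pvrs_O_sub 𝔓 𝔶 hL _ m ε z t)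
  cyc1ν := fun m p t => by
    by_cases hm : 𝔓.On m (l9Pt (pvlmH m) p) t
    · simp only [pvrs_W0_eq 𝔓 𝔶 hm.1]
      exact tendsto_of_tendsto_of_tendsto_of_le_of_le tendsto_const_nhds (pvyp_cyc1_up (A.cyc m p t hm)) (fun _ => zero_le) fun ε => pvrs_E_mono ε (pvrs_G_sub 𝔓 𝔶 _ m ε _ t) _
    · simp only [pvrs_E_empty _ (pvrs_G_small hm _)]
      exact tendsto_const_nhds
  Ce0 := A.Ce0
  thickν := fun m p t => by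
    by_cases hm : 𝔓.On m (l9Pt (pvlmH m) p) t
    · filter_upwards [pvyp_thick_up (A.thk m p t hm) A.Ce] with ε h
      exact (pvrs_E_mono ε (pvrs_G_sub 𝔓 𝔶 _ m ε _ t) _).trans h
    · simp only [pvrs_E_empty _ (pvrs_G_small hm _)]
      exact Eventually.of_forall fun _ => zero_le
  CV0 := A.CV0
  thickVν := fun m p t => by
    by_cases hm : 𝔓.On m (l9Pt (pvlmH m) p) t
    · exact A.thickV m p t hm
    · simp only [pvrs_E_empty _ (pvrs_G_small hm _)]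
      exact Eventually.of_forall fun _ => zero_le

/-- **NUM**: `a_bdd rel_lim` from ONE family of cell kits (52 `Tr/CellNum.lean`;  258 `Tr/BuNum.lean`: `PvkmUnitQ.fam`) -/
theorem pvrs_num {δ : ℕ → ℝ} (F : PvcnFamQ δ) (hF : ∀ m, 𝔓.m0 ≤ m → δ m = (𝔓.Γ m).δ ∧ ∀ ε, 𝔶.kit m ε = F.kit m ε ∧ 𝔶.X₀ m ε = F.XQ m ε) :
    0 ≤ F.CA ∧ (∀ m, 𝔓.m0 ≤ m → ∀ᶠ ε in 𝓝[>] (0 : ℝ), ‖(𝔓.Γ m).a (pvrsW 𝔶 m ε)‖ ≤ F.CA) ∧ ∀ m, 𝔓.m0 ≤ m → Tendsto (fun ε => (pvrsW 𝔶 m ε).rel) (𝓝[>] (0 : ℝ)) (𝓝 0) := by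
  have e : ∀ m, 𝔓.m0 ≤ m → ∀ ε, pvrsW 𝔶 m ε = F.W m ε := fun m hm ε => by
    unfold pvrsW PvcnFamQ.W
    rw [((hF m hm).2 ε).1, ((hF m hm).2 ε).2]
  refine ⟨Real.sqrt_nonneg _, fun m hm => ?_, fun m hm => ?_⟩
  · filter_upwards [F.a_bdd m] with ε h
    rw [e m hm ε, PvtsGeo.a, ← (hF m hm).1]
    exact h
  · simp only [e m hm]
    exact F.rel_lim m

end ana

theorem pvrs_eqns_cite : True := by
  have := @pvrsD.eq_1; have := @pvrsW.eq_1; have := @pvrsW0.eq_1; have := @PvrsAna.toAna.eq_1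
  trivial

/-! ## 2. the patterns of record, `cover` -/

section pat

variable {𝔤 : PvmhNum}

/-- the numbers of the roof `cover` (236) at the model (222: `PvqgRel`) -/
noncomputable def pvrsNum (𝔤 : PvmhNum) : PvrcNum := ⟨𝔤.dl, 10, 7, 2, 1 / 10, 𝔤.Lr + 3⟩

/-- the plugs of the menu (138) -/
noncomputable def pvrsPL (𝔤 : PvmhNum) : PvfjPlug (PvmhT 𝔤) := pvfjmPlug 𝔤.NN PvmhT.typ

theorem pvrs_rel (H : 𝔤.OK) : PvqgRel 𝔤 (pvrsNum 𝔤) := by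
  obtain ⟨h0, h1, h2, h3, h4, h5⟩ := pvmh_basic H
  have e3 : 𝔤.b3 = 𝔤.b 2 + 1 := rfl
  refine ⟨⟨h0, ?_, ?_, ?_, ?_, ?_, ?_⟩, rfl, ?_, ?_⟩
  · show 𝔤.dl ≤ 1
    linarith
  · show (10 : ℤ) ≤ 10
    exact le_rfl
  · show (0 : ℝ) < 7
    norm_num
  · show (1 : ℝ) < 2
    norm_num
  · show (0 : ℝ) < 1 / 10
    norm_num
  · show (1 / 10 : ℝ) ≤ 1 / 10
    exact le_rfl
  · show (6 : ℝ) + 2 * (1 / 10) ≤ 7
    norm_num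
  · show (2 : ℝ) + 1 ≤ 10 * 𝔤.b3
    rw [e3]
    linarith

theorem pvrs_PL_wf (H : 𝔤.OK) : (pvrsPL 𝔤).WF := pvfjm_wf (pvmh_numOK H) (by have := pvmh_bars H; omega) fun t => t.isType

/-- **THE DOORS OF RECORD AT ONE LEVEL** (`PvrcDoors` of 236, level by level: asked for `m0 ≤ m` only;   5 × `rfl` at `pvfjGeo` of 138) -/
structure PvrsDoors (c : ℝ) (𝔤 : PvmhNum) (Γ : PvtsGeo (PvmhT 𝔤)) (m : ℕ) : Prop where
  del : Γ.δ = (pvrsNum 𝔤).dc c m / (2 * ((pvrsNum 𝔤).mm : ℝ) + 1)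
  pout : ∀ t, Γ.pout t = pvfjDoor (pvrsNum 𝔤).mm ((pvrsNum 𝔤).dc c m) ((pvrcPL c (pvrsPL 𝔤) m).yp t) ((pvrcPL c (pvrsPL 𝔤) m).dp t)
  dout : ∀ t, Γ.dout t = pvtZ ((pvrcPL c (pvrsPL 𝔤) m).dp t)
  pin : ∀ t, Γ.pin t = pvfjDoor (pvrsNum 𝔤).mm ((pvrsNum 𝔤).dc c m) ((pvrcPL c (pvrsPL 𝔤) m).ym t) ((pvrcPL c (pvrsPL 𝔤) m).dm t)
  din : ∀ t, Γ.din t = - pvtZ ((pvrcPL c (pvrsPL 𝔤) m).dm t)

variable {c : ℝ} (H : PvrzGood 𝔤) {Γ : ℕ → PvtsGeo (PvmhT 𝔤)} {m0 : ℕ}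

/-- the region of a state, fattened by `h`, lies in the reading ball -/
theorem pvrs_rO (Γ : ℕ → PvtsGeo (PvmhT 𝔤)) (m0 : ℕ) (m : ℕ) (z : ℂ) (t : PvmhT 𝔤) :
    ((pvrzPar c 𝔤 H Γ m0).ty m z t).rO (pvrzPar c 𝔤 H Γ m0).mod.N + 1 ≤ (pvrzPar c 𝔤 H Γ m0).Lr := by
  obtain ⟨h0, h1, h2, h3, h4, h5⟩ := pvmh_basic H.ok
  show 2 * 𝔤.b 1 + 1 ≤ 20 * (𝔤.b 2 + 1) + 3
  linarith

/-- **THE PATTERNS OF RECORD** in the patch `(x,R)` : those of 138 236 at the levels `m0 ≤ m`, `m1 ≤ m`, none below;   **`m1` = THE FIRST LEVEL OF THE PATCH** (seam of 205, 13:20Z: `m0` is chosen before `(x,R)`, the fit-time numbers of 222 hold from a level `m1(R)` on; `cover` is eventual in `m`, so `m1` is FREE: the roof ARC chooses it);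
`Fit` = all that is known on the good event (236) + what the `V`-fields ask (79) + the two ends are pins of record (286) -/
noncomputable def pvrsPat (hΓ : ∀ m, m0 ≤ m → PvrsDoors c 𝔤 (Γ m) m) (m1 : ℕ) (x : ℂ) (R : ℝ) : PvrxPat (pvrzPar c 𝔤 H Γ m0) x R where
  Pat := fun m => {_π : pvrcPat (pvrsNum 𝔤) c (pvrsPL 𝔤) x R m // m0 ≤ m ∧ m1 ≤ m}
  Pat_fin := fun m => by
    have := pvrc_pat_fin (𝔑 := pvrsNum 𝔤) (c := c) (x := x) (R := R) (pvrs_PL_wf H.ok) m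
    exact Subtype.finite
  pat := fun m π => pvrcPatOf m π.1
  pat_ok := fun m π => pvfj_pat_ok (Γ m) (by show (0 : ℤ) ≤ 10; norm_num) (hΓ m π.2.1).del (hΓ m π.2.1).pout (hΓ m π.2.1).dout (hΓ m π.2.1).pin (hΓ m π.2.1).din π.1.1
  far := fun m π => pvrc_pat_far m π.1
  Fit := fun m ε ω P s t π => PvrcFit (pvrzPar c 𝔤 H Γ m0).𝔐 m ω P s t π.1 ∧ PvrvFit (pvrzPar c 𝔤 H Γ m0) x R m P s t ∧
    s ∈ (pvrzPar c 𝔤 H Γ m0).pins x R m ε ω P ∧ t ∈ (pvrzPar c 𝔤 H Γ m0).pins x R m ε ω P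
  fit_s := fun _ _ _ _ _ _ _ h => pvrc_fit_s h.1
  fit_t := fun _ _ _ _ _ _ _ h => pvrc_fit_t h.1

/-- what the `V`-fields ask of the fit -/
theorem pvrs_fitV (hΓ : ∀ m, m0 ≤ m → PvrsDoors c 𝔤 (Γ m) m) (m1 : ℕ) (x : ℂ) (R : ℝ) (m : ℕ) (ε : ℝ) (ω : PVSample) (P : PvbRim) (s t : PvbPin (PvmhT 𝔤)) (π : (pvrsPat H hΓ m1 x R).Pat m)
    (h : (pvrsPat H hΓ m1 x R).Fit m ε ω P s t π) : PvrvFit (pvrzPar c 𝔤 H Γ m0) x R m P s t := h.2.1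

/-- the two ends of a fitting arc are pins of record (request of 286: RUN needs their exact fit) -/
theorem pvrs_fit_pins (hΓ : ∀ m, m0 ≤ m → PvrsDoors c 𝔤 (Γ m) m) (m1 : ℕ) (x : ℂ) (R : ℝ) (m : ℕ) (ε : ℝ) (ω : PVSample) (P : PvbRim) (s t : PvbPin (PvmhT 𝔤)) (π : (pvrsPat H hΓ m1 x R).Pat m)
    (h : (pvrsPat H hΓ m1 x R).Fit m ε ω P s t π) : s ∈ (pvrzPar c 𝔤 H Γ m0).pins x R m ε ω P ∧ t ∈ (pvrzPar c 𝔤 H Γ m0).pins x R m ε ω P := h.2.2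

/-- **THE FIELD `cover` AT THE PATTERNS OF RECORD**      [236 `pvrc_cover_det` (no density of the pins), 222 `pvqg_met_par`, the location clause of the pins;   BLACK rims: P10] -/
theorem pvrs_cover (c0 : 0 < c) (hΓ : ∀ m, m0 ≤ m → PvrsDoors c 𝔤 (Γ m) m) (m1 : ℕ) (x : ℂ) {R : ℝ} (hR : 0 < R) (hP : PvrxPinsOK (pvrzPar c 𝔤 H Γ m0) x R) : PvrxCover (pvrsPat H hΓ m1 x R) := by
  have key := pvrc_cover_det (𝔐 := (pvrzPar c 𝔤 H Γ m0).𝔐) (pins := (pvrzPar c 𝔤 H Γ m0).pins x R) (Ex := fun _ _ _ _ _ _ => True) (pvrs_rel H.ok).ok c0 hR (pvrs_PL_wf H.ok)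
    (fun m ε ω P s hs => by
      obtain ⟨lo, hi, Hp⟩ := hs.2.2.2.pass
      exact ⟨pvmh_isPin H.ok (pvlm_H_pos m).le s.typ Hp hs.2.2.2.near, hs.2.2.1⟩)
    (pvqg_met_par H (pvrs_rel H.ok) c0 hR Γ m0) (Eventually.of_forall fun _ _ _ _ _ _ _ => trivial)
  refine pvrc_ord_mono (l := 𝓝[>] (0 : ℝ)) key ?_
  filter_upwards [eventually_ge_atTop m0, eventually_ge_atTop m1] with m hm hm1
  refine Eventually.of_forall fun ε => ENNReal.toReal_mono ((pvhbUp ε).P_ne_top _) ((pvhbUp ε).P_mono ?_)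
  intro q hq hall
  refine hq fun P hPr s hs t ht h1 h2 h3 => ?_
  obtain ⟨π, hπ, -⟩ := hall P hPr.1 s hs t ht h1 h2 h3
  exact ⟨⟨π, hm, hm1⟩, hπ, ⟨h1, fun k k1 k2 => (h2 k k1 k2.le).trans (by linarith), pvrv_patch_loc hs (pvrs_rO H Γ m0 m _ _), pvrv_patch_loc ht (pvrs_rO H Γ m0 m _ _)⟩, hs, ht⟩

end pat

theorem pvrs_eqns_cite2 : True := by
  have := @pvrsNum.eq_1; have := @pvrsPL.eq_1; have := @pvrsPat.eq_1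
  trivial

/-! ## 3. the free arc -/

section arc

variable {𝔤 : PvmhNum} {c : ℝ} (H : PvrzGood 𝔤) {Γ : ℕ → PvtsGeo (PvmhT 𝔤)} {m0 : ℕ}

/-- **THE FREE ARC** from `PvraOne` (286) at every pattern of the levels `m0 ≤ m` : the `V`-half is `Exit/ArcVP.lean` -/
noncomputable def pvrsArc {𝔄 : PvrxAna (pvrzPar c 𝔤 H Γ m0)} (hc : 𝔄.cV0 = (pvrzPar c 𝔤 H Γ m0).cV0) {x : ℂ} {R : ℝ} (hR : 0 < R) {𝔇 : PvrxPat (pvrzPar c 𝔤 H Γ m0) x R}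
    (hF : ∀ m ε ω P s t π, 𝔇.Fit m ε ω P s t π → PvrvFit (pvrzPar c 𝔤 H Γ m0) x R m P s t)
    (X : ∀ m, (pvrzPar c 𝔤 H Γ m0).m0 ≤ m → ∀ π : 𝔇.Pat m, PvraOne 𝔄 𝔇 m π) : PvrxArc 𝔄 𝔇 :=
  pvrvArc (pvrz_wf H Γ m0) (pvrz_wfV H Γ m0) hc hR hF (fun m ε π => (pvraOneAll X m π).Z ε) (fun m π => pvra_one_stab (pvraOneAll X m π)) (fun m π => (pvraOneAll X m π).n1ν)

end arc

/-! ## 4. THE CONTRACT OF THE DATA, THE FIVE ROOFS -/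

section roofs

variable {𝔤 : PvmhNum}

/-- **THE CONTRACT OF THE DATA `(Γ, m0, 𝔶)`** : all that the roofs below may use.      It GROWS IN PLACE (one line to 79 205). -/
structure PvrsGeoOk (c : ℝ) (H : PvrzGood 𝔤) (Γ : ℕ → PvtsGeo (PvmhT 𝔤)) (m0 : ℕ) (𝔶 : PvydGeo (PvmhT 𝔤)) : Prop where
  /-- the doors of the patterns      [114 138] -/
  doors : ∀ m, m0 ≤ m → PvrsDoors c 𝔤 (Γ m) m
  /-- the kit is ONE family of 52 / 258 at the cells `(Γ m).δ`      [34 52 258] -/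
  num : ∃ (δ : ℕ → ℝ) (F : PvcnFamQ δ), ∀ m, m0 ≤ m → δ m = (Γ m).δ ∧ ∀ ε, 𝔶.kit m ε = F.kit m ε ∧ 𝔶.X₀ m ε = F.XQ m ε
  /-- kit, reference plug, its funnel      [58: `PvydGeo.KitOk`] -/
  kit : ∀ m, m0 ≤ m → ∃ β' qk : ℝ≥0∞, β' ≠ 0 ∧ qk ≠ 0 ∧ 𝔶.KitOk (pvrzPar c 𝔤 H Γ m0) m β' qk
  /-- the links of a candidate WHICH IS SWITCHED ON (`m0 ≤ m`, BLACK type: P10)      [58: `PvydGeo.CandOk`] -/
  cand : ∀ (m : ℕ) (p : ℤ × ℤ) (t : PvmhT 𝔤), (pvrzPar c 𝔤 H Γ m0).On m (l9Pt (pvlmH m) p) t → 𝔶.CandOk (pvrzPar c 𝔤 H Γ m0) m (l9Pt (pvlmH m) p) t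
  /-- the forcing constants of the two thick links -/
  qe0 : 𝔶.qe ≠ 0
  qe1 : 𝔶.qe ≤ 1
  qb0 : 𝔶.qb ≠ 0
  qb1 : 𝔶.qb ≤ 1
  /-- **ADM** (P18, S1 of 273: `u` = kit plug at the scale `h`), UNIFORM in the level      [127 34 31 227: scaling] -/
  adm : ∃ βu : ℝ≥0∞, βu ≠ 0 ∧ ∀ m, m0 ≤ m → ∀ᶠ ε in 𝓝[>] (0 : ℝ), βu ≤ pvP ε (𝔶.Gu m ε)
  /-- **CLOSE-P, LONG CYCLE** `t -o-> cells of l1 t -r-> u -e-> t` (203: WITHOUT this field FIN TAIL are FALSE: nothing else ties the masses `𝔶.Xo Xr Xe`, `𝔶.X₀` to a rim): a.s. on the event of the cycle the pieces close to ONE rim, the field `j` is its `Q`-mass in the deterministic mask `Mk ε j`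
  [= `PvydAllC.close1` of 58;  95 `Tr/CloseM.lean` `PvcmRing.toRing`, 113 `Tr/ConnQ.lean` `pvkj_ringM`, 34 244 272] -/
  close1 : ∀ (m : ℕ) (p : ℤ × ℤ) (t : PvmhT 𝔤), (pvrzPar c 𝔤 H Γ m0).On m (l9Pt (pvlmH m) p) t → ∃ (Mk : ℝ → ℕ → Set ℂ) (B : Set ℂ) (a₀ : ℝ),
    PvcpClose1 (pvydDat (pvrzPar c 𝔤 H Γ m0) 𝔶 ((pvrzPar c 𝔤 H Γ m0).ty m (l9Pt (pvlmH m) p) t).col) (pvrzPar c 𝔤 H Γ m0).Γ 0 m (l9Pt (pvlmH m) p) t Mk B a₀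
  /-- **CLOSE-P, SHORT CYCLE** `t -b-> u -e-> t` (203: WITHOUT this field BES is FALSE): the field of the thick link is the `Q`-mass of ONE rim in a deterministic mask of area `≤ cM h²`, `cM` UNIFORM in `(m, p, t)`      [= `PvydAllC.close2` of 58] -/
  close2 : ∃ cM : ℝ, ∀ (m : ℕ) (p : ℤ × ℤ) (t : PvmhT 𝔤), (pvrzPar c 𝔤 H Γ m0).On m (l9Pt (pvlmH m) p) t → ∃ M : ℝ → Set ℂ,
    PvcpClose2 (pvydDat (pvrzPar c 𝔤 H Γ m0) 𝔶 ((pvrzPar c 𝔤 H Γ m0).ty m (l9Pt (pvlmH m) p) t).col) 0 m (l9Pt (pvlmH m) p) t M cM (pvlmH m)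
  /-- **CUT-V** (79, 13:05Z: the cut of the roof THICK-V by 263 `Exit/CutVM.lean`): `f m ε` = THE CUT POINT OF THE REFERENCE PLUG IN THE REFERENCE FRAME (free of `(z,t)`): `PvvtRef` = measurable, reads `𝔶.Ou m`, integrable over `G_u`;   **[BES-V]** `PvvtBes` : `∫_{Ev2} |cV0 - Cu|² ≤ CBV h²`, `CBV` UNIFORM in `(m, p, t)`
  [263 (R);  76 `Tr/CutPl.lean` (the concrete `Cu`, plane readings);  206 `Tr/CloseV.lean` `PvvmRec.bes'`] -/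
  cutV : ∃ (f : ℕ → ℝ → Conf PvPt → ℂ) (CBV : ℝ≥0∞), CBV ≠ ∞ ∧ (∀ m, m0 ≤ m → PvvtRef 𝔶 f m) ∧
    ∀ (m : ℕ) (p : ℤ × ℤ) (t : PvmhT 𝔤), (pvrzPar c 𝔤 H Γ m0).On m (l9Pt (pvlmH m) p) t → PvvtBes (pvrzPar c 𝔤 H Γ m0) 𝔶 f CBV m (l9Pt (pvlmH m) p) t
  /-- **CHAIN, debt 2 of 183** (286, 13:45Z: `exit_pvus_chain` of `Exit/ArcRP.lean` is PROVED from `num kit cand doors` + the two fields `l1 pl`): the fields of the two funnels of a candidate which is switched on are integrable ON THE EVENT OF THE FUNNEL (two usable states + success;   183 13:55Z: WEAKER than the global form, which is FALSE for an unguarded `pvkjX C`)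
  [183 `Exit/PatD.lean`: `pvyt_l1_ev` (masses read by the link + integrable on the event), `pvyt_l1_glob` (global `L¹`: `PvytL1G`);   `Tr/ConnL1.lean`: `‖pvkjX C‖ ≤ 6 ρ #(window)²` under the guard;   a.e. guard: 272 `pvnd_o_ae pvnd_i_ae`, 113 95] -/
  l1 : ∀ (m : ℕ) (p : ℤ × ℤ) (t : PvmhT 𝔤), (pvrzPar c 𝔤 H Γ m0).On m (l9Pt (pvlmH m) p) t → PvytL1 (pvrzPar c 𝔤 H Γ m0) 𝔶 m (l9Pt (pvlmH m) p) t
  /-- **CHAIN, debt 3 of 183** (PLANAR): `r ε` = the reference square of the doors of the kit;   the state ball and the two funnels of a candidate which is switched on, with centre = the coarse cell `a` of 138 ON THE GRID `h ℤ²`, live in the closed fine cells of the body `D_{mm+9}(B)`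
  [138 P14;  `PvytPl` of `Exit/PatD.lean`] -/
  pl : ∀ m, m0 ≤ m → ∃ r : ℝ → ℝ, (∀ᶠ ε in 𝓝[>] (0 : ℝ), PvccKitRef (𝔶.kit m ε) (r ε)) ∧ ∀ (a : ℤ × ℤ) (t : PvmhT 𝔤), (∃ p : ℤ × ℤ, pvmgPt ((pvrsNum 𝔤).dc c m) a = l9Pt (pvlmH m) p) →
    (pvrzPar c 𝔤 H Γ m0).On m (pvmgPt ((pvrsNum 𝔤).dc c m) a) t →
    ∀ᶠ ε in 𝓝[>] (0 : ℝ), PvytPl (pvrzPar c 𝔤 H Γ m0) 𝔶 (pvrcPL c (pvrsPL 𝔤) m) (pvrsNum 𝔤).mm ((pvrsNum 𝔤).dc c m) true m ε (r ε) a t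
  /-- **SIDES** (P25 of 273, 16:00Z; the seam GEO / ARC after HOLES): the exit funnel of a candidate which is switched on lives over the HULL of the 8-tube of the EXIT half of the type, the entrance funnel over the hull of the 8-tube of the ENTRANCE half;   `d = dl h` = side of a menu cell
  [payers 135 8 (`o`), 20 (`i`), 169: field `sd` of `PveqOiC`, `Exit/GeoP.lean`;   consumer 225 `pvvr_cor`, `Exit/RegQP.lean`;   the first line = `o_sd` of 58, hull instance] -/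
  sd : ∀ (m : ℕ) (p : ℤ × ℤ) (t : PvmhT 𝔤), (pvrzPar c 𝔤 H Γ m0).On m (l9Pt (pvlmH m) p) t → ∀ᶠ ε in 𝓝[>] (0 : ℝ),
    pvnhKp (𝔶.lo (pvrzPar c 𝔤 H Γ m0) true m ε (l9Pt (pvlmH m) p) t) (𝔶.wo m (l9Pt (pvlmH m) p) t).Et ⊆ pvmgPl (l9Pt (pvlmH m) p) (𝔤.dl * pvlmH m) (pvtHull (pvtwN 8 (pvmnCells t.typ 5 9))) ∧
    pvnhKp (𝔶.li (pvrzPar c 𝔤 H Γ m0) true m ε (l9Pt (pvlmH m) p) t) (𝔶.wi m (l9Pt (pvlmH m) p) t).Et ⊆ pvmgPl (l9Pt (pvlmH m) p) (𝔤.dl * pvlmH m) (pvtHull (pvtwN 8 (pvmnCells t.typ 0 4)))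

/-- **ROOF GEO, AS A STATEMENT**: the data exist      [pen 36 `Exit/GeoP.lean` (P14 of 273), second 270;  arbiter 205;  114 138 164 15 (geometry);  34 52 258 291 (kit);  272 68 174 (ends);  113 95 203 (masses, CLOSE-P);  263 76 (CUT-V)] -/
def PvrsGeoSt (c : ℝ) (𝔤 : PvmhNum) (H : PvrzGood 𝔤) : Prop := ∃ (Γ : ℕ → PvtsGeo (PvmhT 𝔤)) (m0 : ℕ) (𝔶 : PvydGeo (PvmhT 𝔤)), PvrsGeoOk c H Γ m0 𝔶

variable {c : ℝ} (c0 : 0 < c) (H : PvrzGood 𝔤) (hβ : 0 < 𝔤.β)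

include c0 hβ

variable {Γ : ℕ → PvtsGeo (PvmhT 𝔤)} {m0 : ℕ} {𝔶 : PvydGeo (PvmhT 𝔤)} (hG : PvrsGeoOk c H Γ m0 𝔶)

include hG

/-- **ROOF FIN**: integrability of the fields on the event of the long cycle      [183 `pvyt_fin_of_count`; 113] -/
theorem exit_pvrs_fin (m : ℕ) (p : ℤ × ℤ) (t : PvmhT 𝔤) (hm : (pvrzPar c 𝔤 H Γ m0).On m (l9Pt (pvlmH m) p) t) : PvydFin (pvrzPar c 𝔤 H Γ m0) 𝔶 m (l9Pt (pvlmH m) p) t := by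
  obtain ⟨β', qk, -, -, hK⟩ := hG.kit m hm.1
  obtain ⟨Mk, B, a₀, h⟩ := hG.close1 m p t hm
  exact pvyd_fin_of_close (pvrz_wf H Γ m0) hK (hG.cand m p t hm) h

/-- **ROOF TAIL** = CLOSE-P + I.TAIL on the long cycle `t -o-> cells of l1 t -r-> u -e-> t`      [95 `Tr/CloseM.lean`, 113, 43] -/
theorem exit_pvrs_tail (m : ℕ) (p : ℤ × ℤ) (t : PvmhT 𝔤) (hm : (pvrzPar c 𝔤 H Γ m0).On m (l9Pt (pvlmH m) p) t) : PvydTail (pvrzPar c 𝔤 H Γ m0) 𝔶 m (l9Pt (pvlmH m) p) t := by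
  obtain ⟨β', qk, -, -, hK⟩ := hG.kit m hm.1
  obtain ⟨Mk, B, a₀, h⟩ := hG.close1 m p t hm
  exact pvyd_tail_of_close (pvrz_wf H Γ m0) hK (hG.cand m p t hm) h

/-- **ROOF BES** = CLOSE-P with the deterministic mask of the thick link + I.BES on the short cycle `t -b-> u -e-> t`, constant UNIFORM in `(m, p, t)`      [95 113 223 181 43] -/
theorem exit_pvrs_bes : ∃ CB : ℝ≥0∞, CB ≠ ∞ ∧ ∀ (m : ℕ) (p : ℤ × ℤ) (t : PvmhT 𝔤), (pvrzPar c 𝔤 H Γ m0).On m (l9Pt (pvlmH m) p) t → PvydBes (pvrzPar c 𝔤 H Γ m0) 𝔶 CB m (l9Pt (pvlmH m) p) t := by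
  obtain ⟨cM, h⟩ := hG.close2
  refine ⟨pvbeCB * ENNReal.ofReal cM, ENNReal.mul_ne_top pvbe_CB_ne_top ENNReal.ofReal_ne_top, fun m p t hm => ?_⟩
  obtain ⟨β', qk, -, -, hK⟩ := hG.kit m hm.1
  obtain ⟨M, hM⟩ := h m p t hm
  exact pvyd_bes_of_close (pvrz_wf H Γ m0) hK (hG.cand m p t hm) hM

/-- **CYC** = TR3' + TR2 + TR25 on `G`      [58 `pvyd_cyc`] -/
theorem pvrs_cyc (m : ℕ) (p : ℤ × ℤ) (t : PvmhT 𝔤) (hm : (pvrzPar c 𝔤 H Γ m0).On m (l9Pt (pvlmH m) p) t) :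
    PvypCyc (pvrsD (pvrzPar c 𝔤 H Γ m0) 𝔶 m (l9Pt (pvlmH m) p) t) Γ (pvrsW 𝔶 m) (𝔶.kin00 (pvrzPar c 𝔤 H Γ m0) m) 0 m (l9Pt (pvlmH m) p) t := by
  obtain ⟨β', qk, -, -, hK⟩ := hG.kit m hm.1
  obtain ⟨βu, hβu, hadm⟩ := hG.adm
  exact pvyd_cyc (pvrz_wf H Γ m0) hK (hG.cand m p t hm) hG.qe0 hG.qe1 hβu (hadm m hm.1) (exit_pvrs_fin c0 H hβ hG m p t hm) (exit_pvrs_tail c0 H hβ hG m p t hm)

/-- **THK** = TR5 + I.BES, constants UNIFORM in `(m, p, t)`      [58 `pvyd_thk`] -/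
theorem pvrs_thk : ∃ (βu qb qe CB : ℝ≥0∞) (Ce0 : ℝ), βu⁻¹ * (qb⁻¹ * qe⁻¹) * CB ≤ ENNReal.ofReal Ce0 ∧
    ∀ (m : ℕ) (p : ℤ × ℤ) (t : PvmhT 𝔤), (pvrzPar c 𝔤 H Γ m0).On m (l9Pt (pvlmH m) p) t → PvypThk (pvrsD (pvrzPar c 𝔤 H Γ m0) 𝔶 m (l9Pt (pvlmH m) p) t) (pvlmH m) βu qb qe CB 0 m (l9Pt (pvlmH m) p) t := by
  obtain ⟨βu, hβu, hadm⟩ := hG.adm
  obtain ⟨CB, hCB, hbes⟩ := exit_pvrs_bes c0 H hβ hG
  have hfin : βu⁻¹ * (𝔶.qb⁻¹ * 𝔶.qe⁻¹) * CB ≠ ∞ :=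
    ENNReal.mul_ne_top (ENNReal.mul_ne_top (ENNReal.inv_ne_top.2 hβu) (ENNReal.mul_ne_top (ENNReal.inv_ne_top.2 hG.qb0) (ENNReal.inv_ne_top.2 hG.qe0))) hCB
  refine ⟨βu, 𝔶.qb, 𝔶.qe, CB, (βu⁻¹ * (𝔶.qb⁻¹ * 𝔶.qe⁻¹) * CB).toReal, (ENNReal.ofReal_toReal hfin).ge, fun m p t hm => ?_⟩
  obtain ⟨β', qk, -, -, hK⟩ := hG.kit m hm.1
  exact pvyd_thk (pvrz_wf H Γ m0) hK (hG.cand m p t hm) hG.qe0 hG.qe1 hG.qb0 hG.qb1 hβu (hadm m hm.1) (hbes m p t hm)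

/-- **THICK-V** (ruling P11 of 273): the cut point of record, `kV := pvvtK 𝔶 f` = the mean of the cut point of the reference plug.      **PROVED (79, 13:05Z) from the field `cutV`** by 263 (`pvvt_cand`, `pvvt_cand_term`) -/
theorem exit_pvrs_thickV : ∃ (kV : ℕ → ℝ → ℂ) (CV0 : ℝ), ∀ (m : ℕ) (p : ℤ × ℤ) (t : PvmhT 𝔤), (pvrzPar c 𝔤 H Γ m0).On m (l9Pt (pvlmH m) p) t → ∀ᶠ ε in 𝓝[>] (0 : ℝ),
    (pvhbUp ε).E (fun q => ((pvrzPar c 𝔤 H Γ m0).G m ε (l9Pt (pvlmH m) p) t).indicator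
      (fun ξ => ‖(pvrzPar c 𝔤 H Γ m0).cV0 m ε (l9Pt (pvlmH m) p) t ξ - l9Pt (pvlmH m) p - (Γ m).zu t - kV m ε‖ₑ ^ 2) (pvConf (pvMerge q))) ≤ ENNReal.ofReal (CV0 * pvlmH m ^ 2) := by
  obtain ⟨f, CBV, hCBV, hR, hB⟩ := hG.cutV
  obtain ⟨βu, hβu, hadm⟩ := hG.adm
  obtain ⟨CB, hCB, hbes⟩ := exit_pvrs_bes c0 H hβ hG
  have hfin : βu⁻¹ * (𝔶.qb⁻¹ * 𝔶.qe⁻¹) * CBV ≠ ∞ :=
    ENNReal.mul_ne_top (ENNReal.mul_ne_top (ENNReal.inv_ne_top.2 hβu) (ENNReal.mul_ne_top (ENNReal.inv_ne_top.2 hG.qb0) (ENNReal.inv_ne_top.2 hG.qe0))) hCBV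
  refine ⟨pvvtK 𝔶 f, (βu⁻¹ * (𝔶.qb⁻¹ * 𝔶.qe⁻¹) * CBV).toReal, fun m p t hm => ?_⟩
  obtain ⟨β', qk, -, -, hK⟩ := hG.kit m hm.1
  have T := pvyd_thk (pvrz_wf H Γ m0) hK (hG.cand m p t hm) hG.qe0 hG.qe1 hG.qb0 hG.qb1 hβu (hadm m hm.1) (hbes m p t hm)
  filter_upwards [pvvt_cand (pvrz_wf H Γ m0) (pvvt_cand_term T hβu hK.mGu (hadm m hm.1) (hR m hm.1) (hB m p t hm))] with ε h1
  refine h1.trans (le_of_eq ?_)
  rw [ENNReal.ofReal_mul ENNReal.toReal_nonneg, ENNReal.ofReal_toReal hfin]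
  ring

/-- **THE ANALYTIC HALF** from NUM (proved) + the three roofs -/
theorem pvrs_ana : Nonempty (PvrsAna (pvrzPar c 𝔤 H Γ m0) 𝔶) := by
  obtain ⟨δ, F, hF⟩ := hG.num
  obtain ⟨n0, n1, n2⟩ := pvrs_num (𝔓 := pvrzPar c 𝔤 H Γ m0) (𝔶 := 𝔶) F hF
  obtain ⟨βu, qb, qe, CB, Ce0, hCe, hthk⟩ := pvrs_thk c0 H hβ hG
  obtain ⟨kV, CV0, hV⟩ := exit_pvrs_thickV c0 H hβ hG
  exact ⟨⟨F.CA, n0, n1, n2, pvrs_cyc c0 H hβ hG, βu, qb, qe, CB, Ce0, hthk, hCe, kV, CV0, hV⟩⟩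

omit c0 hβ in
/-- **ROOF ARC, AS A STATEMENT** = P12 STAB + P17, per patch: THE FIRST LEVEL `m1` OF THE PATCH (free: 205), exceptional events of the SAMPLE per pattern, of probability `→ 0` at fixed `(m, π)` (QBX-good geometry of the tube and of the white lane, ..: free in `cover` by 286), and the `Q`-half `PvraOne` of 286 at every pattern.
`A` is ANY term of the analytic half: `PvraOne` sees only `kout0 kin0 W` of `A.toAna`, which do not depend on `A` (`rfl`).      [CUT: 286 `Exit/ArcRP.lean` `pvus_arc`;  59 279 183 225 (N1);  212 97 113 (STAB, ACT, CLOSE);  147 (white lane)] -/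
def PvrsArcSt : Prop := ∀ (A : PvrsAna (pvrzPar c 𝔤 H Γ m0) 𝔶) (x : ℂ) (R : ℝ), 0 < R →
    ∃ (m1 : ℕ) (Exc : ∀ m : ℕ, ℝ → (pvrsPat H hG.doors m1 x R).Pat m → Set PVSample),
      (∀ m (π : (pvrsPat H hG.doors m1 x R).Pat m), Tendsto (fun ε => (pvhbUp ε).P {q | pvMerge q ∈ Exc m ε π}) (𝓝[>] (0 : ℝ)) (𝓝 0)) ∧
      ∀ m, m0 ≤ m → ∀ π : ((pvrsPat H hG.doors m1 x R).cut Exc).Pat m, Nonempty (PvraOne (A.toAna (pvrs_rO H Γ m0)) ((pvrsPat H hG.doors m1 x R).cut Exc) m π)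

/-- **REST AT THE DATA**: given the roof ARC and the pins -/
theorem pvrs_rest_at (hA : PvrsArcSt H hG) (hP : ∀ (x : ℂ) (R : ℝ), 0 < R → PvrxPinsOK (pvrzPar c 𝔤 H Γ m0) x R) :
    ∃ 𝔄 : PvrxAna (pvrzPar c 𝔤 H Γ m0), ∀ (x : ℂ) (R : ℝ), 0 < R → ∃ 𝔇 : PvrxPat (pvrzPar c 𝔤 H Γ m0) x R, PvrxCover 𝔇 ∧ Nonempty (PvrxArc 𝔄 𝔇) := by
  obtain ⟨A⟩ := pvrs_ana c0 H hβ hG
  refine ⟨A.toAna (pvrs_rO H Γ m0), fun x R hR => ?_⟩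
  obtain ⟨m1, Exc, hE, hX⟩ := hA A x R hR
  refine ⟨(pvrsPat H hG.doors m1 x R).cut Exc, pvra_cover_cut (pvrs_cover H c0 hG.doors m1 x hR (hP x R hR)) Exc hE, ⟨?_⟩⟩
  exact pvrsArc H rfl hR (fun m ε ω P s t π h => h.1.2.1) fun m hm π => (hX m hm π).some

end roofs

theorem pvrs_eqns_cite3 : True := by
  have := @PvrsGeoSt.eq_1; have := @PvrsArcSt.eq_1
  trivial

/-- **THE ROOF REST OF ROAD P** from the two roofs AS STATEMENTS (they meet in `Exit/TopP.lean`) -/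
theorem pvrs_rest (c : ℝ) (c0 : 0 < c) (𝔤 : PvmhNum) (H : PvrzGood 𝔤) (geo : ∀ (𝔤 : PvmhNum) (H : PvrzGood 𝔤), 0 < 𝔤.β → PvrsGeoSt c 𝔤 H)
    (arc : ∀ (𝔤 : PvmhNum) (H : PvrzGood 𝔤), 0 < 𝔤.β → ∀ (Γ : ℕ → PvtsGeo (PvmhT 𝔤)) (m0 : ℕ) (𝔶 : PvydGeo (PvmhT 𝔤)) (hG : PvrsGeoOk c H Γ m0 𝔶), PvrsArcSt H hG) : PvrzRest c 𝔤 H := by
  refine ⟨1, one_pos, fun β hβ _ => ?_⟩
  obtain ⟨Γ, m0, 𝔶, hG⟩ := geo (𝔤.wβ β) (H.wβ β) hβ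
  exact ⟨Γ, m0, fun hP => pvrs_rest_at c0 (H.wβ β) hβ hG (arc _ _ hβ Γ m0 𝔶 hG) hP⟩

end Claimed.Agent.R289
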