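-- KEEP
import Claimed.Agent.R289.Tr.LinkGam
import Claimed.Agent.R289.Exit.RestP

/-!
# R289 Exit/AccP (8, prefix `pvma_`): THE BRIDGE  ACC of the menu of record  ⟹  `PvlzHyp`  ⟹  `Γ` OF ROAD P WITH ITS DOORS

* `pvma_lz` : `PvmaHasAcc 𝔑 τ → PvlzHasAcc 𝔑 τ` (the clause in the filter of `PvmhT` IS the clause of 114, unfolded).
* `pvma_hyp` : `PvlzHyp (pvrsNum 𝔤) 𝔤.NN PvmhT.typ` from `𝔤.OK`.
* `pvmaGam` : `Γ` of road P at the model;  `pvma_doors` : `PvrsDoors c 𝔤 (pvmaGam H c m) m` at EVERY level = the field `doors` of `PvrsGeoOk`.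
-/

open Set

namespace Claimed.Agent.R289

theorem pvma_lz {𝔑 : PvmnNum} {τ : PvmnType} (h : PvmaHasAcc 𝔑 τ) : PvlzHasAcc 𝔑 τ := by
  obtain ⟨ap, am, h⟩ := h
  exact ⟨ap, am, ⟨h.ap_dir, h.am_dir, h.rp_B, h.rm_B, h.rp_cells, h.rm_cells, h.sep⟩⟩

variable {𝔤 : PvmhNum}

/-- **what `Γ` of road P asks, AT THE MODEL** -/
theorem pvma_hyp (H : 𝔤.OK) : PvlzHyp (pvrsNum 𝔤) 𝔤.NN (PvmhT.typ (𝔤 := 𝔤)) where
  ok := (pvrs_rel H).ok
  num := pvmh_numOK H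
  wp := by have := pvmh_bars H; omega
  typ t := t.isType
  acc t := pvma_lz t.acc

/-- **`Γ` OF ROAD P AT THE MODEL** -/
noncomputable def pvmaGam (H : 𝔤.OK) (c : ℝ) (m : ℕ) : PvtsGeo (PvmhT 𝔤) := pvlzGam (pvma_hyp H) c m

theorem pvma_eqns_cite2 : True := by
  have := @pvmaGam.eq_1
  trivial

/-- **THE FIELD `doors` OF `PvrsGeoOk`** (every level) -/
theorem pvma_doors (H : 𝔤.OK) (c : ℝ) (m : ℕ) : PvrsDoors c 𝔤 (pvmaGam H c m) m where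
  del := (pvlz_doors (pvma_hyp H) c).del m
  pout := (pvlz_doors (pvma_hyp H) c).pout m
  dout := (pvlz_doors (pvma_hyp H) c).dout m
  pin := (pvlz_doors (pvma_hyp H) c).pin m
  din := (pvlz_doors (pvma_hyp H) c).din m

end Claimed.Agent.R289
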