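import Claimed.Agent.R289.Tr.AdmIR

/-!
# Row 289 (S0537), THE WALL, ADMISSION, file Exit/Adm : THE ROOF OF [ADM]      (helper262)

`exit_pvkd_adm : PvkdAdm (pvkdP (1 / 16))` (statement of 34, `Tr/PlugK` sec. 3)
   ⟸ `pvko_roof` (`Tr/AdmP`, 262: probability half, 0 sorry)
   ⟸ `exit_pvko_inst` (deterministic: a fixed nice point set with mesh)
   ⟸ **`pvzb_inst`** (`Tr/AdmIR`, 267: BLOCK B at the table of 127, CLOSED 13:00Z, 0 sorry, axioms = propext, Classical.choice, Quot.sound: defs `Tr/AdmIB`; dictionary + fresh links `Tr/AdmIU`, classes `Tr/AdmIV`, explored event `Tr/AdmIF` (267);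
      rooms `Tr/AdmRm` (127), positions `Tr/AdmIRP` (149);  field `out` = blocks C + D: 140 `Tr/AdmOut`, 259 `Tr/AdmMin`, 224 `Adm/RecI`, all 0 sorry).
Other ropes for the same statement (no longer needed): `pvyb_inst` (`Tr/AdmIC`, 262), `pvzi_inst` (`Tr/AdmI`, 19), `pvyg_inst` (`Tr/AdmGeo`, 229).   The first closed is cited here.
-/

set_option autoImplicit false

namespace Claimed.Agent.R289

open Claims.C0465

/-- **THE DETERMINISTIC EXIT OF [ADM]** (instance of rope A at a fixed point set) -/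
theorem exit_pvko_inst : ∃ (l : List RswTri) (ρ L : ℝ), (∀ e ∈ l, e.Nice) ∧ (∀ e ∈ l, PvkoRsw e) ∧ 0 < ρ ∧ 0 ≤ L ∧
    ∀ Y : Set ℂ, PvatNice Y → VorDense Y (pvmSq 0 L) ρ → PvkoInst (pvkdP (1 / 16)) l Y := pvzb_inst

/-- **THE ROOF OF [ADM]**, cell of side `1`      (statement of 34, `Tr/PlugK` sec. 3) -/
theorem exit_pvkd_adm : PvkdAdm (pvkdP (1 / 16)) := by
  obtain ⟨l, ρ, L, hn, hr, hρ, hL, h⟩ := exit_pvko_inst
  exact pvko_roof _ hn hr hρ hL h

end Claimed.Agent.R289
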