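import Claimed.Agent.R289.Defs.TrModel
import Claimed.Agent.R289.Tr.Lin

/-!
# Row 289 (S0537), THE WALL, Exit/AnaGd : THE SEAM `U \ B ε` OF THE ANALYTIC ROOF = ELSE BRANCH IN THE DEFINITIONS OF `kout kin ke cV`      (helper61, hostile reader of `Tr/InstE`; prefix `pvel`, `Pvel`)

WHY.   The fields `cyc1 thick` of `PvxAna` (187) / `PvtyLocQ` (283) are integrals over the USABLE candidates `U` = "the state exists".      The engine (129 `Tr/Top`: `Pvl3Sys.WF B`, `Forced ε B q`; 161 `Tr/InstE`) works only on a GOOD base set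
`B ε ⊆ U`: geometry certificate round the state (the resampling of the tiles does not touch the triangles of the state), quenched link probabilities `≥ q`.      On `U \ B ε` the weight `1_A / P(A | states)` is not bounded (it may be `0/0 = 0`: then the mass of the chain is `0`,
TR2 is FALSE there), so nothing bounds `ke`, `kout` in `L²` on `U \ B ε`, although `P(U \ B ε) → 0`.
CURE.   `kout kin ke` are FREE DATA of the record.      Off the good set we DEFINE      `kout := -(pvtSum W (dout t) (l1 t) + kin0)`,   `kin := 0`,   `ke := 0`,   `cV := z + zu t + kV`: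
the integrands of `cyc1`, `thick`, `cV_L2` vanish identically there, and `n1`, `tel` are PROBABILITIES for one pattern: their events grow by `(U(z_t,τ_t) \ Gd) ∪ (U(z_s,τ_s) \ Gd)`.      Nothing changes in `Defs/TrModel`, pins, cover, `Fit`.
* sec. 1  `pvelIf`, three limit lemmas for `PvUp`
* sec. 2  `PvelAna 𝔓` = `PvxAna 𝔓` with the field `Gd`, all analytic fields ONLY ON `Gd`, new field `bad`;   **`PvelAna.toAna : PvxAna 𝔓`**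
* sec. 3  `PvelLocQ N kV Pr rims x R` = the same for the record `PvtyLocQ` of 283 (generic `Ω`, `Pr`);   **`PvelLocQ.toLocQ`**
0 sorry.
-/

set_option autoImplicit false

namespace Claimed.Agent.R289

open MeasureTheory Filter Topology Set Claims.C0465
open scoped ENNReal

/-! ## 1. tools -/

section tools

variable {Ω : Type}

open Classical in
/-- `f` on the good set, the constant `c` off it -/
noncomputable def pvelIf (G : Set Ω) (f : Ω → ℂ) (c : ℂ) (o : Ω) : ℂ := if o ∈ G then f o else c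

theorem pvel_if_mem {G : Set Ω} {o : Ω} (h : o ∈ G) (f : Ω → ℂ) (c : ℂ) : pvelIf G f c o = f o := if_pos h

theorem pvel_if_not {G : Set Ω} {o : Ω} (h : o ∉ G) (f : Ω → ℂ) (c : ℂ) : pvelIf G f c o = c := if_neg h

theorem pvel_eqns_cite : True := by
  have := @pvelIf.eq_1
  trivial

/-- an event covered by three events of small upper probability -/
theorem pvel_lim3 (Pr : ℝ → PvUp Ω) {S A B C : ℝ → Set Ω} (hS : ∀ ε, S ε ⊆ A ε ∪ B ε ∪ C ε)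
    (hA : Tendsto (fun ε => ((Pr ε).P (A ε)).toReal) (𝓝[>] (0 : ℝ)) (𝓝 0)) (hB : Tendsto (fun ε => ((Pr ε).P (B ε)).toReal) (𝓝[>] (0 : ℝ)) (𝓝 0))
    (hC : Tendsto (fun ε => ((Pr ε).P (C ε)).toReal) (𝓝[>] (0 : ℝ)) (𝓝 0)) :
    Tendsto (fun ε => ((Pr ε).P (S ε)).toReal) (𝓝[>] (0 : ℝ)) (𝓝 0) := by
  have h3 : Tendsto (fun ε => ((Pr ε).P (A ε)).toReal + ((Pr ε).P (B ε)).toReal + ((Pr ε).P (C ε)).toReal) (𝓝[>] (0 : ℝ)) (𝓝 0) := by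
    simpa using (hA.add hB).add hC
  refine tendsto_of_tendsto_of_tendsto_of_le_of_le tendsto_const_nhds h3 (fun _ => ENNReal.toReal_nonneg) fun ε => ?_
  have h1 : (Pr ε).P (S ε) ≤ (Pr ε).P (A ε) + (Pr ε).P (B ε) + (Pr ε).P (C ε) :=
    ((Pr ε).P_mono (hS ε)).trans (((Pr ε).P_union_le _ _).trans (add_le_add ((Pr ε).P_union_le _ _) le_rfl))
  have h2 := ENNReal.toReal_mono (ENNReal.add_ne_top.2 ⟨ENNReal.add_ne_top.2 ⟨(Pr ε).P_ne_top _, (Pr ε).P_ne_top _⟩, (Pr ε).P_ne_top _⟩) h1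
  rwa [ENNReal.toReal_add (ENNReal.add_ne_top.2 ⟨(Pr ε).P_ne_top _, (Pr ε).P_ne_top _⟩) ((Pr ε).P_ne_top _), ENNReal.toReal_add ((Pr ε).P_ne_top _) ((Pr ε).P_ne_top _)] at h2

/-- an integrand which vanishes off `G`: the indicator of `U` is the indicator of `U ∩ G` -/
theorem pvel_ind {U G : Set Ω} {F F' : Ω → ℝ≥0∞} (h1 : ∀ o ∈ G, F' o = F o) (h0 : ∀ o, o ∉ G → F' o = 0) : U.indicator F' = (U ∩ G).indicator F := by
  funext o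
  by_cases hU : o ∈ U
  · by_cases hG : o ∈ G
    · rw [indicator_of_mem hU, indicator_of_mem (show o ∈ U ∩ G from ⟨hU, hG⟩), h1 o hG]
    · rw [indicator_of_mem hU, indicator_of_notMem (show o ∉ U ∩ G from fun h => hG h.2), h0 o hG]
  · rw [indicator_of_notMem hU, indicator_of_notMem (show o ∉ U ∩ G from fun h => hU h.1)]

end tools

/-! ## 2. the record of 187 -/

section model

variable {τ : Type} {c : ℝ}

/-- **`PvxAna` ON THE GOOD SETS**: `Gd m ε z t` = the samples whose candidate `(z,t)` is GOOD for the engine (geometry certificate, forced links).      Every analytic field is asked ONLY ON `Gd`;   `bad`: a usable candidate is good with probability `→ 1`. -/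
structure PvelAna (𝔓 : PvxPar τ c) where
  W : ℕ → ℝ → ℂ → PvtW
  kin0 : ℕ → ℝ → ℂ → ℂ
  A : ℕ → ℝ → ℂ
  CA : ℝ
  A_bdd : ∀ m, ∀ᶠ ε in 𝓝[>] (0 : ℝ), ‖A m ε‖ ≤ CA
  cell_a : ∀ m, ∀ᶠ ε in 𝓝[>] (0 : ℝ), ∀ a : ℂ, (𝔓.Γ m).a (W m ε a) = A m ε - a
  rel_lim : ∀ m (a : ℂ), Tendsto (fun ε => (W m ε a).rel) (𝓝[>] (0 : ℝ)) (𝓝 0)
  /-- arguments `m ε a z t ω` -/
  kout : ℕ → ℝ → ℂ → ℂ → τ → PVSample → ℂ
  kin : ℕ → ℝ → ℂ → ℂ → τ → PVSample → ℂ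
  ke : ℕ → ℝ → ℂ → ℂ → τ → PVSample → ℂ
  /-- the good samples of the candidate `(z,t)` -/
  Gd : ℕ → ℝ → ℂ → τ → Set PVSample
  bad : ∀ (m : ℕ) (p : ℤ × ℤ) (t : τ),
    Tendsto (fun ε => ((pvhbUp ε).P (pvMerge ⁻¹' (pvxU 𝔓 m (l9Pt (pvlmH m) p) t \ Gd m ε (l9Pt (pvlmH m) p) t))).toReal) (𝓝[>] (0 : ℝ)) (𝓝 0)
  n1 : ∀ (x : ℂ) (R : ℝ), 0 < R → ∀ (a : ℂ) (m : ℕ), ∀ π ∈ pvxPatSet 𝔓 x R m, ∀ u : ℝ, 0 < u →
    Tendsto (fun ε => ((pvhbUp ε).P {q | ∃ P ∈ pvhbAll x R (pvMerge q), ∃ s ∈ pvxPins 𝔓 x R m (pvMerge q) P, ∃ t ∈ pvxPins 𝔓 x R m (pvMerge q) P, pvxFit 𝔓 x R m (pvMerge q) P s t π ∧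
      pvMerge q ∈ Gd m ε t.ctr t.typ ∧ pvMerge q ∈ Gd m ε s.ctr s.typ ∧
      u < ‖pvbArcI 𝔓.𝔐 (pvlmH m) P (fun k => P.xQ k - a * P.xV k) s t +
        (kout m ε a t.ctr t.typ (pvMerge q) + pvtSum (W m ε a) ((𝔓.Γ m).dout π.p.tt) π.p.l + kin m ε a s.ctr s.typ (pvMerge q))‖}).toReal) (𝓝[>] (0 : ℝ)) (𝓝 0)
  cyc1 : ∀ (a : ℂ) (m : ℕ) (p : ℤ × ℤ) (t : τ), Tendsto (fun ε => (pvhbUp ε).E ((pvMerge ⁻¹' pvxU 𝔓 m (l9Pt (pvlmH m) p) t ∩ pvMerge ⁻¹' Gd m ε (l9Pt (pvlmH m) p) t).indicator fun q =>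
    ‖kout m ε a (l9Pt (pvlmH m) p) t (pvMerge q) + pvtSum (W m ε a) ((𝔓.Γ m).dout t) ((𝔓.Γ m).l1 t) + kin0 m ε a + ke m ε a (l9Pt (pvlmH m) p) t (pvMerge q)‖ₑ ^ 2)) (𝓝[>] (0 : ℝ)) (𝓝 0)
  Ce : ℝ
  thick : ∀ (a : ℂ), ‖a‖ ≤ CA → ∀ (m : ℕ) (p : ℤ × ℤ) (t : τ), ∀ᶠ ε in 𝓝[>] (0 : ℝ),
    (pvhbUp ε).E ((pvMerge ⁻¹' pvxU 𝔓 m (l9Pt (pvlmH m) p) t ∩ pvMerge ⁻¹' Gd m ε (l9Pt (pvlmH m) p) t).indicator fun q => ‖ke m ε a (l9Pt (pvlmH m) p) t (pvMerge q)‖ₑ ^ 2) ≤ ENNReal.ofReal (Ce * pvlmH m ^ 2)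

namespace PvelAna

variable {𝔓 : PvxPar τ c} (𝔄 : PvelAna 𝔓)

/-- `κ_out` with its else branch -/
noncomputable def kout' (m : ℕ) (ε : ℝ) (a z : ℂ) (t : τ) : PVSample → ℂ :=
  pvelIf (𝔄.Gd m ε z t) (𝔄.kout m ε a z t) (-(pvtSum (𝔄.W m ε a) ((𝔓.Γ m).dout t) ((𝔓.Γ m).l1 t) + 𝔄.kin0 m ε a))

/-- `κ_in` with its else branch -/
noncomputable def kin' (m : ℕ) (ε : ℝ) (a z : ℂ) (t : τ) : PVSample → ℂ := pvelIf (𝔄.Gd m ε z t) (𝔄.kin m ε a z t) 0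

/-- the mean of the thick short link with its else branch -/
noncomputable def ke' (m : ℕ) (ε : ℝ) (a z : ℂ) (t : τ) : PVSample → ℂ := pvelIf (𝔄.Gd m ε z t) (𝔄.ke m ε a z t) 0

theorem eqns_cite : True := by
  have := @PvelAna.kout'.eq_1; have := @PvelAna.kin'.eq_1; have := @PvelAna.ke'.eq_1
  trivial

/-- **THE GLUE**: the record on the good sets gives the record of 187 -/
noncomputable def toAna : PvxAna 𝔓 where
  W := 𝔄.W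
  kin0 := 𝔄.kin0
  A := 𝔄.A
  CA := 𝔄.CA
  A_bdd := 𝔄.A_bdd
  cell_a := 𝔄.cell_a
  rel_lim := 𝔄.rel_lim
  kout := 𝔄.kout'
  kin := 𝔄.kin'
  ke := 𝔄.ke'
  n1 := by
    intro x R hR a m π hπ u hu
    obtain ⟨ps, hps⟩ := hπ.1.2.1
    obtain ⟨pt, hpt⟩ := hπ.1.2.2.1
    have hbt := 𝔄.bad m pt π.p.tt
    have hbs := 𝔄.bad m ps π.p.ts
    rw [← hpt] at hbt
    rw [← hps] at hbs
    refine pvel_lim3 pvhbUp (fun ε => ?_) (𝔄.n1 x R hR a m π hπ u hu) hbt hbs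
    rintro q ⟨P, hP, s, hs, t, ht, hfit, hu'⟩
    have hfit' := hfit
    obtain ⟨⟨es1, es2⟩, ⟨et1, et2⟩, hUs, hUt, -⟩ := hfit'
    by_cases hGt : pvMerge q ∈ 𝔄.Gd m ε t.ctr t.typ
    · by_cases hGs : pvMerge q ∈ 𝔄.Gd m ε s.ctr s.typ
      · refine Or.inl (Or.inl ⟨P, hP, s, hs, t, ht, hfit, hGt, hGs, ?_⟩)
        have h1 : 𝔄.kout' m ε a t.ctr t.typ (pvMerge q) = 𝔄.kout m ε a t.ctr t.typ (pvMerge q) := pvel_if_mem hGt _ _
        have h2 : 𝔄.kin' m ε a s.ctr s.typ (pvMerge q) = 𝔄.kin m ε a s.ctr s.typ (pvMerge q) := pvel_if_mem hGs _ _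
        rwa [h1, h2] at hu'
      · refine Or.inr ?_
        rw [es1, es2] at hUs hGs
        exact ⟨hUs, hGs⟩
    · refine Or.inl (Or.inr ?_)
      rw [et1, et2] at hUt hGt
      exact ⟨hUt, hGt⟩
  cyc1 := by
    intro a m p t
    have h := 𝔄.cyc1 a m p t
    refine h.congr fun ε => ?_
    congr 1
    refine (pvel_ind (fun q hq' => ?_) fun q hq' => ?_).symm
    · have hq : pvMerge q ∈ 𝔄.Gd m ε (l9Pt (pvlmH m) p) t := hq'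
      have h1 : 𝔄.kout' m ε a (l9Pt (pvlmH m) p) t (pvMerge q) = 𝔄.kout m ε a (l9Pt (pvlmH m) p) t (pvMerge q) := pvel_if_mem hq _ _
      have h2 : 𝔄.ke' m ε a (l9Pt (pvlmH m) p) t (pvMerge q) = 𝔄.ke m ε a (l9Pt (pvlmH m) p) t (pvMerge q) := pvel_if_mem hq _ _
      rw [h1, h2]
    · have hq : pvMerge q ∉ 𝔄.Gd m ε (l9Pt (pvlmH m) p) t := hq'
      have h1 : 𝔄.kout' m ε a (l9Pt (pvlmH m) p) t (pvMerge q) = -(pvtSum (𝔄.W m ε a) ((𝔓.Γ m).dout t) ((𝔓.Γ m).l1 t) + 𝔄.kin0 m ε a) := pvel_if_not hq _ _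
      have h2 : 𝔄.ke' m ε a (l9Pt (pvlmH m) p) t (pvMerge q) = 0 := pvel_if_not hq _ _
      rw [h1, h2]
      have : -(pvtSum (𝔄.W m ε a) ((𝔓.Γ m).dout t) ((𝔓.Γ m).l1 t) + 𝔄.kin0 m ε a) + pvtSum (𝔄.W m ε a) ((𝔓.Γ m).dout t) ((𝔓.Γ m).l1 t) + 𝔄.kin0 m ε a + 0 = 0 := by ring
      rw [this]
      simp
  Ce := 𝔄.Ce
  thick := by
    intro a ha m p t
    filter_upwards [𝔄.thick a ha m p t] with ε h
    refine le_of_eq_of_le ?_ h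
    congr 1
    refine pvel_ind (fun q hq' => ?_) fun q hq' => ?_
    · have hq : pvMerge q ∈ 𝔄.Gd m ε (l9Pt (pvlmH m) p) t := hq'
      have h2 : 𝔄.ke' m ε a (l9Pt (pvlmH m) p) t (pvMerge q) = 𝔄.ke m ε a (l9Pt (pvlmH m) p) t (pvMerge q) := pvel_if_mem hq _ _
      rw [h2]
    · have hq : pvMerge q ∉ 𝔄.Gd m ε (l9Pt (pvlmH m) p) t := hq'
      have h2 : 𝔄.ke' m ε a (l9Pt (pvlmH m) p) t (pvMerge q) = 0 := pvel_if_not hq _ _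
      rw [h2]
      simp

end PvelAna

end model

/-! ## 3. the record of 283 -/

section locQ

variable {Ω : Type}

/-- **`PvtyLocQ` ON THE GOOD SETS** (generic `Ω`, `Pr`).      New: `Gd`, `fit_Us`, `bad_t`, `bad_s`;   `n1 tel` only for arcs whose two pins are good;   `cyc1 thick cV_L2` over `U ∩ Gd`. -/
structure PvelLocQ {τ : Type} {c : ℝ} (N : PvtyNumQ τ c) (kV : ℕ → ℝ → ℂ) (Pr : ℝ → PvUp Ω) (rims : Ω → Set PvbRim) (x : ℂ) (R : ℝ) where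
  pins : ℕ → ℝ → Ω → PvbRim → Set (PvbPin τ)
  U : ℕ → ℝ → ℂ → τ → Set Ω
  /-- the good samples of the candidate `(z,t)` -/
  Gd : ℕ → ℝ → ℂ → τ → Set Ω
  kout : ℕ → ℝ → ℂ → τ → Ω → ℂ
  kin : ℕ → ℝ → ℂ → τ → Ω → ℂ
  ke : ℕ → ℝ → ℂ → τ → Ω → ℂ
  Pat : ℕ → Type
  Pat_fin : ∀ m, Finite (Pat m)
  pat : ∀ m, Pat m → PvtsPat τ
  pat_ok : ∀ m π, (N.Γ m).Ok (pat m π)
  Fit : ∀ m : ℕ, ℝ → Ω → PvbRim → PvbPin τ → PvbPin τ → Pat m → Prop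
  fit_s : ∀ m ε o P s t π, Fit m ε o P s t π → s.ctr = (pat m π).zs ∧ s.typ = (pat m π).ts
  fit_t : ∀ m ε o P s t π, Fit m ε o P s t π → t.ctr = (pat m π).zt ∧ t.typ = (pat m π).tt
  fit_U : ∀ m ε o P s t π, Fit m ε o P s t π → o ∈ U m ε t.ctr t.typ
  fit_Us : ∀ m ε o P s t π, Fit m ε o P s t π → o ∈ U m ε s.ctr s.typ
  pinsOK : PvhbOrd (fun m ε => ((Pr ε).P {o | ¬ ∀ P ∈ rims o,
    (∀ s ∈ pins m ε o P, PvbIsPin N.𝔐 (N.h m) P s ∧ ∃ p : ℤ × ℤ, s.ctr = l9Pt (N.h m) p) ∧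
    (∀ i i', i ≤ i' → i' ≤ P.len → (∀ k, i ≤ k → k ≤ i' → ‖P.v k - x‖ ≤ 2 * R) → N.r m ≤ ‖P.v i' - P.v i‖ → ∃ s ∈ pins m ε o P, i ≤ s.idx ∧ s.idx ≤ i')}).toReal)
  cover : PvhbOrd (fun m ε => ((Pr ε).P {o | ¬ ∀ P ∈ rims o, ∀ s ∈ pins m ε o P, ∀ t ∈ pins m ε o P, s.idx < t.idx →
    (∀ k, s.idx ≤ k → k ≤ t.idx → ‖P.v k - x‖ ≤ 2 * R) → R / 3 ≤ ‖s.ctr - t.ctr‖ → ∃ π : Pat m, Fit m ε o P s t π}).toReal)
  /-- the two candidates of a pattern: usable ⟹ good, with probability `→ 1` -/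
  bad_t : ∀ (m : ℕ) (π : Pat m), Tendsto (fun ε => ((Pr ε).P (U m ε (pat m π).zt (pat m π).tt \ Gd m ε (pat m π).zt (pat m π).tt)).toReal) (𝓝[>] (0 : ℝ)) (𝓝 0)
  bad_s : ∀ (m : ℕ) (π : Pat m), Tendsto (fun ε => ((Pr ε).P (U m ε (pat m π).zs (pat m π).ts \ Gd m ε (pat m π).zs (pat m π).ts)).toReal) (𝓝[>] (0 : ℝ)) (𝓝 0)
  n1 : ∀ (m : ℕ) (π : Pat m) (u : ℝ), 0 < u → Tendsto (fun ε => ((Pr ε).P {o | ∃ P ∈ rims o, ∃ s ∈ pins m ε o P, ∃ t ∈ pins m ε o P, Fit m ε o P s t π ∧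
    o ∈ Gd m ε t.ctr t.typ ∧ o ∈ Gd m ε s.ctr s.typ ∧
    u < ‖pvbArcI N.𝔐 (N.h m) P P.xQ s t +
      (kout m ε t.ctr t.typ o + pvtSum (N.W m ε) ((N.Γ m).dout (pat m π).tt) (pat m π).l + kin m ε s.ctr s.typ o)‖}).toReal) (𝓝[>] (0 : ℝ)) (𝓝 0)
  cyc1 : ∀ (m : ℕ) (p : ℤ × ℤ) (t : τ), ‖l9Pt (N.h m) p - x‖ ≤ 2 * R → Tendsto (fun ε => (Pr ε).E ((U m ε (l9Pt (N.h m) p) t ∩ Gd m ε (l9Pt (N.h m) p) t).indicator fun o =>
    ‖kout m ε (l9Pt (N.h m) p) t o + pvtSum (N.W m ε) ((N.Γ m).dout t) ((N.Γ m).l1 t) + N.kin0 m ε + ke m ε (l9Pt (N.h m) p) t o‖ₑ ^ 2)) (𝓝[>] (0 : ℝ)) (𝓝 0)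
  Ce : ℝ
  thick : ∀ (m : ℕ) (p : ℤ × ℤ) (t : τ), ‖l9Pt (N.h m) p - x‖ ≤ 2 * R → ∀ᶠ ε in 𝓝[>] (0 : ℝ),
    (Pr ε).E ((U m ε (l9Pt (N.h m) p) t ∩ Gd m ε (l9Pt (N.h m) p) t).indicator fun o => ‖ke m ε (l9Pt (N.h m) p) t o‖ₑ ^ 2) ≤ ENNReal.ofReal (Ce * N.h m ^ 2)
  cV : ℕ → ℝ → ℂ → τ → Ω → ℂ
  tel : ∀ (m : ℕ) (π : Pat m) (u : ℝ), 0 < u → Tendsto (fun ε => ((Pr ε).P {o | ∃ P ∈ rims o, ∃ s ∈ pins m ε o P, ∃ t ∈ pins m ε o P, Fit m ε o P s t π ∧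
    o ∈ Gd m ε t.ctr t.typ ∧ o ∈ Gd m ε s.ctr s.typ ∧
    u < ‖pvbArcI N.𝔐 (N.h m) P P.xV s t - (cV m ε t.ctr t.typ o - cV m ε s.ctr s.typ o)‖}).toReal) (𝓝[>] (0 : ℝ)) (𝓝 0)
  CV : ℝ
  cV_L2 : ∀ (m : ℕ) (p : ℤ × ℤ) (t : τ), ‖l9Pt (N.h m) p - x‖ ≤ 2 * R → ∀ᶠ ε in 𝓝[>] (0 : ℝ),
    (Pr ε).E ((U m ε (l9Pt (N.h m) p) t ∩ Gd m ε (l9Pt (N.h m) p) t).indicator fun o => ‖cV m ε (l9Pt (N.h m) p) t o - l9Pt (N.h m) p - (N.Γ m).zu t - kV m ε‖ₑ ^ 2) ≤ ENNReal.ofReal (CV * N.h m ^ 2)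

namespace PvelLocQ

variable {τ : Type} {c : ℝ} {N : PvtyNumQ τ c} {kV : ℕ → ℝ → ℂ} {Pr : ℝ → PvUp Ω} {rims : Ω → Set PvbRim} {x : ℂ} {R : ℝ} (L : PvelLocQ N kV Pr rims x R)

/-- `κ_out` with its else branch -/
noncomputable def kout' (m : ℕ) (ε : ℝ) (z : ℂ) (t : τ) : Ω → ℂ :=
  pvelIf (L.Gd m ε z t) (L.kout m ε z t) (-(pvtSum (N.W m ε) ((N.Γ m).dout t) ((N.Γ m).l1 t) + N.kin0 m ε))

/-- `κ_in` with its else branch -/
noncomputable def kin' (m : ℕ) (ε : ℝ) (z : ℂ) (t : τ) : Ω → ℂ := pvelIf (L.Gd m ε z t) (L.kin m ε z t) 0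

/-- the mean of the thick short link with its else branch -/
noncomputable def ke' (m : ℕ) (ε : ℝ) (z : ℂ) (t : τ) : Ω → ℂ := pvelIf (L.Gd m ε z t) (L.ke m ε z t) 0

/-- the cut point with its else branch -/
noncomputable def cV' (m : ℕ) (ε : ℝ) (z : ℂ) (t : τ) : Ω → ℂ := pvelIf (L.Gd m ε z t) (L.cV m ε z t) (z + (N.Γ m).zu t + kV m ε)

theorem eqns_cite : True := by
  have := @PvelLocQ.kout'.eq_1; have := @PvelLocQ.kin'.eq_1; have := @PvelLocQ.ke'.eq_1; have := @PvelLocQ.cV'.eq_1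
  trivial

/-- **THE GLUE**: the record on the good sets gives the record of 283 -/
noncomputable def toLocQ : PvtyLocQ N kV Pr rims x R where
  pins := L.pins
  U := L.U
  kout := L.kout'
  kin := L.kin'
  ke := L.ke'
  Pat := L.Pat
  Pat_fin := L.Pat_fin
  pat := L.pat
  pat_ok := L.pat_ok
  Fit := L.Fit
  fit_s := L.fit_s
  fit_t := L.fit_t
  fit_U := L.fit_U
  pinsOK := L.pinsOK
  cover := L.cover
  n1 := by
    intro m π u hu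
    refine pvel_lim3 Pr (fun ε => ?_) (L.n1 m π u hu) (L.bad_t m π) (L.bad_s m π)
    rintro o ⟨P, hP, s, hs, t, ht, hfit, hu'⟩
    obtain ⟨es1, es2⟩ := L.fit_s m ε o P s t π hfit
    obtain ⟨et1, et2⟩ := L.fit_t m ε o P s t π hfit
    have hUt := L.fit_U m ε o P s t π hfit
    have hUs := L.fit_Us m ε o P s t π hfit
    by_cases hGt : o ∈ L.Gd m ε t.ctr t.typ
    · by_cases hGs : o ∈ L.Gd m ε s.ctr s.typ
      · refine Or.inl (Or.inl ⟨P, hP, s, hs, t, ht, hfit, hGt, hGs, ?_⟩)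
        have h1 : L.kout' m ε t.ctr t.typ o = L.kout m ε t.ctr t.typ o := pvel_if_mem hGt _ _
        have h2 : L.kin' m ε s.ctr s.typ o = L.kin m ε s.ctr s.typ o := pvel_if_mem hGs _ _
        rwa [h1, h2] at hu'
      · refine Or.inr ?_
        rw [es1, es2] at hUs hGs
        exact ⟨hUs, hGs⟩
    · refine Or.inl (Or.inr ?_)
      rw [et1, et2] at hUt hGt
      exact ⟨hUt, hGt⟩
  cyc1 := by
    intro m p t hp
    refine (L.cyc1 m p t hp).congr fun ε => ?_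
    congr 1
    refine (pvel_ind (fun o hq => ?_) fun o hq => ?_).symm
    · have h1 : L.kout' m ε (l9Pt (N.h m) p) t o = L.kout m ε (l9Pt (N.h m) p) t o := pvel_if_mem hq _ _
      have h2 : L.ke' m ε (l9Pt (N.h m) p) t o = L.ke m ε (l9Pt (N.h m) p) t o := pvel_if_mem hq _ _
      rw [h1, h2]
    · have h1 : L.kout' m ε (l9Pt (N.h m) p) t o = -(pvtSum (N.W m ε) ((N.Γ m).dout t) ((N.Γ m).l1 t) + N.kin0 m ε) := pvel_if_not hq _ _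
      have h2 : L.ke' m ε (l9Pt (N.h m) p) t o = 0 := pvel_if_not hq _ _
      rw [h1, h2]
      have : -(pvtSum (N.W m ε) ((N.Γ m).dout t) ((N.Γ m).l1 t) + N.kin0 m ε) + pvtSum (N.W m ε) ((N.Γ m).dout t) ((N.Γ m).l1 t) + N.kin0 m ε + 0 = 0 := by ring
      rw [this]
      simp
  Ce := L.Ce
  thick := by
    intro m p t hp
    filter_upwards [L.thick m p t hp] with ε h
    refine le_of_eq_of_le ?_ h
    congr 1
    refine pvel_ind (fun o hq => ?_) fun o hq => ?_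
    · have h2 : L.ke' m ε (l9Pt (N.h m) p) t o = L.ke m ε (l9Pt (N.h m) p) t o := pvel_if_mem hq _ _
      rw [h2]
    · have h2 : L.ke' m ε (l9Pt (N.h m) p) t o = 0 := pvel_if_not hq _ _
      rw [h2]
      simp
  cV := L.cV'
  tel := by
    intro m π u hu
    refine pvel_lim3 Pr (fun ε => ?_) (L.tel m π u hu) (L.bad_t m π) (L.bad_s m π)
    rintro o ⟨P, hP, s, hs, t, ht, hfit, hu'⟩
    obtain ⟨es1, es2⟩ := L.fit_s m ε o P s t π hfit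
    obtain ⟨et1, et2⟩ := L.fit_t m ε o P s t π hfit
    have hUt := L.fit_U m ε o P s t π hfit
    have hUs := L.fit_Us m ε o P s t π hfit
    by_cases hGt : o ∈ L.Gd m ε t.ctr t.typ
    · by_cases hGs : o ∈ L.Gd m ε s.ctr s.typ
      · refine Or.inl (Or.inl ⟨P, hP, s, hs, t, ht, hfit, hGt, hGs, ?_⟩)
        have h1 : L.cV' m ε t.ctr t.typ o = L.cV m ε t.ctr t.typ o := pvel_if_mem hGt _ _
        have h2 : L.cV' m ε s.ctr s.typ o = L.cV m ε s.ctr s.typ o := pvel_if_mem hGs _ _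
        rwa [h1, h2] at hu'
      · refine Or.inr ?_
        rw [es1, es2] at hUs hGs
        exact ⟨hUs, hGs⟩
    · refine Or.inl (Or.inr ?_)
      rw [et1, et2] at hUt hGt
      exact ⟨hUt, hGt⟩
  CV := L.CV
  cV_L2 := by
    intro m p t hp
    filter_upwards [L.cV_L2 m p t hp] with ε h
    refine le_of_eq_of_le ?_ h
    congr 1
    refine pvel_ind (fun o hq => ?_) fun o hq => ?_
    · have h2 : L.cV' m ε (l9Pt (N.h m) p) t o = L.cV m ε (l9Pt (N.h m) p) t o := pvel_if_mem hq _ _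
      rw [h2]
    · have h2 : L.cV' m ε (l9Pt (N.h m) p) t o = l9Pt (N.h m) p + (N.Γ m).zu t + kV m ε := pvel_if_not hq _ _
      rw [h2]
      have : l9Pt (N.h m) p + (N.Γ m).zu t + kV m ε - l9Pt (N.h m) p - (N.Γ m).zu t - kV m ε = 0 := by ring
      rw [this]
      simp

end PvelLocQ

end locQ

end Claimed.Agent.R289
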