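import Claimed.Agent.R289.Tr.BuNum
import Claimed.Agent.R289.Tr.InstE

/-!
# Row 289 (S0537), THE WALL, ROAD E, file Exit/AnaNum : (NUM) = `exit_pvie_num`, PROVED FROM ONE FIELD OF `PvieEng.Wf`      (helper258, second rope of NUM; prefix `pvkm_`, `Pvkm`)

`exit_pvie_num` (271, `Exit/Ana.lean`) is asked FOR ALL engines `𝔈` with `𝔈.Wf 𝔓`.      THE FIELD WHICH MAKES IT TRUE (an equality of DATA + the contract of a named producer):
      `num : ∃ U : PvkmUnit, PvkmEng 𝔈 c U`      = the cell kit and the cell fields of level `m`, mesh `ε` ARE the reference family `U` (cells of side `1`, `Tr/BuNum.lean`) at the mesh `ε / δ_m`, scaled by `δ_m = pvlmDel c m`.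
PRODUCER of `U`: the cell kit instance of 34 (`Tr/Plug.lean`: ONE global datum `𝔊` with `𝔊.δ = 1`, `F₁ : PvpgFam (fun _ => 1)`, `U := PvkmUnit.ofFam F₁.toFam`).
* **`pvkm_num`** : `𝔓.Wf → PvkmEng 𝔈 c U → PvieNum 𝔓 𝔈 CA`, `CA = sqrt((β' q)^{-8} C_B)`            * **`pvkm_exit_num`** = the body of `exit_pvie_num`
* `PvkmEng.kδ`, `.ref`, `.O_eq`, `.K_eq` : the fields `kδ` / `kit_del`, `kit_ref`, `kit_O`, `kit_K` of the contracts of 271, 168 follow from the reference family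
* `pvkmEngKit pvkmEngXQ pvkmEngXV` : the three data fields of `PvieEng` as DEFINITIONS (for S0 PAR, 73)
-/

set_option autoImplicit false

namespace Claimed.Agent.R289

open Set MeasureTheory Filter Topology Claims.C0465
open scoped ENNReal

/-- the cell kit of level `m`, mesh `ε` of the reference family `U` -/
noncomputable def pvkmEngKit (U : PvkmUnit) (c : ℝ) (m : ℕ) (ε : ℝ) : PvthKit := (U.kit (ε / pvlmDel c m)).sc (pvlmDel c m)

/-- the cell field `Q` -/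
noncomputable def pvkmEngXQ (U : PvkmUnit) (c : ℝ) (m : ℕ) (ε : ℝ) : PvtTurn → Conf PvPt → ℂ := pvthX (U.XQ (ε / pvlmDel c m)) 0 (pvlmDel c m)

/-- the cell field `V` -/
noncomputable def pvkmEngXV (U : PvkmUnit) (c : ℝ) (m : ℕ) (ε : ℝ) : PvtTurn → Conf PvPt → ℂ := pvthX (U.XV (ε / pvlmDel c m)) 0 (pvlmDel c m)

/-- **the cell kit and the cell fields of the engine are the scaled reference family** -/
structure PvkmEng {τ : Type} (𝔈 : PvieEng τ) (c : ℝ) (U : PvkmUnit) : Prop where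
  kit : 𝔈.kit = pvkmEngKit U c
  XQ : 𝔈.XQ = pvkmEngXQ U c
  XV : 𝔈.XV = pvkmEngXV U c

theorem pvkm_eqns_cite5 : True := by
  have := @pvkmEngKit.eq_1; have := @pvkmEngXQ.eq_1; have := @pvkmEngXV.eq_1
  trivial

section

variable {τ : Type} {c : ℝ} {𝔓 : PvxPar τ c} {𝔈 : PvieEng τ} {U : PvkmUnit}

/-- **(NUM)** from the reference family -/
theorem pvkm_num (h : 𝔓.Wf) (hU : PvkmEng 𝔈 c U) : PvieNum 𝔓 𝔈 (U.fam (pvlm_Del_pos c)).CA :=
  pvie_num_of_fam 𝔓 𝔈 (U.fam (pvlm_Del_pos c)) hU.kit.symm hU.XQ.symm hU.XV.symm h.del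

/-- **the body of `exit_pvie_num`** -/
theorem pvkm_exit_num (h : 𝔓.Wf) (hE : ∃ U : PvkmUnit, PvkmEng 𝔈 c U) : ∃ CA : ℝ, PvieNum 𝔓 𝔈 CA := by
  obtain ⟨U, hU⟩ := hE
  exact ⟨_, pvkm_num h hU⟩

/-- the mesh of the cell kit is the mesh of record -/
theorem PvkmEng.kδ (hU : PvkmEng 𝔈 c U) (m : ℕ) (ε : ℝ) : (𝔈.kit m ε).δ = pvlmDel c m := by
  rw [hU.kit]
  exact (U.fam (pvlm_Del_pos c)).kδ m ε

/-- the containment hypotheses of 166, eventually -/
theorem PvkmEng.ref (hU : PvkmEng 𝔈 c U) (m : ℕ) : ∀ᶠ ε in 𝓝[>] (0 : ℝ), PvccKitRef (𝔈.kit m ε) (pvlmDel c m * U.r (ε / pvlmDel c m)) := by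
  filter_upwards [(U.fam (pvlm_Del_pos c)).ok m] with ε H
  rw [hU.kit]
  exact H.ref

/-- the regions of the kit do not depend on the mesh as soon as those of the reference family do not -/
theorem PvkmEng.O_eq (hU : PvkmEng 𝔈 c U) (hO : ∀ e e', (U.kit e).O₀ = (U.kit e').O₀) (m : ℕ) (ε ε' : ℝ) : (𝔈.kit m ε).O₀ = (𝔈.kit m ε').O₀ := by
  rw [hU.kit]
  show pvthSim 0 _ '' (U.kit _).O₀ = pvthSim 0 _ '' (U.kit _).O₀
  rw [hO]

theorem PvkmEng.K_eq (hU : PvkmEng 𝔈 c U) (hK : ∀ e e', (U.kit e).K₀ = (U.kit e').K₀) (m : ℕ) (ε ε' : ℝ) : (𝔈.kit m ε).K₀ = (𝔈.kit m ε').K₀ := by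
  rw [hU.kit]
  funext τ'
  show pvthSim 0 _ '' (U.kit _).K₀ τ' = pvthSim 0 _ '' (U.kit _).K₀ τ'
  rw [hK]

/-- the usable states of level `m` are the pull-backs of the reference usable states -/
theorem PvkmEng.G_iff (hU : PvkmEng 𝔈 c U) (m : ℕ) (ε : ℝ) (η : Conf PvPt) :
    η ∈ (𝔈.kit m ε).G₀ ↔ cfMap (pvthInv 0 (pvlmDel c m)) η ∈ (U.kit (ε / pvlmDel c m)).G₀ := by
  rw [hU.kit]
  exact Iff.rfl

end

end Claimed.Agent.R289
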