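-- KEEP
import Claimed.Agent.R289.Defs.InstWf
import Claimed.Agent.R289.Tr.InstL
import Claimed.Agent.R289.Exit.AnaNum
import Claimed.Agent.R289.Exit.AnaGd
import Claimed.Agent.R289.Exit.N1

/-!
# Row 289 (S0537), THE WALL, ROAD E, file Exit/AnaDefs : THE STATEMENTS OF RECORD UNDER `exit_pvx_ana`      (helper271, integration pen of `exit_pvx_ana`, post of 24 10:19Z, RULING 16 of 234; prefix `pvna`, `Pvna`)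

A roof imports THIS file (never `Exit/Ana.lean`, which imports the roofs).
* sec. 1  `PvnaWf 𝔓 𝔈` = the contract of record `PvieEng.Wf 𝔓 𝔈 𝔓.m0 Cth r κs` of 168 (`Defs/InstWf.lean`) with its constants hidden (`PvnaWf.wf`) + the field (NUM) of 258 (`PvnaWf.num`: the kit IS the scaled reference family `U : PvkmUnit`, `Exit/AnaNum.lean`) (what `exit_pvie_eng` produces, what every sub-exit receives).
          RULE (115 / 187 / 168): under `exit_pvie_*` nobody uses a property of `𝔈` which is not ALREADY a field of `PvieEng.Wf` on main.      One more field: the exact Lean line to 168 + 73 (cc 271).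
* sec. 2  GENERIC GLUE, PROVED (RULINGS 12, H2: `V` needs no engine; RULING 16 (3): good part):
          `PvnaQ 𝔓` = the analytic record for `Q` ALONE, every field on the good part `Gd`;      `PvnaV 𝔓 Gd` = cut points `cV`, free constant `kV`, (A4) `tel`, `cV_L2` on the SAME good part;
          **`PvnaQ.toEl : PvnaQ 𝔓 → PvnaV 𝔓 Gd → PvelAna 𝔓`** (record of 61, `Exit/AnaGd.lean`; then `PvelAna.toAna : PvxAna 𝔓`).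
* sec. 3  SMALL LEVELS (RULING 18 (1)), PROVED: `PvnaQL 𝔓 m0`, `PvnaVL 𝔓 m0 Gd` = the records with every field owed for `m0 ≤ m` only;   `PvnaQL.toQ`, `PvnaVL.toV` from `∀ m < m0, pvxU 𝔓 m z t = ∅` (cell means `:= 0` below `m0`).
* sec. 4  THE STATEMENTS OF THE ROOFS, ONE PER SUB-EXIT, typed for ANY analytic data `𝔇 : PvnaDat τ` (`W kin0 kout kin ke`, `Q` alone), ANY good part `𝔊 : PvnaGd τ` (`O I B`; `PvnaGd.all`), first level `m0`: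
          `PvnaBad 𝔓 𝔊 m0`, `PvnaNum 𝔓 𝔇 m0 CA`, `pvnaK`, `PvnaIn 𝔓 𝔇 m0` (= `PvxnIn` of 170 for every pattern), `PvnaCyc1 𝔓 𝔇 𝔊 m0`, `PvnaThick 𝔓 𝔇 𝔊 m0 Ce`;      PROVED: `pvna_n1_of`, **`pvnaQ`** (the roofs give `PvnaQL 𝔓 m0`), `pvna_bad_pat` (for `G ε` of `PvxnIn`).
* sec. 5  THE DATA OF RECORD: `pvna_small` (no usable candidate below `𝔓.m0`, TrModel v4), **`pvnaDatE 𝔓 𝔈`** (= `pvilW pvilKin0 pvilKout pvilKin pvilKe` of `Tr/InstL.lean`, 168: RULING 19 (1); `pvna_dat_*` by `rfl`), `pvna_num_of`, the contract `PvnaGd.Wf` (`bad` + inclusions into named sets).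
-/

set_option autoImplicit false

namespace Claimed.Agent.R289

open MeasureTheory Filter Topology Set Claims.C0465
open scoped ENNReal

/-! ## 1. the contract on the data of the engine -/

/-- **THE CONTRACT ON THE DATA OF THE ENGINE**, constants hidden -/
def PvnaWf {τ : Type} {c : ℝ} (𝔓 : PvxPar τ c) (𝔈 : PvieEng τ) : Prop :=
  (∃ (Cth : ℝ) (r κs : ℕ → ℝ), PvieEng.Wf 𝔓 𝔈 𝔓.m0 Cth r κs) ∧ ∃ U : PvkmUnit, PvkmEng 𝔈 c U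

/-- the contract of record of 168 -/
theorem PvnaWf.wf {τ : Type} {c : ℝ} {𝔓 : PvxPar τ c} {𝔈 : PvieEng τ} (h : PvnaWf 𝔓 𝔈) : ∃ (Cth : ℝ) (r κs : ℕ → ℝ), PvieEng.Wf 𝔓 𝔈 𝔓.m0 Cth r κs := h.1

/-- (NUM, 258) the cell kit and the cell fields ARE the reference family (cells of side `1`, `Tr/BuNum.lean`) scaled by `δ_m` -/
theorem PvnaWf.num {τ : Type} {c : ℝ} {𝔓 : PvxPar τ c} {𝔈 : PvieEng τ} (h : PvnaWf 𝔓 𝔈) : ∃ U : PvkmUnit, PvkmEng 𝔈 c U := h.2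

/-! ## 2. `Q` alone + `V` for free, on a good part -/

section generic

variable {τ : Type} {c : ℝ}

/-- **THE ANALYTIC RECORD FOR `Q` ALONE, ON THE GOOD PART** -/
structure PvnaQ (𝔓 : PvxPar τ c) where
  /-- the three cell means of `Q` -/
  W : ℕ → ℝ → PvtW
  /-- the constant of the reference plug -/
  kin0 : ℕ → ℝ → ℂ
  CA : ℝ
  a_bdd : ∀ m, ∀ᶠ ε in 𝓝[>] (0 : ℝ), ‖(𝔓.Γ m).a (W m ε)‖ ≤ CA
  rel_lim : ∀ m, Tendsto (fun ε => (W m ε).rel) (𝓝[>] (0 : ℝ)) (𝓝 0)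
  /-- arguments `m ε z t ω` -/
  kout : ℕ → ℝ → ℂ → τ → PVSample → ℂ
  kin : ℕ → ℝ → ℂ → τ → PVSample → ℂ
  ke : ℕ → ℝ → ℂ → τ → PVSample → ℂ
  /-- the good samples of the candidate `(z,t)` -/
  Gd : ℕ → ℝ → ℂ → τ → Set PVSample
  bad : ∀ (m : ℕ) (p : ℤ × ℤ) (t : τ),
    Tendsto (fun ε => ((pvhbUp ε).P (pvMerge ⁻¹' (pvxU 𝔓 m (l9Pt (pvlmH m) p) t \ Gd m ε (l9Pt (pvlmH m) p) t))).toReal) (𝓝[>] (0 : ℝ)) (𝓝 0)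
  n1 : ∀ (x : ℂ) (R : ℝ), 0 < R → ∀ (m : ℕ), ∀ π ∈ pvxPatSet 𝔓 x R m, ∀ u : ℝ, 0 < u →
    Tendsto (fun ε => ((pvhbUp ε).P {q | ∃ P ∈ pvhbAll x R (pvMerge q), ∃ s ∈ pvxPins 𝔓 x R m (pvMerge q) P, ∃ t ∈ pvxPins 𝔓 x R m (pvMerge q) P, pvxFit 𝔓 x R m (pvMerge q) P s t π ∧
      pvMerge q ∈ Gd m ε t.ctr t.typ ∧ pvMerge q ∈ Gd m ε s.ctr s.typ ∧
      u < ‖pvbArcI 𝔓.𝔐 (pvlmH m) P P.xQ s t +
        (kout m ε t.ctr t.typ (pvMerge q) + pvtSum (W m ε) ((𝔓.Γ m).dout π.p.tt) π.p.l + kin m ε s.ctr s.typ (pvMerge q))‖}).toReal) (𝓝[>] (0 : ℝ)) (𝓝 0)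
  cyc1 : ∀ (m : ℕ) (p : ℤ × ℤ) (t : τ), Tendsto (fun ε => (pvhbUp ε).E ((pvMerge ⁻¹' pvxU 𝔓 m (l9Pt (pvlmH m) p) t ∩ pvMerge ⁻¹' Gd m ε (l9Pt (pvlmH m) p) t).indicator fun q =>
    ‖kout m ε (l9Pt (pvlmH m) p) t (pvMerge q) + pvtSum (W m ε) ((𝔓.Γ m).dout t) ((𝔓.Γ m).l1 t) + kin0 m ε + ke m ε (l9Pt (pvlmH m) p) t (pvMerge q)‖ₑ ^ 2)) (𝓝[>] (0 : ℝ)) (𝓝 0)
  Ce : ℝ
  thick : ∀ (m : ℕ) (p : ℤ × ℤ) (t : τ), ∀ᶠ ε in 𝓝[>] (0 : ℝ),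
    (pvhbUp ε).E ((pvMerge ⁻¹' pvxU 𝔓 m (l9Pt (pvlmH m) p) t ∩ pvMerge ⁻¹' Gd m ε (l9Pt (pvlmH m) p) t).indicator fun q => ‖ke m ε (l9Pt (pvlmH m) p) t (pvMerge q)‖ₑ ^ 2) ≤ ENNReal.ofReal (Ce * pvlmH m ^ 2)

/-- **THE FIELD `V` ON THE SAME GOOD PART** (283: `V` needs no engine): cut point `cV` of a candidate, free constant `kV`, (A4), `thick` for the weight `side` -/
structure PvnaV (𝔓 : PvxPar τ c) (Gd : ℕ → ℝ → ℂ → τ → Set PVSample) where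
  kV : ℕ → ℝ → ℂ
  /-- arguments `m ε z t ω` -/
  cV : ℕ → ℝ → ℂ → τ → PVSample → ℂ
  tel : ∀ (x : ℂ) (R : ℝ), 0 < R → ∀ (m : ℕ), ∀ π ∈ pvxPatSet 𝔓 x R m, ∀ u : ℝ, 0 < u →
    Tendsto (fun ε => ((pvhbUp ε).P {q | ∃ P ∈ pvhbAll x R (pvMerge q), ∃ s ∈ pvxPins 𝔓 x R m (pvMerge q) P, ∃ t ∈ pvxPins 𝔓 x R m (pvMerge q) P, pvxFit 𝔓 x R m (pvMerge q) P s t π ∧
      pvMerge q ∈ Gd m ε t.ctr t.typ ∧ pvMerge q ∈ Gd m ε s.ctr s.typ ∧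
      u < ‖pvbArcI 𝔓.𝔐 (pvlmH m) P P.xV s t - (cV m ε t.ctr t.typ (pvMerge q) - cV m ε s.ctr s.typ (pvMerge q))‖}).toReal) (𝓝[>] (0 : ℝ)) (𝓝 0)
  CV : ℝ
  cV_L2 : ∀ (m : ℕ) (p : ℤ × ℤ) (t : τ), ∀ᶠ ε in 𝓝[>] (0 : ℝ),
    (pvhbUp ε).E ((pvMerge ⁻¹' pvxU 𝔓 m (l9Pt (pvlmH m) p) t ∩ pvMerge ⁻¹' Gd m ε (l9Pt (pvlmH m) p) t).indicator fun q =>
      ‖cV m ε (l9Pt (pvlmH m) p) t (pvMerge q) - l9Pt (pvlmH m) p - (𝔓.Γ m).zu t - kV m ε‖ₑ ^ 2) ≤ ENNReal.ofReal (CV * pvlmH m ^ 2)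

namespace PvnaQ

variable {𝔓 : PvxPar τ c} (𝔔 : PvnaQ 𝔓) (𝔙 : PvnaV 𝔓 𝔔.Gd)

/-- the defect of `n1` for `y_a` = (defect for `Q`) `- a` (defect of (A4)) -/
theorem n1_lin {m : ℕ} {π : PvtsPat τ} (hπ : (𝔓.Γ m).Ok π) (ε : ℝ) (a : ℂ) (ω : PVSample) (P : PvbRim) (s t : PvbPin τ) (hs : s.ctr = π.zs ∧ s.typ = π.ts) (ht : t.ctr = π.zt ∧ t.typ = π.tt) :
    pvbArcI 𝔓.𝔐 (pvlmH m) P (fun k => P.xQ k - a * P.xV k) s t +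
      ((𝔔.kout m ε t.ctr t.typ ω - a * (t.ctr + (𝔓.Γ m).pout t.typ - 𝔙.cV m ε t.ctr t.typ ω)) + pvtSum ((𝔔.W m ε).lin (pvtyWV ((𝔓.Γ m).δ : ℂ)) a) ((𝔓.Γ m).dout π.tt) π.l
        + (𝔔.kin m ε s.ctr s.typ ω - a * (𝔙.cV m ε s.ctr s.typ ω - s.ctr - (𝔓.Γ m).pin s.typ))) =
    (pvbArcI 𝔓.𝔐 (pvlmH m) P P.xQ s t + (𝔔.kout m ε t.ctr t.typ ω + pvtSum (𝔔.W m ε) ((𝔓.Γ m).dout π.tt) π.l + 𝔔.kin m ε s.ctr s.typ ω))
      - a * (pvbArcI 𝔓.𝔐 (pvlmH m) P P.xV s t - (𝔙.cV m ε t.ctr t.typ ω - 𝔙.cV m ε s.ctr s.typ ω)) := by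
  rw [pvty_arcI_lin, pvty_lin_sum, pvty_WV_sum, hπ.1, ← hs.1, ← hs.2, ← ht.1, ← ht.2]
  ring

/-- the `Σ₁` cycle mean for `y_a` = the cycle mean for `Q` (the virtual `V` part vanishes identically) -/
theorem cyc_lin (m : ℕ) (ε : ℝ) (a z : ℂ) (t : τ) (ω : PVSample) :
    (𝔔.kout m ε z t ω - a * (z + (𝔓.Γ m).pout t - 𝔙.cV m ε z t ω)) + pvtSum ((𝔔.W m ε).lin (pvtyWV ((𝔓.Γ m).δ : ℂ)) a) ((𝔓.Γ m).dout t) ((𝔓.Γ m).l1 t)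
      + (𝔔.kin0 m ε - a * (- (𝔓.Γ m).pin0 + 𝔙.kV m ε)) + (𝔔.ke m ε z t ω - a * (𝔙.cV m ε z t ω - z - (𝔓.Γ m).zu t - 𝔙.kV m ε)) =
    𝔔.kout m ε z t ω + pvtSum (𝔔.W m ε) ((𝔓.Γ m).dout t) ((𝔓.Γ m).l1 t) + 𝔔.kin0 m ε + 𝔔.ke m ε z t ω := by
  rw [pvty_lin_sum, pvty_WV_sum, (𝔓.Γ m).l1_disp t]
  ring

/-- **THE GLUE**: `Q` alone + `V` for free, on the good part, give the record of 61 for all the fields `y_a = Q - a V` -/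
noncomputable def toEl : PvelAna 𝔓 where
  W := fun m ε a => (𝔔.W m ε).lin (pvtyWV ((𝔓.Γ m).δ : ℂ)) a
  kin0 := fun m ε a => 𝔔.kin0 m ε - a * (- (𝔓.Γ m).pin0 + 𝔙.kV m ε)
  A := fun m ε => (𝔓.Γ m).a (𝔔.W m ε)
  CA := 𝔔.CA
  A_bdd := 𝔔.a_bdd
  cell_a := fun m => Eventually.of_forall fun ε a => by rw [pvty_geo_a, pvty_geo_a_one _ (pvty_WV_a _), mul_one]
  rel_lim := fun m a => by
    simp only [pvty_lin_rel, pvty_WV_rel, mul_zero, sub_zero]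
    exact 𝔔.rel_lim m
  kout := fun m ε a z t ω => 𝔔.kout m ε z t ω - a * (z + (𝔓.Γ m).pout t - 𝔙.cV m ε z t ω)
  kin := fun m ε a z t ω => 𝔔.kin m ε z t ω - a * (𝔙.cV m ε z t ω - z - (𝔓.Γ m).pin t)
  ke := fun m ε a z t ω => 𝔔.ke m ε z t ω - a * (𝔙.cV m ε z t ω - z - (𝔓.Γ m).zu t - 𝔙.kV m ε)
  Gd := 𝔔.Gd
  bad := 𝔔.bad
  n1 := by
    intro x R hR a m π hπ u hu
    refine pvty_up_tendsto_union pvhbUp (fun ε => ?_) (𝔔.n1 x R hR m π hπ (u / 2) (by positivity)) (𝔙.tel x R hR m π hπ (u / (2 * (‖a‖ + 1))) (by positivity))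
    rintro q ⟨P, hP, s, hs, t, ht, hF, hGt, hGs, hlt⟩
    rw [𝔔.n1_lin 𝔙 hπ.1.1 ε a (pvMerge q) P s t hF.1 hF.2.1] at hlt
    rcases pvty_split hlt with h | h
    · exact Or.inl ⟨P, hP, s, hs, t, ht, hF, hGt, hGs, h⟩
    · exact Or.inr ⟨P, hP, s, hs, t, ht, hF, hGt, hGs, h⟩
  cyc1 := by
    intro a m p t
    simp only [𝔔.cyc_lin 𝔙]
    exact 𝔔.cyc1 m p t
  Ce := 2 * (1 + 𝔔.CA ^ 2) * |max 𝔔.Ce 𝔙.CV|
  thick := by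
    intro a ha m p t
    have hh : 0 ≤ pvlmH m ^ 2 := sq_nonneg _
    filter_upwards [𝔔.thick m p t, 𝔙.cV_L2 m p t] with ε h1 h2
    exact pvty_up_bound_sq _ _ _ _ ha hh (h1.trans (ENNReal.ofReal_le_ofReal (mul_le_mul_of_nonneg_right (le_max_left _ _) hh)))
      (h2.trans (ENNReal.ofReal_le_ofReal (mul_le_mul_of_nonneg_right (le_max_right _ _) hh)))

end PvnaQ

end generic

/-! ## 3. small levels: every field is owed for `m0 ≤ m` only -/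

section small

variable {τ : Type} {c : ℝ}

/-- **`PvnaQ` FOR THE LEVELS `m0 ≤ m`** -/
structure PvnaQL (𝔓 : PvxPar τ c) (m0 : ℕ) where
  W : ℕ → ℝ → PvtW
  kin0 : ℕ → ℝ → ℂ
  CA : ℝ
  a_bdd : ∀ m, m0 ≤ m → ∀ᶠ ε in 𝓝[>] (0 : ℝ), ‖(𝔓.Γ m).a (W m ε)‖ ≤ CA
  rel_lim : ∀ m, m0 ≤ m → Tendsto (fun ε => (W m ε).rel) (𝓝[>] (0 : ℝ)) (𝓝 0)
  kout : ℕ → ℝ → ℂ → τ → PVSample → ℂ
  kin : ℕ → ℝ → ℂ → τ → PVSample → ℂ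
  ke : ℕ → ℝ → ℂ → τ → PVSample → ℂ
  Gd : ℕ → ℝ → ℂ → τ → Set PVSample
  bad : ∀ (m : ℕ), m0 ≤ m → ∀ (p : ℤ × ℤ) (t : τ),
    Tendsto (fun ε => ((pvhbUp ε).P (pvMerge ⁻¹' (pvxU 𝔓 m (l9Pt (pvlmH m) p) t \ Gd m ε (l9Pt (pvlmH m) p) t))).toReal) (𝓝[>] (0 : ℝ)) (𝓝 0)
  n1 : ∀ (x : ℂ) (R : ℝ), 0 < R → ∀ (m : ℕ), m0 ≤ m → ∀ π ∈ pvxPatSet 𝔓 x R m, ∀ u : ℝ, 0 < u →
    Tendsto (fun ε => ((pvhbUp ε).P {q | ∃ P ∈ pvhbAll x R (pvMerge q), ∃ s ∈ pvxPins 𝔓 x R m (pvMerge q) P, ∃ t ∈ pvxPins 𝔓 x R m (pvMerge q) P, pvxFit 𝔓 x R m (pvMerge q) P s t π ∧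
      pvMerge q ∈ Gd m ε t.ctr t.typ ∧ pvMerge q ∈ Gd m ε s.ctr s.typ ∧
      u < ‖pvbArcI 𝔓.𝔐 (pvlmH m) P P.xQ s t +
        (kout m ε t.ctr t.typ (pvMerge q) + pvtSum (W m ε) ((𝔓.Γ m).dout π.p.tt) π.p.l + kin m ε s.ctr s.typ (pvMerge q))‖}).toReal) (𝓝[>] (0 : ℝ)) (𝓝 0)
  cyc1 : ∀ (m : ℕ), m0 ≤ m → ∀ (p : ℤ × ℤ) (t : τ), Tendsto (fun ε => (pvhbUp ε).E ((pvMerge ⁻¹' pvxU 𝔓 m (l9Pt (pvlmH m) p) t ∩ pvMerge ⁻¹' Gd m ε (l9Pt (pvlmH m) p) t).indicator fun q =>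
    ‖kout m ε (l9Pt (pvlmH m) p) t (pvMerge q) + pvtSum (W m ε) ((𝔓.Γ m).dout t) ((𝔓.Γ m).l1 t) + kin0 m ε + ke m ε (l9Pt (pvlmH m) p) t (pvMerge q)‖ₑ ^ 2)) (𝓝[>] (0 : ℝ)) (𝓝 0)
  Ce : ℝ
  thick : ∀ (m : ℕ), m0 ≤ m → ∀ (p : ℤ × ℤ) (t : τ), ∀ᶠ ε in 𝓝[>] (0 : ℝ),
    (pvhbUp ε).E ((pvMerge ⁻¹' pvxU 𝔓 m (l9Pt (pvlmH m) p) t ∩ pvMerge ⁻¹' Gd m ε (l9Pt (pvlmH m) p) t).indicator fun q => ‖ke m ε (l9Pt (pvlmH m) p) t (pvMerge q)‖ₑ ^ 2) ≤ ENNReal.ofReal (Ce * pvlmH m ^ 2)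

/-- **`PvnaV` FOR THE LEVELS `m0 ≤ m`** -/
structure PvnaVL (𝔓 : PvxPar τ c) (m0 : ℕ) (Gd : ℕ → ℝ → ℂ → τ → Set PVSample) where
  kV : ℕ → ℝ → ℂ
  cV : ℕ → ℝ → ℂ → τ → PVSample → ℂ
  tel : ∀ (x : ℂ) (R : ℝ), 0 < R → ∀ (m : ℕ), m0 ≤ m → ∀ π ∈ pvxPatSet 𝔓 x R m, ∀ u : ℝ, 0 < u →
    Tendsto (fun ε => ((pvhbUp ε).P {q | ∃ P ∈ pvhbAll x R (pvMerge q), ∃ s ∈ pvxPins 𝔓 x R m (pvMerge q) P, ∃ t ∈ pvxPins 𝔓 x R m (pvMerge q) P, pvxFit 𝔓 x R m (pvMerge q) P s t π ∧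
      pvMerge q ∈ Gd m ε t.ctr t.typ ∧ pvMerge q ∈ Gd m ε s.ctr s.typ ∧
      u < ‖pvbArcI 𝔓.𝔐 (pvlmH m) P P.xV s t - (cV m ε t.ctr t.typ (pvMerge q) - cV m ε s.ctr s.typ (pvMerge q))‖}).toReal) (𝓝[>] (0 : ℝ)) (𝓝 0)
  CV : ℝ
  cV_L2 : ∀ (m : ℕ), m0 ≤ m → ∀ (p : ℤ × ℤ) (t : τ), ∀ᶠ ε in 𝓝[>] (0 : ℝ),
    (pvhbUp ε).E ((pvMerge ⁻¹' pvxU 𝔓 m (l9Pt (pvlmH m) p) t ∩ pvMerge ⁻¹' Gd m ε (l9Pt (pvlmH m) p) t).indicator fun q =>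
      ‖cV m ε (l9Pt (pvlmH m) p) t (pvMerge q) - l9Pt (pvlmH m) p - (𝔓.Γ m).zu t - kV m ε‖ₑ ^ 2) ≤ ENNReal.ofReal (CV * pvlmH m ^ 2)

variable {𝔓 : PvxPar τ c} {m0 : ℕ}

/-- no usable candidate: an event which asks for a fit is empty -/
theorem pvna_small_fit {m : ℕ} (hU : ∀ z t, pvxU 𝔓 m z t = ∅) (x : ℂ) (R : ℝ) (π : PvxIx τ) (Φ : ℝ → PvGeoT × PvColT → PvbRim → PvbPin τ → PvbPin τ → Prop) :
    Tendsto (fun ε => ((pvhbUp ε).P {q | ∃ P ∈ pvhbAll x R (pvMerge q), ∃ s ∈ pvxPins 𝔓 x R m (pvMerge q) P, ∃ t ∈ pvxPins 𝔓 x R m (pvMerge q) P, pvxFit 𝔓 x R m (pvMerge q) P s t π ∧ Φ ε q P s t}).toReal)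
      (𝓝[>] (0 : ℝ)) (𝓝 0) := by
  have e : ∀ ε, {q | ∃ P ∈ pvhbAll x R (pvMerge q), ∃ s ∈ pvxPins 𝔓 x R m (pvMerge q) P, ∃ t ∈ pvxPins 𝔓 x R m (pvMerge q) P, pvxFit 𝔓 x R m (pvMerge q) P s t π ∧ Φ ε q P s t} = ∅ := by
    intro ε
    ext q
    simp only [mem_ofPred_eq, mem_empty_iff_false, iff_false]
    rintro ⟨P, -, s, -, t, -, hF, -⟩
    have := hF.2.2.1
    rw [hU] at this
    exact this
  simp only [e, PvUp.P_empty, ENNReal.toReal_zero]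
  exact tendsto_const_nhds

/-- no usable candidate: the integrals over the usable candidates vanish -/
theorem pvna_small_E {m : ℕ} (hU : ∀ z t, pvxU 𝔓 m z t = ∅) (ε : ℝ) (z : ℂ) (t : τ) (G : Set (PvGeoT × PvColT)) (F : PvGeoT × PvColT → ℝ≥0∞) :
    (pvhbUp ε).E ((pvMerge ⁻¹' pvxU 𝔓 m z t ∩ G).indicator F) = 0 := by
  rw [hU, preimage_empty, empty_inter, indicator_empty]
  exact (pvhbUp ε).E_zero

open Classical in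
/-- **SMALL LEVELS, `Q`**: below `m0` there is no usable candidate; the cell means are put to `0` there -/
noncomputable def PvnaQL.toQ (𝔔 : PvnaQL 𝔓 m0) (hU : ∀ m, m < m0 → ∀ z t, pvxU 𝔓 m z t = ∅) : PvnaQ 𝔓 where
  W := fun m ε => if m0 ≤ m then 𝔔.W m ε else ⟨0, 0, 0⟩
  kin0 := 𝔔.kin0
  CA := max 𝔔.CA 0
  a_bdd := fun m => by
    by_cases hm : m0 ≤ m
    · simp only [if_pos hm]
      exact (𝔔.a_bdd m hm).mono fun ε h => h.trans (le_max_left _ _)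
    · simp only [if_neg hm, PvtsGeo.a, zero_div, norm_zero]
      exact Eventually.of_forall fun _ => le_max_right _ _
  rel_lim := fun m => by
    by_cases hm : m0 ≤ m
    · simp only [if_pos hm]
      exact 𝔔.rel_lim m hm
    · simp only [if_neg hm, PvtW.rel, zero_mul, mul_zero, sub_zero, add_zero]
      exact tendsto_const_nhds
  kout := 𝔔.kout
  kin := 𝔔.kin
  ke := 𝔔.ke
  Gd := 𝔔.Gd
  bad := fun m p t => by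
    by_cases hm : m0 ≤ m
    · exact 𝔔.bad m hm p t
    · simp only [hU m (not_le.1 hm), empty_sdiff, preimage_empty, PvUp.P_empty, ENNReal.toReal_zero]
      exact tendsto_const_nhds
  n1 := fun x R hR m π hπ u hu => by
    by_cases hm : m0 ≤ m
    · simp only [if_pos hm]
      exact 𝔔.n1 x R hR m hm π hπ u hu
    · exact pvna_small_fit (hU m (not_le.1 hm)) x R π _
  cyc1 := fun m p t => by
    by_cases hm : m0 ≤ m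
    · simp only [if_pos hm]
      exact 𝔔.cyc1 m hm p t
    · simp only [pvna_small_E (hU m (not_le.1 hm))]
      exact tendsto_const_nhds
  Ce := 𝔔.Ce
  thick := fun m p t => by
    by_cases hm : m0 ≤ m
    · exact 𝔔.thick m hm p t
    · simp only [pvna_small_E (hU m (not_le.1 hm)), zero_le, eventually_true]

/-- **SMALL LEVELS, `V`** -/
noncomputable def PvnaVL.toV {Gd : ℕ → ℝ → ℂ → τ → Set PVSample} (𝔙 : PvnaVL 𝔓 m0 Gd) (hU : ∀ m, m < m0 → ∀ z t, pvxU 𝔓 m z t = ∅) : PvnaV 𝔓 Gd where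
  kV := 𝔙.kV
  cV := 𝔙.cV
  tel := fun x R hR m π hπ u hu => by
    by_cases hm : m0 ≤ m
    · exact 𝔙.tel x R hR m hm π hπ u hu
    · exact pvna_small_fit (hU m (not_le.1 hm)) x R π _
  CV := 𝔙.CV
  cV_L2 := fun m p t => by
    by_cases hm : m0 ≤ m
    · exact 𝔙.cV_L2 m hm p t
    · simp only [pvna_small_E (hU m (not_le.1 hm)), zero_le, eventually_true]

end small

/-! ## 4. the statements of the roofs, ONE PER SUB-EXIT -/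

section model

/-- **THE DATA OF THE GOOD PART** (arguments `m ε z t`; sets of CONFIGURATIONS):   `O` = the exit half (kept geometry of the exit mouth certified, first link forced),   `I` = the entrance half (last link, thick link),   `B` = own box + collar
[RULING 16 (3) amended, 234 11:02Z (4)].      `n1` uses `O` at `t` and `I` at `s` only. -/
structure PvnaGd (τ : Type) where
  O : ℕ → ℝ → ℂ → τ → Set (Conf PvPt)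
  I : ℕ → ℝ → ℂ → τ → Set (Conf PvPt)
  B : ℕ → ℝ → ℂ → τ → Set (Conf PvPt)

/-- **the good samples of the candidate `(z,t)`** -/
def PvnaGd.all {τ : Type} (𝔊 : PvnaGd τ) (m : ℕ) (ε : ℝ) (z : ℂ) (t : τ) : Set PVSample := pvConf ⁻¹' (𝔊.O m ε z t ∩ 𝔊.I m ε z t ∩ 𝔊.B m ε z t)

/-- **THE ANALYTIC DATA FOR `Q` ALONE**: the numbers `W kin0` (arguments `m ε`), the random variables `kout kin ke` (arguments `m ε z t ω`).      The statements below are typed for ANY such data;   THE DATA OF RECORD = `pvnaDatE 𝔓 𝔈` (sec. 5). -/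
structure PvnaDat (τ : Type) where
  W : ℕ → ℝ → PvtW
  kin0 : ℕ → ℝ → ℂ
  kout : ℕ → ℝ → ℂ → τ → PVSample → ℂ
  kin : ℕ → ℝ → ℂ → τ → PVSample → ℂ
  ke : ℕ → ℝ → ℂ → τ → PVSample → ℂ

variable {τ : Type} {c : ℝ} (𝔓 : PvxPar τ c) (𝔇 : PvnaDat τ) (𝔊 : PvnaGd τ) (m0 : ℕ)

/-- **(BAD)** a usable candidate is good, up to a probability which tends to `0` at fixed level      [256 `Tr/RegE.lean`; 226 111 139 252 61 100 274] -/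
def PvnaBad : Prop :=
  ∀ (m : ℕ), m0 ≤ m → ∀ (p : ℤ × ℤ) (t : τ),
    Tendsto (fun ε => ((pvhbUp ε).P (pvMerge ⁻¹' (pvxU 𝔓 m (l9Pt (pvlmH m) p) t \ 𝔊.all m ε (l9Pt (pvlmH m) p) t))).toReal) (𝓝[>] (0 : ℝ)) (𝓝 0)

/-- **(NUM)** for `Q` alone      [258 34 52] -/
structure PvnaNum (CA : ℝ) : Prop where
  a_bdd : ∀ m, m0 ≤ m → ∀ᶠ ε in 𝓝[>] (0 : ℝ), ‖(𝔓.Γ m).a (𝔇.W m ε)‖ ≤ CA
  rel_lim : ∀ m, m0 ≤ m → Tendsto (fun ε => (𝔇.W m ε).rel) (𝓝[>] (0 : ℝ)) (𝓝 0)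

/-- the number of the Hub for a pattern: `κ_out(t) + cell means + κ_in(s)` -/
noncomputable def pvnaK (m : ℕ) (π : PvtsPat τ) (ε : ℝ) (ω : PVSample) : ℂ :=
  𝔇.kout m ε π.zt π.tt ω + pvtSum (𝔇.W m ε) ((𝔓.Γ m).dout π.tt) π.l + 𝔇.kin m ε π.zs π.ts ω

/-- **(N1)** = the contract of 170 (`Exit/N1.lean`) for every pattern, field `Q` (`a := 0`)      [RULING 16 (4);  pen 170;  159 63 188 191 60 78 37 218 148] -/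
def PvnaIn : Prop :=
  ∀ (x : ℂ) (R : ℝ), 0 < R → ∀ (m : ℕ), m0 ≤ m → ∀ π ∈ pvxPatSet 𝔓 x R m, Nonempty (PvxnIn 𝔓 x R m π 0 (pvnaK 𝔓 𝔇 m π.p))

/-- **(CYC1)** for `Q` alone, over the good usable candidates      [115 = pen; 129 58 48 178 188] -/
def PvnaCyc1 : Prop :=
  ∀ (m : ℕ), m0 ≤ m → ∀ (p : ℤ × ℤ) (t : τ), Tendsto (fun ε => (pvhbUp ε).E ((pvMerge ⁻¹' pvxU 𝔓 m (l9Pt (pvlmH m) p) t ∩ pvMerge ⁻¹' 𝔊.all m ε (l9Pt (pvlmH m) p) t).indicator fun q =>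
    ‖𝔇.kout m ε (l9Pt (pvlmH m) p) t (pvMerge q) + pvtSum (𝔇.W m ε) ((𝔓.Γ m).dout t) ((𝔓.Γ m).l1 t) + 𝔇.kin0 m ε + 𝔇.ke m ε (l9Pt (pvlmH m) p) t (pvMerge q)‖ₑ ^ 2)) (𝓝[>] (0 : ℝ)) (𝓝 0)

/-- **(THICK)** for `Q` alone, over the good usable candidates      [7 = pen; 223 103 99 96 132 118 252] -/
def PvnaThick (Ce : ℝ) : Prop :=
  ∀ (m : ℕ), m0 ≤ m → ∀ (p : ℤ × ℤ) (t : τ), ∀ᶠ ε in 𝓝[>] (0 : ℝ),
    (pvhbUp ε).E ((pvMerge ⁻¹' pvxU 𝔓 m (l9Pt (pvlmH m) p) t ∩ pvMerge ⁻¹' 𝔊.all m ε (l9Pt (pvlmH m) p) t).indicator fun q =>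
      ‖𝔇.ke m ε (l9Pt (pvlmH m) p) t (pvMerge q)‖ₑ ^ 2) ≤ ENNReal.ofReal (Ce * pvlmH m ^ 2)

variable {𝔓 𝔇 𝔊 m0}

/-- the field `n1` of `PvnaQL` from the contracts of 170 -/
theorem pvna_n1_of (h : PvnaIn 𝔓 𝔇 m0) (Gd : ℕ → ℝ → ℂ → τ → Set PVSample) (x : ℂ) (R : ℝ) (hR : 0 < R) (m : ℕ) (hm : m0 ≤ m) (π : PvxIx τ) (hπ : π ∈ pvxPatSet 𝔓 x R m) (u : ℝ) (hu : 0 < u) :
    Tendsto (fun ε => ((pvhbUp ε).P {q | ∃ P ∈ pvhbAll x R (pvMerge q), ∃ s ∈ pvxPins 𝔓 x R m (pvMerge q) P, ∃ t ∈ pvxPins 𝔓 x R m (pvMerge q) P, pvxFit 𝔓 x R m (pvMerge q) P s t π ∧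
      pvMerge q ∈ Gd m ε t.ctr t.typ ∧ pvMerge q ∈ Gd m ε s.ctr s.typ ∧
      u < ‖pvbArcI 𝔓.𝔐 (pvlmH m) P P.xQ s t +
        (𝔇.kout m ε t.ctr t.typ (pvMerge q) + pvtSum (𝔇.W m ε) ((𝔓.Γ m).dout π.p.tt) π.p.l + 𝔇.kin m ε s.ctr s.typ (pvMerge q))‖}).toReal) (𝓝[>] (0 : ℝ)) (𝓝 0) := by
  obtain ⟨I⟩ := h x R hR m hm π hπ
  refine squeeze_zero (fun ε => ENNReal.toReal_nonneg) (fun ε => ?_) (pvxn_pat I hu)
  refine ENNReal.toReal_mono ((pvhbUp ε).P_ne_top _) ((pvhbUp ε).P_mono ?_)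
  rintro q ⟨P, hP, s, hs, t, ht, hfit, -, -, hlt⟩
  refine ⟨P, hP, s, hs, t, ht, hfit, ?_⟩
  rw [hfit.1.1, hfit.1.2, hfit.2.1.1, hfit.2.1.2] at hlt
  simp only [zero_mul, sub_zero]
  exact hlt

/-- **THE RECORD FOR `Q` ALONE** from the roofs -/
noncomputable def pvnaQ {CA Ce : ℝ} (hN : PvnaNum 𝔓 𝔇 m0 CA) (hB : PvnaBad 𝔓 𝔊 m0) (h1 : PvnaIn 𝔓 𝔇 m0) (h2 : PvnaCyc1 𝔓 𝔇 𝔊 m0) (h3 : PvnaThick 𝔓 𝔇 𝔊 m0 Ce) : PvnaQL 𝔓 m0 where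
  W := 𝔇.W
  kin0 := 𝔇.kin0
  CA := CA
  a_bdd := hN.a_bdd
  rel_lim := hN.rel_lim
  kout := 𝔇.kout
  kin := 𝔇.kin
  ke := 𝔇.ke
  Gd := 𝔊.all
  bad := hB
  n1 := pvna_n1_of h1 𝔊.all
  cyc1 := h2
  Ce := Ce
  thick := h3

/-- the bad event of a pattern (both candidates usable, one of them not good) is small: to be put into `G ε` of `PvxnIn` -/
theorem pvna_bad_pat (hB : PvnaBad 𝔓 𝔊 m0) {x : ℂ} {R : ℝ} {m : ℕ} (hm : m0 ≤ m) {π : PvxIx τ} (hπ : π ∈ pvxPatSet 𝔓 x R m) :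
    Tendsto (fun ε => (pvhbUp ε).P (pvMerge ⁻¹' (pvxU 𝔓 m π.p.zt π.p.tt \ 𝔊.all m ε π.p.zt π.p.tt) ∪ pvMerge ⁻¹' (pvxU 𝔓 m π.p.zs π.p.ts \ 𝔊.all m ε π.p.zs π.p.ts))) (𝓝[>] (0 : ℝ)) (𝓝 0) := by
  obtain ⟨ps, hps⟩ := hπ.1.2.1
  obtain ⟨pt, hpt⟩ := hπ.1.2.2.1
  have hbt := hB m hm pt π.p.tt
  have hbs := hB m hm ps π.p.ts
  rw [← hpt] at hbt
  rw [← hps] at hbs
  have e : ∀ S : ℝ → Set (PvGeoT × PvColT), Tendsto (fun ε => ((pvhbUp ε).P (S ε)).toReal) (𝓝[>] (0 : ℝ)) (𝓝 0) → Tendsto (fun ε => (pvhbUp ε).P (S ε)) (𝓝[>] (0 : ℝ)) (𝓝 0) := by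
    intro S hS
    have := (ENNReal.tendsto_ofReal hS)
    simp only [ENNReal.ofReal_zero] at this
    exact this.congr fun ε => ENNReal.ofReal_toReal ((pvhbUp ε).P_ne_top _)
  have h3 := (e _ hbt).add (e _ hbs)
  rw [add_zero] at h3
  exact tendsto_of_tendsto_of_tendsto_of_le_of_le tendsto_const_nhds h3 (fun _ => zero_le) fun ε => (pvhbUp ε).P_union_le _ _

end model

/-! ## 5. THE DATA OF RECORD;   the contract on the good part -/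

section record

variable {τ : Type} {c : ℝ}

/-- below the first level `𝔓.m0` there is no usable candidate      (TrModel v4: `PvxAt.lev0`) -/
theorem pvna_small (𝔓 : PvxPar τ c) (m : ℕ) (hm : m < 𝔓.m0) (z : ℂ) (t : τ) : pvxU 𝔓 m z t = ∅ := by
  ext ω
  simp only [mem_empty_iff_false, iff_false]
  rintro ⟨𝔖, h⟩
  exact absurd h.lev0 (not_le.2 hm)

/-- **THE ANALYTIC DATA OF RECORD** = the defs of `Tr/InstL.lean` (168; RULING 19 (1) of 234: InstE v2 of record;   `Q` alone, local by definition, indexed by the base data) -/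
noncomputable def pvnaDatE (𝔓 : PvxPar τ c) (𝔈 : PvieEng τ) : PvnaDat τ where
  W := pvilW 𝔈
  kin0 := pvilKin0 𝔓 𝔈
  kout := pvilKout 𝔓 𝔈
  kin := pvilKin 𝔓 𝔈
  ke := pvilKe 𝔓 𝔈

theorem pvna_dat_W (𝔓 : PvxPar τ c) (𝔈 : PvieEng τ) : (pvnaDatE 𝔓 𝔈).W = pvilW 𝔈 := rfl
theorem pvna_dat_kin0 (𝔓 : PvxPar τ c) (𝔈 : PvieEng τ) : (pvnaDatE 𝔓 𝔈).kin0 = pvilKin0 𝔓 𝔈 := rfl
theorem pvna_dat_kout (𝔓 : PvxPar τ c) (𝔈 : PvieEng τ) : (pvnaDatE 𝔓 𝔈).kout = pvilKout 𝔓 𝔈 := rfl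
theorem pvna_dat_kin (𝔓 : PvxPar τ c) (𝔈 : PvieEng τ) : (pvnaDatE 𝔓 𝔈).kin = pvilKin 𝔓 𝔈 := rfl
theorem pvna_dat_ke (𝔓 : PvxPar τ c) (𝔈 : PvieEng τ) : (pvnaDatE 𝔓 𝔈).ke = pvilKe 𝔓 𝔈 := rfl

/-- the cell means of `y_a` at `a = 0` are the cell means of `Q` -/
theorem pvna_W_zero (𝔈 : PvieEng τ) (m : ℕ) (ε : ℝ) : pvieW 𝔈 m ε 0 = pvilW 𝔈 m ε := by
  have e : pvcnY (𝔈.XQ m ε) (𝔈.XV m ε) 0 = 𝔈.XQ m ε := by
    funext σ η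
    simp [pvcnY]
  unfold pvieW pvilW
  rw [e]

/-- the numbers of `y_a`, all `a`, give the numbers of `Q` -/
theorem pvna_num_of {𝔓 : PvxPar τ c} {𝔈 : PvieEng τ} {CA : ℝ} (h : PvieNum 𝔓 𝔈 CA) (m0 : ℕ) : PvnaNum 𝔓 (pvnaDatE 𝔓 𝔈) m0 CA where
  a_bdd := fun m _ => by
    filter_upwards [h.cell_a m, h.A_bdd m] with ε h1 h2
    show ‖(𝔓.Γ m).a (pvilW 𝔈 m ε)‖ ≤ CA
    rw [← pvna_W_zero, h1 0, sub_zero]
    exact h2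
  rel_lim := fun m _ => by
    have := h.rel_lim m 0
    simp only [pvna_W_zero] at this
    exact this

/-- **THE CONTRACT ON THE GOOD PART** = `bad` + INCLUSIONS INTO NAMED SETS ONLY      (DIRECTION RULE of 45: `n1 cyc1 thick V` are antitone in the good part, `bad` is monotone).
INCOMPLETE BY DESIGN: with `bad` alone `𝔊 = univ` is allowed and the roofs are not producible;   the pen of a roof DEFINES his named set in a file below this one and sends 271 the inclusion line. -/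
structure PvnaGd.Wf (𝔊 : PvnaGd τ) (𝔓 : PvxPar τ c) (_𝔈 : PvieEng τ) : Prop where
  bad : PvnaBad 𝔓 𝔊 𝔓.m0

end record

theorem pvna_eqns_cite : True := by
  have := @PvnaWf.eq_1; have := @PvnaQ.toEl.eq_1; have := @PvnaGd.all.eq_1; have := @PvnaBad.eq_1; have := @pvnaK.eq_1; have := @PvnaIn.eq_1; have := @PvnaCyc1.eq_1; have := @PvnaThick.eq_1; have := @pvnaQ.eq_1; have := @PvnaQL.toQ.eq_1; have := @PvnaVL.toV.eq_1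
  have := @pvnaDatE.eq_1
  trivial

end Claimed.Agent.R289
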