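-- KEEP
import Claimed.Agent.R289.Defs.InstWf
import Claimed.Agent.R289.Tr.Ret

/-!
# Row 289 (S0537, Cardy for Poisson-Voronoi), THE WALL, ROAD E, file Exit/EngYc : THE COLLAR (Rc) OF RULING 22 FOR ALL THE ROOMS AT ONCE = THE OPEN CORE OF A ROOM      (helper118; prefix `pvvz_`, `pvvz`)

WHY.   (Rc) of R22 / R23 (1') of 234: every room `Y` (mouth `M`, tile `K`, plug regions `D`) owes `∀ v ∈ Y, closedBall v (3 μ₀) ⊆ M ∪ K ∪ D`      [consumers: `PvlyReg.room` of 22 (`pvly_room_o _i _e`), `ce cf` of `pvuy_cl` of 290 (thick, field `cl`)].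
It is FALSE at the rooms which contain the whole mouth ball / the whole funnel.   Explicit pieces cost one geometry file per room; the rooms move with the engine (slit, U4).
CURE, GENERIC: the room of record := THE OPEN `3 μ₀`-CORE OF THE OLD ROOM, `pvvzCo r Y := {x | r < infDist x Yᶜ}`.
* open for ANY `Y` (`pvvz_open`, `pvvz_meas`);   `⊆ Y` (`pvvz_sub`): EVERY line of `PvieEng.Wf` on a room is Borel or ANTITONE in the room (`*_sub *_reg ef_sep`), so are W-7, `PvmdGeo` of 55, `hcore` of 90;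
* **(Rc)** `pvvz_collar` : `Y ⊆ W → ∀ v ∈ pvvzCo r Y, closedBall v r ⊆ W` (`W := M ∪ K ∪ D` = the line `*_sub` of the day);   `pvvz_core` : `pvvzCo r Y ⊆ pvtrCore r W`;
* **(Rd)** `pvvz_bdd`, **`pvvz_hole`** : `IsPreconnected Yᶜ → IsPreconnected (pvvzCo r Y)ᶜ`      [the complement is `closure Yᶜ + closedBall 0 r`];   placed: `pvvz_sh_hole`, `pvvz_sh_bdd`;
* **(Re)** `pvvz_mem` : `closedBall x r' ⊆ Y`, `r < r'` ⟹ `x ∈ pvvzCo r Y` (`pvvz_mem_bdd`: `Y` bounded);   `pvvz_sub_of` (set form);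
* covariance `pvvz_sh` : `pvieSh z (pvvzCo r Y) = pvvzCo r (pvieSh z Y)`.
sec. 2  **`pvvzEng 𝔓 𝔈`** = the engine `𝔈` with its five rooms replaced by their open `3 μ₀`-cores (all the other fields untouched, `rfl`);   **`pvvz_wf`** : `PvieEng.Wf` is preserved;
        **`pvvz_rc_o _i _e _r _f`** = (Rc) in the relative form of 22, from `Wf` of the OLD engine.      The pen of the engine may instead swap single fields (`eY := fun m t => pvvzCo (3 * pviwMu 𝔓 m) (old)`): then (Rc) `= pvvz_collar (old eY_sub)`.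
-/

set_option autoImplicit false

namespace Claimed.Agent.R289

open Set Metric

/-! ## 1. the open core of a region (model free) -/

/-- **THE OPEN `r`-CORE** of a region -/
noncomputable def pvvzCo (r : ℝ) (Y : Set ℂ) : Set ℂ := {x | r < infDist x Yᶜ}

theorem pvvz_eqns_cite : True := by
  have := @pvvzCo.eq_1
  trivial

theorem pvvz_open (r : ℝ) (Y : Set ℂ) : IsOpen (pvvzCo r Y) := isOpen_lt continuous_const (continuous_infDist_pt _)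

theorem pvvz_meas (r : ℝ) (Y : Set ℂ) : MeasurableSet (pvvzCo r Y) := (pvvz_open r Y).measurableSet

theorem pvvz_ball {r : ℝ} {Y : Set ℂ} {x : ℂ} (hx : x ∈ pvvzCo r Y) : closedBall x r ⊆ Y := by
  intro y hy
  by_contra hn
  have h1 : infDist x Yᶜ ≤ dist x y := infDist_le_dist_of_mem hn
  rw [mem_closedBall, dist_comm] at hy
  exact absurd (lt_of_lt_of_le hx (h1.trans hy)) (lt_irrefl _)

theorem pvvz_sub {r : ℝ} (hr : 0 ≤ r) (Y : Set ℂ) : pvvzCo r Y ⊆ Y := fun _ hx => pvvz_ball hx (mem_closedBall_self hr)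

/-- **(Rc)** -/
theorem pvvz_collar {r : ℝ} {Y W : Set ℂ} (h : Y ⊆ W) : ∀ v ∈ pvvzCo r Y, closedBall v r ⊆ W := fun _ hv => (pvvz_ball hv).trans h

theorem pvvz_core {r : ℝ} {Y W : Set ℂ} (h : Y ⊆ W) : pvvzCo r Y ⊆ pvtrCore r W := pvvz_collar h

/-- **(Re)** -/
theorem pvvz_mem {r r' : ℝ} {Y : Set ℂ} {x : ℂ} (hne : Yᶜ.Nonempty) (hr : r < r') (h : closedBall x r' ⊆ Y) : x ∈ pvvzCo r Y := by
  refine lt_of_lt_of_le hr ((le_infDist hne).2 fun y hy => ?_)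
  by_contra hlt
  exact hy (h (by rw [mem_closedBall, dist_comm]; exact (not_le.1 hlt).le))

theorem pvvz_compl_ne {Y : Set ℂ} (hb : Bornology.IsBounded Y) : Yᶜ.Nonempty := by
  obtain ⟨R, hR⟩ := hb.subset_closedBall (0 : ℂ)
  refine ⟨((|R| + 1 : ℝ) : ℂ), fun h => ?_⟩
  have h1 := hR h
  rw [mem_closedBall, dist_zero_right, Complex.norm_real, Real.norm_of_nonneg (by positivity)] at h1
  have := le_abs_self R
  linarith

theorem pvvz_mem_bdd {r r' : ℝ} {Y : Set ℂ} {x : ℂ} (hb : Bornology.IsBounded Y) (hr : r < r') (h : closedBall x r' ⊆ Y) : x ∈ pvvzCo r Y := pvvz_mem (pvvz_compl_ne hb) hr h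

theorem pvvz_sub_of {r r' : ℝ} {X Y : Set ℂ} (hb : Bornology.IsBounded Y) (hr : r < r') (h : X ⊆ pvtrCore r' Y) : X ⊆ pvvzCo r Y := fun _ hx => pvvz_mem_bdd hb hr (h hx)

theorem pvvz_mono {r : ℝ} {Y Y' : Set ℂ} (hne : Y'ᶜ.Nonempty) (h : Y ⊆ Y') : pvvzCo r Y ⊆ pvvzCo r Y' := fun _ hx => lt_of_lt_of_le hx (infDist_le_infDist_of_subset (compl_subset_compl.2 h) hne)

theorem pvvz_anti {r r' : ℝ} (h : r ≤ r') (Y : Set ℂ) : pvvzCo r' Y ⊆ pvvzCo r Y := fun _ hx => lt_of_le_of_lt h hx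

theorem pvvz_bdd {r : ℝ} (hr : 0 ≤ r) {Y : Set ℂ} (hb : Bornology.IsBounded Y) : Bornology.IsBounded (pvvzCo r Y) := hb.subset (pvvz_sub hr Y)

theorem pvvz_sh_compl (z : ℂ) (Y : Set ℂ) : (pvieSh z Y)ᶜ = pvieSh z Yᶜ := (image_compl_eq (Equiv.addLeft z).bijective).symm

/-- covariance -/
theorem pvvz_sh (z : ℂ) (r : ℝ) (Y : Set ℂ) : pvieSh z (pvvzCo r Y) = pvvzCo r (pvieSh z Y) := by
  have hiso : Isometry (fun w : ℂ => z + w) := isometry_add_left z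
  have key : ∀ w : ℂ, infDist (z + w) (pvieSh z Y)ᶜ = infDist w Yᶜ := fun w => by
    rw [pvvz_sh_compl]
    exact infDist_image hiso
  ext x
  constructor
  · rintro ⟨w, hw, rfl⟩
    show r < infDist (z + w) (pvieSh z Y)ᶜ
    rw [key]
    exact hw
  · intro hx
    refine ⟨x - z, ?_, by ring⟩
    show r < infDist (x - z) Yᶜ
    rw [← key, add_sub_cancel]
    exact hx

theorem pvvz_compl_eq {r : ℝ} {Y : Set ℂ} (hne : Yᶜ.Nonempty) : (pvvzCo r Y)ᶜ = (fun p : ℂ × ℂ => p.1 + p.2) '' (closure Yᶜ ×ˢ closedBall (0 : ℂ) r) := by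
  ext x
  constructor
  · intro hx
    have hx' : infDist x Yᶜ ≤ r := not_lt.1 hx
    obtain ⟨y, hy, hxy⟩ := isClosed_closure.exists_infDist_eq_dist hne.closure x
    rw [infDist_closure] at hxy
    refine ⟨(y, x - y), ⟨hy, ?_⟩, by simp⟩
    rw [mem_closedBall, dist_zero_right, ← dist_eq_norm, ← hxy]
    exact hx'
  · rintro ⟨⟨y, v⟩, ⟨hy, hv⟩, rfl⟩
    rw [mem_closedBall, dist_zero_right] at hv
    show ¬ (r < infDist (y + v) Yᶜ)
    rw [not_lt, ← infDist_closure]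
    refine (infDist_le_dist_of_mem hy).trans ?_
    simpa [dist_eq_norm] using hv

/-- **(Rd)**: the open core of a region without hole has no hole -/
theorem pvvz_hole {r : ℝ} {Y : Set ℂ} (h : IsPreconnected Yᶜ) : IsPreconnected (pvvzCo r Y)ᶜ := by
  rcases Yᶜ.eq_empty_or_nonempty with he | hne
  · by_cases hr : r < 0
    · have : (pvvzCo r Y)ᶜ = ∅ := by
        ext x
        simp only [pvvzCo, he, infDist_empty, mem_compl_iff, mem_ofPred_eq, mem_empty_iff_false, iff_false, not_not]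
        exact hr
      rw [this]
      exact isPreconnected_empty
    · have : (pvvzCo r Y)ᶜ = univ := by
        ext x
        simp only [pvvzCo, he, infDist_empty, mem_compl_iff, mem_ofPred_eq, mem_univ, iff_true]
        exact hr
      rw [this]
      exact isPreconnected_univ
  · rw [pvvz_compl_eq hne]
    exact (h.closure.prod (convex_closedBall (0 : ℂ) r).isPreconnected).image _ (continuous_fst.add continuous_snd).continuousOn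

theorem pvvz_sh_hole {Y : Set ℂ} (h : IsPreconnected Yᶜ) (z : ℂ) : IsPreconnected (pvieSh z Y)ᶜ := by
  rw [pvvz_sh_compl]
  exact h.image _ (continuous_const.add continuous_id).continuousOn

theorem pvvz_sh_bdd {Y : Set ℂ} (h : Bornology.IsBounded Y) (z : ℂ) : Bornology.IsBounded (pvieSh z Y) := by
  obtain ⟨R, hR⟩ := h.subset_closedBall (0 : ℂ)
  refine (isBounded_closedBall (x := z) (r := R)).subset ?_
  rintro _ ⟨w, hw, rfl⟩
  have := hR hw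
  rw [mem_closedBall, dist_zero_right] at this
  rw [mem_closedBall, dist_eq_norm]
  simpa using this

/-! ## 2. the engine with the cores of its rooms -/

section eng

variable {τ : Type} {c : ℝ} (𝔓 : PvxPar τ c) (𝔈 : PvieEng τ)

/-- **THE ENGINE WITH THE OPEN `3 μ₀`-CORES OF ITS FIVE ROOMS** (nothing else moves) -/
noncomputable def pvvzEng : PvieEng τ :=
  { 𝔈 with
    oY := fun m t => pvvzCo (3 * pviwMu 𝔓 m) (𝔈.oY m t)
    iY := fun m t => pvvzCo (3 * pviwMu 𝔓 m) (𝔈.iY m t)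
    eY := fun m t => pvvzCo (3 * pviwMu 𝔓 m) (𝔈.eY m t)
    rY := fun m => pvvzCo (3 * pviwMu 𝔓 m) (𝔈.rY m)
    fY := fun m t => pvvzCo (3 * pviwMu 𝔓 m) (𝔈.fY m t) }

theorem pvvz_eqns_cite2 : True := by
  have := @pvvzEng.eq_1
  trivial

variable {𝔓 𝔈}

theorem pvvz_mu0 (𝔓 : PvxPar τ c) (hδ : ∀ m, 0 ≤ pvlmDel c m) (h3 : 0 ≤ 𝔓.num.rho3) (m : ℕ) : 0 ≤ 3 * pviwMu 𝔓 m := by
  unfold pviwMu
  have : 0 ≤ min (pvlmDel c m) (𝔓.num.rho3 * pvlmH m) := le_min (hδ m) (mul_nonneg h3 (pvlm_H_pos m).le)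
  positivity

/-- **`PvieEng.Wf` IS PRESERVED** -/
theorem pvvz_wf {m0 : ℕ} {Cth : ℝ} {r κs : ℕ → ℝ} (H : PvieEng.Wf 𝔓 𝔈 m0 Cth r κs) (h0 : ∀ m, 0 ≤ 3 * pviwMu 𝔓 m) : PvieEng.Wf 𝔓 (pvvzEng 𝔓 𝔈) m0 Cth r κs :=
  { H with
    m_oY := fun _ _ => pvvz_meas _ _
    m_iY := fun _ _ => pvvz_meas _ _
    m_eY := fun _ _ => pvvz_meas _ _
    m_rY := fun _ => pvvz_meas _ _
    m_fY := fun _ _ => pvvz_meas _ _
    oY_sub := fun m hm ε t ht => (pvvz_sub (h0 m) _).trans (H.oY_sub m hm ε t ht)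
    iY_sub := fun m hm ε t ht => (pvvz_sub (h0 m) _).trans (H.iY_sub m hm ε t ht)
    eY_sub := fun m hm t ht => (pvvz_sub (h0 m) _).trans (H.eY_sub m hm t ht)
    rY_sub := fun m hm ε => (pvvz_sub (h0 m) _).trans (H.rY_sub m hm ε)
    fY_sub := fun m hm t ht => (pvvz_sub (h0 m) _).trans (H.fY_sub m hm t ht)
    oY_reg := fun m hm π ht => (image_mono (pvvz_sub (h0 m) _)).trans (H.oY_reg m hm π ht)
    iY_reg := fun m hm π ht => (image_mono (pvvz_sub (h0 m) _)).trans (H.iY_reg m hm π ht)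
    ef_sep := fun m hm t ht a ha b hb => H.ef_sep m hm t ht a (pvvz_sub (h0 m) _ ha) b (pvvz_sub (h0 m) _ hb) }

variable {m0 : ℕ} {Cth : ℝ} {r κs : ℕ → ℝ} {m : ℕ}

/-- **(Rc), first link** (form of `pvly_room_o` of 22) -/
theorem pvvz_rc_o (H : PvieEng.Wf 𝔓 𝔈 m0 Cth r κs) (hm : m0 ≤ m) (ε : ℝ) {t : τ} (ht : pviwTyOk 𝔓 t) :
    ∀ v ∈ (pvvzEng 𝔓 𝔈).oY m t, closedBall v (3 * pviwMu 𝔓 m) ⊆ (pvvzEng 𝔓 𝔈).oM m t ∪ (pvvzEng 𝔓 𝔈).oK m t ∪ pviwDo 𝔓 (pvvzEng 𝔓 𝔈) m ε t :=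
  pvvz_collar (H.oY_sub m hm ε t ht)

/-- **(Rc), last link** -/
theorem pvvz_rc_i (H : PvieEng.Wf 𝔓 𝔈 m0 Cth r κs) (hm : m0 ≤ m) (ε : ℝ) {t : τ} (ht : pviwTyOk 𝔓 t) :
    ∀ v ∈ (pvvzEng 𝔓 𝔈).iY m t, closedBall v (3 * pviwMu 𝔓 m) ⊆ (pvvzEng 𝔓 𝔈).iM m t ∪ (pvvzEng 𝔓 𝔈).iK m t ∪ pviwDi 𝔓 (pvvzEng 𝔓 𝔈) m ε t :=
  pvvz_collar (H.iY_sub m hm ε t ht)

/-- **(Rc), thick link** -/
theorem pvvz_rc_e (H : PvieEng.Wf 𝔓 𝔈 m0 Cth r κs) (hm : m0 ≤ m) {t : τ} (ht : pviwTyOk 𝔓 t) :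
    ∀ v ∈ (pvvzEng 𝔓 𝔈).eY m t, closedBall v (3 * pviwMu 𝔓 m) ⊆ (pvvzEng 𝔓 𝔈).eM m t ∪ (pvvzEng 𝔓 𝔈).eK m t ∪ pviwRo 𝔓 (pvvzEng 𝔓 𝔈) m t :=
  pvvz_collar (H.eY_sub m hm t ht)

/-- **(Rc), link into the reference plug** -/
theorem pvvz_rc_r (H : PvieEng.Wf 𝔓 𝔈 m0 Cth r κs) (hm : m0 ≤ m) (ε : ℝ) :
    ∀ v ∈ (pvvzEng 𝔓 𝔈).rY m, closedBall v (3 * pviwMu 𝔓 m) ⊆ (pvvzEng 𝔓 𝔈).rK m ∪ (pvvzEng 𝔓 𝔈).rO m ∪ pvieDoor (pvvzEng 𝔓 𝔈) m ε (𝔓.Γ m).pin0 (𝔓.Γ m).din0 :=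
  pvvz_collar (H.rY_sub m hm ε)

/-- **(Rc), thick return** -/
theorem pvvz_rc_f (H : PvieEng.Wf 𝔓 𝔈 m0 Cth r κs) (hm : m0 ≤ m) {t : τ} (ht : pviwTyOk 𝔓 t) :
    ∀ v ∈ (pvvzEng 𝔓 𝔈).fY m t, closedBall v (3 * pviwMu 𝔓 m) ⊆ (pvvzEng 𝔓 𝔈).fM m t ∪ (pvvzEng 𝔓 𝔈).fK m t ∪ pviwRo 𝔓 (pvvzEng 𝔓 𝔈) m t :=
  pvvz_collar (H.fY_sub m hm t ht)

end eng

end Claimed.Agent.R289
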