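-- KEEP
import Claimed.Agent.R289.Defs.InstWf
import Claimed.Agent.R289.Defs.FitReg

/-!
# Row 289 (S0537), THE WALL, ROAD E, roof (S0) PAR (c), file Exit/ParEng : THE REGIONS `oM oK oY | iM iK iY` OF `PvieEng`, EXPLICIT      (owner helper124, post of 73; prefix `pveg`, `Pveg`;   `e* r*` = helper166, `Exit/ParEngR.lean`)

CONSUMER: `PvieEng.Wf` of 168 (`Defs/InstWf.lean`), lines (meas) (M) (K) (Y) (S) which speak of the FIRST LINK `t → door plug` and of the LAST LINK `door plug → s`.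
LOCAL FRAME AT A TIP CELL.   `Y` = centre of the tip cell (relative to the centre of the pin, absolute units), `u` = outer normal of the side of the box it faces (`u ^ 4 = 1`), `p` = the door.
  `pvegS Y u v = Re ((v - Y) conj u)` (distance in front of `Y`),   `pvegL Y u v = Im ((v - Y) conj u)` (lateral coordinate).
REGIONS (`e` = radius of the tip cell, `δ` = mesh, `rM` = radius of the recoloured mouth, `w` = half width of the tile):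
* `pvegK Y u p e δ w rM` `= {e + 2 δ ≤ S ≤ S(p) - δ/4, |L - L(p)| ≤ w} \ closedBall Y rM`      the RESAMPLED funnel: off the box with its collar, behind the door square, overlapping the mouth ball
* mouth `= closedBall Y rM` (geometry kept, fresh colours resampled)            * room `pvegY .. O = mouth ∪ tile ∪ O`, `O` = the placed region of the door plug
HYPOTHESES = **`PvegDoor Y u p e δ w rM κ rI rk`** (explicit inequalities; `κ` = distance of the door, `rI` = radius of the inner mouth of `Yin`, `rk` = half side of the own-level box; ALL in absolute units).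
NUMBERS OF RECORD (RULING S0-N of 73, units `ρ h`): `e = 1/10`, `rM = 5/16`, `w = 1/5`, `κ = 3/8`, `rI = 1/2`.      They are ARGUMENTS of sec. 1-3.
* sec. 1  local frame      * sec. 2  the regions, Borel      * sec. 3  the lines of `PvieEng.Wf` for ONE door (`pveg_M_in pveg_M_tip pveg_K_off pveg_D_off pveg_disj pveg_Y_ball pveg_MM`), containment `pveg_MK_back` for `cyc_disj`
* sec. 4  `pveg_cell_door` : a door in CELL FORM (`PvfeDoors` of 209) in the local frame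
* sec. 5  the regions at the parameters `𝔓` (**`pvegOM pvegOK pvegOY pvegIM pvegIK pvegIY`**), `pveg_door_o`, `pveg_door_i` : `PvegDoor` from `PvfeDoors` + `pviwTyOk` + `64 δ ≤ ρ h`
* sec. 6  THE LINES OF `PvieEng.Wf` (v2 of 168) for these regions, one theorem per field
* sec. 7, 8  **v2: CURE OF THE SLIT (39) + W-7 (208)**: `pvegRa pvegKa pvegYa`, `pvegA`, **`pvegOKa pvegOYa pvegIKa pvegIYa` = THE TILES AND ROOMS OF RECORD of the end links** (`pvegOK pvegIK` stay as funnels of the thick links)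
-/

set_option autoImplicit false

namespace Claimed.Agent.R289

open Set Metric Complex

/-! ## 1. the local frame -/

/-- distance of `v` in front of `Y` (along the outer normal `u`) -/
noncomputable def pvegS (Y u v : ℂ) : ℝ := ((v - Y) * (starRingEnd ℂ) u).re

/-- lateral coordinate of `v` -/
noncomputable def pvegL (Y u v : ℂ) : ℝ := ((v - Y) * (starRingEnd ℂ) u).im

theorem pveg_conj_pow_four {u : ℂ} (hu : u ^ 4 = 1) : ((starRingEnd ℂ) u) ^ 4 = 1 := by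
  rw [← map_pow, hu, map_one]

theorem pveg_norm_unit {u : ℂ} (hu : u ^ 4 = 1) : ‖u‖ = 1 := by
  have h : ‖u‖ ^ 4 = 1 := by rw [← norm_pow, hu, norm_one]
  exact (pow_eq_one_iff_of_nonneg (norm_nonneg u) (by norm_num)).1 h

theorem pveg_sq {u : ℂ} (hu : u ^ 4 = 1) (Y v : ℂ) : ‖v - Y‖ ^ 2 = pvegS Y u v ^ 2 + pvegL Y u v ^ 2 := by
  have h1 : ‖(v - Y) * (starRingEnd ℂ) u‖ = ‖v - Y‖ := by
    rw [norm_mul, Complex.norm_conj, pveg_norm_unit hu, mul_one]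
  rw [← h1, Complex.sq_norm, Complex.normSq_apply]
  unfold pvegS pvegL
  ring

theorem pveg_S_le_norm {u : ℂ} (hu : u ^ 4 = 1) (Y v : ℂ) : pvegS Y u v ≤ ‖v - Y‖ := by
  have h := pveg_sq hu Y v
  nlinarith [sq_nonneg (pvegL Y u v), norm_nonneg (v - Y), sq_nonneg (pvegS Y u v - ‖v - Y‖), sq_nonneg (pvegS Y u v + ‖v - Y‖)]

theorem pveg_S_sub (Y u v p : ℂ) : pvegS Y u v - pvegS Y u p = ((v - p) * (starRingEnd ℂ) u).re := by
  unfold pvegS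
  rw [← Complex.sub_re]
  congr 1
  ring

theorem pveg_L_sub (Y u v p : ℂ) : pvegL Y u v - pvegL Y u p = ((v - p) * (starRingEnd ℂ) u).im := by
  unfold pvegL
  rw [← Complex.sub_im]
  congr 1
  ring

theorem pveg_re_le_N {u : ℂ} (hu : u ^ 4 = 1) (z : ℂ) : |(z * (starRingEnd ℂ) u).re| ≤ pvccN z := by
  rw [← pvccN_unit_mul (pveg_conj_pow_four hu) z, mul_comm]
  exact le_max_left _ _

theorem pveg_im_le_N {u : ℂ} (hu : u ^ 4 = 1) (z : ℂ) : |(z * (starRingEnd ℂ) u).im| ≤ pvccN z := by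
  rw [← pvccN_unit_mul (pveg_conj_pow_four hu) z, mul_comm]
  exact le_max_right _ _

/-- in the door square -/
theorem pveg_sq_S {u : ℂ} (hu : u ^ 4 = 1) (Y : ℂ) {p v : ℂ} {r : ℝ} (hv : v ∈ pvccSq p r) : |pvegS Y u v - pvegS Y u p| < r := by
  rw [pveg_S_sub]
  exact lt_of_le_of_lt (pveg_re_le_N hu _) hv

theorem pveg_sq_L {u : ℂ} (hu : u ^ 4 = 1) (Y : ℂ) {p v : ℂ} {r : ℝ} (hv : v ∈ pvccSq p r) : |pvegL Y u v - pvegL Y u p| < r := by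
  rw [pveg_L_sub]
  exact lt_of_le_of_lt (pveg_im_le_N hu _) hv

/-- the coordinate along `u`, origin the centre of the pin -/
theorem pveg_S_zero (Y u v : ℂ) : (v * (starRingEnd ℂ) u).re = (Y * (starRingEnd ℂ) u).re + pvegS Y u v := by
  unfold pvegS
  rw [← Complex.add_re]
  congr 1
  ring

/-- a point of a centred closed square -/
theorem pveg_sq_zero {u : ℂ} (hu : u ^ 4 = 1) {v : ℂ} {R : ℝ} (hv : v ∈ pvwSq 0 R) : (v * (starRingEnd ℂ) u).re ≤ R := by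
  have h1 : pvccN v ≤ R := by
    have := hv
    simp only [pvwSq, sub_zero, mem_ofPred_eq] at this
    exact max_le this.1 this.2
  exact (le_abs_self _).trans ((pveg_re_le_N hu v).trans h1)

theorem pveg_S_cont (Y u : ℂ) : Continuous (pvegS Y u) := by
  unfold pvegS
  exact Complex.continuous_re.comp ((continuous_id.sub continuous_const).mul continuous_const)

theorem pveg_L_cont (Y u : ℂ) : Continuous (pvegL Y u) := by
  unfold pvegL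
  exact Complex.continuous_im.comp ((continuous_id.sub continuous_const).mul continuous_const)

/-! ## 2. the regions -/

/-- the closed rectangle of the funnel -/
def pvegRc (Y u p : ℂ) (e δ w : ℝ) : Set ℂ := {v | e + 2 * δ ≤ pvegS Y u v ∧ pvegS Y u v ≤ pvegS Y u p - δ / 4 ∧ |pvegL Y u v - pvegL Y u p| ≤ w}

/-- **the RESAMPLED TILE of an end link** -/
def pvegK (Y u p : ℂ) (e δ w rM : ℝ) : Set ℂ := pvegRc Y u p e δ w \ closedBall Y rM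

/-- **the ROOM of the new strand of an end link**; `O` = the placed region of the door plug -/
def pvegY (Y u p : ℂ) (e δ w rM : ℝ) (O : Set ℂ) : Set ℂ := closedBall Y rM ∪ pvegK Y u p e δ w rM ∪ O

theorem pveg_rc_closed (Y u p : ℂ) (e δ w : ℝ) : IsClosed (pvegRc Y u p e δ w) := by
  have h1 : IsClosed {v : ℂ | e + 2 * δ ≤ pvegS Y u v} := isClosed_le continuous_const (pveg_S_cont Y u)
  have h2 : IsClosed {v : ℂ | pvegS Y u v ≤ pvegS Y u p - δ / 4} := isClosed_le (pveg_S_cont Y u) continuous_const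
  have h3 : IsClosed {v : ℂ | |pvegL Y u v - pvegL Y u p| ≤ w} := isClosed_le ((pveg_L_cont Y u).sub continuous_const).abs continuous_const
  exact h1.inter (h2.inter h3)

theorem pveg_K_meas (Y u p : ℂ) (e δ w rM : ℝ) : MeasurableSet (pvegK Y u p e δ w rM) :=
  (pveg_rc_closed Y u p e δ w).measurableSet.diff isClosed_closedBall.measurableSet

theorem pveg_Y_meas (Y u p : ℂ) (e δ w rM : ℝ) {O : Set ℂ} (hO : MeasurableSet O) : MeasurableSet (pvegY Y u p e δ w rM O) :=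
  (isClosed_closedBall.measurableSet.union (pveg_K_meas Y u p e δ w rM)).union hO

/-! ## 3. the lines of `PvieEng.Wf` for one door -/

/-- **the geometry of one door at one level** (absolute units) -/
structure PvegDoor (Y u p : ℂ) (e δ w rM κ rI rk : ℝ) : Prop where
  u4 : u ^ 4 = 1
  δ0 : 0 < δ
  e0 : 0 ≤ e
  w0 : 0 ≤ w
  rI0 : 0 ≤ rI
  /-- the door lies at the distance `κ` in front of the centre of the tip cell, rounded to the grid -/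
  s_lo : κ - 2 * δ ≤ pvegS Y u p
  s_hi : pvegS Y u p ≤ κ + δ
  lat : |pvegL Y u p| ≤ δ
  /-- the tip cell touches the boundary of the own-level box -/
  out : rk - e ≤ (Y * (starRingEnd ℂ) u).re
  /-- the mouth ends behind the door square -/
  n1 : rM + 9 * δ / 4 ≤ κ
  /-- the door square is off the box with its collar -/
  n2 : e + 13 * δ / 4 ≤ κ
  /-- everything lies in the inner mouth of `Yin` -/
  n3 : (κ + 2 * δ) ^ 2 + (w + 2 * δ) ^ 2 ≤ rI ^ 2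

section door

variable {Y u p : ℂ} {e δ w rM κ rI rk : ℝ}

/-- (M) `oM_in` -/
theorem pveg_M_in {r : ℝ} (hr : rM + e < r) {v x : ℂ} (hv : v ∈ closedBall Y rM) (hx : ‖x - Y‖ ≤ e) : ‖v - x‖ < r := by
  rw [mem_closedBall_iff_norm] at hv
  have : ‖v - x‖ ≤ ‖v - Y‖ + ‖x - Y‖ := by
    have := norm_sub_le (v - Y) (x - Y)
    simpa using this
  linarith

/-- (M) `oM_tip` -/
theorem pveg_M_tip {a : ℝ} (ha : a + e ≤ rM) {x : ℂ} (hx : ‖x - Y‖ ≤ e) : ball x a ⊆ closedBall Y rM := by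
  intro v hv
  rw [mem_ball_iff_norm] at hv
  rw [mem_closedBall_iff_norm]
  have : ‖v - Y‖ ≤ ‖v - x‖ + ‖x - Y‖ := by
    have := norm_add_le (v - x) (x - Y)
    simpa using this
  linarith

/-- (K) the tile is off the own-level box with its collar -/
theorem pveg_K_off (H : PvegDoor Y u p e δ w rM κ rI rk) : Disjoint (pvegK Y u p e δ w rM) (pvwSq 0 (rk + δ)) := by
  rw [Set.disjoint_left]
  intro v hv hb
  have h1 := pveg_sq_zero H.u4 hb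
  rw [pveg_S_zero Y u v] at h1
  have h2 := hv.1.1
  have := H.out
  have := H.δ0
  linarith

/-- (K) the door square is off the own-level box with its collar -/
theorem pveg_D_off (H : PvegDoor Y u p e δ w rM κ rI rk) : Disjoint (pvccSq p (δ / 4)) (pvwSq 0 (rk + δ)) := by
  rw [Set.disjoint_left]
  intro v hv hb
  have h1 := pveg_sq_zero H.u4 hb
  rw [pveg_S_zero Y u v] at h1
  have h2 := abs_lt.1 (pveg_sq_S H.u4 Y hv)
  have := H.out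
  have := H.s_lo
  have := H.n2
  linarith [h2.1]

/-- (S) mouth, tile -/
theorem pveg_disj_MK : Disjoint (closedBall Y rM) (pvegK Y u p e δ w rM) := disjoint_sdiff_self_right

/-- (S) mouth, door square -/
theorem pveg_disj_MD (H : PvegDoor Y u p e δ w rM κ rI rk) : Disjoint (closedBall Y rM) (pvccSq p (δ / 4)) := by
  rw [Set.disjoint_left]
  intro v hv hd
  rw [mem_closedBall_iff_norm] at hv
  have h2 := abs_lt.1 (pveg_sq_S H.u4 Y hd)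
  have h3 := pveg_S_le_norm H.u4 Y v
  have := H.s_lo
  have := H.n1
  linarith [h2.1]

/-- (S) tile, door square -/
theorem pveg_disj_KD (H : PvegDoor Y u p e δ w rM κ rI rk) : Disjoint (pvegK Y u p e δ w rM) (pvccSq p (δ / 4)) := by
  rw [Set.disjoint_left]
  intro v hv hd
  have h2 := abs_lt.1 (pveg_sq_S H.u4 Y hd)
  have := hv.1.2.1
  linarith [h2.1]

/-- (S) the three atoms of an end link -/
theorem pveg_disj (H : PvegDoor Y u p e δ w rM κ rI rk) {O : Set ℂ} (hO : O ⊆ pvccSq p (δ / 4)) : [closedBall Y rM, pvegK Y u p e δ w rM, O].Pairwise Disjoint := by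
  simp only [List.pairwise_cons, List.mem_cons, List.not_mem_nil, or_false, forall_eq_or_imp, forall_eq, IsEmpty.forall_iff, implies_true, List.Pairwise.nil, and_true]
  exact ⟨⟨pveg_disj_MK, (pveg_disj_MD H).mono_right hO⟩, (pveg_disj_KD H).mono_right hO⟩

/-- the tile lies in the inner mouth -/
theorem pveg_K_ball (H : PvegDoor Y u p e δ w rM κ rI rk) : pvegK Y u p e δ w rM ⊆ closedBall Y rI := by
  intro v hv
  rw [mem_closedBall_iff_norm]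
  obtain ⟨h1, h2, h3⟩ := hv.1
  have hs := pveg_sq H.u4 Y v
  have hl := abs_le.1 H.lat
  have h3' := abs_le.1 h3
  have hδ := H.δ0
  have he := H.e0
  have hw := H.w0
  have hS0 : 0 ≤ pvegS Y u v := by linarith
  have hS1 : pvegS Y u v ≤ κ + 2 * δ := by linarith [H.s_hi]
  have hL : |pvegL Y u v| ≤ w + 2 * δ := abs_le.2 ⟨by linarith [h3'.1, hl.1], by linarith [h3'.2, hl.2]⟩
  have hSS : pvegS Y u v ^ 2 ≤ (κ + 2 * δ) ^ 2 := pow_le_pow_left₀ hS0 hS1 2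
  have hLL : pvegL Y u v ^ 2 ≤ (w + 2 * δ) ^ 2 := by
    rw [← sq_abs (pvegL Y u v)]
    exact pow_le_pow_left₀ (abs_nonneg _) hL 2
  have : ‖v - Y‖ ^ 2 ≤ rI ^ 2 := by linarith [H.n3]
  exact (pow_le_pow_iff_left₀ (norm_nonneg _) H.rI0 (by norm_num)).1 this

/-- the door square lies in the inner mouth -/
theorem pveg_D_ball (H : PvegDoor Y u p e δ w rM κ rI rk) : pvccSq p (δ / 4) ⊆ closedBall Y rI := by
  intro v hv
  rw [mem_closedBall_iff_norm]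
  have hs := pveg_sq H.u4 Y v
  have h2 := abs_lt.1 (pveg_sq_S H.u4 Y hv)
  have h3 := abs_lt.1 (pveg_sq_L H.u4 Y hv)
  have hl := abs_le.1 H.lat
  have hδ := H.δ0
  have he := H.e0
  have hw := H.w0
  have hS0 : 0 ≤ pvegS Y u v := by linarith [H.s_lo, H.n2, h2.1]
  have hS1 : pvegS Y u v ≤ κ + 2 * δ := by linarith [H.s_hi, h2.2]
  have hL : |pvegL Y u v| ≤ w + 2 * δ := abs_le.2 ⟨by linarith [h3.1, hl.1], by linarith [h3.2, hl.2]⟩
  have hSS : pvegS Y u v ^ 2 ≤ (κ + 2 * δ) ^ 2 := pow_le_pow_left₀ hS0 hS1 2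
  have hLL : pvegL Y u v ^ 2 ≤ (w + 2 * δ) ^ 2 := by
    rw [← sq_abs (pvegL Y u v)]
    exact pow_le_pow_left₀ (abs_nonneg _) hL 2
  have : ‖v - Y‖ ^ 2 ≤ rI ^ 2 := by linarith [H.n3]
  exact (pow_le_pow_iff_left₀ (norm_nonneg _) H.rI0 (by norm_num)).1 this

/-- the mouth lies in the inner mouth -/
theorem pveg_M_ball (H : PvegDoor Y u p e δ w rM κ rI rk) : closedBall Y rM ⊆ closedBall Y rI := by
  refine closedBall_subset_closedBall ?_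
  have hδ := H.δ0
  have hw := H.w0
  have h1 : rM ≤ κ + 2 * δ := by linarith [H.n1]
  have h0 : 0 ≤ κ + 2 * δ := by linarith [H.n2, H.e0]
  have h2 : (κ + 2 * δ) ^ 2 ≤ rI ^ 2 := by nlinarith [H.n3, sq_nonneg (w + 2 * δ)]
  exact h1.trans ((pow_le_pow_iff_left₀ h0 H.rI0 (by norm_num)).1 h2)

/-- (Y) **the room lies in the inner mouth of `Yin`** -/
theorem pveg_Y_ball (H : PvegDoor Y u p e δ w rM κ rI rk) {O : Set ℂ} (hO : O ⊆ pvccSq p (δ / 4)) : pvegY Y u p e δ w rM O ⊆ closedBall Y rI :=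
  union_subset (union_subset (pveg_M_ball H) (pveg_K_ball H)) (hO.trans (pveg_D_ball H))

/-- (S) for `cyc_disj`, `PvieSimple`: mouth and tile lie BEHIND the door square, inside the inner mouth -/
theorem pveg_MK_back (H : PvegDoor Y u p e δ w rM κ rI rk) {v : ℂ} (hv : v ∈ closedBall Y rM ∪ pvegK Y u p e δ w rM) :
    v ∈ closedBall Y rI ∧ pvegS Y u v ≤ pvegS Y u p - δ / 4 := by
  rcases hv with hv | hv
  · refine ⟨pveg_M_ball H hv, ?_⟩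
    rw [mem_closedBall_iff_norm] at hv
    have := pveg_S_le_norm H.u4 Y v
    linarith [H.s_lo, H.n1]
  · exact ⟨pveg_K_ball H hv, hv.1.2.1⟩

/-- (S) anything in front of the door line misses mouth and tile -/
theorem pveg_MK_front (H : PvegDoor Y u p e δ w rM κ rI rk) {A : Set ℂ} (hA : ∀ v ∈ A, pvegS Y u p - δ / 4 < pvegS Y u v) :
    Disjoint (closedBall Y rM ∪ pvegK Y u p e δ w rM) A := by
  rw [Set.disjoint_left]
  intro v hv hv'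
  exact absurd (pveg_MK_back H hv).2 (not_le.2 (hA v hv'))

/-- (S) anything off the inner mouth misses mouth and tile -/
theorem pveg_MK_far (H : PvegDoor Y u p e δ w rM κ rI rk) {A : Set ℂ} (hA : ∀ v ∈ A, rI < ‖v - Y‖) :
    Disjoint (closedBall Y rM ∪ pvegK Y u p e δ w rM) A := by
  rw [Set.disjoint_left]
  intro v hv hv'
  have := (pveg_MK_back H hv).1
  rw [mem_closedBall_iff_norm] at this
  exact absurd this (not_le.2 (hA v hv'))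

end door

/-- (S) `oi_disj`: the two mouths of one pin -/
theorem pveg_MM {Y Y' : ℂ} {rM : ℝ} (h : 2 * rM < ‖Y - Y'‖) : Disjoint (closedBall Y rM) (closedBall Y' rM) := by
  refine closedBall_disjoint_closedBall ?_
  rw [dist_eq_norm]
  linarith

/-! ## 4. a door in cell form -/

theorem pveg_dir_pow {u : ℤ × ℤ} (hu : PvfeDir u) : pvtZ u ^ 4 = 1 := by
  rcases hu with rfl | rfl | rfl | rfl
  · simp [pvtZ]
  · simp [pvtZ]; norm_num
  · simp [pvtZ, Complex.I_pow_four]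
  · simp [pvtZ]; rw [neg_pow, Complex.I_pow_four]; norm_num

theorem pveg_ctr_sub (δ : ℝ) (e u : ℤ × ℤ) : pvtCtr δ (e - u) = pvtCtr δ e - (δ : ℂ) * pvtZ u := by
  apply Complex.ext
  · simp [pvtCtr, pvtZ]; ring
  · simp [pvtCtr, pvtZ]; ring

theorem pveg_unit_conj {U : ℂ} (hU : U ^ 4 = 1) : U * (starRingEnd ℂ) U = 1 := by
  rw [Complex.mul_conj, Complex.normSq_eq_norm_sq, pveg_norm_unit hU]
  simp

/-- **a door in cell form** (`e` = base cell, `U` = outer normal, the centre of `e` within `δ` of `Y + κ U`): the side of `e` which looks at the box, in the local frame -/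
theorem pveg_cell_door {δ κ : ℝ} {Y U C p : ℂ} (hU : U ^ 4 = 1) (hp : p = C - (δ : ℂ) * U / 2) (hC : ‖C - (Y + (κ : ℂ) * U)‖ ≤ δ) (hδ : 0 < δ) :
    κ - 2 * δ ≤ pvegS Y U p ∧ pvegS Y U p ≤ κ + δ ∧ |pvegL Y U p| ≤ δ := by
  set E : ℂ := (C - (Y + (κ : ℂ) * U)) * (starRingEnd ℂ) U with hE
  have hn : ‖E‖ ≤ δ := by
    rw [hE, norm_mul, Complex.norm_conj, pveg_norm_unit hU, mul_one]
    exact hC
  have e1 : (p - Y) * (starRingEnd ℂ) U = E + ((κ - δ / 2 : ℝ) : ℂ) := by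
    have h1 := pveg_unit_conj hU
    rw [hp, hE]
    push_cast
    linear_combination ((κ : ℂ) - (δ : ℂ) / 2) * h1
  have hre := abs_le.1 ((Complex.abs_re_le_norm E).trans hn)
  have him := (Complex.abs_im_le_norm E).trans hn
  unfold pvegS pvegL
  rw [e1]
  simp only [Complex.add_re, Complex.add_im, Complex.ofReal_re, Complex.ofReal_im, add_zero]
  exact ⟨by linarith [hre.1], by linarith [hre.2], him⟩

/-- the placed region of a door plug lies in the door square -/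
theorem pveg_sim_sq {O₀ : Set ℂ} {r δ : ℝ} (hO : O₀ ⊆ pvccSq 0 r) (hr : r ≤ δ / 4) (p : ℂ) {d : ℂ} (hd : d ^ 4 = 1) : pvthSim p d '' O₀ ⊆ pvccSq p (δ / 4) := by
  have h1 : pvthSim p d '' O₀ ⊆ pvccPl p d (pvccSq 0 r) := Set.image_mono hO
  rw [pvccPl_sq p hd, mul_zero, add_zero] at h1
  exact h1.trans (pvcc_sq_mono p hr)

/-! ## 5. the regions at the parameters -/

section par

variable {τ : Type} {c : ℝ} (𝔓 : PvxPar τ c)

/-- `ρ h` -/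
noncomputable def pvegR (m : ℕ) : ℝ := 𝔓.num.rho * pvlmH m
/-- centre of the exit tip cell, relative to the centre of the pin -/
noncomputable def pvegYp (m : ℕ) (t : τ) : ℂ := (pvlmH m : ℂ) * (𝔓.ty t).yp
/-- centre of the entrance tip cell, relative to the centre of the pin -/
noncomputable def pvegYm (m : ℕ) (t : τ) : ℂ := (pvlmH m : ℂ) * (𝔓.ty t).ym

/-- **`oM`** -/
noncomputable def pvegOM (m : ℕ) (t : τ) : Set ℂ := closedBall (pvegYp 𝔓 m t) (5 * pvegR 𝔓 m / 16)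
/-- **`oK`** -/
noncomputable def pvegOK (m : ℕ) (t : τ) : Set ℂ :=
  pvegK (pvegYp 𝔓 m t) ((𝔓.Γ m).dout t) ((𝔓.Γ m).pout t) (pvegR 𝔓 m / 10) (pvlmDel c m) (pvegR 𝔓 m / 5) (5 * pvegR 𝔓 m / 16)
/-- **`oY`**; `O₀ m` = the reference region of the door plug of level `m` -/
noncomputable def pvegOY (O₀ : ℕ → Set ℂ) (m : ℕ) (t : τ) : Set ℂ :=
  pvegY (pvegYp 𝔓 m t) ((𝔓.Γ m).dout t) ((𝔓.Γ m).pout t) (pvegR 𝔓 m / 10) (pvlmDel c m) (pvegR 𝔓 m / 5) (5 * pvegR 𝔓 m / 16) (pvthSim ((𝔓.Γ m).pout t) ((𝔓.Γ m).dout t) '' O₀ m)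
/-- **`iM`** -/
noncomputable def pvegIM (m : ℕ) (t : τ) : Set ℂ := closedBall (pvegYm 𝔓 m t) (5 * pvegR 𝔓 m / 16)
/-- **`iK`** -/
noncomputable def pvegIK (m : ℕ) (t : τ) : Set ℂ :=
  pvegK (pvegYm 𝔓 m t) (-(𝔓.Γ m).din t) ((𝔓.Γ m).pin t) (pvegR 𝔓 m / 10) (pvlmDel c m) (pvegR 𝔓 m / 5) (5 * pvegR 𝔓 m / 16)
/-- **`iY`** -/
noncomputable def pvegIY (O₀ : ℕ → Set ℂ) (m : ℕ) (t : τ) : Set ℂ :=
  pvegY (pvegYm 𝔓 m t) (-(𝔓.Γ m).din t) ((𝔓.Γ m).pin t) (pvegR 𝔓 m / 10) (pvlmDel c m) (pvegR 𝔓 m / 5) (5 * pvegR 𝔓 m / 16) (pvthSim ((𝔓.Γ m).pin t) ((𝔓.Γ m).din t) '' O₀ m)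

/-- **what sec. 5, 6 ask from the parameters at the level `m`** (all are fields of `PvxPar.Wf` v4 / consequences of `𝔓.m0 ≤ m`) -/
structure PvegLev (m : ℕ) : Prop where
  rho0 : 0 < 𝔓.num.rho
  del : (𝔓.Γ m).δ = pvlmDel c m
  doors : PvfeDoors (𝔓.Γ m) 𝔓.ty 𝔓.num (pvlmH m)
  fine : 64 * pvlmDel c m ≤ 𝔓.num.rho * pvlmH m

variable {𝔓}

theorem pveg_R_pos {m : ℕ} (hL : PvegLev 𝔓 m) : 0 < pvegR 𝔓 m := mul_pos hL.rho0 (pvlm_H_pos m)

theorem pveg_out_aux (y U : ℂ) (m : ℕ) {A e : ℝ} (hU : (y * (starRingEnd ℂ) U).re = pvccN y) (h : |pvccN y - A| ≤ e) :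
    A * pvlmH m - e * pvlmH m ≤ (((pvlmH m : ℂ) * y) * (starRingEnd ℂ) U).re := by
  have h1 : (((pvlmH m : ℂ) * y) * (starRingEnd ℂ) U).re = pvlmH m * pvccN y := by
    rw [mul_assoc, Complex.re_ofReal_mul, hU]
  rw [h1]
  nlinarith [pvlm_H_pos m, (abs_le.1 h).1]

theorem pveg_door_aux {m : ℕ} (hL : PvegLev 𝔓 m) {y p U : ℂ} {e u : ℤ × ℤ} {rk : ℝ} (hu : PvfeDir u) (hU : U = pvtZ u)
    (hp : p = (pvtCtr (𝔓.Γ m).δ (e - u) + pvtCtr (𝔓.Γ m).δ e) / 2)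
    (hC : ‖pvtCtr (𝔓.Γ m).δ e - (pvlmH m : ℂ) * (y + ((3 * 𝔓.num.rho / 8 : ℝ) : ℂ) * pvtZ u)‖ ≤ (𝔓.Γ m).δ)
    (hout : rk - pvegR 𝔓 m / 10 ≤ (((pvlmH m : ℂ) * y) * (starRingEnd ℂ) U).re) :
    PvegDoor ((pvlmH m : ℂ) * y) U p (pvegR 𝔓 m / 10) (pvlmDel c m) (pvegR 𝔓 m / 5) (5 * pvegR 𝔓 m / 16) (3 * pvegR 𝔓 m / 8) (pvegR 𝔓 m / 2) rk := by
  have hr := pveg_R_pos hL
  have hδ := pvlm_Del_pos c m
  have hf : 64 * pvlmDel c m ≤ pvegR 𝔓 m := hL.fine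
  rw [hL.del] at hp hC
  subst hU
  have hU4 := pveg_dir_pow hu
  have hd := pveg_cell_door (δ := pvlmDel c m) (κ := 3 * pvegR 𝔓 m / 8) (Y := (pvlmH m : ℂ) * y) (C := pvtCtr (pvlmDel c m) e) (p := p) hU4
    (by rw [hp, pveg_ctr_sub]; ring)
    (by
      have : (pvlmH m : ℂ) * y + ((3 * pvegR 𝔓 m / 8 : ℝ) : ℂ) * pvtZ u = (pvlmH m : ℂ) * (y + ((3 * 𝔓.num.rho / 8 : ℝ) : ℂ) * pvtZ u) := by
        unfold pvegR
        push_cast
        ring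
      rw [this]
      exact hC) hδ
  exact
    { u4 := hU4
      δ0 := hδ
      e0 := by linarith
      w0 := by linarith
      rI0 := by linarith
      s_lo := hd.1
      s_hi := hd.2.1
      lat := hd.2.2
      out := hout
      n1 := by linarith
      n2 := by linarith
      n3 := by nlinarith }

/-- **the exit door** -/
theorem pveg_door_o {m : ℕ} {t : τ} (hL : PvegLev 𝔓 m) (hT : pviwTyOk 𝔓 t) :
    PvegDoor (pvegYp 𝔓 m t) ((𝔓.Γ m).dout t) ((𝔓.Γ m).pout t) (pvegR 𝔓 m / 10) (pvlmDel c m) (pvegR 𝔓 m / 5) (5 * pvegR 𝔓 m / 16) (3 * pvegR 𝔓 m / 8) (pvegR 𝔓 m / 2) (pviwRad 𝔓 m t) := by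
  obtain ⟨e, u, hu, h1, h2, h3, h4⟩ := hL.doors.out t
  refine pveg_door_aux hL hu h2 h1 h3 ?_
  have := pveg_out_aux (𝔓.ty t).yp ((𝔓.Γ m).dout t) m (by rw [h2]; exact h4) hT.1
  unfold pviwRad pvwRad pvegR
  linarith

/-- **the entrance door** -/
theorem pveg_door_i {m : ℕ} {t : τ} (hL : PvegLev 𝔓 m) (hT : pviwTyOk 𝔓 t) :
    PvegDoor (pvegYm 𝔓 m t) (-(𝔓.Γ m).din t) ((𝔓.Γ m).pin t) (pvegR 𝔓 m / 10) (pvlmDel c m) (pvegR 𝔓 m / 5) (5 * pvegR 𝔓 m / 16) (3 * pvegR 𝔓 m / 8) (pvegR 𝔓 m / 2) (pviwRad 𝔓 m t) := by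
  obtain ⟨e, u, hu, h1, h2, h3, h4⟩ := hL.doors.inn t
  have h2' : -(𝔓.Γ m).din t = pvtZ u := by rw [h2, neg_neg]
  refine pveg_door_aux hL hu h2' (by rw [h1, add_comm]) h3 ?_
  have := pveg_out_aux (𝔓.ty t).ym (-(𝔓.Γ m).din t) m (by rw [h2']; exact h4) hT.2.1
  unfold pviwRad pvwRad pvegR
  linarith

theorem pveg_dout4 {m : ℕ} (hL : PvegLev 𝔓 m) (t : τ) : (𝔓.Γ m).dout t ^ 4 = 1 := by
  obtain ⟨e, u, hu, -, h2, -, -⟩ := hL.doors.out t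
  rw [h2]
  exact pveg_dir_pow hu

theorem pveg_din4 {m : ℕ} (hL : PvegLev 𝔓 m) (t : τ) : (𝔓.Γ m).din t ^ 4 = 1 := by
  obtain ⟨e, u, hu, -, h2, -, -⟩ := hL.doors.inn t
  rw [h2, neg_pow, pveg_dir_pow hu]
  norm_num

/-! ## 6. the lines of `PvieEng.Wf` -/

theorem pveg_m_oM (m : ℕ) (t : τ) : MeasurableSet (pvegOM 𝔓 m t) := isClosed_closedBall.measurableSet
theorem pveg_m_iM (m : ℕ) (t : τ) : MeasurableSet (pvegIM 𝔓 m t) := isClosed_closedBall.measurableSet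
theorem pveg_m_oK (m : ℕ) (t : τ) : MeasurableSet (pvegOK 𝔓 m t) := pveg_K_meas _ _ _ _ _ _ _
theorem pveg_m_iK (m : ℕ) (t : τ) : MeasurableSet (pvegIK 𝔓 m t) := pveg_K_meas _ _ _ _ _ _ _

theorem pveg_sim_meas {O : Set ℂ} (hO : MeasurableSet O) (p : ℂ) {d : ℂ} (hd : d ≠ 0) : MeasurableSet (pvthSim p d '' O) := pvccPl_measurable p hd hO

theorem pveg_m_oY {O₀ : ℕ → Set ℂ} (hO : ∀ m, MeasurableSet (O₀ m)) (m : ℕ) (t : τ) : MeasurableSet (pvegOY 𝔓 O₀ m t) := by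
  refine pveg_Y_meas _ _ _ _ _ _ _ (pveg_sim_meas (hO m) _ ?_)
  intro h
  have := (𝔓.Γ m).dout1 t
  rw [h, norm_zero] at this
  exact zero_ne_one this

/-- (M) `oM_in` -/
theorem pveg_oM_in {m : ℕ} {t : τ} (hL : PvegLev 𝔓 m) (hc : ∀ w ∈ 𝔓.cp t, ‖w - (𝔓.ty t).yp‖ ≤ 𝔓.num.rho / 10) :
    ∀ v ∈ pvegOM 𝔓 m t, ∀ w ∈ 𝔓.cp t, ‖v - (pvlmH m : ℂ) * w‖ < 𝔓.num.rho * pvlmH m := by
  intro v hv w hw
  have hr := pveg_R_pos hL
  refine pveg_M_in (e := pvegR 𝔓 m / 10) (by unfold pvegR at hr ⊢; linarith) hv ?_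
  unfold pvegYp pvegR
  rw [← mul_sub, norm_mul, Complex.norm_real, Real.norm_eq_abs, abs_of_pos (pvlm_H_pos m)]
  nlinarith [hc w hw, pvlm_H_pos m]

/-- (M) `iM_in` -/
theorem pveg_iM_in {m : ℕ} {t : τ} (hL : PvegLev 𝔓 m) (hc : ∀ w ∈ 𝔓.cm t, ‖w - (𝔓.ty t).ym‖ ≤ 𝔓.num.rho / 10) :
    ∀ v ∈ pvegIM 𝔓 m t, ∀ w ∈ 𝔓.cm t, ‖v - (pvlmH m : ℂ) * w‖ < 𝔓.num.rho * pvlmH m := by
  intro v hv w hw
  have hr := pveg_R_pos hL
  refine pveg_M_in (e := pvegR 𝔓 m / 10) (by unfold pvegR at hr ⊢; linarith) hv ?_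
  unfold pvegYm pvegR
  rw [← mul_sub, norm_mul, Complex.norm_real, Real.norm_eq_abs, abs_of_pos (pvlm_H_pos m)]
  nlinarith [hc w hw, pvlm_H_pos m]

/-- (M) `oM_tip` -/
theorem pveg_oM_tip {m : ℕ} {t : τ} (hL : PvegLev 𝔓 m) (hc : ∀ w ∈ 𝔓.cp t, ‖w - (𝔓.ty t).yp‖ ≤ 𝔓.num.rho / 10) :
    ∀ w ∈ 𝔓.cp t, ball ((pvlmH m : ℂ) * w) (𝔓.num.rho * pvlmH m / 16) ⊆ pvegOM 𝔓 m t := by
  intro w hw
  have hr := pveg_R_pos hL
  refine pveg_M_tip (e := pvegR 𝔓 m / 10) (by unfold pvegR at hr ⊢; linarith) ?_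
  unfold pvegYp pvegR
  rw [← mul_sub, norm_mul, Complex.norm_real, Real.norm_eq_abs, abs_of_pos (pvlm_H_pos m)]
  nlinarith [hc w hw, pvlm_H_pos m]

/-- (M) `iM_tip` -/
theorem pveg_iM_tip {m : ℕ} {t : τ} (hL : PvegLev 𝔓 m) (hc : ∀ w ∈ 𝔓.cm t, ‖w - (𝔓.ty t).ym‖ ≤ 𝔓.num.rho / 10) :
    ∀ w ∈ 𝔓.cm t, ball ((pvlmH m : ℂ) * w) (𝔓.num.rho * pvlmH m / 16) ⊆ pvegIM 𝔓 m t := by
  intro w hw
  have hr := pveg_R_pos hL
  refine pveg_M_tip (e := pvegR 𝔓 m / 10) (by unfold pvegR at hr ⊢; linarith) ?_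
  unfold pvegYm pvegR
  rw [← mul_sub, norm_mul, Complex.norm_real, Real.norm_eq_abs, abs_of_pos (pvlm_H_pos m)]
  nlinarith [hc w hw, pvlm_H_pos m]

/-- (M), form of RULING S0-N: the closed ball of radius `ρ h / 4` round the GRID centre -/
theorem pveg_oM_grid {m : ℕ} (hL : PvegLev 𝔓 m) (t : τ) : closedBall (pvegYp 𝔓 m t) (𝔓.num.rho * pvlmH m / 4) ⊆ pvegOM 𝔓 m t :=
  closedBall_subset_closedBall (by have := pveg_R_pos hL; unfold pvegR at this ⊢; linarith)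

theorem pveg_iM_grid {m : ℕ} (hL : PvegLev 𝔓 m) (t : τ) : closedBall (pvegYm 𝔓 m t) (𝔓.num.rho * pvlmH m / 4) ⊆ pvegIM 𝔓 m t :=
  closedBall_subset_closedBall (by have := pveg_R_pos hL; unfold pvegR at this ⊢; linarith)

/-- (K) `res_off` for `oK` -/
theorem pveg_oK_off {m : ℕ} {t : τ} (hL : PvegLev 𝔓 m) (hT : pviwTyOk 𝔓 t) : Disjoint (pvegOK 𝔓 m t) (pviwBox 𝔓 m t) := pveg_K_off (pveg_door_o hL hT)

/-- (K) `iK_off` -/
theorem pveg_iK_off {m : ℕ} {t : τ} (hL : PvegLev 𝔓 m) (hT : pviwTyOk 𝔓 t) : Disjoint (pvegIK 𝔓 m t) (pviwBox 𝔓 m t) := pveg_K_off (pveg_door_i hL hT)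

/-- (K) `res_off` for the first door -/
theorem pveg_Do_off {m : ℕ} {t : τ} (hL : PvegLev 𝔓 m) (hT : pviwTyOk 𝔓 t) {O : Set ℂ} {r : ℝ} (hO : O ⊆ pvccSq 0 r) (hr : r ≤ pvlmDel c m / 4) :
    Disjoint (pvthSim ((𝔓.Γ m).pout t) ((𝔓.Γ m).dout t) '' O) (pviwBox 𝔓 m t) :=
  (pveg_D_off (pveg_door_o hL hT)).mono_left (pveg_sim_sq hO hr _ (pveg_dout4 hL t))

/-- (K) `Di_off` -/
theorem pveg_Di_off {m : ℕ} {t : τ} (hL : PvegLev 𝔓 m) (hT : pviwTyOk 𝔓 t) {O : Set ℂ} {r : ℝ} (hO : O ⊆ pvccSq 0 r) (hr : r ≤ pvlmDel c m / 4) :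
    Disjoint (pvthSim ((𝔓.Γ m).pin t) ((𝔓.Γ m).din t) '' O) (pviwBox 𝔓 m t) :=
  (pveg_D_off (pveg_door_i hL hT)).mono_left (pveg_sim_sq hO hr _ (pveg_din4 hL t))

/-- (S) `o_disj` -/
theorem pveg_o_disj {m : ℕ} {t : τ} (hL : PvegLev 𝔓 m) (hT : pviwTyOk 𝔓 t) {O : Set ℂ} {r : ℝ} (hO : O ⊆ pvccSq 0 r) (hr : r ≤ pvlmDel c m / 4) :
    [pvegOM 𝔓 m t, pvegOK 𝔓 m t, pvthSim ((𝔓.Γ m).pout t) ((𝔓.Γ m).dout t) '' O].Pairwise Disjoint :=
  pveg_disj (pveg_door_o hL hT) (pveg_sim_sq hO hr _ (pveg_dout4 hL t))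

/-- (S) `i_disj` -/
theorem pveg_i_disj {m : ℕ} {t : τ} (hL : PvegLev 𝔓 m) (hT : pviwTyOk 𝔓 t) {O : Set ℂ} {r : ℝ} (hO : O ⊆ pvccSq 0 r) (hr : r ≤ pvlmDel c m / 4) :
    [pvegIM 𝔓 m t, pvegIK 𝔓 m t, pvthSim ((𝔓.Γ m).pin t) ((𝔓.Γ m).din t) '' O].Pairwise Disjoint :=
  pveg_disj (pveg_door_i hL hT) (pveg_sim_sq hO hr _ (pveg_din4 hL t))

/-- (S) `oi_disj` -/
theorem pveg_oi_disj {m : ℕ} {t : τ} (hL : PvegLev 𝔓 m) (hT : pviwTyOk 𝔓 t) : Disjoint (pvegOM 𝔓 m t) (pvegIM 𝔓 m t) := by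
  refine pveg_MM ?_
  have hr := pveg_R_pos hL
  unfold pvegYp pvegYm
  rw [← mul_sub, norm_mul, Complex.norm_real, Real.norm_eq_abs, abs_of_pos (pvlm_H_pos m)]
  unfold pvegR at hr ⊢
  nlinarith [hT.2.2, pvlm_H_pos m]

/-- (Y) `oY_sub` (equality) -/
theorem pveg_oY_eq (O₀ : ℕ → Set ℂ) (m : ℕ) (t : τ) : pvegOY 𝔓 O₀ m t = pvegOM 𝔓 m t ∪ pvegOK 𝔓 m t ∪ pvthSim ((𝔓.Γ m).pout t) ((𝔓.Γ m).dout t) '' O₀ m := rfl

/-- (Y) `iY_sub` (equality) -/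
theorem pveg_iY_eq (O₀ : ℕ → Set ℂ) (m : ℕ) (t : τ) : pvegIY 𝔓 O₀ m t = pvegIM 𝔓 m t ∪ pvegIK 𝔓 m t ∪ pvthSim ((𝔓.Γ m).pin t) ((𝔓.Γ m).din t) '' O₀ m := rfl

theorem pveg_sh_ball (z Y : ℂ) (r : ℝ) : pvieSh z (closedBall Y r) = closedBall (z + Y) r := by
  ext v
  simp only [pvieSh, mem_image, mem_closedBall_iff_norm]
  constructor
  · rintro ⟨w, hw, rfl⟩
    have : z + w - (z + Y) = w - Y := by ring
    rwa [this]
  · intro h
    exact ⟨v - z, by have : v - z - Y = v - (z + Y) := by ring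
                     rwa [this], by ring⟩

/-- (Y) the room of the first link, placed, lies in the inner mouth of the exit tip -/
theorem pveg_oY_ball {m : ℕ} {t : τ} (hL : PvegLev 𝔓 m) (hT : pviwTyOk 𝔓 t) {O₀ : ℕ → Set ℂ} {r : ℝ} (hO : O₀ m ⊆ pvccSq 0 r) (hr : r ≤ pvlmDel c m / 4) (z : ℂ) :
    pvieSh z (pvegOY 𝔓 O₀ m t) ⊆ closedBall ((𝔓.ty t).cp (pvlmH m) z) (𝔓.num.rho * pvlmH m / 2) := by
  have h := pveg_Y_ball (pveg_door_o hL hT) (pveg_sim_sq hO hr _ (pveg_dout4 hL t))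
  have h2 : pvieSh z (pvegOY 𝔓 O₀ m t) ⊆ pvieSh z (closedBall (pvegYp 𝔓 m t) (pvegR 𝔓 m / 2)) := Set.image_mono h
  rw [pveg_sh_ball] at h2
  exact h2

/-- (Y) the room of the last link, placed, lies in the inner mouth of the entrance tip -/
theorem pveg_iY_ball {m : ℕ} {t : τ} (hL : PvegLev 𝔓 m) (hT : pviwTyOk 𝔓 t) {O₀ : ℕ → Set ℂ} {r : ℝ} (hO : O₀ m ⊆ pvccSq 0 r) (hr : r ≤ pvlmDel c m / 4) (z : ℂ) :
    pvieSh z (pvegIY 𝔓 O₀ m t) ⊆ closedBall ((𝔓.ty t).cm (pvlmH m) z) (𝔓.num.rho * pvlmH m / 2) := by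
  have h := pveg_Y_ball (pveg_door_i hL hT) (pveg_sim_sq hO hr _ (pveg_din4 hL t))
  have h2 : pvieSh z (pvegIY 𝔓 O₀ m t) ⊆ pvieSh z (closedBall (pvegYm 𝔓 m t) (pvegR 𝔓 m / 2)) := Set.image_mono h
  rw [pveg_sh_ball] at h2
  exact h2

/-- (Y) **`oY_reg`** at the regions of record -/
theorem pveg_oY_reg {m : ℕ} (hL : PvegLev 𝔓 m) {π : PvxIx τ} (hT : pviwTyOk 𝔓 π.p.tt) (hreg : 𝔓.reg m π = pvfeRegAt (𝔓.Γ m) 𝔓.ty 𝔓.cp 𝔓.cm 𝔓.num (pvlmH m) π.p)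
    {O₀ : ℕ → Set ℂ} {r : ℝ} (hO : O₀ m ⊆ pvccSq 0 r) (hr : r ≤ pvlmDel c m / 4) : pvieSh π.p.zt (pvegOY 𝔓 O₀ m π.p.tt) ⊆ (𝔓.reg m π).Yin := by
  rw [hreg]
  exact (pveg_oY_ball hL hT hO hr π.p.zt).trans (subset_union_right.trans subset_union_left)

/-- (Y) **`iY_reg`** at the regions of record -/
theorem pveg_iY_reg {m : ℕ} (hL : PvegLev 𝔓 m) {π : PvxIx τ} (hT : pviwTyOk 𝔓 π.p.ts) (hreg : 𝔓.reg m π = pvfeRegAt (𝔓.Γ m) 𝔓.ty 𝔓.cp 𝔓.cm 𝔓.num (pvlmH m) π.p)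
    {O₀ : ℕ → Set ℂ} {r : ℝ} (hO : O₀ m ⊆ pvccSq 0 r) (hr : r ≤ pvlmDel c m / 4) : pvieSh π.p.zs (pvegIY 𝔓 O₀ m π.p.ts) ⊆ (𝔓.reg m π).Yin := by
  rw [hreg]
  exact (pveg_iY_ball hL hT hO hr π.p.zs).trans subset_union_right

end par

theorem pveg_eqns_cite : True := by
  have := @pvegS.eq_1; have := @pvegL.eq_1; have := @pvegRc.eq_1; have := @pvegK.eq_1; have := @pvegY.eq_1
  have := @pvegR.eq_1; have := @pvegYp.eq_1; have := @pvegYm.eq_1; have := @pvegOM.eq_1; have := @pvegOK.eq_1; have := @pvegOY.eq_1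
  have := @pvegIM.eq_1; have := @pvegIK.eq_1; have := @pvegIY.eq_1
  trivial

/-! ## 7. THE FUNNEL UP TO THE PLANE OF THE DOOR      (cure of the SLIT found by 39;  RULING W-7 of 208)

The door region of record is an OPEN SQUARE OF HALF SIDE `< δ/4`: between the front edge `S = S(p) - δ/4` of the old funnel `pvegRc` and the door region there was a strip which lay in no atom.
NEW: the rectangle `pvegRa` runs up to the plane `S = S(p) - a` (`a` = a quarter of the unit of the door plug),   TILE `pvegKa := (pvegRa \ mouth) \ O` (`O` = the placed door region: disjoint BY CONSTRUCTION, no slit BY CONSTRUCTION, whatever `O`),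
ROOM `pvegYa := mouth ∪ pvegRa` (two convex pieces; it contains the near half `O ∩ {S ≤ S(p) - a}` of the door region and nothing beyond the plane).      The old `pvegRc pvegK pvegY` stay (funnel of the thick links). -/

/-- the rectangle of the funnel, up to the plane `S = S(p) - a` -/
def pvegRa (Y u p : ℂ) (e δ w a : ℝ) : Set ℂ := {v | e + 2 * δ ≤ pvegS Y u v ∧ pvegS Y u v ≤ pvegS Y u p - a ∧ |pvegL Y u v - pvegL Y u p| ≤ w}

/-- **the tile**: funnel minus mouth minus door region -/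
def pvegKa (Y u p : ℂ) (e δ w rM a : ℝ) (O : Set ℂ) : Set ℂ := (pvegRa Y u p e δ w a \ closedBall Y rM) \ O

/-- **the room**: mouth and funnel -/
def pvegYa (Y u p : ℂ) (e δ w rM a : ℝ) : Set ℂ := closedBall Y rM ∪ pvegRa Y u p e δ w a

theorem pveg_Ra_closed (Y u p : ℂ) (e δ w a : ℝ) : IsClosed (pvegRa Y u p e δ w a) := by
  have h1 : IsClosed {v : ℂ | e + 2 * δ ≤ pvegS Y u v} := isClosed_le continuous_const (pveg_S_cont Y u)
  have h2 : IsClosed {v : ℂ | pvegS Y u v ≤ pvegS Y u p - a} := isClosed_le (pveg_S_cont Y u) continuous_const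
  have h3 : IsClosed {v : ℂ | |pvegL Y u v - pvegL Y u p| ≤ w} := isClosed_le ((pveg_L_cont Y u).sub continuous_const).abs continuous_const
  exact h1.inter (h2.inter h3)

theorem pveg_Ka_meas (Y u p : ℂ) (e δ w rM a : ℝ) {O : Set ℂ} (hO : MeasurableSet O) : MeasurableSet (pvegKa Y u p e δ w rM a O) :=
  ((pveg_Ra_closed Y u p e δ w a).measurableSet.diff isClosed_closedBall.measurableSet).diff hO

theorem pveg_Ya_closed (Y u p : ℂ) (e δ w rM a : ℝ) : IsClosed (pvegYa Y u p e δ w rM a) := isClosed_closedBall.union (pveg_Ra_closed Y u p e δ w a)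

theorem pveg_Ya_meas (Y u p : ℂ) (e δ w rM a : ℝ) : MeasurableSet (pvegYa Y u p e δ w rM a) := (pveg_Ya_closed Y u p e δ w rM a).measurableSet

/-- the old funnel is a part of the new one -/
theorem pveg_Rc_sub_Ra (Y u p : ℂ) (e w : ℝ) {δ a : ℝ} (ha : a ≤ δ / 4) : pvegRc Y u p e δ w ⊆ pvegRa Y u p e δ w a :=
  fun _ hv => ⟨hv.1, by linarith [hv.2.1], hv.2.2⟩

theorem pveg_Ka_sub_Ra (Y u p : ℂ) (e δ w rM a : ℝ) (O : Set ℂ) : pvegKa Y u p e δ w rM a O ⊆ pvegRa Y u p e δ w a := fun _ hv => hv.1.1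

/-- (Y) `oY_sub`: NO SLIT -/
theorem pveg_Ya_sub (Y u p : ℂ) (e δ w rM a : ℝ) (O : Set ℂ) : pvegYa Y u p e δ w rM a ⊆ closedBall Y rM ∪ pvegKa Y u p e δ w rM a O ∪ O := by
  rintro v (hv | hv)
  · exact Or.inl (Or.inl hv)
  · by_cases h1 : v ∈ closedBall Y rM
    · exact Or.inl (Or.inl h1)
    · by_cases h2 : v ∈ O
      · exact Or.inr h2
      · exact Or.inl (Or.inr ⟨⟨hv, h1⟩, h2⟩)

/-- mouth and tile lie in the room -/
theorem pveg_MKa_sub_Ya (Y u p : ℂ) (e δ w rM a : ℝ) (O : Set ℂ) : closedBall Y rM ∪ pvegKa Y u p e δ w rM a O ⊆ pvegYa Y u p e δ w rM a :=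
  union_subset_union_right _ (pveg_Ka_sub_Ra Y u p e δ w rM a O)

section doorA

variable {Y u p : ℂ} {e δ w rM κ rI rk a : ℝ}

/-- (K) the funnel is off the own-level box with its collar -/
theorem pveg_Ra_off (H : PvegDoor Y u p e δ w rM κ rI rk) : Disjoint (pvegRa Y u p e δ w a) (pvwSq 0 (rk + δ)) := by
  rw [Set.disjoint_left]
  intro v hv hb
  have h1 := pveg_sq_zero H.u4 hb
  rw [pveg_S_zero Y u v] at h1
  have h2 := hv.1
  have := H.out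
  have := H.δ0
  linarith

theorem pveg_Ka_off (H : PvegDoor Y u p e δ w rM κ rI rk) (O : Set ℂ) : Disjoint (pvegKa Y u p e δ w rM a O) (pvwSq 0 (rk + δ)) :=
  (pveg_Ra_off H).mono_left (pveg_Ka_sub_Ra Y u p e δ w rM a O)

/-- the funnel lies in the inner mouth -/
theorem pveg_Ra_ball (H : PvegDoor Y u p e δ w rM κ rI rk) (ha : 0 ≤ a) : pvegRa Y u p e δ w a ⊆ closedBall Y rI := by
  intro v hv
  rw [mem_closedBall_iff_norm]
  obtain ⟨h1, h2, h3⟩ := hv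
  have hs := pveg_sq H.u4 Y v
  have hl := abs_le.1 H.lat
  have h3' := abs_le.1 h3
  have hδ := H.δ0
  have he := H.e0
  have hw := H.w0
  have hS0 : 0 ≤ pvegS Y u v := by linarith
  have hS1 : pvegS Y u v ≤ κ + 2 * δ := by linarith [H.s_hi]
  have hL : |pvegL Y u v| ≤ w + 2 * δ := abs_le.2 ⟨by linarith [h3'.1, hl.1], by linarith [h3'.2, hl.2]⟩
  have hSS : pvegS Y u v ^ 2 ≤ (κ + 2 * δ) ^ 2 := pow_le_pow_left₀ hS0 hS1 2
  have hLL : pvegL Y u v ^ 2 ≤ (w + 2 * δ) ^ 2 := by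
    rw [← sq_abs (pvegL Y u v)]
    exact pow_le_pow_left₀ (abs_nonneg _) hL 2
  have : ‖v - Y‖ ^ 2 ≤ rI ^ 2 := by linarith [H.n3]
  exact (pow_le_pow_iff_left₀ (norm_nonneg _) H.rI0 (by norm_num)).1 this

/-- (Y) **the room lies in the inner mouth of `Yin`** -/
theorem pveg_Ya_ball (H : PvegDoor Y u p e δ w rM κ rI rk) (ha : 0 ≤ a) : pvegYa Y u p e δ w rM a ⊆ closedBall Y rI :=
  union_subset (pveg_M_ball H) (pveg_Ra_ball H ha)

/-- (S) the three atoms of an end link -/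
theorem pveg_disj_a (H : PvegDoor Y u p e δ w rM κ rI rk) {O : Set ℂ} (hO : O ⊆ pvccSq p (δ / 4)) : [closedBall Y rM, pvegKa Y u p e δ w rM a O, O].Pairwise Disjoint := by
  simp only [List.pairwise_cons, List.mem_cons, List.not_mem_nil, or_false, forall_eq_or_imp, forall_eq, IsEmpty.forall_iff, implies_true, List.Pairwise.nil, and_true]
  refine ⟨⟨?_, (pveg_disj_MD H).mono_right hO⟩, disjoint_sdiff_self_left⟩
  exact (disjoint_sdiff_self_right (x := closedBall Y rM) (y := pvegRa Y u p e δ w a)).mono_right (fun _ hv => hv.1)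

/-- (S), W-7 `oY_back`, `box_back`: **THE WHOLE ROOM LIES BEHIND THE PLANE `S = S(p) - a`, inside the inner mouth** -/
theorem pveg_Ya_back (H : PvegDoor Y u p e δ w rM κ rI rk) (ha : 0 ≤ a) (ha' : a ≤ δ / 4) {v : ℂ} (hv : v ∈ pvegYa Y u p e δ w rM a) :
    v ∈ closedBall Y rI ∧ pvegS Y u v ≤ pvegS Y u p - a := by
  refine ⟨pveg_Ya_ball H ha hv, ?_⟩
  rcases hv with hv | hv
  · rw [mem_closedBall_iff_norm] at hv
    have := pveg_S_le_norm H.u4 Y v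
    linarith [H.s_lo, H.n1]
  · exact hv.2.1

/-- (S) anything in front of the plane misses the room -/
theorem pveg_Ya_front (H : PvegDoor Y u p e δ w rM κ rI rk) (ha : 0 ≤ a) (ha' : a ≤ δ / 4) {A : Set ℂ} (hA : ∀ v ∈ A, pvegS Y u p - a < pvegS Y u v) :
    Disjoint (pvegYa Y u p e δ w rM a) A := by
  rw [Set.disjoint_left]
  intro v hv hv'
  exact absurd (pveg_Ya_back H ha ha' hv).2 (not_le.2 (hA v hv'))

/-- (S) anything off the inner mouth misses the room -/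
theorem pveg_Ya_far (H : PvegDoor Y u p e δ w rM κ rI rk) (ha : 0 ≤ a) {A : Set ℂ} (hA : ∀ v ∈ A, rI < ‖v - Y‖) :
    Disjoint (pvegYa Y u p e δ w rM a) A := by
  rw [Set.disjoint_left]
  intro v hv hv'
  have := pveg_Ya_ball H ha hv
  rw [mem_closedBall_iff_norm] at this
  exact absurd this (not_le.2 (hA v hv'))

/-- W-7 `box_back`: the own-level box with its collar lies behind the plane -/
theorem pveg_box_back (H : PvegDoor Y u p e δ w rM κ rI rk) (ha' : a ≤ δ / 4) {v : ℂ} (hv : v ∈ pvwSq 0 (rk + δ)) : pvegS Y u v ≤ pvegS Y u p - a := by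
  have h1 := pveg_sq_zero H.u4 hv
  rw [pveg_S_zero Y u v] at h1
  linarith [H.out, H.s_lo, H.n2, H.δ0]

/-- **the room contains the near half of the door region** -/
theorem pveg_door_sub_Ya (H : PvegDoor Y u p e δ w rM κ rI rk) (hκ : e + 17 * δ / 4 ≤ κ) (hw : δ / 4 ≤ w) {O : Set ℂ} (hO : O ⊆ pvccSq p (δ / 4)) :
    O ∩ {v | pvegS Y u v ≤ pvegS Y u p - a} ⊆ pvegYa Y u p e δ w rM a := by
  rintro v ⟨h1, h2⟩
  have h3 := abs_lt.1 (pveg_sq_S H.u4 Y (hO h1))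
  have h4 := pveg_sq_L H.u4 Y (hO h1)
  exact Or.inr ⟨by linarith [H.s_lo, h3.1], h2, by linarith⟩

end doorA

/-- the coordinate of W-7 in the frame of the door -/
theorem pveg_S_door (Y u p v : ℂ) : ((v - p) * (starRingEnd ℂ) u).re = pvegS Y u v - pvegS Y u p := (pveg_S_sub Y u v p).symm

/-! ## 8. the new tiles and rooms at the parameters -/

/-- **the plane of W-7**: a quarter of the unit `δ / 40` of the door plug -/
noncomputable def pvegA (c : ℝ) (m : ℕ) : ℝ := pvlmDel c m / 160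

theorem pveg_A_pos (c : ℝ) (m : ℕ) : 0 < pvegA c m := by have := pvlm_Del_pos c m; unfold pvegA; linarith

theorem pveg_A_le (c : ℝ) (m : ℕ) : pvegA c m ≤ pvlmDel c m / 4 := by have := pvlm_Del_pos c m; unfold pvegA; linarith

section parA

variable {τ : Type} {c : ℝ} (𝔓 : PvxPar τ c)

/-- **`oK`** of record; `O₀ m` = the reference region of the door plug of level `m` -/
noncomputable def pvegOKa (O₀ : ℕ → Set ℂ) (m : ℕ) (t : τ) : Set ℂ :=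
  pvegKa (pvegYp 𝔓 m t) ((𝔓.Γ m).dout t) ((𝔓.Γ m).pout t) (pvegR 𝔓 m / 10) (pvlmDel c m) (pvegR 𝔓 m / 5) (5 * pvegR 𝔓 m / 16) (pvegA c m) (pvthSim ((𝔓.Γ m).pout t) ((𝔓.Γ m).dout t) '' O₀ m)
/-- **`oY`** of record -/
noncomputable def pvegOYa (m : ℕ) (t : τ) : Set ℂ :=
  pvegYa (pvegYp 𝔓 m t) ((𝔓.Γ m).dout t) ((𝔓.Γ m).pout t) (pvegR 𝔓 m / 10) (pvlmDel c m) (pvegR 𝔓 m / 5) (5 * pvegR 𝔓 m / 16) (pvegA c m)
/-- **`iK`** of record -/
noncomputable def pvegIKa (O₀ : ℕ → Set ℂ) (m : ℕ) (t : τ) : Set ℂ :=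
  pvegKa (pvegYm 𝔓 m t) (-(𝔓.Γ m).din t) ((𝔓.Γ m).pin t) (pvegR 𝔓 m / 10) (pvlmDel c m) (pvegR 𝔓 m / 5) (5 * pvegR 𝔓 m / 16) (pvegA c m) (pvthSim ((𝔓.Γ m).pin t) ((𝔓.Γ m).din t) '' O₀ m)
/-- **`iY`** of record -/
noncomputable def pvegIYa (m : ℕ) (t : τ) : Set ℂ :=
  pvegYa (pvegYm 𝔓 m t) (-(𝔓.Γ m).din t) ((𝔓.Γ m).pin t) (pvegR 𝔓 m / 10) (pvlmDel c m) (pvegR 𝔓 m / 5) (5 * pvegR 𝔓 m / 16) (pvegA c m)

variable {𝔓}

theorem pveg_m_oKa {O₀ : ℕ → Set ℂ} (hO : ∀ m, MeasurableSet (O₀ m)) (m : ℕ) (t : τ) : MeasurableSet (pvegOKa 𝔓 O₀ m t) := by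
  refine pveg_Ka_meas _ _ _ _ _ _ _ _ (pveg_sim_meas (hO m) _ ?_)
  intro h
  have := (𝔓.Γ m).dout1 t
  rw [h, norm_zero] at this
  exact zero_ne_one this

theorem pveg_m_iKa {O₀ : ℕ → Set ℂ} (hO : ∀ m, MeasurableSet (O₀ m)) (m : ℕ) (t : τ) (hd : (𝔓.Γ m).din t ≠ 0) : MeasurableSet (pvegIKa 𝔓 O₀ m t) :=
  pveg_Ka_meas _ _ _ _ _ _ _ _ (pveg_sim_meas (hO m) _ hd)

theorem pveg_m_oYa (m : ℕ) (t : τ) : MeasurableSet (pvegOYa 𝔓 m t) := pveg_Ya_meas _ _ _ _ _ _ _ _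
theorem pveg_m_iYa (m : ℕ) (t : τ) : MeasurableSet (pvegIYa 𝔓 m t) := pveg_Ya_meas _ _ _ _ _ _ _ _

/-- mouth and tile lie in the room -/
theorem pveg_oMK_sub (O₀ : ℕ → Set ℂ) (m : ℕ) (t : τ) : pvegOM 𝔓 m t ∪ pvegOKa 𝔓 O₀ m t ⊆ pvegOYa 𝔓 m t := pveg_MKa_sub_Ya _ _ _ _ _ _ _ _ _
theorem pveg_iMK_sub (O₀ : ℕ → Set ℂ) (m : ℕ) (t : τ) : pvegIM 𝔓 m t ∪ pvegIKa 𝔓 O₀ m t ⊆ pvegIYa 𝔓 m t := pveg_MKa_sub_Ya _ _ _ _ _ _ _ _ _

/-- the old funnels lie in the new rooms -/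
theorem pveg_oK_sub_Ya (m : ℕ) (t : τ) : pvegOK 𝔓 m t ⊆ pvegOYa 𝔓 m t := fun _ hv => Or.inr (pveg_Rc_sub_Ra _ _ _ _ _ (pveg_A_le c m) hv.1)
theorem pveg_iK_sub_Ya (m : ℕ) (t : τ) : pvegIK 𝔓 m t ⊆ pvegIYa 𝔓 m t := fun _ hv => Or.inr (pveg_Rc_sub_Ra _ _ _ _ _ (pveg_A_le c m) hv.1)

/-- (K) `res_off` for `oK` -/
theorem pveg_oKa_off {m : ℕ} {t : τ} (hL : PvegLev 𝔓 m) (hT : pviwTyOk 𝔓 t) (O₀ : ℕ → Set ℂ) : Disjoint (pvegOKa 𝔓 O₀ m t) (pviwBox 𝔓 m t) := pveg_Ka_off (pveg_door_o hL hT) _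

/-- (K) `iK_off` -/
theorem pveg_iKa_off {m : ℕ} {t : τ} (hL : PvegLev 𝔓 m) (hT : pviwTyOk 𝔓 t) (O₀ : ℕ → Set ℂ) : Disjoint (pvegIKa 𝔓 O₀ m t) (pviwBox 𝔓 m t) := pveg_Ka_off (pveg_door_i hL hT) _

/-- (S) `o_disj` -/
theorem pveg_o_disj_a {m : ℕ} {t : τ} (hL : PvegLev 𝔓 m) (hT : pviwTyOk 𝔓 t) {O₀ : ℕ → Set ℂ} {r : ℝ} (hO : O₀ m ⊆ pvccSq 0 r) (hr : r ≤ pvlmDel c m / 4) :
    [pvegOM 𝔓 m t, pvegOKa 𝔓 O₀ m t, pvthSim ((𝔓.Γ m).pout t) ((𝔓.Γ m).dout t) '' O₀ m].Pairwise Disjoint :=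
  pveg_disj_a (pveg_door_o hL hT) (pveg_sim_sq hO hr _ (pveg_dout4 hL t))

/-- (S) `i_disj` -/
theorem pveg_i_disj_a {m : ℕ} {t : τ} (hL : PvegLev 𝔓 m) (hT : pviwTyOk 𝔓 t) {O₀ : ℕ → Set ℂ} {r : ℝ} (hO : O₀ m ⊆ pvccSq 0 r) (hr : r ≤ pvlmDel c m / 4) :
    [pvegIM 𝔓 m t, pvegIKa 𝔓 O₀ m t, pvthSim ((𝔓.Γ m).pin t) ((𝔓.Γ m).din t) '' O₀ m].Pairwise Disjoint :=
  pveg_disj_a (pveg_door_i hL hT) (pveg_sim_sq hO hr _ (pveg_din4 hL t))

/-- (Y) `oY_sub`: NO SLIT -/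
theorem pveg_oYa_sub (O₀ : ℕ → Set ℂ) (m : ℕ) (t : τ) : pvegOYa 𝔓 m t ⊆ pvegOM 𝔓 m t ∪ pvegOKa 𝔓 O₀ m t ∪ pvthSim ((𝔓.Γ m).pout t) ((𝔓.Γ m).dout t) '' O₀ m := pveg_Ya_sub _ _ _ _ _ _ _ _ _

/-- (Y) `iY_sub`: NO SLIT -/
theorem pveg_iYa_sub (O₀ : ℕ → Set ℂ) (m : ℕ) (t : τ) : pvegIYa 𝔓 m t ⊆ pvegIM 𝔓 m t ∪ pvegIKa 𝔓 O₀ m t ∪ pvthSim ((𝔓.Γ m).pin t) ((𝔓.Γ m).din t) '' O₀ m := pveg_Ya_sub _ _ _ _ _ _ _ _ _

/-- (Y) the room of the first link, placed, lies in the inner mouth of the exit tip -/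
theorem pveg_oYa_ball {m : ℕ} {t : τ} (hL : PvegLev 𝔓 m) (hT : pviwTyOk 𝔓 t) (z : ℂ) : pvieSh z (pvegOYa 𝔓 m t) ⊆ closedBall ((𝔓.ty t).cp (pvlmH m) z) (𝔓.num.rho * pvlmH m / 2) := by
  have h := pveg_Ya_ball (pveg_door_o hL hT) (pveg_A_pos c m).le
  have h2 : pvieSh z (pvegOYa 𝔓 m t) ⊆ pvieSh z (closedBall (pvegYp 𝔓 m t) (pvegR 𝔓 m / 2)) := Set.image_mono h
  rw [pveg_sh_ball] at h2
  exact h2

/-- (Y) the room of the last link, placed, lies in the inner mouth of the entrance tip -/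
theorem pveg_iYa_ball {m : ℕ} {t : τ} (hL : PvegLev 𝔓 m) (hT : pviwTyOk 𝔓 t) (z : ℂ) : pvieSh z (pvegIYa 𝔓 m t) ⊆ closedBall ((𝔓.ty t).cm (pvlmH m) z) (𝔓.num.rho * pvlmH m / 2) := by
  have h := pveg_Ya_ball (pveg_door_i hL hT) (pveg_A_pos c m).le
  have h2 : pvieSh z (pvegIYa 𝔓 m t) ⊆ pvieSh z (closedBall (pvegYm 𝔓 m t) (pvegR 𝔓 m / 2)) := Set.image_mono h
  rw [pveg_sh_ball] at h2
  exact h2

/-- (Y) **`oY_reg`** at the regions of record -/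
theorem pveg_oYa_reg {m : ℕ} (hL : PvegLev 𝔓 m) {π : PvxIx τ} (hT : pviwTyOk 𝔓 π.p.tt) (hreg : 𝔓.reg m π = pvfeRegAt (𝔓.Γ m) 𝔓.ty 𝔓.cp 𝔓.cm 𝔓.num (pvlmH m) π.p) :
    pvieSh π.p.zt (pvegOYa 𝔓 m π.p.tt) ⊆ (𝔓.reg m π).Yin := by
  rw [hreg]
  exact (pveg_oYa_ball hL hT π.p.zt).trans (subset_union_right.trans subset_union_left)

/-- (Y) **`iY_reg`** at the regions of record -/
theorem pveg_iYa_reg {m : ℕ} (hL : PvegLev 𝔓 m) {π : PvxIx τ} (hT : pviwTyOk 𝔓 π.p.ts) (hreg : 𝔓.reg m π = pvfeRegAt (𝔓.Γ m) 𝔓.ty 𝔓.cp 𝔓.cm 𝔓.num (pvlmH m) π.p) :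
    pvieSh π.p.zs (pvegIYa 𝔓 m π.p.ts) ⊆ (𝔓.reg m π).Yin := by
  rw [hreg]
  exact (pveg_iYa_ball hL hT π.p.zs).trans subset_union_right

/-- **W-7 `oY_back`** (ALL points of the room; mouth and tile are in the room: `pveg_oMK_sub`) -/
theorem pveg_oYa_back {m : ℕ} {t : τ} (hL : PvegLev 𝔓 m) (hT : pviwTyOk 𝔓 t) {v : ℂ} (hv : v ∈ pvegOYa 𝔓 m t) :
    ((v - (𝔓.Γ m).pout t) * (starRingEnd ℂ) ((𝔓.Γ m).dout t)).re ≤ -pvegA c m := by
  rw [pveg_S_door (pvegYp 𝔓 m t)]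
  linarith [(pveg_Ya_back (pveg_door_o hL hT) (pveg_A_pos c m).le (pveg_A_le c m) hv).2]

/-- **W-7 `iY_front`** (ALL points of the room) -/
theorem pveg_iYa_front {m : ℕ} {t : τ} (hL : PvegLev 𝔓 m) (hT : pviwTyOk 𝔓 t) {v : ℂ} (hv : v ∈ pvegIYa 𝔓 m t) :
    pvegA c m ≤ ((v - (𝔓.Γ m).pin t) * (starRingEnd ℂ) ((𝔓.Γ m).din t)).re := by
  have h := (pveg_Ya_back (pveg_door_i hL hT) (pveg_A_pos c m).le (pveg_A_le c m) hv).2
  have e := pveg_S_door (pvegYm 𝔓 m t) (-(𝔓.Γ m).din t) ((𝔓.Γ m).pin t) v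
  rw [map_neg, mul_neg, neg_re] at e
  linarith

/-- **W-7 `box_back`** at the exit door -/
theorem pveg_box_back_o {m : ℕ} {t : τ} (hL : PvegLev 𝔓 m) (hT : pviwTyOk 𝔓 t) {v : ℂ} (hv : v ∈ pviwBox 𝔓 m t) :
    ((v - (𝔓.Γ m).pout t) * (starRingEnd ℂ) ((𝔓.Γ m).dout t)).re ≤ -pvegA c m := by
  rw [pveg_S_door (pvegYp 𝔓 m t)]
  linarith [pveg_box_back (pveg_door_o hL hT) (pveg_A_le c m) hv]

/-- **W-7 `box_back`** at the entrance door -/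
theorem pveg_box_back_i {m : ℕ} {t : τ} (hL : PvegLev 𝔓 m) (hT : pviwTyOk 𝔓 t) {v : ℂ} (hv : v ∈ pviwBox 𝔓 m t) :
    pvegA c m ≤ ((v - (𝔓.Γ m).pin t) * (starRingEnd ℂ) ((𝔓.Γ m).din t)).re := by
  have h := pveg_box_back (pveg_door_i hL hT) (pveg_A_le c m) hv
  have e := pveg_S_door (pvegYm 𝔓 m t) (-(𝔓.Γ m).din t) ((𝔓.Γ m).pin t) v
  rw [map_neg, mul_neg, neg_re] at e
  linarith

/-- **the room of the first link contains the near half of the door region** -/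
theorem pveg_oYa_door {m : ℕ} {t : τ} (hL : PvegLev 𝔓 m) (hT : pviwTyOk 𝔓 t) {O : Set ℂ} {r : ℝ} (hO : O ⊆ pvccSq 0 r) (hr : r ≤ pvlmDel c m / 4) {v : ℂ}
    (hv : v ∈ pvthSim ((𝔓.Γ m).pout t) ((𝔓.Γ m).dout t) '' O) (hb : ((v - (𝔓.Γ m).pout t) * (starRingEnd ℂ) ((𝔓.Γ m).dout t)).re ≤ -pvegA c m) : v ∈ pvegOYa 𝔓 m t := by
  have hR := pveg_R_pos hL
  have hf := hL.fine
  have hδ := pvlm_Del_pos c m
  rw [pveg_S_door (pvegYp 𝔓 m t)] at hb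
  have hb' : pvegS (pvegYp 𝔓 m t) ((𝔓.Γ m).dout t) v ≤ pvegS (pvegYp 𝔓 m t) ((𝔓.Γ m).dout t) ((𝔓.Γ m).pout t) - pvegA c m := by linarith
  refine pveg_door_sub_Ya (pveg_door_o hL hT) ?_ ?_ (pveg_sim_sq hO hr _ (pveg_dout4 hL t)) ⟨hv, hb'⟩
  · unfold pvegR at hR ⊢; linarith
  · unfold pvegR at hR ⊢; linarith

/-- **the room of the last link contains the near half of the door region** -/
theorem pveg_iYa_door {m : ℕ} {t : τ} (hL : PvegLev 𝔓 m) (hT : pviwTyOk 𝔓 t) {O : Set ℂ} {r : ℝ} (hO : O ⊆ pvccSq 0 r) (hr : r ≤ pvlmDel c m / 4) {v : ℂ}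
    (hv : v ∈ pvthSim ((𝔓.Γ m).pin t) ((𝔓.Γ m).din t) '' O) (hb : pvegA c m ≤ ((v - (𝔓.Γ m).pin t) * (starRingEnd ℂ) ((𝔓.Γ m).din t)).re) : v ∈ pvegIYa 𝔓 m t := by
  have hR := pveg_R_pos hL
  have hf := hL.fine
  have hδ := pvlm_Del_pos c m
  have e := pveg_S_door (pvegYm 𝔓 m t) (-(𝔓.Γ m).din t) ((𝔓.Γ m).pin t) v
  rw [map_neg, mul_neg, neg_re] at e
  have hb' : pvegS (pvegYm 𝔓 m t) (-(𝔓.Γ m).din t) v ≤ pvegS (pvegYm 𝔓 m t) (-(𝔓.Γ m).din t) ((𝔓.Γ m).pin t) - pvegA c m := by linarith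
  refine pveg_door_sub_Ya (pveg_door_i hL hT) ?_ ?_ (pveg_sim_sq hO hr _ (pveg_din4 hL t)) ⟨hv, hb'⟩
  · unfold pvegR at hR ⊢; linarith
  · unfold pvegR at hR ⊢; linarith

end parA

theorem pveg_eqns_cite2 : True := by
  have := @pvegRa.eq_1; have := @pvegKa.eq_1; have := @pvegYa.eq_1; have := @pvegA.eq_1; have := @pvegOKa.eq_1; have := @pvegOYa.eq_1; have := @pvegIKa.eq_1; have := @pvegIYa.eq_1
  trivial

end Claimed.Agent.R289
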