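import Claimed.Agent.R289.Exit.TrPar
import Claimed.Agent.R289.Defs.InstWf
import Claimed.Agent.R289.Tr.CellChainM

/-!
# Row 289 (S0537), THE WALL, ROAD E, roof (S0) PAR, file Exit/ParEngR : THE REGIONS `rO rK rY | eK eY` OF `PvieEng`, EXPLICIT      (helper166, second pen of 124; prefix `pveh`, `Pveh`)

CONSUMER: `PvieEng.Wf` of 168 (`Defs/InstWf.lean`), assembled by 73 / 124 (`Exit/ParEng.lean`: `o* i*`, `eM := iM`).      GEOMETRY OF RECORD = helper1 (`Exit/TrPar.lean`): reference plug = block of `g × g` cells, `g = 2 n + 1`, `n = pvxrNw`, centre `zu t` = centre of the cell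
`e⁻ + pvxrUo b g`, entered eastwards through the middle `pin0 = - Δ/2` of its west side, `Δ = g δ`;   thick short link = the `g`-blocks of the word `pvxrLe b` started at the east door `zu + Δ/2`, last block centred at `e⁻`.      0 sorry.
ALL NUMBERS AND FOREIGN SETS ARE ARGUMENTS (`Δ`, `Dr` = last door plug of the thin chain, `Mo` = recoloured mouth, `Mi ⊆ Mo` = inner mouth).

* sec. 1  closed squares `pvehSq`, `pveh_sq_disjoint(_open)`, `pveh_pl_sq`;   `pvehCells q n`, **`pveh_block_eq`** : closed block `= pvtU δ (pvehCells q n)`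
* sec. 2  centre `0`:   `pvehO Δ` `= rO` = open square of half side `Δ/4`;   `pvehRK Dr Δ` `= rK` = WEST half (`re < 0`) of the closed block minus `rO` minus `Dr`;   `pvehRY δ Δ` `= rY` = lane `[-Δ/10, 4Δ/10]` of the west half, from `δ/64` in front of the door plane to `Δ/64` behind the plane of the plug (W-7 of 208);   Borel, disjoint, `pveh_RY_sub`
* sec. 3  `pvehB Δ cu lb j` (closed block `j`), `pvehEast`, `pvehBody`;   `pvehEK Δ cu lb Mo` `= eK` = (EAST half of the block of the plug ∪ blocks) minus `cu + rO` minus `Mo`;   `pvehEY Δ cu lb Mi` `= eY` = lanes of offsets `[-Δ/10, 4Δ/10]` (`pvfeLanes` of 209 at the scale `Δ`) `∪ Mi`;   `pveh_EY_sub`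
* sec. 4  integer model `pvehV lb j`, `pveh_C_eq`;   for `lb = pvxrLe b`: `pveh_W_le` (only the first block touches the block of the plug), `pveh_simple_le`, **`pveh_last`** (last block = block of `e⁻`), `pveh_dir_le` (`= - I ^ b`);   **`pveh_RK_EK`**, **`pveh_door_EK`**
* sec. 5  `pvehE Qu n lb` (cells of all the blocks), `pveh_body_cells`;   **`pveh_thin_disj`** : tiles and door plugs `j < |l|` of a thin chain whose cells but the last one are off `E` miss `pvtU δ E`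
* sec. 6  `pvehR b` (rectangle of the side `b`, in blocks), **`pveh_body_rect`**, `pvehFront`, **`pveh_body_front`**, `pveh_front_off`, `pveh_body_near` (`≤ 13 Δ` from the centre of `e⁻`)
* sec. 7  AT THE MODEL: `pvehDl pvehrO pvehDr pvehrK pvehrY pveheK pveheY`, `PvehGeo 𝔓 m t` (what helper1 owes: `n0 zu front`);   fields of `PvieEng.Wf`: `pveh_m_*` (meas), **`pveh_rY_sub`**, **`pveh_eY_sub`**, W-7: **`pveh_rY_front pveh_rY_back pveh_eY_front`**, **`pveh_end_disj`** (7 pairs of `cyc_disj`), **`pveh_res_off`**, **`pveh_e_bdd`**, **`pveh_end_cells`**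
MISFIT SENT (10:58Z): `rp_h : (rp m).h = pvlmH m` + `rp_box` of `PvieEng.Wf` contradict the block of record (`Δ ~ ρ h / 16`): the reference plug must be a SMALL plug, `(rp m).h ~ Δ / (4 (2 b₂ + K ρ₁ + 2))`.
-/

set_option autoImplicit false

namespace Claimed.Agent.R289

open Complex Set Metric

/-! ## 1. closed squares, blocks of cells -/

/-- the closed square of centre `c` and half side `r` -/
def pvehSq (c : ℂ) (r : ℝ) : Set ℂ := {w | pvccN (w - c) ≤ r}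

theorem pveh_mem_sq {c w : ℂ} {r : ℝ} : w ∈ pvehSq c r ↔ (c.re - r ≤ w.re ∧ w.re ≤ c.re + r) ∧ (c.im - r ≤ w.im ∧ w.im ≤ c.im + r) := by
  simp only [pvehSq, Set.mem_ofPred_eq, pvccN, max_le_iff, abs_le, sub_re, sub_im]
  constructor
  · rintro ⟨⟨h1, h2⟩, h3, h4⟩
    exact ⟨⟨by linarith, by linarith⟩, by linarith, by linarith⟩
  · rintro ⟨⟨h1, h2⟩, h3, h4⟩
    exact ⟨⟨by linarith, by linarith⟩, by linarith, by linarith⟩

theorem pveh_N_cont (c : ℂ) : Continuous fun w : ℂ => pvccN (w - c) := by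
  unfold pvccN
  fun_prop

theorem pveh_sq_closed (c : ℂ) (r : ℝ) : IsClosed (pvehSq c r) := isClosed_le (pveh_N_cont c) continuous_const

theorem pveh_sq_meas (c : ℂ) (r : ℝ) : MeasurableSet (pvehSq c r) := (pveh_sq_closed c r).measurableSet

theorem pveh_open_sub (c : ℂ) (r : ℝ) : pvccSq c r ⊆ pvehSq c r := fun w h => show pvccN (w - c) ≤ r from le_of_lt h

theorem pveh_sq_mono (c : ℂ) {r r' : ℝ} (h : r ≤ r') : pvehSq c r ⊆ pvehSq c r' := fun _ hw => le_trans hw h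

/-- closed squares whose centres are far apart -/
theorem pveh_sq_disjoint {c c' : ℂ} {r r' : ℝ} (h : r + r' < pvccN (c - c')) : Disjoint (pvehSq c r) (pvehSq c' r') := by
  rw [Set.disjoint_left]
  intro w hw hw'
  have h1 : pvccN (c - c') ≤ pvccN (w - c') + pvccN (w - c) := by
    have := pvccN_add_le (w - c') (-(w - c))
    rw [pvccN_neg] at this
    rwa [show w - c' + -(w - c) = c - c' by ring] at this
  have h2 : pvccN (w - c) ≤ r := hw
  have h3 : pvccN (w - c') ≤ r' := hw'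
  linarith

/-- a closed and an open square -/
theorem pveh_sq_disjoint_open {c c' : ℂ} {r r' : ℝ} (h : r + r' ≤ pvccN (c - c')) : Disjoint (pvehSq c r) (pvccSq c' r') := by
  rw [Set.disjoint_left]
  intro w hw hw'
  have h1 : pvccN (c - c') ≤ pvccN (w - c') + pvccN (w - c) := by
    have := pvccN_add_le (w - c') (-(w - c))
    rw [pvccN_neg] at this
    rwa [show w - c' + -(w - c) = c - c' by ring] at this
  have h2 : pvccN (w - c) ≤ r := hw
  have h3 : pvccN (w - c') < r' := hw'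
  linarith

/-- similarities `w ↦ z + δ u w`, `u⁴ = 1`, map closed squares to closed squares -/
theorem pveh_pl_sq {δ : ℝ} (hδ : 0 < δ) (z : ℂ) {u : ℂ} (hu : u ^ 4 = 1) (c : ℂ) (r : ℝ) :
    pvccPl z ((δ : ℂ) * u) (pvehSq c r) = pvehSq (z + (δ : ℂ) * u * c) (δ * r) := by
  have hu0 : u ≠ 0 := by
    rintro rfl
    norm_num at hu
  have hδ' : (δ : ℂ) ≠ 0 := by exact_mod_cast hδ.ne'
  have key : ∀ w : ℂ, pvccN (z + (δ : ℂ) * u * w - (z + (δ : ℂ) * u * c)) = δ * pvccN (w - c) := by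
    intro w
    rw [show z + (δ : ℂ) * u * w - (z + (δ : ℂ) * u * c) = (δ : ℂ) * (u * (w - c)) by ring, pvccN_real_mul hδ.le, pvccN_unit_mul hu]
  ext x
  simp only [pvccPl, mem_image, pvehSq, Set.mem_ofPred_eq]
  constructor
  · rintro ⟨w, hw, rfl⟩
    rw [key]
    exact mul_le_mul_of_nonneg_left hw hδ.le
  · intro hx
    refine ⟨(x - z) / ((δ : ℂ) * u), ?_, by field_simp; ring⟩
    have e : x = z + (δ : ℂ) * u * ((x - z) / ((δ : ℂ) * u)) := by field_simp; ring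
    rw [e, key] at hx
    exact le_of_mul_le_mul_left hx hδ

/-- the cells of the block of half size `n` round the cell `q` -/
def pvehCells (q : ℤ × ℤ) (n : ℤ) : Set (ℤ × ℤ) := {p | |p.1 - q.1| ≤ n ∧ |p.2 - q.2| ≤ n}

theorem pveh_cover1 {δ : ℝ} (hδ : 0 < δ) {a k : ℤ} (hk : a ≤ k) {x : ℝ} (h1 : (a : ℝ) * δ ≤ x) (h2 : x ≤ ((k : ℝ) + 1) * δ) :
    ∃ p : ℤ, a ≤ p ∧ p ≤ k ∧ (p : ℝ) * δ ≤ x ∧ x ≤ ((p : ℝ) + 1) * δ := by
  have hf1 : (⌊x / δ⌋ : ℝ) ≤ x / δ := Int.floor_le _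
  have hf2 : x / δ < (⌊x / δ⌋ : ℝ) + 1 := Int.lt_floor_add_one _
  rw [le_div_iff₀ hδ] at hf1
  rw [div_lt_iff₀ hδ] at hf2
  have ha : a ≤ ⌊x / δ⌋ := by
    rw [Int.le_floor, le_div_iff₀ hδ]; exact h1
  by_cases hc : ⌊x / δ⌋ ≤ k
  · exact ⟨⌊x / δ⌋, ha, hc, hf1, hf2.le⟩
  · refine ⟨k, hk, le_rfl, ?_, h2⟩
    have : (k : ℝ) ≤ (⌊x / δ⌋ : ℝ) := by exact_mod_cast (not_le.1 hc).le
    nlinarith

/-- **a closed block is the union of its closed cells** -/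
theorem pveh_block_eq {δ : ℝ} (hδ : 0 < δ) (q : ℤ × ℤ) {n : ℤ} (hn : 0 ≤ n) : pvehSq (pvtCtr δ q) ((2 * (n : ℝ) + 1) * δ / 2) = pvtU δ (pvehCells q n) := by
  ext w
  rw [pveh_mem_sq]
  simp only [pvtCtr, pvtU, mem_iUnion, exists_prop, pvehCells, Set.mem_ofPred_eq, pvtSq]
  constructor
  · rintro ⟨⟨h1, h2⟩, h3, h4⟩
    obtain ⟨p1, a1, a2, a3, a4⟩ := pveh_cover1 hδ (a := q.1 - n) (k := q.1 + n) (by omega) (x := w.re) (by push_cast; linarith) (by push_cast; linarith)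
    obtain ⟨p2, b1, b2, b3, b4⟩ := pveh_cover1 hδ (a := q.2 - n) (k := q.2 + n) (by omega) (x := w.im) (by push_cast; linarith) (by push_cast; linarith)
    exact ⟨(p1, p2), ⟨abs_le.2 ⟨by simp only; omega, by simp only; omega⟩, abs_le.2 ⟨by simp only; omega, by simp only; omega⟩⟩, a3, a4, b3, b4⟩
  · rintro ⟨p, ⟨h1, h2⟩, a3, a4, b3, b4⟩
    rw [abs_le] at h1 h2
    have c1 : ((q.1 - n : ℤ) : ℝ) ≤ p.1 := by exact_mod_cast (by omega : q.1 - n ≤ p.1)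
    have c2 : (p.1 : ℝ) ≤ ((q.1 + n : ℤ) : ℝ) := by exact_mod_cast (by omega : p.1 ≤ q.1 + n)
    have c3 : ((q.2 - n : ℤ) : ℝ) ≤ p.2 := by exact_mod_cast (by omega : q.2 - n ≤ p.2)
    have c4 : (p.2 : ℝ) ≤ ((q.2 + n : ℤ) : ℝ) := by exact_mod_cast (by omega : p.2 ≤ q.2 + n)
    push_cast at c1 c2 c3 c4
    refine ⟨⟨?_, ?_⟩, ?_, ?_⟩ <;> nlinarith

/-! ## 2. the reference plug (centre `0`): `Δ` = side of its block, `δ` = side of the cells of the thin chain, `Dr` = region of the last door plug of the thin chain -/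

/-- `rO`: the region of the reference plug = the open square of half side `Δ/4` -/
def pvehO (Δ : ℝ) : Set ℂ := pvccSq 0 (Δ / 4)

/-- the square of the last door plug of the thin chain: the door is the midpoint `- Δ/2` of the west side of the block -/
def pvehDoor (δ Δ : ℝ) : Set ℂ := pvccSq (-((Δ / 2 : ℝ) : ℂ)) (δ / 4)

/-- `rK`: the tile of the last link of the thin chain = the WEST half of the closed block, minus the plug, minus the door plug -/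
def pvehRK (Dr : Set ℂ) (Δ : ℝ) : Set ℂ := {w | w ∈ pvehSq 0 (Δ / 2) ∧ w.re < 0 ∧ w ∉ pvehO Δ ∧ w ∉ Dr}

/-- `rY`: the room of the strand of the last link = the lane of offsets `[-Δ/10, 4Δ/10]` of the west half of the block, FROM `δ/64` IN FRONT OF THE DOOR PLANE `re = -Δ/2` TO `Δ/64` BEHIND THE PLANE `re = 0` OF THE REFERENCE PLUG
(RULING W-7 of 208: the room of an end link inside a door region is the NEAR HALF of the region);   a closed rectangle -/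
def pvehRY (δ Δ : ℝ) : Set ℂ := {w | -(Δ / 2) + δ / 64 ≤ w.re ∧ w.re ≤ -(Δ / 64) ∧ -(Δ / 10) ≤ w.im ∧ w.im ≤ 4 * Δ / 10}

theorem pveh_O_meas (Δ : ℝ) : MeasurableSet (pvehO Δ) := pvccm_sq_meas _ _

theorem pveh_half_meas (a : ℝ) : MeasurableSet {w : ℂ | w.re < a} := (isOpen_lt continuous_re continuous_const).measurableSet

theorem pveh_RK_meas {Dr : Set ℂ} (hD : MeasurableSet Dr) (Δ : ℝ) : MeasurableSet (pvehRK Dr Δ) :=
  (pveh_sq_meas 0 (Δ / 2)).inter ((pveh_half_meas 0).inter ((pveh_O_meas Δ).compl.inter hD.compl))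

theorem pveh_RY_meas (δ Δ : ℝ) : MeasurableSet (pvehRY δ Δ) :=
  (isClosed_le continuous_const continuous_re).measurableSet.inter ((isClosed_le continuous_re continuous_const).measurableSet.inter
    ((isClosed_le continuous_const continuous_im).measurableSet.inter (isClosed_le continuous_im continuous_const).measurableSet))

theorem pveh_RK_O (Dr : Set ℂ) (Δ : ℝ) : Disjoint (pvehRK Dr Δ) (pvehO Δ) := Set.disjoint_left.2 fun _ h h' => h.2.2.1 h'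

theorem pveh_RK_door (Dr : Set ℂ) (Δ : ℝ) : Disjoint (pvehRK Dr Δ) Dr := Set.disjoint_left.2 fun _ h h' => h.2.2.2 h'

/-- the plug and the door square are apart -/
theorem pveh_O_door {δ Δ : ℝ} (h : δ ≤ Δ) : Disjoint (pvehO Δ) (pvehDoor δ Δ) := by
  rw [Set.disjoint_left]
  intro w hw hw'
  rw [pvehO, pvccm_mem_sq] at hw
  rw [pvehDoor, pvccm_mem_sq] at hw'
  simp only [zero_re, neg_re, ofReal_re] at hw hw'
  linarith [hw.1.1, hw'.1.2]

/-- the room of the last link lies in its window -/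
theorem pveh_RY_sub (Dr : Set ℂ) {δ Δ : ℝ} (hδ : 0 < δ) : pvehRY δ Δ ⊆ pvehRK Dr Δ ∪ pvehO Δ ∪ Dr := by
  rintro w ⟨h1, h2, h3, h4⟩
  have hΔ : 0 < Δ := by linarith
  by_cases hO : w ∈ pvehO Δ
  · exact Or.inl (Or.inr hO)
  by_cases hD : w ∈ Dr
  · exact Or.inr hD
  refine Or.inl (Or.inl ⟨?_, by linarith, hO, hD⟩)
  rw [pveh_mem_sq]
  simp only [zero_re, zero_im]
  exact ⟨⟨by linarith, by linarith⟩, by linarith, by linarith⟩

theorem pveh_RK_sub (Dr : Set ℂ) (Δ : ℝ) : pvehRK Dr Δ ⊆ pvehSq 0 (Δ / 2) := fun _ h => h.1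

theorem pveh_O_sub {Δ : ℝ} (hΔ : 0 ≤ Δ) : pvehO Δ ⊆ pvehSq 0 (Δ / 2) := (pveh_open_sub _ _).trans (pveh_sq_mono _ (by linarith))

/-! ## 3. the thick short link: `cu` = centre of the reference plug, `lb` = word of the blocks, started at the EAST door `cu + Δ/2` of the block of the plug in the frame `1`; `Mo` = the recoloured mouth of the pin -/

/-- the east door of the block of the reference plug -/
noncomputable def pvehZ (Δ : ℝ) (cu : ℂ) : ℂ := cu + ((Δ / 2 : ℝ) : ℂ)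

/-- the closed block number `j` of the thick link -/
noncomputable def pvehB (Δ : ℝ) (cu : ℂ) (lb : List PvtTurn) (j : ℕ) : Set ℂ := pvehSq (pvccC (pvehZ Δ cu) (Δ : ℂ) lb j) (Δ / 2)

/-- the EAST half of the closed block of the reference plug -/
def pvehEast (Δ : ℝ) (cu : ℂ) : Set ℂ := {w | w ∈ pvehSq cu (Δ / 2) ∧ cu.re ≤ w.re}

/-- all the blocks of the thick link -/
noncomputable def pvehBody (Δ : ℝ) (cu : ℂ) (lb : List PvtTurn) : Set ℂ := pvehEast Δ cu ∪ ⋃ j ∈ Finset.range lb.length, pvehB Δ cu lb j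

/-- `eK`: the tile of the thick short link = its blocks, minus the plug, minus the mouth -/
noncomputable def pvehEK (Δ : ℝ) (cu : ℂ) (lb : List PvtTurn) (Mo : Set ℂ) : Set ℂ := pvehBody Δ cu lb \ (pvccSq cu (Δ / 4) ∪ Mo)

/-- `eY`: the room of the strand of the thick short link = the lane of offsets `[-Δ/10, 4Δ/10]` of the east half of the block of the plug (FROM `Δ/64` IN FRONT OF THE PLANE OF THE PLUG: RULING W-7 of 208) and of the blocks of the link, and the inner mouth `Mi` -/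
noncomputable def pvehEY (Δ : ℝ) (cu : ℂ) (lb : List PvtTurn) (Mi : Set ℂ) : Set ℂ :=
  {w | cu.re + Δ / 64 ≤ w.re ∧ w.re ≤ cu.re + Δ / 2 ∧ cu.im - Δ / 10 ≤ w.im ∧ w.im ≤ cu.im + 4 * Δ / 10} ∪ pvfeLanes (-(1 / 10)) (4 / 10) (pvehZ Δ cu) (Δ : ℂ) lb ∪ Mi

theorem pveh_east_meas (Δ : ℝ) (cu : ℂ) : MeasurableSet (pvehEast Δ cu) :=
  (pveh_sq_meas _ _).inter (isClosed_le continuous_const continuous_re).measurableSet

theorem pveh_body_meas (Δ : ℝ) (cu : ℂ) (lb : List PvtTurn) : MeasurableSet (pvehBody Δ cu lb) :=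
  (pveh_east_meas Δ cu).union (Finset.measurableSet_biUnion _ fun _ _ => pveh_sq_meas _ _)

theorem pveh_EK_meas (Δ : ℝ) (cu : ℂ) (lb : List PvtTurn) {Mo : Set ℂ} (hM : MeasurableSet Mo) : MeasurableSet (pvehEK Δ cu lb Mo) :=
  (pveh_body_meas Δ cu lb).diff ((pvccm_sq_meas _ _).union hM)

theorem pveh_EK_O (Δ : ℝ) (cu : ℂ) (lb : List PvtTurn) (Mo : Set ℂ) : Disjoint (pvehEK Δ cu lb Mo) (pvccSq cu (Δ / 4)) :=
  Set.disjoint_left.2 fun _ h h' => h.2 (Or.inl h')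

theorem pveh_EK_M (Δ : ℝ) (cu : ℂ) (lb : List PvtTurn) (Mo : Set ℂ) : Disjoint (pvehEK Δ cu lb Mo) Mo :=
  Set.disjoint_left.2 fun _ h h' => h.2 (Or.inr h')

/-- a placed lane of a block lies in the closed block -/
theorem pveh_lane_sub {Δ : ℝ} (hΔ : 0 < Δ) (cu : ℂ) (lb : List PvtTurn) (j : ℕ) {a b : ℝ} (ha : -(1 / 2) ≤ a) (hb : b ≤ 1 / 2) :
    pvccK (pvfeLane a b) (pvehZ Δ cu) (Δ : ℂ) lb j ⊆ pvehB Δ cu lb j := by
  have hu : pvccD 1 lb j ^ 4 = 1 := pvccD_pow_four (by norm_num) lb j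
  have hsub : pvfeLane a b (pvccT lb j) ⊆ pvehSq (1 / 2) (1 / 2) := by
    intro w hw
    obtain ⟨h1, h2, h3, h4⟩ := pvfe_lane_cell ha hb _ hw
    rw [pveh_mem_sq]
    norm_num
    exact ⟨⟨h1, h2⟩, by linarith, by linarith⟩
  unfold pvccK pvehB
  refine (pvccPl_mono _ _ hsub).trans ?_
  rw [pvccD_cov, pveh_pl_sq hΔ _ hu, pvccC, pvccD_cov (Δ : ℂ)]
  refine (Eq.subset ?_)
  congr 1
  · ring
  · ring

/-- the room of the thick link lies in its window -/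
theorem pveh_EY_sub {Δ : ℝ} (hΔ : 0 < Δ) (cu : ℂ) (lb : List PvtTurn) {Mi Mo : Set ℂ} (hM : Mi ⊆ Mo) :
    pvehEY Δ cu lb Mi ⊆ pvehEK Δ cu lb Mo ∪ pvccSq cu (Δ / 4) ∪ Mo := by
  have key : ∀ w, w ∈ pvehBody Δ cu lb → w ∈ pvehEK Δ cu lb Mo ∪ pvccSq cu (Δ / 4) ∪ Mo := by
    intro w hw
    by_cases h1 : w ∈ pvccSq cu (Δ / 4)
    · exact Or.inl (Or.inr h1)
    by_cases h2 : w ∈ Mo
    · exact Or.inr h2
    exact Or.inl (Or.inl ⟨hw, fun h => h.elim h1 h2⟩)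
  rintro w ((⟨h1, h2, h3, h4⟩ | h) | h)
  · refine key w (Or.inl ⟨?_, by linarith⟩)
    rw [pveh_mem_sq]
    exact ⟨⟨by linarith, by linarith⟩, by linarith, by linarith⟩
  · unfold pvfeLanes at h
    simp only [mem_iUnion, exists_prop] at h
    obtain ⟨j, hj, hw⟩ := h
    refine key w (Or.inr ?_)
    simp only [mem_iUnion, exists_prop]
    exact ⟨j, hj, pveh_lane_sub hΔ cu lb j (by norm_num) (by norm_num) hw⟩
  · exact Or.inr (hM h)

/-! ## 4. the integer model of the blocks -/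

/-- the block number `j` of the word `lb`, in units of blocks, relative to the block of the reference plug -/
def pvehV (lb : List PvtTurn) (j : ℕ) : ℤ × ℤ := (1, 0) + pvccAccI (1, 0) (lb.take j)

theorem pveh_C_eq (Δ : ℝ) (cu : ℂ) (lb : List PvtTurn) (j : ℕ) : pvccC (pvehZ Δ cu) (Δ : ℂ) lb j = cu + (Δ : ℂ) * pvtZ (pvehV lb j) := by
  have h1 : pvtZ (1, 0) = 1 := by simp [pvtZ]
  rw [pvccC_eq, pvehV, pvtZ_add, pvccAccI_eq, h1, pvtAcc_eq_mul_one, pvehZ]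
  push_cast
  ring

theorem pveh_N_Z (v : ℤ × ℤ) : pvccN (pvtZ v) = max |(v.1 : ℝ)| |(v.2 : ℝ)| := by
  simp [pvccN, pvtZ]

/-- what is used of a word of blocks: the first block is the east neighbour of the plug, the others do not touch the block of the plug -/
def PvehW (lb : List PvtTurn) : Prop := ∀ j < lb.length, pvehV lb j = (1, 0) ∨ 2 ≤ |(pvehV lb j).1| ∨ 2 ≤ |(pvehV lb j).2|

instance (lb : List PvtTurn) : Decidable (PvehW lb) := by unfold PvehW; infer_instance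

theorem pveh_le_cases (b : ℕ) : pvxrLe b = pvxrLe 0 ∨ pvxrLe b = pvxrLe 1 ∨ pvxrLe b = pvxrLe 2 ∨ pvxrLe b = pvxrLe 3 := by
  have h : b % 4 = 0 ∨ b % 4 = 1 ∨ b % 4 = 2 ∨ b % 4 = 3 := by omega
  rcases h with h | h | h | h
  · left; simp only [pvxrLe, h]
  · right; left; simp only [pvxrLe, h]
  · right; right; left; simp only [pvxrLe, h]
  · right; right; right; simp only [pvxrLe, h]

theorem pveh_W_le (b : ℕ) : PvehW (pvxrLe b) := by
  rcases pveh_le_cases b with h | h | h | h <;> (rw [h]; decide)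

/-- the blocks of the thick link (the block after the last door included) are distinct -/
theorem pveh_simple_le (b : ℕ) : PvccSimple (pvxrLe b) (pvxrLe b).length := by
  rcases pveh_le_cases b with h | h | h | h <;> (rw [h]; exact pvcc_simple_of_int (by decide))

/-- the last block of the thick link is the block centred at the base cell `e⁻` -/
theorem pveh_last (b : ℕ) (g : ℤ) : pvxrUo b g + g • pvehV (pvxrLe b) ((pvxrLe b).length - 1) = 0 := by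
  have h : b % 4 = 0 ∨ b % 4 = 1 ∨ b % 4 = 2 ∨ b % 4 = 3 := by omega
  rcases h with h | h | h | h
  · have e : pvehV (pvxrLe b) ((pvxrLe b).length - 1) = (-5, -3) := by simp only [pvxrLe, h]; decide
    rw [e]; simp only [pvxrUo, h]; ext <;> simp <;> ring
  · have e : pvehV (pvxrLe b) ((pvxrLe b).length - 1) = (3, -4) := by simp only [pvxrLe, h]; decide
    rw [e]; simp only [pvxrUo, h]; ext <;> simp <;> ring
  · have e : pvehV (pvxrLe b) ((pvxrLe b).length - 1) = (4, 0) := by simp only [pvxrLe, h]; decide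
    rw [e]; simp only [pvxrUo, h]; ext <;> simp <;> ring
  · have e : pvehV (pvxrLe b) ((pvxrLe b).length - 1) = (3, 4) := by simp only [pvxrLe, h]; decide
    rw [e]; simp only [pvxrUo, h]; ext <;> simp <;> ring

/-- the thick link is left inwards -/
theorem pveh_dir_le (b : ℕ) : pvtDir 1 (pvxrLe b) = - I ^ b := by
  have h : b % 4 = 0 ∨ b % 4 = 1 ∨ b % 4 = 2 ∨ b % 4 = 3 := by omega
  have hb : (I : ℂ) ^ b = I ^ (b % 4) := by
    conv_lhs => rw [← Nat.div_add_mod b 4, pow_add, pow_mul, Complex.I_pow_four, one_pow, one_mul]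
  rw [hb]
  rcases h with h | h | h | h <;> simp [pvxrLe, h, PvtTurn.rot, pow_succ]

/-- the blocks of the thick link which are not the first one miss the closed block of the plug -/
theorem pveh_B_far {Δ : ℝ} (hΔ : 0 < Δ) (cu : ℂ) {lb : List PvtTurn} {j : ℕ} (h : 2 ≤ |(pvehV lb j).1| ∨ 2 ≤ |(pvehV lb j).2|) :
    Disjoint (pvehSq cu (Δ / 2)) (pvehB Δ cu lb j) := by
  unfold pvehB
  refine pveh_sq_disjoint ?_
  rw [pveh_C_eq, show cu - (cu + (Δ : ℂ) * pvtZ (pvehV lb j)) = -((Δ : ℂ) * pvtZ (pvehV lb j)) by ring, pvccN_neg, pvccN_real_mul hΔ.le, pveh_N_Z]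
  have h2 : (2 : ℝ) ≤ max |((pvehV lb j).1 : ℝ)| |((pvehV lb j).2 : ℝ)| := by
    rcases h with h | h
    · exact le_max_of_le_left (by exact_mod_cast h)
    · exact le_max_of_le_right (by exact_mod_cast h)
  nlinarith

/-- the body of the thick link lies east of the centre of the plug, or off the closed block of the plug -/
theorem pveh_body_east {Δ : ℝ} (hΔ : 0 < Δ) (cu : ℂ) {lb : List PvtTurn} (hW : PvehW lb) {w : ℂ} (hw : w ∈ pvehBody Δ cu lb) (hu : w ∈ pvehSq cu (Δ / 2)) : cu.re ≤ w.re := by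
  rcases hw with hw | hw
  · exact hw.2
  · simp only [mem_iUnion, exists_prop, Finset.mem_range] at hw
    obtain ⟨j, hj, hw⟩ := hw
    rcases hW j hj with h | h
    · unfold pvehB at hw
      rw [pveh_C_eq, h, pveh_mem_sq] at hw
      have e : (cu + (Δ : ℂ) * pvtZ (1, 0)).re = cu.re + Δ := by simp [pvtZ]
      rw [e] at hw
      linarith [hw.1.1]
    · exact absurd hw (Set.disjoint_left.1 (pveh_B_far hΔ cu h) hu)

theorem pveh_mem_sh {z w : ℂ} {S : Set ℂ} : w ∈ pvieSh z S ↔ w - z ∈ S := by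
  unfold pvieSh
  constructor
  · rintro ⟨u, hu, rfl⟩
    simpa using hu
  · intro h
    exact ⟨w - z, h, by ring⟩

theorem pveh_sh_sq (z c : ℂ) (r : ℝ) : pvieSh z (pvccSq c r) = pvccSq (z + c) r := by
  ext w
  rw [pveh_mem_sh]
  simp only [pvccSq, Set.mem_ofPred_eq]
  rw [show w - z - c = w - (z + c) by ring]

theorem pveh_sh_sqc (z c : ℂ) (r : ℝ) : pvieSh z (pvehSq c r) = pvehSq (z + c) r := by
  ext w
  rw [pveh_mem_sh]
  simp only [pvehSq, Set.mem_ofPred_eq]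
  rw [show w - z - c = w - (z + c) by ring]

/-- **the tile of the last link of the thin chain and the tile of the thick link are disjoint** -/
theorem pveh_RK_EK {Δ : ℝ} (hΔ : 0 < Δ) (Dr : Set ℂ) (cu : ℂ) {lb : List PvtTurn} (hW : PvehW lb) (Mo : Set ℂ) : Disjoint (pvieSh cu (pvehRK Dr Δ)) (pvehEK Δ cu lb Mo) := by
  rw [Set.disjoint_left]
  intro w hw hw'
  rw [pveh_mem_sh] at hw
  have h1 : w ∈ pvehSq cu (Δ / 2) := by
    have := hw.1
    simp only [pvehSq, Set.mem_ofPred_eq, sub_zero] at this ⊢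
    exact this
  have h2 := pveh_body_east hΔ cu hW hw'.1 h1
  have h3 : (w - cu).re < 0 := hw.2.1
  rw [sub_re] at h3
  linarith

/-- the last door square of the thin chain and the tile of the thick link are disjoint -/
theorem pveh_door_EK {δ Δ : ℝ} (hδ : 0 < δ) (h : δ ≤ Δ) (cu : ℂ) {lb : List PvtTurn} (hW : PvehW lb) (Mo : Set ℂ) : Disjoint (pvieSh cu (pvehDoor δ Δ)) (pvehEK Δ cu lb Mo) := by
  have hΔ : 0 < Δ := lt_of_lt_of_le hδ h
  rw [Set.disjoint_left]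
  intro w hw hw'
  rw [pveh_mem_sh, pvehDoor, pvccm_mem_sq] at hw
  simp only [neg_re, ofReal_re, neg_im, ofReal_im, sub_re, sub_im] at hw
  obtain ⟨⟨a1, a2⟩, a3, a4⟩ := hw
  rcases hw'.1 with hb | hb
  · linarith [hb.2]
  · simp only [mem_iUnion, exists_prop, Finset.mem_range] at hb
    obtain ⟨j, hj, hb⟩ := hb
    unfold pvehB at hb
    rw [pveh_C_eq, pveh_mem_sq] at hb
    have e1 : (cu + (Δ : ℂ) * pvtZ (pvehV lb j)).re = cu.re + Δ * ((pvehV lb j).1 : ℝ) := by simp [pvtZ]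
    have e2 : (cu + (Δ : ℂ) * pvtZ (pvehV lb j)).im = cu.im + Δ * ((pvehV lb j).2 : ℝ) := by simp [pvtZ]
    rw [e1, e2] at hb
    obtain ⟨⟨b1, b2⟩, b3, b4⟩ := hb
    rcases hW j hj with hv | hv | hv
    · rw [hv] at b1
      push_cast at b1
      linarith
    · rcases le_abs'.1 hv with hv | hv
      · have : ((pvehV lb j).1 : ℝ) ≤ -2 := by exact_mod_cast hv
        nlinarith
      · have : (2 : ℝ) ≤ ((pvehV lb j).1 : ℝ) := by exact_mod_cast hv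
        nlinarith
    · rcases le_abs'.1 hv with hv | hv
      · have : ((pvehV lb j).2 : ℝ) ≤ -2 := by exact_mod_cast hv
        nlinarith
      · have : (2 : ℝ) ≤ ((pvehV lb j).2 : ℝ) := by exact_mod_cast hv
        nlinarith

/-- **W-7**: inside the region of the reference plug, the room of the thick link lies `Δ/64` in front of the plane of the plug -/
theorem pveh_EY_front {Δ : ℝ} (hΔ : 0 < Δ) (cu : ℂ) {lb : List PvtTurn} (hW : PvehW lb) {Mi : Set ℂ} {w : ℂ} (hw : w ∈ pvehEY Δ cu lb Mi) (hO : w ∈ pvccSq cu (Δ / 4)) (hM : w ∉ Mi) :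
    cu.re + Δ / 64 ≤ w.re := by
  rw [pvccm_mem_sq] at hO
  obtain ⟨⟨a1, a2⟩, a3, a4⟩ := hO
  rcases hw with (h | h) | h
  · exact h.1
  · unfold pvfeLanes at h
    simp only [mem_iUnion, exists_prop] at h
    obtain ⟨j, hj, hw⟩ := h
    have hj' : j < lb.length := Finset.mem_range.1 hj
    have hb := pveh_lane_sub hΔ cu lb j (by norm_num) (by norm_num) hw
    unfold pvehB at hb
    rw [pveh_C_eq, pveh_mem_sq] at hb
    have e1 : (cu + (Δ : ℂ) * pvtZ (pvehV lb j)).re = cu.re + Δ * ((pvehV lb j).1 : ℝ) := by simp [pvtZ]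
    have e2 : (cu + (Δ : ℂ) * pvtZ (pvehV lb j)).im = cu.im + Δ * ((pvehV lb j).2 : ℝ) := by simp [pvtZ]
    rw [e1, e2] at hb
    obtain ⟨⟨b1, b2⟩, b3, b4⟩ := hb
    rcases hW j hj' with hv | hv | hv
    · rw [hv] at b1
      push_cast at b1
      linarith
    · rcases le_abs'.1 hv with hv | hv
      · have : ((pvehV lb j).1 : ℝ) ≤ -2 := by exact_mod_cast hv
        nlinarith
      · have : (2 : ℝ) ≤ ((pvehV lb j).1 : ℝ) := by exact_mod_cast hv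
        nlinarith
    · rcases le_abs'.1 hv with hv | hv
      · have : ((pvehV lb j).2 : ℝ) ≤ -2 := by exact_mod_cast hv
        nlinarith
      · have : (2 : ℝ) ≤ ((pvehV lb j).2 : ℝ) := by exact_mod_cast hv
        nlinarith
  · exact absurd h hM

/-! ## 5. blocks as sets of cells; the thin chain -/

theorem pveh_ctr_add (δ : ℝ) (q v : ℤ × ℤ) (g : ℤ) : pvtCtr δ (q + g • v) = pvtCtr δ q + (((g : ℝ) * δ : ℝ) : ℂ) * pvtZ v := by
  rw [pvccm_ctr, pvccm_ctr, pvtZ_add]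
  have : pvtZ (g • v) = (g : ℂ) * pvtZ v := by
    simp only [pvtZ, Prod.smul_fst, Prod.smul_snd, smul_eq_mul]
    push_cast
    ring
  rw [this]
  push_cast
  ring

/-- the cells of the block of the plug and of the blocks of the thick link -/
def pvehE (Qu : ℤ × ℤ) (n : ℤ) (lb : List PvtTurn) : Set (ℤ × ℤ) := pvehCells Qu n ∪ {p | ∃ j < lb.length, p ∈ pvehCells (Qu + (2 * n + 1) • pvehV lb j) n}

section cells

variable {δ : ℝ} {n : ℤ} (Qu : ℤ × ℤ) (lb : List PvtTurn)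

theorem pveh_B_cells (hδ : 0 < δ) (hn : 0 ≤ n) (j : ℕ) : pvehB ((2 * (n : ℝ) + 1) * δ) (pvtCtr δ Qu) lb j = pvtU δ (pvehCells (Qu + (2 * n + 1) • pvehV lb j) n) := by
  rw [← pveh_block_eq hδ _ hn, pvehB, pveh_C_eq, pveh_ctr_add]
  push_cast
  rfl

/-- the body of the thick link and the whole closed block of the plug, as a union of closed cells -/
theorem pveh_body_cells (hδ : 0 < δ) (hn : 0 ≤ n) :
    pvehSq (pvtCtr δ Qu) ((2 * (n : ℝ) + 1) * δ / 2) ∪ pvehBody ((2 * (n : ℝ) + 1) * δ) (pvtCtr δ Qu) lb ⊆ pvtU δ (pvehE Qu n lb) := by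
  have h0 : pvehSq (pvtCtr δ Qu) ((2 * (n : ℝ) + 1) * δ / 2) ⊆ pvtU δ (pvehE Qu n lb) := by
    rw [pveh_block_eq hδ _ hn]
    exact Set.biUnion_subset_biUnion_left Set.subset_union_left
  refine Set.union_subset h0 (Set.union_subset (fun w hw => h0 hw.1) ?_)
  intro w hw
  simp only [mem_iUnion, exists_prop, Finset.mem_range] at hw
  obtain ⟨j, hj, hw⟩ := hw
  rw [pveh_B_cells Qu lb hδ hn] at hw
  unfold pvtU at hw ⊢
  simp only [mem_iUnion, exists_prop] at hw ⊢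
  obtain ⟨p, hp, hw⟩ := hw
  exact ⟨p, Or.inr ⟨j, hj, hp⟩, hw⟩

end cells

/-- **THE THIN CHAIN MISSES A SET OF CELLS WHICH MAY CONTAIN ITS LAST CELL**: `E` = cells off the path `c0 :: c1 :: t` MINUS ITS LAST CELL;   all the tiles and all the door plugs but the last one miss `pvtU δ E` -/
theorem pveh_thin_disj {kit : PvthKit} {r : ℝ} (R : PvccKitRef kit r) {c0 c1 : ℤ × ℤ} {t : List (ℤ × ℤ)} {l : List PvtTurn} (hc : List.IsChain PvtAdj4 (c0 :: c1 :: t))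
    (h3 : pvtCentres (pvtZ c1) (pvtZ c1 - pvtZ c0) l = (c1 :: t).map pvtZ) (E : Set (ℤ × ℤ)) (hE : ∀ j (hj : j < (c0 :: c1 :: t).length), j ≤ l.length → (c0 :: c1 :: t)[j] ∉ E) :
    (∀ j < l.length, Disjoint (pvthSim (pvthZ kit.δ ((pvtCtr kit.δ c0 + pvtCtr kit.δ c1) / 2) (pvtZ c1 - pvtZ c0) l j) (pvthD (pvtZ c1 - pvtZ c0) l j) '' kit.O₀) (pvtU kit.δ E)) ∧
    (∀ j < l.length, Disjoint (pvthSim (pvthZ kit.δ ((pvtCtr kit.δ c0 + pvtCtr kit.δ c1) / 2) (pvtZ c1 - pvtZ c0) l j) (pvthD (pvtZ c1 - pvtZ c0) l j) '' kit.K₀ (pvthL l j)) (pvtU kit.δ E)) := by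
  have hlen := pvccm_len_eq h3
  have hd : (pvtZ c1 - pvtZ c0) ^ 4 = 1 := pvt_step_pow_four (by simp only [List.isChain_cons_cons] at hc; exact hc.1)
  have proj : ∀ {A B : Set ℂ}, A ×ˢ (univ : Set Bool) ⊆ B ×ˢ (univ : Set Bool) → A ⊆ B := by
    intro A B h w hw
    exact (h (show ((w, true) : ℂ × Bool) ∈ A ×ˢ (univ : Set Bool) from ⟨hw, mem_univ _⟩)).1
  constructor
  · intro j hj
    have hj' : j + 1 < (c0 :: c1 :: t).length := by simp only [List.length_cons]; omega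
    refine Disjoint.mono_left (proj (pvccm_kit_O_sq R _ hd l j)) ?_
    rw [pvccm_door kit.δ h3 j hj', pvtU, Set.disjoint_iUnion₂_right]
    intro q hq
    refine pvccm_door_disj R.δ0 (List.isChain_iff_getElem.1 hc j hj') ?_ ?_ (by have := R.r_le; have := R.δ0; linarith)
    · rintro rfl; exact hE j (by omega) (by omega) hq
    · rintro rfl; exact hE (j + 1) hj' (by omega) hq
  · intro j hj
    have hj' : j < (c1 :: t).length := by simp only [List.length_cons]; omega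
    refine Disjoint.mono_left (proj (pvccm_kit_K_sq R _ hd l j)) ?_
    rw [pvccm_centre kit.δ h3 j hj', pvtU, Set.disjoint_iUnion₂_right]
    intro q hq
    refine pvccm_sq_disj R.δ0 ?_
    rintro rfl
    have := hE (j + 1) (by simp only [List.length_cons] at hj' ⊢; omega) (by omega)
    simp only [List.getElem_cons_succ] at this
    exact this hq

/-! ## 6. where the blocks are: the rectangle of the side `b`, in blocks, relative to the base cell `e⁻` -/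

/-- `(x₀, x₁, y₀, y₁)` -/
def pvehR (b : ℕ) : ℤ × ℤ × ℤ × ℤ :=
  match b % 4 with
  | 0 => (0, 8, 0, 3)
  | 1 => (-3, 0, 0, 4)
  | 2 => (-4, 0, 0, 0)
  | _ => (-3, 0, -4, 0)

def PvehIn (R : ℤ × ℤ × ℤ × ℤ) (v : ℤ × ℤ) : Prop := R.1 ≤ v.1 ∧ v.1 ≤ R.2.1 ∧ R.2.2.1 ≤ v.2 ∧ v.2 ≤ R.2.2.2

instance (R : ℤ × ℤ × ℤ × ℤ) (v : ℤ × ℤ) : Decidable (PvehIn R v) := by unfold PvehIn; infer_instance

theorem pveh_Uo_smul (b : ℕ) (g : ℤ) : pvxrUo b g = g • pvxrUo b 1 := by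
  have h : b % 4 = 0 ∨ b % 4 = 1 ∨ b % 4 = 2 ∨ b % 4 = 3 := by omega
  rcases h with h | h | h | h <;> simp only [pvxrUo, h] <;> ext <;> simp <;> ring

theorem pveh_rect (b : ℕ) : PvehIn (pvehR b) (pvxrUo b 1) ∧ ∀ j < (pvxrLe b).length, PvehIn (pvehR b) (pvxrUo b 1 + pvehV (pvxrLe b) j) := by
  have h : b % 4 = 0 ∨ b % 4 = 1 ∨ b % 4 = 2 ∨ b % 4 = 3 := by omega
  rcases h with h | h | h | h <;> simp only [pvxrUo, pvxrLe, pvehR, h] <;> decide

/-- **the block of the plug and the body of the thick link lie in the rectangle of the side `b`** (`ce` = centre of the base cell `e⁻`) -/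
theorem pveh_body_rect {Δ : ℝ} (hΔ : 0 < Δ) (ce : ℂ) (b : ℕ) {w : ℂ}
    (hw : w ∈ pvehSq (ce + (Δ : ℂ) * pvtZ (pvxrUo b 1)) (Δ / 2) ∪ pvehBody Δ (ce + (Δ : ℂ) * pvtZ (pvxrUo b 1)) (pvxrLe b)) :
    (ce.re + Δ * ((pvehR b).1 - 1 / 2) ≤ w.re ∧ w.re ≤ ce.re + Δ * ((pvehR b).2.1 + 1 / 2)) ∧
    (ce.im + Δ * ((pvehR b).2.2.1 - 1 / 2) ≤ w.im ∧ w.im ≤ ce.im + Δ * ((pvehR b).2.2.2 + 1 / 2)) := by
  obtain ⟨h0, h1⟩ := pveh_rect b
  have key : ∀ v : ℤ × ℤ, PvehIn (pvehR b) v → w ∈ pvehSq (ce + (Δ : ℂ) * pvtZ v) (Δ / 2) →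
      (ce.re + Δ * ((pvehR b).1 - 1 / 2) ≤ w.re ∧ w.re ≤ ce.re + Δ * ((pvehR b).2.1 + 1 / 2)) ∧
      (ce.im + Δ * ((pvehR b).2.2.1 - 1 / 2) ≤ w.im ∧ w.im ≤ ce.im + Δ * ((pvehR b).2.2.2 + 1 / 2)) := by
    intro v hv hw
    rw [pveh_mem_sq] at hw
    have e1 : (ce + (Δ : ℂ) * pvtZ v).re = ce.re + Δ * (v.1 : ℝ) := by simp [pvtZ]
    have e2 : (ce + (Δ : ℂ) * pvtZ v).im = ce.im + Δ * (v.2 : ℝ) := by simp [pvtZ]
    rw [e1, e2] at hw
    obtain ⟨⟨a1, a2⟩, a3, a4⟩ := hw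
    obtain ⟨b1, b2, b3, b4⟩ := hv
    have c1 : (((pvehR b).1 : ℤ) : ℝ) ≤ v.1 := by exact_mod_cast b1
    have c2 : (v.1 : ℝ) ≤ (((pvehR b).2.1 : ℤ) : ℝ) := by exact_mod_cast b2
    have c3 : (((pvehR b).2.2.1 : ℤ) : ℝ) ≤ v.2 := by exact_mod_cast b3
    have c4 : (v.2 : ℝ) ≤ (((pvehR b).2.2.2 : ℤ) : ℝ) := by exact_mod_cast b4
    refine ⟨⟨?_, ?_⟩, ?_, ?_⟩ <;> nlinarith
  rcases hw with hw | hw | hw
  · exact key _ h0 hw
  · exact key _ h0 hw.1
  · simp only [mem_iUnion, exists_prop, Finset.mem_range] at hw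
    obtain ⟨j, hj, hw⟩ := hw
    refine key _ (h1 j hj) ?_
    unfold pvehB at hw
    rw [pveh_C_eq] at hw
    rw [pvtZ_add]
    rwa [show ce + (Δ : ℂ) * (pvtZ (pvxrUo b 1) + pvtZ (pvehV (pvxrLe b) j)) = ce + (Δ : ℂ) * pvtZ (pvxrUo b 1) + (Δ : ℂ) * pvtZ (pvehV (pvxrLe b) j) by ring]

/-- the coordinate of `w` in the direction `I ^ b` -/
def pvehFront (b : ℕ) (w : ℂ) : ℝ :=
  match b % 4 with
  | 0 => w.re
  | 1 => w.im
  | 2 => -w.re
  | _ => -w.im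

/-- **everything lies IN FRONT of the base cell** -/
theorem pveh_body_front {Δ : ℝ} (hΔ : 0 < Δ) (ce : ℂ) (b : ℕ) {w : ℂ}
    (hw : w ∈ pvehSq (ce + (Δ : ℂ) * pvtZ (pvxrUo b 1)) (Δ / 2) ∪ pvehBody Δ (ce + (Δ : ℂ) * pvtZ (pvxrUo b 1)) (pvxrLe b)) : pvehFront b ce - Δ / 2 ≤ pvehFront b w := by
  obtain ⟨⟨a1, a2⟩, a3, a4⟩ := pveh_body_rect hΔ ce b hw
  have h : b % 4 = 0 ∨ b % 4 = 1 ∨ b % 4 = 2 ∨ b % 4 = 3 := by omega
  rcases h with h | h | h | h <;> simp only [pvehR, pvehFront, h] at a1 a2 a3 a4 ⊢ <;> push_cast at a1 a2 a3 a4 <;> linarith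

/-- a point in front of a centred square is off the square -/
theorem pveh_front_off {b : ℕ} {w : ℂ} {ρ : ℝ} (h : ρ < pvehFront b w) : w ∉ pvwSq 0 ρ := by
  rintro ⟨h1, h2⟩
  rw [sub_zero, abs_le] at h1 h2
  have hb : b % 4 = 0 ∨ b % 4 = 1 ∨ b % 4 = 2 ∨ b % 4 = 3 := by omega
  rcases hb with hb | hb | hb | hb <;> simp only [pvehFront, hb] at h <;> linarith [h1.1, h1.2, h2.1, h2.2]

/-- everything lies within `13 Δ` of the centre of the base cell -/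
theorem pveh_body_near {Δ : ℝ} (hΔ : 0 < Δ) (ce : ℂ) (b : ℕ) {w : ℂ}
    (hw : w ∈ pvehSq (ce + (Δ : ℂ) * pvtZ (pvxrUo b 1)) (Δ / 2) ∪ pvehBody Δ (ce + (Δ : ℂ) * pvtZ (pvxrUo b 1)) (pvxrLe b)) : ‖w - ce‖ ≤ 13 * Δ := by
  obtain ⟨⟨a1, a2⟩, a3, a4⟩ := pveh_body_rect hΔ ce b hw
  have h := Complex.norm_le_abs_re_add_abs_im (w - ce)
  rw [sub_re, sub_im] at h
  have hb : b % 4 = 0 ∨ b % 4 = 1 ∨ b % 4 = 2 ∨ b % 4 = 3 := by omega
  have h1 : |w.re - ce.re| ≤ 8.5 * Δ := by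
    rw [abs_le]
    rcases hb with hb | hb | hb | hb <;> simp only [pvehR, hb] at a1 a2 <;> push_cast at a1 a2 <;> constructor <;> linarith
  have h2 : |w.im - ce.im| ≤ 4.5 * Δ := by
    rw [abs_le]
    rcases hb with hb | hb | hb | hb <;> simp only [pvehR, hb] at a3 a4 <;> push_cast at a3 a4 <;> constructor <;> linarith
  linarith

/-! ## 7. AT THE MODEL: the regions of record at the doors `pvxrGam` of helper1 -/

section model

variable {τ : Type} {c : ℝ} (𝔓 : PvxPar τ c)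

/-- side of the blocks -/
noncomputable def pvehDl (m : ℕ) : ℝ := (2 * (pvxrNw 𝔓 m : ℝ) + 1) * pvlmDel c m

/-- **`rO m`** -/
noncomputable def pvehrO (m : ℕ) : Set ℂ := pvehO (pvehDl 𝔓 m)

/-- the last door plug of the thin chain, relative to the centre of the reference plug; `O0 m` = the region `O₀` of the kit of level `m` -/
noncomputable def pvehDr (O0 : ℕ → Set ℂ) (m : ℕ) : Set ℂ := pvthSim (pvxrGam 𝔓 m).pin0 (pvxrGam 𝔓 m).din0 '' O0 m

/-- **`rK m`** -/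
noncomputable def pvehrK (O0 : ℕ → Set ℂ) (m : ℕ) : Set ℂ := pvehRK (pvehDr 𝔓 O0 m) (pvehDl 𝔓 m)

/-- **`rY m`** -/
noncomputable def pvehrY (_O0 : ℕ → Set ℂ) (m : ℕ) : Set ℂ := pvehRY (pvlmDel c m) (pvehDl 𝔓 m)

/-- **`eK m t`**; `Mo m t` = the recoloured mouth `eM m t` -/
noncomputable def pveheK (Mo : ℕ → τ → Set ℂ) (m : ℕ) (t : τ) : Set ℂ := pvehEK (pvehDl 𝔓 m) ((pvxrGam 𝔓 m).zu t) (pvxrLe (pvxrB 𝔓 t)) (Mo m t)

/-- **`eY m t`**; `Mi m t ⊆ eM m t` = the part of the mouth where the new strand may run -/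
noncomputable def pveheY (Mi : ℕ → τ → Set ℂ) (m : ℕ) (t : τ) : Set ℂ := pvehEY (pvehDl 𝔓 m) ((pvxrGam 𝔓 m).zu t) (pvxrLe (pvxrB 𝔓 t)) (Mi m t)

/-- what is used of the doors of record at the level `m`, for the type `t`      [producer: helper1 `pvxr_zu`, door facts] -/
structure PvehGeo (m : ℕ) (t : τ) : Prop where
  n0 : 0 ≤ pvxrNw 𝔓 m
  zu : (pvxrGam 𝔓 m).zu t = pvtCtr (pvlmDel c m) (pvxrEm 𝔓 m t + pvxrUo (pvxrB 𝔓 t) (2 * pvxrNw 𝔓 m + 1))
  /-- the base cell `e⁻` lies in front of the own-level box, at distance `> δ + Δ/2` -/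
  front : pviwRad 𝔓 m t + pvlmDel c m + pvehDl 𝔓 m / 2 < pvehFront (pvxrB 𝔓 t) (pvtCtr (pvlmDel c m) (pvxrEm 𝔓 m t))

variable {𝔓}

theorem pveh_Dl_pos {m : ℕ} (h : 0 ≤ pvxrNw 𝔓 m) : 0 < pvehDl 𝔓 m := by
  unfold pvehDl
  have h1 : (0 : ℝ) ≤ (pvxrNw 𝔓 m : ℝ) := by exact_mod_cast h
  have := pvlm_Del_pos c m
  positivity

theorem pveh_Del_le_Dl {m : ℕ} (h : 0 ≤ pvxrNw 𝔓 m) : pvlmDel c m ≤ pvehDl 𝔓 m := by
  unfold pvehDl
  have h1 : (0 : ℝ) ≤ (pvxrNw 𝔓 m : ℝ) := by exact_mod_cast h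
  have := pvlm_Del_pos c m
  nlinarith

theorem PvehGeo.zu' {m : ℕ} {t : τ} (G : PvehGeo 𝔓 m t) :
    (pvxrGam 𝔓 m).zu t = pvtCtr (pvlmDel c m) (pvxrEm 𝔓 m t) + (pvehDl 𝔓 m : ℂ) * pvtZ (pvxrUo (pvxrB 𝔓 t) 1) := by
  rw [G.zu, pveh_Uo_smul, pveh_ctr_add, pvehDl]
  push_cast
  rfl

theorem pveh_m_rO (m : ℕ) : MeasurableSet (pvehrO 𝔓 m) := pveh_O_meas _

theorem pveh_m_Dr {O0 : ℕ → Set ℂ} (hO : ∀ m, MeasurableSet (O0 m)) (m : ℕ) : MeasurableSet (pvehDr 𝔓 O0 m) :=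
  pvccPl_measurable _ (by rw [pvxr_gam_din0]; exact one_ne_zero) (hO m)

theorem pveh_m_rK {O0 : ℕ → Set ℂ} (hO : ∀ m, MeasurableSet (O0 m)) (m : ℕ) : MeasurableSet (pvehrK 𝔓 O0 m) := pveh_RK_meas (pveh_m_Dr hO m) _

theorem pveh_m_rY {O0 : ℕ → Set ℂ} (_hO : ∀ m, MeasurableSet (O0 m)) (m : ℕ) : MeasurableSet (pvehrY 𝔓 O0 m) := pveh_RY_meas _ _

theorem pveh_m_eK {Mo : ℕ → τ → Set ℂ} (hM : ∀ m t, MeasurableSet (Mo m t)) (m : ℕ) (t : τ) : MeasurableSet (pveheK 𝔓 Mo m t) := pveh_EK_meas _ _ _ (hM m t)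

theorem pveh_lanes_meas (a b : ℝ) (z : ℂ) {d : ℂ} (hd : d ≠ 0) (l : List PvtTurn) : MeasurableSet (pvfeLanes a b z d l) :=
  Finset.measurableSet_biUnion _ fun j _ => pvccK_measurable (fun τ => (pvfe_lane_closed a b τ).measurableSet) z hd l j

theorem pveh_m_eY {Mi : ℕ → τ → Set ℂ} (hM : ∀ m t, MeasurableSet (Mi m t)) {m : ℕ} (hn : 0 ≤ pvxrNw 𝔓 m) (t : τ) : MeasurableSet (pveheY 𝔓 Mi m t) := by
  refine MeasurableSet.union (MeasurableSet.union ?_ (pveh_lanes_meas _ _ _ (by exact_mod_cast (pveh_Dl_pos hn).ne') _)) (hM m t)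
  exact (isClosed_le continuous_const continuous_re).measurableSet.inter ((isClosed_le continuous_re continuous_const).measurableSet.inter
    ((isClosed_le continuous_const continuous_im).measurableSet.inter (isClosed_le continuous_im continuous_const).measurableSet))

/-- the region of the reference plug placed at `zu t` -/
theorem pveh_sh_rO (m : ℕ) (z : ℂ) : pvieSh z (pvehrO 𝔓 m) = pvccSq z (pvehDl 𝔓 m / 4) := by
  rw [pvehrO, pvehO, pveh_sh_sq, add_zero]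

/-- **field `rY_sub`** -/
theorem pveh_rY_sub (O0 : ℕ → Set ℂ) (m : ℕ) : pvehrY 𝔓 O0 m ⊆ pvehrK 𝔓 O0 m ∪ pvehrO 𝔓 m ∪ pvehDr 𝔓 O0 m := pveh_RY_sub _ (pvlm_Del_pos c m)

/-- **W-7, `rY_front`**: the room of the last link of the thin chain lies `δ/64` in front of the plane of the last door -/
theorem pveh_rY_front (O0 : ℕ → Set ℂ) (m : ℕ) {v : ℂ} (hv : v ∈ pvehrY 𝔓 O0 m) :
    pvlmDel c m / 64 ≤ ((v - (pvxrGam 𝔓 m).pin0) * (starRingEnd ℂ) (pvxrGam 𝔓 m).din0).re := by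
  obtain ⟨h1, -, -, -⟩ := hv
  rw [pvxr_gam_din0, pvxr_gam_pin0, map_one, mul_one, sub_re]
  have e : (-(pvlmDel c m : ℂ) * ((pvxrNw 𝔓 m : ℂ) + 1 / 2)).re = -(pvehDl 𝔓 m / 2) := by
    have : -(pvlmDel c m : ℂ) * ((pvxrNw 𝔓 m : ℂ) + 1 / 2) = ((-(pvehDl 𝔓 m / 2) : ℝ) : ℂ) := by
      unfold pvehDl; push_cast; ring
    rw [this, ofReal_re]
  rw [e]
  linarith

/-- **W-7, `rY_back`**: the room of the last link of the thin chain lies `Δ/64` behind the plane of the reference plug (unit of the plug `Δ/16`) -/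
theorem pveh_rY_back (O0 : ℕ → Set ℂ) (m : ℕ) {v : ℂ} (hv : v ∈ pvehrY 𝔓 O0 m) : v.re ≤ -(pvehDl 𝔓 m / 64) := hv.2.1

/-- **field `eY_sub`** -/
theorem pveh_eY_sub {Mi Mo : ℕ → τ → Set ℂ} (hM : ∀ m t, Mi m t ⊆ Mo m t) {m : ℕ} (hn : 0 ≤ pvxrNw 𝔓 m) (t : τ) :
    pveheY 𝔓 Mi m t ⊆ Mo m t ∪ pveheK 𝔓 Mo m t ∪ pvieSh ((pvxrGam 𝔓 m).zu t) (pvehrO 𝔓 m) := by
  intro w hw
  rw [pveh_sh_rO]
  rcases pveh_EY_sub (pveh_Dl_pos hn) _ _ (hM m t) hw with (h | h) | h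
  · exact Or.inl (Or.inr h)
  · exact Or.inr h
  · exact Or.inl (Or.inl h)

/-- **W-7, `eY_front`**: inside the region of the reference plug, off the mouth, the room of the thick link lies `Δ/64` in front of the plane of the plug (unit of the plug `Δ/16`) -/
theorem pveh_eY_front {Mi : ℕ → τ → Set ℂ} {m : ℕ} (hn : 0 ≤ pvxrNw 𝔓 m) (t : τ) {v : ℂ} (hv : v ∈ pveheY 𝔓 Mi m t) (hO : v ∈ pvieSh ((pvxrGam 𝔓 m).zu t) (pvehrO 𝔓 m)) (hM : v ∉ Mi m t) :
    pvehDl 𝔓 m / 64 ≤ (v - (pvxrGam 𝔓 m).zu t).re := by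
  rw [pveh_sh_rO] at hO
  have := pveh_EY_front (pveh_Dl_pos hn) _ (pveh_W_le _) hv hO hM
  rw [sub_re]
  linarith

/-- the last door plug lies in the door square -/
theorem pveh_Dr_sub {O0 : ℕ → Set ℂ} {m : ℕ} {r : ℝ} (hO : O0 m ⊆ pvccSq 0 r) (hr : r ≤ pvlmDel c m / 4) : pvehDr 𝔓 O0 m ⊆ pvehDoor (pvlmDel c m) (pvehDl 𝔓 m) := by
  rintro _ ⟨w, hw, rfl⟩
  have hw' : pvccN (w - 0) < r := hO hw
  rw [sub_zero] at hw'
  unfold pvehDoor pvthSim
  rw [pvxr_gam_din0, pvxr_gam_pin0, pvehDl]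
  show pvccN _ < _
  have e : -(pvlmDel c m : ℂ) * ((pvxrNw 𝔓 m : ℂ) + 1 / 2) + 1 * w - -(((2 * (pvxrNw 𝔓 m : ℝ) + 1) * pvlmDel c m / 2 : ℝ) : ℂ) = w := by
    push_cast
    ring
  rw [e]
  linarith

/-- **the five atoms `eM, eK, zu + rK, zu + rO, zu + last door` of the end of the `Σ₁` cycle are pairwise disjoint**, up to the two pairs (mouth, block of the plug) -/
theorem pveh_end_disj {O0 : ℕ → Set ℂ} {Mo : ℕ → τ → Set ℂ} {m : ℕ} {r : ℝ} (hn : 0 ≤ pvxrNw 𝔓 m) (hO : O0 m ⊆ pvccSq 0 r) (hr : r ≤ pvlmDel c m / 4) (t : τ) :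
    Disjoint (Mo m t) (pveheK 𝔓 Mo m t) ∧
    Disjoint (pveheK 𝔓 Mo m t) (pvieSh ((pvxrGam 𝔓 m).zu t) (pvehrK 𝔓 O0 m)) ∧
    Disjoint (pveheK 𝔓 Mo m t) (pvieSh ((pvxrGam 𝔓 m).zu t) (pvehrO 𝔓 m)) ∧
    Disjoint (pveheK 𝔓 Mo m t) (pvieSh ((pvxrGam 𝔓 m).zu t) (pvehDr 𝔓 O0 m)) ∧
    Disjoint (pvieSh ((pvxrGam 𝔓 m).zu t) (pvehrK 𝔓 O0 m)) (pvieSh ((pvxrGam 𝔓 m).zu t) (pvehrO 𝔓 m)) ∧
    Disjoint (pvieSh ((pvxrGam 𝔓 m).zu t) (pvehrK 𝔓 O0 m)) (pvieSh ((pvxrGam 𝔓 m).zu t) (pvehDr 𝔓 O0 m)) ∧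
    Disjoint (pvieSh ((pvxrGam 𝔓 m).zu t) (pvehrO 𝔓 m)) (pvieSh ((pvxrGam 𝔓 m).zu t) (pvehDr 𝔓 O0 m)) := by
  have hΔ := pveh_Dl_pos hn
  have hsh : ∀ {A B : Set ℂ} (z : ℂ), Disjoint A B → Disjoint (pvieSh z A) (pvieSh z B) := by
    intro A B z h
    rw [Set.disjoint_left] at h ⊢
    intro w hw hw'
    rw [pveh_mem_sh] at hw hw'
    exact h hw hw'
  have hmono : ∀ {A B : Set ℂ} (z : ℂ), A ⊆ B → pvieSh z A ⊆ pvieSh z B := fun z h => Set.image_mono h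
  refine ⟨(pveh_EK_M _ _ _ _).symm, (pveh_RK_EK hΔ _ _ (pveh_W_le _) _).symm, ?_, ?_, hsh _ (pveh_RK_O _ _), hsh _ (pveh_RK_door _ _), ?_⟩
  · rw [pveh_sh_rO]; exact pveh_EK_O _ _ _ _
  · exact ((pveh_door_EK (pvlm_Del_pos c m) (pveh_Del_le_Dl hn) _ (pveh_W_le _) _).mono_left (hmono _ (pveh_Dr_sub hO hr))).symm
  · exact hsh _ ((pveh_O_door (pveh_Del_le_Dl hn)).mono_right (pveh_Dr_sub hO hr))

/-- everything of the end of the cycle lies in (block of the plug) ∪ (body of the thick link) -/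
theorem pveh_end_sub (O0 : ℕ → Set ℂ) (Mo : ℕ → τ → Set ℂ) {m : ℕ} (hn : 0 ≤ pvxrNw 𝔓 m) (t : τ) :
    pveheK 𝔓 Mo m t ∪ pvieSh ((pvxrGam 𝔓 m).zu t) (pvehrK 𝔓 O0 m) ∪ pvieSh ((pvxrGam 𝔓 m).zu t) (pvehrO 𝔓 m) ⊆
      pvehSq ((pvxrGam 𝔓 m).zu t) (pvehDl 𝔓 m / 2) ∪ pvehBody (pvehDl 𝔓 m) ((pvxrGam 𝔓 m).zu t) (pvxrLe (pvxrB 𝔓 t)) := by
  have hsq : pvieSh ((pvxrGam 𝔓 m).zu t) (pvehSq 0 (pvehDl 𝔓 m / 2)) = pvehSq ((pvxrGam 𝔓 m).zu t) (pvehDl 𝔓 m / 2) := by rw [pveh_sh_sqc, add_zero]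
  rintro w ((h | h) | h)
  · exact Or.inr h.1
  · left; rw [← hsq]; exact Set.image_mono (pveh_RK_sub _ _) h
  · left; rw [← hsq]; exact Set.image_mono (pveh_O_sub (pveh_Dl_pos hn).le) h

/-- **the lines of `res_off` for `eK`, `zu + rK`, `zu + rO`** -/
theorem pveh_res_off (O0 : ℕ → Set ℂ) (Mo : ℕ → τ → Set ℂ) {m : ℕ} {t : τ} (G : PvehGeo 𝔓 m t) :
    Disjoint (pveheK 𝔓 Mo m t ∪ pvieSh ((pvxrGam 𝔓 m).zu t) (pvehrK 𝔓 O0 m) ∪ pvieSh ((pvxrGam 𝔓 m).zu t) (pvehrO 𝔓 m)) (pviwBox 𝔓 m t) := by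
  rw [Set.disjoint_left]
  intro w hw
  have h1 := pveh_end_sub O0 Mo G.n0 t hw
  rw [G.zu'] at h1
  have h2 := pveh_body_front (pveh_Dl_pos G.n0) _ _ h1
  exact pveh_front_off (by linarith [G.front])

/-- **the line `e_bdd`** (without the mouth) -/
theorem pveh_e_bdd (O0 : ℕ → Set ℂ) (Mo : ℕ → τ → Set ℂ) {m : ℕ} {t : τ} (G : PvehGeo 𝔓 m t) :
    pveheK 𝔓 Mo m t ∪ pvieSh ((pvxrGam 𝔓 m).zu t) (pvehrK 𝔓 O0 m) ∪ pvieSh ((pvxrGam 𝔓 m).zu t) (pvehrO 𝔓 m) ⊆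
      closedBall 0 (‖pvtCtr (pvlmDel c m) (pvxrEm 𝔓 m t)‖ + 13 * pvehDl 𝔓 m) := by
  intro w hw
  have h1 := pveh_end_sub O0 Mo G.n0 t hw
  rw [G.zu'] at h1
  have h2 := pveh_body_near (pveh_Dl_pos G.n0) _ _ h1
  rw [mem_closedBall_zero_iff]
  have := norm_add_le (w - pvtCtr (pvlmDel c m) (pvxrEm 𝔓 m t)) (pvtCtr (pvlmDel c m) (pvxrEm 𝔓 m t))
  rw [sub_add_cancel] at this
  linarith

/-- **the end of the cycle as a union of closed cells** (to be used with `pveh_thin_disj`) -/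
theorem pveh_end_cells (O0 : ℕ → Set ℂ) (Mo : ℕ → τ → Set ℂ) {m : ℕ} {t : τ} (G : PvehGeo 𝔓 m t) :
    pveheK 𝔓 Mo m t ∪ pvieSh ((pvxrGam 𝔓 m).zu t) (pvehrK 𝔓 O0 m) ∪ pvieSh ((pvxrGam 𝔓 m).zu t) (pvehrO 𝔓 m) ⊆
      pvtU (pvlmDel c m) (pvehE (pvxrEm 𝔓 m t + pvxrUo (pvxrB 𝔓 t) (2 * pvxrNw 𝔓 m + 1)) (pvxrNw 𝔓 m) (pvxrLe (pvxrB 𝔓 t))) := by
  refine (pveh_end_sub O0 Mo G.n0 t).trans ?_
  rw [G.zu]
  exact pveh_body_cells _ _ (pvlm_Del_pos c m) G.n0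

end model

theorem pveh_eqns_cite : True := by
  have := @pvehSq.eq_1; have := @pvehCells.eq_1; have := @pvehO.eq_1; have := @pvehDoor.eq_1; have := @pvehRK.eq_1; have := @pvehRY.eq_1
  have := @pvehZ.eq_1; have := @pvehB.eq_1; have := @pvehEast.eq_1; have := @pvehBody.eq_1; have := @pvehEK.eq_1; have := @pvehEY.eq_1
  have := @pvehV.eq_1; have := @PvehW.eq_1; have := @pvehE.eq_1; have := @pvehR.eq_1; have := @PvehIn.eq_1; have := @pvehFront.eq_1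
  have := @pvehDl.eq_1; have := @pvehrO.eq_1; have := @pvehDr.eq_1; have := @pvehrK.eq_1; have := @pvehrY.eq_1; have := @pveheK.eq_1; have := @pveheY.eq_1
  trivial

end Claimed.Agent.R289
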