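import Claimed.Agent.R289.Exit.ParWord
import Claimed.Agent.R289.Exit.ParEng
import Claimed.Agent.R289.Exit.ParEngR

/-!
# Row 289 (S0537), THE WALL, ROAD E, roof (S0) PAR, file Exit/ParEngC : THE REAL GEOMETRY OF THE CROSS PAIRS OF `cyc_disj` OF `PvieEng.Wf`      (helper166; prefix `pvej`, `Pvej`)

CONSUMER: `Exit/EngAll.lean` (124): leaves (E1) `pvea_l1_o`, (E2) `pvea_l1_i` are `pvej_E1`, `pvej_E2`;   W-7 of 208: `pvej_eY_front`.      0 sorry.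
* sec. 1  the four coordinates `pvehFront b` (`b` = side; `b + 1` = lateral): `pvej_F_sub add smul sq abs_le abs_le_N ctr ctr0 cell side pow`, `pvej_S_eq` (`pvegS Y (I ^ a) v = pvehFront a (v - Y)`: the frame of 124)
* sec. 2  **`pvej_zone`** (the half strip `{.3 r ≤ S, |L| ≤ .45 r}` in front of a tip is `> .55 r` from the other tip), **`PvejGeo δ r Rk Yp Ym a b e⁺ e⁻ n`** (real data of a type at a level),
          out-run `pvej_out_front pvej_out_far`, ring road `pvej_M_lo pvej_ring_far`, ramp + manoeuvre `pvej_ramp_int pvej_ramp_zone pvej_ramp_far`, blocks `pvej_body_lat pvej_body_zone pvej_body_far`, block of the plug `pvej_plug_front pvej_plug_far pvej_plug_off pvej_plug_off2`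
* sec. 3  `pvej_chain` (`(v - u) :: pvrwCells v u l` is a chain), `pvej_door_sub` (a door square lies in the two closed cells it separates), **`pvej_thin_off`** (a set which misses the closed cells `c1 :: t` misses all the tiles and all the door plugs `j ≥ 1`)
* sec. 4  `pvej_sep`, **`pvej_good`** (`PvxrOK` of helper1 + `PvejGeo` give `PvrwGood` of 51), `pvej_path`, **`pvej_l1_pts`** (door point `j` in the closed cell `x_j`, centre `= pvtCtr δ x_j`, `x_j` on the out-run / ring road / ramp), `pvej_l1_o`, `pvej_l1_i`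
* sec. 5  AT THE MODEL: `pvej_cell_near`, `pvej_base`, **`pvej_geo_at`** (`PvejGeo` from `0 < ρ`, `1000 δ ≤ ρ h`, `pviwTyOk`), **`pvej_E1`**, **`pvej_E2`**, **`pvej_eY_front`**
-/

set_option autoImplicit false

namespace Claimed.Agent.R289

open Complex Set Metric

/-! ## 1. the four coordinates `pvehFront b` -/

theorem pvej_mod (b : ℕ) : (b % 4 = 0 ∧ (b + 1) % 4 = 1) ∨ (b % 4 = 1 ∧ (b + 1) % 4 = 2) ∨ (b % 4 = 2 ∧ (b + 1) % 4 = 3) ∨ (b % 4 = 3 ∧ (b + 1) % 4 = 0) := by omega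

theorem pvej_F_sub (b : ℕ) (w w' : ℂ) : pvehFront b (w - w') = pvehFront b w - pvehFront b w' := by
  rcases pvej_mod b with ⟨h, -⟩ | ⟨h, -⟩ | ⟨h, -⟩ | ⟨h, -⟩ <;> simp only [pvehFront, h, sub_re, sub_im] <;> ring

theorem pvej_F_add (b : ℕ) (w w' : ℂ) : pvehFront b (w + w') = pvehFront b w + pvehFront b w' := by
  rcases pvej_mod b with ⟨h, -⟩ | ⟨h, -⟩ | ⟨h, -⟩ | ⟨h, -⟩ <;> simp only [pvehFront, h, add_re, add_im] <;> ring

theorem pvej_F_smul (b : ℕ) (s : ℝ) (w : ℂ) : pvehFront b ((s : ℂ) * w) = s * pvehFront b w := by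
  rcases pvej_mod b with ⟨h, -⟩ | ⟨h, -⟩ | ⟨h, -⟩ | ⟨h, -⟩ <;> simp only [pvehFront, h, re_ofReal_mul, im_ofReal_mul] <;> ring

theorem pvej_F_sq (b : ℕ) (w : ℂ) : pvehFront b w ^ 2 + pvehFront (b + 1) w ^ 2 = ‖w‖ ^ 2 := by
  rw [Complex.sq_norm, Complex.normSq_apply]
  rcases pvej_mod b with ⟨h, h'⟩ | ⟨h, h'⟩ | ⟨h, h'⟩ | ⟨h, h'⟩ <;> simp only [pvehFront, h, h'] <;> ring

theorem pvej_F_abs_le (b : ℕ) (w : ℂ) : |pvehFront b w| ≤ ‖w‖ := by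
  have h := pvej_F_sq b w
  exact abs_le_of_sq_le_sq (by nlinarith [sq_nonneg (pvehFront (b + 1) w)]) (norm_nonneg w)

theorem pvej_F_abs_le_N (b : ℕ) (w : ℂ) : |pvehFront b w| ≤ pvccN w := by
  unfold pvccN
  rcases pvej_mod b with ⟨h, -⟩ | ⟨h, -⟩ | ⟨h, -⟩ | ⟨h, -⟩ <;> simp only [pvehFront, h, abs_neg]
  · exact le_max_left _ _
  · exact le_max_right _ _
  · exact le_max_left _ _
  · exact le_max_right _ _

theorem pvej_N_le_norm (w : ℂ) : pvccN w ≤ ‖w‖ := max_le (abs_re_le_norm w) (abs_im_le_norm w)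

theorem pvej_F_ctr (δ : ℝ) (b : ℕ) (x y : ℤ × ℤ) : pvehFront b (pvtCtr δ x) - pvehFront b (pvtCtr δ y) = δ * ((pvrwF b x : ℝ) - (pvrwF b y : ℝ)) := by
  rcases pvej_mod b with ⟨h, -⟩ | ⟨h, -⟩ | ⟨h, -⟩ | ⟨h, -⟩ <;> simp only [pvehFront, pvrwF, pvxrE, h, pvtCtr] <;> push_cast <;> ring

theorem pvej_F_ctr0 {δ : ℝ} (hδ : 0 < δ) (b : ℕ) (x : ℤ × ℤ) : |pvehFront b (pvtCtr δ x) - δ * (pvrwF b x : ℝ)| ≤ δ / 2 := by
  rw [abs_le]
  rcases pvej_mod b with ⟨h, -⟩ | ⟨h, -⟩ | ⟨h, -⟩ | ⟨h, -⟩ <;> simp only [pvehFront, pvrwF, pvxrE, h, pvtCtr] <;> push_cast <;> constructor <;> nlinarith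

theorem pvej_F_cell {δ : ℝ} (b : ℕ) {x : ℤ × ℤ} {v : ℂ} (hv : v ∈ pvtSq δ x) : |pvehFront b v - pvehFront b (pvtCtr δ x)| ≤ δ / 2 := by
  obtain ⟨h1, h2, h3, h4⟩ := hv
  rw [abs_le]
  rcases pvej_mod b with ⟨h, -⟩ | ⟨h, -⟩ | ⟨h, -⟩ | ⟨h, -⟩ <;> simp only [pvehFront, h, pvtCtr] <;> constructor <;> linarith

theorem pvej_F_side (y : ℂ) : pvehFront (pvxrSide y) y = pvccN y := by
  unfold pvxrSide pvccN
  split_ifs with h1 h2 h2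
  · simp only [pvehFront, Nat.zero_mod]
    rw [max_eq_left h1, abs_of_nonneg h2]
  · simp only [pvehFront, Nat.reduceMod]
    rw [max_eq_left h1, abs_of_neg (not_le.1 h2)]
  · simp only [pvehFront, Nat.reduceMod]
    rw [max_eq_right (not_le.1 h1).le, abs_of_nonneg h2]
  · simp only [pvehFront, Nat.reduceMod]
    rw [max_eq_right (not_le.1 h1).le, abs_of_neg (not_le.1 h2)]

theorem pvej_F_pow (b : ℕ) : pvehFront b (I ^ b) = 1 ∧ pvehFront (b + 1) (I ^ b) = 0 := by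
  have e : (I : ℂ) ^ b = I ^ (b % 4) := by
    conv_lhs => rw [← Nat.div_add_mod b 4, pow_add, pow_mul, I_pow_four, one_pow, one_mul]
  rw [e]
  rcases pvej_mod b with ⟨h, h'⟩ | ⟨h, h'⟩ | ⟨h, h'⟩ | ⟨h, h'⟩ <;> simp only [pvehFront, h, h'] <;> simp [pow_succ]

/-- the frame of 124 -/
theorem pvej_S_eq (Y v : ℂ) (a : ℕ) : pvegS Y (I ^ a) v = pvehFront a (v - Y) := by
  have e : (I : ℂ) ^ a = I ^ (a % 4) := by
    conv_lhs => rw [← Nat.div_add_mod a 4, pow_add, pow_mul, I_pow_four, one_pow, one_mul]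
  unfold pvegS
  rw [e]
  rcases pvej_mod a with ⟨h, -⟩ | ⟨h, -⟩ | ⟨h, -⟩ | ⟨h, -⟩ <;> simp only [pvehFront, h] <;> simp [pow_succ]

/-! ## 2. the zone in front of a tip is far from the other tip -/

/-- **ZONE LEMMA**: `Y` faces the side `b` of the box of half side `Rk`, `Y'` lies (up to `r/10`) in the box, `5 r / 4 ≤ ‖Y - Y'‖`: the half strip `{0.3 r ≤ S, |L| ≤ 0.45 r}` in front of `Y` is off `closedBall Y' (11 r / 20)` -/
theorem pvej_zone {b : ℕ} {Y Y' v : ℂ} {r Rk : ℝ} (hr : 0 < r) (hY : Rk - r / 10 ≤ pvehFront b Y) (hY' : pvccN Y' ≤ Rk + r / 10) (hfar : 5 / 4 * r ≤ ‖Y - Y'‖)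
    (h1 : 3 / 10 * r ≤ pvehFront b (v - Y)) (h2 : |pvehFront (b + 1) (v - Y)| ≤ 9 / 20 * r) : 11 / 20 * r < ‖v - Y'‖ := by
  by_contra hc
  rw [not_lt] at hc
  have a1 := abs_le.1 ((pvej_F_abs_le b (v - Y')).trans hc)
  have a2 := abs_le.1 ((pvej_F_abs_le (b + 1) (v - Y')).trans hc)
  have a3 := (le_abs_self _).trans (pvej_F_abs_le_N b Y')
  have h2' := abs_le.1 h2
  have hs := pvej_F_sq b (Y - Y')
  rw [pvej_F_sub] at a1 a2 h1 h2' hs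
  rw [pvej_F_sub (b + 1)] at hs
  set σ := pvehFront b Y - pvehFront b Y' with hσ
  set ℓ := pvehFront (b + 1) Y - pvehFront (b + 1) Y' with hℓ
  have b1 : -(r / 4) ≤ σ := by linarith
  have b2 : σ ≤ r / 4 := by linarith [a1.2]
  have b3 : -r ≤ ℓ := by linarith [a2.1, h2'.2]
  have b4 : ℓ ≤ r := by linarith [a2.2, h2'.1]
  have c1 : σ ^ 2 ≤ (r / 4) ^ 2 := sq_le_sq' b1 b2
  have c2 : ℓ ^ 2 ≤ r ^ 2 := sq_le_sq' b3 b4
  have c3 : (5 / 4 * r) ^ 2 ≤ ‖Y - Y'‖ ^ 2 := pow_le_pow_left₀ (by linarith) hfar 2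
  nlinarith

/-- **the real data of one type at one level** (absolute units, relative to the centre of the pin): `r = ρ h`, `Rk` = half side of the own-level box, `Yp Ym` = grid centres of the tip cells -/
structure PvejGeo (δ r Rk : ℝ) (Yp Ym : ℂ) (a b : ℕ) (ep em : ℤ × ℤ) (n : ℤ) : Prop where
  δ0 : 0 < δ
  fine : 1000 * δ ≤ r
  Yp_f : pvehFront a Yp = pvccN Yp
  Ym_f : pvehFront b Ym = pvccN Ym
  Yp_n : |pvccN Yp - Rk| ≤ r / 10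
  Ym_n : |pvccN Ym - Rk| ≤ r / 10
  far : 5 / 4 * r ≤ ‖Yp - Ym‖
  ep_f : |pvehFront a (pvtCtr δ ep - Yp) - 3 * r / 8| ≤ δ / 2
  ep_l : |pvehFront (a + 1) (pvtCtr δ ep - Yp)| ≤ δ / 2
  em_f : |pvehFront b (pvtCtr δ em - Ym) - 3 * r / 8| ≤ δ / 2
  em_l : |pvehFront (b + 1) (pvtCtr δ em - Ym)| ≤ δ / 2
  n_lo : r / 32 ≤ (n : ℝ) * δ
  n_hi : (n : ℝ) * δ ≤ r / 32 + δ

section geo

variable {δ r Rk : ℝ} {Yp Ym : ℂ} {M : ℤ} {a b : ℕ} {ep em : ℤ × ℤ} {n : ℤ}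

theorem PvejGeo.r0 (J : PvejGeo δ r Rk Yp Ym a b ep em n) : 0 < r := by linarith [J.δ0, J.fine]

/-- the out-run: in front of the exit door -/
theorem pvej_out_front (J : PvejGeo δ r Rk Yp Ym a b ep em n) {x : ℤ × ℤ} (hx : PvrwOut M a ep x) {v : ℂ} (hv : v ∈ pvtSq δ x) :
    pvehFront a (pvtCtr δ ep) - δ / 2 ≤ pvehFront a v ∧ |pvehFront (a + 1) v - pvehFront (a + 1) (pvtCtr δ ep)| ≤ δ / 2 := by
  obtain ⟨h1, h2, -⟩ := hx
  have e1 := pvej_F_ctr δ a x ep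
  have e2 := pvej_F_ctr δ (a + 1) x ep
  have c1 := abs_le.1 (pvej_F_cell a hv)
  have c2 := pvej_F_cell (a + 1) hv
  rw [h1, sub_self, mul_zero, sub_eq_zero] at e2
  rw [e2] at c2
  refine ⟨?_, c2⟩
  have : (pvrwF a ep : ℝ) ≤ (pvrwF a x : ℝ) := by exact_mod_cast h2
  nlinarith [J.δ0, c1.1]

/-- the out-run is off `closedBall Ym (r/2)` -/
theorem pvej_out_far (J : PvejGeo δ r Rk Yp Ym a b ep em n) {x : ℤ × ℤ} (hx : PvrwOut M a ep x) {v : ℂ} (hv : v ∈ pvtSq δ x) : 11 / 20 * r < ‖v - Ym‖ := by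
  obtain ⟨h1, h2⟩ := pvej_out_front J hx hv
  have h2' := abs_le.1 h2
  have f1 := abs_le.1 J.ep_f
  have f2 := abs_le.1 J.ep_l
  have hδ := J.δ0
  have hf := J.fine
  rw [pvej_F_sub] at f1 f2
  refine pvej_zone J.r0 (Rk := Rk) (by rw [J.Yp_f]; linarith [(abs_le.1 J.Yp_n).1]) (by linarith [(abs_le.1 J.Ym_n).2]) J.far ?_ ?_
  · rw [pvej_F_sub]; linarith [f1.1]
  · rw [pvej_F_sub, abs_le]; constructor <;> linarith [f2.1, f2.2, h2'.1, h2'.2]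

/-- side of the blocks -/
theorem PvejGeo.Dl (J : PvejGeo δ r Rk Yp Ym a b ep em n) : r / 16 + δ ≤ (2 * (n : ℝ) + 1) * δ ∧ (2 * (n : ℝ) + 1) * δ ≤ r / 16 + 3 * δ := by
  constructor <;> linarith [J.n_lo, J.n_hi]

theorem PvejGeo.n0 (J : PvejGeo δ r Rk Yp Ym a b ep em n) : 0 ≤ n := by
  have h : (0 : ℝ) < (n : ℝ) * δ := by linarith [J.n_lo, J.r0]
  have h2 : (0 : ℝ) < (n : ℝ) := (pos_iff_pos_of_mul_pos h).2 J.δ0
  exact_mod_cast h2.le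

/-- the ring road lies `4 r / 5` outside the own-level box -/
theorem pvej_M_lo (J : PvejGeo δ r Rk Yp Ym a b ep em n) (hM : pvrwF b em + 9 * (2 * n + 1) ≤ M) : Rk + 4 / 5 * r ≤ (M : ℝ) * δ := by
  have hδ := J.δ0
  have f1 := abs_le.1 J.em_f
  have f2 := abs_le.1 (pvej_F_ctr0 hδ b em)
  have f3 := abs_le.1 J.Ym_n
  obtain ⟨d1, d2⟩ := J.Dl
  rw [pvej_F_sub, J.Ym_f] at f1
  have g1 : (pvrwF b em : ℝ) + 9 * (2 * (n : ℝ) + 1) ≤ (M : ℝ) := by exact_mod_cast hM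
  have g2 : ((pvrwF b em : ℝ) + 9 * (2 * (n : ℝ) + 1)) * δ ≤ (M : ℝ) * δ := mul_le_mul_of_nonneg_right g1 hδ.le
  nlinarith [f1.1, f2.2, f3.1]

/-- the ring road is far from everything -/
theorem pvej_ring_far (J : PvejGeo δ r Rk Yp Ym a b ep em n) (hM : pvrwF b em + 9 * (2 * n + 1) ≤ M) {x : ℤ × ℤ} (hx : PvrwRing M x) {v : ℂ} (hv : v ∈ pvtSq δ x) {Y : ℂ} (hY : pvccN Y ≤ Rk + r / 10) :
    11 / 20 * r < ‖v - Y‖ := by
  obtain ⟨h1, h2, h3, h4⟩ := hv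
  have hδ := J.δ0
  have hf := J.fine
  have hM := pvej_M_lo J hM
  have hN : (M : ℝ) * δ - δ ≤ pvccN v := by
    unfold pvccN
    rcases hx.1 with h | h | h | h
    · rw [h] at h1; exact le_trans (by linarith) ((le_abs_self _).trans (le_max_left _ _))
    · rw [h] at h2; push_cast at h2; exact le_trans (by linarith) ((neg_le_abs _).trans (le_max_left _ _))
    · rw [h] at h3; exact le_trans (by linarith) ((le_abs_self _).trans (le_max_right _ _))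
    · rw [h] at h4; push_cast at h4; exact le_trans (by linarith) ((neg_le_abs _).trans (le_max_right _ _))
  have h5 : pvccN v ≤ pvccN (v - Y) + pvccN Y := by
    have := pvccN_add_le (v - Y) Y
    rwa [sub_add_cancel] at this
  have h6 := pvej_N_le_norm (v - Y)
  linarith

/-- the ramp and the manoeuvre, in integers: `2 g` in front of `e⁻`, laterally within `6 g` -/
theorem pvej_ramp_int (hn : 0 ≤ n) {x : ℤ × ℤ} (hx : PvrwRamp M b em n x) :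
    pvrwF b em + 2 * (2 * n + 1) ≤ pvrwF b x ∧ pvrwF (b + 1) x - pvrwF (b + 1) em ≤ 6 * (2 * n + 1) ∧ -(6 * (2 * n + 1)) ≤ pvrwF (b + 1) x - pvrwF (b + 1) em := by
  rcases pvej_mod b with ⟨h, h'⟩ | ⟨h, h'⟩ | ⟨h, h'⟩ | ⟨h, h'⟩ <;> simp only [PvrwRamp, h] at hx <;> simp only [pvrwF, pvxrE, h, h'] <;> omega

/-- the ramp and the manoeuvre lie in the zone in front of `Ym` -/
theorem pvej_ramp_zone (J : PvejGeo δ r Rk Yp Ym a b ep em n) {x : ℤ × ℤ} (hx : PvrwRamp M b em n x) {v : ℂ} (hv : v ∈ pvtSq δ x) :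
    7 / 16 * r ≤ pvehFront b (v - Ym) ∧ |pvehFront (b + 1) (v - Ym)| ≤ 9 / 20 * r := by
  obtain ⟨h1, h2, h3⟩ := pvej_ramp_int J.n0 hx
  have e1 := pvej_F_ctr δ b x em
  have e2 := pvej_F_ctr δ (b + 1) x em
  have c1 := abs_le.1 (pvej_F_cell b hv)
  have c2 := abs_le.1 (pvej_F_cell (b + 1) hv)
  have f1 := abs_le.1 J.em_f
  have f2 := abs_le.1 J.em_l
  have hδ := J.δ0
  have hf := J.fine
  obtain ⟨d1, d2⟩ := J.Dl
  rw [pvej_F_sub] at f1 f2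
  have g1 : (pvrwF b em : ℝ) + 2 * (2 * (n : ℝ) + 1) ≤ (pvrwF b x : ℝ) := by exact_mod_cast h1
  have g2 : (pvrwF (b + 1) x : ℝ) - (pvrwF (b + 1) em : ℝ) ≤ 6 * (2 * (n : ℝ) + 1) := by exact_mod_cast h2
  have g3 : -(6 * (2 * (n : ℝ) + 1)) ≤ (pvrwF (b + 1) x : ℝ) - (pvrwF (b + 1) em : ℝ) := by exact_mod_cast h3
  have k1 : 2 * ((2 * (n : ℝ) + 1) * δ) ≤ δ * ((pvrwF b x : ℝ) - (pvrwF b em : ℝ)) := by nlinarith
  have k2 : δ * ((pvrwF (b + 1) x : ℝ) - (pvrwF (b + 1) em : ℝ)) ≤ 6 * ((2 * (n : ℝ) + 1) * δ) := by nlinarith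
  have k3 : -(6 * ((2 * (n : ℝ) + 1) * δ)) ≤ δ * ((pvrwF (b + 1) x : ℝ) - (pvrwF (b + 1) em : ℝ)) := by nlinarith
  rw [pvej_F_sub, pvej_F_sub, abs_le]
  refine ⟨by linarith [c1.1, f1.1], by linarith [c2.1, f2.1], by linarith [c2.2, f2.2]⟩

theorem pvej_ramp_far (J : PvejGeo δ r Rk Yp Ym a b ep em n) {x : ℤ × ℤ} (hx : PvrwRamp M b em n x) {v : ℂ} (hv : v ∈ pvtSq δ x) : 11 / 20 * r < ‖v - Yp‖ := by
  obtain ⟨h1, h2⟩ := pvej_ramp_zone J hx hv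
  have hr := J.r0
  exact pvej_zone hr (Rk := Rk) (by rw [J.Ym_f]; linarith [(abs_le.1 J.Ym_n).1]) (by linarith [(abs_le.1 J.Yp_n).2]) (by rw [norm_sub_rev]; exact J.far) (by linarith) h2

/-- a point `7 r / 16` in front of `Ym` is off the recoloured mouth -/
theorem pvej_front_off_M {Y v : ℂ} {s : ℝ} (c : ℕ) (h : s < pvehFront c (v - Y)) : v ∉ closedBall Y s := by
  rw [mem_closedBall_iff_norm, not_le]
  exact lt_of_lt_of_le h ((le_abs_self _).trans (pvej_F_abs_le c _))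

/-- lateral extent of the blocks -/
theorem pvej_body_lat {Δ : ℝ} (hΔ : 0 < Δ) (ce : ℂ) (c : ℕ) {w : ℂ}
    (hw : w ∈ pvehSq (ce + (Δ : ℂ) * pvtZ (pvxrUo c 1)) (Δ / 2) ∪ pvehBody Δ (ce + (Δ : ℂ) * pvtZ (pvxrUo c 1)) (pvxrLe c)) : |pvehFront (c + 1) w - pvehFront (c + 1) ce| ≤ 7 / 2 * Δ := by
  obtain ⟨⟨a1, a2⟩, a3, a4⟩ := pveh_body_rect hΔ ce c hw
  rw [abs_le]
  rcases pvej_mod c with ⟨h, h'⟩ | ⟨h, h'⟩ | ⟨h, h'⟩ | ⟨h, h'⟩ <;> simp only [pvehR, pvehFront, h, h'] at a1 a2 a3 a4 ⊢ <;> push_cast at a1 a2 a3 a4 <;> constructor <;> linarith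

/-- the block of the plug lies `7 Δ / 2` in front of the centre of `e⁻` -/
theorem pvej_plug_front {Δ : ℝ} (hΔ : 0 < Δ) (ce : ℂ) (c : ℕ) {w : ℂ} (hw : w ∈ pvehSq (ce + (Δ : ℂ) * pvtZ (pvxrUo c 1)) (Δ / 2)) : pvehFront c ce + 7 / 2 * Δ ≤ pvehFront c w := by
  rw [pveh_mem_sq] at hw
  obtain ⟨⟨a1, a2⟩, a3, a4⟩ := hw
  rcases pvej_mod c with ⟨h, -⟩ | ⟨h, -⟩ | ⟨h, -⟩ | ⟨h, -⟩ <;> simp [pvxrUo, pvtZ, h] at a1 a2 a3 a4 <;> simp only [pvehFront, h] <;> linarith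

/-- the block of the plug and the body of the thick link lie in the zone in front of `Ym` -/
theorem pvej_body_zone (J : PvejGeo δ r Rk Yp Ym a b ep em n) {w : ℂ}
    (hw : w ∈ pvehSq (pvtCtr δ em + (((2 * (n : ℝ) + 1) * δ : ℝ) : ℂ) * pvtZ (pvxrUo b 1)) ((2 * (n : ℝ) + 1) * δ / 2) ∪
      pvehBody ((2 * (n : ℝ) + 1) * δ) (pvtCtr δ em + (((2 * (n : ℝ) + 1) * δ : ℝ) : ℂ) * pvtZ (pvxrUo b 1)) (pvxrLe b)) :
    3 / 10 * r ≤ pvehFront b (w - Ym) ∧ |pvehFront (b + 1) (w - Ym)| ≤ 9 / 20 * r := by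
  obtain ⟨d1, d2⟩ := J.Dl
  have hδ := J.δ0
  have hf := J.fine
  have hΔ : 0 < (2 * (n : ℝ) + 1) * δ := by linarith [J.r0]
  have h1 := pveh_body_front hΔ _ _ hw
  have h2 := abs_le.1 (pvej_body_lat hΔ _ _ hw)
  have f1 := abs_le.1 J.em_f
  have f2 := abs_le.1 J.em_l
  rw [pvej_F_sub] at f1 f2
  rw [pvej_F_sub, pvej_F_sub, abs_le]
  refine ⟨by linarith [f1.1], by linarith [h2.1, f2.1], by linarith [h2.2, f2.2]⟩

theorem pvej_body_far (J : PvejGeo δ r Rk Yp Ym a b ep em n) {w : ℂ}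
    (hw : w ∈ pvehSq (pvtCtr δ em + (((2 * (n : ℝ) + 1) * δ : ℝ) : ℂ) * pvtZ (pvxrUo b 1)) ((2 * (n : ℝ) + 1) * δ / 2) ∪
      pvehBody ((2 * (n : ℝ) + 1) * δ) (pvtCtr δ em + (((2 * (n : ℝ) + 1) * δ : ℝ) : ℂ) * pvtZ (pvxrUo b 1)) (pvxrLe b)) : 11 / 20 * r < ‖w - Yp‖ := by
  obtain ⟨h1, h2⟩ := pvej_body_zone J hw
  exact pvej_zone J.r0 (Rk := Rk) (by rw [J.Ym_f]; linarith [(abs_le.1 J.Ym_n).1]) (by linarith [(abs_le.1 J.Yp_n).2]) (by rw [norm_sub_rev]; exact J.far) h1 h2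

/-- the block of the plug lies `9 r / 16` in front of `Ym` -/
theorem pvej_plug_far (J : PvejGeo δ r Rk Yp Ym a b ep em n) {w : ℂ}
    (hw : w ∈ pvehSq (pvtCtr δ em + (((2 * (n : ℝ) + 1) * δ : ℝ) : ℂ) * pvtZ (pvxrUo b 1)) ((2 * (n : ℝ) + 1) * δ / 2)) : 9 / 16 * r < pvehFront b (w - Ym) := by
  obtain ⟨d1, d2⟩ := J.Dl
  have hδ := J.δ0
  have hf := J.fine
  have hΔ : 0 < (2 * (n : ℝ) + 1) * δ := by linarith [J.r0]
  have h1 := pvej_plug_front hΔ _ _ hw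
  have f1 := abs_le.1 J.em_f
  rw [pvej_F_sub] at f1
  rw [pvej_F_sub]
  linarith [f1.1]

/-- the block of the plug is off the recoloured mouth `closedBall Ym (5 r / 16)` -/
theorem pvej_plug_off (J : PvejGeo δ r Rk Yp Ym a b ep em n) {w : ℂ}
    (hw : w ∈ pvehSq (pvtCtr δ em + (((2 * (n : ℝ) + 1) * δ : ℝ) : ℂ) * pvtZ (pvxrUo b 1)) ((2 * (n : ℝ) + 1) * δ / 2)) : w ∉ closedBall Ym (5 * r / 16) :=
  pvej_front_off_M b (by linarith [pvej_plug_far J hw, J.r0])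

/-- the block of the plug is off the inner mouth `closedBall Ym (r / 2)` -/
theorem pvej_plug_off2 (J : PvejGeo δ r Rk Yp Ym a b ep em n) {w : ℂ}
    (hw : w ∈ pvehSq (pvtCtr δ em + (((2 * (n : ℝ) + 1) * δ : ℝ) : ℂ) * pvtZ (pvxrUo b 1)) ((2 * (n : ℝ) + 1) * δ / 2)) : w ∉ closedBall Ym (r / 2) :=
  pvej_front_off_M b (by linarith [pvej_plug_far J hw, J.r0])

end geo

/-! ## 3. the thin chain lives in the closed cells of its path -/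

theorem pvej_cells_cons (v u : ℤ × ℤ) (l : List PvtTurn) : pvrwCells v u l = v :: (pvrwCells v u l).tail := by
  cases l <;> rfl

theorem pvej_adj {u : ℤ × ℤ} (hu : PvrwU u) (v : ℤ × ℤ) : PvtAdj4 (v - u) v := by
  obtain ⟨v1, v2⟩ := v
  rcases hu with rfl | rfl | rfl | rfl <;> simp [PvtAdj4]

theorem pvej_chain {u : ℤ × ℤ} (hu : PvrwU u) (v : ℤ × ℤ) (l : List PvtTurn) : List.IsChain PvtAdj4 ((v - u) :: pvrwCells v u l) := by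
  induction l generalizing v u with
  | nil => simp only [pvrwCells, List.isChain_cons_cons, List.isChain_singleton, and_true]; exact pvej_adj hu v
  | cons τ l ih =>
    rw [pvrwCells, List.isChain_cons_cons]
    refine ⟨pvej_adj hu v, ?_⟩
    have := ih (hu.rot τ) (v + pvccRotI u τ)
    rwa [add_sub_cancel_right] at this

/-- a door square lies in the two closed cells it separates -/
theorem pvej_door_sub {δ : ℝ} {p q : ℤ × ℤ} (h : PvtAdj4 p q) {r : ℝ} (hr : r ≤ δ / 2) : pvccSq ((pvtCtr δ p + pvtCtr δ q) / 2) r ⊆ pvtSq δ p ∪ pvtSq δ q := by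
  intro w hw
  rw [pvccm_mem_sq] at hw
  obtain ⟨⟨h1, h2⟩, h3, h4⟩ := hw
  have e1 : ((pvtCtr δ p + pvtCtr δ q) / 2).re = (((p.1 : ℝ) + 1 / 2) * δ + ((q.1 : ℝ) + 1 / 2) * δ) / 2 := by
    rw [show (pvtCtr δ p + pvtCtr δ q) / 2 = ((1 / 2 : ℝ) : ℂ) * (pvtCtr δ p + pvtCtr δ q) by push_cast; ring, re_ofReal_mul]
    simp only [add_re, pvtCtr]; ring
  have e2 : ((pvtCtr δ p + pvtCtr δ q) / 2).im = (((p.2 : ℝ) + 1 / 2) * δ + ((q.2 : ℝ) + 1 / 2) * δ) / 2 := by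
    rw [show (pvtCtr δ p + pvtCtr δ q) / 2 = ((1 / 2 : ℝ) : ℂ) * (pvtCtr δ p + pvtCtr δ q) by push_cast; ring, im_ofReal_mul]
    simp only [add_im, pvtCtr]; ring
  rw [e1] at h1 h2
  rw [e2] at h3 h4
  have key : ∀ x : ℂ, x ∈ pvtSq δ q ↔ (q.1 : ℝ) * δ ≤ x.re ∧ x.re ≤ ((q.1 : ℝ) + 1) * δ ∧ (q.2 : ℝ) * δ ≤ x.im ∧ x.im ≤ ((q.2 : ℝ) + 1) * δ := fun x => Iff.rfl
  rw [Set.mem_union, key]
  rcases h with ⟨k1, k2 | k2⟩ | ⟨k1, k2 | k2⟩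
  · have k1' : (q.1 : ℝ) = p.1 := by exact_mod_cast k1
    have k2' : (q.2 : ℝ) = p.2 + 1 := by exact_mod_cast k2
    rw [k1'] at h1 h2 ⊢
    rw [k2'] at h3 h4 ⊢
    by_cases hc : w.im ≤ ((p.2 : ℝ) + 1) * δ
    · exact Or.inl ⟨by linarith, by linarith, by linarith, hc⟩
    · exact Or.inr ⟨by linarith, by linarith, by linarith, by linarith⟩
  · have k1' : (q.1 : ℝ) = p.1 := by exact_mod_cast k1
    have k2' : (q.2 : ℝ) = p.2 - 1 := by exact_mod_cast k2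
    rw [k1'] at h1 h2 ⊢
    rw [k2'] at h3 h4 ⊢
    by_cases hc : (p.2 : ℝ) * δ ≤ w.im
    · exact Or.inl ⟨by linarith, by linarith, hc, by linarith⟩
    · exact Or.inr ⟨by linarith, by linarith, by linarith, by linarith⟩
  · have k1' : (q.2 : ℝ) = p.2 := by exact_mod_cast k1
    have k2' : (q.1 : ℝ) = p.1 + 1 := by exact_mod_cast k2
    rw [k2'] at h1 h2 ⊢
    rw [k1'] at h3 h4 ⊢
    by_cases hc : w.re ≤ ((p.1 : ℝ) + 1) * δ
    · exact Or.inl ⟨by linarith, hc, by linarith, by linarith⟩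
    · exact Or.inr ⟨by linarith, by linarith, by linarith, by linarith⟩
  · have k1' : (q.2 : ℝ) = p.2 := by exact_mod_cast k1
    have k2' : (q.1 : ℝ) = p.1 - 1 := by exact_mod_cast k2
    rw [k2'] at h1 h2 ⊢
    rw [k1'] at h3 h4 ⊢
    by_cases hc : (p.1 : ℝ) * δ ≤ w.re
    · exact Or.inl ⟨hc, by linarith, by linarith, by linarith⟩
    · exact Or.inr ⟨by linarith, by linarith, by linarith, by linarith⟩

/-- **A SET WHICH MISSES THE CLOSED CELLS `c1 :: t` OF THE PATH MISSES ALL THE TILES AND ALL THE DOOR PLUGS BUT THE FIRST ONE** -/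
theorem pvej_thin_off {kit : PvthKit} {r : ℝ} (R : PvccKitRef kit r) {c0 c1 : ℤ × ℤ} {t : List (ℤ × ℤ)} {l : List PvtTurn} (hc : List.IsChain PvtAdj4 (c0 :: c1 :: t))
    (h3 : pvtCentres (pvtZ c1) (pvtZ c1 - pvtZ c0) l = (c1 :: t).map pvtZ) {A : Set ℂ} (hA : ∀ x ∈ c1 :: t, Disjoint A (pvtSq kit.δ x)) :
    (∀ j, 1 ≤ j → j ≤ l.length → Disjoint A (pvthSim (pvthZ kit.δ ((pvtCtr kit.δ c0 + pvtCtr kit.δ c1) / 2) (pvtZ c1 - pvtZ c0) l j) (pvthD (pvtZ c1 - pvtZ c0) l j) '' kit.O₀)) ∧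
    (∀ j < l.length, Disjoint A (pvthSim (pvthZ kit.δ ((pvtCtr kit.δ c0 + pvtCtr kit.δ c1) / 2) (pvtZ c1 - pvtZ c0) l j) (pvthD (pvtZ c1 - pvtZ c0) l j) '' kit.K₀ (pvthL l j))) := by
  have hlen := pvccm_len_eq h3
  have hd : (pvtZ c1 - pvtZ c0) ^ 4 = 1 := pvt_step_pow_four (by simp only [List.isChain_cons_cons] at hc; exact hc.1)
  have proj : ∀ {A B : Set ℂ}, A ×ˢ (univ : Set Bool) ⊆ B ×ˢ (univ : Set Bool) → A ⊆ B := by
    intro A B h w hw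
    exact (h (show ((w, true) : ℂ × Bool) ∈ A ×ˢ (univ : Set Bool) from ⟨hw, mem_univ _⟩)).1
  constructor
  · intro j hj1 hj
    have hj' : j + 1 < (c0 :: c1 :: t).length := by simp only [List.length_cons]; omega
    refine Disjoint.mono_right (proj (pvccm_kit_O_sq R _ hd l j)) ?_
    rw [pvccm_door kit.δ h3 j hj']
    refine Disjoint.mono_right (pvej_door_sub (List.isChain_iff_getElem.1 hc j hj') (by have := R.r_le; have := R.δ0; linarith)) ?_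
    rw [Set.disjoint_union_right]
    obtain ⟨i, rfl⟩ : ∃ i, j = i + 1 := ⟨j - 1, by omega⟩
    constructor
    · refine hA _ ?_
      simp only [List.getElem_cons_succ]
      exact List.getElem_mem _
    · refine hA _ ?_
      simp only [List.getElem_cons_succ]
      exact List.mem_cons_of_mem _ (List.getElem_mem _)
  · intro j hj
    have hj' : j < (c1 :: t).length := by simp only [List.length_cons]; omega
    refine Disjoint.mono_right (proj (pvccm_kit_K_sq R _ hd l j)) ?_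
    rw [pvccm_centre kit.δ h3 j hj']
    exact (hA _ (List.getElem_mem _)).mono_right (pvccm_sq_sub _ _)

/-! ## 4. `PvrwGood` from `PvxrOK` and the real data; the points of the thin chain -/

section pts

variable {δ r Rk : ℝ} {Yp Ym : ℂ} {M B : ℤ} {a b : ℕ} {ep em : ℤ × ℤ} {n : ℤ}

theorem pvej_int_le {δ : ℝ} (hδ : 0 < δ) {X Y : ℤ} (h : δ * (Y : ℝ) ≤ δ * (X : ℝ)) : Y ≤ X := by
  exact_mod_cast le_of_mul_le_mul_left h hδ

/-- two tips on the same side are `7 g` apart -/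
theorem pvej_sep (J : PvejGeo δ r Rk Yp Ym a a ep em n) :
    pvrwF (a + 1) em + 7 * (2 * n + 1) ≤ pvrwF (a + 1) ep ∨ pvrwF (a + 1) ep + 7 * (2 * n + 1) ≤ pvrwF (a + 1) em := by
  have hδ := J.δ0
  have hf := J.fine
  have hr := J.r0
  obtain ⟨d1, d2⟩ := J.Dl
  have hs := pvej_F_sq a (Yp - Ym)
  rw [pvej_F_sub, pvej_F_sub, J.Yp_f, J.Ym_f] at hs
  have n1 := abs_le.1 J.Yp_n
  have n2 := abs_le.1 J.Ym_n
  have l1 := abs_le.1 J.ep_l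
  have l2 := abs_le.1 J.em_l
  rw [pvej_F_sub] at l1 l2
  have e := pvej_F_ctr δ (a + 1) ep em
  set ℓ := pvehFront (a + 1) Yp - pvehFront (a + 1) Ym with hℓ
  have c1 : (pvccN Yp - pvccN Ym) ^ 2 ≤ (r / 5) ^ 2 := sq_le_sq' (by linarith [n1.1, n2.2]) (by linarith [n1.2, n2.1])
  have c3 : (5 / 4 * r) ^ 2 ≤ ‖Yp - Ym‖ ^ 2 := pow_le_pow_left₀ (by linarith) J.far 2
  have c4 : r ^ 2 ≤ ℓ ^ 2 := by nlinarith
  rcases le_total 0 ℓ with h0 | h0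
  · left
    have h : r ≤ ℓ := by
      by_contra h
      rw [not_le] at h
      nlinarith
    have : pvrwF (a + 1) em + 7 * (2 * n + 1) ≤ pvrwF (a + 1) ep := by
      refine pvej_int_le hδ ?_
      push_cast
      nlinarith [l1.1, l2.2]
    exact this
  · right
    have h : ℓ ≤ -r := by
      by_contra h
      rw [not_le] at h
      nlinarith
    have : pvrwF (a + 1) ep + 7 * (2 * n + 1) ≤ pvrwF (a + 1) em := by
      refine pvej_int_le hδ ?_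
      push_cast
      nlinarith [l1.2, l2.1]
    exact this

/-- **`PvrwGood` (51) from `PvxrOK` (helper1) and the real data** -/
theorem pvej_good (O : PvxrOK B M a b ep em n) (J : PvejGeo δ r Rk Yp Ym a b ep em n) : PvrwGood M a b ep em n B where
  ha := O.a4
  hb := O.b4
  n0 := O.n0
  r0 := O.B0
  ep_f := O.ep_n
  ep_l := (abs_le.1 O.ep_l).1
  ep_l' := (abs_le.1 O.ep_l).2
  em_f := by have := O.em_n; have := O.n0; show B + n < pvxrDot em (pvxrE b); omega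
  em_l := (abs_le.1 O.em_l).1
  em_l' := (abs_le.1 O.em_l).2
  ep_M := O.ep_M.le
  em_M := O.em_M.le
  r_M := by have := O.em_n; have := O.em_M; have := O.n0; omega
  sep := by rintro rfl; exact pvej_sep J

theorem pvej_mid_mem {δ : ℝ} (hδ : 0 ≤ δ) {p q : ℤ × ℤ} (h : PvtAdj4 p q) : (pvtCtr δ p + pvtCtr δ q) / 2 ∈ pvtSq δ q := by
  have e1 : ((pvtCtr δ p + pvtCtr δ q) / 2).re = (((p.1 : ℝ) + 1 / 2) * δ + ((q.1 : ℝ) + 1 / 2) * δ) / 2 := by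
    rw [show (pvtCtr δ p + pvtCtr δ q) / 2 = ((1 / 2 : ℝ) : ℂ) * (pvtCtr δ p + pvtCtr δ q) by push_cast; ring, re_ofReal_mul]
    simp only [add_re, pvtCtr]; ring
  have e2 : ((pvtCtr δ p + pvtCtr δ q) / 2).im = (((p.2 : ℝ) + 1 / 2) * δ + ((q.2 : ℝ) + 1 / 2) * δ) / 2 := by
    rw [show (pvtCtr δ p + pvtCtr δ q) / 2 = ((1 / 2 : ℝ) : ℂ) * (pvtCtr δ p + pvtCtr δ q) by push_cast; ring, im_ofReal_mul]
    simp only [add_im, pvtCtr]; ring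
  show _ ≤ ((pvtCtr δ p + pvtCtr δ q) / 2).re ∧ ((pvtCtr δ p + pvtCtr δ q) / 2).re ≤ _ ∧ _ ≤ ((pvtCtr δ p + pvtCtr δ q) / 2).im ∧ ((pvtCtr δ p + pvtCtr δ q) / 2).im ≤ _
  rw [e1, e2]
  rcases h with ⟨k1, k2 | k2⟩ | ⟨k1, k2 | k2⟩
  · have k1' : (q.1 : ℝ) = p.1 := by exact_mod_cast k1
    have k2' : (q.2 : ℝ) = p.2 + 1 := by exact_mod_cast k2
    rw [k1', k2']
    exact ⟨by linarith, by linarith, by linarith, by linarith⟩
  · have k1' : (q.1 : ℝ) = p.1 := by exact_mod_cast k1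
    have k2' : (q.2 : ℝ) = p.2 - 1 := by exact_mod_cast k2
    rw [k1', k2']
    exact ⟨by linarith, by linarith, by linarith, by linarith⟩
  · have k1' : (q.2 : ℝ) = p.2 := by exact_mod_cast k1
    have k2' : (q.1 : ℝ) = p.1 + 1 := by exact_mod_cast k2
    rw [k1', k2']
    exact ⟨by linarith, by linarith, by linarith, by linarith⟩
  · have k1' : (q.2 : ℝ) = p.2 := by exact_mod_cast k1
    have k2' : (q.1 : ℝ) = p.1 - 1 := by exact_mod_cast k2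
    rw [k1', k2']
    exact ⟨by linarith, by linarith, by linarith, by linarith⟩

/-- **the path of a word started at the door `(e, a)`** -/
theorem pvej_path (δ : ℝ) (a : ℕ) (e : ℤ × ℤ) (l : List PvtTurn) :
    ∃ tl, pvrwCells e (pvxrE a) l = e :: tl ∧ List.IsChain PvtAdj4 ((e - pvxrE a) :: e :: tl) ∧
      pvtCentres (pvtZ e) (pvtZ e - pvtZ (e - pvxrE a)) l = (e :: tl).map pvtZ ∧
      pvxrDoor δ e a = (pvtCtr δ (e - pvxrE a) + pvtCtr δ e) / 2 ∧ (I : ℂ) ^ a = pvtZ e - pvtZ (e - pvxrE a) := by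
  have hZ : pvtZ e - pvtZ (e - pvxrE a) = pvtZ (pvxrE a) := by
    have := pvtZ_add (e - pvxrE a) (pvxrE a)
    rw [sub_add_cancel] at this
    rw [this]; ring
  refine ⟨(pvrwCells e (pvxrE a) l).tail, pvej_cells_cons _ _ _, ?_, ?_, pvxr_door_eq δ e a, ?_⟩
  · rw [← pvej_cells_cons]; exact pvej_chain (pvrw_E_unit a) e l
  · rw [← pvej_cells_cons, hZ]; exact pvrw_centres _ _ _
  · rw [hZ, pvxr_Z_E]

/-- **THE POINTS OF THE THIN CHAIN**: the door point `j` lies in the closed cell `x_j` of the path, whose centre is (door point) `+ δ` (frame) `/ 2`, and `x_j` lies on the out-run, on the ring road or on the ramp -/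
theorem pvej_l1_pts (hδ : 0 < δ) (G : PvrwGood M a b ep em n B) (j : ℕ) (hj : j ≤ (pvxrWord M a b ep em n).length) :
    ∃ x, (PvrwOut M a ep x ∨ PvrwRing M x ∨ PvrwRamp M b em n x) ∧ pvthZ δ (pvxrDoor δ ep a) (I ^ a) (pvxrWord M a b ep em n) j ∈ pvtSq δ x ∧
      pvthZ δ (pvxrDoor δ ep a) (I ^ a) (pvxrWord M a b ep em n) j + (δ : ℂ) * pvthD (I ^ a) (pvxrWord M a b ep em n) j / 2 = pvtCtr δ x := by
  obtain ⟨tl, h1, hc, h3, h4, h5⟩ := pvej_path δ a ep (pvxrWord M a b ep em n)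
  have hlen := pvccm_len_eq h3
  have hj1 : j < (ep :: tl).length := by simp only [List.length_cons]; omega
  have hj2 : j + 1 < ((ep - pvxrE a) :: ep :: tl).length := by simp only [List.length_cons]; omega
  refine ⟨(ep :: tl)[j], pvrw_L1_mem G (by unfold pvrwL1; rw [h1]; exact List.getElem_mem _), ?_, ?_⟩
  · rw [h4, h5, pvccm_door δ h3 j hj2]
    exact pvej_mid_mem hδ.le (List.isChain_iff_getElem.1 hc j hj2)
  · rw [← pvccm_centre δ h3 j hj1, h4, h5, pvccC, pvthZ_eq, ← pvthD_eq]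
    ring

theorem pvej_door_eq (δ : ℝ) (e : ℤ × ℤ) (a : ℕ) : pvxrDoor δ e a = pvtCtr δ e - ((δ / 2 : ℝ) : ℂ) * I ^ a := by
  rw [pvxrDoor, pvccm_ctr]
  push_cast
  ring

theorem pvej_F_door (δ : ℝ) (e : ℤ × ℤ) (a : ℕ) : pvehFront a (pvxrDoor δ e a) = pvehFront a (pvtCtr δ e) - δ / 2 := by
  rw [pvej_door_eq, pvej_F_sub, pvej_F_smul, (pvej_F_pow a).1, mul_one]

theorem pvej_ctr_mem {δ : ℝ} (hδ : 0 ≤ δ) (x : ℤ × ℤ) : pvtCtr δ x ∈ pvtSq δ x := by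
  refine ⟨?_, ?_, ?_, ?_⟩ <;> simp only [pvtCtr] <;> nlinarith

/-- **(E1)**, abstract -/
theorem pvej_l1_o (J : PvejGeo δ r Rk Yp Ym a b ep em n) (G : PvrwGood M a b ep em n B) (j : ℕ) (hj : j ≤ (pvxrWord M a b ep em n).length) :
    (pvegS Yp (I ^ a) (pvxrDoor δ ep a) ≤ pvegS Yp (I ^ a) (pvthZ δ (pvxrDoor δ ep a) (I ^ a) (pvxrWord M a b ep em n) j) ∨
      r / 2 + δ < ‖pvthZ δ (pvxrDoor δ ep a) (I ^ a) (pvxrWord M a b ep em n) j - Yp‖) ∧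
    (pvegS Yp (I ^ a) (pvxrDoor δ ep a) + δ / 2 ≤ pvegS Yp (I ^ a) (pvthZ δ (pvxrDoor δ ep a) (I ^ a) (pvxrWord M a b ep em n) j + (δ : ℂ) * pvthD (I ^ a) (pvxrWord M a b ep em n) j / 2) ∨
      r / 2 + δ < ‖pvthZ δ (pvxrDoor δ ep a) (I ^ a) (pvxrWord M a b ep em n) j + (δ : ℂ) * pvthD (I ^ a) (pvxrWord M a b ep em n) j / 2 - Yp‖) := by
  have hδ := J.δ0
  have hf := J.fine
  obtain ⟨x, hx, h1, h2⟩ := pvej_l1_pts hδ G j hj
  rw [h2]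
  have hc := pvej_ctr_mem hδ.le x
  have hYp : pvccN Yp ≤ Rk + r / 10 := by linarith [(abs_le.1 J.Yp_n).2]
  rcases hx with hx | hx | hx
  · refine ⟨Or.inl ?_, Or.inl ?_⟩
    · rw [pvej_S_eq, pvej_S_eq, pvej_F_sub, pvej_F_sub, pvej_F_door]
      linarith [(pvej_out_front J hx h1).1]
    · rw [pvej_S_eq, pvej_S_eq, pvej_F_sub, pvej_F_sub, pvej_F_door]
      have e1 := pvej_F_ctr δ a x ep
      have : (pvrwF a ep : ℝ) ≤ (pvrwF a x : ℝ) := by exact_mod_cast hx.2.1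
      nlinarith
  · exact ⟨Or.inr (by linarith [pvej_ring_far J G.em_M hx h1 hYp]), Or.inr (by linarith [pvej_ring_far J G.em_M hx hc hYp])⟩
  · exact ⟨Or.inr (by linarith [pvej_ramp_far J hx h1]), Or.inr (by linarith [pvej_ramp_far J hx hc])⟩

/-- **(E2)**, abstract -/
theorem pvej_l1_i (J : PvejGeo δ r Rk Yp Ym a b ep em n) (G : PvrwGood M a b ep em n B) (j : ℕ) (hj : j ≤ (pvxrWord M a b ep em n).length) :
    (pvegS Ym (I ^ b) (pvxrDoor δ em b) + δ / 2 ≤ pvegS Ym (I ^ b) (pvthZ δ (pvxrDoor δ ep a) (I ^ a) (pvxrWord M a b ep em n) j) ∨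
      r / 2 + δ < ‖pvthZ δ (pvxrDoor δ ep a) (I ^ a) (pvxrWord M a b ep em n) j - Ym‖) ∧
    (pvegS Ym (I ^ b) (pvxrDoor δ em b) + δ / 2 ≤ pvegS Ym (I ^ b) (pvthZ δ (pvxrDoor δ ep a) (I ^ a) (pvxrWord M a b ep em n) j + (δ : ℂ) * pvthD (I ^ a) (pvxrWord M a b ep em n) j / 2) ∨
      r / 2 + δ < ‖pvthZ δ (pvxrDoor δ ep a) (I ^ a) (pvxrWord M a b ep em n) j + (δ : ℂ) * pvthD (I ^ a) (pvxrWord M a b ep em n) j / 2 - Ym‖) := by
  have hδ := J.δ0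
  have hf := J.fine
  obtain ⟨x, hx, h1, h2⟩ := pvej_l1_pts hδ G j hj
  rw [h2]
  have hc := pvej_ctr_mem hδ.le x
  have hYm : pvccN Ym ≤ Rk + r / 10 := by linarith [(abs_le.1 J.Ym_n).2]
  have f1 := abs_le.1 J.em_f
  rw [pvej_F_sub] at f1
  rcases hx with hx | hx | hx
  · exact ⟨Or.inr (by linarith [pvej_out_far J hx h1]), Or.inr (by linarith [pvej_out_far J hx hc])⟩
  · exact ⟨Or.inr (by linarith [pvej_ring_far J G.em_M hx h1 hYm]), Or.inr (by linarith [pvej_ring_far J G.em_M hx hc hYm])⟩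
  · refine ⟨Or.inl ?_, Or.inl ?_⟩
    · rw [pvej_S_eq, pvej_S_eq, pvej_F_sub, pvej_F_door]
      linarith [(pvej_ramp_zone J hx h1).1, f1.2]
    · rw [pvej_S_eq, pvej_S_eq, pvej_F_sub, pvej_F_door]
      linarith [(pvej_ramp_zone J hx hc).1, f1.2]

end pts

/-! ## 5. AT THE MODEL -/

section model

variable {τ : Type} {c : ℝ} {𝔓 : PvxPar τ c}

theorem pvej_cell_near {δ : ℝ} (hδ : 0 < δ) (N : ℕ) (w : ℂ) (k : ℕ) : |pvehFront k (pvtCtr δ (pvxrCell N w) - (((N : ℝ) * δ : ℝ) : ℂ) * w)| ≤ δ / 2 := by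
  have a1 : (⌊(N : ℝ) * w.re⌋ : ℝ) ≤ (N : ℝ) * w.re := Int.floor_le _
  have a2 : (N : ℝ) * w.re < (⌊(N : ℝ) * w.re⌋ : ℝ) + 1 := Int.lt_floor_add_one _
  have b1 : (⌊(N : ℝ) * w.im⌋ : ℝ) ≤ (N : ℝ) * w.im := Int.floor_le _
  have b2 : (N : ℝ) * w.im < (⌊(N : ℝ) * w.im⌋ : ℝ) + 1 := Int.lt_floor_add_one _
  rw [pvej_F_sub, pvej_F_smul, abs_le]
  rcases pvej_mod k with ⟨h, -⟩ | ⟨h, -⟩ | ⟨h, -⟩ | ⟨h, -⟩ <;> simp only [pvehFront, h, pvtCtr, pvxrCell] <;> constructor <;> nlinarith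

theorem pvej_base {δ h κ : ℝ} {N : ℕ} (hδ : 0 < δ) (hN : (N : ℝ) * δ = h) (y : ℂ) (a : ℕ) :
    |pvehFront a (pvtCtr δ (pvxrCell N (y + (κ : ℂ) * I ^ a)) - (h : ℂ) * y) - h * κ| ≤ δ / 2 ∧
    |pvehFront (a + 1) (pvtCtr δ (pvxrCell N (y + (κ : ℂ) * I ^ a)) - (h : ℂ) * y)| ≤ δ / 2 := by
  have e : pvtCtr δ (pvxrCell N (y + (κ : ℂ) * I ^ a)) - (h : ℂ) * y = (pvtCtr δ (pvxrCell N (y + (κ : ℂ) * I ^ a)) - (((N : ℝ) * δ : ℝ) : ℂ) * (y + (κ : ℂ) * I ^ a)) + ((h * κ : ℝ) : ℂ) * I ^ a := by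
    rw [hN]; push_cast; ring
  rw [e, pvej_F_add, pvej_F_add, pvej_F_smul, pvej_F_smul, (pvej_F_pow a).1, (pvej_F_pow a).2, mul_one, mul_zero, add_zero, add_sub_cancel_right]
  exact ⟨pvej_cell_near hδ N _ a, pvej_cell_near hδ N _ (a + 1)⟩

/-- **the real data at the model** -/
theorem pvej_geo_at {m : ℕ} {t : τ} (hρ : 0 < 𝔓.num.rho) (hf : 1000 * pvlmDel c m ≤ 𝔓.num.rho * pvlmH m) (hT : pviwTyOk 𝔓 t) :
    PvejGeo (pvlmDel c m) (pvegR 𝔓 m) (pviwRad 𝔓 m t) (pvegYp 𝔓 m t) (pvegYm 𝔓 m t) (pvxrA 𝔓 t) (pvxrB 𝔓 t) (pvxrEp 𝔓 m t) (pvxrEm 𝔓 m t) (pvxrNw 𝔓 m) := by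
  have hδ := pvlm_Del_pos c m
  have hh := pvlm_H_pos m
  have hN := pvlm_N_mul_Del c m
  have hk : pvlmH m * pvxrKap 𝔓 = 3 * pvegR 𝔓 m / 8 := by unfold pvxrKap pvegR; ring
  have bp := pvej_base (κ := pvxrKap 𝔓) hδ hN (pvxrYp 𝔓 t) (pvxrA 𝔓 t)
  have bm := pvej_base (κ := pvxrKap 𝔓) hδ hN (pvxrYm 𝔓 t) (pvxrB 𝔓 t)
  rw [hk] at bp bm
  have k1 : ((pvxrNw 𝔓 m : ℤ) : ℝ) < (pvlmN c m : ℝ) * (𝔓.num.rho / 32) + 1 := Int.ceil_lt_add_one _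
  have k2 : (pvlmN c m : ℝ) * (𝔓.num.rho / 32) ≤ ((pvxrNw 𝔓 m : ℤ) : ℝ) := Int.le_ceil _
  have k3 : (pvlmN c m : ℝ) * (𝔓.num.rho / 32) * pvlmDel c m = pvegR 𝔓 m / 32 := by unfold pvegR; rw [← hN]; ring
  have nrm : ∀ y : ℂ, ∀ A : ℝ, |pvccN y - A| ≤ 𝔓.num.rho / 10 → |pvccN ((pvlmH m : ℂ) * y) - A * pvlmH m| ≤ pvegR 𝔓 m / 10 := by
    intro y A h
    rw [pvccN_real_mul hh.le, show pvlmH m * pvccN y - A * pvlmH m = pvlmH m * (pvccN y - A) by ring, abs_mul, abs_of_pos hh]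
    unfold pvegR
    nlinarith
  exact
    { δ0 := hδ
      fine := hf
      Yp_f := by unfold pvegYp; rw [pvej_F_smul, pvccN_real_mul hh.le]; congr 1; exact pvej_F_side _
      Ym_f := by unfold pvegYm; rw [pvej_F_smul, pvccN_real_mul hh.le]; congr 1; exact pvej_F_side _
      Yp_n := nrm _ _ hT.1
      Ym_n := nrm _ _ hT.2.1
      far := by
        unfold pvegYp pvegYm pvegR
        rw [← mul_sub, norm_mul, Complex.norm_real, Real.norm_of_nonneg hh.le]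
        nlinarith [hT.2.2]
      ep_f := bp.1
      ep_l := bp.2
      em_f := bm.1
      em_l := bm.2
      n_lo := by rw [← k3]; exact mul_le_mul_of_nonneg_right k2 hδ.le
      n_hi := by
        have := mul_le_mul_of_nonneg_right k1.le hδ.le
        rw [add_mul, k3, one_mul] at this
        exact this }

/-- **(E1) of `Exit/EngAll`** (both halves, for `j ≤ n`) -/
theorem pvej_E1 {m : ℕ} {t : τ} {B : ℤ} (hΓ : 𝔓.Γ m = pvxrGam 𝔓 m) (hρ : 0 < 𝔓.num.rho) (hf : 1000 * pvlmDel c m ≤ 𝔓.num.rho * pvlmH m) (hT : pviwTyOk 𝔓 t)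
    (O : PvxrOK B (pvxrM 𝔓 m t) (pvxrA 𝔓 t) (pvxrB 𝔓 t) (pvxrEp 𝔓 m t) (pvxrEm 𝔓 m t) (pvxrNw 𝔓 m))
    (j : ℕ) (hj : j ≤ ((𝔓.Γ m).l1 t).length) :
    (pvegS (pvegYp 𝔓 m t) ((𝔓.Γ m).dout t) ((𝔓.Γ m).pout t) ≤ pvegS (pvegYp 𝔓 m t) ((𝔓.Γ m).dout t) (pvthZ (pvlmDel c m) ((𝔓.Γ m).pout t) ((𝔓.Γ m).dout t) ((𝔓.Γ m).l1 t) j) ∨
      pvegR 𝔓 m / 2 + pvlmDel c m < ‖pvthZ (pvlmDel c m) ((𝔓.Γ m).pout t) ((𝔓.Γ m).dout t) ((𝔓.Γ m).l1 t) j - pvegYp 𝔓 m t‖) ∧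
    (pvegS (pvegYp 𝔓 m t) ((𝔓.Γ m).dout t) ((𝔓.Γ m).pout t) + pvlmDel c m / 2 ≤
        pvegS (pvegYp 𝔓 m t) ((𝔓.Γ m).dout t) (pvthZ (pvlmDel c m) ((𝔓.Γ m).pout t) ((𝔓.Γ m).dout t) ((𝔓.Γ m).l1 t) j + (pvlmDel c m : ℂ) * pvthD ((𝔓.Γ m).dout t) ((𝔓.Γ m).l1 t) j / 2) ∨
      pvegR 𝔓 m / 2 + pvlmDel c m < ‖pvthZ (pvlmDel c m) ((𝔓.Γ m).pout t) ((𝔓.Γ m).dout t) ((𝔓.Γ m).l1 t) j + (pvlmDel c m : ℂ) * pvthD ((𝔓.Γ m).dout t) ((𝔓.Γ m).l1 t) j / 2 - pvegYp 𝔓 m t‖) := by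
  have J := pvej_geo_at (m := m) hρ hf hT
  rw [hΓ] at hj ⊢
  exact pvej_l1_o J (pvej_good O J) j hj

/-- **(E2) of `Exit/EngAll`** (both halves, for `j ≤ n`) -/
theorem pvej_E2 {m : ℕ} {t : τ} {B : ℤ} (hΓ : 𝔓.Γ m = pvxrGam 𝔓 m) (hρ : 0 < 𝔓.num.rho) (hf : 1000 * pvlmDel c m ≤ 𝔓.num.rho * pvlmH m) (hT : pviwTyOk 𝔓 t)
    (O : PvxrOK B (pvxrM 𝔓 m t) (pvxrA 𝔓 t) (pvxrB 𝔓 t) (pvxrEp 𝔓 m t) (pvxrEm 𝔓 m t) (pvxrNw 𝔓 m))
    (j : ℕ) (hj : j ≤ ((𝔓.Γ m).l1 t).length) :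
    (pvegS (pvegYm 𝔓 m t) (-(𝔓.Γ m).din t) ((𝔓.Γ m).pin t) + pvlmDel c m / 2 ≤ pvegS (pvegYm 𝔓 m t) (-(𝔓.Γ m).din t) (pvthZ (pvlmDel c m) ((𝔓.Γ m).pout t) ((𝔓.Γ m).dout t) ((𝔓.Γ m).l1 t) j) ∨
      pvegR 𝔓 m / 2 + pvlmDel c m < ‖pvthZ (pvlmDel c m) ((𝔓.Γ m).pout t) ((𝔓.Γ m).dout t) ((𝔓.Γ m).l1 t) j - pvegYm 𝔓 m t‖) ∧
    (pvegS (pvegYm 𝔓 m t) (-(𝔓.Γ m).din t) ((𝔓.Γ m).pin t) + pvlmDel c m / 2 ≤
        pvegS (pvegYm 𝔓 m t) (-(𝔓.Γ m).din t) (pvthZ (pvlmDel c m) ((𝔓.Γ m).pout t) ((𝔓.Γ m).dout t) ((𝔓.Γ m).l1 t) j + (pvlmDel c m : ℂ) * pvthD ((𝔓.Γ m).dout t) ((𝔓.Γ m).l1 t) j / 2) ∨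
      pvegR 𝔓 m / 2 + pvlmDel c m < ‖pvthZ (pvlmDel c m) ((𝔓.Γ m).pout t) ((𝔓.Γ m).dout t) ((𝔓.Γ m).l1 t) j + (pvlmDel c m : ℂ) * pvthD ((𝔓.Γ m).dout t) ((𝔓.Γ m).l1 t) j / 2 - pvegYm 𝔓 m t‖) := by
  have J := pvej_geo_at (m := m) hρ hf hT
  rw [hΓ] at hj ⊢
  rw [pvxr_gam_din, neg_neg]
  exact pvej_l1_i J (pvej_good O J) j hj

/-- **W-7, `eY_front` at the engine of record** (`eY = pveheY ∪ pvegIK` of 124): inside the region of the reference plug the room of the thick link lies `Δ/64` in front of the plane of the plug -/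
theorem pvej_eY_front {m : ℕ} {t : τ} (hL : PvegLev 𝔓 m) (hf : 1000 * pvlmDel c m ≤ 𝔓.num.rho * pvlmH m) (hT : pviwTyOk 𝔓 t) (Z : PvehGeo 𝔓 m t) {v : ℂ}
    (hv : v ∈ pveheY 𝔓 (pvegIM 𝔓) m t ∪ pvegIK 𝔓 m t) (hO : v ∈ pvieSh ((pvxrGam 𝔓 m).zu t) (pvehrO 𝔓 m)) : pvehDl 𝔓 m / 64 ≤ (v - (pvxrGam 𝔓 m).zu t).re := by
  have J := pvej_geo_at (m := m) hL.rho0 hf hT
  have hb : v ∈ pvehSq ((pvxrGam 𝔓 m).zu t) (pvehDl 𝔓 m / 2) := by
    have h1 : pvieSh ((pvxrGam 𝔓 m).zu t) (pvehSq 0 (pvehDl 𝔓 m / 2)) = pvehSq ((pvxrGam 𝔓 m).zu t) (pvehDl 𝔓 m / 2) := by rw [pveh_sh_sqc, add_zero]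
    rw [← h1]
    exact Set.image_mono (pveh_O_sub (pveh_Dl_pos Z.n0).le) hO
  rw [Z.zu'] at hb
  have hoff := pvej_plug_off2 J hb
  rcases hv with hv | hv
  · exact pveh_eY_front Z.n0 t hv hO (fun h => hoff (pveg_M_ball (pveg_door_i hL hT) h))
  · exact absurd (pveg_K_ball (pveg_door_i hL hT) hv) hoff

end model

end Claimed.Agent.R289
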