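import Claimed.Agent.R289.Exit.Par
import Claimed.Agent.R289.Exit.ParEngR

/-!
# Row 289 (S0537), THE WALL, ROAD E, roof (S0) PAR : THE FACTS ON THE DOORS AT THE PARAMETERS OF RECORD      (helper1; prefix `pvxr`, continuation of `Exit/TrPar.lean`)

`Exit/TrPar.lean` proves everything on `pvxrGam 𝔓` under ONE hypothesis `PvxrNdg 𝔓 m t` (the type is not degenerate, the level is fine).      HERE: that hypothesis is PAID
* at the parameters of record `pvxParOf N hN c` of 73 (`Exit/Par.lean`), for ALL types and ALL levels `N.m0 ≤ m`      (`pvxr_ndg_par`);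
* for any parameters, from `pviwTyOk` of 168 + numbers      (`pvxr_ndg_of_tyOk`);
and the consumers' records are filled:   `PvehGeo` of 166 (`pvxr_geo`, `pvxr_geo_par`),   `PvfeDoors` of 209 (`pvxr_doors_par`),   integer geometry `PvxrOK` (`pvxr_ok_par`), `zu`, cell-simplicity of `l1`.
-/

set_option autoImplicit false

namespace Claimed.Agent.R289

open Set Complex Claims.C0465

section gen

variable {τ : Type} {c : ℝ} {𝔓 : PvxPar τ c}

/-- from the predicate of 168 -/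
theorem pvxr_ndg_of_tyOk {m : ℕ} {t : τ} (hT : pviwTyOk 𝔓 t) (rho0 : 0 < 𝔓.num.rho) (rho8 : 8 * 𝔓.num.rho ≤ 1) (rho1 : 0 ≤ 𝔓.num.rho1) (b2 : 0 ≤ (𝔓.ty t).b2)
    (lev : (𝔓.ty t).k ≤ 𝔓.num.K) (fine : 1024 * pvlmDel c m ≤ 𝔓.num.rho * pvlmH m) : PvxrNdg 𝔓 m t where
  rho0 := rho0
  rho8 := rho8
  rho1 := rho1
  b2 := b2
  lev := lev
  fine := by
    have hd := pvlm_Del_pos c m
    rw [← pvlm_N_mul_Del c m] at fine
    have : 1024 * pvlmDel c m ≤ ((pvlmN c m : ℝ) * 𝔓.num.rho) * pvlmDel c m := by linarith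
    exact le_of_mul_le_mul_right this hd
  nd_p := hT.1
  nd_m := hT.2.1
  far := hT.2.2

theorem pvxr_front_eq (b : ℕ) (w : ℂ) : pvehFront b w = pvxrNorA b w := by
  unfold pvehFront pvxrNorA
  have h : b % 4 < 4 := Nat.mod_lt _ (by norm_num)
  generalize b % 4 = k at *
  interval_cases k <;> rfl

/-- **the record of 166** -/
theorem pvxr_geo {m : ℕ} {t : τ} (h : PvxrNdg 𝔓 m t) : PvehGeo 𝔓 m t where
  n0 := (pvxr_ok h).n0
  zu := pvxr_zu h
  front := by
    rw [pvxr_front_eq]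
    refine lt_of_lt_of_le ?_ (pvxr_front_m h)
    have hd := pvlm_Del_pos c m
    have hn : (0 : ℝ) ≤ (pvxrNw 𝔓 m : ℝ) := by exact_mod_cast (pvxr_ok h).n0
    have hf : 1024 * pvlmDel c m ≤ 𝔓.num.rho * pvlmH m := by
      rw [← pvlm_N_mul_Del c m]
      have := mul_le_mul_of_nonneg_right h.fine hd.le
      linarith
    unfold pviwRad pvehDl
    nlinarith

end gen

section par

variable {N : PvxNums} (hN : N.Ok) {c : ℝ} (c0 : 0 < c)

include c0 in
/-- **AT THE PARAMETERS OF RECORD: every type is non degenerate, every level `m0 ≤ m` is fine** -/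
theorem pvxr_ndg_par {m : ℕ} (hm : N.m0 ≤ m) (t : pvxTau N) : PvxrNdg (pvxParOf N hN c) m t where
  rho0 := hN.rho0
  rho8 := by
    show 8 * N.rho ≤ 1
    linarith [hN.rho1, hN.rho2, hN.rho3, hN.rho0, hN.rho1_pos, hN.rho2_pos]
  rho1 := hN.rho1_pos.le
  b2 := hN.b2_pos.le
  lev := pvxo_K_le hN t
  fine := by
    have hd := pvlm_Del_pos c m
    have h1 := pvxo_fine hN c0 hm
    rw [← pvlm_N_mul_Del c m] at h1
    show 1024 ≤ (pvlmN c m : ℝ) * N.rho
    have : 1024 * pvlmDel c m ≤ ((pvlmN c m : ℝ) * N.rho) * pvlmDel c m := by linarith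
    exact le_of_mul_le_mul_right this hd
  nd_p := pvxo_nd_p t
  nd_m := pvxo_nd_m t
  far := by
    have := pvxo_nd_far t
    show 7 * N.rho / 4 ≤ ‖pvxoYp t - pvxoYm t‖
    linarith [hN.rho0]

include c0 in
theorem pvxr_ok_par {m : ℕ} (hm : N.m0 ≤ m) (t : pvxTau N) :
    PvxrOK (pvxrBx (pvxParOf N hN c) m t) (pvxrM (pvxParOf N hN c) m t) (pvxrA (pvxParOf N hN c) t) (pvxrB (pvxParOf N hN c) t) (pvxrEp (pvxParOf N hN c) m t) (pvxrEm (pvxParOf N hN c) m t)
      (pvxrNw (pvxParOf N hN c) m) := pvxr_ok (pvxr_ndg_par hN c0 hm t)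

include c0 in
theorem pvxr_geo_par {m : ℕ} (hm : N.m0 ≤ m) (t : pvxTau N) : PvehGeo (pvxParOf N hN c) m t := pvxr_geo (pvxr_ndg_par hN c0 hm t)

include c0 in
theorem pvxr_zu_par {m : ℕ} (hm : N.m0 ≤ m) (t : pvxTau N) :
    ((pvxParOf N hN c).Γ m).zu t = pvtCtr (pvlmDel c m) (pvxrEm (pvxParOf N hN c) m t + pvxrUo (pvxrB (pvxParOf N hN c) t) (2 * pvxrNw (pvxParOf N hN c) m + 1)) :=
  pvxr_zu (𝔓 := pvxParOf N hN c) (pvxr_ndg_par hN c0 hm t)

include c0 in
theorem pvxr_l1_simple_par {m : ℕ} (hm : N.m0 ≤ m) (t : pvxTau N) : PvccSimple (((pvxParOf N hN c).Γ m).l1 t) (((pvxParOf N hN c).Γ m).l1 t).length :=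
  pvxr_l1_simple (𝔓 := pvxParOf N hN c) (pvxr_ndg_par hN c0 hm t)

/-- **the line `doors` of 209**, for ALL levels and ALL types -/
theorem pvxr_doors_par (m : ℕ) : PvfeDoors ((pvxParOf N hN c).Γ m) (pvxParOf N hN c).ty (pvxParOf N hN c).num (pvlmH m) :=
  pvxr_doors (pvxParOf N hN c) m
    (fun t => (pvxo_nd_p t).trans (by show N.rho / 10 ≤ N.rho / 4; linarith [hN.rho0]))
    (fun t => (pvxo_nd_m t).trans (by show N.rho / 10 ≤ N.rho / 4; linarith [hN.rho0]))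

end par

end Claimed.Agent.R289
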