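import Claimed.Agent.R289.Exit.ParEngF
import Claimed.Agent.R289.Exit.ParGeo
import Claimed.Agent.R289.Tr.RegS

/-!
# Row 289 (S0537), THE WALL, ROAD E, file Exit/ParEngH : (Rd) OF RULING 22: THE ROOMS OF THE SPECIAL LINKS ARE BOUNDED AND HAVE NO HOLE      (helper39; prefix `pvrh`)

`IsPreconnected Yᶜ ∧ IsBounded Y` AT THE ROOMS OF RECORD of `pveaEng` (124 `Exit/EngAll` v4):
* **`pvrh_oY`**, **`pvrh_iY`** : `pvegOYa`, `pvegIYa` (124: mouth ∪ funnel up to the plane of W-7: two convex pieces with a common point)      PROVED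
* **`pvrh_rY`** : `pvehrY` (166: a closed rectangle)      PROVED
* **`pvrh_eY`**, `pvrh_eY_bdd` : `pveheY 𝔓 (pvegIM 𝔓) m t ∪ pvegIK 𝔓 m t` (166 + funnel of 124)      PROVED (abstract door: `pvrh_e_room`, through `pvrr_room_e_pl` of `Tr/RegS` and T6 `pvrj_funnel`)
* **`pvrh_fY0`**, `pvrh_fY0_bdd`, **`pvrh_fY`** : `pveffY0`, `pveffY = pvljCore (3δ/1000) pveffY0` (182)      PROVED from the leaves below (through `pvrr_room_f_pl`: only `PvccSimple`, no `PvfeNR`)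
  - **(F8) `pvrh_f_far`** : mouth and funnel of the thick return are `(1/2 + 1/20) Δ` away (sup norm) from the centres of its blocks `k ≥ 1`.   NOT a consequence of `PvefOKb` (`cor : 13 ∨ 13` is too weak: `a = 1, b = 0, B = 20, e⁺ = (19,22), e⁻ = (22,9)`: the ramp crosses the zone of the exit mouth, `fY` would have a hole): the sharper line is
  - `pvrh_cor_cells` (`15 g` aside, or other side and `21 g` behind; true from `far : 7ρ/4`), `pvrh_cor_aux` (numbers), `pvrh_cor_blocks` (`13` aside or `19` behind), **`pvrh_in_p`** (integers, PROVED by `omega`), `pvrh_V_p` (PROVED)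
  - `pvrh_word_T0` : the word begins with `S`
Tools: `pvrh_rect_pl` (a rectangle of the frame `(S, L)` is a placed funnel `pvrrF`), `pvrh_ball_rect`, `pvrh_S_pl`, `pvrh_L_pl`, `pvrh_norm_le`, `pvrh_dot`, `pvrh_convex_hole`.
Translation to the pin at `z`: `pvieSh z Y = pvccPl z 1 Y`, `pvrr_pl_conn` (sec. 4).
-/

set_option autoImplicit false

namespace Claimed.Agent.R289

open Set Metric Complex

/-! ## 1. rectangles of the local frame `(S, L)` as placed funnels -/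

theorem pvrh_frame {u : ℂ} (hu : u ^ 4 = 1) {Δ : ℝ} (hΔ : 0 < Δ) (Y Z v : ℂ) :
    ((v - Z) / ((Δ : ℂ) * u)).re = (pvegS Y u v - pvegS Y u Z) / Δ ∧ ((v - Z) / ((Δ : ℂ) * u)).im = (pvegL Y u v - pvegL Y u Z) / Δ := by
  have h1 := pveg_unit_conj hu
  have hu0 : u ≠ 0 := by
    intro h
    rw [h] at hu
    norm_num at hu
  have hΔ' : (Δ : ℂ) ≠ 0 := by exact_mod_cast hΔ.ne'
  have e : (v - Z) / ((Δ : ℂ) * u) = ((v - Z) * (starRingEnd ℂ) u) / (Δ : ℂ) := by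
    field_simp
    rw [mul_assoc, h1, mul_one]
  rw [e, Complex.div_ofReal_re, Complex.div_ofReal_im, pveg_S_sub, pveg_L_sub]
  exact ⟨rfl, rfl⟩

/-- **a rectangle of the frame `(S, L)` of `(Y, u)` is a placed funnel**, any origin `Z`, any scale `Δ` -/
theorem pvrh_rect_pl {u : ℂ} (hu : u ^ 4 = 1) {Δ : ℝ} (hΔ : 0 < Δ) (Y Z : ℂ) (a b c w : ℝ) :
    {v | a ≤ pvegS Y u v ∧ pvegS Y u v ≤ b ∧ |pvegL Y u v - c| ≤ w} =
      pvccPl Z ((Δ : ℂ) * u) (pvrrF ((a - pvegS Y u Z) / Δ) ((b - pvegS Y u Z) / Δ) ((c - pvegL Y u Z) / Δ) (w / Δ)) := by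
  rw [pvccPl_eq_preimage Z (pvrr_d_ne hΔ hu)]
  ext v
  obtain ⟨e1, e2⟩ := pvrh_frame hu hΔ Y Z v
  simp only [pvrrF, mem_setOf_eq, mem_preimage]
  rw [e1, e2, div_le_div_iff_of_pos_right hΔ, div_le_div_iff_of_pos_right hΔ, ← sub_div, abs_div, abs_of_pos hΔ, div_le_div_iff_of_pos_right hΔ]
  constructor
  · rintro ⟨h1, h2, h3⟩
    exact ⟨by linarith, by linarith, by rwa [show pvegL Y u v - pvegL Y u Z - (c - pvegL Y u Z) = pvegL Y u v - c by ring]⟩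
  · rintro ⟨h1, h2, h3⟩
    exact ⟨by linarith, by linarith, by rwa [show pvegL Y u v - pvegL Y u Z - (c - pvegL Y u Z) = pvegL Y u v - c by ring] at h3⟩

theorem pvrh_S_self (Y u : ℂ) : pvegS Y u Y = 0 := by simp [pvegS]

theorem pvrh_L_self (Y u : ℂ) : pvegL Y u Y = 0 := by simp [pvegL]

/-- **[mouth ∪ rectangle of the frame] HAS NO HOLE**      (shape of `oY`, `iY` after the patch of 124: `closedBall Y rM ∪ pvegRa`) -/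
theorem pvrh_ball_rect {u : ℂ} (hu : u ^ 4 = 1) (Y : ℂ) {a b c w rM : ℝ} (ha : |a| ≤ rM) (hab : a ≤ b) (hc : |c| ≤ w) :
    IsPreconnected (closedBall Y rM ∪ {v | a ≤ pvegS Y u v ∧ pvegS Y u v ≤ b ∧ |pvegL Y u v - c| ≤ w})ᶜ := by
  have hd := pvrr_d_ne one_pos hu
  have hn := pvrr_d_norm one_pos hu
  rw [pvrh_rect_pl hu one_pos Y Y, pvrt_ball_cov Y hd Y rM, ← pvrr_pl_union, pvrh_S_self, pvrh_L_self, hn]
  refine pvrr_pl_conn Y hd (pvrt_star (p := ((a : ℝ) : ℂ)) (pvrj_union_star (convex_closedBall _ _) (pvrr_F_convex _ _ _ _) ?_ ?_) (isBounded_closedBall.union (pvrr_F_bdd _ _ _ _)))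
  · rw [mem_closedBall, dist_eq_norm]
    simpa using ha
  · refine ⟨by simp, by simpa using hab, ?_⟩
    simpa using hc

theorem pvrh_pl_bdd (z d : ℂ) {S : Set ℂ} (h : Bornology.IsBounded S) : Bornology.IsBounded (pvccPl z d S) := by
  obtain ⟨R, hR⟩ := h.subset_closedBall 0
  refine (isBounded_closedBall (x := z) (r := ‖d‖ * R)).subset ?_
  rintro _ ⟨w, hw, rfl⟩
  have := hR hw
  rw [mem_closedBall, dist_eq_norm, sub_zero] at this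
  rw [mem_closedBall, dist_eq_norm]
  simp only [add_sub_cancel_left, norm_mul]
  exact mul_le_mul_of_nonneg_left this (norm_nonneg _)

theorem pvrh_ball_rect_bdd {u : ℂ} (hu : u ^ 4 = 1) (Y : ℂ) (a b c w rM : ℝ) :
    Bornology.IsBounded (closedBall Y rM ∪ {v | a ≤ pvegS Y u v ∧ pvegS Y u v ≤ b ∧ |pvegL Y u v - c| ≤ w}) := by
  refine isBounded_closedBall.union ?_
  rw [pvrh_rect_pl hu one_pos Y Y]
  exact pvrh_pl_bdd _ _ (pvrr_F_bdd _ _ _ _)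

/-! ## 2. the room of the thick short link -/

theorem pvrh_S_pl {u : ℂ} (hu : u ^ 4 = 1) (Y p v : ℂ) (t : ℝ) : pvegS Y u (p + (t : ℂ) * u * v) = pvegS Y u p + t * v.re := by
  have h1 := pveg_unit_conj hu
  have e : (p + (t : ℂ) * u * v - Y) * (starRingEnd ℂ) u = (p - Y) * (starRingEnd ℂ) u + (t : ℂ) * v * (u * (starRingEnd ℂ) u) := by ring
  unfold pvegS
  rw [e, h1, mul_one, Complex.add_re, Complex.re_ofReal_mul]

theorem pvrh_L_pl {u : ℂ} (hu : u ^ 4 = 1) (Y p v : ℂ) (t : ℝ) : pvegL Y u (p + (t : ℂ) * u * v) = pvegL Y u p + t * v.im := by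
  have h1 := pveg_unit_conj hu
  have e : (p + (t : ℂ) * u * v - Y) * (starRingEnd ℂ) u = (p - Y) * (starRingEnd ℂ) u + (t : ℂ) * v * (u * (starRingEnd ℂ) u) := by ring
  unfold pvegL
  rw [e, h1, mul_one, Complex.add_im, Complex.im_ofReal_mul]

theorem pvrh_S_add (Y u p w : ℂ) (t : ℝ) : pvegS Y u (p + (t : ℂ) * w) = pvegS Y u p + t * (w * (starRingEnd ℂ) u).re := by
  have e : (p + (t : ℂ) * w - Y) * (starRingEnd ℂ) u = (p - Y) * (starRingEnd ℂ) u + (t : ℂ) * (w * (starRingEnd ℂ) u) := by ring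
  unfold pvegS
  rw [e, Complex.add_re, Complex.re_ofReal_mul]

theorem pvrh_norm_le {u : ℂ} (hu : u ^ 4 = 1) (Y v : ℂ) : ‖v - Y‖ ≤ |pvegS Y u v| + |pvegL Y u v| := by
  have h := pveg_sq hu Y v
  have h1 : ‖v - Y‖ ^ 2 ≤ (|pvegS Y u v| + |pvegL Y u v|) ^ 2 := by
    rw [h, add_sq, sq_abs, sq_abs]
    nlinarith [mul_nonneg (abs_nonneg (pvegS Y u v)) (abs_nonneg (pvegL Y u v))]
  exact abs_le_of_sq_le_sq' h1 (by positivity) |>.2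

theorem pvrh_dot {b : ℕ} (hb : b < 4) (v : ℤ × ℤ) : (pvtZ v * (starRingEnd ℂ) (I ^ b)).re = (pvxrDot v (pvxrE b) : ℤ) := by
  interval_cases b <;> simp [pvtZ, pvxrDot, pvxrE, pow_succ]

theorem pvrh_le_len (b : ℕ) : 4 ≤ (pvxrLe b).length := by
  rcases pveh_le_cases b with h | h | h | h <;> (rw [h]; decide)

theorem pvrh_le_T0 (b : ℕ) : pvccT (pvxrLe b) 0 = PvtTurn.S := by
  rcases pveh_le_cases b with h | h | h | h <;> (rw [h]; decide)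

theorem pvrh_le_run (b : ℕ) : ∀ k, (pvxrLe b).length ≤ k + 4 → k < (pvxrLe b).length → pvccT (pvxrLe b) k = PvtTurn.S := by
  have key : ∀ l : List PvtTurn, (∀ k < l.length, l.length ≤ k + 4 → pvccT l k = PvtTurn.S) → ∀ k, l.length ≤ k + 4 → k < l.length → pvccT l k = PvtTurn.S := fun l h k h1 h2 => h k h2 h1
  rcases pveh_le_cases b with h | h | h | h <;> (rw [h]; exact key _ (by decide))

theorem pvrh_le_V0 (b : ℕ) : ∀ j, j ≤ (pvxrLe b).length → pvehV (pvxrLe b) j ≠ (0, 0) := by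
  have key : ∀ l : List PvtTurn, (∀ j < l.length + 1, pvehV l j ≠ (0, 0)) → ∀ j, j ≤ l.length → pvehV l j ≠ (0, 0) := fun l h j hj => h j (by omega)
  rcases pveh_le_cases b with h | h | h | h <;> (rw [h]; exact key _ (by decide))

theorem pvrh_le_front {b : ℕ} (hb : b < 4) : ∀ k, k + 4 < (pvxrLe b).length → 4 ≤ pvxrDot (pvxrUo b 1 + pvehV (pvxrLe b) k) (pvxrE b) := by
  have key : ∀ (l : List PvtTurn) (U E : ℤ × ℤ), (∀ k < l.length, k + 4 < l.length → 4 ≤ pvxrDot (U + pvehV l k) E) → ∀ k, k + 4 < l.length → 4 ≤ pvxrDot (U + pvehV l k) E :=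
    fun l U E h k hk => h k (by omega) hk
  interval_cases b <;> exact key _ _ _ (by decide)

theorem pvrh_le_D (Δ : ℝ) (b : ℕ) : pvccD (Δ : ℂ) (pvxrLe b) (pvxrLe b).length = -((Δ : ℂ) * I ^ b) := by
  rw [pvccD_cov]
  unfold pvccD
  rw [List.take_length, pveh_dir_le]
  ring

theorem pvrh_le_Z (Δ : ℝ) (ce : ℂ) (b : ℕ) : pvccZ (pvehZ Δ (ce + (Δ : ℂ) * pvtZ (pvxrUo b 1))) (Δ : ℂ) (pvxrLe b) (pvxrLe b).length = ce + (Δ : ℂ) * I ^ b * (-(1 / 2)) := by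
  have hl := pvrh_le_len b
  have h1 := pvccC_prev (pvehZ Δ (ce + (Δ : ℂ) * pvtZ (pvxrUo b 1))) (Δ : ℂ) (pvxrLe b) (j := (pvxrLe b).length - 1) (by omega)
  rw [show (pvxrLe b).length - 1 + 1 = (pvxrLe b).length by omega, pveh_C_eq, pvrh_le_D] at h1
  have h2 := congrArg pvtZ (pveh_last b 1)
  rw [pvtZ_add, one_smul] at h2
  have h3 : pvtZ (0 : ℤ × ℤ) = 0 := by simp [pvtZ]
  rw [h3] at h2
  linear_combination h1 + (Δ : ℂ) * h2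

/-- the centres of the blocks in the unit frame of the word -/
theorem pvrh_le_back (b : ℕ) : ∀ i, i ≤ (pvxrLe b).length → pvccC 0 1 (pvxrLe b) i ≠ -(1 / 2) := by
  intro i hi h
  have h1 := pveh_C_eq 1 (-(1 / 2)) (pvxrLe b) i
  have e : pvehZ 1 (-(1 / 2)) = 0 := by simp [pvehZ]
  rw [e] at h1
  simp only [Complex.ofReal_one, one_mul] at h1
  rw [h] at h1
  have h2 : pvtZ (pvehV (pvxrLe b) i) = 0 := by linear_combination -h1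
  apply pvrh_le_V0 b i hi
  have h3 : pvtZ (pvehV (pvxrLe b) i) = pvtZ (0, 0) := by rw [h2]; simp [pvtZ]
  exact pvtZ_injective h3

/-- the coordinate along `I ^ b` of a point of the east half lane of the block of the plug -/
theorem pvrh_le_rect {b : ℕ} (hb : b < 4) {v : ℂ} (hv : v ∈ pvrrBk (31 / 64)) : 7 / 2 ≤ ((pvtZ (pvxrUo b 1) + 1 / 2 + v) * (starRingEnd ℂ) (I ^ b)).re := by
  obtain ⟨h1, h2, h3, h4⟩ := hv
  interval_cases b <;> simp [pvtZ, pvxrUo, pow_succ] <;> linarith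

/-- **THE ROOM OF THE THICK SHORT LINK HAS NO HOLE** (abstract door; `eY` of `pveaEng` = room of 166 at the mouth `iM`, and the funnel `iK` of 124) -/
theorem pvrh_e_room {b : ℕ} (hb : b < 4) {Ym pin : ℂ} {R δ Δ rk : ℝ} (H : PvegDoor Ym (I ^ b) pin (R / 10) δ (R / 5) (5 * R / 16) (3 * R / 8) (R / 2) rk)
    (hfine : 1024 * δ ≤ R) (hD1 : R / 16 + δ ≤ Δ) (hD2 : Δ < R / 16 + 3 * δ) :
    IsPreconnected (pvehEY Δ (pin + (δ : ℂ) * I ^ b * (1 / 2) + (Δ : ℂ) * pvtZ (pvxrUo b 1)) (pvxrLe b) (closedBall Ym (5 * R / 16)) ∪ pvegK Ym (I ^ b) pin (R / 10) δ (R / 5) (5 * R / 16))ᶜ := by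
  have hu := H.u4
  have hδ := H.δ0
  have hΔ : 0 < Δ := by linarith
  set u := (I : ℂ) ^ b with hudef
  set ce := pin + (δ : ℂ) * u * (1 / 2) with hce
  set cu := ce + (Δ : ℂ) * pvtZ (pvxrUo b 1) with hcu
  set lb := pvxrLe b with hlb
  have eZ : pvccZ (pvehZ Δ cu) (Δ : ℂ) lb lb.length = ce + (Δ : ℂ) * u * (-(1 / 2)) := pvrh_le_Z Δ ce b
  have eD : -pvccD (Δ : ℂ) lb lb.length = (Δ : ℂ) * u := by rw [hlb, pvrh_le_D, neg_neg]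
  set Zl := pvccZ (pvehZ Δ cu) (Δ : ℂ) lb lb.length with hZl
  -- coordinates
  set Sp := pvegS Ym u pin with hSp
  set Lp := pvegL Ym u pin with hLp
  have s_lo := H.s_lo
  have s_hi := H.s_hi
  have lat := abs_le.1 H.lat
  have Sce : pvegS Ym u ce = Sp + δ / 2 := by rw [hce, pvrh_S_pl hu]; simp; ring
  have Lce : pvegL Ym u ce = Lp := by rw [hce, pvrh_L_pl hu]; simp; rfl
  have SZ : pvegS Ym u Zl = Sp + δ / 2 - Δ / 2 := by rw [eZ, pvrh_S_pl hu, Sce]; simp; ring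
  have LZ : pvegL Ym u Zl = Lp := by rw [eZ, pvrh_L_pl hu, Lce]; simp
  -- the set
  have eRc : pvegRc Ym u pin (R / 10) δ (R / 5) = pvccPl Zl ((Δ : ℂ) * u) (pvrrF ((R / 10 + 2 * δ - pvegS Ym u Zl) / Δ) ((Sp - δ / 4 - pvegS Ym u Zl) / Δ) ((Lp - pvegL Ym u Zl) / Δ) (R / 5 / Δ)) :=
    pvrh_rect_pl hu hΔ Ym Zl _ _ _ _
  have eRect : {w : ℂ | cu.re + Δ / 64 ≤ w.re ∧ w.re ≤ cu.re + Δ / 2 ∧ cu.im - Δ / 10 ≤ w.im ∧ w.im ≤ cu.im + 4 * Δ / 10} = pvccPl (pvehZ Δ cu) (Δ : ℂ) (pvrrBk (31 / 64)) := by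
    have hΔ' : (Δ : ℂ) ≠ 0 := by exact_mod_cast hΔ.ne'
    rw [pvccPl_eq_preimage _ hΔ']
    ext w
    simp only [pvrrBk, mem_setOf_eq, mem_preimage, Complex.div_ofReal_re, Complex.div_ofReal_im, pvehZ, Complex.sub_re, Complex.sub_im, Complex.add_re, Complex.add_im, Complex.ofReal_re, Complex.ofReal_im]
    rw [le_div_iff₀ hΔ, div_le_iff₀ hΔ, le_div_iff₀ hΔ, div_le_iff₀ hΔ]
    constructor
    · rintro ⟨h1, h2, h3, h4⟩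
      exact ⟨by linarith, by linarith, by linarith, by linarith⟩
    · rintro ⟨h1, h2, h3, h4⟩
      exact ⟨by linarith, by linarith, by linarith, by linarith⟩
  have eSet : pvehEY Δ cu lb (closedBall Ym (5 * R / 16)) ∪ pvegK Ym u pin (R / 10) δ (R / 5) (5 * R / 16) =
      pvccPl (pvehZ Δ cu) (Δ : ℂ) (pvrrBk (31 / 64)) ∪ pvfeLanes (-(1 / 10)) (4 / 10) (pvehZ Δ cu) (Δ : ℂ) lb ∪
        (closedBall Ym (5 * R / 16) ∪ pvccPl Zl (-pvccD (Δ : ℂ) lb lb.length) (pvrrF ((R / 10 + 2 * δ - pvegS Ym u Zl) / Δ) ((Sp - δ / 4 - pvegS Ym u Zl) / Δ) ((Lp - pvegL Ym u Zl) / Δ) (R / 5 / Δ))) := by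
    rw [eD, ← eRc, ← eRect]
    unfold pvehEY pvegK
    rw [union_assoc, union_diff_self]
  rw [eSet]
  have key := @pvrr_room_e_pl lb (pveh_simple_le b) (pvrh_le_back b) (pvrh_le_T0 b) (31 / 64) (by norm_num) (by norm_num) 4 (by norm_num) (pvrh_le_len b) (pvrh_le_run b) Δ hΔ 1 (one_pow 4) (pvehZ Δ cu)
    Ym (((R / 10 + 2 * δ - pvegS Ym u Zl) / Δ : ℝ) : ℂ) (R / 2) (Δ / 2) (5 * R / 16) ((R / 10 + 2 * δ - pvegS Ym u Zl) / Δ) ((Sp - δ / 4 - pvegS Ym u Zl) / Δ) ((Lp - pvegL Ym u Zl) / Δ) (R / 5 / Δ) (by positivity)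
  simp only [mul_one] at key
  have eD' : pvccD (Δ : ℂ) lb lb.length = -((Δ : ℂ) * u) := pvrh_le_D Δ b
  rw [eD] at key ⊢
  have hSle : ∀ x : ℂ, pvegS Ym u x ≤ ‖x - Ym‖ := fun x => pveg_S_le_norm hu Ym x
  refine key ?_ ?_ ?_ ?_ ?_ ?_ ?_ ?_ ?_ ?_ ?_ ?_ ?_ ?_ ?_
  · -- hy1
    rw [eD', div_neg, Complex.neg_re, (pvrh_frame hu hΔ Ym Zl Ym).1, pvrh_S_self, SZ, zero_sub, neg_div, neg_neg]
    exact div_nonneg (by linarith) hΔ.le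
  · -- hy2
    have h1 := pvrh_norm_le hu Ym Zl
    rw [SZ, LZ] at h1
    rw [← norm_neg, neg_sub]
    have h2 : |Sp + δ / 2 - Δ / 2| = Sp + δ / 2 - Δ / 2 := abs_of_nonneg (by linarith)
    have h3 : |Lp| ≤ δ := H.lat
    linarith
  · -- hfar
    have h1 := hSle (Zl + (Δ : ℂ) * u * ((4 : ℕ) + 1 / 2))
    rw [pvrh_S_pl hu, SZ] at h1
    simp at h1
    simp
    linarith
  · -- far
    intro k hk
    have h1 := hSle (pvccC (pvehZ Δ cu) (Δ : ℂ) lb k)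
    have e : pvccC (pvehZ Δ cu) (Δ : ℂ) lb k = ce + (Δ : ℂ) * pvtZ (pvxrUo b 1 + pvehV lb k) := by
      rw [pveh_C_eq, hcu, pvtZ_add]; ring
    rw [e, pvrh_S_add, Sce, pvrh_dot hb] at h1
    rw [e]
    have h2 : (4 : ℝ) ≤ ((pvxrDot (pvxrUo b 1 + pvehV lb k) (pvxrE b) : ℤ) : ℝ) := by exact_mod_cast pvrh_le_front hb k hk
    nlinarith
  · -- farE
    rintro _ ⟨v, hv, rfl⟩
    have e : pvehZ Δ cu + (Δ : ℂ) * v = ce + (Δ : ℂ) * (pvtZ (pvxrUo b 1) + 1 / 2 + v) := by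
      rw [pvehZ, hcu]; push_cast; ring
    have h1 := hSle (pvehZ Δ cu + (Δ : ℂ) * v)
    rw [e, pvrh_S_add, Sce] at h1
    show R / 2 + Δ / 2 ≤ ‖pvehZ Δ cu + (Δ : ℂ) * v - Ym‖
    rw [e]
    have h2 := pvrh_le_rect hb hv
    nlinarith
  · -- hBr
    rw [← eRc]
    refine union_subset (pveg_M_ball H) ?_
    intro x hx
    by_cases hxb : x ∈ closedBall Ym (5 * R / 16)
    · exact pveg_M_ball H hxb
    · exact pveg_K_ball H ⟨hx, hxb⟩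
  · -- hq1
    have h1 := pvrh_norm_le hu Ym (Zl + (Δ : ℂ) * u * (((R / 10 + 2 * δ - pvegS Ym u Zl) / Δ : ℝ) : ℂ))
    rw [pvrh_S_pl hu, pvrh_L_pl hu, LZ, Complex.ofReal_re, Complex.ofReal_im, mul_div_cancel₀ _ hΔ.ne'] at h1
    have h2 : |pvegS Ym u Zl + (R / 10 + 2 * δ - pvegS Ym u Zl)| = R / 10 + 2 * δ := by
      rw [show pvegS Ym u Zl + (R / 10 + 2 * δ - pvegS Ym u Zl) = R / 10 + 2 * δ by ring]
      exact abs_of_nonneg (by linarith)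
    have h3 : |Lp + Δ * 0| ≤ δ := by rw [mul_zero, add_zero]; exact H.lat
    linarith
  · rw [Complex.ofReal_re]
  · rw [Complex.ofReal_re]
    exact div_le_div_of_nonneg_right (by linarith) hΔ.le
  · rw [Complex.ofReal_im]; norm_num
  · rw [Complex.ofReal_im]; norm_num
  · rw [LZ, sub_self, zero_div, zero_sub, neg_le_neg_iff, le_div_iff₀ hΔ]
    linarith
  · rw [LZ, sub_self, zero_div, zero_add, le_div_iff₀ hΔ]
    linarith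
  · rw [SZ]
    exact div_nonpos_of_nonpos_of_nonneg (by linarith) hΔ.le
  · rw [SZ]
    exact div_nonneg (by linarith) hΔ.le

theorem pvrh_lanes_bdd (z d : ℂ) (l : List PvtTurn) : Bornology.IsBounded (pvfeLanes (-(1 / 10)) (4 / 10) z d l) := by
  unfold pvfeLanes
  refine (Bornology.isBounded_biUnion_finset _).2 fun j _ => ?_
  exact isBounded_closedBall.subset (pvfe_K_sub_ball (by norm_num) (by norm_num) z d l j)

theorem pvrh_box_bdd (a b c d : ℝ) : Bornology.IsBounded {w : ℂ | a ≤ w.re ∧ w.re ≤ b ∧ c ≤ w.im ∧ w.im ≤ d} := by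
  have e : {w : ℂ | a ≤ w.re ∧ w.re ≤ b ∧ c ≤ w.im ∧ w.im ≤ d} = (Complex.re ⁻¹' Set.Icc a b) ∩ (Complex.im ⁻¹' Set.Icc c d) := by
    ext w
    simp only [mem_setOf_eq, mem_inter_iff, mem_preimage, mem_Icc]
    tauto
  rw [e]
  exact (Metric.isBounded_Icc a b).reProdIm (Metric.isBounded_Icc c d)

theorem pvrh_box_convex (a b c d : ℝ) : Convex ℝ {w : ℂ | a ≤ w.re ∧ w.re ≤ b ∧ c ≤ w.im ∧ w.im ≤ d} := by
  have e : {w : ℂ | a ≤ w.re ∧ w.re ≤ b ∧ c ≤ w.im ∧ w.im ≤ d} = (Complex.reLm ⁻¹' Set.Icc a b) ∩ (Complex.imLm ⁻¹' Set.Icc c d) := by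
    ext w
    simp only [mem_setOf_eq, mem_inter_iff, mem_preimage, mem_Icc, Complex.reLm_coe, Complex.imLm_coe]
    tauto
  rw [e]
  exact ((convex_Icc _ _).linear_preimage _).inter ((convex_Icc _ _).linear_preimage _)

theorem pvrh_convex_hole {S : Set ℂ} (hS : Convex ℝ S) (hb : Bornology.IsBounded S) : IsPreconnected Sᶜ := by
  rcases S.eq_empty_or_nonempty with rfl | ⟨p, hp⟩
  · rw [compl_empty]; exact isPreconnected_univ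
  · exact pvrt_star (hS.starConvex hp) hb

theorem pvrh_EY_bdd (Δ : ℝ) (cu : ℂ) (lb : List PvtTurn) {Mi : Set ℂ} (hM : Bornology.IsBounded Mi) : Bornology.IsBounded (pvehEY Δ cu lb Mi) :=
  ((pvrh_box_bdd _ _ _ _).union (pvrh_lanes_bdd _ _ _)).union hM

theorem pvrh_door_ctr (δ : ℝ) (e : ℤ × ℤ) (a : ℕ) : pvtCtr δ e = pvxrDoor δ e a + (δ : ℂ) * I ^ a * (1 / 2) := by
  have h : pvtCtr δ e = (δ : ℂ) * (pvtZ e + (1 + I) / 2) := by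
    apply Complex.ext <;> simp [pvtCtr, pvtZ] <;> ring
  rw [h, pvxrDoor]
  ring

/-! ## 2'. the thick return: integers -/

set_option maxHeartbeats 4000000 in
/-- **SEPARATION FROM THE EXIT MOUTH**: the only block of the polyline in the zone `-12 ≤ ν ≤ 0`, `|λ| ≤ 6` (normal and lateral coordinates relative to `e⁺`, side `a`) is the first one -/
theorem pvrh_in_p {B M : ℤ} {a b : ℕ} {ep em : ℤ × ℤ} (h : PvefOKb B M a b ep em)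
    (hc : 13 ≤ |pvxrDot ep (pvxrE (a + 1)) - pvxrDot em (pvxrE (a + 1))| ∨ (a ≠ b ∧ 19 ≤ pvxrDot ep (pvxrE a) - pvxrDot em (pvxrE a))) :
    ∀ x, PvxrIn (ep - pvxrE a) (pvxrE a) (pvxrCorners M a b ep em 0) x →
    -12 ≤ pvxrDot x (pvxrE a) - pvxrDot ep (pvxrE a) → pvxrDot x (pvxrE a) - pvxrDot ep (pvxrE a) ≤ 0 → |pvxrDot x (pvxrE (a + 1)) - pvxrDot ep (pvxrE (a + 1))| ≤ 6 → x = ep := by
  obtain ⟨⟨a4, b4, n0, B0, ep_n, ep_l, em_n, em_l, ep_M, em_M, sep⟩, em_M2, far, cor⟩ := h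
  rw [abs_le] at ep_l em_l
  obtain ⟨p1, p2⟩ := ep
  obtain ⟨m1, m2⟩ := em
  simp only [le_abs] at far cor hc
  have r1 : List.range 1 = [0] := rfl
  have r2 : List.range 2 = [0, 1] := rfl
  have r3 : List.range 3 = [0, 1, 2] := rfl
  have r4 : List.range 4 = [0, 1, 2, 3] := rfl
  interval_cases a <;> interval_cases b <;>
  simp only [pvxrDot, pvxrE, Nat.reduceMod, Nat.reduceAdd, lt_abs, Nat.reduceEqDiff, forall_const, false_imp_iff, OfNat.zero_ne_ofNat, OfNat.ofNat_ne_zero, OfNat.one_ne_ofNat, OfNat.ofNat_ne_one, zero_ne_one, one_ne_zero, IsEmpty.forall_iff, ne_eq, not_true_eq_false, not_false_eq_true, true_and, false_and, or_false] at ep_n ep_l em_n em_l ep_M em_M em_M2 sep cor hc <;>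
  simp only [pvxrDot, pvxrCorners, pvxrNc, pvxrProj, pvxrRo, pvxrMan, pvxrE, pvxrUo, Nat.reduceMod, Nat.reduceAdd, Nat.reduceSub, Prod.mk_add_mk, Prod.mk_sub_mk, true_and, false_and, if_false, Nat.reduceEqDiff, OfNat.zero_ne_ofNat, OfNat.ofNat_ne_zero, OfNat.one_ne_ofNat, OfNat.ofNat_ne_one, zero_ne_one, one_ne_zero, Nat.add_zero] <;>
  (try split_ifs) <;>
  simp only [Nat.reduceAdd, Nat.add_zero, Nat.zero_add, r1, r2, r3, r4, List.range_zero, List.nil_append, List.cons_append, List.map_cons, List.map_nil, pvxrCor, Nat.reduceMod, PvxrIn, PvxrLeg, pvccRotI, and_true, abs_le] <;>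
  (rintro ⟨x1, x2⟩ hx h1 h2 h3) <;> (rw [Prod.mk.injEq]) <;> (simp only at hx h1 h2 h3) <;> omega


/-- the word of a polyline of record begins with `S` -/
theorem pvrh_word_T0 {B M : ℤ} {a b : ℕ} {ep em : ℤ × ℤ} {n : ℤ} (h : PvxrOK B M a b ep em n) : pvccT (pvxrWord M a b ep em n) 0 = PvtTurn.S := by
  obtain ⟨k, hk⟩ : ∃ k : ℕ, pvxrD (ep - pvxrE a) (pvxrProj M a ep) - 1 = k + 1 := by
    have ha := h.a4
    have h1 := h.ep_M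
    obtain ⟨e1, e2⟩ := ep
    refine ⟨pvxrD ((e1, e2) - pvxrE a) (pvxrProj M a (e1, e2)) - 2, ?_⟩
    interval_cases a <;> simp only [pvxrDot, pvxrE, pvxrD, pvxrProj, Nat.reduceMod, Prod.mk_sub_mk] at h1 ⊢ <;> omega
  unfold pvccT pvxrWord pvxrCorners
  simp only [List.cons_append, pvxrPoly]
  rw [hk, List.replicate_succ]
  rfl

/-- **FROM THE CELLS TO THE BLOCKS**, the sharper line      [as `hcor` in `pvef_okb`: `dd c : |(dot ep - dot em) - g (dot ep' - dot em')| ≤ 3 n`] -/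
theorem pvrh_cor_blocks {B M : ℤ} {a b : ℕ} {ep em : ℤ × ℤ} {n : ℤ} (h : PvefOK B M a b ep em n)
    (hc : 15 * (2 * n + 1) ≤ |pvxrDot ep (pvxrE (a + 1)) - pvxrDot em (pvxrE (a + 1))| ∨ (a ≠ b ∧ 21 * (2 * n + 1) ≤ pvxrDot ep (pvxrE a) - pvxrDot em (pvxrE a))) :
    13 ≤ |pvxrDot (pvefEp n em ep) (pvxrE (a + 1)) - pvxrDot (pvefEm n em) (pvxrE (a + 1))| ∨ (a ≠ b ∧ 19 ≤ pvxrDot (pvefEp n em ep) (pvxrE a) - pvxrDot (pvefEm n em) (pvxrE a)) := by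
  have n0 : 0 ≤ n := h.ok.3
  have hg : (0 : ℤ) < 2 * n + 1 := by omega
  have hp : |ep.1 - (2 * n + 1) * (pvefEp n em ep).1| ≤ 2 * n ∧ |ep.2 - (2 * n + 1) * (pvefEp n em ep).2| ≤ 2 * n := by
    have h1 := pvef_cc_ep n0 em ep
    have h2 := pvef_cc_near n0 em (pvefEp n em ep)
    obtain ⟨c1, c2⟩ := h1
    obtain ⟨d1, d2⟩ := h2
    rw [abs_le] at c1 c2 d1 d2 ⊢
    rw [abs_le]
    refine ⟨⟨?_, ?_⟩, ?_, ?_⟩ <;> linarith
  have hm : |em.1 - (2 * n + 1) * (pvefEm n em).1| ≤ n ∧ |em.2 - (2 * n + 1) * (pvefEm n em).2| ≤ n := by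
    have h2 := pvef_cc_near n0 em (pvefEm n em)
    rwa [pvef_cc_em] at h2
  have dp : ∀ c, |pvxrDot ep (pvxrE c) - (2 * n + 1) * pvxrDot (pvefEp n em ep) (pvxrE c)| ≤ 2 * n := fun c => pvef_dot_near hp.1 hp.2 c
  have dm : ∀ c, |pvxrDot em (pvxrE c) - (2 * n + 1) * pvxrDot (pvefEm n em) (pvxrE c)| ≤ n := fun c => pvef_dot_near hm.1 hm.2 c
  generalize pvefEp n em ep = ep' at *
  generalize pvefEm n em = em' at *
  have cancel : ∀ x y : ℤ, (2 * n + 1) * x < (2 * n + 1) * y → x < y := fun x y hxy => lt_of_mul_lt_mul_left hxy hg.le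
  have mulabs : ∀ x : ℤ, (2 * n + 1) * |x| = |(2 * n + 1) * x| := fun x => by rw [abs_mul, abs_of_pos hg]
  have tri' : ∀ u v k : ℤ, |u - v| ≤ k → |u| ≤ |v| + k := fun u v k hk => by
    have := abs_sub_abs_le_abs_sub u v
    linarith
  have dd : ∀ c, |(pvxrDot ep (pvxrE c) - pvxrDot em (pvxrE c)) - (2 * n + 1) * (pvxrDot ep' (pvxrE c) - pvxrDot em' (pvxrE c))| ≤ 3 * n := fun c => by
    have h1 := dp c
    have h2 := dm c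
    rw [abs_le] at h1 h2 ⊢
    constructor <;> nlinarith
  rcases hc with hc | ⟨hab, hc⟩
  · left
    have h1 := tri' _ _ _ (dd (a + 1))
    rw [← mulabs] at h1
    have : (2 * n + 1) * 12 < (2 * n + 1) * |pvxrDot ep' (pvxrE (a + 1)) - pvxrDot em' (pvxrE (a + 1))| := by linarith
    have := cancel _ _ this
    omega
  · right
    refine ⟨hab, ?_⟩
    have h1 := dd a
    rw [abs_le] at h1
    have : (2 * n + 1) * 18 < (2 * n + 1) * (pvxrDot ep' (pvxrE a) - pvxrDot em' (pvxrE a)) := by linarith [h1.2]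
    have := cancel _ _ this
    omega

/-- numbers of `pvrh_cor_cells`      [not left ⟹ `|dl| < 11 ρ / 8` (as in `pvef_ok_aux`) ⟹ `75/64 ρ² < dn²` ⟹ `27/25 ρ < dn` ⟹ `a ≠ b` and `21 g < 21 (N ρ / 16 + 3) ≤ N (27/25 + 3/8) ρ - 2 < X`] -/
theorem pvrh_cor_aux {N ρ dn dl : ℝ} {a b : ℕ} {n X Y : ℤ} (N0 : 0 < N) (rho0 : 0 < ρ) (fine : 1024 ≤ N * ρ) (n0 : 0 ≤ n) (hn2 : (n : ℝ) < N * (ρ / 32) + 1)
    (far : (7 / 4 * ρ) ^ 2 ≤ dn ^ 2 + dl ^ 2) (hdn : -(ρ / 5) ≤ dn) (hsame : a = b → dn ≤ ρ / 5) (hX : a ≠ b → N * (dn + 3 * ρ / 8) - 2 < (X : ℝ)) (hY : N * (|dl| - 3 * ρ / 8) - 2 < ((|Y| : ℤ) : ℝ)) :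
    15 * (2 * n + 1) ≤ |Y| ∨ (a ≠ b ∧ 21 * (2 * n + 1) ≤ X) := by
  by_cases hd : 11 * ρ / 8 ≤ |dl|
  · left
    have h1 : N * (11 * ρ / 8 - 3 * ρ / 8) ≤ N * (|dl| - 3 * ρ / 8) := mul_le_mul_of_nonneg_left (by linarith) N0.le
    have : ((15 * (2 * n + 1) : ℤ) : ℝ) ≤ ((|Y| : ℤ) : ℝ) := by
      push_cast
      push_cast at hY
      nlinarith
    exact_mod_cast this
  · right
    push Not at hd
    have h2 : dl ^ 2 < (11 * ρ / 8) ^ 2 := by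
      rw [← sq_abs dl]
      exact pow_lt_pow_left₀ hd (abs_nonneg _) two_ne_zero
    have h3 : 27 / 25 * ρ < dn := by
      by_contra hh
      push Not at hh
      have k1 : 0 ≤ (dn + ρ / 5) * (27 / 25 * ρ - dn) := mul_nonneg (by linarith) (by linarith)
      have k2 : dn * ρ ≤ 27 / 25 * ρ * ρ := mul_le_mul_of_nonneg_right hh rho0.le
      nlinarith
    have hab : a ≠ b := by
      intro e
      have := hsame e
      linarith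
    refine ⟨hab, ?_⟩
    have h4 := hX hab
    have h5 : N * (27 / 25 * ρ + 3 * ρ / 8) ≤ N * (dn + 3 * ρ / 8) := mul_le_mul_of_nonneg_left (by linarith) N0.le
    have : ((21 * (2 * n + 1) : ℤ) : ℝ) ≤ (X : ℝ) := by
      push_cast
      nlinarith
    exact_mod_cast this

/-! ## 3. AT THE MODEL -/

section model

variable {τ : Type} {c : ℝ} {𝔓 : PvxPar τ c}

/-- **(Rd) `rY`** -/
theorem pvrh_rY (O0 : ℕ → Set ℂ) (m : ℕ) : IsPreconnected (pvehrY 𝔓 O0 m)ᶜ ∧ Bornology.IsBounded (pvehrY 𝔓 O0 m) :=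
  ⟨pvrh_convex_hole (pvrh_box_convex _ _ _ _) (pvrh_box_bdd _ _ _ _), pvrh_box_bdd _ _ _ _⟩

/-- **(Rd) `eY`** (`eY` of `pveaEng`: room of 166 at the mouth `iM`, and the funnel `iK`) -/
theorem pvrh_eY {m : ℕ} {t : τ} (hΓ : 𝔓.Γ m = pvxrGam 𝔓 m) (hL : PvegLev 𝔓 m) (hT : pviwTyOk 𝔓 t) (h : PvxrNdg 𝔓 m t) : IsPreconnected (pveheY 𝔓 (pvegIM 𝔓) m t ∪ pvegIK 𝔓 m t)ᶜ := by
  have H := pveg_door_i hL hT
  obtain ⟨D1, D2, D3⟩ := pvef_Dl_bounds h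
  unfold pveheY pvegIM pvegIK
  rw [hΓ, pvxr_gam_din, neg_neg, pvxr_gam_pin] at H ⊢
  have := pvrh_e_room (b := pvxrB 𝔓 t) (pvxr_side_lt _) H (by linarith) D1 D2
  rwa [← pvrh_door_ctr, ← (pvxr_geo h).zu'] at this

theorem pvrh_eY_bdd {m : ℕ} {t : τ} (hL : PvegLev 𝔓 m) (hT : pviwTyOk 𝔓 t) : Bornology.IsBounded (pveheY 𝔓 (pvegIM 𝔓) m t ∪ pvegIK 𝔓 m t) :=
  (pvrh_EY_bdd _ _ _ isBounded_closedBall).union (isBounded_closedBall.subset (pveg_K_ball (pveg_door_i hL hT)))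

/-- **[mouth ∪ funnel up to the plane of W-7] HAS NO HOLE** -/
theorem pvrh_Ya {Y u p : ℂ} {R δ a rk : ℝ} (H : PvegDoor Y u p (R / 10) δ (R / 5) (5 * R / 16) (3 * R / 8) (R / 2) rk) (hf : 64 * δ ≤ R) (ha : a ≤ δ / 4) :
    IsPreconnected (pvegYa Y u p (R / 10) δ (R / 5) (5 * R / 16) a)ᶜ := by
  have hδ := H.δ0
  have h1 := H.s_lo
  refine pvrh_ball_rect H.u4 Y ?_ ?_ ?_
  · rw [abs_of_nonneg (by linarith)]
    linarith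
  · linarith
  · exact H.lat.trans (by linarith)

theorem pvrh_Ya_bdd {Y u p : ℂ} (hu : u ^ 4 = 1) (e δ w rM a : ℝ) : Bornology.IsBounded (pvegYa Y u p e δ w rM a) := pvrh_ball_rect_bdd hu Y _ _ _ _ _

/-- **(Rd) `oY`** -/
theorem pvrh_oY {m : ℕ} {t : τ} (hL : PvegLev 𝔓 m) (hT : pviwTyOk 𝔓 t) : IsPreconnected (pvegOYa 𝔓 m t)ᶜ ∧ Bornology.IsBounded (pvegOYa 𝔓 m t) :=
  ⟨pvrh_Ya (pveg_door_o hL hT) hL.fine (pveg_A_le c m), pvrh_Ya_bdd (pveg_door_o hL hT).u4 _ _ _ _ _⟩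

/-- **(Rd) `iY`** -/
theorem pvrh_iY {m : ℕ} {t : τ} (hL : PvegLev 𝔓 m) (hT : pviwTyOk 𝔓 t) : IsPreconnected (pvegIYa 𝔓 m t)ᶜ ∧ Bornology.IsBounded (pvegIYa 𝔓 m t) :=
  ⟨pvrh_Ya (pveg_door_i hL hT) hL.fine (pveg_A_le c m), pvrh_Ya_bdd (pveg_door_i hL hT).u4 _ _ _ _ _⟩

/-! ### the thick return -/

/-- **the sharper line of non degeneracy, in cells**: `e⁻` is `15` blocks aside of the ray of `e⁺`, or (other side) `21` blocks behind `e⁺`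
[as `pvef_ok_of_ndg`, through `pvrh_cor_aux`; `hY` verbatim; `hX`: for `a ≠ b` the shift `κ I ^ b` does not increase the normal coordinate of the side `a`: `pvxrNorA a (y + κ I ^ b) ≤ pvxrNorA a y`] -/
theorem pvrh_cor_cells {m : ℕ} {t : τ} (h : PvxrNdg 𝔓 m t) :
    15 * (2 * pvxrNw 𝔓 m + 1) ≤ |pvxrDot (pvxrEp 𝔓 m t) (pvxrE (pvxrA 𝔓 t + 1)) - pvxrDot (pvxrEm 𝔓 m t) (pvxrE (pvxrA 𝔓 t + 1))| ∨
      (pvxrA 𝔓 t ≠ pvxrB 𝔓 t ∧ 21 * (2 * pvxrNw 𝔓 m + 1) ≤ pvxrDot (pvxrEp 𝔓 m t) (pvxrE (pvxrA 𝔓 t)) - pvxrDot (pvxrEm 𝔓 m t) (pvxrE (pvxrA 𝔓 t))) := by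
  have n0 := (pvxr_ok h).n0
  obtain ⟨rho0, rho8, rho1, b2, lev, fine, nd_p, nd_m, far⟩ := h
  have N0 : (0 : ℝ) < (pvlmN c m : ℝ) := by exact_mod_cast pvlm_N_pos c m
  have a4 : pvxrA 𝔓 t < 4 := pvxr_side_lt _
  have b4 : pvxrB 𝔓 t < 4 := pvxr_side_lt _
  have hκ : (0 : ℝ) ≤ pvxrKap 𝔓 := by unfold pvxrKap; positivity
  have eκ : pvxrKap 𝔓 = 3 * 𝔓.num.rho / 8 := rfl
  have sh := pvef_shift a4 b4 (pvxrYm 𝔓 t) hκ
  have sh' : pvxrA 𝔓 t ≠ pvxrB 𝔓 t → pvxrNorA (pvxrA 𝔓 t) (pvxrYm 𝔓 t + pvxrKap 𝔓 * I ^ pvxrB 𝔓 t) ≤ pvxrNorA (pvxrA 𝔓 t) (pvxrYm 𝔓 t) := by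
    have e2 : (I : ℂ) ^ 2 = -1 := I_sq
    have e3 : (I : ℂ) ^ 3 = -I := I_pow_three
    generalize pvxrA 𝔓 t = a at a4
    generalize pvxrB 𝔓 t = b at b4
    generalize pvxrKap 𝔓 = κ at hκ
    intro hab
    interval_cases a <;> interval_cases b <;> simp [pvxrNorA, e2, e3] at hab ⊢ <;> linarith
  have c1 := pvef_cell_norA (pvlmN c m) a4 (pvxrYm 𝔓 t + pvxrKap 𝔓 * I ^ pvxrB 𝔓 t)
  have c2 := pvef_cell_latA (pvlmN c m) a4 (pvxrYm 𝔓 t + pvxrKap 𝔓 * I ^ pvxrB 𝔓 t)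
  have np := pvxr_cell_nor (pvlmN c m) (pvxrYp 𝔓 t) (pvxrKap 𝔓)
  have lp := pvxr_cell_lat (pvlmN c m) a4 (pvxrYp 𝔓 t) (pvxrKap 𝔓)
  have hns := pvxr_norm_sq a4 (pvxrYp 𝔓 t) (pvxrYm 𝔓 t)
  have hnp : pvxrNorA (pvxrA 𝔓 t) (pvxrYp 𝔓 t) = pvccN (pvxrYp 𝔓 t) := pvxr_nor_side _
  have hnm : pvxrNorA (pvxrB 𝔓 t) (pvxrYm 𝔓 t) = pvccN (pvxrYm 𝔓 t) := pvxr_nor_side _
  have hle := pvef_norA_le a4 (pvxrYm 𝔓 t)
  have nd_p' := abs_le.1 nd_p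
  have nd_m' := abs_le.1 nd_m
  refine pvrh_cor_aux (N := (pvlmN c m : ℝ)) (ρ := 𝔓.num.rho) (dn := pvxrNorA (pvxrA 𝔓 t) (pvxrYp 𝔓 t) - pvxrNorA (pvxrA 𝔓 t) (pvxrYm 𝔓 t))
    (dl := pvxrLatA (pvxrA 𝔓 t) (pvxrYp 𝔓 t) - pvxrLatA (pvxrA 𝔓 t) (pvxrYm 𝔓 t)) N0 rho0 fine n0 (Int.ceil_lt_add_one _) ?_ ?_ ?_ ?_ ?_
  · rw [← hns]
    have far' : 7 / 4 * 𝔓.num.rho ≤ ‖pvxrYp 𝔓 t - pvxrYm 𝔓 t‖ := by
      have : ‖pvxrYp 𝔓 t - pvxrYm 𝔓 t‖ = ‖(𝔓.ty t).yp - (𝔓.ty t).ym‖ := rfl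
      rw [this]
      linarith
    exact pow_le_pow_left₀ (by positivity) far' 2
  · rw [hnp]
    have : pvccN (pvxrYp 𝔓 t) = pvccN (𝔓.ty t).yp := rfl
    have : pvccN (pvxrYm 𝔓 t) = pvccN (𝔓.ty t).ym := rfl
    linarith [nd_p'.1, nd_m'.2]
  · intro hab
    rw [hnp, hab, hnm]
    have : pvccN (pvxrYp 𝔓 t) = pvccN (𝔓.ty t).yp := rfl
    have : pvccN (pvxrYm 𝔓 t) = pvccN (𝔓.ty t).ym := rfl
    linarith [nd_p'.2, nd_m'.1]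
  · intro hab
    have k1 : ((pvxrDot (pvxrEp 𝔓 m t) (pvxrE (pvxrA 𝔓 t)) : ℤ) : ℝ) > (pvlmN c m : ℝ) * (pvccN (pvxrYp 𝔓 t) + pvxrKap 𝔓) - 1 := np.1
    have k2 : ((pvxrDot (pvxrEm 𝔓 m t) (pvxrE (pvxrA 𝔓 t)) : ℤ) : ℝ) < (pvlmN c m : ℝ) * pvxrNorA (pvxrA 𝔓 t) (pvxrYm 𝔓 t + pvxrKap 𝔓 * I ^ pvxrB 𝔓 t) + 1 := c1.2
    have k3 := mul_le_mul_of_nonneg_left (sh' hab) N0.le
    rw [hnp, ← eκ]
    push_cast
    rw [mul_add] at k1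
    rw [mul_add, mul_sub]
    linarith
  · rw [← eκ]
    push_cast
    exact pvef_lat_aux N0.le lp.1 lp.2 c2.1 c2.2 sh.2

theorem pvrh_W_T0 {m : ℕ} {t : τ} (h : PvxrNdg 𝔓 m t) : pvccT (pvefW 𝔓 m t) 0 = PvtTurn.S := pvrh_word_T0 (pvef_okb (pvef_ok_of_ndg h)).ok

/-- **(F8), integers**: a block `k ≥ 1` of the thick return is not in the zone of the exit mouth -/
theorem pvrh_V_p {m : ℕ} {t : τ} (h : PvxrNdg 𝔓 m t) {k : ℕ} (hk1 : 1 ≤ k) (hk : k ≤ (pvefW 𝔓 m t).length) :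
    ¬ (-12 ≤ pvxrDot (pvefV (pvxrM 𝔓 m t) (pvxrA 𝔓 t) (pvxrB 𝔓 t) (pvxrEp 𝔓 m t) (pvxrEm 𝔓 m t) (pvxrNw 𝔓 m) k) (pvxrE (pvxrA 𝔓 t)) - pvxrDot (pvefEp (pvxrNw 𝔓 m) (pvxrEm 𝔓 m t) (pvxrEp 𝔓 m t)) (pvxrE (pvxrA 𝔓 t)) ∧
      pvxrDot (pvefV (pvxrM 𝔓 m t) (pvxrA 𝔓 t) (pvxrB 𝔓 t) (pvxrEp 𝔓 m t) (pvxrEm 𝔓 m t) (pvxrNw 𝔓 m) k) (pvxrE (pvxrA 𝔓 t)) - pvxrDot (pvefEp (pvxrNw 𝔓 m) (pvxrEm 𝔓 m t) (pvxrEp 𝔓 m t)) (pvxrE (pvxrA 𝔓 t)) ≤ 0 ∧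
      |pvxrDot (pvefV (pvxrM 𝔓 m t) (pvxrA 𝔓 t) (pvxrB 𝔓 t) (pvxrEp 𝔓 m t) (pvxrEm 𝔓 m t) (pvxrNw 𝔓 m) k) (pvxrE (pvxrA 𝔓 t + 1)) - pvxrDot (pvefEp (pvxrNw 𝔓 m) (pvxrEm 𝔓 m t) (pvxrEp 𝔓 m t)) (pvxrE (pvxrA 𝔓 t + 1))| ≤ 6) := by
  rintro ⟨h1, h2, h3⟩
  have ok := pvef_ok_of_ndg h
  have e := pvrh_in_p (pvef_okb ok) (pvrh_cor_blocks ok (pvrh_cor_cells h)) _ (pvef_path_in ok (pvef_V_mem ok hk)) h1 h2 h3
  have e0 : pvefV (pvxrM 𝔓 m t) (pvxrA 𝔓 t) (pvxrB 𝔓 t) (pvxrEp 𝔓 m t) (pvxrEm 𝔓 m t) (pvxrNw 𝔓 m) 0 = pvefEp (pvxrNw 𝔓 m) (pvxrEm 𝔓 m t) (pvxrEp 𝔓 m t) := by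
    simp [pvefV, pvccAccI]
  have := pvef_V_inj ok hk (Nat.zero_le _) (e.trans e0.symm)
  omega

/-- **(F8) THE MOUTH AND THE FUNNEL OF THE THICK RETURN ARE FAR FROM ITS BLOCKS `k ≥ 1`**
[frame `(S, L)` of `(h y⁺, I ^ a)`: `S (C_k) = S (C₀) + Δ ν`, `L (C_k) = L (C₀) + Δ λ` (`pvef_W_C`, `pvef_ctr_add`, `pvrh_dot`), `|S x - S C_k|, |L x - L C_k| ≤ pvccN (x - C_k)` (`pveg_re_le_N`, `pveg_im_le_N`, `pveg_S_sub`);
`x` in the mouth or in the funnel: `- 5R/16 ≤ S x ≤ S C₀ - δ/4`, `|L x - L C₀| ≤ 11R/32 + 2δ` (`pvef_C0_frame`);   `pvrh_V_p`: `ν ≥ 1` or `ν ≤ -13` or `|λ| ≥ 7`;   `R/16 + δ ≤ Δ < R/16 + 3δ`, `1024 δ ≤ R`] -/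
theorem pvrh_f_far {m : ℕ} {t : τ} (h : PvxrNdg 𝔓 m t) {x : ℂ} (hx : x ∈ pvegOM 𝔓 m t ∪ pvefF 𝔓 m t) {k : ℕ} (hk1 : 1 ≤ k) (hk : k ≤ (pvefW 𝔓 m t).length) :
    (1 / 2 + 1 / 20) * pvehDl 𝔓 m ≤ pvccN (x - pvccC (pvefZ 𝔓 m t) (pvefD 𝔓 m t) (pvefW 𝔓 m t) k) := by
  obtain ⟨D1, D2, D3⟩ := pvef_Dl_bounds h
  obtain ⟨f1, f2, f3⟩ := pvef_C0_frame h
  have hδ := pvlm_Del_pos c m
  have hu := pvef_I_pow (pvxrA 𝔓 t)
  have ha : pvxrA 𝔓 t < 4 := pvxr_side_lt _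
  have hV := pvrh_V_p h hk1 hk
  obtain ⟨s1, l1⟩ := pvef_x_ctr (pvlmDel c m) (pvxrNw 𝔓 m) (pvxrEm 𝔓 m t) (pvefV (pvxrM 𝔓 m t) (pvxrA 𝔓 t) (pvxrB 𝔓 t) (pvxrEp 𝔓 m t) (pvxrEm 𝔓 m t) (pvxrNw 𝔓 m) k) ha (pvegYp 𝔓 m t)
  obtain ⟨s0, l0⟩ := pvef_x_ctr (pvlmDel c m) (pvxrNw 𝔓 m) (pvxrEm 𝔓 m t) (pvefEp (pvxrNw 𝔓 m) (pvxrEm 𝔓 m t) (pvxrEp 𝔓 m t)) ha (pvegYp 𝔓 m t)
  obtain ⟨n1, n2⟩ := pvef_x_SL hu (pvegYp 𝔓 m t) x (pvccC (pvefZ 𝔓 m t) (pvefD 𝔓 m t) (pvefW 𝔓 m t) k)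
  rw [pvef_W_C] at n1 n2 ⊢
  have eΔ : pvehDl 𝔓 m = (2 * (pvxrNw 𝔓 m : ℝ) + 1) * pvlmDel c m := rfl
  have eC0 : pvefC0 𝔓 m t = pvefCtr (pvlmDel c m) (pvxrNw 𝔓 m) (pvxrEm 𝔓 m t) (pvefEp (pvxrNw 𝔓 m) (pvxrEm 𝔓 m t) (pvxrEp 𝔓 m t)) := rfl
  rw [← eΔ] at s1 l1 s0 l0
  rw [← eC0] at s0 l0
  set R := pvegR 𝔓 m with hR
  set δ := pvlmDel c m with hδd
  set Δ := pvehDl 𝔓 m with hΔd
  set u := (I : ℂ) ^ pvxrA 𝔓 t with hud
  set Yp := pvegYp 𝔓 m t with hYp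
  set C0 := pvefC0 𝔓 m t with hC0
  set Ck := pvefCtr δ (pvxrNw 𝔓 m) (pvxrEm 𝔓 m t) (pvefV (pvxrM 𝔓 m t) (pvxrA 𝔓 t) (pvxrB 𝔓 t) (pvxrEp 𝔓 m t) (pvxrEm 𝔓 m t) (pvxrNw 𝔓 m) k) with hCk
  set ν : ℤ := pvxrDot (pvefV (pvxrM 𝔓 m t) (pvxrA 𝔓 t) (pvxrB 𝔓 t) (pvxrEp 𝔓 m t) (pvxrEm 𝔓 m t) (pvxrNw 𝔓 m) k) (pvxrE (pvxrA 𝔓 t)) - pvxrDot (pvefEp (pvxrNw 𝔓 m) (pvxrEm 𝔓 m t) (pvxrEp 𝔓 m t)) (pvxrE (pvxrA 𝔓 t)) with hν
  set lam : ℤ := pvxrDot (pvefV (pvxrM 𝔓 m t) (pvxrA 𝔓 t) (pvxrB 𝔓 t) (pvxrEp 𝔓 m t) (pvxrEm 𝔓 m t) (pvxrNw 𝔓 m) k) (pvxrE (pvxrA 𝔓 t + 1)) - pvxrDot (pvefEp (pvxrNw 𝔓 m) (pvxrEm 𝔓 m t) (pvxrEp 𝔓 m t)) (pvxrE (pvxrA 𝔓 t + 1)) with hlam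
  have hΔ0 : 0 < Δ := by linarith
  have eS : pvegS Yp u Ck = pvegS Yp u C0 + Δ * (ν : ℝ) := by
    rw [s1, s0, hν]
    push_cast
    ring
  have eL : pvegL Yp u Ck = pvegL Yp u C0 + Δ * (lam : ℝ) := by
    rw [l1, l0, hlam]
    push_cast
    ring
  -- the point `x` in the frame
  have hx' : -(5 * R / 16) ≤ pvegS Yp u x ∧ pvegS Yp u x ≤ pvegS Yp u C0 - δ / 4 ∧ |pvegL Yp u x - pvegL Yp u C0| ≤ 11 * R / 32 + 2 * δ := by
    rcases hx with hx | ⟨h1, h2, h3⟩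
    · have h0 : ‖x - Yp‖ ≤ 5 * R / 16 := by
        have := hx
        rwa [pvegOM, mem_closedBall_iff_norm] at this
      have hs := pveg_sq hu Yp x
      have hS : |pvegS Yp u x| ≤ 5 * R / 16 := by
        refine abs_le_of_sq_le_sq' ?_ (by linarith) |> abs_le.2
        nlinarith [sq_nonneg (pvegL Yp u x), norm_nonneg (x - Yp)]
      have hL : |pvegL Yp u x| ≤ 5 * R / 16 := by
        refine abs_le_of_sq_le_sq' ?_ (by linarith) |> abs_le.2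
        nlinarith [sq_nonneg (pvegS Yp u x), norm_nonneg (x - Yp)]
      rw [abs_le] at hS hL f3 ⊢
      refine ⟨hS.1, by linarith [hS.2], by linarith [hL.1, f3.2], by linarith [hL.2, f3.1]⟩
    · refine ⟨by linarith, h2, h3.trans (by linarith)⟩
  obtain ⟨x1, x2, x3⟩ := hx'
  rw [abs_le] at x3 f3
  have hcase : (1 : ℤ) ≤ ν ∨ ν ≤ -13 ∨ 7 ≤ lam ∨ lam ≤ -7 := by
    by_contra hcon
    push Not at hcon
    obtain ⟨c1, c2, c3, c4⟩ := hcon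
    exact hV ⟨by omega, by omega, abs_le.2 ⟨by omega, by omega⟩⟩
  rcases hcase with hc | hc | hc | hc
  · have hc' : (1 : ℝ) ≤ (ν : ℝ) := by exact_mod_cast hc
    have h5 : Δ * 1 ≤ Δ * (ν : ℝ) := mul_le_mul_of_nonneg_left hc' hΔ0.le
    have h6 := (abs_le.1 n1).1
    linarith
  · have hc' : (ν : ℝ) ≤ -13 := by exact_mod_cast hc
    have h5 : Δ * (ν : ℝ) ≤ Δ * (-13) := mul_le_mul_of_nonneg_left hc' hΔ0.le
    have h6 := (abs_le.1 n1).2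
    linarith
  · have hc' : (7 : ℝ) ≤ (lam : ℝ) := by exact_mod_cast hc
    have h5 : Δ * 7 ≤ Δ * (lam : ℝ) := mul_le_mul_of_nonneg_left hc' hΔ0.le
    have h6 := (abs_le.1 n2).1
    linarith
  · have hc' : (lam : ℝ) ≤ -7 := by exact_mod_cast hc
    have h5 : Δ * (lam : ℝ) ≤ Δ * (-7) := mul_le_mul_of_nonneg_left hc' hΔ0.le
    have h6 := (abs_le.1 n2).2
    linarith

/-- **(Rd) the outer room `pveffY0` of `fY`** -/
theorem pvrh_fY0 {m : ℕ} {t : τ} (h : PvxrNdg 𝔓 m t) : IsPreconnected (pveffY0 𝔓 m t)ᶜ := by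
  obtain ⟨D1, D2, D3⟩ := pvef_Dl_bounds h
  obtain ⟨f1, f2, f3⟩ := pvef_C0_frame h
  have hδ := pvlm_Del_pos c m
  have hu := pvef_I_pow (pvxrA 𝔓 t)
  have hΔ : 0 < pvehDl 𝔓 m := by linarith
  obtain ⟨SZ, LZ⟩ := pvef_q217_pt (𝔓 := 𝔓) m t 0
  rw [mul_zero, add_zero] at SZ LZ
  simp only [Complex.zero_re, Complex.zero_im, mul_zero, add_zero] at SZ LZ
  set R := pvegR 𝔓 m with hR
  set δ := pvlmDel c m with hδd
  set Δ := pvehDl 𝔓 m with hΔd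
  set u := (I : ℂ) ^ pvxrA 𝔓 t with hud
  set Yp := pvegYp 𝔓 m t with hYp
  set z := pvefZ 𝔓 m t with hz
  set C0 := pvefC0 𝔓 m t with hC0
  set W := pvefW 𝔓 m t with hW
  have eF : pvefF 𝔓 m t = pvccPl z ((Δ : ℂ) * u) (pvrrF ((R / 10 + 2 * δ - pvegS Yp u z) / Δ) ((pvegS Yp u C0 - δ / 4 - pvegS Yp u z) / Δ) ((pvegL Yp u C0 - pvegL Yp u z) / Δ) (R / 5 / Δ)) :=
    pvrh_rect_pl hu hΔ Yp z _ _ _ _
  have eWL : pvefWL Δ ((pvxrGam 𝔓 m).zu t) = pvccPl (pvccZ z ((Δ : ℂ) * u) W W.length) (pvccD ((Δ : ℂ) * u) W W.length) (pvrrCap (31 / 64)) := by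
    have e1 : pvccZ z ((Δ : ℂ) * u) W W.length = (pvxrGam 𝔓 m).zu t - (Δ : ℂ) / 2 := pvef_last_door h
    have e2 : pvccD ((Δ : ℂ) * u) W W.length = (Δ : ℂ) := pvef_last_dir h
    have hΔ' : (Δ : ℂ) ≠ 0 := by exact_mod_cast hΔ.ne'
    have e3 : (pvxrGam 𝔓 m).zu t - (Δ : ℂ) / 2 = (pvxrGam 𝔓 m).zu t - ((Δ / 2 : ℝ) : ℂ) := by push_cast; ring
    rw [e1, e2, e3, pvccPl_eq_preimage _ hΔ']
    ext w
    simp only [pvefWL, pvrrCap, mem_setOf_eq, mem_preimage, Complex.div_ofReal_re, Complex.div_ofReal_im, Complex.sub_re, Complex.sub_im, Complex.ofReal_re, Complex.ofReal_im]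
    rw [le_div_iff₀ hΔ, div_le_iff₀ hΔ, le_div_iff₀ hΔ, div_le_iff₀ hΔ]
    constructor
    · rintro ⟨h1, h2, h3, h4⟩
      exact ⟨by linarith, by linarith, by linarith, by linarith⟩
    · rintro ⟨h1, h2, h3, h4⟩
      exact ⟨by linarith, by linarith, by linarith, by linarith⟩
  have eSet : pveffY0 𝔓 m t = closedBall Yp (5 * R / 16) ∪ pvccPl z ((Δ : ℂ) * u) (pvrrF ((R / 10 + 2 * δ - pvegS Yp u z) / Δ) ((pvegS Yp u C0 - δ / 4 - pvegS Yp u z) / Δ) ((pvegL Yp u C0 - pvegL Yp u z) / Δ) (R / 5 / Δ)) ∪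
      pvfeLanes (-(1 / 10)) (4 / 10) z ((Δ : ℂ) * u) W ∪ pvccPl (pvccZ z ((Δ : ℂ) * u) W W.length) (pvccD ((Δ : ℂ) * u) W W.length) (pvrrCap (31 / 64)) := by
    rw [← eF, ← eWL]
    show pvefF 𝔓 m t ∪ pvfeLanes (-(1 / 10)) (4 / 10) z ((Δ : ℂ) * u) W ∪ pvefWL Δ ((pvxrGam 𝔓 m).zu t) ∪ closedBall Yp (5 * R / 16) = _
    ac_rfl
  rw [eSet]
  refine pvrr_room_f_pl (pvef_W_simple h) (pvef_W_pos h) (pvrh_W_T0 h) hΔ hu z (q0 := (((R / 10 + 2 * δ - pvegS Yp u z) / Δ : ℝ) : ℂ)) ?_ ?_ ?_ ?_ ?_ ?_ ?_ ?_ ?_ ?_ (by norm_num) (by norm_num)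
  · have h1 := pvrh_norm_le hu Yp (z + (Δ : ℂ) * u * (((R / 10 + 2 * δ - pvegS Yp u z) / Δ : ℝ) : ℂ))
    rw [pvrh_S_pl hu, pvrh_L_pl hu, LZ, Complex.ofReal_re, Complex.ofReal_im, mul_div_cancel₀ _ hΔ.ne'] at h1
    have h2 : |pvegS Yp u z + (R / 10 + 2 * δ - pvegS Yp u z)| = R / 10 + 2 * δ := by
      rw [show pvegS Yp u z + (R / 10 + 2 * δ - pvegS Yp u z) = R / 10 + 2 * δ by ring]
      exact abs_of_nonneg (by linarith)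
    rw [mul_zero, add_zero] at h1
    linarith
  · rw [Complex.ofReal_re]
  · rw [Complex.ofReal_re]
    exact div_le_div_of_nonneg_right (by linarith) hΔ.le
  · rw [Complex.ofReal_im]; norm_num
  · rw [Complex.ofReal_im]; norm_num
  · rw [LZ, sub_self, zero_div, zero_sub, neg_le_neg_iff, le_div_iff₀ hΔ]
    linarith
  · rw [LZ, sub_self, zero_div, zero_add, le_div_iff₀ hΔ]
    linarith
  · rw [SZ, div_le_iff₀ hΔ]
    linarith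
  · rw [SZ]
    exact div_nonneg (by linarith) hΔ.le
  · intro x hx k hk1 hk
    rw [← eF] at hx
    exact pvrh_f_far h hx hk1 hk

theorem pvrh_fY0_bdd {m : ℕ} {t : τ} (h : PvxrNdg 𝔓 m t) : Bornology.IsBounded (pveffY0 𝔓 m t) :=
  (((isBounded_closedBall.subset (pvef_F_ball h)).union (pvrh_lanes_bdd _ _ _)).union (pvrh_box_bdd _ _ _ _)).union isBounded_closedBall

/-- **(Rd) `fY`** (room of record of 182, patch of 13:55Z: the core of the outer room) -/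
theorem pvrh_fY {m : ℕ} {t : τ} (h : PvxrNdg 𝔓 m t) : IsPreconnected (pveffY 𝔓 m t)ᶜ ∧ Bornology.IsBounded (pveffY 𝔓 m t) :=
  ⟨pvef_fY_hole (pvrh_fY0 h), pvef_fY_isBdd h⟩

end model

/-! ## 4. the rooms placed at a pin -/

theorem pvrh_sh_hole (z : ℂ) {Y : Set ℂ} (h : IsPreconnected Yᶜ) : IsPreconnected (pvieSh z Y)ᶜ := by
  have e : pvieSh z Y = pvccPl z 1 Y := by
    unfold pvieSh pvccPl
    simp
  rw [e]
  exact pvrr_pl_conn z one_ne_zero h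

theorem pvrh_sh_bdd (z : ℂ) {Y : Set ℂ} (h : Bornology.IsBounded Y) : Bornology.IsBounded (pvieSh z Y) := by
  have e : pvieSh z Y = pvccPl z 1 Y := by
    unfold pvieSh pvccPl
    simp
  rw [e]
  exact pvrh_pl_bdd z 1 h

theorem pvrh_eqns_cite : True := by
  trivial

end Claimed.Agent.R289
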