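-- KEEP
import Claimed.Agent.R289.Exit.ParEng
import Claimed.Agent.R289.Tr.InstL
import Claimed.Agent.R289.Tr.RegT

/-!
# Row 289 (S0537), THE WALL, ROAD E, file Exit/ParEngY : THE ROOMS `oY iY` WITH THE COLLAR (Rc) OF R22 / R23 (1')      (helper245; prefix `pvey_`, `pvey`)

`pvegYa` (`Exit/ParEng` v2, 124) = mouth ∪ funnel up to the plane of W-7: (Ra) no slit, (Rb) near half.   IT FAILS (Rc): a point of its rim (front plane off the door square, lateral sides, rim of the mouth) has no collar inside mouth ∪ tile ∪ door.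
HERE, APPEND ONLY: **`pvegYc`** := `closedBall Y (rM - μ)` ∪ (the funnel shrunk by `μ` on its four sides) ∪ NECK `{e + 2δ + μ ≤ S ≤ S(p) - a, |L - L(p)| ≤ s - μ}`;   `μ` = the collar (`3 μ₀`), `s` = half side of a CLOSED square inside the door region (`dp_win`: `3 r`).
* sec. 1  rectangles in the local frame `pveyRe` (closed, convex, collar)
* sec. 2  `pvegYc`: `pvey_Yc_sub_Ya` (so EVERY upper line of 124 survives by monotonicity), closed, Borel, **`pvey_collar`** = (Rc), `pvey_star` + `pvey_hole` = (Rd), `pvey_mem_*` = membership tests for (Re)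
* sec. 3  at the parameters: **`pvegOYc pvegIYc`**, the lines of `PvieEng.Wf`, W-7, (Rc) at `3 * pvilMu 𝔓 m`, (Rd)
-/

set_option autoImplicit false

namespace Claimed.Agent.R289

open Set Metric Complex

/-! ## 1. rectangles in the local frame -/

/-- the closed rectangle `[s₀, s₁] × [l₀ - r, l₀ + r]` in the frame `(Y, u)` -/
def pveyRe (Y u : ℂ) (s₀ s₁ l₀ r : ℝ) : Set ℂ := {v | s₀ ≤ pvegS Y u v ∧ pvegS Y u v ≤ s₁ ∧ |pvegL Y u v - l₀| ≤ r}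

theorem pvey_Ra_eq (Y u p : ℂ) (e δ w a : ℝ) : pvegRa Y u p e δ w a = pveyRe Y u (e + 2 * δ) (pvegS Y u p - a) (pvegL Y u p) w := rfl

theorem pvey_Re_closed (Y u : ℂ) (s₀ s₁ l₀ r : ℝ) : IsClosed (pveyRe Y u s₀ s₁ l₀ r) := by
  have h1 : IsClosed {v : ℂ | s₀ ≤ pvegS Y u v} := isClosed_le continuous_const (pveg_S_cont Y u)
  have h2 : IsClosed {v : ℂ | pvegS Y u v ≤ s₁} := isClosed_le (pveg_S_cont Y u) continuous_const
  have h3 : IsClosed {v : ℂ | |pvegL Y u v - l₀| ≤ r} := isClosed_le ((pveg_L_cont Y u).sub continuous_const).abs continuous_const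
  exact h1.inter (h2.inter h3)

theorem pvey_Re_mono (Y u : ℂ) {s₀ s₁ l₀ r s₀' s₁' r' : ℝ} (h0 : s₀' ≤ s₀) (h1 : s₁ ≤ s₁') (hr : r ≤ r') : pveyRe Y u s₀ s₁ l₀ r ⊆ pveyRe Y u s₀' s₁' l₀ r' :=
  fun _ hv => ⟨h0.trans hv.1, hv.2.1.trans h1, hv.2.2.trans hr⟩

theorem pvey_S_comb (Y u x y : ℂ) {a b : ℝ} (hab : a + b = 1) : pvegS Y u (a • x + b • y) = a * pvegS Y u x + b * pvegS Y u y := by
  have e : (a • x + b • y - Y) * (starRingEnd ℂ) u = (a : ℂ) * ((x - Y) * (starRingEnd ℂ) u) + (b : ℂ) * ((y - Y) * (starRingEnd ℂ) u) := by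
    have hab' : (a : ℂ) + (b : ℂ) = 1 := by exact_mod_cast hab
    simp only [Complex.real_smul]
    linear_combination (Y * (starRingEnd ℂ) u) * hab'
  unfold pvegS
  rw [e]
  simp [Complex.add_re, Complex.mul_re]

theorem pvey_L_comb (Y u x y : ℂ) {a b : ℝ} (hab : a + b = 1) : pvegL Y u (a • x + b • y) = a * pvegL Y u x + b * pvegL Y u y := by
  have e : (a • x + b • y - Y) * (starRingEnd ℂ) u = (a : ℂ) * ((x - Y) * (starRingEnd ℂ) u) + (b : ℂ) * ((y - Y) * (starRingEnd ℂ) u) := by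
    have hab' : (a : ℂ) + (b : ℂ) = 1 := by exact_mod_cast hab
    simp only [Complex.real_smul]
    linear_combination (Y * (starRingEnd ℂ) u) * hab'
  unfold pvegL
  rw [e]
  simp [Complex.add_im, Complex.mul_im]

theorem pvey_Re_convex (Y u : ℂ) (s₀ s₁ l₀ r : ℝ) : Convex ℝ (pveyRe Y u s₀ s₁ l₀ r) := by
  intro x hx y hy a b ha hb hab
  obtain ⟨x1, x2, x3⟩ := hx
  obtain ⟨y1, y2, y3⟩ := hy
  rw [abs_le] at x3 y3
  refine ⟨?_, ?_, ?_⟩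
  · rw [pvey_S_comb Y u x y hab]
    have : s₀ = a * s₀ + b * s₀ := by rw [← add_mul, hab, one_mul]
    rw [this]
    exact add_le_add (mul_le_mul_of_nonneg_left x1 ha) (mul_le_mul_of_nonneg_left y1 hb)
  · rw [pvey_S_comb Y u x y hab]
    have : s₁ = a * s₁ + b * s₁ := by rw [← add_mul, hab, one_mul]
    rw [this]
    exact add_le_add (mul_le_mul_of_nonneg_left x2 ha) (mul_le_mul_of_nonneg_left y2 hb)
  · rw [pvey_L_comb Y u x y hab]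
    have e : a * pvegL Y u x + b * pvegL Y u y - l₀ = a * (pvegL Y u x - l₀) + b * (pvegL Y u y - l₀) := by
      have : l₀ = a * l₀ + b * l₀ := by rw [← add_mul, hab, one_mul]
      linarith
    have hr : r = a * r + b * r := by rw [← add_mul, hab, one_mul]
    rw [e, abs_le]
    constructor
    · have h1 := mul_le_mul_of_nonneg_left x3.1 ha
      have h2 := mul_le_mul_of_nonneg_left y3.1 hb
      linarith
    · have h1 := mul_le_mul_of_nonneg_left x3.2 ha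
      have h2 := mul_le_mul_of_nonneg_left y3.2 hb
      linarith

/-- the two coordinates are `1`-Lipschitz -/
theorem pvey_S_lip {u : ℂ} (hu : u ^ 4 = 1) (Y v w : ℂ) : |pvegS Y u w - pvegS Y u v| ≤ ‖w - v‖ := by
  rw [pveg_S_sub]
  refine (Complex.abs_re_le_norm _).trans ?_
  rw [norm_mul, Complex.norm_conj, pveg_norm_unit hu, mul_one]

theorem pvey_L_lip {u : ℂ} (hu : u ^ 4 = 1) (Y v w : ℂ) : |pvegL Y u w - pvegL Y u v| ≤ ‖w - v‖ := by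
  rw [pveg_L_sub]
  refine (Complex.abs_im_le_norm _).trans ?_
  rw [norm_mul, Complex.norm_conj, pveg_norm_unit hu, mul_one]

/-- **the collar of a rectangle** -/
theorem pvey_Re_collar {u : ℂ} (hu : u ^ 4 = 1) (Y : ℂ) {s₀ s₁ l₀ r μ : ℝ} {v : ℂ} (hv : v ∈ pveyRe Y u s₀ s₁ l₀ r) : closedBall v μ ⊆ pveyRe Y u (s₀ - μ) (s₁ + μ) l₀ (r + μ) := by
  intro w hw
  rw [mem_closedBall_iff_norm] at hw
  have h1 := abs_le.1 ((pvey_S_lip hu Y v w).trans hw)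
  have h2 := abs_le.1 ((pvey_L_lip hu Y v w).trans hw)
  obtain ⟨a1, a2, a3⟩ := hv
  rw [abs_le] at a3
  refine ⟨by linarith [h1.1], by linarith [h1.2], abs_le.2 ⟨by linarith [h2.1, a3.1], by linarith [h2.2, a3.2]⟩⟩

/-- the point of the frame with the coordinates `(s, l)` -/
noncomputable def pveyPt (Y u : ℂ) (s l : ℝ) : ℂ := Y + ((s : ℂ) + (l : ℂ) * I) * u

theorem pvey_Pt_S {u : ℂ} (hu : u ^ 4 = 1) (Y : ℂ) (s l : ℝ) : pvegS Y u (pveyPt Y u s l) = s := by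
  have h1 := pveg_unit_conj hu
  have e : (pveyPt Y u s l - Y) * (starRingEnd ℂ) u = (s : ℂ) + (l : ℂ) * I := by
    unfold pveyPt
    linear_combination ((s : ℂ) + (l : ℂ) * I) * h1
  unfold pvegS
  rw [e]
  simp

theorem pvey_Pt_L {u : ℂ} (hu : u ^ 4 = 1) (Y : ℂ) (s l : ℝ) : pvegL Y u (pveyPt Y u s l) = l := by
  have h1 := pveg_unit_conj hu
  have e : (pveyPt Y u s l - Y) * (starRingEnd ℂ) u = (s : ℂ) + (l : ℂ) * I := by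
    unfold pveyPt
    linear_combination ((s : ℂ) + (l : ℂ) * I) * h1
  unfold pvegL
  rw [e]
  simp

/-- the closed square round `p`, in the frame -/
theorem pvey_sq_frame {u : ℂ} (hu : u ^ 4 = 1) (Y p : ℂ) {s : ℝ} {v : ℂ} (h1 : |pvegS Y u v - pvegS Y u p| ≤ s) (h2 : |pvegL Y u v - pvegL Y u p| ≤ s) : v ∈ pvwSq p s := by
  rw [pveg_S_sub] at h1
  rw [pveg_L_sub] at h2
  have hN : pvccN ((starRingEnd ℂ) u * (v - p)) ≤ s := by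
    rw [mul_comm]
    exact max_le h1 h2
  rw [pvccN_unit_mul (pveg_conj_pow_four hu)] at hN
  exact ⟨(le_max_left _ _).trans hN, (le_max_right _ _).trans hN⟩

/-- a placed closed square is the closed square -/
theorem pvey_sim_sq {d : ℂ} (hd : d ^ 4 = 1) (p : ℂ) (s : ℝ) : pvwSq p s ⊆ pvthSim p d '' pvwSq 0 s := by
  intro v hv
  refine ⟨(starRingEnd ℂ) d * (v - p), ?_, ?_⟩
  · have hN : pvccN ((starRingEnd ℂ) d * (v - p)) ≤ s := by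
      rw [pvccN_unit_mul (pveg_conj_pow_four hd)]
      exact max_le hv.1 hv.2
    simp only [pvwSq, sub_zero, mem_ofPred_eq]
    exact ⟨(le_max_left _ _).trans hN, (le_max_right _ _).trans hN⟩
  · have h1 := pveg_unit_conj hd
    unfold pvthSim
    linear_combination (v - p) * h1

/-! ## 2. the room with its collar -/

/-- **THE ROOM OF AN END LINK, WITH THE COLLAR `μ`**: mouth, funnel, neck into the door square -/
def pvegYc (Y u p : ℂ) (e δ w rM a s μ : ℝ) : Set ℂ :=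
  closedBall Y (rM - μ) ∪ pveyRe Y u (e + 2 * δ + μ) (pvegS Y u p - a - μ) (pvegL Y u p) (w - μ) ∪ pveyRe Y u (e + 2 * δ + μ) (pvegS Y u p - a) (pvegL Y u p) (s - μ)

theorem pvey_Yc_closed (Y u p : ℂ) (e δ w rM a s μ : ℝ) : IsClosed (pvegYc Y u p e δ w rM a s μ) :=
  (isClosed_closedBall.union (pvey_Re_closed _ _ _ _ _ _)).union (pvey_Re_closed _ _ _ _ _ _)

theorem pvey_Yc_meas (Y u p : ℂ) (e δ w rM a s μ : ℝ) : MeasurableSet (pvegYc Y u p e δ w rM a s μ) := (pvey_Yc_closed Y u p e δ w rM a s μ).measurableSet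

/-- **the new room is a part of the room of 124** -/
theorem pvey_Yc_sub_Ya (Y u p : ℂ) (e δ : ℝ) {w rM a s μ : ℝ} (hμ : 0 ≤ μ) (hs : s ≤ w) : pvegYc Y u p e δ w rM a s μ ⊆ pvegYa Y u p e δ w rM a := by
  rintro v ((hv | hv) | hv)
  · exact Or.inl (closedBall_subset_closedBall (by linarith) hv)
  · exact Or.inr (pvey_Re_mono Y u (by linarith) (by linarith) (by linarith) hv)
  · exact Or.inr (pvey_Re_mono Y u (by linarith) le_rfl (by linarith) hv)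

/-- **(Rc) THE COLLAR**: the closed ball of radius `μ` round every point of the room lies in mouth ∪ tile ∪ door region -/
theorem pvey_collar {Y u p : ℂ} (hu : u ^ 4 = 1) (e δ rM : ℝ) {w a s μ : ℝ} (hs : s ≤ w) (ha : a ≤ s) (hμ : μ ≤ a + s) {O : Set ℂ} (hO : pvwSq p s ⊆ O)
    {v : ℂ} (hv : v ∈ pvegYc Y u p e δ w rM a s μ) : closedBall v μ ⊆ closedBall Y rM ∪ pvegKa Y u p e δ w rM a O ∪ O := by
  rcases hv with (hv | hv) | hv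
  · intro x hx
    refine Or.inl (Or.inl ?_)
    rw [mem_closedBall_iff_norm] at hv hx ⊢
    have : ‖x - Y‖ ≤ ‖x - v‖ + ‖v - Y‖ := by
      have := norm_add_le (x - v) (v - Y)
      simpa using this
    linarith
  · intro x hx
    refine pveg_Ya_sub Y u p e δ w rM a O (Or.inr ?_)
    rw [pvey_Ra_eq]
    exact pvey_Re_mono Y u (by linarith) (by linarith) (by linarith) (pvey_Re_collar hu Y hv hx)
  · intro x hx
    obtain ⟨h1, h2, h3⟩ := pvey_Re_collar hu Y hv hx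
    by_cases hc : pvegS Y u x ≤ pvegS Y u p - a
    · refine pveg_Ya_sub Y u p e δ w rM a O (Or.inr ?_)
      exact ⟨by linarith, hc, by linarith⟩
    · rw [not_le] at hc
      refine Or.inr (hO (pvey_sq_frame hu Y p (abs_le.2 ⟨by linarith, by linarith⟩) (by linarith)))

/-- the common point of the three pieces -/
noncomputable def pveyQ (Y u p : ℂ) (e δ μ : ℝ) : ℂ := pveyPt Y u (e + 2 * δ + μ) (pvegL Y u p)

/-- **(Rd), first half: the room is star convex** -/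
theorem pvey_star {Y u p : ℂ} (hu : u ^ 4 = 1) {e δ w rM a s μ : ℝ} (h1 : e + 2 * δ + 2 * μ + a ≤ pvegS Y u p) (hμ : 0 ≤ μ) (hsμ : μ ≤ s) (hs : s ≤ w)
    (hq : (e + 2 * δ + μ) ^ 2 + pvegL Y u p ^ 2 ≤ (rM - μ) ^ 2) (hr : 0 ≤ rM - μ) : StarConvex ℝ (pveyQ Y u p e δ μ) (pvegYc Y u p e δ w rM a s μ) := by
  have hS := pvey_Pt_S hu Y (e + 2 * δ + μ) (pvegL Y u p)
  have hL := pvey_Pt_L hu Y (e + 2 * δ + μ) (pvegL Y u p)
  have q1 : pveyQ Y u p e δ μ ∈ closedBall Y (rM - μ) := by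
    rw [mem_closedBall_iff_norm]
    have h := pveg_sq hu Y (pveyQ Y u p e δ μ)
    unfold pveyQ at h ⊢
    rw [hS, hL] at h
    have h' : ‖pveyPt Y u (e + 2 * δ + μ) (pvegL Y u p) - Y‖ ^ 2 ≤ (rM - μ) ^ 2 := by linarith
    exact (pow_le_pow_iff_left₀ (norm_nonneg _) hr (by norm_num)).1 h'
  have q2 : pveyQ Y u p e δ μ ∈ pveyRe Y u (e + 2 * δ + μ) (pvegS Y u p - a - μ) (pvegL Y u p) (w - μ) := by
    unfold pveyQ
    refine ⟨hS.ge, by rw [hS]; linarith, ?_⟩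
    rw [hL, sub_self, abs_zero]
    linarith
  have q3 : pveyQ Y u p e δ μ ∈ pveyRe Y u (e + 2 * δ + μ) (pvegS Y u p - a) (pvegL Y u p) (s - μ) := by
    unfold pveyQ
    refine ⟨hS.ge, by rw [hS]; linarith, ?_⟩
    rw [hL, sub_self, abs_zero]
    linarith
  exact (((convex_closedBall Y (rM - μ)).starConvex q1).union ((pvey_Re_convex _ _ _ _ _ _).starConvex q2)).union ((pvey_Re_convex _ _ _ _ _ _).starConvex q3)

/-- **(Rd): no hole** -/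
theorem pvey_hole {Y u p : ℂ} {e δ w rM κ rI rk a s μ : ℝ} (H : PvegDoor Y u p e δ w rM κ rI rk) (ha : 0 ≤ a) (h1 : e + 2 * δ + 2 * μ + a ≤ pvegS Y u p) (hμ : 0 ≤ μ) (hsμ : μ ≤ s) (hs : s ≤ w)
    (hq : (e + 2 * δ + μ) ^ 2 + pvegL Y u p ^ 2 ≤ (rM - μ) ^ 2) (hr : 0 ≤ rM - μ) : IsPreconnected (pvegYc Y u p e δ w rM a s μ)ᶜ :=
  pvrt_star (pvey_star H.u4 h1 hμ hsμ hs hq hr) ((isBounded_closedBall (x := Y) (r := rI)).subset ((pvey_Yc_sub_Ya Y u p e δ hμ hs).trans (pveg_Ya_ball H ha)))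

/-- (Re) membership: the inner ball of the mouth -/
theorem pvey_mem_ball {Y u p : ℂ} {e δ w rM a s μ : ℝ} {v : ℂ} (h : ‖v - Y‖ ≤ rM - μ) : v ∈ pvegYc Y u p e δ w rM a s μ :=
  Or.inl (Or.inl (mem_closedBall_iff_norm.2 h))

/-- (Re) membership: the funnel -/
theorem pvey_mem_fun {Y u p : ℂ} {e δ w rM a s μ : ℝ} {v : ℂ} (h1 : e + 2 * δ + μ ≤ pvegS Y u v) (h2 : pvegS Y u v ≤ pvegS Y u p - a - μ) (h3 : |pvegL Y u v - pvegL Y u p| ≤ w - μ) :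
    v ∈ pvegYc Y u p e δ w rM a s μ := Or.inl (Or.inr ⟨h1, h2, h3⟩)

/-- (Re) membership: the neck, up to the plane of W-7 -/
theorem pvey_mem_neck {Y u p : ℂ} {e δ w rM a s μ : ℝ} {v : ℂ} (h1 : e + 2 * δ + μ ≤ pvegS Y u v) (h2 : pvegS Y u v ≤ pvegS Y u p - a) (h3 : |pvegL Y u v - pvegL Y u p| ≤ s - μ) :
    v ∈ pvegYc Y u p e δ w rM a s μ := Or.inr ⟨h1, h2, h3⟩

theorem pvey_eqns_cite : True := by
  have := @pveyRe.eq_1; have := @pveyPt.eq_1; have := @pvegYc.eq_1; have := @pveyQ.eq_1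
  trivial

/-! ## 3. at the parameters -/

section par

variable {τ : Type} {c : ℝ} (𝔓 : PvxPar τ c)

/-- **`oY`** with the collar `3 μ₀`; neck of half width `3 r - 3 μ₀`, `r = δ / 40` -/
noncomputable def pvegOYc (m : ℕ) (t : τ) : Set ℂ :=
  pvegYc (pvegYp 𝔓 m t) ((𝔓.Γ m).dout t) ((𝔓.Γ m).pout t) (pvegR 𝔓 m / 10) (pvlmDel c m) (pvegR 𝔓 m / 5) (5 * pvegR 𝔓 m / 16) (pvegA c m) (3 * (pvlmDel c m / 40)) (3 * pvilMu 𝔓 m)

/-- **`iY`** with the collar `3 μ₀` -/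
noncomputable def pvegIYc (m : ℕ) (t : τ) : Set ℂ :=
  pvegYc (pvegYm 𝔓 m t) (-(𝔓.Γ m).din t) ((𝔓.Γ m).pin t) (pvegR 𝔓 m / 10) (pvlmDel c m) (pvegR 𝔓 m / 5) (5 * pvegR 𝔓 m / 16) (pvegA c m) (3 * (pvlmDel c m / 40)) (3 * pvilMu 𝔓 m)

variable {𝔓}

theorem pvey_mu_le (m : ℕ) : pvilMu 𝔓 m ≤ pvlmDel c m / 1000 := by
  unfold pvilMu
  have := min_le_left (pvlmDel c m) (𝔓.num.rho3 * pvlmH m)
  linarith

theorem pvey_mu_nonneg (h3 : 0 ≤ 𝔓.num.rho3) (m : ℕ) : 0 ≤ pvilMu 𝔓 m := by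
  unfold pvilMu
  have := le_min (pvlm_Del_pos c m).le (mul_nonneg h3 (pvlm_H_pos m).le)
  linarith

theorem pvey_m_oYc (m : ℕ) (t : τ) : MeasurableSet (pvegOYc 𝔓 m t) := pvey_Yc_meas _ _ _ _ _ _ _ _ _ _
theorem pvey_m_iYc (m : ℕ) (t : τ) : MeasurableSet (pvegIYc 𝔓 m t) := pvey_Yc_meas _ _ _ _ _ _ _ _ _ _
theorem pvey_oYc_closed (m : ℕ) (t : τ) : IsClosed (pvegOYc 𝔓 m t) := pvey_Yc_closed _ _ _ _ _ _ _ _ _ _
theorem pvey_iYc_closed (m : ℕ) (t : τ) : IsClosed (pvegIYc 𝔓 m t) := pvey_Yc_closed _ _ _ _ _ _ _ _ _ _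

/-- **the new rooms are parts of the rooms of `Exit/ParEng` v2**: every upper line of 124 (`*_sub *_reg *_ball *_back *_front *_far`) survives -/
theorem pvey_oYc_sub_oYa {m : ℕ} (hL : PvegLev 𝔓 m) (h0 : 0 ≤ pvilMu 𝔓 m) (t : τ) : pvegOYc 𝔓 m t ⊆ pvegOYa 𝔓 m t := by
  have hR := pveg_R_pos hL
  have hf : 64 * pvlmDel c m ≤ pvegR 𝔓 m := hL.fine
  have hδ := pvlm_Del_pos c m
  exact pvey_Yc_sub_Ya _ _ _ _ _ (by linarith) (by linarith)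

theorem pvey_iYc_sub_iYa {m : ℕ} (hL : PvegLev 𝔓 m) (h0 : 0 ≤ pvilMu 𝔓 m) (t : τ) : pvegIYc 𝔓 m t ⊆ pvegIYa 𝔓 m t := by
  have hR := pveg_R_pos hL
  have hf : 64 * pvlmDel c m ≤ pvegR 𝔓 m := hL.fine
  have hδ := pvlm_Del_pos c m
  exact pvey_Yc_sub_Ya _ _ _ _ _ (by linarith) (by linarith)

/-- (Y) `oY_sub` -/
theorem pvey_oYc_sub {m : ℕ} (hL : PvegLev 𝔓 m) (h0 : 0 ≤ pvilMu 𝔓 m) (O₀ : ℕ → Set ℂ) (t : τ) :
    pvegOYc 𝔓 m t ⊆ pvegOM 𝔓 m t ∪ pvegOKa 𝔓 O₀ m t ∪ pvthSim ((𝔓.Γ m).pout t) ((𝔓.Γ m).dout t) '' O₀ m := (pvey_oYc_sub_oYa hL h0 t).trans (pveg_oYa_sub O₀ m t)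

/-- (Y) `iY_sub` -/
theorem pvey_iYc_sub {m : ℕ} (hL : PvegLev 𝔓 m) (h0 : 0 ≤ pvilMu 𝔓 m) (O₀ : ℕ → Set ℂ) (t : τ) :
    pvegIYc 𝔓 m t ⊆ pvegIM 𝔓 m t ∪ pvegIKa 𝔓 O₀ m t ∪ pvthSim ((𝔓.Γ m).pin t) ((𝔓.Γ m).din t) '' O₀ m := (pvey_iYc_sub_iYa hL h0 t).trans (pveg_iYa_sub O₀ m t)

/-- (Y) `oY_reg` -/
theorem pvey_oYc_reg {m : ℕ} (hL : PvegLev 𝔓 m) (h0 : 0 ≤ pvilMu 𝔓 m) {π : PvxIx τ} (hT : pviwTyOk 𝔓 π.p.tt) (hreg : 𝔓.reg m π = pvfeRegAt (𝔓.Γ m) 𝔓.ty 𝔓.cp 𝔓.cm 𝔓.num (pvlmH m) π.p) :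
    pvieSh π.p.zt (pvegOYc 𝔓 m π.p.tt) ⊆ (𝔓.reg m π).Yin := (Set.image_mono (pvey_oYc_sub_oYa hL h0 _)).trans (pveg_oYa_reg hL hT hreg)

/-- (Y) `iY_reg` -/
theorem pvey_iYc_reg {m : ℕ} (hL : PvegLev 𝔓 m) (h0 : 0 ≤ pvilMu 𝔓 m) {π : PvxIx τ} (hT : pviwTyOk 𝔓 π.p.ts) (hreg : 𝔓.reg m π = pvfeRegAt (𝔓.Γ m) 𝔓.ty 𝔓.cp 𝔓.cm 𝔓.num (pvlmH m) π.p) :
    pvieSh π.p.zs (pvegIYc 𝔓 m π.p.ts) ⊆ (𝔓.reg m π).Yin := (Set.image_mono (pvey_iYc_sub_iYa hL h0 _)).trans (pveg_iYa_reg hL hT hreg)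

/-- (Rb) W-7 `oY_back` (ALL points of the room) -/
theorem pvey_oYc_back {m : ℕ} {t : τ} (hL : PvegLev 𝔓 m) (h0 : 0 ≤ pvilMu 𝔓 m) (hT : pviwTyOk 𝔓 t) {v : ℂ} (hv : v ∈ pvegOYc 𝔓 m t) :
    ((v - (𝔓.Γ m).pout t) * (starRingEnd ℂ) ((𝔓.Γ m).dout t)).re ≤ -pvegA c m := pveg_oYa_back hL hT (pvey_oYc_sub_oYa hL h0 t hv)

/-- (Rb) W-7 `iY_front` (ALL points of the room) -/
theorem pvey_iYc_front {m : ℕ} {t : τ} (hL : PvegLev 𝔓 m) (h0 : 0 ≤ pvilMu 𝔓 m) (hT : pviwTyOk 𝔓 t) {v : ℂ} (hv : v ∈ pvegIYc 𝔓 m t) :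
    pvegA c m ≤ ((v - (𝔓.Γ m).pin t) * (starRingEnd ℂ) ((𝔓.Γ m).din t)).re := pveg_iYa_front hL hT (pvey_iYc_sub_iYa hL h0 t hv)

/-- **(Rc) AT THE FIRST LINK**: `hO` = the line `dp_win` of `PvieEng.Wf` -/
theorem pvey_oYc_collar {m : ℕ} {t : τ} (hL : PvegLev 𝔓 m) {O₀ : ℕ → Set ℂ} (hO : pvwSq 0 (3 * (pvlmDel c m / 40)) ⊆ O₀ m) {v : ℂ} (hv : v ∈ pvegOYc 𝔓 m t) :
    closedBall v (3 * pvilMu 𝔓 m) ⊆ pvegOM 𝔓 m t ∪ pvegOKa 𝔓 O₀ m t ∪ pvthSim ((𝔓.Γ m).pout t) ((𝔓.Γ m).dout t) '' O₀ m := by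
  have hR := pveg_R_pos hL
  have hf : 64 * pvlmDel c m ≤ pvegR 𝔓 m := hL.fine
  have hδ := pvlm_Del_pos c m
  have hμ := pvey_mu_le (𝔓 := 𝔓) m
  refine pvey_collar (pveg_dout4 hL t) _ _ _ (by linarith) (by unfold pvegA; linarith) (by unfold pvegA; linarith) ?_ hv
  exact (pvey_sim_sq (pveg_dout4 hL t) _ _).trans (Set.image_mono hO)

/-- **(Rc) AT THE LAST LINK** -/
theorem pvey_iYc_collar {m : ℕ} {t : τ} (hL : PvegLev 𝔓 m) {O₀ : ℕ → Set ℂ} (hO : pvwSq 0 (3 * (pvlmDel c m / 40)) ⊆ O₀ m) {v : ℂ} (hv : v ∈ pvegIYc 𝔓 m t) :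
    closedBall v (3 * pvilMu 𝔓 m) ⊆ pvegIM 𝔓 m t ∪ pvegIKa 𝔓 O₀ m t ∪ pvthSim ((𝔓.Γ m).pin t) ((𝔓.Γ m).din t) '' O₀ m := by
  have hR := pveg_R_pos hL
  have hf : 64 * pvlmDel c m ≤ pvegR 𝔓 m := hL.fine
  have hδ := pvlm_Del_pos c m
  have hμ := pvey_mu_le (𝔓 := 𝔓) m
  have h4 : (-(𝔓.Γ m).din t) ^ 4 = 1 := by rw [neg_pow, pveg_din4 hL t]; norm_num
  refine pvey_collar h4 _ _ _ (by linarith) (by unfold pvegA; linarith) (by unfold pvegA; linarith) ?_ hv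
  exact (pvey_sim_sq (pveg_din4 hL t) _ _).trans (Set.image_mono hO)

theorem pvey_hole_aux {Y u p : ℂ} {R δ μ rk : ℝ} (H : PvegDoor Y u p (R / 10) δ (R / 5) (5 * R / 16) (3 * R / 8) (R / 2) rk) (hf : 64 * δ ≤ R) (h0 : 0 ≤ μ) (hμ : μ ≤ δ / 1000) :
    IsPreconnected (pvegYc Y u p (R / 10) δ (R / 5) (5 * R / 16) (δ / 160) (3 * (δ / 40)) (3 * μ))ᶜ := by
  have hδ := H.δ0
  have hl := abs_le.1 H.lat
  refine pvey_hole H (by linarith) (by linarith [H.s_lo]) (by linarith) (by linarith) (by linarith) ?_ (by linarith)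
  have a1 : 0 ≤ R / 10 + 2 * δ + 3 * μ := by linarith
  have a2 : R / 10 + 2 * δ + 3 * μ ≤ R / 5 := by linarith
  have a3 : (R / 10 + 2 * δ + 3 * μ) ^ 2 ≤ (R / 5) ^ 2 := pow_le_pow_left₀ a1 a2 2
  have a4 : pvegL Y u p ^ 2 ≤ (R / 64) ^ 2 := by
    rw [← sq_abs (pvegL Y u p)]
    exact pow_le_pow_left₀ (abs_nonneg _) (H.lat.trans (by linarith)) 2
  have a5 : (R / 4) ^ 2 ≤ (5 * R / 16 - 3 * μ) ^ 2 := pow_le_pow_left₀ (by linarith) (by linarith) 2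
  nlinarith [sq_nonneg R]

/-- **(Rd) AT THE FIRST LINK** -/
theorem pvey_oYc_hole {m : ℕ} {t : τ} (hL : PvegLev 𝔓 m) (h0 : 0 ≤ pvilMu 𝔓 m) (hT : pviwTyOk 𝔓 t) : IsPreconnected (pvegOYc 𝔓 m t)ᶜ :=
  pvey_hole_aux (pveg_door_o hL hT) hL.fine h0 (pvey_mu_le m)

/-- **(Rd) AT THE LAST LINK** -/
theorem pvey_iYc_hole {m : ℕ} {t : τ} (hL : PvegLev 𝔓 m) (h0 : 0 ≤ pvilMu 𝔓 m) (hT : pviwTyOk 𝔓 t) : IsPreconnected (pvegIYc 𝔓 m t)ᶜ :=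
  pvey_hole_aux (pveg_door_i hL hT) hL.fine h0 (pvey_mu_le m)

theorem pvey_oYc_bdd {m : ℕ} {t : τ} (hL : PvegLev 𝔓 m) (h0 : 0 ≤ pvilMu 𝔓 m) (hT : pviwTyOk 𝔓 t) : pvegOYc 𝔓 m t ⊆ closedBall (pvegYp 𝔓 m t) (pvegR 𝔓 m / 2) :=
  (pvey_oYc_sub_oYa hL h0 t).trans (pveg_Ya_ball (pveg_door_o hL hT) (pveg_A_pos c m).le)

theorem pvey_iYc_bdd {m : ℕ} {t : τ} (hL : PvegLev 𝔓 m) (h0 : 0 ≤ pvilMu 𝔓 m) (hT : pviwTyOk 𝔓 t) : pvegIYc 𝔓 m t ⊆ closedBall (pvegYm 𝔓 m t) (pvegR 𝔓 m / 2) :=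
  (pvey_iYc_sub_iYa hL h0 t).trans (pveg_Ya_ball (pveg_door_i hL hT) (pveg_A_pos c m).le)

theorem pvey_eqns_cite2 : True := by
  have := @pvegOYc.eq_1; have := @pvegIYc.eq_1
  trivial

end par

end Claimed.Agent.R289
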