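-- KEEP
import Claimed.Agent.R289.Exit.EngYc
import Claimed.Agent.R289.Exit.ParEngH
import Claimed.Agent.R289.Exit.ParEngY
import Claimed.Agent.R289.Exit.ParEngC

/-!
# Row 289 (S0537, Cardy for Poisson-Voronoi), THE WALL, ROAD E, file Exit/EngYe : THE ROOM `eY` OF THE THICK LINK OF ENGINE v3 (R27 (2)(c) of 234) = OPEN `3 μ₀`-CORE OF THE OLD ROOM: ITS RECORD, AND THE LOWER LINES (Re)      (helper118; prefix `pvvz_`, third file of the prefix after `Exit/EngYc`, `Exit/ThickCR`)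

`pvvzEY 𝔓 m t := pvvzCo (3 * pviwMu 𝔓 m) (pveheY 𝔓 (pvegIM 𝔓) m t ∪ pvegIK 𝔓 m t)`      (old room = first piece `zu + [Δ/64, Δ/2] × [-Δ/10, 4Δ/10]`, lanes `[-1/10, 4/10]` of the blocks `pvxrLe b`, mouth `closedBall Ym (5R/16)`, funnel rectangle of 124).
* sec. 1  **`pvvz_fat`** (model free) = `pvlj_fat` of `Tr/LinkT` for ALL the cells of a word, with the two caps
* sec. 2  `pvvzIa` (inner room, abstract door), `pvvz_first`, **`pvvz_Ia_old`** : the `s Δ`-ball of a point of the inner room lies in the old room (`0 ≤ s ≤ 1/10`)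
* sec. 3  AT THE MODEL: `pvvzEY`, **`pvvzIe 𝔓 s m t`** (inner room, `s` in units of `Δ`), `pvvz_Ie_old`;
          THE RECORD OF THE ROOM: `pvvz_eY_open _meas` | `pvvz_eY_old` (⊆ old room: all the upper lines) | **(Rb)** `pvvz_eY_front` | **(Rc)** `pvvz_eY_col` | **(Rd)** `pvvz_eY_hole _bdd _sh_hole _sh_bdd` (over `pvrh_eY` of 39) |
          **(Re)** `pvvz_eY_of`, **`pvvz_Ie_eY`, `pvvz_Ie_eY_sh`** : `v ∈ pvvzIe 𝔓 s m t`, `r + 3 μ₀ < s Δ` ⟹ `closedBall v r ⊆ pvvzEY 𝔓 m t`;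
          HOW TO ENTER THE INNER ROOM (no ball argument): `pvvz_Ie_mono _ball _lanes _cap _plug _fun`.
-/

set_option autoImplicit false
set_option linter.unusedSectionVars false
set_option linter.unusedVariables false

namespace Claimed.Agent.R289

open Set Metric Complex

/-! ## 1. fattening of a lane, with caps (model free) -/

/-- **FATTENING WITH CAPS**: the `s ‖d‖`-ball of a point of the lane `[a,b]` (ANY cell) lies in the lane `[a - s, b + s]`, the cap of depth `s` behind the first door, the cap of depth `s` beyond the last door -/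
theorem pvvz_fat {a b s : ℝ} (ha : -(1 / 2) ≤ a - s) (hb : b + s ≤ 1 / 2) (hs0 : 0 ≤ s) (hs : s ≤ 1 / 2) (z : ℂ) {d : ℂ} (hd : d ≠ 0) (l : List PvtTurn) {p : ℂ} (hp : p ∈ pvfeLanes a b z d l) :
    closedBall p (s * ‖d‖) ⊆ pvccPl z d (pvljRect (-s) 0 (a - s) (b + s)) ∪ pvfeLanes (a - s) (b + s) z d l ∪
      pvccPl (pvccZ z d l l.length) (pvccD d l l.length) (pvljRect 0 s (a - s) (b + s)) := by
  obtain ⟨j, hj, hpj⟩ := mem_iUnion₂.1 hp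
  have hj' : j < l.length := Finset.mem_range.1 hj
  obtain ⟨w, hw, rfl⟩ := hpj
  have hab : a ≤ b := by
    obtain h | ⟨v, h, -⟩ := pvlj_lane_split _ hw
    · exact h.2.2.1.trans h.2.2.2
    · exact h.2.2.1.trans h.2.2.2
  have hlen : ∀ τ : PvtTurn, s ≤ pvljLen (a - s) (b + s) τ := pvlj_le_len (by linarith) (by linarith) hab hs
  rcases pvlj_lane_split _ hw with h | ⟨v, hv, rfl⟩
  · have h1 := pvlj_ball_fat (pvccZ z d l j) (pvlj_D_ne hd l j) s h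
    rw [pvfe_norm_frame] at h1
    refine h1.trans ((pvlj_rect_split _ _ _ _ _ _).trans (union_subset ?_ ?_))
    · rcases Nat.eq_zero_or_pos j with rfl | hj0
      · rw [pvccZ_zero, pvccD_zero, zero_sub]
        exact subset_union_left.trans subset_union_left
      · obtain ⟨i, rfl⟩ : ∃ i, j = i + 1 := ⟨j - 1, by omega⟩
        refine ((pvccPl_mono _ _ (pvlj_rect_mono ?_ le_rfl le_rfl le_rfl)).trans (pvlj_exit_sub (a - s) (b + s) z d l (by omega : i < l.length))).trans (subset_union_right.trans subset_union_left)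
        linarith [hlen (pvccT l i)]
    · exact ((pvccPl_mono _ _ (pvlj_rect_mono le_rfl (pvlj_half_len hs _) le_rfl le_rfl)).trans (pvlj_entry_sub (a - s) (b + s) z d l hj')).trans (subset_union_right.trans subset_union_left)
  · have e : pvccZ z d l j + pvccD d l j * ((pvccT l j).mid + (pvccT l j).rot * v) = pvccZ z d l (j + 1) + pvccD d l (j + 1) * v := by
      rw [pvccZ_succ z d l hj', pvccD_succ d l hj']; ring
    show closedBall (pvccZ z d l j + pvccD d l j * ((pvccT l j).mid + (pvccT l j).rot * v)) _ ⊆ _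
    rw [e]
    have h1 := pvlj_ball_fat (pvccZ z d l (j + 1)) (pvlj_D_ne hd l (j + 1)) s hv
    rw [pvfe_norm_frame] at h1
    refine h1.trans ((pvlj_rect_split _ _ _ _ _ _).trans (union_subset ?_ ?_))
    · refine ((pvccPl_mono _ _ (pvlj_rect_mono ?_ le_rfl le_rfl le_rfl)).trans (pvlj_exit_sub (a - s) (b + s) z d l hj')).trans (subset_union_right.trans subset_union_left)
      linarith [pvlj_half_len (a := a) (b := b) hs (pvccT l j)]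
    · rcases Nat.lt_or_ge (j + 1) l.length with hlt | hge
      · refine ((pvccPl_mono _ _ (pvlj_rect_mono le_rfl ?_ le_rfl le_rfl)).trans (pvlj_entry_sub (a - s) (b + s) z d l hlt)).trans (subset_union_right.trans subset_union_left)
        linarith [hlen (pvccT l (j + 1))]
      · have e2 : j + 1 = l.length := by omega
        rw [e2, zero_add]
        exact subset_union_right

/-! ## 2. the inner room of the thick link, abstract door -/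

/-- **THE INNER ROOM** (abstract door, `s` in units of `Δ`): first piece, lanes, mouth, funnel, all shrunk by `s Δ` (but at the doors between them) -/
noncomputable def pvvzIa (b : ℕ) (Ym pin : ℂ) (R δ Δ s : ℝ) (cu : ℂ) : Set ℂ :=
  pvccPl (pvehZ Δ cu) (Δ : ℂ) (pvljRect (-(31 / 64) + s) 0 (-(1 / 10) + s) (4 / 10 - s)) ∪ pvfeLanes (-(1 / 10) + s) (4 / 10 - s) (pvehZ Δ cu) (Δ : ℂ) (pvxrLe b) ∪ closedBall Ym (5 * R / 16 - s * Δ) ∪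
    pveyRe Ym (I ^ b) (R / 10 + 2 * δ + s * Δ) (pvegS Ym (I ^ b) pin - δ / 4 - s * Δ) (pvegL Ym (I ^ b) pin) (R / 5 - s * Δ)

theorem pvvz_eqns_cite3 : True := by
  have := @pvvzIa.eq_1
  trivial

/-- the first piece of the room of 166, placed form -/
theorem pvvz_first (Δ : ℝ) (hΔ : 0 < Δ) (cu : ℂ) (lb : List PvtTurn) (Mi : Set ℂ) : pvccPl (pvehZ Δ cu) (Δ : ℂ) (pvljRect (-(31 / 64)) 0 (-(1 / 10)) (4 / 10)) ⊆ pvehEY Δ cu lb Mi := by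
  rintro _ ⟨w, ⟨h1, h2, h3, h4⟩, rfl⟩
  refine Or.inl (Or.inl ?_)
  have e1 : (pvehZ Δ cu + (Δ : ℂ) * w).re = cu.re + Δ / 2 + Δ * w.re := by
    unfold pvehZ
    simp
  have e2 : (pvehZ Δ cu + (Δ : ℂ) * w).im = cu.im + Δ * w.im := by
    unfold pvehZ
    simp
  show _ ≤ (pvehZ Δ cu + (Δ : ℂ) * w).re ∧ (pvehZ Δ cu + (Δ : ℂ) * w).re ≤ _ ∧ _ ≤ (pvehZ Δ cu + (Δ : ℂ) * w).im ∧ (pvehZ Δ cu + (Δ : ℂ) * w).im ≤ _
  rw [e1, e2]
  refine ⟨?_, ?_, ?_, ?_⟩ <;> nlinarith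

/-- **THE BALL OF A POINT OF THE INNER ROOM LIES IN THE ROOM** (abstract door; room = room of 166 at the mouth `iM`, and the funnel `iK` of 124) -/
theorem pvvz_Ia_old {b : ℕ} {Ym pin : ℂ} {R δ Δ rk : ℝ} (H : PvegDoor Ym (I ^ b) pin (R / 10) δ (R / 5) (5 * R / 16) (3 * R / 8) (R / 2) rk)
    (hfine : 1024 * δ ≤ R) (hD1 : R / 16 + δ ≤ Δ) (hD2 : Δ < R / 16 + 3 * δ) {s : ℝ} (hs0 : 0 ≤ s) (hs : s ≤ 1 / 10) {v : ℂ}
    (hv : v ∈ pvvzIa b Ym pin R δ Δ s (pin + (δ : ℂ) * I ^ b * (1 / 2) + (Δ : ℂ) * pvtZ (pvxrUo b 1))) :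
    closedBall v (s * Δ) ⊆ pvehEY Δ (pin + (δ : ℂ) * I ^ b * (1 / 2) + (Δ : ℂ) * pvtZ (pvxrUo b 1)) (pvxrLe b) (closedBall Ym (5 * R / 16)) ∪ pvegK Ym (I ^ b) pin (R / 10) δ (R / 5) (5 * R / 16) := by
  have hu := H.u4
  have hδ := H.δ0
  have hΔ : 0 < Δ := by linarith
  have hΔ' : (Δ : ℂ) ≠ 0 := by exact_mod_cast hΔ.ne'
  have hn : ‖(Δ : ℂ)‖ = Δ := by rw [Complex.norm_real, Real.norm_of_nonneg hΔ.le]
  set u := (I : ℂ) ^ b with hudef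
  set ce := pin + (δ : ℂ) * u * (1 / 2) with hce
  set cu := ce + (Δ : ℂ) * pvtZ (pvxrUo b 1) with hcu
  set lb := pvxrLe b with hlb
  set Sp := pvegS Ym u pin with hSp
  set Lp := pvegL Ym u pin with hLp
  set old := pvehEY Δ cu lb (closedBall Ym (5 * R / 16)) ∪ pvegK Ym u pin (R / 10) δ (R / 5) (5 * R / 16) with hold
  have s_lo := H.s_lo
  have s_hi := H.s_hi
  have lat := abs_le.1 H.lat
  have hl0 : 0 < lb.length := lt_of_lt_of_le (by norm_num) (pvrh_le_len b)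
  have e1 : -(1 / 10) + s - s = -(1 / 10 : ℝ) := by ring
  have e2 : 4 / 10 - s + s = (4 / 10 : ℝ) := by ring
  -- the four pieces of the room
  have hE : pvccPl (pvehZ Δ cu) (Δ : ℂ) (pvljRect (-(31 / 64)) 0 (-(1 / 10)) (4 / 10)) ⊆ old := (pvvz_first Δ hΔ cu lb _).trans subset_union_left
  have hLn : pvfeLanes (-(1 / 10)) (4 / 10) (pvehZ Δ cu) (Δ : ℂ) lb ⊆ old := fun x hx => Or.inl (Or.inl (Or.inr hx))
  have hB : closedBall Ym (5 * R / 16) ⊆ old := fun x hx => Or.inl (Or.inr hx)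
  have hRc : pveyRe Ym u (R / 10 + 2 * δ) (Sp - δ / 4) Lp (R / 5) ⊆ old := fun x hx => by
    by_cases hxB : x ∈ closedBall Ym (5 * R / 16)
    · exact hB hxB
    · exact Or.inr ⟨hx, hxB⟩
  rcases hv with ((hv | hv) | hv) | hv
  · -- first piece
    obtain ⟨w, hw, rfl⟩ := hv
    have h1 := pvlj_ball_fat (pvehZ Δ cu) hΔ' s hw
    rw [hn, e1, e2] at h1
    refine h1.trans ((pvlj_rect_split _ _ _ _ _ _).trans (union_subset ?_ ?_))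
    · exact (pvccPl_mono _ _ (pvlj_rect_mono (by linarith) le_rfl le_rfl le_rfl)).trans hE
    · have h2 := pvlj_entry_sub (-(1 / 10)) (4 / 10) (pvehZ Δ cu) (Δ : ℂ) lb hl0
      rw [pvccZ_zero, pvccD_zero, hlb, pvrh_le_T0] at h2
      refine ((pvccPl_mono _ _ (pvlj_rect_mono le_rfl ?_ le_rfl le_rfl)).trans h2).trans hLn
      simp only [pvljLen]
      linarith
  · -- lanes
    have h1 := pvvz_fat (a := -(1 / 10) + s) (b := 4 / 10 - s) (s := s) (by linarith) (by linarith) hs0 (by linarith) (pvehZ Δ cu) hΔ' lb hv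
    rw [hn, e1, e2] at h1
    refine h1.trans (union_subset (union_subset ?_ hLn) ?_)
    · exact (pvccPl_mono _ _ (pvlj_rect_mono (by linarith) le_rfl le_rfl le_rfl)).trans hE
    · rintro _ ⟨w, ⟨q1, q2, q3, q4⟩, rfl⟩
      refine hRc ?_
      have eP : pvccZ (pvehZ Δ cu) (Δ : ℂ) lb lb.length + pvccD (Δ : ℂ) lb lb.length * w = ce + (Δ : ℂ) * u * (-(1 / 2) - w) := by
        rw [hlb, hcu, pvrh_le_Z, pvrh_le_D]
        ring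
      have Sce : pvegS Ym u ce = Sp + δ / 2 := by rw [hce, pvrh_S_pl hu]; simp; ring
      have Lce : pvegL Ym u ce = Lp := by rw [hce, pvrh_L_pl hu]; simp; rfl
      have eS : pvegS Ym u (ce + (Δ : ℂ) * u * (-(1 / 2) - w)) = Sp + δ / 2 + Δ * (-(1 / 2) - w.re) := by rw [pvrh_S_pl hu, Sce]; simp
      have eL : pvegL Ym u (ce + (Δ : ℂ) * u * (-(1 / 2) - w)) = Lp + Δ * (-w.im) := by rw [pvrh_L_pl hu, Lce]; simp
      show _ ≤ pvegS Ym u (pvccZ (pvehZ Δ cu) (Δ : ℂ) lb lb.length + pvccD (Δ : ℂ) lb lb.length * w) ∧ pvegS Ym u (pvccZ (pvehZ Δ cu) (Δ : ℂ) lb lb.length + pvccD (Δ : ℂ) lb lb.length * w) ≤ _ ∧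
        |pvegL Ym u (pvccZ (pvehZ Δ cu) (Δ : ℂ) lb lb.length + pvccD (Δ : ℂ) lb lb.length * w) - _| ≤ _
      rw [eP, eS, eL]
      refine ⟨by nlinarith, by nlinarith, abs_le.2 ⟨by nlinarith, by nlinarith⟩⟩
  · -- mouth
    refine Subset.trans (fun x hx => ?_) hB
    rw [mem_closedBall] at hv hx ⊢
    linarith [dist_triangle x v Ym]
  · -- funnel
    refine ((pvey_Re_collar hu Ym (μ := s * Δ) hv).trans (pvey_Re_mono Ym u (by linarith) (by linarith) (by linarith))).trans hRc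

/-! ## 3. at the model -/

section model

variable {τ : Type} {c : ℝ} (𝔓 : PvxPar τ c)

/-- **THE ROOM OF THE THICK LINK, WITH (Rc)** = the open `3 μ₀`-core of the room [166 at the mouth `iM`] `∪` [funnel `iK` of 124] -/
noncomputable def pvvzEY (m : ℕ) (t : τ) : Set ℂ := pvvzCo (3 * pviwMu 𝔓 m) (pveheY 𝔓 (pvegIM 𝔓) m t ∪ pvegIK 𝔓 m t)

/-- **THE INNER ROOM OF THE THICK LINK** (`s` in units of `Δ = pvehDl 𝔓 m`), relative to the centre of the pin -/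
noncomputable def pvvzIe (s : ℝ) (m : ℕ) (t : τ) : Set ℂ :=
  pvvzIa (pvxrB 𝔓 t) (pvegYm 𝔓 m t) ((pvxrGam 𝔓 m).pin t) (pvegR 𝔓 m) (pvlmDel c m) (pvehDl 𝔓 m) s ((pvxrGam 𝔓 m).zu t)

theorem pvvz_eqns_cite4 : True := by
  have := @pvvzEY.eq_1; have := @pvvzIe.eq_1
  trivial

variable {𝔓} {m : ℕ} {t : τ}

/-- **(Re), OLD ROOM** -/
theorem pvvz_Ie_old (hΓ : 𝔓.Γ m = pvxrGam 𝔓 m) (hL : PvegLev 𝔓 m) (hT : pviwTyOk 𝔓 t) (h : PvxrNdg 𝔓 m t) {s : ℝ} (hs0 : 0 ≤ s) (hs : s ≤ 1 / 10) {v : ℂ} (hv : v ∈ pvvzIe 𝔓 s m t) :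
    closedBall v (s * pvehDl 𝔓 m) ⊆ pveheY 𝔓 (pvegIM 𝔓) m t ∪ pvegIK 𝔓 m t := by
  have H := pveg_door_i hL hT
  obtain ⟨D1, D2, D3⟩ := pvef_Dl_bounds h
  unfold pvvzIe at hv
  unfold pveheY pvegIM pvegIK
  rw [hΓ, pvxr_gam_din, neg_neg, pvxr_gam_pin] at H ⊢
  rw [pvxr_gam_pin, (pvxr_geo h).zu', pvrh_door_ctr _ _ (pvxrB 𝔓 t)] at hv
  have := pvvz_Ia_old (b := pvxrB 𝔓 t) H (by linarith) D1 D2 hs0 hs hv
  rwa [← pvrh_door_ctr, ← (pvxr_geo h).zu'] at this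

/-- a ball inside the open core -/
theorem pvvz_ball_sub {Y : Set ℂ} (hb : Bornology.IsBounded Y) {r r' s : ℝ} (hr : r < r') {x : ℂ} (h : closedBall x (s + r') ⊆ Y) : closedBall x s ⊆ pvvzCo r Y := by
  intro y hy
  refine pvvz_mem_bdd hb hr (Subset.trans (fun w hw => ?_) h)
  rw [mem_closedBall] at hy hw ⊢
  linarith [dist_triangle w y x]

/-! ### the record of the room -/

theorem pvvz_eY_open (𝔓 : PvxPar τ c) (m : ℕ) (t : τ) : IsOpen (pvvzEY 𝔓 m t) := pvvz_open _ _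

theorem pvvz_eY_meas (𝔓 : PvxPar τ c) (m : ℕ) (t : τ) : MeasurableSet (pvvzEY 𝔓 m t) := pvvz_meas _ _

/-- the room lies in the old room: every UPPER line of 166 124 55 is inherited -/
theorem pvvz_eY_old (h0 : 0 ≤ 3 * pviwMu 𝔓 m) (t : τ) : pvvzEY 𝔓 m t ⊆ pveheY 𝔓 (pvegIM 𝔓) m t ∪ pvegIK 𝔓 m t := pvvz_sub h0 _

/-- **(Rc)**: `W` = mouth ∪ tile ∪ region of the plug OF THE DAY (`hW` = the line `eY_sub` of the old room) -/
theorem pvvz_eY_col {W : Set ℂ} (hW : pveheY 𝔓 (pvegIM 𝔓) m t ∪ pvegIK 𝔓 m t ⊆ W) : ∀ v ∈ pvvzEY 𝔓 m t, closedBall v (3 * pviwMu 𝔓 m) ⊆ W := pvvz_collar hW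

/-- **(Rb) W-7** -/
theorem pvvz_eY_front (h0 : 0 ≤ 3 * pviwMu 𝔓 m) (hL : PvegLev 𝔓 m) (hf : 1000 * pvlmDel c m ≤ 𝔓.num.rho * pvlmH m) (hT : pviwTyOk 𝔓 t) (Z : PvehGeo 𝔓 m t) {v : ℂ}
    (hv : v ∈ pvvzEY 𝔓 m t) (hO : v ∈ pvieSh ((pvxrGam 𝔓 m).zu t) (pvehrO 𝔓 m)) : pvehDl 𝔓 m / 64 ≤ (v - (pvxrGam 𝔓 m).zu t).re :=
  pvej_eY_front hL hf hT Z (pvvz_eY_old h0 t hv) hO

/-- **(Rd)** -/
theorem pvvz_eY_hole (hΓ : 𝔓.Γ m = pvxrGam 𝔓 m) (hL : PvegLev 𝔓 m) (hT : pviwTyOk 𝔓 t) (h : PvxrNdg 𝔓 m t) : IsPreconnected (pvvzEY 𝔓 m t)ᶜ := pvvz_hole (pvrh_eY hΓ hL hT h)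

theorem pvvz_eY_bdd (h0 : 0 ≤ 3 * pviwMu 𝔓 m) (hL : PvegLev 𝔓 m) (hT : pviwTyOk 𝔓 t) : Bornology.IsBounded (pvvzEY 𝔓 m t) := pvvz_bdd h0 (pvrh_eY_bdd hL hT)

/-- **(Rd), placed** -/
theorem pvvz_eY_sh_hole (hΓ : 𝔓.Γ m = pvxrGam 𝔓 m) (hL : PvegLev 𝔓 m) (hT : pviwTyOk 𝔓 t) (h : PvxrNdg 𝔓 m t) (z : ℂ) : IsPreconnected (pvieSh z (pvvzEY 𝔓 m t))ᶜ := pvvz_sh_hole (pvvz_eY_hole hΓ hL hT h) z

theorem pvvz_eY_sh_bdd (h0 : 0 ≤ 3 * pviwMu 𝔓 m) (hL : PvegLev 𝔓 m) (hT : pviwTyOk 𝔓 t) (z : ℂ) : Bornology.IsBounded (pvieSh z (pvvzEY 𝔓 m t)) := pvvz_sh_bdd (pvvz_eY_bdd h0 hL hT) z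

/-- **(Re)**, recipe -/
theorem pvvz_eY_of (hL : PvegLev 𝔓 m) (hT : pviwTyOk 𝔓 t) {r' : ℝ} (hr : 3 * pviwMu 𝔓 m < r') {v : ℂ} (hv : closedBall v r' ⊆ pveheY 𝔓 (pvegIM 𝔓) m t ∪ pvegIK 𝔓 m t) : v ∈ pvvzEY 𝔓 m t :=
  pvvz_mem_bdd (pvrh_eY_bdd hL hT) hr hv

/-- **(Re) THE INNER ROOM LIES IN THE CORE OF THE ROOM** -/
theorem pvvz_Ie_eY (hΓ : 𝔓.Γ m = pvxrGam 𝔓 m) (hL : PvegLev 𝔓 m) (hT : pviwTyOk 𝔓 t) (h : PvxrNdg 𝔓 m t) {s r : ℝ} (hs0 : 0 ≤ s) (hs : s ≤ 1 / 10) (hr : r + 3 * pviwMu 𝔓 m < s * pvehDl 𝔓 m)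
    {v : ℂ} (hv : v ∈ pvvzIe 𝔓 s m t) : closedBall v r ⊆ pvvzEY 𝔓 m t := by
  refine pvvz_ball_sub (pvrh_eY_bdd hL hT) (r' := s * pvehDl 𝔓 m - r) (by linarith) ?_
  rw [add_sub_cancel]
  exact pvvz_Ie_old hΓ hL hT h hs0 hs hv

/-- **(Re), placed at the pin** -/
theorem pvvz_Ie_eY_sh (hΓ : 𝔓.Γ m = pvxrGam 𝔓 m) (hL : PvegLev 𝔓 m) (hT : pviwTyOk 𝔓 t) (h : PvxrNdg 𝔓 m t) {s r : ℝ} (hs0 : 0 ≤ s) (hs : s ≤ 1 / 10) (hr : r + 3 * pviwMu 𝔓 m < s * pvehDl 𝔓 m)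
    (z : ℂ) {v : ℂ} (hv : v - z ∈ pvvzIe 𝔓 s m t) : closedBall v r ⊆ pvieSh z (pvvzEY 𝔓 m t) := by
  intro w hw
  refine ⟨w - z, pvvz_Ie_eY hΓ hL hT h hs0 hs hr hv ?_, by ring⟩
  rw [mem_closedBall, dist_eq_norm] at hw ⊢
  rwa [sub_sub_sub_cancel_right]

/-! ### how to enter the inner room (monotone pieces) -/

theorem pvvz_Ie_mono {s s' : ℝ} (h : s ≤ s') (hΔ : 0 ≤ pvehDl 𝔓 m) (t : τ) : pvvzIe 𝔓 s' m t ⊆ pvvzIe 𝔓 s m t := by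
  have hm := mul_le_mul_of_nonneg_right h hΔ
  rintro v (((hv | hv) | hv) | hv)
  · exact Or.inl (Or.inl (Or.inl (pvccPl_mono _ _ (pvlj_rect_mono (by linarith) le_rfl (by linarith) (by linarith)) hv)))
  · exact Or.inl (Or.inl (Or.inr (pvlj_lanes_mono (by linarith) (by linarith) _ _ _ hv)))
  · exact Or.inl (Or.inr (closedBall_subset_closedBall (by linarith) hv))
  · exact Or.inr (pvey_Re_mono _ _ (by linarith) (by linarith) (by linarith) hv)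

/-- mouth -/
theorem pvvz_Ie_ball {s ρ' : ℝ} (h : ρ' + s * pvehDl 𝔓 m ≤ 5 * pvegR 𝔓 m / 16) (t : τ) : closedBall (pvegYm 𝔓 m t) ρ' ⊆ pvvzIe 𝔓 s m t :=
  fun _ hv => Or.inl (Or.inr (closedBall_subset_closedBall (by linarith) hv))

/-- lanes of the blocks -/
theorem pvvz_Ie_lanes {s a' b' : ℝ} (ha : -(1 / 10) + s ≤ a') (hb : b' ≤ 4 / 10 - s) (t : τ) :
    pvfeLanes a' b' (pvehZ (pvehDl 𝔓 m) ((pvxrGam 𝔓 m).zu t)) (pvehDl 𝔓 m : ℂ) (pvxrLe (pvxrB 𝔓 t)) ⊆ pvvzIe 𝔓 s m t :=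
  fun _ hv => Or.inl (Or.inl (Or.inr (pvlj_lanes_mono ha hb _ _ _ hv)))

/-- a rectangle behind the first door (frame of the first door, units of `Δ`) -/
theorem pvvz_Ie_cap {s x₀ x₁ y₀ y₁ : ℝ} (h0 : -(31 / 64) + s ≤ x₀) (h1 : x₁ ≤ 0) (h2 : -(1 / 10) + s ≤ y₀) (h3 : y₁ ≤ 4 / 10 - s) (t : τ) :
    pvccPl (pvehZ (pvehDl 𝔓 m) ((pvxrGam 𝔓 m).zu t)) (pvehDl 𝔓 m : ℂ) (pvljRect x₀ x₁ y₀ y₁) ⊆ pvvzIe 𝔓 s m t :=
  fun _ hv => Or.inl (Or.inl (Or.inl (pvccPl_mono _ _ (pvlj_rect_mono h0 h1 h2 h3) hv)))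

/-- the same in the coordinates of the reference plug (absolute units, relative to `zu`) -/
theorem pvvz_Ie_plug (hΔ : 0 < pvehDl 𝔓 m) {s : ℝ} {v : ℂ} (h0 : pvehDl 𝔓 m / 64 + s * pvehDl 𝔓 m ≤ (v - (pvxrGam 𝔓 m).zu t).re) (h1 : (v - (pvxrGam 𝔓 m).zu t).re ≤ pvehDl 𝔓 m / 2)
    (h2 : -(pvehDl 𝔓 m / 10) + s * pvehDl 𝔓 m ≤ (v - (pvxrGam 𝔓 m).zu t).im) (h3 : (v - (pvxrGam 𝔓 m).zu t).im ≤ 4 * pvehDl 𝔓 m / 10 - s * pvehDl 𝔓 m) : v ∈ pvvzIe 𝔓 s m t := by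
  have hΔ' : (pvehDl 𝔓 m : ℂ) ≠ 0 := by exact_mod_cast hΔ.ne'
  refine Or.inl (Or.inl (Or.inl ⟨(v - pvehZ (pvehDl 𝔓 m) ((pvxrGam 𝔓 m).zu t)) / (pvehDl 𝔓 m : ℂ), ⟨?_, ?_, ?_, ?_⟩, ?_⟩))
  · rw [Complex.div_ofReal_re, le_div_iff₀ hΔ]
    unfold pvehZ
    simp only [Complex.sub_re, Complex.add_re, Complex.ofReal_re] at h0 ⊢
    linarith
  · rw [Complex.div_ofReal_re, div_le_iff₀ hΔ]
    unfold pvehZ
    simp only [Complex.sub_re, Complex.add_re, Complex.ofReal_re] at h1 ⊢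
    linarith
  · rw [Complex.div_ofReal_im, le_div_iff₀ hΔ]
    unfold pvehZ
    simp only [Complex.sub_im, Complex.add_im, Complex.ofReal_im] at h2 ⊢
    linarith
  · rw [Complex.div_ofReal_im, div_le_iff₀ hΔ]
    unfold pvehZ
    simp only [Complex.sub_im, Complex.add_im, Complex.ofReal_im] at h3 ⊢
    linarith
  · show pvehZ (pvehDl 𝔓 m) ((pvxrGam 𝔓 m).zu t) + (pvehDl 𝔓 m : ℂ) * ((v - pvehZ (pvehDl 𝔓 m) ((pvxrGam 𝔓 m).zu t)) / (pvehDl 𝔓 m : ℂ)) = v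
    field_simp
    ring

/-- funnel, in the frame `(S, L)` of the entrance mouth (`u = I ^ b`;   `pvge2S = pvegS`, `|pvge2T| = |pvegL|`) -/
theorem pvvz_Ie_fun (hΓ : 𝔓.Γ m = pvxrGam 𝔓 m) (hL : PvegLev 𝔓 m) (hT : pviwTyOk 𝔓 t) {s : ℝ} {v : ℂ} (h1 : pvegR 𝔓 m / 10 + 2 * pvlmDel c m + s * pvehDl 𝔓 m ≤ pvegS (pvegYm 𝔓 m t) (I ^ pvxrB 𝔓 t) v)
    (h2 : pvegS (pvegYm 𝔓 m t) (I ^ pvxrB 𝔓 t) v ≤ 3 * pvegR 𝔓 m / 8 - 9 * pvlmDel c m / 4 - s * pvehDl 𝔓 m) (h3 : |pvegL (pvegYm 𝔓 m t) (I ^ pvxrB 𝔓 t) v| ≤ pvegR 𝔓 m / 5 - pvlmDel c m - s * pvehDl 𝔓 m) :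
    v ∈ pvvzIe 𝔓 s m t := by
  have H := pveg_door_i hL hT
  rw [hΓ, pvxr_gam_din, neg_neg] at H
  have s_lo := H.s_lo
  have lat := abs_le.1 H.lat
  rw [abs_le] at h3
  exact Or.inr ⟨h1, by linarith, abs_le.2 ⟨by linarith [h3.1, lat.2], by linarith [h3.2, lat.1]⟩⟩

end model

end Claimed.Agent.R289
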