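-- KEEP
import Claimed.Agent.R289.Exit.ParEng
import Claimed.Agent.R289.Exit.ParEngR
import Claimed.Agent.R289.Tr.LinkT

/-!
# Row 289 (S0537), THE WALL, ROAD E, field `thick`, file Exit/ParEngF : THE GEOMETRY OF THE THICK RETURN `t =f=> u`, REGIONS `fM fK fY`, EXPLICIT      (pen helper182, order (F1)-(F7) of helper7 11:28Z; prefix `pvef`, `Pvef`)

CONSUMER: the Bessel step of `thick` (7 `Exit/Thick`, 223 `Exit/ThickL`): the cycle `u =e=> t =f=> u`;   fields `fM fK fY : ℕ → τ → Set ℂ` of `PvieEng` v2 (163), relative to the centre of the pin, absolute units;   E10 in region form (21 221 `Tr/LinkQ`, `Tr/LinkT`).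
GEOMETRY OF RECORD = helper1 (`Exit/TrPar`), 166 (`Exit/ParEngR`), 124 (`Exit/ParEng`).      `g = 2 n + 1`, `n = pvxrNw`, `Δ = g δ = pvehDl`, BLOCKS = the squares of `g × g` cells of the grid `e⁻ + g ℤ²` (the block of `u` and the blocks of `e` are blocks of this grid).

**DESIGN: `f` = THE POLYLINE OF helper1 AT BLOCK SCALE.**   Block coordinates `x : ℤ × ℤ` RELATIVE TO THE BLOCK OF THE CENTRE OF THE PIN (`pvefO`): central cell `pvefCc n em x = e⁻ + g (O + x)`, within `n` cells of `g x`.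
  `e⁻ ↦ em' = pvefEm` (exact),   `e⁺ ↦ ep' = pvefEp` = THE BLOCK WHICH CONTAINS THE CELL `e⁺` (the misalignment of `e⁺` is absorbed by the funnel and the mouth: the first block lies within `Δ` of `e⁺`),   box `B ↦ B' = pvefB`,   ring road `M ↦ M' = pvefM`.
  word `pvefWord = pvxrWord M' a b ep' em' 0` (`n = 0`, `g = 1` in the formulas of helper1): out of `ep'` in the direction `I ^ a`, thick ring road (just outside the thin one), counterclockwise, ramp, manoeuvre, WEST DOOR OF THE BLOCK OF `u`.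
  So `pvxr_cons pvxr_end pvxr_nodup pvxr_cells_box pvxr_word_simple pvxr_word_dir` apply VERBATIM (`pvef_okb`), whatever the constants `pvxrUo pvxrMan pvxrRo pvxrLe` are.
  corridor in the plane: first door `pvefZ0`, scaled frame `Δ I ^ a`, vocabulary of 166 / 209 (`pvccC pvccZ pvccD pvfeLanes`).
REGIONS:   `fM := oM = pvegOM` (124);   FUNNEL `F = pvegRc Y⁺ (I^a) C₀ (ρh/10) δ (ρh/5)`, `C₀` = centre of the first block (off the box with its collar, reaches the middle of the first block);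
  `fK := (F ∪ closed blocks of the word ∪ WEST half of the block of u) \ (zu + rO ∪ fM)`;   `fY := F ∪ lanes [-1/10, 4/10] of the word ∪ the lane of the west half ∪ fM`      (mirror of `pvehEK pvehEY pvehRY`, funnel as in `pveaEng` of 124).

* sec. 1  block coordinates: `pvefRd pvefIx pvefO pvefEm pvefEp pvefCc pvefB pvefM`, `pvef_rd`, `pvef_cc_near`, `pvef_cc_em`, `pvef_cc_ep`
* sec. 2  integers: `PvefOK` (cell scale: `PvxrOK` + four sharper lines), `PvefOKb` (block scale), **`pvef_okb`**;   **`pvef_in_u`**, **`pvef_in_e`** (SEPARATION: a block of `f` within `1` of `u`, or within `2` of a block of `e`, is `u` or its west neighbour)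
* sec. 3  the word: `pvefWord pvefPath pvefV pvefU`, `pvef_V_mem`, `pvef_V_last`, `pvef_simple`, `pvef_dir`, `pvef_path_box`, **`pvef_len`** (`< (2 M' + 1)²` blocks), `pvef_M_le`
* sec. 4  the plane, all numbers arguments: `pvefCtr`, `pvef_ctr_add`, `pvefZ0`, `pvef_C_eq`, last door;   regions `pvefBl pvefBlocks pvefWest pvefBody pvefFK pvefFY`, Borel (F1), **`pvef_FY_sub`** (F4)
* sec. 5  AT THE MODEL: `pvefW pvefZ pvefD pvefF pveffK pveffY0`;   hypothesis = **`PvefNdg 𝔓 m t`** = `PvxrNdg` of helper1 (SAME field names) with `far : 7ρ/4 ≤ ‖y⁺ - y⁻‖` (line 3 of `pviwTyOk` v4; `PvxrNdg.far` is only `4ρ/5` since TrPar v5): `PvefNdg.ndg`, `pvef_ndg_of`;   (F1) `pvef_m_fK pvef_m_fY0`   (F3) `pvef_fK_fM pvef_fK_rO pvef_fK_eK pvef_fK_iM pvef_fK_iK pvef_fK_box`   (F4) `pvef_fY0_sub`   (F5) `pvef_bdd`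
          (F6) `pvef_W_len pvef_W_simple pvef_last_door pvef_last_dir pvef_cap pvef_cap_mouth pvef_through`   (F7) `pvef_sep0`
**ROOM OF RECORD (R22 (2) of 234, patch of 13:55Z, FROZEN): `pveffY` := `pvljCore (3δ/1000) pveffY0`, `pveffY0` = the outer room (funnel ∪ lanes ∪ west lane ∪ mouth): last section: (Rb) `pvef_fY_back` (Rc) `pvef_fY_col pvef_fY_colMu` (Rd) `pvef_fY_isBdd pvef_fY_hole` (Re) `pvef_fY_of pvef_fY_ball pvef_Ln_core pvef_through_fY`.**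
OLD RULING (sent 11:52Z to 7 1 166 124): (F3') `fK` off `closedBall (h y⁻) (1.1 ρ h + 3 δ)` is IMPOSSIBLE with the plug of record (`u` sits `.63 .. .71 ρ h` from `h y⁻`);   cure = push `pvxrUo` out;   this file follows the constants.
-/

set_option autoImplicit false

namespace Claimed.Agent.R289

open Complex Set Metric

/-! ## 1. block coordinates -/

/-- the index `k` of the block `[g k - n, g k + n]`, `g = 2 n + 1`, which contains `x` -/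
def pvefRd (n x : ℤ) : ℤ := (x + n) / (2 * n + 1)

theorem pvef_rd {n : ℤ} (hn : 0 ≤ n) (x : ℤ) : |x - (2 * n + 1) * pvefRd n x| ≤ n := by
  unfold pvefRd
  have h1 := Int.emod_add_mul_ediv (x + n) (2 * n + 1)
  have h2 := Int.emod_nonneg (x + n) (show (2 * n + 1) ≠ 0 by omega)
  have h3 := Int.emod_lt_of_pos (x + n) (show 0 < 2 * n + 1 by omega)
  rw [abs_le]
  constructor <;> linarith

/-- the block (index on the grid `e⁻ + g ℤ²`) which contains the cell `q` -/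
def pvefIx (n : ℤ) (em q : ℤ × ℤ) : ℤ × ℤ := (pvefRd n (q.1 - em.1), pvefRd n (q.2 - em.2))

/-- the block of the cell `(0,0)` (the centre of the pin is a corner of this cell) -/
def pvefO (n : ℤ) (em : ℤ × ℤ) : ℤ × ℤ := pvefIx n em (0, 0)

/-- `e⁻` in block coordinates relative to the block of the centre -/
def pvefEm (n : ℤ) (em : ℤ × ℤ) : ℤ × ℤ := - pvefO n em

/-- the block which contains `e⁺`, in block coordinates relative to the block of the centre -/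
def pvefEp (n : ℤ) (em ep : ℤ × ℤ) : ℤ × ℤ := pvefIx n em ep - pvefO n em

/-- the central cell of the block `x` -/
def pvefCc (n : ℤ) (em x : ℤ × ℤ) : ℤ × ℤ := em + (2 * n + 1) • (pvefO n em + x)

/-- half side of the box, in blocks: `B' < |x.1| ∨ B' < |x.2|` ⟹ the block `x` is off the cells of sup norm `≤ B` -/
def pvefB (n B : ℤ) : ℤ := (B + 2 * n) / (2 * n + 1)

/-- radius of the thick ring road, in blocks -/
def pvefM (n M : ℤ) : ℤ := (M + 2 * n) / (2 * n + 1) + 1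

/-- the central cell of the block `x` is within `n` cells of `g x` -/
theorem pvef_cc_near {n : ℤ} (hn : 0 ≤ n) (em x : ℤ × ℤ) : |(pvefCc n em x).1 - (2 * n + 1) * x.1| ≤ n ∧ |(pvefCc n em x).2 - (2 * n + 1) * x.2| ≤ n := by
  have h1 := pvef_rd hn (0 - em.1)
  have h2 := pvef_rd hn (0 - em.2)
  rw [abs_le] at h1 h2
  simp only [pvefCc, pvefO, pvefIx, Prod.fst_add, Prod.snd_add, Prod.smul_fst, Prod.smul_snd, smul_eq_mul]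
  rw [abs_le, abs_le]
  refine ⟨⟨?_, ?_⟩, ?_, ?_⟩ <;> nlinarith

theorem pvef_cc_em (n : ℤ) (em : ℤ × ℤ) : pvefCc n em (pvefEm n em) = em := by
  simp [pvefCc, pvefEm]

/-- the cell `e⁺` lies in its block -/
theorem pvef_cc_ep {n : ℤ} (hn : 0 ≤ n) (em ep : ℤ × ℤ) : ep ∈ pvehCells (pvefCc n em (pvefEp n em ep)) n := by
  have h1 := pvef_rd hn (ep.1 - em.1)
  have h2 := pvef_rd hn (ep.2 - em.2)
  simp only [pvehCells, Set.mem_ofPred_eq, pvefCc, pvefEp, pvefIx, add_sub_cancel, Prod.fst_add, Prod.snd_add, Prod.smul_fst, Prod.smul_snd, smul_eq_mul]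
  constructor
  · rwa [show ep.1 - (em.1 + (2 * n + 1) * pvefRd n (ep.1 - em.1)) = ep.1 - em.1 - (2 * n + 1) * pvefRd n (ep.1 - em.1) by ring]
  · rwa [show ep.2 - (em.2 + (2 * n + 1) * pvefRd n (ep.2 - em.2)) = ep.2 - em.2 - (2 * n + 1) * pvefRd n (ep.2 - em.2) by ring]

theorem pvef_cc_add (n : ℤ) (em x v : ℤ × ℤ) : pvefCc n em (x + v) = pvefCc n em x + (2 * n + 1) • v := by
  simp only [pvefCc, smul_add]
  abel

/-! ## 2. the integer geometry -/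

/-- **THE TYPE IS NOT DEGENERATE, CELL SCALE**: `PvxrOK` of helper1 and five sharper lines      [producer: `pvef_ok_of_ndg`, from `PvefNdg`] -/
structure PvefOK (B M : ℤ) (a b : ℕ) (ep em : ℤ × ℤ) (n : ℤ) : Prop where
  ok : PvxrOK B M a b ep em n
  ep_n4 : B + 4 * n < pvxrDot ep (pvxrE a)
  em_n4 : B + 4 * n < pvxrDot em (pvxrE b)
  em_M13 : pvxrDot em (pvxrE b) + 13 * (2 * n + 1) < M
  sep8 : a = b → 8 * (2 * n + 1) < |pvxrDot ep (pvxrE (a + 1)) - pvxrDot em (pvxrE (a + 1))|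
  /-- in the frame of the side `a`: `e⁻` is `15` blocks aside of the ray of `e⁺`, or `15` blocks behind `e⁺`      [from `7ρ/4 ≤ ‖y⁺ - y⁻‖`] -/
  cor15 : 15 * (2 * n + 1) ≤ |pvxrDot ep (pvxrE (a + 1)) - pvxrDot em (pvxrE (a + 1))| ∨ 15 * (2 * n + 1) ≤ pvxrDot ep (pvxrE a) - pvxrDot em (pvxrE a)

/-- **THE SAME AT BLOCK SCALE** -/
structure PvefOKb (B M : ℤ) (a b : ℕ) (ep em : ℤ × ℤ) : Prop where
  ok : PvxrOK B M a b ep em 0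
  em_M : pvxrDot em (pvxrE b) + 12 < M
  far : 6 ≤ |ep.1 - em.1| ∨ 6 ≤ |ep.2 - em.2|
  cor : 13 ≤ |pvxrDot ep (pvxrE (a + 1)) - pvxrDot em (pvxrE (a + 1))| ∨ 13 ≤ pvxrDot ep (pvxrE a) - pvxrDot em (pvxrE a)

/-- a scalar product with a direction is a coordinate up to the sign -/
theorem pvef_dot_near {g k : ℤ} {q q' : ℤ × ℤ} (h1 : |q.1 - g * q'.1| ≤ k) (h2 : |q.2 - g * q'.2| ≤ k) (a : ℕ) : |pvxrDot q (pvxrE a) - g * pvxrDot q' (pvxrE a)| ≤ k := by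
  have h : a % 4 = 0 ∨ a % 4 = 1 ∨ a % 4 = 2 ∨ a % 4 = 3 := by omega
  rw [abs_le] at *
  rcases h with h | h | h | h <;> simp only [pvxrDot, pvxrE, h] <;> constructor <;> nlinarith

theorem pvef_dot_coord {k : ℤ} (x y : ℤ × ℤ) (c : ℕ) (h : k ≤ |pvxrDot x (pvxrE c) - pvxrDot y (pvxrE c)|) : k ≤ |x.1 - y.1| ∨ k ≤ |x.2 - y.2| := by
  have hc : c % 4 = 0 ∨ c % 4 = 1 ∨ c % 4 = 2 ∨ c % 4 = 3 := by omega
  rcases hc with hc | hc | hc | hc <;> simp only [pvxrDot, pvxrE, hc] at h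
  · left; convert h using 2; ring
  · right; convert h using 2; ring
  · left; rw [← abs_neg]; convert h using 2; ring
  · right; rw [← abs_neg]; convert h using 2; ring

/-- **FROM THE CELLS TO THE BLOCKS** -/
theorem pvef_okb {B M : ℤ} {a b : ℕ} {ep em : ℤ × ℤ} {n : ℤ} (h : PvefOK B M a b ep em n) : PvefOKb (pvefB n B) (pvefM n M) a b (pvefEp n em ep) (pvefEm n em) := by
  obtain ⟨⟨a4, b4, n0, B0, ep_n, ep_l, em_n, em_l, ep_M, em_M, sep⟩, ep_n4, em_n4, em_M13, sep8, cor15⟩ := h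
  have hg : (0 : ℤ) < 2 * n + 1 := by omega
  -- coordinates
  have hp : |ep.1 - (2 * n + 1) * (pvefEp n em ep).1| ≤ 2 * n ∧ |ep.2 - (2 * n + 1) * (pvefEp n em ep).2| ≤ 2 * n := by
    have h1 := pvef_cc_ep n0 em ep
    have h2 := pvef_cc_near n0 em (pvefEp n em ep)
    obtain ⟨c1, c2⟩ := h1
    obtain ⟨d1, d2⟩ := h2
    rw [abs_le] at c1 c2 d1 d2 ⊢
    rw [abs_le]
    refine ⟨⟨?_, ?_⟩, ?_, ?_⟩ <;> linarith
  have hm : |em.1 - (2 * n + 1) * (pvefEm n em).1| ≤ n ∧ |em.2 - (2 * n + 1) * (pvefEm n em).2| ≤ n := by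
    have h2 := pvef_cc_near n0 em (pvefEm n em)
    rwa [pvef_cc_em] at h2
  have dp : ∀ c, |pvxrDot ep (pvxrE c) - (2 * n + 1) * pvxrDot (pvefEp n em ep) (pvxrE c)| ≤ 2 * n := fun c => pvef_dot_near hp.1 hp.2 c
  have dm : ∀ c, |pvxrDot em (pvxrE c) - (2 * n + 1) * pvxrDot (pvefEm n em) (pvxrE c)| ≤ n := fun c => pvef_dot_near hm.1 hm.2 c
  -- the two quotients
  have hB1 : (2 * n + 1) * pvefB n B ≤ B + 2 * n := by unfold pvefB; exact Int.mul_ediv_self_le hg.ne'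
  have hB2 : B + 2 * n < (2 * n + 1) * (pvefB n B + 1) := by
    unfold pvefB
    have := Int.lt_ediv_add_one_mul_self (B + 2 * n) hg
    linarith
  have hM2 : M + 2 * n < (2 * n + 1) * pvefM n M := by
    unfold pvefM
    have := Int.lt_ediv_add_one_mul_self (M + 2 * n) hg
    linarith
  generalize pvefB n B = B' at *
  generalize pvefM n M = M' at *
  generalize pvefEp n em ep = ep' at *
  generalize pvefEm n em = em' at *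
  have cancel : ∀ x y : ℤ, (2 * n + 1) * x < (2 * n + 1) * y → x < y := fun x y hxy => lt_of_mul_lt_mul_left hxy hg.le
  have absle : ∀ x : ℤ, (2 * n + 1) * |x| < (2 * n + 1) * (B' + 1) → |x| ≤ B' := fun x hx => Int.lt_add_one_iff.1 (cancel _ _ hx)
  have mulabs : ∀ x : ℤ, (2 * n + 1) * |x| = |(2 * n + 1) * x| := fun x => by rw [abs_mul, abs_of_pos hg]
  have tri : ∀ u v k : ℤ, |u - v| ≤ k → |v| ≤ |u| + k := fun u v k hk => by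
    have := abs_sub_abs_le_abs_sub v u
    rw [abs_sub_comm v u] at this
    linarith
  have tri' : ∀ u v k : ℤ, |u - v| ≤ k → |u| ≤ |v| + k := fun u v k hk => by
    have := abs_sub_abs_le_abs_sub u v
    linarith
  have dd : ∀ c, |(pvxrDot ep (pvxrE c) - pvxrDot em (pvxrE c)) - (2 * n + 1) * (pvxrDot ep' (pvxrE c) - pvxrDot em' (pvxrE c))| ≤ 3 * n := fun c => by
    have h1 := dp c
    have h2 := dm c
    rw [abs_le] at h1 h2 ⊢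
    constructor <;> nlinarith
  have hcor : 13 ≤ |pvxrDot ep' (pvxrE (a + 1)) - pvxrDot em' (pvxrE (a + 1))| ∨ 13 ≤ pvxrDot ep' (pvxrE a) - pvxrDot em' (pvxrE a) := by
    rcases cor15 with hc | hc
    · left
      have h1 := tri' _ _ _ (dd (a + 1))
      rw [← mulabs] at h1
      have : (2 * n + 1) * 12 < (2 * n + 1) * |pvxrDot ep' (pvxrE (a + 1)) - pvxrDot em' (pvxrE (a + 1))| := by linarith
      have := cancel _ _ this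
      omega
    · right
      have h1 := dd a
      rw [abs_le] at h1
      have : (2 * n + 1) * 12 < (2 * n + 1) * (pvxrDot ep' (pvxrE a) - pvxrDot em' (pvxrE a)) := by linarith [h1.2]
      have := cancel _ _ this
      omega
  refine ⟨⟨a4, b4, le_rfl, ?_, ?_, ?_, ?_, ?_, ?_, ?_, ?_⟩, ?_, ?_, hcor⟩
  · -- 0 ≤ B'
    have : (2 * n + 1) * (-1) < (2 * n + 1) * B' := by linarith
    have := cancel _ _ this
    omega
  · have h1 := dp a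
    rw [abs_le] at h1
    exact cancel _ _ (by linarith [h1.2])
  · have h1 := tri _ _ _ (dp (a + 1))
    rw [← mulabs] at h1
    exact absle _ (by linarith)
  · have h1 := dm b
    rw [abs_le] at h1
    have := cancel B' (pvxrDot em' (pvxrE b)) (by linarith [h1.2])
    linarith
  · have h1 := tri _ _ _ (dm (b + 1))
    rw [← mulabs] at h1
    exact absle _ (by linarith)
  · have h1 := dp a
    rw [abs_le] at h1
    exact cancel _ _ (by linarith [h1.1])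
  · have h1 := dm b
    rw [abs_le] at h1
    exact cancel _ _ (by nlinarith [h1.1])
  · intro hab
    have h1 := tri' _ _ _ (dd (a + 1))
    rw [← mulabs] at h1
    have h8 := sep8 hab
    exact cancel _ _ (by nlinarith)
  · have h1 := dm b
    rw [abs_le] at h1
    exact cancel _ _ (by nlinarith [h1.1])
  · rcases hcor with hc | hc
    · exact pvef_dot_coord _ _ (a + 1) (by linarith)
    · exact pvef_dot_coord _ _ a (le_trans (by linarith) (le_abs_self _))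

set_option linter.unusedSimpArgs false in
set_option maxHeartbeats 4000000 in
/-- **SEPARATION FROM THE PLUG**: a block of the polyline within `1` of the block of `u` lies on the last leg (so it is `u` or its west neighbour) -/
theorem pvef_in_u {B M : ℤ} {a b : ℕ} {ep em : ℤ × ℤ} (h : PvefOKb B M a b ep em) : ∀ x, PvxrIn (ep - pvxrE a) (pvxrE a) (pvxrCorners M a b ep em 0) x →
    |x.1 - (em + pvxrUo b 1).1| ≤ 1 → |x.2 - (em + pvxrUo b 1).2| ≤ 1 → x.2 = (em + pvxrUo b 1).2 ∧ x.1 ≤ (em + pvxrUo b 1).1 := by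
  obtain ⟨⟨a4, b4, n0, B0, ep_n, ep_l, em_n, em_l, ep_M, em_M, sep⟩, em_M2, far, -⟩ := h
  rw [abs_le] at ep_l em_l
  obtain ⟨p1, p2⟩ := ep
  obtain ⟨m1, m2⟩ := em
  simp only [le_abs] at far
  have r1 : List.range 1 = [0] := rfl
  have r2 : List.range 2 = [0, 1] := rfl
  have r3 : List.range 3 = [0, 1, 2] := rfl
  have r4 : List.range 4 = [0, 1, 2, 3] := rfl
  interval_cases a <;> interval_cases b <;>
  simp only [pvxrDot, pvxrE, Nat.reduceMod, Nat.reduceAdd, lt_abs, Nat.reduceEqDiff, forall_const, false_imp_iff, OfNat.zero_ne_ofNat, OfNat.ofNat_ne_zero, OfNat.one_ne_ofNat, OfNat.ofNat_ne_one, zero_ne_one, one_ne_zero, IsEmpty.forall_iff] at ep_n ep_l em_n em_l ep_M em_M em_M2 sep <;>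
  simp only [pvxrCorners, pvxrNc, pvxrProj, pvxrRo, pvxrMan, pvxrE, pvxrUo, Nat.reduceMod, Nat.reduceAdd, Nat.reduceSub, Prod.mk_add_mk, Prod.mk_sub_mk, true_and, false_and, if_false, Nat.reduceEqDiff, OfNat.zero_ne_ofNat, OfNat.ofNat_ne_zero, OfNat.one_ne_ofNat, OfNat.ofNat_ne_one, zero_ne_one, one_ne_zero, Nat.add_zero] <;>
  (try split_ifs) <;>
  simp only [Nat.reduceAdd, Nat.add_zero, Nat.zero_add, r1, r2, r3, r4, List.range_zero, List.nil_append, List.cons_append, List.map_cons, List.map_nil, pvxrCor, Nat.reduceMod, PvxrIn, PvxrLeg, pvccRotI, and_true, abs_le] <;>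
  (intro x hx h1 h2) <;> omega

set_option linter.unusedSimpArgs false in
set_option maxHeartbeats 4000000 in
/-- **SEPARATION FROM THE THICK SHORT LINK**: a block of the polyline within `2` of a block of `e` is `u` or its west neighbour -/
theorem pvef_in_e {B M : ℤ} {a b : ℕ} {ep em : ℤ × ℤ} (h : PvefOKb B M a b ep em) : ∀ x, PvxrIn (ep - pvxrE a) (pvxrE a) (pvxrCorners M a b ep em 0) x →
    ∀ j < (pvxrLe b).length, |x.1 - (em + pvxrLk b 1 j).1| ≤ 2 → |x.2 - (em + pvxrLk b 1 j).2| ≤ 2 → x.2 = (em + pvxrUo b 1).2 ∧ x.1 ≤ (em + pvxrUo b 1).1 ∧ (em + pvxrUo b 1).1 - 1 ≤ x.1 := by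
  obtain ⟨⟨a4, b4, n0, B0, ep_n, ep_l, em_n, em_l, ep_M, em_M, sep⟩, em_M2, far, -⟩ := h
  rw [abs_le] at ep_l em_l
  obtain ⟨p1, p2⟩ := ep
  obtain ⟨m1, m2⟩ := em
  simp only [le_abs] at far
  have r1 : List.range 1 = [0] := rfl
  have r2 : List.range 2 = [0, 1] := rfl
  have r3 : List.range 3 = [0, 1, 2] := rfl
  have r4 : List.range 4 = [0, 1, 2, 3] := rfl
  interval_cases a <;> interval_cases b <;>
  simp only [pvxrDot, pvxrE, Nat.reduceMod, Nat.reduceAdd, lt_abs, Nat.reduceEqDiff, forall_const, false_imp_iff, OfNat.zero_ne_ofNat, OfNat.ofNat_ne_zero, OfNat.one_ne_ofNat, OfNat.ofNat_ne_one, zero_ne_one, one_ne_zero, IsEmpty.forall_iff] at ep_n ep_l em_n em_l ep_M em_M em_M2 sep <;>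
  simp only [pvxrCorners, pvxrNc, pvxrProj, pvxrRo, pvxrMan, pvxrE, pvxrUo, Nat.reduceMod, Nat.reduceAdd, Nat.reduceSub, Prod.mk_add_mk, Prod.mk_sub_mk, true_and, false_and, if_false, Nat.reduceEqDiff, OfNat.zero_ne_ofNat, OfNat.ofNat_ne_zero, OfNat.one_ne_ofNat, OfNat.ofNat_ne_one, zero_ne_one, one_ne_zero, Nat.add_zero] <;>
  (try split_ifs) <;>
  simp only [Nat.reduceAdd, Nat.add_zero, Nat.zero_add, r1, r2, r3, r4, List.range_zero, List.nil_append, List.cons_append, List.map_cons, List.map_nil, pvxrCor, Nat.reduceMod, PvxrIn, PvxrLeg, pvccRotI, and_true, abs_le] <;>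
  (intro x hx j hj) <;>
  simp only [pvxrLe, Nat.reduceMod, List.length_cons, List.length_nil, Nat.reduceAdd] at hj <;>
  interval_cases j <;>
  simp only [pvxrLk, pvxrLe, pvxrUo, Nat.reduceMod, List.take_succ_cons, List.take_zero, pvccAccI, pvccRotI, Prod.mk_add_mk, Prod.smul_mk, smul_eq_mul] <;>
  (intro h1 h2) <;> omega

set_option linter.unusedSimpArgs false in
set_option maxHeartbeats 4000000 in
/-- **SEPARATION FROM THE ENTRANCE MOUTH**: no block of the polyline in the zone `-12 ≤ ν ≤ 0`, `|λ| ≤ 6` (`ν`, `λ` = normal and lateral coordinates relative to `e⁻`, side `b`): the zone contains the mouth `iM` and the funnel `iK` -/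
theorem pvef_in_z {B M : ℤ} {a b : ℕ} {ep em : ℤ × ℤ} (h : PvefOKb B M a b ep em) : ∀ x, PvxrIn (ep - pvxrE a) (pvxrE a) (pvxrCorners M a b ep em 0) x →
    -12 ≤ pvxrDot x (pvxrE b) - pvxrDot em (pvxrE b) → pvxrDot x (pvxrE b) - pvxrDot em (pvxrE b) ≤ 0 → |pvxrDot x (pvxrE (b + 1)) - pvxrDot em (pvxrE (b + 1))| ≤ 6 → False := by
  obtain ⟨⟨a4, b4, n0, B0, ep_n, ep_l, em_n, em_l, ep_M, em_M, sep⟩, em_M2, far, cor⟩ := h
  rw [abs_le] at ep_l em_l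
  obtain ⟨p1, p2⟩ := ep
  obtain ⟨m1, m2⟩ := em
  simp only [le_abs] at far cor
  have r1 : List.range 1 = [0] := rfl
  have r2 : List.range 2 = [0, 1] := rfl
  have r3 : List.range 3 = [0, 1, 2] := rfl
  have r4 : List.range 4 = [0, 1, 2, 3] := rfl
  interval_cases a <;> interval_cases b <;>
  simp only [pvxrDot, pvxrE, Nat.reduceMod, Nat.reduceAdd, lt_abs, Nat.reduceEqDiff, forall_const, false_imp_iff, OfNat.zero_ne_ofNat, OfNat.ofNat_ne_zero, OfNat.one_ne_ofNat, OfNat.ofNat_ne_one, zero_ne_one, one_ne_zero, IsEmpty.forall_iff] at ep_n ep_l em_n em_l ep_M em_M em_M2 sep cor <;>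
  simp only [pvxrDot, pvxrCorners, pvxrNc, pvxrProj, pvxrRo, pvxrMan, pvxrE, pvxrUo, Nat.reduceMod, Nat.reduceAdd, Nat.reduceSub, Prod.mk_add_mk, Prod.mk_sub_mk, true_and, false_and, if_false, Nat.reduceEqDiff, OfNat.zero_ne_ofNat, OfNat.ofNat_ne_zero, OfNat.one_ne_ofNat, OfNat.ofNat_ne_one, zero_ne_one, one_ne_zero, Nat.add_zero] <;>
  (try split_ifs) <;>
  simp only [Nat.reduceAdd, Nat.add_zero, Nat.zero_add, r1, r2, r3, r4, List.range_zero, List.nil_append, List.cons_append, List.map_cons, List.map_nil, pvxrCor, Nat.reduceMod, PvxrIn, PvxrLeg, pvccRotI, and_true, abs_le] <;>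
  (intro x hx h1 h2 h3) <;> omega

/-- a block off the box in blocks is made of cells off the box -/
theorem pvef_block_off {n B : ℤ} (hn : 0 ≤ n) (em : ℤ × ℤ) {x q : ℤ × ℤ} (hx : pvefB n B < |x.1| ∨ pvefB n B < |x.2|) (hq : q ∈ pvehCells (pvefCc n em x) n) : B < |q.1| ∨ B < |q.2| := by
  have hg : (0 : ℤ) < 2 * n + 1 := by omega
  have hB2 : B + 2 * n < (2 * n + 1) * (pvefB n B + 1) := by
    unfold pvefB
    have := Int.lt_ediv_add_one_mul_self (B + 2 * n) hg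
    linarith
  obtain ⟨c1, c2⟩ := hq
  obtain ⟨d1, d2⟩ := pvef_cc_near hn em x
  generalize pvefB n B = B' at *
  generalize pvefCc n em x = C at *
  rw [abs_le] at c1 c2 d1 d2
  have key : ∀ u v w : ℤ, -n ≤ v - w → v - w ≤ n → -n ≤ w - (2 * n + 1) * u → w - (2 * n + 1) * u ≤ n → B' < |u| → B < |v| := by
    intro u v w h1 h2 h3 h4 h5
    rw [lt_abs] at h5 ⊢
    rcases h5 with h5 | h5
    · left
      have : (2 * n + 1) * (B' + 1) ≤ (2 * n + 1) * u := mul_le_mul_of_nonneg_left (by omega) hg.le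
      linarith
    · right
      have : (2 * n + 1) * (B' + 1) ≤ (2 * n + 1) * (-u) := mul_le_mul_of_nonneg_left (by omega) hg.le
      linarith
  rcases hx with hx | hx
  · exact Or.inl (key _ _ _ c1.1 c1.2 d1.1 d1.2 hx)
  · exact Or.inr (key _ _ _ c2.1 c2.2 d2.1 d2.2 hx)

/-- a block inside the thick ring road is made of cells of sup norm `≤ M + 3 g` -/
theorem pvef_block_in {n M : ℤ} (hn : 0 ≤ n) (hM : 0 ≤ M) (em : ℤ × ℤ) {x q : ℤ × ℤ} (h1 : |x.1| ≤ pvefM n M) (h2 : |x.2| ≤ pvefM n M) (hq : q ∈ pvehCells (pvefCc n em x) n) :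
    |q.1| ≤ M + 3 * (2 * n + 1) ∧ |q.2| ≤ M + 3 * (2 * n + 1) := by
  have hg : (0 : ℤ) < 2 * n + 1 := by omega
  have hM1 : (2 * n + 1) * pvefM n M ≤ M + 2 * n + (2 * n + 1) := by
    unfold pvefM
    have := Int.mul_ediv_self_le (x := M + 2 * n) hg.ne'
    linarith
  obtain ⟨c1, c2⟩ := hq
  obtain ⟨d1, d2⟩ := pvef_cc_near hn em x
  generalize pvefM n M = M' at *
  generalize pvefCc n em x = C at *
  rw [abs_le] at c1 c2 d1 d2 h1 h2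
  have key : ∀ u v w : ℤ, -n ≤ v - w → v - w ≤ n → -n ≤ w - (2 * n + 1) * u → w - (2 * n + 1) * u ≤ n → -M' ≤ u → u ≤ M' → |v| ≤ M + 3 * (2 * n + 1) := by
    intro u v w g1 g2 g3 g4 g5 g6
    have a1 : (2 * n + 1) * u ≤ (2 * n + 1) * M' := mul_le_mul_of_nonneg_left g6 hg.le
    have a2 : (2 * n + 1) * (-M') ≤ (2 * n + 1) * u := mul_le_mul_of_nonneg_left g5 hg.le
    rw [abs_le]
    constructor <;> linarith
  exact ⟨key _ _ _ c1.1 c1.2 d1.1 d1.2 h1.1 h1.2, key _ _ _ c2.1 c2.2 d2.1 d2.2 h2.1 h2.2⟩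

/-! ## 3. the word of the thick return -/

/-- **THE WORD OF THE THICK RETURN**, in `g`-blocks -/
def pvefWord (M : ℤ) (a b : ℕ) (ep em : ℤ × ℤ) (n : ℤ) : List PvtTurn := pvxrWord (pvefM n M) a b (pvefEp n em ep) (pvefEm n em) 0

/-- its blocks, in order; the last one is the block of `u` (which FOLLOWS the word) -/
def pvefPath (M : ℤ) (a b : ℕ) (ep em : ℤ × ℤ) (n : ℤ) : List (ℤ × ℤ) :=
  pvxrCells (pvefEp n em ep - pvxrE a) (pvxrE a) (pvxrCorners (pvefM n M) a b (pvefEp n em ep) (pvefEm n em) 0)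

/-- the block number `j` of the word (integer model, as `pvehV` of 166) -/
def pvefV (M : ℤ) (a b : ℕ) (ep em : ℤ × ℤ) (n : ℤ) (j : ℕ) : ℤ × ℤ := pvefEp n em ep + pvccAccI (pvxrE a) ((pvefWord M a b ep em n).take j)

/-- the block of the reference plug -/
def pvefU (b : ℕ) (em : ℤ × ℤ) (n : ℤ) : ℤ × ℤ := pvefEm n em + pvxrUo b 1

section word

variable {B M : ℤ} {a b : ℕ} {ep em : ℤ × ℤ} {n : ℤ}

/-- the central cell of the block of the plug is the central cell of record -/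
theorem pvef_cc_U (b : ℕ) (em : ℤ × ℤ) (n : ℤ) : pvefCc n em (pvefU b em n) = em + pvxrUo b (2 * n + 1) := by
  rw [pvefU, pvef_cc_add, pvef_cc_em, ← pveh_Uo_smul]

/-- the blocks of the word are the blocks of the polyline -/
theorem pvef_V_mem (h : PvefOK B M a b ep em n) {j : ℕ} (hj : j ≤ (pvefWord M a b ep em n).length) : pvefV M a b ep em n j ∈ pvefPath M a b ep em n := by
  have hc := pvxr_poly_centres (pvxr_unit_E a) (pvefEp n em ep - pvxrE a) _ (pvxr_cons (pvef_okb h).ok)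
  rw [sub_add_cancel, pvtCentres_eq_map] at hc
  have hm : pvtZ (pvefV M a b ep em n j) ∈ (pvefPath M a b ep em n).map pvtZ := by
    unfold pvefPath
    rw [← hc]
    refine List.mem_map.2 ⟨j, List.mem_range.2 (Nat.lt_succ_of_le hj), ?_⟩
    rw [pvefV, pvtZ_add, pvccAccI_eq]
    rfl
  obtain ⟨x, hx, e⟩ := List.mem_map.1 hm
  rwa [← pvtZ_injective e]

/-- the block which follows the word is the block of the plug -/
theorem pvef_V_last (h : PvefOK B M a b ep em n) : pvefV M a b ep em n (pvefWord M a b ep em n).length = pvefU b em n := by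
  have h1 := pvxr_poly_end (pvxr_unit_E a) (pvefEp n em ep - pvxrE a) _ (pvxr_cons (pvef_okb h).ok)
  rw [pvxr_end (pvef_okb h).ok, sub_add_cancel] at h1
  apply pvtZ_injective
  rw [pvefV, List.take_length, pvtZ_add, pvccAccI_eq]
  have e : pvefU b em n = pvefEm n em + pvxrUo b (2 * 0 + 1) - (0, 0) := by
    rw [pvefU, show ((0, 0) : ℤ × ℤ) = 0 from rfl, sub_zero]
    norm_num
  rw [e, ← h1]
  rfl

/-- the blocks of the word, the block of the plug included, are distinct -/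
theorem pvef_simple (h : PvefOK B M a b ep em n) : PvccSimple (pvefWord M a b ep em n) (pvefWord M a b ep em n).length := pvxr_word_simple (pvef_okb h).ok

/-- the word arrives eastwards -/
theorem pvef_dir (h : PvefOK B M a b ep em n) : pvtDir (I ^ a) (pvefWord M a b ep em n) = 1 := pvxr_word_dir _ h.ok.a4 h.ok.b4 _ _ _

/-- the word is not empty -/
theorem pvef_word_pos (h : PvefOK B M a b ep em n) : 0 < (pvefWord M a b ep em n).length := by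
  unfold pvefWord pvxrWord pvxrCorners
  simp [pvxrPoly]

/-- the blocks lie off the box, inside the thick ring road -/
theorem pvef_path_box (h : PvefOK B M a b ep em n) : ∀ x ∈ pvefPath M a b ep em n, (pvefB n B < |x.1| ∨ pvefB n B < |x.2|) ∧ |x.1| ≤ pvefM n M ∧ |x.2| ≤ pvefM n M :=
  pvxr_cells_box (pvef_okb h).ok

theorem pvef_path_in (h : PvefOK B M a b ep em n) {x : ℤ × ℤ} (hx : x ∈ pvefPath M a b ep em n) :
    PvxrIn (pvefEp n em ep - pvxrE a) (pvxrE a) (pvxrCorners (pvefM n M) a b (pvefEp n em ep) (pvefEm n em) 0) x :=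
  (pvxr_mem_cells (pvxr_unit_E a) _ _ (pvxr_cons (pvef_okb h).ok) x).1 hx

/-- the blocks `0, …, length` of the word are distinct -/
theorem pvef_V_inj (h : PvefOK B M a b ep em n) {j k : ℕ} (hj : j ≤ (pvefWord M a b ep em n).length) (hk : k ≤ (pvefWord M a b ep em n).length)
    (e : pvefV M a b ep em n j = pvefV M a b ep em n k) : j = k := by
  by_contra hjk
  have hd : pvtZ (pvxrE a) ≠ 0 := by
    rw [pvxr_Z_E]
    exact pow_ne_zero _ Complex.I_ne_zero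
  refine (pvef_simple h).centre_ne 0 hd hj hk hjk ?_
  have e1 : pvccAccI (pvxrE a) ((pvefWord M a b ep em n).take j) = pvccAccI (pvxrE a) ((pvefWord M a b ep em n).take k) := add_left_cancel e
  rw [pvccC_eq, pvccC_eq, ← pvccAccI_eq, ← pvccAccI_eq, e1]

/-- **(F6) THE NUMBER OF BLOCKS IS BOUNDED BY THE RING ROAD IN BLOCKS** -/
theorem pvef_len (h : PvefOK B M a b ep em n) : ((pvefWord M a b ep em n).length : ℤ) < (2 * pvefM n M + 1) ^ 2 := by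
  classical
  set N := (pvefWord M a b ep em n).length with hN
  set K := pvefM n M with hK
  have hbox : ∀ j, j ≤ N → pvefV M a b ep em n j ∈ (Finset.Icc (-K) K ×ˢ Finset.Icc (-K) K : Finset (ℤ × ℤ)) := by
    intro j hj
    obtain ⟨-, h1, h2⟩ := pvef_path_box h _ (pvef_V_mem h hj)
    rw [abs_le] at h1 h2
    rw [Finset.mem_product, Finset.mem_Icc, Finset.mem_Icc]
    exact ⟨h1, h2⟩
  have hcard : (Finset.range (N + 1)).card ≤ (Finset.Icc (-K) K ×ˢ Finset.Icc (-K) K : Finset (ℤ × ℤ)).card := by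
    refine Finset.card_le_card_of_injOn (fun j => pvefV M a b ep em n j) (fun j hj => hbox j (by have := Finset.mem_range.1 hj; omega)) ?_
    intro j hj k hk e
    exact pvef_V_inj h (by have := Finset.mem_range.1 (Finset.mem_coe.1 hj); omega) (by have := Finset.mem_range.1 (Finset.mem_coe.1 hk); omega) e
  rw [Finset.card_range, Finset.card_product, Int.card_Icc] at hcard
  have hK0 : 0 ≤ K := by
    have := hbox 0 (Nat.zero_le _)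
    rw [Finset.mem_product, Finset.mem_Icc, Finset.mem_Icc] at this
    linarith [this.1.1, this.1.2]
  have e2 : ((K + 1 - -K).toNat : ℤ) = 2 * K + 1 := by
    rw [Int.toNat_of_nonneg (by linarith)]
    ring
  have h3 : ((N + 1 : ℕ) : ℤ) ≤ (((K + 1 - -K).toNat * (K + 1 - -K).toNat : ℕ) : ℤ) := by exact_mod_cast hcard
  rw [Nat.cast_mul, e2] at h3
  push_cast at h3
  nlinarith

/-- a block of the word `j < length` is not the block of the plug -/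
theorem pvef_V_ne_U (h : PvefOK B M a b ep em n) {j : ℕ} (hj : j < (pvefWord M a b ep em n).length) : pvefV M a b ep em n j ≠ pvefU b em n := by
  intro e
  rw [← pvef_V_last h] at e
  exact absurd (pvef_V_inj h hj.le le_rfl e) hj.ne

/-- **(F3) (F7), integers**: the block `j` of `f` and the block `k` of `e` are `≥ 3` apart (two free blocks between them), but for the west neighbour of `u` and the east neighbour of `u` -/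
theorem pvef_V_e (h : PvefOK B M a b ep em n) {j k : ℕ} (hj : j < (pvefWord M a b ep em n).length) (hk : k < (pvxrLe b).length) :
    (3 ≤ |(pvefV M a b ep em n j).1 - (pvefU b em n + pvehV (pvxrLe b) k).1| ∨ 3 ≤ |(pvefV M a b ep em n j).2 - (pvefU b em n + pvehV (pvxrLe b) k).2|) ∨
      pvefV M a b ep em n j = pvefU b em n - (1, 0) := by
  by_cases hc : 3 ≤ |(pvefV M a b ep em n j).1 - (pvefU b em n + pvehV (pvxrLe b) k).1| ∨ 3 ≤ |(pvefV M a b ep em n j).2 - (pvefU b em n + pvehV (pvxrLe b) k).2|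
  · exact Or.inl hc
  · right
    rw [not_or, not_le, not_le] at hc
    have e : pvefU b em n + pvehV (pvxrLe b) k = pvefEm n em + pvxrLk b 1 k := by
      rw [pvefU, pvxrLk, pvehV, one_smul, add_assoc]
    rw [e] at hc
    obtain ⟨h1, h2, h3⟩ := pvef_in_e (pvef_okb h) _ (pvef_path_in h (pvef_V_mem h hj.le)) k hk (by have := hc.1; omega) (by have := hc.2; omega)
    have hne := pvef_V_ne_U h hj
    have hU : pvefU b em n = pvefEm n em + pvxrUo b 1 := rfl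
    rw [← hU] at h1 h2 h3
    have h4 : (pvefV M a b ep em n j).1 ≠ (pvefU b em n).1 := fun e1 => hne (Prod.ext e1 h1)
    refine Prod.ext ?_ ?_
    · show (pvefV M a b ep em n j).1 = (pvefU b em n).1 - 1
      omega
    · show (pvefV M a b ep em n j).2 = (pvefU b em n).2 - 0
      omega

/-- **(F3), integers**: the block `j` of `f` does not touch the block of `u`, but for the west neighbour of `u` -/
theorem pvef_V_u (h : PvefOK B M a b ep em n) {j : ℕ} (hj : j < (pvefWord M a b ep em n).length) :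
    (2 ≤ |(pvefV M a b ep em n j).1 - (pvefU b em n).1| ∨ 2 ≤ |(pvefV M a b ep em n j).2 - (pvefU b em n).2|) ∨ pvefV M a b ep em n j = pvefU b em n - (1, 0) := by
  by_contra hc
  push Not at hc
  obtain ⟨⟨h1, h2⟩, h3⟩ := hc
  have hin := pvef_path_in h (pvef_V_mem h hj.le)
  have hne := pvef_V_ne_U h hj
  have g1 : |(pvefV M a b ep em n j).1 - (pvefU b em n).1| ≤ 1 := by omega
  have g2 : |(pvefV M a b ep em n j).2 - (pvefU b em n).2| ≤ 1 := by omega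
  obtain ⟨e2, e1⟩ := pvef_in_u (pvef_okb h) _ hin g1 g2
  change (pvefV M a b ep em n j).2 = (pvefU b em n).2 at e2
  change (pvefV M a b ep em n j).1 ≤ (pvefU b em n).1 at e1
  rw [abs_le] at g1
  rcases (show (pvefV M a b ep em n j).1 = (pvefU b em n).1 ∨ (pvefV M a b ep em n j).1 = (pvefU b em n).1 - 1 by omega) with e | e
  · exact hne (Prod.ext e e2)
  · exact h3 (Prod.ext (by simpa using e) (by simpa using e2))

/-- **(F3), integers**: no block of `f` (nor the block of `u`) in the zone of the entrance mouth -/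
theorem pvef_V_z (h : PvefOK B M a b ep em n) {j : ℕ} (hj : j ≤ (pvefWord M a b ep em n).length) :
    ¬ (-12 ≤ pvxrDot (pvefV M a b ep em n j) (pvxrE b) - pvxrDot (pvefEm n em) (pvxrE b) ∧ pvxrDot (pvefV M a b ep em n j) (pvxrE b) - pvxrDot (pvefEm n em) (pvxrE b) ≤ 0 ∧
      |pvxrDot (pvefV M a b ep em n j) (pvxrE (b + 1)) - pvxrDot (pvefEm n em) (pvxrE (b + 1))| ≤ 6) :=
  fun ⟨h1, h2, h3⟩ => pvef_in_z (pvef_okb h) _ (pvef_path_in h (pvef_V_mem h hj)) h1 h2 h3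

/-- the blocks of `e` lie east of `u`, or three rows away -/
theorem pvef_e_east (b : ℕ) {k : ℕ} (hk : k < (pvxrLe b).length) : 1 ≤ (pvehV (pvxrLe b) k).1 ∨ 3 ≤ |(pvehV (pvxrLe b) k).2| := by
  revert k
  rcases pveh_le_cases b with h | h | h | h <;> (rw [h]; decide)

end word

/-! ## 4. the plane: all numbers and foreign sets are arguments -/

/-- centre of the block `x` -/
noncomputable def pvefCtr (δ : ℝ) (n : ℤ) (em x : ℤ × ℤ) : ℂ := pvtCtr δ (pvefCc n em x)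

theorem pvef_ctr_add (δ : ℝ) (n : ℤ) (em x v : ℤ × ℤ) : pvefCtr δ n em (x + v) = pvefCtr δ n em x + (((2 * (n : ℝ) + 1) * δ : ℝ) : ℂ) * pvtZ v := by
  rw [pvefCtr, pvef_cc_add, pveh_ctr_add]
  push_cast
  rfl

/-- the first door of the corridor: the middle of the side of the first block which looks at the box -/
noncomputable def pvefZ0 (δ : ℝ) (n : ℤ) (em ep : ℤ × ℤ) (a : ℕ) : ℂ := pvefCtr δ n em (pvefEp n em ep) - (((2 * (n : ℝ) + 1) * δ : ℝ) : ℂ) * I ^ a / 2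

/-- the scaled frame at the first door -/
noncomputable def pvefD0 (δ : ℝ) (n : ℤ) (a : ℕ) : ℂ := (((2 * (n : ℝ) + 1) * δ : ℝ) : ℂ) * I ^ a

/-- **the centre of the cell `j` of the corridor is the centre of the block `pvefV j`** -/
theorem pvef_C_eq (δ : ℝ) (M : ℤ) (a b : ℕ) (ep em : ℤ × ℤ) (n : ℤ) (j : ℕ) :
    pvccC (pvefZ0 δ n em ep a) (pvefD0 δ n a) (pvefWord M a b ep em n) j = pvefCtr δ n em (pvefV M a b ep em n j) := by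
  rw [pvccC_eq, pvefV, pvef_ctr_add, pvccAccI_eq, pvxr_Z_E, pvefZ0, pvefD0, pvtAcc_mul]
  ring

/-- the closed block number `j` of the corridor `(z, d, l)`, `Δ = ‖d‖` -/
noncomputable def pvefBl (Δ : ℝ) (z d : ℂ) (l : List PvtTurn) (j : ℕ) : Set ℂ := pvehSq (pvccC z d l j) (Δ / 2)

/-- all the closed blocks of the corridor -/
noncomputable def pvefBlocks (Δ : ℝ) (z d : ℂ) (l : List PvtTurn) : Set ℂ := ⋃ j ∈ Finset.range l.length, pvefBl Δ z d l j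

/-- the WEST half of the closed block of the reference plug (the east half belongs to `eK`) -/
def pvefWest (Δ : ℝ) (cu : ℂ) : Set ℂ := {w | w ∈ pvehSq cu (Δ / 2) ∧ w.re < cu.re}

/-- funnel, blocks, west half of the block of the plug -/
noncomputable def pvefBody (Δ : ℝ) (cu z d : ℂ) (l : List PvtTurn) (F : Set ℂ) : Set ℂ := F ∪ pvefBlocks Δ z d l ∪ pvefWest Δ cu

/-- `fK`: the tile of the thick return = its body, minus the plug, minus the mouth -/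
noncomputable def pvefFK (Δ : ℝ) (cu z d : ℂ) (l : List PvtTurn) (F Mo : Set ℂ) : Set ℂ := pvefBody Δ cu z d l F \ (pvccSq cu (Δ / 4) ∪ Mo)

/-- the lane of offsets `[-Δ/10, 4Δ/10]` of the west half of the block of the plug, NEAR HALF of the plug only (W-7 of 208: `x_u ≤ - Δ/64`) -/
def pvefWL (Δ : ℝ) (cu : ℂ) : Set ℂ := {w | cu.re - Δ / 2 ≤ w.re ∧ w.re ≤ cu.re - Δ / 64 ∧ cu.im - Δ / 10 ≤ w.im ∧ w.im ≤ cu.im + 4 * Δ / 10}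

/-- `fY`: the room of the strand of the thick return -/
noncomputable def pvefFY (Δ : ℝ) (cu z d : ℂ) (l : List PvtTurn) (F Mi : Set ℂ) : Set ℂ := F ∪ pvfeLanes (-(1 / 10)) (4 / 10) z d l ∪ pvefWL Δ cu ∪ Mi

theorem pvef_blocks_meas (Δ : ℝ) (z d : ℂ) (l : List PvtTurn) : MeasurableSet (pvefBlocks Δ z d l) := Finset.measurableSet_biUnion _ fun _ _ => pveh_sq_meas _ _

theorem pvef_west_meas (Δ : ℝ) (cu : ℂ) : MeasurableSet (pvefWest Δ cu) := (pveh_sq_meas _ _).inter (pveh_half_meas _)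

theorem pvef_FK_meas (Δ : ℝ) (cu z d : ℂ) (l : List PvtTurn) {F Mo : Set ℂ} (hF : MeasurableSet F) (hM : MeasurableSet Mo) : MeasurableSet (pvefFK Δ cu z d l F Mo) :=
  ((hF.union (pvef_blocks_meas Δ z d l)).union (pvef_west_meas Δ cu)).diff ((pvccm_sq_meas _ _).union hM)

theorem pvef_WL_meas (Δ : ℝ) (cu : ℂ) : MeasurableSet (pvefWL Δ cu) :=
  (isClosed_le continuous_const continuous_re).measurableSet.inter ((isClosed_le continuous_re continuous_const).measurableSet.inter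
    ((isClosed_le continuous_const continuous_im).measurableSet.inter (isClosed_le continuous_im continuous_const).measurableSet))

theorem pvef_FY_meas (Δ : ℝ) (cu z : ℂ) {d : ℂ} (hd : d ≠ 0) (l : List PvtTurn) {F Mi : Set ℂ} (hF : MeasurableSet F) (hM : MeasurableSet Mi) : MeasurableSet (pvefFY Δ cu z d l F Mi) :=
  ((hF.union (pvfe_lanes_meas _ _ _ hd _)).union (pvef_WL_meas Δ cu)).union hM

theorem pvef_FK_O (Δ : ℝ) (cu z d : ℂ) (l : List PvtTurn) (F Mo : Set ℂ) : Disjoint (pvefFK Δ cu z d l F Mo) (pvccSq cu (Δ / 4)) :=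
  Set.disjoint_left.2 fun _ h h' => h.2 (Or.inl h')

theorem pvef_FK_M (Δ : ℝ) (cu z d : ℂ) (l : List PvtTurn) (F Mo : Set ℂ) : Disjoint (pvefFK Δ cu z d l F Mo) Mo :=
  Set.disjoint_left.2 fun _ h h' => h.2 (Or.inr h')

/-- a placed lane of a block lies in the closed block -/
theorem pvef_lane_sub {Δ : ℝ} (hΔ : 0 < Δ) (z : ℂ) {u₀ : ℂ} (hu₀ : u₀ ^ 4 = 1) (l : List PvtTurn) (j : ℕ) {a b : ℝ} (ha : -(1 / 2) ≤ a) (hb : b ≤ 1 / 2) :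
    pvccK (pvfeLane a b) z ((Δ : ℂ) * u₀) l j ⊆ pvefBl Δ z ((Δ : ℂ) * u₀) l j := by
  have hu : (u₀ * pvccD 1 l j) ^ 4 = 1 := by rw [mul_pow, hu₀, pvccD_pow_four (by norm_num) l j, one_mul]
  have hsub : pvfeLane a b (pvccT l j) ⊆ pvehSq (1 / 2) (1 / 2) := by
    intro w hw
    obtain ⟨h1, h2, h3, h4⟩ := pvfe_lane_cell ha hb _ hw
    rw [pveh_mem_sq]
    norm_num
    exact ⟨⟨h1, h2⟩, by linarith, by linarith⟩
  unfold pvccK pvefBl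
  refine (pvccPl_mono _ _ hsub).trans ?_
  rw [pvccD_cov, mul_assoc, pveh_pl_sq hΔ _ hu, pvccC, pvccD_cov ((Δ : ℂ) * u₀)]
  refine (Eq.subset ?_)
  congr 1
  · ring
  · ring

theorem pvef_WL_sub {Δ : ℝ} (hΔ : 0 < Δ) (cu : ℂ) : pvefWL Δ cu ⊆ pvefWest Δ cu := by
  rintro w ⟨h1, h2, h3, h4⟩
  refine ⟨?_, by linarith⟩
  rw [pveh_mem_sq]
  exact ⟨⟨by linarith, by linarith⟩, by linarith, by linarith⟩

/-- **(F4) the room of the thick return lies in its window** -/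
theorem pvef_FY_sub {Δ : ℝ} (hΔ : 0 < Δ) (cu z : ℂ) {u₀ : ℂ} (hu₀ : u₀ ^ 4 = 1) (l : List PvtTurn) (F : Set ℂ) {Mi Mo : Set ℂ} (hM : Mi ⊆ Mo) :
    pvefFY Δ cu z ((Δ : ℂ) * u₀) l F Mi ⊆ Mo ∪ pvefFK Δ cu z ((Δ : ℂ) * u₀) l F Mo ∪ pvccSq cu (Δ / 4) := by
  have key : ∀ w, w ∈ pvefBody Δ cu z ((Δ : ℂ) * u₀) l F → w ∈ Mo ∪ pvefFK Δ cu z ((Δ : ℂ) * u₀) l F Mo ∪ pvccSq cu (Δ / 4) := by
    intro w hw
    by_cases h1 : w ∈ pvccSq cu (Δ / 4)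
    · exact Or.inr h1
    by_cases h2 : w ∈ Mo
    · exact Or.inl (Or.inl h2)
    exact Or.inl (Or.inr ⟨hw, fun h => h.elim h1 h2⟩)
  rintro w (((h | h) | h) | h)
  · exact key w (Or.inl (Or.inl h))
  · unfold pvfeLanes at h
    simp only [mem_iUnion, exists_prop] at h
    obtain ⟨j, hj, hw⟩ := h
    refine key w (Or.inl (Or.inr ?_))
    unfold pvefBlocks
    simp only [mem_iUnion, exists_prop]
    exact ⟨j, hj, pvef_lane_sub hΔ z hu₀ l j (by norm_num) (by norm_num) hw⟩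
  · exact key w (Or.inr (pvef_WL_sub hΔ cu h))
  · exact Or.inl (Or.inl (hM h))

/-- two blocks of the grid whose indices are `k + 1` apart are `k Δ` apart (sup norm) -/
theorem pvef_sq_far {δ : ℝ} (hδ : 0 < δ) {n : ℤ} (hn : 0 ≤ n) (em : ℤ × ℤ) {x y : ℤ × ℤ} {k : ℤ} (h : k + 1 ≤ |x.1 - y.1| ∨ k + 1 ≤ |x.2 - y.2|) {w v : ℂ}
    (hw : w ∈ pvehSq (pvefCtr δ n em x) ((2 * (n : ℝ) + 1) * δ / 2)) (hv : v ∈ pvehSq (pvefCtr δ n em y) ((2 * (n : ℝ) + 1) * δ / 2)) : (k : ℝ) * ((2 * (n : ℝ) + 1) * δ) ≤ pvccN (w - v) := by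
  have hn' : (0 : ℝ) ≤ n := by exact_mod_cast hn
  have hg : 0 < (2 * (n : ℝ) + 1) * δ := by positivity
  rw [pveh_mem_sq] at hw hv
  obtain ⟨⟨w1, w2⟩, w3, w4⟩ := hw
  obtain ⟨⟨v1, v2⟩, v3, v4⟩ := hv
  have c1 : ∀ z : ℤ × ℤ, (pvefCtr δ n em z).re = ((em.1 : ℝ) + (2 * (n : ℝ) + 1) * (((pvefO n em).1 : ℝ) + z.1) + 1 / 2) * δ := by
    intro z
    simp [pvefCtr, pvefCc, pvtCtr]
    left; ring
  have c2 : ∀ z : ℤ × ℤ, (pvefCtr δ n em z).im = ((em.2 : ℝ) + (2 * (n : ℝ) + 1) * (((pvefO n em).2 : ℝ) + z.2) + 1 / 2) * δ := by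
    intro z
    simp [pvefCtr, pvefCc, pvtCtr]
    left; ring
  rw [c1] at w1 w2 v1 v2
  rw [c2] at w3 w4 v3 v4
  unfold pvccN
  rcases h with h | h
  · refine le_max_of_le_left ?_
    rw [sub_re]
    rcases le_abs.1 h with h | h
    · have h' : ((k : ℝ) + 1) ≤ (x.1 : ℝ) - y.1 := by exact_mod_cast h
      have := mul_le_mul_of_nonneg_right h' hg.le
      refine le_trans ?_ (le_abs_self _)
      nlinarith
    · have h' : ((k : ℝ) + 1) ≤ -((x.1 : ℝ) - y.1) := by exact_mod_cast h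
      have := mul_le_mul_of_nonneg_right h' hg.le
      refine le_trans ?_ (neg_le_abs _)
      nlinarith
  · refine le_max_of_le_right ?_
    rw [sub_im]
    rcases le_abs.1 h with h | h
    · have h' : ((k : ℝ) + 1) ≤ (x.2 : ℝ) - y.2 := by exact_mod_cast h
      have := mul_le_mul_of_nonneg_right h' hg.le
      refine le_trans ?_ (le_abs_self _)
      nlinarith
    · have h' : ((k : ℝ) + 1) ≤ -((x.2 : ℝ) - y.2) := by exact_mod_cast h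
      have := mul_le_mul_of_nonneg_right h' hg.le
      refine le_trans ?_ (neg_le_abs _)
      nlinarith

/-- a closed block is the union of its closed cells -/
theorem pvef_block_cells {δ : ℝ} (hδ : 0 < δ) {n : ℤ} (hn : 0 ≤ n) (em x : ℤ × ℤ) : pvehSq (pvefCtr δ n em x) ((2 * (n : ℝ) + 1) * δ / 2) = pvtU δ (pvehCells (pvefCc n em x) n) :=
  pveh_block_eq hδ _ hn

/-! ## 5. AT THE MODEL -/

section model

variable {τ : Type} {c : ℝ} (𝔓 : PvxPar τ c)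

/-- **the word of the thick return**, in `g`-blocks -/
noncomputable def pvefW (m : ℕ) (t : τ) : List PvtTurn := pvefWord (pvxrM 𝔓 m t) (pvxrA 𝔓 t) (pvxrB 𝔓 t) (pvxrEp 𝔓 m t) (pvxrEm 𝔓 m t) (pvxrNw 𝔓 m)

/-- its first door, relative to the centre of the pin -/
noncomputable def pvefZ (m : ℕ) (t : τ) : ℂ := pvefZ0 (pvlmDel c m) (pvxrNw 𝔓 m) (pvxrEm 𝔓 m t) (pvxrEp 𝔓 m t) (pvxrA 𝔓 t)

/-- its scaled frame `Δ I ^ a` -/
noncomputable def pvefD (m : ℕ) (t : τ) : ℂ := (pvehDl 𝔓 m : ℂ) * I ^ pvxrA 𝔓 t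

/-- the centre of its first block -/
noncomputable def pvefC0 (m : ℕ) (t : τ) : ℂ := pvefCtr (pvlmDel c m) (pvxrNw 𝔓 m) (pvxrEm 𝔓 m t) (pvefEp (pvxrNw 𝔓 m) (pvxrEm 𝔓 m t) (pvxrEp 𝔓 m t))

/-- **the funnel**: from the collar of the box to the middle of the first block, half width `ρ h / 5` -/
noncomputable def pvefF (m : ℕ) (t : τ) : Set ℂ := pvegRc (pvegYp 𝔓 m t) (I ^ pvxrA 𝔓 t) (pvefC0 𝔓 m t) (pvegR 𝔓 m / 10) (pvlmDel c m) (pvegR 𝔓 m / 5)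

/-- **`fK m t`**      (`fM m t := pvegOM 𝔓 m t`) -/
noncomputable def pveffK (m : ℕ) (t : τ) : Set ℂ := pvefFK (pvehDl 𝔓 m) ((pvxrGam 𝔓 m).zu t) (pvefZ 𝔓 m t) (pvefD 𝔓 m t) (pvefW 𝔓 m t) (pvefF 𝔓 m t) (pvegOM 𝔓 m t)

/-- **the OUTER room** of the thick return (funnel, lanes `[-1/10, 4/10]`, west lane, mouth);   THE ROOM OF RECORD `pveffY` = its core (last section) -/
noncomputable def pveffY0 (m : ℕ) (t : τ) : Set ℂ := pvefFY (pvehDl 𝔓 m) ((pvxrGam 𝔓 m).zu t) (pvefZ 𝔓 m t) (pvefD 𝔓 m t) (pvefW 𝔓 m t) (pvefF 𝔓 m t) (pvegOM 𝔓 m t)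

/-- **the lane of offsets `[a', b']` of the thick return, door to door**: cap of depth `3 Δ` behind the first door (its half `[-3, -3/2]` lies in the mouth), the lane of the word, cap of depth `2Δ/5` beyond the west door of `u` (it enters `zu + rO`) -/
noncomputable def pvefLn (a' b' : ℝ) (m : ℕ) (t : τ) : Set ℂ :=
  pvccPl (pvefZ 𝔓 m t) (pvefD 𝔓 m t) (pvljRect (-3) 0 a' b') ∪ pvfeLanes a' b' (pvefZ 𝔓 m t) (pvefD 𝔓 m t) (pvefW 𝔓 m t) ∪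
    pvccPl (pvccZ (pvefZ 𝔓 m t) (pvefD 𝔓 m t) (pvefW 𝔓 m t) (pvefW 𝔓 m t).length) (pvccD (pvefD 𝔓 m t) (pvefW 𝔓 m t) (pvefW 𝔓 m t).length) (pvljRect 0 (2 / 5) a' b')

/-- **THE HYPOTHESIS OF SEC. 5** = `PvxrNdg 𝔓 m t` of helper1 (since f8b44ec2f1 its field `far` is the separation `7ρ/4` of the two tip cells, `pviwTyOk` v4 of 168): ONE notion, two names -/
abbrev PvefNdg (m : ℕ) (t : τ) : Prop := PvxrNdg 𝔓 m t

variable {𝔓}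

theorem PvefNdg.ndg {m : ℕ} {t : τ} (h : PvefNdg 𝔓 m t) : PvxrNdg 𝔓 m t := h

theorem pvef_ndg_of {m : ℕ} {t : τ} (h : PvxrNdg 𝔓 m t) (_hT : pviwTyOk 𝔓 t) : PvefNdg 𝔓 m t := h

theorem pvef_D_eq (m : ℕ) (t : τ) : pvefD 𝔓 m t = pvefD0 (pvlmDel c m) (pvxrNw 𝔓 m) (pvxrA 𝔓 t) := rfl

theorem pvef_cell_norA (N : ℕ) {a : ℕ} (ha : a < 4) (w : ℂ) :
    (N : ℝ) * pvxrNorA a w - 1 < (pvxrDot (pvxrCell N w) (pvxrE a) : ℤ) ∧ ((pvxrDot (pvxrCell N w) (pvxrE a) : ℤ) : ℝ) < (N : ℝ) * pvxrNorA a w + 1 := by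
  have a1 := Int.floor_le ((N : ℝ) * w.re)
  have a2 := Int.lt_floor_add_one ((N : ℝ) * w.re)
  have b1 := Int.floor_le ((N : ℝ) * w.im)
  have b2 := Int.lt_floor_add_one ((N : ℝ) * w.im)
  interval_cases a <;> simp only [pvxrDot, pvxrE, pvxrCell, pvxrNorA, Nat.reduceMod, Nat.zero_mod, mul_one, mul_zero, add_zero, zero_add, mul_neg] <;> push_cast <;> constructor <;> linarith

theorem pvef_cell_latA (N : ℕ) {a : ℕ} (ha : a < 4) (w : ℂ) :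
    (N : ℝ) * pvxrLatA a w - 1 < (pvxrDot (pvxrCell N w) (pvxrE (a + 1)) : ℤ) ∧ ((pvxrDot (pvxrCell N w) (pvxrE (a + 1)) : ℤ) : ℝ) < (N : ℝ) * pvxrLatA a w + 1 := by
  have a1 := Int.floor_le ((N : ℝ) * w.re)
  have a2 := Int.lt_floor_add_one ((N : ℝ) * w.re)
  have b1 := Int.floor_le ((N : ℝ) * w.im)
  have b2 := Int.lt_floor_add_one ((N : ℝ) * w.im)
  interval_cases a <;> simp only [pvxrDot, pvxrE, pvxrCell, pvxrLatA, Nat.reduceMod, Nat.reduceAdd, Nat.zero_mod, mul_one, mul_zero, add_zero, zero_add, mul_neg] <;> push_cast <;> constructor <;> linarith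

theorem pvef_shift {a b : ℕ} (ha : a < 4) (hb : b < 4) (y : ℂ) {κ : ℝ} (hκ : 0 ≤ κ) :
    pvxrNorA a (y + κ * I ^ b) ≤ pvxrNorA a y + κ ∧ |pvxrLatA a (y + κ * I ^ b) - pvxrLatA a y| ≤ κ := by
  have e2 : (I : ℂ) ^ 2 = -1 := I_sq
  have e3 : (I : ℂ) ^ 3 = -I := I_pow_three
  rw [abs_le]
  interval_cases a <;> interval_cases b <;> simp [pvxrNorA, pvxrLatA, e2, e3] <;> linarith

theorem pvef_norA_le {a : ℕ} (ha : a < 4) (y : ℂ) : pvxrNorA a y ≤ pvccN y := by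
  unfold pvccN
  interval_cases a <;> simp only [pvxrNorA, Nat.reduceMod, Nat.zero_mod]
  · exact le_max_of_le_left (le_abs_self _)
  · exact le_max_of_le_right (le_abs_self _)
  · exact le_max_of_le_left (neg_le_abs _)
  · exact le_max_of_le_right (neg_le_abs _)

theorem pvef_num_aux {ρ x y : ℝ} (_hρ : 0 < ρ) (far : (7 / 4 * ρ) ^ 2 ≤ x + y) (f3 : x < ρ ^ 2) (f4 : y < (11 / 8 * ρ) ^ 2) : False := by
  nlinarith [sq_nonneg ρ, mul_pos _hρ _hρ]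

theorem pvef_lat_aux {N lp lw lm κ P Q : ℝ} (N0 : 0 ≤ N) (k1 : N * lp - 1 < P) (k2 : P < N * lp + 1) (k3 : N * lw - 1 < Q) (k4 : Q < N * lw + 1) (s : |lw - lm| ≤ κ) :
    N * (|lp - lm| - κ) - 2 < |P - Q| := by
  have s2 := abs_le.1 s
  have s3 := mul_le_mul_of_nonneg_left s2.1 N0
  have s4 := mul_le_mul_of_nonneg_left s2.2 N0
  rw [mul_sub] at s3 s4
  rw [mul_neg] at s3
  rcases abs_cases (lp - lm) with ⟨e, _⟩ | ⟨e, _⟩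
  · rw [e, mul_sub, mul_sub]
    have := le_abs_self (P - Q)
    linarith
  · rw [e, mul_sub, mul_neg, mul_sub]
    have := neg_abs_le (P - Q)
    linarith

set_option maxHeartbeats 1000000 in
theorem pvef_ok_aux {N ρ rk RK sp sm dn dl : ℝ} {a b : ℕ} {B M n : ℤ} {ep em : ℤ × ℤ} (ok : PvxrOK B M a b ep em n)
    (N0 : 0 < N) (rho0 : 0 < ρ) (rho8 : 8 * ρ ≤ 1) (fine : 1024 ≤ N * ρ) (_rk0 : 0 ≤ rk) (hRK : rk ≤ RK)
    (nd_p : |sp - rk| ≤ ρ / 10) (nd_m : |sm - rk| ≤ ρ / 10)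
    (hB2 : (B : ℝ) < N * (rk + ρ / 10) + 1) (hn2 : (n : ℝ) < N * (ρ / 32) + 1) (hM : N * (RK + 1) ≤ M)
    (np : N * (sp + 3 * ρ / 8) - 1 < (pvxrDot ep (pvxrE a) : ℤ))
    (nm : N * (sm + 3 * ρ / 8) - 1 < (pvxrDot em (pvxrE b) : ℤ) ∧ ((pvxrDot em (pvxrE b) : ℤ) : ℝ) < N * (sm + 3 * ρ / 8) + 1)
    (far : (7 / 4 * ρ) ^ 2 ≤ dn ^ 2 + dl ^ 2) (hdn : -(ρ / 5) ≤ dn) (hsame : a = b → dn ≤ ρ / 5)
    (hX : N * dn - 2 < ((pvxrDot ep (pvxrE a) - pvxrDot em (pvxrE a) : ℤ) : ℝ))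
    (hY : N * (|dl| - 3 * ρ / 8) - 2 < ((|pvxrDot ep (pvxrE (a + 1)) - pvxrDot em (pvxrE (a + 1))| : ℤ) : ℝ)) :
    PvefOK B M a b ep em n := by
  rw [abs_le] at nd_p nd_m
  obtain ⟨nm1, nm2⟩ := nm
  have q1 : N * (-(ρ / 10)) ≤ N * (sp - rk) := mul_le_mul_of_nonneg_left nd_p.1 N0.le
  have q2 : N * (-(ρ / 10)) ≤ N * (sm - rk) := mul_le_mul_of_nonneg_left nd_m.1 N0.le
  have q3 : N * (sm - rk) ≤ N * (ρ / 10) := mul_le_mul_of_nonneg_left nd_m.2 N0.le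
  have q9 : N * rk ≤ N * RK := mul_le_mul_of_nonneg_left hRK N0.le
  have q10 : N * (8 * ρ) ≤ N * 1 := mul_le_mul_of_nonneg_left rho8 N0.le
  have hg : (15 : ℝ) * (2 * n + 1) + 2 < N * ρ := by nlinarith
  refine ⟨ok, ?_, ?_, ?_, ?_, ?_⟩
  · have : (B : ℝ) + 4 * n < (pvxrDot ep (pvxrE a) : ℤ) := by nlinarith
    exact_mod_cast this
  · have : (B : ℝ) + 4 * n < (pvxrDot em (pvxrE b) : ℤ) := by nlinarith
    exact_mod_cast this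
  · have : ((pvxrDot em (pvxrE b) : ℤ) : ℝ) + 13 * (2 * n + 1) < M := by nlinarith
    exact_mod_cast this
  · intro hab
    have h1 := hsame hab
    have d3 : (17 / 10 * ρ) ^ 2 ≤ dl ^ 2 := by nlinarith
    have d4 : 17 / 10 * ρ ≤ |dl| := by
      have := sq_le_sq.1 d3
      rwa [abs_of_nonneg (by positivity)] at this
    have d5 : N * (17 / 10 * ρ) ≤ N * |dl| := mul_le_mul_of_nonneg_left d4 N0.le
    have : (8 : ℝ) * (2 * n + 1) < ((|pvxrDot ep (pvxrE (a + 1)) - pvxrDot em (pvxrE (a + 1))| : ℤ) : ℝ) := by nlinarith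
    exact_mod_cast this
  · by_contra hcon
    rw [not_or, not_le, not_le] at hcon
    obtain ⟨c1, c2⟩ := hcon
    have c1' : ((|pvxrDot ep (pvxrE (a + 1)) - pvxrDot em (pvxrE (a + 1))| : ℤ) : ℝ) < 15 * (2 * n + 1) := by exact_mod_cast c1
    have c2' : ((pvxrDot ep (pvxrE a) - pvxrDot em (pvxrE a) : ℤ) : ℝ) < 15 * (2 * n + 1) := by exact_mod_cast c2
    have e1 : N * dn < N * ρ := by linarith
    have e2 : N * (|dl| - 3 * ρ / 8) < N * ρ := by linarith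
    have f1 : dn < ρ := lt_of_mul_lt_mul_left e1 N0.le
    have f2 : |dl| - 3 * ρ / 8 < ρ := lt_of_mul_lt_mul_left e2 N0.le
    have f3 : dn ^ 2 < ρ ^ 2 := sq_lt_sq' (lt_of_lt_of_le (by linarith only [rho0]) hdn) f1
    have f5 : |dl| < 11 / 8 * ρ := by linarith only [f2]
    have f4 : dl ^ 2 < (11 / 8 * ρ) ^ 2 := sq_lt_sq' (abs_lt.1 f5).1 (abs_lt.1 f5).2
    exact pvef_num_aux rho0 far f3 f4

/-- **(N) THE INTEGER RECORD AT THE MODEL**      [as `pvxr_ok` of helper1: `pvxr_cell_nor`, `pvxr_cell_lat`, `1024 ≤ N ρ`, `8 ρ ≤ 1`;   `cor15` from `far`] -/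
theorem pvef_ok_of_ndg {m : ℕ} {t : τ} (h : PvefNdg 𝔓 m t) :
    PvefOK (pvxrBx 𝔓 m t) (pvxrM 𝔓 m t) (pvxrA 𝔓 t) (pvxrB 𝔓 t) (pvxrEp 𝔓 m t) (pvxrEm 𝔓 m t) (pvxrNw 𝔓 m) := by
  have ok := pvxr_ok h.ndg
  obtain ⟨rho0, rho8, rho1, b2, lev, fine, nd_p, nd_m, far⟩ := h
  have N0 : (0 : ℝ) < (pvlmN c m : ℝ) := by exact_mod_cast pvlm_N_pos c m
  have hK : ((𝔓.ty t).k : ℝ) * 𝔓.num.rho1 ≤ 𝔓.num.K * 𝔓.num.rho1 := mul_le_mul_of_nonneg_right (by exact_mod_cast lev) rho1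
  have a4 : pvxrA 𝔓 t < 4 := pvxr_side_lt _
  have b4 : pvxrB 𝔓 t < 4 := pvxr_side_lt _
  have hκ : (0 : ℝ) ≤ pvxrKap 𝔓 := by unfold pvxrKap; positivity
  have eκ : pvxrKap 𝔓 = 3 * 𝔓.num.rho / 8 := rfl
  have sh := pvef_shift a4 b4 (pvxrYm 𝔓 t) hκ
  have c1 := pvef_cell_norA (pvlmN c m) a4 (pvxrYm 𝔓 t + pvxrKap 𝔓 * I ^ pvxrB 𝔓 t)
  have c2 := pvef_cell_latA (pvlmN c m) a4 (pvxrYm 𝔓 t + pvxrKap 𝔓 * I ^ pvxrB 𝔓 t)
  have np := pvxr_cell_nor (pvlmN c m) (pvxrYp 𝔓 t) (pvxrKap 𝔓)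
  have nm := pvxr_cell_nor (pvlmN c m) (pvxrYm 𝔓 t) (pvxrKap 𝔓)
  have lp := pvxr_cell_lat (pvlmN c m) a4 (pvxrYp 𝔓 t) (pvxrKap 𝔓)
  have hns := pvxr_norm_sq a4 (pvxrYp 𝔓 t) (pvxrYm 𝔓 t)
  have hnp : pvxrNorA (pvxrA 𝔓 t) (pvxrYp 𝔓 t) = pvccN (pvxrYp 𝔓 t) := pvxr_nor_side _
  have hnm : pvxrNorA (pvxrB 𝔓 t) (pvxrYm 𝔓 t) = pvccN (pvxrYm 𝔓 t) := pvxr_nor_side _
  have hle := pvef_norA_le a4 (pvxrYm 𝔓 t)
  have nd_p' := abs_le.1 nd_p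
  have nd_m' := abs_le.1 nd_m
  refine pvef_ok_aux (N := (pvlmN c m : ℝ)) (ρ := 𝔓.num.rho) (rk := 2 * (𝔓.ty t).b2 + (𝔓.ty t).k * 𝔓.num.rho1) (RK := 2 * (𝔓.ty t).b2 + 𝔓.num.K * 𝔓.num.rho1)
    (sp := pvccN (𝔓.ty t).yp) (sm := pvccN (𝔓.ty t).ym) (dn := pvxrNorA (pvxrA 𝔓 t) (pvxrYp 𝔓 t) - pvxrNorA (pvxrA 𝔓 t) (pvxrYm 𝔓 t))
    (dl := pvxrLatA (pvxrA 𝔓 t) (pvxrYp 𝔓 t) - pvxrLatA (pvxrA 𝔓 t) (pvxrYm 𝔓 t)) ok N0 rho0 rho8 fine (by positivity) (by linarith) nd_p nd_m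
    (Int.ceil_lt_add_one _) (Int.ceil_lt_add_one _) (Int.le_ceil _) ?_ ?_ ?_ ?_ ?_ ?_ ?_
  · exact np.1
  · exact nm
  · rw [← hns]
    have far' : 7 / 4 * 𝔓.num.rho ≤ ‖pvxrYp 𝔓 t - pvxrYm 𝔓 t‖ := by
      have : ‖pvxrYp 𝔓 t - pvxrYm 𝔓 t‖ = ‖(𝔓.ty t).yp - (𝔓.ty t).ym‖ := rfl
      rw [this]
      linarith
    exact pow_le_pow_left₀ (by positivity) far' 2
  · rw [hnp]
    have : pvccN (pvxrYp 𝔓 t) = pvccN (𝔓.ty t).yp := rfl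
    have : pvccN (pvxrYm 𝔓 t) = pvccN (𝔓.ty t).ym := rfl
    linarith [nd_p'.1, nd_m'.2]
  · intro hab
    rw [hnp, hab, hnm]
    have : pvccN (pvxrYp 𝔓 t) = pvccN (𝔓.ty t).yp := rfl
    have : pvccN (pvxrYm 𝔓 t) = pvccN (𝔓.ty t).ym := rfl
    linarith [nd_p'.2, nd_m'.1]
  · have k1 : ((pvxrDot (pvxrEp 𝔓 m t) (pvxrE (pvxrA 𝔓 t)) : ℤ) : ℝ) > (pvlmN c m : ℝ) * (pvccN (pvxrYp 𝔓 t) + pvxrKap 𝔓) - 1 := np.1
    have k2 : ((pvxrDot (pvxrEm 𝔓 m t) (pvxrE (pvxrA 𝔓 t)) : ℤ) : ℝ) < (pvlmN c m : ℝ) * pvxrNorA (pvxrA 𝔓 t) (pvxrYm 𝔓 t + pvxrKap 𝔓 * I ^ pvxrB 𝔓 t) + 1 := c1.2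
    have k3 := mul_le_mul_of_nonneg_left sh.1 N0.le
    rw [hnp]
    push_cast
    rw [mul_add] at k1 k3
    rw [mul_sub]
    linarith
  · rw [← eκ]
    push_cast
    exact pvef_lat_aux N0.le lp.1 lp.2 c2.1 c2.2 sh.2

theorem pvef_n0 {m : ℕ} {t : τ} (h : PvefNdg 𝔓 m t) : 0 ≤ pvxrNw 𝔓 m := (pvxr_ok h.ndg).n0

/-- `ρ h / 16 + δ ≤ Δ < ρ h / 16 + 3 δ`, `64 δ ≤ ρ h / 16` -/
theorem pvef_Dl_bounds {m : ℕ} {t : τ} (h : PvefNdg 𝔓 m t) :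
    pvegR 𝔓 m / 16 + pvlmDel c m ≤ pvehDl 𝔓 m ∧ pvehDl 𝔓 m < pvegR 𝔓 m / 16 + 3 * pvlmDel c m ∧ 64 * pvlmDel c m ≤ pvegR 𝔓 m / 16 := by
  have hd := pvlm_Del_pos c m
  have hN := pvlm_N_mul_Del c m
  have h1 : (pvlmN c m : ℝ) * (𝔓.num.rho / 32) ≤ (pvxrNw 𝔓 m : ℝ) := Int.le_ceil _
  have h2 : (pvxrNw 𝔓 m : ℝ) < (pvlmN c m : ℝ) * (𝔓.num.rho / 32) + 1 := Int.ceil_lt_add_one _
  have hf := h.fine
  unfold pvehDl pvegR
  rw [← hN]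
  refine ⟨?_, ?_, ?_⟩
  · nlinarith [mul_le_mul_of_nonneg_right h1 hd.le]
  · nlinarith [mul_lt_mul_of_pos_right h2 hd]
  · nlinarith [mul_le_mul_of_nonneg_right hf hd.le]

/-! ### (F1) Borel -/

theorem pvef_m_F (m : ℕ) (t : τ) : MeasurableSet (pvefF 𝔓 m t) := (pveg_rc_closed _ _ _ _ _ _).measurableSet

theorem pvef_m_fK (m : ℕ) (t : τ) : MeasurableSet (pveffK 𝔓 m t) := pvef_FK_meas _ _ _ _ _ (pvef_m_F m t) (pveg_m_oM m t)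

theorem pvef_D_ne {m : ℕ} (hn : 0 ≤ pvxrNw 𝔓 m) (t : τ) : pvefD 𝔓 m t ≠ 0 :=
  mul_ne_zero (by exact_mod_cast (pveh_Dl_pos hn).ne') (pow_ne_zero _ I_ne_zero)

theorem pvef_m_fY0 {m : ℕ} (hn : 0 ≤ pvxrNw 𝔓 m) (t : τ) : MeasurableSet (pveffY0 𝔓 m t) := pvef_FY_meas _ _ _ (pvef_D_ne hn t) _ (pvef_m_F m t) (pveg_m_oM m t)

/-! ### (F4) the room -/

theorem pvef_I_pow (a : ℕ) : ((I : ℂ) ^ a) ^ 4 = 1 := by rw [← pow_mul, mul_comm, pow_mul, I_pow_four, one_pow]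

/-- **(F4)** -/
theorem pvef_fY0_sub {m : ℕ} (hn : 0 ≤ pvxrNw 𝔓 m) (t : τ) : pveffY0 𝔓 m t ⊆ pvegOM 𝔓 m t ∪ pveffK 𝔓 m t ∪ pvieSh ((pvxrGam 𝔓 m).zu t) (pvehrO 𝔓 m) := by
  rw [pveh_sh_rO]
  exact pvef_FY_sub (pveh_Dl_pos hn) _ _ (pvef_I_pow _) _ _ Subset.rfl

/-! ### the corridor -/

/-- the block `j` of the corridor -/
theorem pvef_W_C (m : ℕ) (t : τ) (j : ℕ) : pvccC (pvefZ 𝔓 m t) (pvefD 𝔓 m t) (pvefW 𝔓 m t) j =
    pvefCtr (pvlmDel c m) (pvxrNw 𝔓 m) (pvxrEm 𝔓 m t) (pvefV (pvxrM 𝔓 m t) (pvxrA 𝔓 t) (pvxrB 𝔓 t) (pvxrEp 𝔓 m t) (pvxrEm 𝔓 m t) (pvxrNw 𝔓 m) j) := pvef_C_eq _ _ _ _ _ _ _ _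

/-- the centre of the plug is the centre of the block `pvefU` -/
theorem pvef_zu {m : ℕ} {t : τ} (h : PvefNdg 𝔓 m t) : (pvxrGam 𝔓 m).zu t = pvefCtr (pvlmDel c m) (pvxrNw 𝔓 m) (pvxrEm 𝔓 m t) (pvefU (pvxrB 𝔓 t) (pvxrEm 𝔓 m t) (pvxrNw 𝔓 m)) := by
  rw [pvxr_zu h.ndg, pvefCtr, pvef_cc_U]

/-- **(F6) the word is cell-simple**, the block of the plug included -/
theorem pvef_W_simple {m : ℕ} {t : τ} (h : PvefNdg 𝔓 m t) : PvccSimple (pvefW 𝔓 m t) (pvefW 𝔓 m t).length := pvef_simple (pvef_ok_of_ndg h)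

theorem pvef_W_pos {m : ℕ} {t : τ} (h : PvefNdg 𝔓 m t) : 0 < (pvefW 𝔓 m t).length := pvef_word_pos (pvef_ok_of_ndg h)

/-- **(F6) the last frame is `Δ`: the corridor arrives eastwards** -/
theorem pvef_last_dir {m : ℕ} {t : τ} (h : PvefNdg 𝔓 m t) : pvccD (pvefD 𝔓 m t) (pvefW 𝔓 m t) (pvefW 𝔓 m t).length = (pvehDl 𝔓 m : ℂ) := by
  rw [pvccD_length, pvefD, pvtDir_mul, pvefW, pvef_dir (pvef_ok_of_ndg h), mul_one]

/-- **(F6) the last door is the WEST DOOR of the block of the plug** -/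
theorem pvef_last_door {m : ℕ} {t : τ} (h : PvefNdg 𝔓 m t) : pvccZ (pvefZ 𝔓 m t) (pvefD 𝔓 m t) (pvefW 𝔓 m t) (pvefW 𝔓 m t).length = (pvxrGam 𝔓 m).zu t - (pvehDl 𝔓 m : ℂ) / 2 := by
  have h1 := pvef_W_C (𝔓 := 𝔓) m t (pvefW 𝔓 m t).length
  rw [pvccC, pvef_last_dir h] at h1
  have h2 : pvefV (pvxrM 𝔓 m t) (pvxrA 𝔓 t) (pvxrB 𝔓 t) (pvxrEp 𝔓 m t) (pvxrEm 𝔓 m t) (pvxrNw 𝔓 m) (pvefW 𝔓 m t).length = pvefU (pvxrB 𝔓 t) (pvxrEm 𝔓 m t) (pvxrNw 𝔓 m) :=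
    pvef_V_last (pvef_ok_of_ndg h)
  rw [h2, ← pvef_zu h] at h1
  rw [← h1]
  ring

/-- **(F6) THE RING ROAD IN BLOCKS IS BOUNDED FREE OF THE LEVEL** -/
theorem pvef_M_le {m : ℕ} {t : τ} (h : PvefNdg 𝔓 m t) : (pvefM (pvxrNw 𝔓 m) (pvxrM 𝔓 m t) : ℝ) ≤ 16 * (2 * (𝔓.ty t).b2 + 𝔓.num.K * 𝔓.num.rho1 + 1) / 𝔓.num.rho + 3 := by
  have N0 : (0 : ℝ) < (pvlmN c m : ℝ) := by exact_mod_cast pvlm_N_pos c m
  have hρ := h.rho0
  have hA : 0 < 2 * (𝔓.ty t).b2 + 𝔓.num.K * 𝔓.num.rho1 + 1 := by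
    have := h.b2
    have := mul_nonneg (Nat.cast_nonneg (α := ℝ) 𝔓.num.K) h.rho1
    linarith
  set A := 2 * (𝔓.ty t).b2 + 𝔓.num.K * 𝔓.num.rho1 + 1 with hAdef
  have h1 : (pvlmN c m : ℝ) * (𝔓.num.rho / 32) ≤ (pvxrNw 𝔓 m : ℝ) := Int.le_ceil _
  have h3 : (pvxrM 𝔓 m t : ℝ) < (pvlmN c m : ℝ) * A + 1 := Int.ceil_lt_add_one _
  have hn0 : 0 ≤ pvxrNw 𝔓 m := pvef_n0 h
  have hq := Int.ediv_mul_le (pvxrM 𝔓 m t + 2 * pvxrNw 𝔓 m) (show (2 * pvxrNw 𝔓 m + 1) ≠ 0 by omega)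
  set q := (pvxrM 𝔓 m t + 2 * pvxrNw 𝔓 m) / (2 * pvxrNw 𝔓 m + 1) with hqdef
  have hq' : (q : ℝ) * (2 * (pvxrNw 𝔓 m : ℝ) + 1) ≤ (pvxrM 𝔓 m t : ℝ) + 2 * (pvxrNw 𝔓 m : ℝ) := by exact_mod_cast hq
  have e : (pvefM (pvxrNw 𝔓 m) (pvxrM 𝔓 m t) : ℝ) = (q : ℝ) + 1 := by
    unfold pvefM
    push_cast
    rfl
  rw [e]
  have hX : 16 * A / 𝔓.num.rho * 𝔓.num.rho = 16 * A := by field_simp
  set X := 16 * A / 𝔓.num.rho with hXdef
  have hX0 : 0 < X := by positivity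
  by_contra hc
  push Not at hc
  have hq1 : X + 1 < (q : ℝ) - 1 := by linarith
  have hg : (pvlmN c m : ℝ) * 𝔓.num.rho / 16 < 2 * (pvxrNw 𝔓 m : ℝ) + 1 := by linarith
  have s1 : ((q : ℝ) - 1) * (2 * (pvxrNw 𝔓 m : ℝ) + 1) < (pvlmN c m : ℝ) * A := by nlinarith
  have s2 : X * ((pvlmN c m : ℝ) * 𝔓.num.rho / 16) = (pvlmN c m : ℝ) * A := by
    have : X * ((pvlmN c m : ℝ) * 𝔓.num.rho / 16) = (X * 𝔓.num.rho) * (pvlmN c m : ℝ) / 16 := by ring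
    rw [this, hX]; ring
  have s3 : X * ((pvlmN c m : ℝ) * 𝔓.num.rho / 16) ≤ ((q : ℝ) - 1) * (2 * (pvxrNw 𝔓 m : ℝ) + 1) :=
    mul_le_mul (by linarith) hg.le (by positivity) (by linarith)
  linarith

/-- **(F6) THE NUMBER OF BLOCKS IS BOUNDED FREE OF THE LEVEL** -/
theorem pvef_W_len {m : ℕ} {t : τ} (h : PvefNdg 𝔓 m t) : ((pvefW 𝔓 m t).length : ℝ) < (2 * (16 * (2 * (𝔓.ty t).b2 + 𝔓.num.K * 𝔓.num.rho1 + 1) / 𝔓.num.rho + 3) + 1) ^ 2 := by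
  have h1 := pvef_len (pvef_ok_of_ndg h)
  have h2 := pvef_M_le h
  have N0 : (0 : ℝ) < (pvlmN c m : ℝ) := by exact_mod_cast pvlm_N_pos c m
  have hM0 : 0 ≤ pvxrM 𝔓 m t := by
    apply Int.ceil_nonneg
    have := h.b2
    have := mul_nonneg (Nat.cast_nonneg (α := ℝ) 𝔓.num.K) h.rho1
    positivity
  have hn0 : 0 ≤ pvxrNw 𝔓 m := pvef_n0 h
  have hP : 0 ≤ pvefM (pvxrNw 𝔓 m) (pvxrM 𝔓 m t) := by
    unfold pvefM
    have := Int.ediv_nonneg (show 0 ≤ pvxrM 𝔓 m t + 2 * pvxrNw 𝔓 m by omega) (show 0 ≤ 2 * pvxrNw 𝔓 m + 1 by omega)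
    omega
  have hP' : (0 : ℝ) ≤ (pvefM (pvxrNw 𝔓 m) (pvxrM 𝔓 m t) : ℝ) := by exact_mod_cast hP
  have h1' : ((pvefW 𝔓 m t).length : ℝ) < (2 * (pvefM (pvxrNw 𝔓 m) (pvxrM 𝔓 m t) : ℝ) + 1) ^ 2 := by
    have : (((pvefW 𝔓 m t).length : ℤ) : ℝ) < (((2 * pvefM (pvxrNw 𝔓 m) (pvxrM 𝔓 m t) + 1) ^ 2 : ℤ) : ℝ) := by exact_mod_cast h1
    push_cast at this
    exact this
  exact lt_of_lt_of_le h1' (pow_le_pow_left₀ (by positivity) (by linarith) 2)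

/-! ### the local frame at the exit tip: where the first block is -/

/-- `n δ < ρ h / 32 + δ` -/
theorem pvef_q217_n {m : ℕ} : (pvxrNw 𝔓 m : ℝ) * pvlmDel c m < pvegR 𝔓 m / 32 + pvlmDel c m := by
  have hd := pvlm_Del_pos c m
  have h1 : (pvxrNw 𝔓 m : ℝ) < (pvlmN c m : ℝ) * (𝔓.num.rho / 32) + 1 := Int.ceil_lt_add_one _
  have h3 : pvlmH m = (pvlmN c m : ℝ) * pvlmDel c m := (pvlm_N_mul_Del c m).symm
  unfold pvegR
  rw [h3]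
  nlinarith

/-- `1024 δ ≤ ρ h` -/
theorem pvef_q217_fine {m : ℕ} {t : τ} (h : PvefNdg 𝔓 m t) : 1024 * pvlmDel c m ≤ pvegR 𝔓 m := by
  have hd := pvlm_Del_pos c m
  have h3 : pvlmH m = (pvlmN c m : ℝ) * pvlmDel c m := (pvlm_N_mul_Del c m).symm
  have := h.fine
  unfold pvegR
  rw [h3]
  nlinarith

theorem pvef_q217_C0 {m : ℕ} {t : τ} (h : PvefNdg 𝔓 m t) :
    ∃ e₁ e₂ : ℂ, pvefC0 𝔓 m t - pvegYp 𝔓 m t = e₁ + e₂ + ((3 * pvegR 𝔓 m / 8 : ℝ) : ℂ) * I ^ pvxrA 𝔓 t ∧ pvccN e₁ ≤ (pvxrNw 𝔓 m : ℝ) * pvlmDel c m ∧ ‖e₂‖ ≤ pvlmDel c m := by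
  have hd := pvlm_Del_pos c m
  have hn := pvef_n0 h
  refine ⟨pvefC0 𝔓 m t - pvtCtr (pvlmDel c m) (pvxrEp 𝔓 m t), pvtCtr (pvlmDel c m) (pvxrEp 𝔓 m t) - (((pvlmN c m : ℝ) * pvlmDel c m : ℝ) : ℂ) * (pvxrYp 𝔓 t + pvxrKap 𝔓 * I ^ pvxrA 𝔓 t), ?_, ?_, ?_⟩
  · rw [pvlm_N_mul_Del]
    unfold pvegYp pvegR pvxrYp pvxrKap
    push_cast
    ring
  · have h1 := pvef_cc_ep hn (pvxrEm 𝔓 m t) (pvxrEp 𝔓 m t)
    simp only [pvehCells, Set.mem_ofPred_eq] at h1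
    obtain ⟨h1, h2⟩ := h1
    have g1 : |((pvxrEp 𝔓 m t).1 : ℝ) - ((pvefCc (pvxrNw 𝔓 m) (pvxrEm 𝔓 m t) (pvefEp (pvxrNw 𝔓 m) (pvxrEm 𝔓 m t) (pvxrEp 𝔓 m t))).1 : ℝ)| ≤ (pvxrNw 𝔓 m : ℝ) := by exact_mod_cast h1
    have g2 : |((pvxrEp 𝔓 m t).2 : ℝ) - ((pvefCc (pvxrNw 𝔓 m) (pvxrEm 𝔓 m t) (pvefEp (pvxrNw 𝔓 m) (pvxrEm 𝔓 m t) (pvxrEp 𝔓 m t))).2 : ℝ)| ≤ (pvxrNw 𝔓 m : ℝ) := by exact_mod_cast h2
    rw [abs_le] at g1 g2
    unfold pvccN pvefC0 pvefCtr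
    simp only [pvtCtr, sub_re, sub_im]
    refine max_le ?_ ?_ <;> rw [abs_le] <;> constructor <;> nlinarith [g1.1, g1.2, g2.1, g2.2]
  · exact pvxr_cell_near hd _ _

/-- a point of the placed frame at the first door, in the frame of the exit tip cell -/
theorem pvef_q217_pt (m : ℕ) (t : τ) (w : ℂ) :
    pvegS (pvegYp 𝔓 m t) (I ^ pvxrA 𝔓 t) (pvefZ 𝔓 m t + pvefD 𝔓 m t * w) = pvegS (pvegYp 𝔓 m t) (I ^ pvxrA 𝔓 t) (pvefC0 𝔓 m t) + pvehDl 𝔓 m * (w.re - 1 / 2) ∧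
      pvegL (pvegYp 𝔓 m t) (I ^ pvxrA 𝔓 t) (pvefZ 𝔓 m t + pvefD 𝔓 m t * w) = pvegL (pvegYp 𝔓 m t) (I ^ pvxrA 𝔓 t) (pvefC0 𝔓 m t) + pvehDl 𝔓 m * w.im := by
  have hu := pvef_I_pow (pvxrA 𝔓 t)
  have key : (pvefZ 𝔓 m t + pvefD 𝔓 m t * w - pvegYp 𝔓 m t) * (starRingEnd ℂ) (I ^ pvxrA 𝔓 t) =
      (pvefC0 𝔓 m t - pvegYp 𝔓 m t) * (starRingEnd ℂ) (I ^ pvxrA 𝔓 t) + (pvehDl 𝔓 m : ℂ) * (w - 1 / 2) := by
    have e : pvefZ 𝔓 m t = pvefC0 𝔓 m t - (pvehDl 𝔓 m : ℂ) * I ^ pvxrA 𝔓 t / 2 := rfl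
    have e2 := pveg_unit_conj hu
    rw [e, pvefD]
    linear_combination ((pvehDl 𝔓 m : ℂ) * (w - 1 / 2)) * e2
  unfold pvegS pvegL
  rw [key]
  constructor
  · simp [Complex.add_re, Complex.re_ofReal_mul]
  · simp [Complex.add_im, Complex.im_ofReal_mul]

/-- **the first block in the frame of the exit tip cell** (`U = ρ h / 16`): `5.5 U - 2 δ ≤ S (C₀) ≤ 6.5 U + 2 δ`, `|L (C₀)| ≤ U / 2 + 2 δ` -/
theorem pvef_C0_frame {m : ℕ} {t : τ} (h : PvefNdg 𝔓 m t) :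
    11 * pvegR 𝔓 m / 32 - 2 * pvlmDel c m ≤ pvegS (pvegYp 𝔓 m t) (I ^ pvxrA 𝔓 t) (pvefC0 𝔓 m t) ∧ pvegS (pvegYp 𝔓 m t) (I ^ pvxrA 𝔓 t) (pvefC0 𝔓 m t) ≤ 13 * pvegR 𝔓 m / 32 + 2 * pvlmDel c m ∧
      |pvegL (pvegYp 𝔓 m t) (I ^ pvxrA 𝔓 t) (pvefC0 𝔓 m t)| ≤ pvegR 𝔓 m / 32 + 2 * pvlmDel c m := by
  obtain ⟨e₁, e₂, he, h1, h2⟩ := pvef_q217_C0 h
  have hu := pvef_I_pow (pvxrA 𝔓 t)
  have hn := pvef_q217_n (𝔓 := 𝔓) (m := m)
  have a1 := pveg_re_le_N hu e₁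
  have a2 := pveg_im_le_N hu e₁
  have hnorm : ‖e₂ * (starRingEnd ℂ) (I ^ pvxrA 𝔓 t)‖ = ‖e₂‖ := by
    rw [norm_mul, RCLike.norm_conj, pveg_norm_unit hu, mul_one]
  have b1 := Complex.abs_re_le_norm (e₂ * (starRingEnd ℂ) (I ^ pvxrA 𝔓 t))
  have b2 := Complex.abs_im_le_norm (e₂ * (starRingEnd ℂ) (I ^ pvxrA 𝔓 t))
  rw [hnorm] at b1 b2
  have key : (pvefC0 𝔓 m t - pvegYp 𝔓 m t) * (starRingEnd ℂ) (I ^ pvxrA 𝔓 t) = e₁ * (starRingEnd ℂ) (I ^ pvxrA 𝔓 t) + e₂ * (starRingEnd ℂ) (I ^ pvxrA 𝔓 t) + ((3 * pvegR 𝔓 m / 8 : ℝ) : ℂ) := by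
    rw [he, add_mul, add_mul, mul_assoc, pveg_unit_conj hu, mul_one]
  unfold pvegS pvegL
  rw [key]
  simp only [add_re, add_im, ofReal_re, ofReal_im, add_zero]
  rw [abs_le] at a1 a2 b1 b2 ⊢
  refine ⟨by linarith [a1.1, b1.1], by linarith [a1.2, b1.2], by linarith [a2.1, b2.1], by linarith [a2.2, b2.2]⟩

/-- the funnel lies in the inner mouth `closedBall (h y⁺) (ρ h / 2)` -/
theorem pvef_F_ball {m : ℕ} {t : τ} (h : PvefNdg 𝔓 m t) : pvefF 𝔓 m t ⊆ closedBall (pvegYp 𝔓 m t) (pvegR 𝔓 m / 2) := by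
  rintro v ⟨h1, h2, h3⟩
  obtain ⟨f1, f2, f3⟩ := pvef_C0_frame h
  have hu := pvef_I_pow (pvxrA 𝔓 t)
  have hf := pvef_q217_fine h
  have hd := pvlm_Del_pos c m
  rw [mem_closedBall_iff_norm]
  have hs := pveg_sq hu (pvegYp 𝔓 m t) v
  rw [abs_le] at h3 f3
  have hR : 0 < pvegR 𝔓 m := by linarith
  refine abs_le_of_sq_le_sq' ?_ (by linarith) |>.2
  rw [hs]
  have s1 : 0 ≤ pvegS (pvegYp 𝔓 m t) (I ^ pvxrA 𝔓 t) v := by linarith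
  have s2 : pvegS (pvegYp 𝔓 m t) (I ^ pvxrA 𝔓 t) v ≤ 418 / 1024 * pvegR 𝔓 m := by linarith
  have l1 : |pvegL (pvegYp 𝔓 m t) (I ^ pvxrA 𝔓 t) v| ≤ 240 / 1024 * pvegR 𝔓 m := by
    rw [abs_le]; constructor <;> linarith [h3.1, h3.2, f3.1, f3.2]
  have q1 : pvegS (pvegYp 𝔓 m t) (I ^ pvxrA 𝔓 t) v ^ 2 ≤ (418 / 1024 * pvegR 𝔓 m) ^ 2 := pow_le_pow_left₀ s1 s2 2
  have q2 : pvegL (pvegYp 𝔓 m t) (I ^ pvxrA 𝔓 t) v ^ 2 ≤ (240 / 1024 * pvegR 𝔓 m) ^ 2 := by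
    rw [← sq_abs]; exact pow_le_pow_left₀ (abs_nonneg _) l1 2
  nlinarith [sq_nonneg (pvegR 𝔓 m)]

/-- the funnel is off the own-level box with its collar -/
theorem pvef_F_box {m : ℕ} {t : τ} (h : PvefNdg 𝔓 m t) : Disjoint (pvefF 𝔓 m t) (pviwBox 𝔓 m t) := by
  rw [Set.disjoint_left]
  rintro v ⟨h1, -, -⟩ hb
  have hu := pvef_I_pow (pvxrA 𝔓 t)
  have hd := pvlm_Del_pos c m
  have hH := pvlm_H_pos m
  have h2 := pveg_sq_zero hu hb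
  rw [pveg_S_zero (pvegYp 𝔓 m t)] at h2
  have h3 : (pvegYp 𝔓 m t * (starRingEnd ℂ) (I ^ pvxrA 𝔓 t)).re = pvlmH m * pvccN (𝔓.ty t).yp := by
    have := pvxr_side_dom (𝔓.ty t).yp
    unfold pvegYp
    rw [mul_assoc, Complex.re_ofReal_mul]
    congr 1
  rw [h3] at h2
  have h4 := (abs_le.1 h.nd_p).1
  unfold pviwRad pvwRad at h2
  unfold pvegR at h1
  nlinarith

/-- **(F6) the cap of depth `3 Δ` behind the first door lies in the funnel** -/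
theorem pvef_cap {m : ℕ} {t : τ} (h : PvefNdg 𝔓 m t) : pvccPl (pvefZ 𝔓 m t) (pvefD 𝔓 m t) (pvljRect (-3) 0 (-(1 / 2)) (1 / 2)) ⊆ pvefF 𝔓 m t := by
  rintro _ ⟨w, ⟨w1, w2, w3, w4⟩, rfl⟩
  obtain ⟨f1, f2, f3⟩ := pvef_C0_frame h
  obtain ⟨d1, d2, d3⟩ := pvef_Dl_bounds h
  obtain ⟨p1, p2⟩ := pvef_q217_pt (𝔓 := 𝔓) m t w
  have hf := pvef_q217_fine h
  have hd := pvlm_Del_pos c m
  have hΔ := pveh_Dl_pos (pvef_n0 h)
  refine ⟨?_, ?_, ?_⟩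
  · show _ ≤ pvegS _ _ (pvefZ 𝔓 m t + pvefD 𝔓 m t * w)
    rw [p1]
    nlinarith
  · show pvegS _ _ (pvefZ 𝔓 m t + pvefD 𝔓 m t * w) ≤ _
    rw [p1]
    nlinarith
  · show |pvegL _ _ (pvefZ 𝔓 m t + pvefD 𝔓 m t * w) - _| ≤ _
    rw [p2, add_sub_cancel_left, abs_le]
    constructor <;> nlinarith

/-- **(F6) its half `[-3, -3/2]` lies in the mouth** -/
theorem pvef_cap_mouth {m : ℕ} {t : τ} (h : PvefNdg 𝔓 m t) : pvccPl (pvefZ 𝔓 m t) (pvefD 𝔓 m t) (pvljRect (-3) (-(3 / 2)) (-(1 / 2)) (1 / 2)) ⊆ pvegOM 𝔓 m t := by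
  rintro _ ⟨w, ⟨w1, w2, w3, w4⟩, rfl⟩
  obtain ⟨f1, f2, f3⟩ := pvef_C0_frame h
  obtain ⟨d1, d2, d3⟩ := pvef_Dl_bounds h
  obtain ⟨p1, p2⟩ := pvef_q217_pt (𝔓 := 𝔓) m t w
  have hu := pvef_I_pow (pvxrA 𝔓 t)
  have hf := pvef_q217_fine h
  have hd := pvlm_Del_pos c m
  have hΔ := pveh_Dl_pos (pvef_n0 h)
  have hR : 0 < pvegR 𝔓 m := by linarith
  show pvefZ 𝔓 m t + pvefD 𝔓 m t * w ∈ closedBall _ _
  rw [mem_closedBall_iff_norm]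
  have hs := pveg_sq hu (pvegYp 𝔓 m t) (pvefZ 𝔓 m t + pvefD 𝔓 m t * w)
  rw [abs_le] at f3
  refine abs_le_of_sq_le_sq' ?_ (by linarith) |>.2
  rw [hs, p1, p2]
  have s1 : 0 ≤ pvegS (pvegYp 𝔓 m t) (I ^ pvxrA 𝔓 t) (pvefC0 𝔓 m t) + pvehDl 𝔓 m * (w.re - 1 / 2) := by nlinarith
  have s2 : pvegS (pvegYp 𝔓 m t) (I ^ pvxrA 𝔓 t) (pvefC0 𝔓 m t) + pvehDl 𝔓 m * (w.re - 1 / 2) ≤ 9 / 32 * pvegR 𝔓 m := by nlinarith
  have l1 : |pvegL (pvegYp 𝔓 m t) (I ^ pvxrA 𝔓 t) (pvefC0 𝔓 m t) + pvehDl 𝔓 m * w.im| ≤ 68 / 1024 * pvegR 𝔓 m := by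
    rw [abs_le]; constructor <;> nlinarith [f3.1, f3.2]
  have q1 := pow_le_pow_left₀ s1 s2 2
  have q2 : (pvegL (pvegYp 𝔓 m t) (I ^ pvxrA 𝔓 t) (pvefC0 𝔓 m t) + pvehDl 𝔓 m * w.im) ^ 2 ≤ (68 / 1024 * pvegR 𝔓 m) ^ 2 := by
    rw [← sq_abs]; exact pow_le_pow_left₀ (abs_nonneg _) l1 2
  nlinarith [sq_nonneg (pvegR 𝔓 m)]

/-- **(F6) the cap of depth `2 Δ / 5` beyond the last door lies in the west half of the block of the plug** -/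
theorem pvef_cap_west {m : ℕ} {t : τ} (h : PvefNdg 𝔓 m t) :
    pvccPl (pvccZ (pvefZ 𝔓 m t) (pvefD 𝔓 m t) (pvefW 𝔓 m t) (pvefW 𝔓 m t).length) (pvccD (pvefD 𝔓 m t) (pvefW 𝔓 m t) (pvefW 𝔓 m t).length) (pvljRect 0 (2 / 5) (-(1 / 2)) (1 / 2)) ⊆
      pvefWest (pvehDl 𝔓 m) ((pvxrGam 𝔓 m).zu t) := by
  rw [pvef_last_door h, pvef_last_dir h]
  rintro _ ⟨w, ⟨w1, w2, w3, w4⟩, rfl⟩
  have hΔ := pveh_Dl_pos (pvef_n0 h)
  have e1 : ((pvxrGam 𝔓 m).zu t - (pvehDl 𝔓 m : ℂ) / 2 + (pvehDl 𝔓 m : ℂ) * w).re = ((pvxrGam 𝔓 m).zu t).re - pvehDl 𝔓 m / 2 + pvehDl 𝔓 m * w.re := by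
    simp [Complex.re_ofReal_mul]
  have e2 : ((pvxrGam 𝔓 m).zu t - (pvehDl 𝔓 m : ℂ) / 2 + (pvehDl 𝔓 m : ℂ) * w).im = ((pvxrGam 𝔓 m).zu t).im + pvehDl 𝔓 m * w.im := by
    simp [Complex.im_ofReal_mul]
  refine ⟨?_, ?_⟩
  · rw [pveh_mem_sq]
    show (_ ≤ ((pvxrGam 𝔓 m).zu t - (pvehDl 𝔓 m : ℂ) / 2 + (pvehDl 𝔓 m : ℂ) * w).re ∧ ((pvxrGam 𝔓 m).zu t - (pvehDl 𝔓 m : ℂ) / 2 + (pvehDl 𝔓 m : ℂ) * w).re ≤ _) ∧
      (_ ≤ ((pvxrGam 𝔓 m).zu t - (pvehDl 𝔓 m : ℂ) / 2 + (pvehDl 𝔓 m : ℂ) * w).im ∧ ((pvxrGam 𝔓 m).zu t - (pvehDl 𝔓 m : ℂ) / 2 + (pvehDl 𝔓 m : ℂ) * w).im ≤ _)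
    rw [e1, e2]
    refine ⟨⟨by nlinarith, by nlinarith⟩, by nlinarith, by nlinarith⟩
  · show ((pvxrGam 𝔓 m).zu t - (pvehDl 𝔓 m : ℂ) / 2 + (pvehDl 𝔓 m : ℂ) * w).re < _
    rw [e1]
    nlinarith

/-- **(F6) a lane lies in the window of the thick return** -/
theorem pvef_Ln_sub {m : ℕ} {t : τ} (h : PvefNdg 𝔓 m t) {a' b' : ℝ} (ha : -(1 / 2) ≤ a') (hb : b' ≤ 1 / 2) :
    pvefLn 𝔓 a' b' m t ⊆ pvegOM 𝔓 m t ∪ pveffK 𝔓 m t ∪ pvieSh ((pvxrGam 𝔓 m).zu t) (pvehrO 𝔓 m) := by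
  have hn := pvef_n0 h
  have hΔ := pveh_Dl_pos (𝔓 := 𝔓) hn
  rw [pveh_sh_rO]
  have key : ∀ w, w ∈ pvefBody (pvehDl 𝔓 m) ((pvxrGam 𝔓 m).zu t) (pvefZ 𝔓 m t) (pvefD 𝔓 m t) (pvefW 𝔓 m t) (pvefF 𝔓 m t) →
      w ∈ pvegOM 𝔓 m t ∪ pveffK 𝔓 m t ∪ pvccSq ((pvxrGam 𝔓 m).zu t) (pvehDl 𝔓 m / 4) := by
    intro w hw
    by_cases h1 : w ∈ pvccSq ((pvxrGam 𝔓 m).zu t) (pvehDl 𝔓 m / 4)
    · exact Or.inr h1
    by_cases h2 : w ∈ pvegOM 𝔓 m t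
    · exact Or.inl (Or.inl h2)
    exact Or.inl (Or.inr ⟨hw, fun h => h.elim h1 h2⟩)
  rintro w ((hw | hw) | hw)
  · exact key w (Or.inl (Or.inl (pvef_cap h (pvccPl_mono _ _ (pvlj_rect_mono le_rfl le_rfl ha hb) hw))))
  · unfold pvfeLanes at hw
    simp only [mem_iUnion, exists_prop] at hw
    obtain ⟨j, hj, hw⟩ := hw
    refine key w (Or.inl (Or.inr ?_))
    unfold pvefBlocks
    simp only [mem_iUnion, exists_prop]
    exact ⟨j, hj, pvef_lane_sub hΔ _ (pvef_I_pow _) _ j ha hb hw⟩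
  · exact key w (Or.inr (pvef_cap_west h (pvccPl_mono _ _ (pvlj_rect_mono le_rfl le_rfl ha hb) hw)))

/-- **(F6) THE CORE OF A LANE IS JOINED DOOR TO DOOR** (J1 of 221): the line of offset `u` from the depth `t₀ ∈ [-3 + s, 0]` behind the first door (in the mouth for `t₀ ≤ -3/2 - s`) to the depth `t₁ ∈ [0, 2/5 - s]` beyond the west door of `u` -/
theorem pvef_through {m : ℕ} {t : τ} (h : PvefNdg 𝔓 m t) {a' b' s u t₀ t₁ : ℝ} (ha : -(1 / 2) ≤ a') (hb : b' ≤ 1 / 2) (h1 : a' + s ≤ u) (h2 : u + s ≤ b') (hs0 : 0 ≤ s) (hs : s ≤ 1 / 2)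
    (ht₀ : -3 + s ≤ t₀) (ht₀' : t₀ ≤ 0) (ht₁ : t₁ + s ≤ 2 / 5) (ht₁' : 0 ≤ t₁) :
    JoinedIn (pvljCore (s * pvehDl 𝔓 m) (pvefLn 𝔓 a' b' m t)) (pvljPt (pvefZ 𝔓 m t) (pvefD 𝔓 m t) (pvefW 𝔓 m t) 0 t₀ u) (pvljPt (pvefZ 𝔓 m t) (pvefD 𝔓 m t) (pvefW 𝔓 m t) (pvefW 𝔓 m t).length t₁ u) := by
  have hn := pvef_n0 h
  have e : ‖pvefD 𝔓 m t‖ = pvehDl 𝔓 m := by
    rw [pvefD, norm_mul, norm_pow, norm_I, one_pow, mul_one, Complex.norm_real, Real.norm_eq_abs, abs_of_pos (pveh_Dl_pos hn)]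
  rw [← e]
  exact pvlj_lanes_through ha hb h1 h2 hs _ (pvef_D_ne hn t) (pvef_W_pos h) (subset_union_right.trans subset_union_left) (subset_union_left.trans subset_union_left) subset_union_right ht₀ ht₀' ht₁ ht₁' hs0

/-! ### (F3) = (R1) (R2) of the board of 7: disjointness, off the box -/

theorem pvef_fK_fM (m : ℕ) (t : τ) : Disjoint (pveffK 𝔓 m t) (pvegOM 𝔓 m t) := pvef_FK_M _ _ _ _ _ _ _

theorem pvef_fK_rO (m : ℕ) (t : τ) : Disjoint (pveffK 𝔓 m t) (pvieSh ((pvxrGam 𝔓 m).zu t) (pvehrO 𝔓 m)) := by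
  rw [pveh_sh_rO]
  exact pvef_FK_O _ _ _ _ _ _ _

/-- `1024 δ ≤ ρ h` -/
theorem pvef_fine {m : ℕ} {t : τ} (h : PvefNdg 𝔓 m t) : 1024 * pvlmDel c m ≤ pvegR 𝔓 m := by
  have hd := pvlm_Del_pos c m
  have := mul_le_mul_of_nonneg_right h.fine hd.le
  unfold pvegR
  rw [← pvlm_N_mul_Del c m]
  linarith

/-- the two tip cells are `7 ρ h / 4` apart -/
theorem pvef_YY_far {m : ℕ} {t : τ} (h : PvefNdg 𝔓 m t) : 7 * pvegR 𝔓 m / 4 ≤ ‖pvegYp 𝔓 m t - pvegYm 𝔓 m t‖ := by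
  unfold pvegYp pvegYm pvegR
  rw [← mul_sub, norm_mul, Complex.norm_real, Real.norm_eq_abs, abs_of_pos (pvlm_H_pos m)]
  nlinarith [h.far, pvlm_H_pos m]

/-- the centre of the base cell `e⁻` is at distance `≤ 3 ρ h / 8 + δ` of the centre of the entrance tip cell -/
theorem pvef_em_near {m : ℕ} {t : τ} (h : PvefNdg 𝔓 m t) : ‖pvtCtr (pvlmDel c m) (pvxrEm 𝔓 m t) - pvegYm 𝔓 m t‖ ≤ 3 * pvegR 𝔓 m / 8 + pvlmDel c m := by
  have h1 := pvxr_cell_near (pvlm_Del_pos c m) (pvlmN c m) (pvxrYm 𝔓 t + pvxrKap 𝔓 * I ^ pvxrB 𝔓 t)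
  rw [pvlm_N_mul_Del] at h1
  have h2 : ‖(pvlmH m : ℂ) * (pvxrYm 𝔓 t + pvxrKap 𝔓 * I ^ pvxrB 𝔓 t) - pvegYm 𝔓 m t‖ = 3 * pvegR 𝔓 m / 8 := by
    have e : (pvlmH m : ℂ) * (pvxrYm 𝔓 t + pvxrKap 𝔓 * I ^ pvxrB 𝔓 t) - pvegYm 𝔓 m t = ((pvlmH m * pvxrKap 𝔓 : ℝ) : ℂ) * I ^ pvxrB 𝔓 t := by
      unfold pvegYm pvxrYm
      push_cast
      ring
    rw [e, norm_mul, norm_pow, Complex.norm_I, one_pow, mul_one, Complex.norm_real, Real.norm_eq_abs, abs_of_nonneg]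
    · unfold pvxrKap pvegR; ring
    · have := pvlm_H_pos m
      have := h.rho0
      unfold pvxrKap
      positivity
  have h3 := norm_add_le (pvtCtr (pvlmDel c m) (pvxrEm 𝔓 m t) - (pvlmH m : ℂ) * (pvxrYm 𝔓 t + pvxrKap 𝔓 * I ^ pvxrB 𝔓 t)) ((pvlmH m : ℂ) * (pvxrYm 𝔓 t + pvxrKap 𝔓 * I ^ pvxrB 𝔓 t) - pvegYm 𝔓 m t)
  rw [sub_add_sub_cancel] at h3
  have h1' : ‖pvtCtr (pvlmDel c m) (pvxrEm 𝔓 m t) - (pvlmH m : ℂ) * (pvxrYm 𝔓 t + pvxrKap 𝔓 * I ^ pvxrB 𝔓 t)‖ ≤ pvlmDel c m := h1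
  linarith

/-- the centre of the plug relative to the centre of the base cell `e⁻` -/
theorem pvef_zu_rel {m : ℕ} {t : τ} (h : PvefNdg 𝔓 m t) :
    (pvxrGam 𝔓 m).zu t = pvtCtr (pvlmDel c m) (pvxrEm 𝔓 m t) + (pvehDl 𝔓 m : ℂ) * pvtZ (pvxrUo (pvxrB 𝔓 t) 1) := by
  rw [pvxr_zu h.ndg, pveh_Uo_smul, pveh_ctr_add, pvehDl]
  push_cast
  rfl

/-- a closed cell off the box in cells is off the own-level box with its collar -/
theorem pvef_cell_box {m : ℕ} {t : τ} (h : PvefNdg 𝔓 m t) {q : ℤ × ℤ} (hq : pvxrBx 𝔓 m t < |q.1| ∨ pvxrBx 𝔓 m t < |q.2|) {w : ℂ} (hw : w ∈ pvtSq (pvlmDel c m) q) : w ∉ pviwBox 𝔓 m t := by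
  have hδ := pvlm_Del_pos c m
  have hf := pvef_fine h
  have hB : (pvlmN c m : ℝ) * (2 * (𝔓.ty t).b2 + (𝔓.ty t).k * 𝔓.num.rho1 + 𝔓.num.rho / 10) ≤ (pvxrBx 𝔓 m t : ℝ) := Int.le_ceil _
  have hB' : pviwRad 𝔓 m t + pvegR 𝔓 m / 10 ≤ (pvxrBx 𝔓 m t : ℝ) * pvlmDel c m := by
    have := mul_le_mul_of_nonneg_right hB hδ.le
    unfold pviwRad pvwRad pvegR
    rw [← pvlm_N_mul_Del c m]
    nlinarith
  obtain ⟨a1, a2, a3, a4⟩ := hw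
  rintro ⟨b1, b2⟩
  rw [sub_zero, abs_le] at b1 b2
  have key : ∀ (k : ℤ) (x : ℝ), pvxrBx 𝔓 m t < |k| → (k : ℝ) * pvlmDel c m ≤ x → x ≤ ((k : ℝ) + 1) * pvlmDel c m → -(pviwRad 𝔓 m t + pvlmDel c m) ≤ x → x ≤ pviwRad 𝔓 m t + pvlmDel c m → False := by
    intro k x hk h1 h2 h3 h4
    rcases lt_abs.1 hk with hk | hk
    · have : (pvxrBx 𝔓 m t : ℝ) + 1 ≤ (k : ℝ) := by exact_mod_cast hk
      nlinarith
    · have : (k : ℝ) + 1 ≤ -(pvxrBx 𝔓 m t : ℝ) := by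
        have : k + 1 ≤ -pvxrBx 𝔓 m t := by omega
        exact_mod_cast this
      nlinarith
  rcases hq with hq | hq
  · exact key _ _ hq a1 a2 b1.1 b1.2
  · exact key _ _ hq a3 a4 b2.1 b2.2

/-- the closed block number `j ≤ length` of `f` is off the own-level box with its collar -/
theorem pvef_block_box {m : ℕ} {t : τ} (h : PvefNdg 𝔓 m t) {j : ℕ} (hj : j ≤ (pvefW 𝔓 m t).length) {w : ℂ}
    (hw : w ∈ pvefBl (pvehDl 𝔓 m) (pvefZ 𝔓 m t) (pvefD 𝔓 m t) (pvefW 𝔓 m t) j) : w ∉ pviwBox 𝔓 m t := by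
  have hn := pvef_n0 h
  have hok := pvef_ok_of_ndg h
  unfold pvefBl at hw
  rw [pvef_W_C] at hw
  have e : pvehDl 𝔓 m / 2 = (2 * (pvxrNw 𝔓 m : ℝ) + 1) * pvlmDel c m / 2 := rfl
  rw [e, pvef_block_cells (pvlm_Del_pos c m) hn] at hw
  unfold pvtU at hw
  simp only [mem_iUnion, exists_prop] at hw
  obtain ⟨q, hq, hwq⟩ := hw
  exact pvef_cell_box h (pvef_block_off hn _ (pvef_path_box hok _ (pvef_V_mem hok hj)).1 hq) hwq

/-- **(F3)** the blocks of `f` and the west half of the block of the plug are off the own-level box with its collar -/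
theorem pvef_blocks_box {m : ℕ} {t : τ} (h : PvefNdg 𝔓 m t) :
    Disjoint (pvefBlocks (pvehDl 𝔓 m) (pvefZ 𝔓 m t) (pvefD 𝔓 m t) (pvefW 𝔓 m t) ∪ pvefWest (pvehDl 𝔓 m) ((pvxrGam 𝔓 m).zu t)) (pviwBox 𝔓 m t) := by
  rw [Set.disjoint_left]
  rintro w (hw | hw)
  · unfold pvefBlocks at hw
    simp only [mem_iUnion, exists_prop, Finset.mem_range] at hw
    obtain ⟨j, hj, hw⟩ := hw
    exact pvef_block_box h hj.le hw
  · refine pvef_block_box h le_rfl (j := (pvefW 𝔓 m t).length) ?_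
    unfold pvefBl
    have h2 : pvefV (pvxrM 𝔓 m t) (pvxrA 𝔓 t) (pvxrB 𝔓 t) (pvxrEp 𝔓 m t) (pvxrEm 𝔓 m t) (pvxrNw 𝔓 m) (pvefW 𝔓 m t).length = pvefU (pvxrB 𝔓 t) (pvxrEm 𝔓 m t) (pvxrNw 𝔓 m) :=
      pvef_V_last (pvef_ok_of_ndg h)
    rw [pvef_W_C, h2, ← pvef_zu h]
    exact hw.1

/-- **(F3) `fK` is off the own-level box with its collar** -/
theorem pvef_fK_box {m : ℕ} {t : τ} (h : PvefNdg 𝔓 m t) : Disjoint (pveffK 𝔓 m t) (pviwBox 𝔓 m t) := by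
  rw [Set.disjoint_left]
  rintro w ⟨(hw | hw) | hw, -⟩ hb
  · exact Set.disjoint_left.1 (pvef_F_box h) hw hb
  · exact Set.disjoint_left.1 (pvef_blocks_box h) (Or.inl hw) hb
  · exact Set.disjoint_left.1 (pvef_blocks_box h) (Or.inr hw) hb

/-- **(F3) (F7) blocks against blocks**: the body of `f` without the funnel is `Δ / 2` away (sup norm) from the body of `e`, but for the west half of the block of the plug, which lies west of the body of `e` -/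
theorem pvef_blocks_e {m : ℕ} {t : τ} (h : PvefNdg 𝔓 m t) {w v : ℂ} (hw : w ∈ pvefBlocks (pvehDl 𝔓 m) (pvefZ 𝔓 m t) (pvefD 𝔓 m t) (pvefW 𝔓 m t) ∪ pvefWest (pvehDl 𝔓 m) ((pvxrGam 𝔓 m).zu t))
    (hv : v ∈ pvehBody (pvehDl 𝔓 m) ((pvxrGam 𝔓 m).zu t) (pvxrLe (pvxrB 𝔓 t))) : pvehDl 𝔓 m / 2 ≤ pvccN (w - v) ∨ (w ∈ pvefWest (pvehDl 𝔓 m) ((pvxrGam 𝔓 m).zu t) ∧ ((pvxrGam 𝔓 m).zu t).re ≤ v.re) := by
  have hn := pvef_n0 h
  have hok := pvef_ok_of_ndg h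
  have hδ := pvlm_Del_pos c m
  have hΔ := pveh_Dl_pos hn
  have eΔ : pvehDl 𝔓 m = (2 * (pvxrNw 𝔓 m : ℝ) + 1) * pvlmDel c m := rfl
  set U := pvefU (pvxrB 𝔓 t) (pvxrEm 𝔓 m t) (pvxrNw 𝔓 m) with hU
  have hzu : (pvxrGam 𝔓 m).zu t = pvefCtr (pvlmDel c m) (pvxrNw 𝔓 m) (pvxrEm 𝔓 m t) U := pvef_zu h
  -- the blocks of `e` as blocks of the grid
  have hBe : ∀ k, pvehB (pvehDl 𝔓 m) ((pvxrGam 𝔓 m).zu t) (pvxrLe (pvxrB 𝔓 t)) k =
      pvehSq (pvefCtr (pvlmDel c m) (pvxrNw 𝔓 m) (pvxrEm 𝔓 m t) (U + pvehV (pvxrLe (pvxrB 𝔓 t)) k)) ((2 * (pvxrNw 𝔓 m : ℝ) + 1) * pvlmDel c m / 2) := by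
    intro k
    unfold pvehB
    rw [pveh_C_eq, pvef_ctr_add, ← hzu]
    rfl
  -- far blocks
  have far : ∀ {x y : ℤ × ℤ} {w v : ℂ}, (2 ≤ |x.1 - y.1| ∨ 2 ≤ |x.2 - y.2|) →
      w ∈ pvehSq (pvefCtr (pvlmDel c m) (pvxrNw 𝔓 m) (pvxrEm 𝔓 m t) x) ((2 * (pvxrNw 𝔓 m : ℝ) + 1) * pvlmDel c m / 2) →
      v ∈ pvehSq (pvefCtr (pvlmDel c m) (pvxrNw 𝔓 m) (pvxrEm 𝔓 m t) y) ((2 * (pvxrNw 𝔓 m : ℝ) + 1) * pvlmDel c m / 2) → pvehDl 𝔓 m / 2 ≤ pvccN (w - v) := by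
    intro x y w v hxy hw hv
    have := pvef_sq_far hδ hn (pvxrEm 𝔓 m t) (k := 1) (by simpa using hxy) hw hv
    rw [← eΔ] at this
    push_cast at this
    linarith
  rcases hw with hw | hw
  · unfold pvefBlocks at hw
    simp only [mem_iUnion, exists_prop, Finset.mem_range] at hw
    obtain ⟨j, hj, hw⟩ := hw
    unfold pvefBl at hw
    rw [pvef_W_C] at hw
    left
    rcases hv with hv | hv
    · rcases pvef_V_u hok hj with h2 | h2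
      · refine far h2 hw ?_
        rw [← hzu]
        exact hv.1
      · rw [h2, sub_eq_add_neg, pvef_ctr_add, ← hU, ← hzu, pveh_mem_sq] at hw
        have e1 : ((pvxrGam 𝔓 m).zu t + (((2 * (pvxrNw 𝔓 m : ℝ) + 1) * pvlmDel c m : ℝ) : ℂ) * pvtZ (-(1, 0))).re = ((pvxrGam 𝔓 m).zu t).re - pvehDl 𝔓 m := by
          simp [pvtZ, pvehDl]; ring
        rw [e1] at hw
        have h3 := hw.1.2
        have h4 := hv.2
        unfold pvccN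
        refine le_max_of_le_left ?_
        rw [sub_re]
        refine le_trans ?_ (neg_le_abs _)
        linarith
    · simp only [mem_iUnion, exists_prop, Finset.mem_range] at hv
      obtain ⟨k, hk, hv⟩ := hv
      rw [hBe] at hv
      rcases pvef_V_e hok hj hk with h2 | h2
      · refine far ?_ hw hv
        rcases h2 with h2 | h2
        · left; rw [← hU] at h2; omega
        · right; rw [← hU] at h2; omega
      · rw [h2] at hw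
        refine far ?_ hw hv
        rcases pvef_e_east (pvxrB 𝔓 t) hk with h3 | h3
        · left
          have : (U - (1, 0) : ℤ × ℤ).1 - (U + pvehV (pvxrLe (pvxrB 𝔓 t)) k).1 = -(1 + (pvehV (pvxrLe (pvxrB 𝔓 t)) k).1) := by
            simp only [Prod.fst_sub, Prod.fst_add]; ring
          rw [this, abs_neg]
          exact le_trans (by omega) (le_abs_self _)
        · right
          have : (U - (1, 0) : ℤ × ℤ).2 - (U + pvehV (pvxrLe (pvxrB 𝔓 t)) k).2 = -(pvehV (pvxrLe (pvxrB 𝔓 t)) k).2 := by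
            simp only [Prod.snd_sub, Prod.snd_add]; ring
          rw [this, abs_neg]
          omega
  · rcases hv with hv | hv
    · exact Or.inr ⟨hw, hv.2⟩
    · simp only [mem_iUnion, exists_prop, Finset.mem_range] at hv
      obtain ⟨k, hk, hv⟩ := hv
      rw [hBe] at hv
      rcases pvef_e_east (pvxrB 𝔓 t) hk with h3 | h3
      · right
        refine ⟨hw, ?_⟩
        rw [pvef_ctr_add, ← hzu, pveh_mem_sq] at hv
        have e1 : ((pvxrGam 𝔓 m).zu t + (((2 * (pvxrNw 𝔓 m : ℝ) + 1) * pvlmDel c m : ℝ) : ℂ) * pvtZ (pvehV (pvxrLe (pvxrB 𝔓 t)) k)).re =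
            ((pvxrGam 𝔓 m).zu t).re + pvehDl 𝔓 m * ((pvehV (pvxrLe (pvxrB 𝔓 t)) k).1 : ℝ) := by
          simp [pvtZ, pvehDl]
        rw [e1] at hv
        have h4 := hv.1.1
        have h5 : (1 : ℝ) ≤ ((pvehV (pvxrLe (pvxrB 𝔓 t)) k).1 : ℝ) := by exact_mod_cast h3
        have h6 := mul_le_mul_of_nonneg_left h5 hΔ.le
        rw [← eΔ] at h4
        linarith
      · left
        refine far (x := U) ?_ (by rw [← hzu]; exact hw.1) hv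
        right
        have : (U : ℤ × ℤ).2 - (U + pvehV (pvxrLe (pvxrB 𝔓 t)) k).2 = -(pvehV (pvxrLe (pvxrB 𝔓 t)) k).2 := by
          simp only [Prod.snd_add]; ring
        rw [this, abs_neg]
        omega

/-- the body of `e` and the block of the plug are far from the exit tip cell      [`pveh_body_near`, `far`; = (E5) of 124] -/
theorem pvef_e_far {m : ℕ} {t : τ} (h : PvefNdg 𝔓 m t) {v : ℂ}
    (hv : v ∈ pvehSq ((pvxrGam 𝔓 m).zu t) (pvehDl 𝔓 m / 2) ∪ pvehBody (pvehDl 𝔓 m) ((pvxrGam 𝔓 m).zu t) (pvxrLe (pvxrB 𝔓 t))) : pvegR 𝔓 m / 2 + pvehDl 𝔓 m / 4 ≤ ‖v - pvegYp 𝔓 m t‖ := by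
  have hΔ := pveh_Dl_pos (pvef_n0 h)
  have hδ := pvlm_Del_pos c m
  rw [pvef_zu_rel h] at hv
  have h2 := pveh_body_near hΔ _ _ hv
  have h3 := pvef_em_near h
  obtain ⟨-, h4, -⟩ := pvef_Dl_bounds h
  have h5 := pvef_YY_far h
  have h6 := pvef_fine h
  have h7 : ‖pvegYp 𝔓 m t - pvegYm 𝔓 m t‖ ≤ ‖v - pvegYp 𝔓 m t‖ + ‖v - pvtCtr (pvlmDel c m) (pvxrEm 𝔓 m t)‖ + ‖pvtCtr (pvlmDel c m) (pvxrEm 𝔓 m t) - pvegYm 𝔓 m t‖ := by
    have a1 := norm_add_le (pvegYp 𝔓 m t - v) (v - pvegYm 𝔓 m t)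
    have a2 := norm_add_le (v - pvtCtr (pvlmDel c m) (pvxrEm 𝔓 m t)) (pvtCtr (pvlmDel c m) (pvxrEm 𝔓 m t) - pvegYm 𝔓 m t)
    rw [sub_add_sub_cancel] at a1 a2
    rw [norm_sub_rev (pvegYp 𝔓 m t) v] at a1
    linarith
  linarith

/-- **(F3) `fK`, `eK` (blocks of 166) are disjoint** -/
theorem pvef_fK_eK {m : ℕ} {t : τ} (h : PvefNdg 𝔓 m t) (Mo : ℕ → τ → Set ℂ) : Disjoint (pveffK 𝔓 m t) (pveheK 𝔓 Mo m t) := by
  have hΔ := pveh_Dl_pos (pvef_n0 h)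
  rw [Set.disjoint_left]
  rintro w ⟨hw, -⟩ ⟨hv, -⟩
  have key : w ∈ pvefBlocks (pvehDl 𝔓 m) (pvefZ 𝔓 m t) (pvefD 𝔓 m t) (pvefW 𝔓 m t) ∪ pvefWest (pvehDl 𝔓 m) ((pvxrGam 𝔓 m).zu t) → False := by
    intro hw
    rcases pvef_blocks_e h hw hv with h1 | ⟨h1, h2⟩
    · rw [sub_self] at h1
      simp only [pvccN, zero_re, zero_im, abs_zero, max_self] at h1
      linarith
    · linarith [h1.2]
  rcases hw with (hw | hw) | hw
  · have h1 := pvef_e_far h (Or.inr hv)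
    have h2 := pvef_F_ball h hw
    rw [mem_closedBall_iff_norm] at h2
    linarith
  · exact key (Or.inl hw)
  · exact key (Or.inr hw)

theorem pvef_x_dot {b : ℕ} (hb : b < 4) (v : ℤ × ℤ) :
    (pvtZ v * (starRingEnd ℂ) (I ^ b)).re = ((pvxrDot v (pvxrE b) : ℤ) : ℝ) ∧ (pvtZ v * (starRingEnd ℂ) (I ^ b)).im = ((pvxrDot v (pvxrE (b + 1)) : ℤ) : ℝ) := by
  have e2 : (I : ℂ) ^ 2 = -1 := I_sq
  have e3 : (I : ℂ) ^ 3 = -I := I_pow_three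
  interval_cases b <;> simp [pvtZ, pvxrDot, pvxrE, e2, e3]

/-- the centre of the block `x` in a frame of direction `I ^ b` -/
theorem pvef_x_ctr (δ : ℝ) (n : ℤ) (em x : ℤ × ℤ) {b : ℕ} (hb : b < 4) (Y : ℂ) :
    pvegS Y (I ^ b) (pvefCtr δ n em x) = pvegS Y (I ^ b) (pvtCtr δ em) + (2 * (n : ℝ) + 1) * δ * ((pvxrDot x (pvxrE b) - pvxrDot (pvefEm n em) (pvxrE b) : ℤ) : ℝ) ∧
      pvegL Y (I ^ b) (pvefCtr δ n em x) = pvegL Y (I ^ b) (pvtCtr δ em) + (2 * (n : ℝ) + 1) * δ * ((pvxrDot x (pvxrE (b + 1)) - pvxrDot (pvefEm n em) (pvxrE (b + 1)) : ℤ) : ℝ) := by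
  have e : pvefCtr δ n em x = pvtCtr δ em + (((2 * (n : ℝ) + 1) * δ : ℝ) : ℂ) * pvtZ (x - pvefEm n em) := by
    have := pvef_ctr_add δ n em (pvefEm n em) (x - pvefEm n em)
    rw [add_sub_cancel] at this
    rw [this, pvefCtr, pvef_cc_em]
  obtain ⟨d1, d2⟩ := pvef_x_dot hb (x - pvefEm n em)
  have d3 : ∀ q : ℤ × ℤ, pvxrDot (x - pvefEm n em) q = pvxrDot x q - pvxrDot (pvefEm n em) q := by
    intro q
    simp only [pvxrDot, Prod.fst_sub, Prod.snd_sub]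
    ring
  have key : (pvefCtr δ n em x - Y) * (starRingEnd ℂ) (I ^ b) = (pvtCtr δ em - Y) * (starRingEnd ℂ) (I ^ b) + (((2 * (n : ℝ) + 1) * δ : ℝ) : ℂ) * (pvtZ (x - pvefEm n em) * (starRingEnd ℂ) (I ^ b)) := by
    rw [e]
    ring
  unfold pvegS pvegL
  rw [key, add_re, add_im, Complex.re_ofReal_mul, Complex.im_ofReal_mul, d1, d2, d3, d3]
  exact ⟨rfl, rfl⟩

/-- differences of the frame coordinates are bounded by the sup norm -/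
theorem pvef_x_SL {u : ℂ} (hu : u ^ 4 = 1) (Y w v : ℂ) : |pvegS Y u w - pvegS Y u v| ≤ pvccN (w - v) ∧ |pvegL Y u w - pvegL Y u v| ≤ pvccN (w - v) := by
  have e : (w - Y) * (starRingEnd ℂ) u - (v - Y) * (starRingEnd ℂ) u = (w - v) * (starRingEnd ℂ) u := by ring
  unfold pvegS pvegL
  rw [← sub_re, ← sub_im, e]
  exact ⟨pveg_re_le_N hu _, pveg_im_le_N hu _⟩

/-- the base cell of the entrance door and the entrance door in the frame of the entrance tip cell -/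
theorem pvef_x_em {m : ℕ} {t : τ} (h : PvefNdg 𝔓 m t) :
    |pvegS (pvegYm 𝔓 m t) (I ^ pvxrB 𝔓 t) (pvtCtr (pvlmDel c m) (pvxrEm 𝔓 m t)) - 3 * pvegR 𝔓 m / 8| ≤ pvlmDel c m ∧ |pvegL (pvegYm 𝔓 m t) (I ^ pvxrB 𝔓 t) (pvtCtr (pvlmDel c m) (pvxrEm 𝔓 m t))| ≤ pvlmDel c m ∧
      pvegS (pvegYm 𝔓 m t) (I ^ pvxrB 𝔓 t) ((pvxrGam 𝔓 m).pin t) = pvegS (pvegYm 𝔓 m t) (I ^ pvxrB 𝔓 t) (pvtCtr (pvlmDel c m) (pvxrEm 𝔓 m t)) - pvlmDel c m / 2 ∧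
      pvegL (pvegYm 𝔓 m t) (I ^ pvxrB 𝔓 t) ((pvxrGam 𝔓 m).pin t) = pvegL (pvegYm 𝔓 m t) (I ^ pvxrB 𝔓 t) (pvtCtr (pvlmDel c m) (pvxrEm 𝔓 m t)) := by
  have hd := pvlm_Del_pos c m
  have hu := pvef_I_pow (pvxrB 𝔓 t)
  set e₂ : ℂ := pvtCtr (pvlmDel c m) (pvxrEm 𝔓 m t) - (((pvlmN c m : ℝ) * pvlmDel c m : ℝ) : ℂ) * (pvxrYm 𝔓 t + pvxrKap 𝔓 * I ^ pvxrB 𝔓 t) with he₂
  have h2 : ‖e₂‖ ≤ pvlmDel c m := pvxr_cell_near hd _ _
  have he : pvtCtr (pvlmDel c m) (pvxrEm 𝔓 m t) - pvegYm 𝔓 m t = e₂ + ((3 * pvegR 𝔓 m / 8 : ℝ) : ℂ) * I ^ pvxrB 𝔓 t := by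
    rw [he₂, pvlm_N_mul_Del]
    unfold pvegYm pvegR pvxrYm pvxrKap
    push_cast
    ring
  have hp : (pvxrGam 𝔓 m).pin t - pvegYm 𝔓 m t = (pvtCtr (pvlmDel c m) (pvxrEm 𝔓 m t) - pvegYm 𝔓 m t) - ((pvlmDel c m / 2 : ℝ) : ℂ) * I ^ pvxrB 𝔓 t := by
    rw [pvxr_gam_pin, pvxrDoor, pvxr_ctr_eq]
    push_cast
    ring
  have hnorm : ‖e₂ * (starRingEnd ℂ) (I ^ pvxrB 𝔓 t)‖ = ‖e₂‖ := by
    rw [norm_mul, RCLike.norm_conj, pveg_norm_unit hu, mul_one]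
  have b1 := Complex.abs_re_le_norm (e₂ * (starRingEnd ℂ) (I ^ pvxrB 𝔓 t))
  have b2 := Complex.abs_im_le_norm (e₂ * (starRingEnd ℂ) (I ^ pvxrB 𝔓 t))
  rw [hnorm] at b1 b2
  have key : (pvtCtr (pvlmDel c m) (pvxrEm 𝔓 m t) - pvegYm 𝔓 m t) * (starRingEnd ℂ) (I ^ pvxrB 𝔓 t) = e₂ * (starRingEnd ℂ) (I ^ pvxrB 𝔓 t) + ((3 * pvegR 𝔓 m / 8 : ℝ) : ℂ) := by
    rw [he, add_mul, mul_assoc, pveg_unit_conj hu, mul_one]
  have key2 : ((pvxrGam 𝔓 m).pin t - pvegYm 𝔓 m t) * (starRingEnd ℂ) (I ^ pvxrB 𝔓 t) = (pvtCtr (pvlmDel c m) (pvxrEm 𝔓 m t) - pvegYm 𝔓 m t) * (starRingEnd ℂ) (I ^ pvxrB 𝔓 t) - ((pvlmDel c m / 2 : ℝ) : ℂ) := by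
    rw [hp, sub_mul, mul_assoc, pveg_unit_conj hu, mul_one]
  unfold pvegS pvegL
  rw [key2, key]
  simp only [add_re, add_im, sub_re, sub_im, ofReal_re, ofReal_im, add_zero, sub_zero, add_sub_cancel_right]
  exact ⟨b1.trans h2, b2.trans h2, trivial, trivial⟩

/-- **(F3) the entrance mouth and the entrance funnel**: the blocks of `f` and the block of the plug stay `Δ / 4` away from `iM ∪ iK` (`iK` at the doors of record) -/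
theorem pvef_blocks_i {m : ℕ} {t : τ} (h : PvefNdg 𝔓 m t) {w v : ℂ} (hw : w ∈ pvefBlocks (pvehDl 𝔓 m) (pvefZ 𝔓 m t) (pvefD 𝔓 m t) (pvefW 𝔓 m t) ∪ pvehSq ((pvxrGam 𝔓 m).zu t) (pvehDl 𝔓 m / 2))
    (hv : v ∈ pvegIM 𝔓 m t ∪ pvegRc (pvegYm 𝔓 m t) (I ^ pvxrB 𝔓 t) ((pvxrGam 𝔓 m).pin t) (pvegR 𝔓 m / 10) (pvlmDel c m) (pvegR 𝔓 m / 5)) : pvehDl 𝔓 m / 4 ≤ pvccN (w - v) := by
  have ok := pvef_ok_of_ndg h
  have hn := pvef_n0 h
  have hΔ := pveh_Dl_pos (𝔓 := 𝔓) hn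
  have hd := pvlm_Del_pos c m
  obtain ⟨d1, d2, d3⟩ := pvef_Dl_bounds h
  have hu := pvef_I_pow (pvxrB 𝔓 t)
  have b4 : pvxrB 𝔓 t < 4 := pvxr_side_lt _
  -- the block of `w`
  obtain ⟨j, hj, hwj⟩ : ∃ j, j ≤ (pvefW 𝔓 m t).length ∧
      w ∈ pvehSq (pvefCtr (pvlmDel c m) (pvxrNw 𝔓 m) (pvxrEm 𝔓 m t) (pvefV (pvxrM 𝔓 m t) (pvxrA 𝔓 t) (pvxrB 𝔓 t) (pvxrEp 𝔓 m t) (pvxrEm 𝔓 m t) (pvxrNw 𝔓 m) j)) (pvehDl 𝔓 m / 2) := by
    rcases hw with hw | hw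
    · unfold pvefBlocks at hw
      simp only [mem_iUnion, exists_prop, Finset.mem_range] at hw
      obtain ⟨j, hj, hw⟩ := hw
      refine ⟨j, hj.le, ?_⟩
      unfold pvefBl at hw
      rwa [pvef_W_C] at hw
    · refine ⟨(pvefW 𝔓 m t).length, le_rfl, ?_⟩
      have e : pvefV (pvxrM 𝔓 m t) (pvxrA 𝔓 t) (pvxrB 𝔓 t) (pvxrEp 𝔓 m t) (pvxrEm 𝔓 m t) (pvxrNw 𝔓 m) (pvefW 𝔓 m t).length = pvefU (pvxrB 𝔓 t) (pvxrEm 𝔓 m t) (pvxrNw 𝔓 m) :=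
        pvef_V_last ok
      rw [e, ← pvef_zu h]
      exact hw
  have hz := pvef_V_z ok hj
  set x := pvefV (pvxrM 𝔓 m t) (pvxrA 𝔓 t) (pvxrB 𝔓 t) (pvxrEp 𝔓 m t) (pvxrEm 𝔓 m t) (pvxrNw 𝔓 m) j with hx
  obtain ⟨c1, c2⟩ := pvef_x_ctr (pvlmDel c m) (pvxrNw 𝔓 m) (pvxrEm 𝔓 m t) x b4 (pvegYm 𝔓 m t)
  set s : ℤ := pvxrDot x (pvxrE (pvxrB 𝔓 t)) - pvxrDot (pvefEm (pvxrNw 𝔓 m) (pvxrEm 𝔓 m t)) (pvxrE (pvxrB 𝔓 t)) with hs
  set l : ℤ := pvxrDot x (pvxrE (pvxrB 𝔓 t + 1)) - pvxrDot (pvefEm (pvxrNw 𝔓 m) (pvxrEm 𝔓 m t)) (pvxrE (pvxrB 𝔓 t + 1)) with hl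
  have eΔ : (2 * (pvxrNw 𝔓 m : ℝ) + 1) * pvlmDel c m = pvehDl 𝔓 m := rfl
  rw [eΔ] at c1 c2
  obtain ⟨m1, m2, m3, m4⟩ := pvef_x_em h
  rw [abs_le] at m1 m2
  obtain ⟨w1, w2⟩ := pvef_x_SL hu (pvegYm 𝔓 m t) w (pvefCtr (pvlmDel c m) (pvxrNw 𝔓 m) (pvxrEm 𝔓 m t) x)
  have hwj' : pvccN (w - pvefCtr (pvlmDel c m) (pvxrNw 𝔓 m) (pvxrEm 𝔓 m t) x) ≤ pvehDl 𝔓 m / 2 := hwj
  have w1' := abs_le.1 (w1.trans hwj')
  have w2' := abs_le.1 (w2.trans hwj')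
  obtain ⟨g1, g2⟩ := pvef_x_SL hu (pvegYm 𝔓 m t) w v
  have g1' := abs_le.1 g1
  have g2' := abs_le.1 g2
  -- the point `v`
  have hv' : -(5 * pvegR 𝔓 m / 16) ≤ pvegS (pvegYm 𝔓 m t) (I ^ pvxrB 𝔓 t) v ∧
      (pvegS (pvegYm 𝔓 m t) (I ^ pvxrB 𝔓 t) v ≤ 5 * pvegR 𝔓 m / 16 ∨ pvegS (pvegYm 𝔓 m t) (I ^ pvxrB 𝔓 t) v ≤ pvegS (pvegYm 𝔓 m t) (I ^ pvxrB 𝔓 t) (pvtCtr (pvlmDel c m) (pvxrEm 𝔓 m t)) - 3 * pvlmDel c m / 4) ∧
      |pvegL (pvegYm 𝔓 m t) (I ^ pvxrB 𝔓 t) v| ≤ 5 * pvegR 𝔓 m / 16 := by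
    rcases hv with hv | ⟨v1, v2, v3⟩
    · have hv1 : ‖v - pvegYm 𝔓 m t‖ ≤ 5 * pvegR 𝔓 m / 16 := mem_closedBall_iff_norm.1 hv
      have hnorm : ‖(v - pvegYm 𝔓 m t) * (starRingEnd ℂ) (I ^ pvxrB 𝔓 t)‖ = ‖v - pvegYm 𝔓 m t‖ := by
        rw [norm_mul, RCLike.norm_conj, pveg_norm_unit hu, mul_one]
      have b1 := Complex.abs_re_le_norm ((v - pvegYm 𝔓 m t) * (starRingEnd ℂ) (I ^ pvxrB 𝔓 t))
      have b2 := Complex.abs_im_le_norm ((v - pvegYm 𝔓 m t) * (starRingEnd ℂ) (I ^ pvxrB 𝔓 t))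
      rw [hnorm] at b1 b2
      have b1' := abs_le.1 (b1.trans hv1)
      exact ⟨b1'.1, Or.inl b1'.2, b2.trans hv1⟩
    · rw [m3] at v2
      rw [m4, abs_le] at v3
      refine ⟨by linarith, Or.inr (by linarith), ?_⟩
      rw [abs_le]
      constructor <;> linarith [v3.1, v3.2, m2.1, m2.2]
  obtain ⟨v1, v2, v3⟩ := hv'
  rw [abs_le] at v3
  -- the four cases
  have hcase : 1 ≤ s ∨ s ≤ -13 ∨ 7 ≤ l ∨ l ≤ -7 := by
    by_contra hcon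
    push Not at hcon
    obtain ⟨k1, k2, k3, k4⟩ := hcon
    exact hz ⟨by omega, by omega, by rw [abs_le]; constructor <;> omega⟩
  rcases hcase with hc | hc | hc | hc
  · have hc' : (1 : ℝ) ≤ (s : ℝ) := by exact_mod_cast hc
    have := mul_le_mul_of_nonneg_left hc' hΔ.le
    rcases v2 with v2 | v2 <;> linarith [w1'.1, g1'.2, m1.1]
  · have hc' : (s : ℝ) ≤ -13 := by exact_mod_cast hc
    have := mul_le_mul_of_nonneg_left hc' hΔ.le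
    linarith [w1'.2, g1'.1, m1.2]
  · have hc' : (7 : ℝ) ≤ (l : ℝ) := by exact_mod_cast hc
    have := mul_le_mul_of_nonneg_left hc' hΔ.le
    linarith [w2'.1, g2'.2, m2.1, v3.2]
  · have hc' : (l : ℝ) ≤ -7 := by exact_mod_cast hc
    have := mul_le_mul_of_nonneg_left hc' hΔ.le
    linarith [w2'.2, g2'.1, m2.2, v3.1]

/-- the entrance door of record in the local frame of the entrance tip cell -/
theorem pvef_door_i {m : ℕ} {t : τ} (h : PvefNdg 𝔓 m t) :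
    PvegDoor (pvegYm 𝔓 m t) (I ^ pvxrB 𝔓 t) ((pvxrGam 𝔓 m).pin t) (pvegR 𝔓 m / 10) (pvlmDel c m) (pvegR 𝔓 m / 5) (5 * pvegR 𝔓 m / 16) (3 * pvegR 𝔓 m / 8) (pvegR 𝔓 m / 2)
      ((pvegYm 𝔓 m t * (starRingEnd ℂ) (I ^ pvxrB 𝔓 t)).re) := by
  have hδ := pvlm_Del_pos c m
  have hf := pvef_fine h
  have hr : 0 < pvegR 𝔓 m := by linarith
  have hU4 := pvef_I_pow (pvxrB 𝔓 t)
  have h1 := pvxr_cell_near (pvlm_Del_pos c m) (pvlmN c m) (pvxrYm 𝔓 t + pvxrKap 𝔓 * I ^ pvxrB 𝔓 t)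
  rw [pvlm_N_mul_Del] at h1
  have hd := pveg_cell_door (δ := pvlmDel c m) (κ := 3 * pvegR 𝔓 m / 8) (Y := pvegYm 𝔓 m t) (C := pvtCtr (pvlmDel c m) (pvxrEm 𝔓 m t)) (p := (pvxrGam 𝔓 m).pin t) hU4
    (by rw [pvxr_gam_pin, pvxr_door_eq, pveg_ctr_sub, pvxr_Z_E]; ring)
    (by
      have : pvegYm 𝔓 m t + ((3 * pvegR 𝔓 m / 8 : ℝ) : ℂ) * I ^ pvxrB 𝔓 t = (pvlmH m : ℂ) * (pvxrYm 𝔓 t + pvxrKap 𝔓 * I ^ pvxrB 𝔓 t) := by
        unfold pvegR pvegYm pvxrYm pvxrKap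
        push_cast
        ring
      rw [this]
      exact h1) hδ
  exact
    { u4 := hU4
      δ0 := hδ
      e0 := by linarith
      w0 := by linarith
      rI0 := by linarith
      s_lo := hd.1
      s_hi := hd.2.1
      lat := hd.2.2
      out := by linarith
      n1 := by linarith
      n2 := by linarith
      n3 := by nlinarith }

/-- the funnel of `f` is far from the inner mouth of the entrance -/
theorem pvef_F_i {m : ℕ} {t : τ} (h : PvefNdg 𝔓 m t) {w : ℂ} (hw : w ∈ pvefF 𝔓 m t) : pvegR 𝔓 m / 2 < ‖w - pvegYm 𝔓 m t‖ := by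
  have h2 := pvef_F_ball h hw
  rw [mem_closedBall_iff_norm] at h2
  have h5 := pvef_YY_far h
  have hf := pvef_fine h
  have hδ := pvlm_Del_pos c m
  have h3 : ‖pvegYp 𝔓 m t - pvegYm 𝔓 m t‖ ≤ ‖w - pvegYm 𝔓 m t‖ + ‖w - pvegYp 𝔓 m t‖ := by
    have := norm_sub_le (w - pvegYm 𝔓 m t) (w - pvegYp 𝔓 m t)
    simpa using this
  linarith

/-- a point of the blocks of `f` or of the west half of the block of the plug is not in `iM ∪` funnel of the entrance -/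
theorem pvef_blocks_i_not {m : ℕ} {t : τ} (h : PvefNdg 𝔓 m t) {w : ℂ} (hw : w ∈ pvefBlocks (pvehDl 𝔓 m) (pvefZ 𝔓 m t) (pvefD 𝔓 m t) (pvefW 𝔓 m t) ∪ pvefWest (pvehDl 𝔓 m) ((pvxrGam 𝔓 m).zu t)) :
    w ∉ pvegIM 𝔓 m t ∪ pvegRc (pvegYm 𝔓 m t) (I ^ pvxrB 𝔓 t) ((pvxrGam 𝔓 m).pin t) (pvegR 𝔓 m / 10) (pvlmDel c m) (pvegR 𝔓 m / 5) := by
  intro hv
  have hΔ := pveh_Dl_pos (pvef_n0 h)
  have h1 := pvef_blocks_i h (w := w) (hw.elim Or.inl fun h' => Or.inr h'.1) hv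
  rw [sub_self] at h1
  simp only [pvccN, zero_re, zero_im, abs_zero, max_self] at h1
  linarith

/-- **(F3) `fK` misses `iM = eM`** -/
theorem pvef_fK_iM {m : ℕ} {t : τ} (h : PvefNdg 𝔓 m t) : Disjoint (pveffK 𝔓 m t) (pvegIM 𝔓 m t) := by
  rw [Set.disjoint_left]
  rintro w ⟨hw, -⟩ hv
  rcases hw with (hw | hw) | hw
  · have h1 := pvef_F_i h hw
    have h2 : ‖w - pvegYm 𝔓 m t‖ ≤ 5 * pvegR 𝔓 m / 16 := mem_closedBall_iff_norm.1 hv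
    have hf := pvef_fine h
    have hδ := pvlm_Del_pos c m
    linarith
  · exact pvef_blocks_i_not h (Or.inl hw) (Or.inl hv)
  · exact pvef_blocks_i_not h (Or.inr hw) (Or.inl hv)

/-- **(F3) `fK` misses the entrance funnel `iK`** (part of `eK` in `pveaEng` of 124) -/
theorem pvef_fK_iK {m : ℕ} {t : τ} (h : PvefNdg 𝔓 m t) (hΓ : 𝔓.Γ m = pvxrGam 𝔓 m) : Disjoint (pveffK 𝔓 m t) (pvegIK 𝔓 m t) := by
  have e : pvegIK 𝔓 m t = pvegK (pvegYm 𝔓 m t) (I ^ pvxrB 𝔓 t) ((pvxrGam 𝔓 m).pin t) (pvegR 𝔓 m / 10) (pvlmDel c m) (pvegR 𝔓 m / 5) (5 * pvegR 𝔓 m / 16) := by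
    unfold pvegIK
    rw [hΓ, pvxr_gam_din, neg_neg]
  rw [e, Set.disjoint_left]
  rintro w ⟨hw, -⟩ hv
  rcases hw with (hw | hw) | hw
  · have h1 := pvef_F_i h hw
    have h2 := (pveg_MK_back (pvef_door_i h) (Or.inr hv)).1
    rw [mem_closedBall_iff_norm] at h2
    linarith
  · exact pvef_blocks_i_not h (Or.inl hw) (Or.inr hv.1)
  · exact pvef_blocks_i_not h (Or.inr hw) (Or.inr hv.1)

/-- **(R2) `fM` misses `eK` (blocks of 166) and `zu + rO`** -/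
theorem pvef_fM_e {m : ℕ} {t : τ} (h : PvefNdg 𝔓 m t) (Mo : ℕ → τ → Set ℂ) : Disjoint (pvegOM 𝔓 m t) (pveheK 𝔓 Mo m t ∪ pvieSh ((pvxrGam 𝔓 m).zu t) (pvehrO 𝔓 m)) := by
  have hΔ := pveh_Dl_pos (pvef_n0 h)
  obtain ⟨-, -, h3⟩ := pvef_Dl_bounds h
  have hd := pvlm_Del_pos c m
  rw [pveh_sh_rO, Set.disjoint_left]
  intro v hv hv'
  have hv1 : ‖v - pvegYp 𝔓 m t‖ ≤ 5 * pvegR 𝔓 m / 16 := mem_closedBall_iff_norm.1 hv
  have key : v ∈ pvehSq ((pvxrGam 𝔓 m).zu t) (pvehDl 𝔓 m / 2) ∪ pvehBody (pvehDl 𝔓 m) ((pvxrGam 𝔓 m).zu t) (pvxrLe (pvxrB 𝔓 t)) := by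
    rcases hv' with hv' | hv'
    · exact Or.inr hv'.1
    · exact Or.inl (pveh_sq_mono _ (by linarith) (pveh_open_sub _ _ hv'))
  have := pvef_e_far h key
  linarith

/-! ### (F5) bounded -/

/-- the closed block number `j ≤ length` of `f` lies in the ball of the ring road -/
theorem pvef_block_bdd {m : ℕ} {t : τ} (h : PvefNdg 𝔓 m t) {j : ℕ} (hj : j ≤ (pvefW 𝔓 m t).length) {w : ℂ}
    (hw : w ∈ pvefBl (pvehDl 𝔓 m) (pvefZ 𝔓 m t) (pvefD 𝔓 m t) (pvefW 𝔓 m t) j) : ‖w‖ ≤ 2 * (((pvxrM 𝔓 m t : ℤ) : ℝ) + 3 * (2 * (pvxrNw 𝔓 m : ℝ) + 1) + 1) * pvlmDel c m := by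
  have hn := pvef_n0 h
  have hok := pvef_ok_of_ndg h
  have hd := pvlm_Del_pos c m
  have hM : 0 ≤ pvxrM 𝔓 m t := by
    have h1 := hok.ok.B0
    have h2 := hok.ok.ep_n
    have h3 := hok.ok.ep_M
    omega
  unfold pvefBl at hw
  rw [pvef_W_C] at hw
  have e : pvehDl 𝔓 m / 2 = (2 * (pvxrNw 𝔓 m : ℝ) + 1) * pvlmDel c m / 2 := rfl
  rw [e, pvef_block_cells hd hn] at hw
  unfold pvtU at hw
  simp only [mem_iUnion, exists_prop] at hw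
  obtain ⟨q, hq, a1, a2, a3, a4⟩ := hw
  have hb := pvef_path_box hok _ (pvef_V_mem hok hj)
  obtain ⟨b1, b2⟩ := pvef_block_in hn hM _ hb.2.1 hb.2.2 hq
  rw [abs_le] at b1 b2
  have c1 : -(((pvxrM 𝔓 m t : ℤ) : ℝ) + 3 * (2 * (pvxrNw 𝔓 m : ℝ) + 1)) ≤ (q.1 : ℝ) := by exact_mod_cast b1.1
  have c2 : (q.1 : ℝ) ≤ ((pvxrM 𝔓 m t : ℤ) : ℝ) + 3 * (2 * (pvxrNw 𝔓 m : ℝ) + 1) := by exact_mod_cast b1.2
  have c3 : -(((pvxrM 𝔓 m t : ℤ) : ℝ) + 3 * (2 * (pvxrNw 𝔓 m : ℝ) + 1)) ≤ (q.2 : ℝ) := by exact_mod_cast b2.1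
  have c4 : (q.2 : ℝ) ≤ ((pvxrM 𝔓 m t : ℤ) : ℝ) + 3 * (2 * (pvxrNw 𝔓 m : ℝ) + 1) := by exact_mod_cast b2.2
  have d1 : |w.re| ≤ (((pvxrM 𝔓 m t : ℤ) : ℝ) + 3 * (2 * (pvxrNw 𝔓 m : ℝ) + 1) + 1) * pvlmDel c m := by
    rw [abs_le]; constructor <;> nlinarith
  have d2 : |w.im| ≤ (((pvxrM 𝔓 m t : ℤ) : ℝ) + 3 * (2 * (pvxrNw 𝔓 m : ℝ) + 1) + 1) * pvlmDel c m := by
    rw [abs_le]; constructor <;> nlinarith
  have := Complex.norm_le_abs_re_add_abs_im w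
  linarith

/-- the inner mouth of the exit lies in the ball of the ring road -/
theorem pvef_ball_bdd {m : ℕ} {t : τ} (h : PvefNdg 𝔓 m t) {w : ℂ} (hw : w ∈ closedBall (pvegYp 𝔓 m t) (pvegR 𝔓 m / 2)) :
    ‖w‖ ≤ 2 * (((pvxrM 𝔓 m t : ℤ) : ℝ) + 3 * (2 * (pvxrNw 𝔓 m : ℝ) + 1) + 1) * pvlmDel c m := by
  have hn := pvef_n0 h
  have hd := pvlm_Del_pos c m
  have hH := pvlm_H_pos m
  have hn' : (0 : ℝ) ≤ (pvxrNw 𝔓 m : ℝ) := by exact_mod_cast hn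
  rw [mem_closedBall_iff_norm] at hw
  have h1 : (pvlmN c m : ℝ) * (2 * (𝔓.ty t).b2 + 𝔓.num.K * 𝔓.num.rho1 + 1) ≤ ((pvxrM 𝔓 m t : ℤ) : ℝ) := Int.le_ceil _
  have h2 : pvlmH m = (pvlmN c m : ℝ) * pvlmDel c m := (pvlm_N_mul_Del c m).symm
  have h3 : pvlmH m * (2 * (𝔓.ty t).b2 + 𝔓.num.K * 𝔓.num.rho1 + 1) ≤ ((pvxrM 𝔓 m t : ℤ) : ℝ) * pvlmDel c m := by
    rw [h2]
    nlinarith
  have hK : ((𝔓.ty t).k : ℝ) * 𝔓.num.rho1 ≤ 𝔓.num.K * 𝔓.num.rho1 := mul_le_mul_of_nonneg_right (by exact_mod_cast h.lev) h.rho1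
  have h4 : pvccN (𝔓.ty t).yp ≤ 2 * (𝔓.ty t).b2 + 𝔓.num.K * 𝔓.num.rho1 + 𝔓.num.rho / 10 := by
    have := (abs_le.1 h.nd_p).2
    linarith
  have h5 : ‖(𝔓.ty t).yp‖ ≤ 2 * pvccN (𝔓.ty t).yp := by
    have a := Complex.norm_le_abs_re_add_abs_im (𝔓.ty t).yp
    have b1 : |((𝔓.ty t).yp).re| ≤ pvccN (𝔓.ty t).yp := le_max_left _ _
    have b2 : |((𝔓.ty t).yp).im| ≤ pvccN (𝔓.ty t).yp := le_max_right _ _
    linarith
  have h6 : ‖pvegYp 𝔓 m t‖ = pvlmH m * ‖(𝔓.ty t).yp‖ := by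
    rw [pvegYp, norm_mul, Complex.norm_real, Real.norm_eq_abs, abs_of_pos hH]
  have h7 : ‖w‖ ≤ ‖w - pvegYp 𝔓 m t‖ + ‖pvegYp 𝔓 m t‖ := by
    have := norm_add_le (w - pvegYp 𝔓 m t) (pvegYp 𝔓 m t)
    simpa using this
  have h8 : pvegR 𝔓 m = 𝔓.num.rho * pvlmH m := rfl
  have h9 : pvlmH m * ‖(𝔓.ty t).yp‖ ≤ pvlmH m * (2 * (2 * (𝔓.ty t).b2 + 𝔓.num.K * 𝔓.num.rho1 + 𝔓.num.rho / 10)) := mul_le_mul_of_nonneg_left (by linarith) hH.le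
  have h10 : 𝔓.num.rho * pvlmH m ≤ pvlmH m / 8 := by nlinarith [h.rho8]
  have h11 : 0 ≤ (3 * (2 * (pvxrNw 𝔓 m : ℝ) + 1) + 1) * pvlmDel c m := by positivity
  nlinarith

/-- **(F5)**, in cells -/
theorem pvef_bdd {m : ℕ} {t : τ} (h : PvefNdg 𝔓 m t) :
    pvegOM 𝔓 m t ∪ pveffK 𝔓 m t ⊆ closedBall 0 (2 * (((pvxrM 𝔓 m t : ℤ) : ℝ) + 3 * (2 * (pvxrNw 𝔓 m : ℝ) + 1) + 1) * pvlmDel c m) := by
  have hR : 0 < pvegR 𝔓 m := by
    have := pvef_fine h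
    have := pvlm_Del_pos c m
    linarith
  intro w hw
  rw [mem_closedBall_zero_iff]
  rcases hw with hw | ⟨(hw | hw) | hw, -⟩
  · exact pvef_ball_bdd h (closedBall_subset_closedBall (by linarith) hw)
  · exact pvef_ball_bdd h (pvef_F_ball h hw)
  · unfold pvefBlocks at hw
    simp only [mem_iUnion, exists_prop, Finset.mem_range] at hw
    obtain ⟨j, hj, hw⟩ := hw
    exact pvef_block_bdd h hj.le hw
  · refine pvef_block_bdd h le_rfl (j := (pvefW 𝔓 m t).length) ?_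
    unfold pvefBl
    have h2 : pvefV (pvxrM 𝔓 m t) (pvxrA 𝔓 t) (pvxrB 𝔓 t) (pvxrEp 𝔓 m t) (pvxrEm 𝔓 m t) (pvxrNw 𝔓 m) (pvefW 𝔓 m t).length = pvefU (pvxrB 𝔓 t) (pvxrEm 𝔓 m t) (pvxrNw 𝔓 m) :=
      pvef_V_last (pvef_ok_of_ndg h)
    rw [pvef_W_C, h2, ← pvef_zu h]
    exact hw.1

/-- **(F5)**, in units of `h` -/
theorem pvef_bdd_h {m : ℕ} {t : τ} (h : PvefNdg 𝔓 m t) : pvegOM 𝔓 m t ∪ pveffK 𝔓 m t ⊆ closedBall 0 ((2 * (2 * (𝔓.ty t).b2 + 𝔓.num.K * 𝔓.num.rho1 + 1) + 1) * pvlmH m) := by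
  refine (pvef_bdd h).trans (closedBall_subset_closedBall ?_)
  have hd := pvlm_Del_pos c m
  have hH := pvlm_H_pos m
  obtain ⟨-, b2, -⟩ := pvef_Dl_bounds h
  have hf := pvef_fine h
  have h1 : ((pvxrM 𝔓 m t : ℤ) : ℝ) < (pvlmN c m : ℝ) * (2 * (𝔓.ty t).b2 + 𝔓.num.K * 𝔓.num.rho1 + 1) + 1 := Int.ceil_lt_add_one _
  have h2 : pvlmH m = (pvlmN c m : ℝ) * pvlmDel c m := (pvlm_N_mul_Del c m).symm
  have h3 : ((pvxrM 𝔓 m t : ℤ) : ℝ) * pvlmDel c m ≤ pvlmH m * (2 * (𝔓.ty t).b2 + 𝔓.num.K * 𝔓.num.rho1 + 1) + pvlmDel c m := by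
    rw [h2]
    nlinarith
  have h8 : pvegR 𝔓 m = 𝔓.num.rho * pvlmH m := rfl
  have h10 : 𝔓.num.rho * pvlmH m ≤ pvlmH m / 8 := by nlinarith [h.rho8]
  have h11 : pvehDl 𝔓 m = (2 * (pvxrNw 𝔓 m : ℝ) + 1) * pvlmDel c m := rfl
  nlinarith

/-! ### (F7) = (S): the rooms of `e` and `f` are apart; W-7 -/

/-- the west neighbour of the block of the plug -/
theorem pvef_nb_west {m : ℕ} {t : τ} (h : PvefNdg 𝔓 m t) {w : ℂ}
    (hw : w ∈ pvehSq (pvefCtr (pvlmDel c m) (pvxrNw 𝔓 m) (pvxrEm 𝔓 m t) (pvefU (pvxrB 𝔓 t) (pvxrEm 𝔓 m t) (pvxrNw 𝔓 m) - (1, 0))) (pvehDl 𝔓 m / 2)) :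
    (((pvxrGam 𝔓 m).zu t).re - 3 * pvehDl 𝔓 m / 2 ≤ w.re ∧ w.re ≤ ((pvxrGam 𝔓 m).zu t).re - pvehDl 𝔓 m / 2) ∧ ((pvxrGam 𝔓 m).zu t).im - pvehDl 𝔓 m / 2 ≤ w.im ∧ w.im ≤ ((pvxrGam 𝔓 m).zu t).im + pvehDl 𝔓 m / 2 := by
  rw [sub_eq_add_neg, pvef_ctr_add, ← pvef_zu h, pveh_mem_sq] at hw
  have e1 : ((pvxrGam 𝔓 m).zu t + (((2 * (pvxrNw 𝔓 m : ℝ) + 1) * pvlmDel c m : ℝ) : ℂ) * pvtZ (-(1, 0))).re = ((pvxrGam 𝔓 m).zu t).re - pvehDl 𝔓 m := by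
    simp [pvtZ, pvehDl]; ring
  have e2 : ((pvxrGam 𝔓 m).zu t + (((2 * (pvxrNw 𝔓 m : ℝ) + 1) * pvlmDel c m : ℝ) : ℂ) * pvtZ (-(1, 0))).im = ((pvxrGam 𝔓 m).zu t).im := by
    simp [pvtZ]
  rw [e1, e2] at hw
  obtain ⟨⟨a1, a2⟩, a3, a4⟩ := hw
  exact ⟨⟨by linarith, by linarith⟩, a3, a4⟩

theorem pvef_q296_N_le (z : ℂ) : pvccN z ≤ ‖z‖ := max_le (Complex.abs_re_le_norm z) (Complex.abs_im_le_norm z)

/-- a point of a block of `f` is `Δ` away (sup norm) from the closed block of the plug, or lies west of it -/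
theorem pvef_q296_block_u {m : ℕ} {t : τ} (h : PvefNdg 𝔓 m t) {w : ℂ} (hw : w ∈ pvefBlocks (pvehDl 𝔓 m) (pvefZ 𝔓 m t) (pvefD 𝔓 m t) (pvefW 𝔓 m t)) :
    (∀ v ∈ pvehSq ((pvxrGam 𝔓 m).zu t) (pvehDl 𝔓 m / 2), pvehDl 𝔓 m ≤ pvccN (w - v)) ∨ w.re ≤ ((pvxrGam 𝔓 m).zu t).re - pvehDl 𝔓 m / 2 := by
  have hn := pvef_n0 h
  have hδ := pvlm_Del_pos c m
  unfold pvefBlocks at hw
  simp only [mem_iUnion, exists_prop, Finset.mem_range] at hw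
  obtain ⟨j, hj, hw⟩ := hw
  unfold pvefBl at hw
  rw [pvef_W_C] at hw
  rcases pvef_V_u (pvef_ok_of_ndg h) hj with h2 | h2
  · left
    intro v hv
    rw [pvef_zu h] at hv
    have := pvef_sq_far hδ hn (pvxrEm 𝔓 m t) (k := 1) (by simpa using h2) hw hv
    simpa [pvehDl] using this
  · right
    rw [h2, sub_eq_add_neg, pvef_ctr_add, ← pvef_zu h, pveh_mem_sq] at hw
    have e : (((2 * (pvxrNw 𝔓 m : ℝ) + 1) * pvlmDel c m : ℝ) : ℂ) * pvtZ (-(1, 0)) = -((pvehDl 𝔓 m : ℝ) : ℂ) := by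
      simp [pvtZ, pvehDl]
    rw [e] at hw
    have := hw.1.2
    simp only [add_re, neg_re, ofReal_re] at this
    linarith

theorem pvef_q296_fine {m : ℕ} {t : τ} (h : PvefNdg 𝔓 m t) : 1024 * pvlmDel c m ≤ pvegR 𝔓 m := by
  have hd := pvlm_Del_pos c m
  have := mul_le_mul_of_nonneg_right h.fine hd.le
  unfold pvegR
  rw [← pvlm_N_mul_Del c m]
  linarith

/-- the rectangle of the entrance funnel lies in the inner mouth `closedBall (h y⁻) (ρ h / 2)` -/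
theorem pvef_q296_Rc_ball {m : ℕ} {t : τ} (h : PvefNdg 𝔓 m t) :
    pvegRc (pvegYm 𝔓 m t) (I ^ pvxrB 𝔓 t) ((pvxrGam 𝔓 m).pin t) (pvegR 𝔓 m / 10) (pvlmDel c m) (pvegR 𝔓 m / 5) ⊆ closedBall (pvegYm 𝔓 m t) (pvegR 𝔓 m / 2) := by
  have hδ := pvlm_Del_pos c m
  have hf := pvef_q296_fine h
  have hU := pvef_I_pow (pvxrB 𝔓 t)
  have hC : ‖pvtCtr (pvlmDel c m) (pvxrEm 𝔓 m t) - (pvegYm 𝔓 m t + ((3 * pvegR 𝔓 m / 8 : ℝ) : ℂ) * I ^ pvxrB 𝔓 t)‖ ≤ pvlmDel c m := by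
    have := pvxr_cell_near hδ (pvlmN c m) (pvxrYm 𝔓 t + pvxrKap 𝔓 * I ^ pvxrB 𝔓 t)
    rw [pvlm_N_mul_Del] at this
    have e : pvegYm 𝔓 m t + ((3 * pvegR 𝔓 m / 8 : ℝ) : ℂ) * I ^ pvxrB 𝔓 t = (pvlmH m : ℂ) * (pvxrYm 𝔓 t + pvxrKap 𝔓 * I ^ pvxrB 𝔓 t) := by
      unfold pvegYm pvegR pvxrYm pvxrKap
      push_cast
      ring
    rw [e]
    exact this
  have hp : (pvxrGam 𝔓 m).pin t = pvtCtr (pvlmDel c m) (pvxrEm 𝔓 m t) - (pvlmDel c m : ℂ) * I ^ pvxrB 𝔓 t / 2 := by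
    rw [pvxr_gam_pin, pvxr_door_eq, pveg_ctr_sub, pvxr_Z_E]
    ring
  obtain ⟨-, d2, d3⟩ := pveg_cell_door hU hp hC hδ
  rintro v ⟨h1, h2, h3⟩
  rw [mem_closedBall_iff_norm]
  have hsq := pveg_sq hU (pvegYm 𝔓 m t) v
  rw [abs_le] at h3 d3
  have hR : 0 < pvegR 𝔓 m := by linarith
  have a1 : pvegS (pvegYm 𝔓 m t) (I ^ pvxrB 𝔓 t) v ^ 2 ≤ (3 * pvegR 𝔓 m / 8 + pvlmDel c m) ^ 2 := by
    apply pow_le_pow_left₀ (by linarith) (by linarith)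
  have a2 : pvegL (pvegYm 𝔓 m t) (I ^ pvxrB 𝔓 t) v ^ 2 ≤ (pvegR 𝔓 m / 5 + pvlmDel c m) ^ 2 := by
    apply sq_le_sq'  <;> linarith [h3.1, h3.2, d3.1, d3.2]
  have a3 : ‖v - pvegYm 𝔓 m t‖ ^ 2 ≤ (pvegR 𝔓 m / 2) ^ 2 := by
    rw [hsq]
    nlinarith
  exact abs_le_of_sq_le_sq' a3 (by linarith) |>.2

theorem pvef_q296_YY {m : ℕ} {t : τ} (hf : 7 * 𝔓.num.rho / 4 ≤ ‖(𝔓.ty t).yp - (𝔓.ty t).ym‖) : 7 * pvegR 𝔓 m / 4 ≤ ‖pvegYp 𝔓 m t - pvegYm 𝔓 m t‖ := by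
  have hh := pvlm_H_pos m
  unfold pvegYp pvegYm pvegR
  rw [← mul_sub, norm_mul, Complex.norm_real, Real.norm_eq_abs, abs_of_pos hh]
  nlinarith

/-- lanes of `f` lie in the blocks of `f` -/
theorem pvef_q296_lanes_blocks {m : ℕ} (hn : 0 ≤ pvxrNw 𝔓 m) (t : τ) :
    pvfeLanes (-(1 / 10)) (4 / 10) (pvefZ 𝔓 m t) (pvefD 𝔓 m t) (pvefW 𝔓 m t) ⊆ pvefBlocks (pvehDl 𝔓 m) (pvefZ 𝔓 m t) (pvefD 𝔓 m t) (pvefW 𝔓 m t) := by
  intro w h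
  unfold pvfeLanes at h
  simp only [mem_iUnion, exists_prop] at h
  obtain ⟨j, hj, hw⟩ := h
  unfold pvefBlocks
  simp only [mem_iUnion, exists_prop]
  exact ⟨j, hj, pvef_lane_sub (pveh_Dl_pos hn) _ (pvef_I_pow _) _ j (by norm_num) (by norm_num) hw⟩

/-- the room of `e` without the mouth lies in the body of `e` -/
theorem pvef_q296_EY_body {Δ : ℝ} (hΔ : 0 < Δ) (cu : ℂ) (lb : List PvtTurn) (Mi : Set ℂ) {v : ℂ} (hv : v ∈ pvehEY Δ cu lb Mi) : v ∈ pvehBody Δ cu lb ∨ v ∈ Mi := by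
  rcases hv with (⟨h1, h2, h3, h4⟩ | h) | h
  · refine Or.inl (Or.inl ⟨?_, by linarith⟩)
    rw [pveh_mem_sq]
    exact ⟨⟨by linarith, by linarith⟩, by linarith, by linarith⟩
  · unfold pvfeLanes at h
    simp only [mem_iUnion, exists_prop] at h
    obtain ⟨j, hj, hw⟩ := h
    refine Or.inl (Or.inr ?_)
    simp only [mem_iUnion, exists_prop]
    exact ⟨j, hj, pveh_lane_sub hΔ cu lb j (by norm_num) (by norm_num) hw⟩
  · exact Or.inr h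

/-- **(F7) THE ROOMS OF THE THICK LINK AND OF THE THICK RETURN ARE `Δ / 64 ≥ δ` APART**, NO EXCEPTION (`eY` of `pveaEng`: room of 166 at the mouth `iM`, and the funnel `iK`) -/
theorem pvef_sep0 {m : ℕ} {t : τ} (h : PvefNdg 𝔓 m t) (hΓ : 𝔓.Γ m = pvxrGam 𝔓 m) : ∀ w ∈ pveffY0 𝔓 m t, ∀ v ∈ pveheY 𝔓 (pvegIM 𝔓) m t ∪ pvegIK 𝔓 m t, pvehDl 𝔓 m / 64 ≤ ‖w - v‖ := by
  have hn := pvef_n0 h
  have hΔ := pveh_Dl_pos hn
  have hδ := pvlm_Del_pos c m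
  have hfine := pvef_q296_fine h
  obtain ⟨-, hD2, -⟩ := pvef_Dl_bounds h
  have hYY := pvef_q296_YY (m := m) h.far
  intro w hw v hv
  -- the three kinds of `v`
  have hv' : v ∈ pvehBody (pvehDl 𝔓 m) ((pvxrGam 𝔓 m).zu t) (pvxrLe (pvxrB 𝔓 t)) ∨
      v ∈ pvegIM 𝔓 m t ∪ pvegRc (pvegYm 𝔓 m t) (I ^ pvxrB 𝔓 t) ((pvxrGam 𝔓 m).pin t) (pvegR 𝔓 m / 10) (pvlmDel c m) (pvegR 𝔓 m / 5) := by
    rcases hv with hv | hv
    · rcases pvef_q296_EY_body hΔ _ _ _ hv with h1 | h1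
      · exact Or.inl h1
      · exact Or.inr (Or.inl h1)
    · refine Or.inr (Or.inr ?_)
      have := hv.1
      rwa [hΓ, pvxr_gam_din, neg_neg] at this
  -- the entrance side lies in the inner mouth of `y⁻`
  have hvi : v ∈ pvegIM 𝔓 m t ∪ pvegRc (pvegYm 𝔓 m t) (I ^ pvxrB 𝔓 t) ((pvxrGam 𝔓 m).pin t) (pvegR 𝔓 m / 10) (pvlmDel c m) (pvegR 𝔓 m / 5) → ‖v - pvegYm 𝔓 m t‖ ≤ pvegR 𝔓 m / 2 := by
    rintro (h1 | h1)
    · have := mem_closedBall_iff_norm.1 h1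
      linarith
    · exact mem_closedBall_iff_norm.1 (pvef_q296_Rc_ball h h1)
  -- `w` near the exit tip
  have near : ‖w - pvegYp 𝔓 m t‖ ≤ pvegR 𝔓 m / 2 → pvehDl 𝔓 m / 64 ≤ ‖w - v‖ := by
    intro hwY
    rcases hv' with h1 | h1
    · have h2 := pvef_e_far h (Or.inr h1)
      have h3 : ‖v - pvegYp 𝔓 m t‖ ≤ ‖w - v‖ + ‖w - pvegYp 𝔓 m t‖ := by
        have := norm_sub_le (w - pvegYp 𝔓 m t) (w - v)
        rw [show w - pvegYp 𝔓 m t - (w - v) = v - pvegYp 𝔓 m t by ring] at this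
        linarith
      linarith
    · have h2 := hvi h1
      have h3 : ‖pvegYp 𝔓 m t - pvegYm 𝔓 m t‖ ≤ ‖w - pvegYp 𝔓 m t‖ + ‖w - v‖ + ‖v - pvegYm 𝔓 m t‖ := by
        have a1 := norm_add_le (pvegYp 𝔓 m t - w) (w - pvegYm 𝔓 m t)
        have a2 := norm_add_le (w - v) (v - pvegYm 𝔓 m t)
        rw [show pvegYp 𝔓 m t - w + (w - pvegYm 𝔓 m t) = pvegYp 𝔓 m t - pvegYm 𝔓 m t by ring, norm_sub_rev (pvegYp 𝔓 m t) w] at a1
        rw [show w - v + (v - pvegYm 𝔓 m t) = w - pvegYm 𝔓 m t by ring] at a2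
        linarith
      linarith
  -- `w` in the blocks or in the west half, with the bound on the real part inside the block of the plug
  have blk : w ∈ pvefBlocks (pvehDl 𝔓 m) (pvefZ 𝔓 m t) (pvefD 𝔓 m t) (pvefW 𝔓 m t) ∪ pvefWest (pvehDl 𝔓 m) ((pvxrGam 𝔓 m).zu t) →
      (w ∈ pvefWest (pvehDl 𝔓 m) ((pvxrGam 𝔓 m).zu t) → w.re ≤ ((pvxrGam 𝔓 m).zu t).re - pvehDl 𝔓 m / 64) → pvehDl 𝔓 m / 64 ≤ ‖w - v‖ := by
    intro hwB hwW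
    rcases hv' with h1 | h1
    · rcases pvef_blocks_e h hwB h1 with h2 | ⟨h2, h3⟩
      · have := pvef_q296_N_le (w - v)
        linarith
      · have h4 := hwW h2
        have h5 : |(w - v).re| ≤ ‖w - v‖ := Complex.abs_re_le_norm _
        rw [sub_re] at h5
        have := neg_abs_le (w.re - v.re)
        linarith
    · have hwB' : w ∈ pvefBlocks (pvehDl 𝔓 m) (pvefZ 𝔓 m t) (pvefD 𝔓 m t) (pvefW 𝔓 m t) ∪ pvehSq ((pvxrGam 𝔓 m).zu t) (pvehDl 𝔓 m / 2) :=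
        hwB.imp id fun h => h.1
      have h2 := pvef_blocks_i h hwB' h1
      have := pvef_q296_N_le (w - v)
      linarith
  rcases hw with ((hw | hw) | hw) | hw
  · exact near (mem_closedBall_iff_norm.1 (pvef_F_ball h hw))
  · have hwB := pvef_q296_lanes_blocks hn t hw
    refine blk (Or.inl hwB) fun hW => ?_
    rcases pvef_q296_block_u h hwB with h1 | h1
    · have := h1 w hW.1
      rw [sub_self] at this
      simp only [pvccN, zero_re, zero_im, abs_zero, max_self] at this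
      linarith
    · linarith
  · exact blk (Or.inr (pvef_WL_sub hΔ _ hw)) fun _ => hw.2.1
  · refine near ?_
    have := mem_closedBall_iff_norm.1 hw
    linarith

theorem pvef_sep_del0 {m : ℕ} {t : τ} (h : PvefNdg 𝔓 m t) (hΓ : 𝔓.Γ m = pvxrGam 𝔓 m) : ∀ w ∈ pveffY0 𝔓 m t, ∀ v ∈ pveheY 𝔓 (pvegIM 𝔓) m t ∪ pvegIK 𝔓 m t, pvlmDel c m ≤ ‖w - v‖ := by
  intro w hw v hv
  have h1 := pvef_sep0 h hΓ w hw v hv
  obtain ⟨h2, -, h3⟩ := pvef_Dl_bounds h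
  have := pvlm_Del_pos c m
  linarith

/-- **(F7), far from the plug**: off the square of half side `5 Δ / 2` round `zu` the blocks of `f` are `2 Δ` away from the body of `e` -/
theorem pvef_sep2 {m : ℕ} {t : τ} (h : PvefNdg 𝔓 m t) {w v : ℂ} (hw : w ∈ pvefBlocks (pvehDl 𝔓 m) (pvefZ 𝔓 m t) (pvefD 𝔓 m t) (pvefW 𝔓 m t))
    (hw' : w ∉ pvehSq ((pvxrGam 𝔓 m).zu t) (5 * pvehDl 𝔓 m / 2)) (hv : v ∈ pvehBody (pvehDl 𝔓 m) ((pvxrGam 𝔓 m).zu t) (pvxrLe (pvxrB 𝔓 t))) : 2 * pvehDl 𝔓 m ≤ pvccN (w - v) := by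
  have hn := pvef_n0 h
  have hΔ := pveh_Dl_pos hn
  have hd := pvlm_Del_pos c m
  have hO := pvef_ok_of_ndg h
  have hw1 : 5 * pvehDl 𝔓 m / 2 < pvccN (w - (pvxrGam 𝔓 m).zu t) := not_le.1 hw'
  rcases hv with hv | hv
  · have hv1 : pvccN (v - (pvxrGam 𝔓 m).zu t) ≤ pvehDl 𝔓 m / 2 := hv.1
    have := pvccN_add_le (w - v) (v - (pvxrGam 𝔓 m).zu t)
    rw [sub_add_sub_cancel] at this
    linarith
  · simp only [mem_iUnion, exists_prop, Finset.mem_range] at hv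
    obtain ⟨k, hk, hv⟩ := hv
    unfold pvefBlocks at hw
    simp only [mem_iUnion, exists_prop, Finset.mem_range] at hw
    obtain ⟨j, hj, hw⟩ := hw
    unfold pvefBl at hw
    rw [pvef_W_C] at hw
    unfold pvehB at hv
    rw [pveh_C_eq, pvef_zu h] at hv
    have e : pvefCtr (pvlmDel c m) (pvxrNw 𝔓 m) (pvxrEm 𝔓 m t) (pvefU (pvxrB 𝔓 t) (pvxrEm 𝔓 m t) (pvxrNw 𝔓 m)) + (pvehDl 𝔓 m : ℂ) * pvtZ (pvehV (pvxrLe (pvxrB 𝔓 t)) k) =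
        pvefCtr (pvlmDel c m) (pvxrNw 𝔓 m) (pvxrEm 𝔓 m t) (pvefU (pvxrB 𝔓 t) (pvxrEm 𝔓 m t) (pvxrNw 𝔓 m) + pvehV (pvxrLe (pvxrB 𝔓 t)) k) := by
      rw [pvef_ctr_add]; rfl
    rw [e] at hv
    rcases pvef_V_e hO hj hk with h3 | h3
    · have := pvef_sq_far hd hn (pvxrEm 𝔓 m t) (k := 2) (by simpa using h3) hw hv
      simpa [pvehDl] using this
    · exfalso
      apply hw'
      rw [h3] at hw
      obtain ⟨⟨a1, a2⟩, a3, a4⟩ := pvef_nb_west h hw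
      rw [pveh_mem_sq]
      exact ⟨⟨by linarith, by linarith⟩, by linarith, by linarith⟩

/-- **(W-7 of 208) `fY_back`**: inside the region of the plug the room of `f` lies in the near half `x_u ≤ - Δ / 64` -/
theorem pvef_fY0_back {m : ℕ} {t : τ} (h : PvefNdg 𝔓 m t) : ∀ v ∈ pveffY0 𝔓 m t, v ∈ pvieSh ((pvxrGam 𝔓 m).zu t) (pvehrO 𝔓 m) → (v - (pvxrGam 𝔓 m).zu t).re ≤ -(pvehDl 𝔓 m / 64) := by
  have hn := pvef_n0 h
  have hΔ := pveh_Dl_pos hn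
  have hd := pvlm_Del_pos c m
  have hO := pvef_ok_of_ndg h
  obtain ⟨-, -, hR⟩ := pvef_Dl_bounds h
  intro v hv hv'
  rw [pveh_sh_rO] at hv'
  have hv2 : v ∈ pvehSq ((pvxrGam 𝔓 m).zu t) (pvehDl 𝔓 m / 2) := pveh_sq_mono _ (by linarith) (pveh_open_sub _ _ hv')
  have hfar := pvef_e_far h (Or.inl hv2)
  rw [Complex.sub_re]
  rcases hv with ((hv | hv) | hv) | hv
  · have := mem_closedBall_iff_norm.1 (pvef_F_ball h hv)
    linarith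
  · unfold pvfeLanes at hv
    simp only [mem_iUnion, exists_prop, Finset.mem_range] at hv
    obtain ⟨j, hj, hw⟩ := hv
    have hb := pvef_lane_sub hΔ (pvefZ 𝔓 m t) (pvef_I_pow (pvxrA 𝔓 t)) (pvefW 𝔓 m t) j (a := -(1 / 10)) (b := 4 / 10) (by norm_num) (by norm_num) hw
    unfold pvefBl at hb
    have hb' := hb
    rw [show (pvehDl 𝔓 m : ℂ) * I ^ pvxrA 𝔓 t = pvefD 𝔓 m t from rfl, pvef_W_C] at hb'
    rcases pvef_V_u hO hj with h3 | h3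
    · rw [pvef_zu h] at hv2
      have := pvef_sq_far hd hn (pvxrEm 𝔓 m t) (k := 1) (by simpa using h3) hb' hv2
      rw [sub_self] at this
      simp only [pvccN, zero_re, zero_im, abs_zero, max_self] at this
      have h5 : 0 < (2 * (pvxrNw 𝔓 m : ℝ) + 1) * pvlmDel c m := hΔ
      push_cast at this
      linarith
    · rw [h3] at hb'
      obtain ⟨⟨a1, a2⟩, a3, a4⟩ := pvef_nb_west h hb'
      linarith
  · have := hv.2.1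
    linarith
  · have : ‖v - pvegYp 𝔓 m t‖ ≤ 5 * pvegR 𝔓 m / 16 := mem_closedBall_iff_norm.1 hv
    linarith

/-! ### THE ROOM OF RECORD (R22 (2) of 234: ONE patch, then frozen):   `fY` := THE CORE OF THE OUTER ROOM, collar `3 δ / 1000 ≥ 3 pvilMu`

(Ra) no slit: `fK` = body minus plug minus mouth (by construction).   (Rb) W-7: `pvef_fY_back` (`x_u ≤ - Δ/64`, and `Δ/64 ≥ r_u/4` for `r_u ≤ Δ/16`).   (Rc) COLLAR: `pvef_fY_col`, `pvef_fY_colMu`.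
(Rd) HOLE: `pvef_fY_bdd`, `pvef_fY_hole` (from the outer room: `Exit/ParEngFH`).   (Re) WHAT LIES IN THE ROOM: `pvef_fY_of`, `pvef_fY_ball`, `pvef_Ln_core`, `pvef_through_fY`.
All the upper bounds (`pvef_fY_sub pvef_sep pvef_sep_del pvef_fY_back`) keep their names and their statements. -/

/-- the collar of the room -/
noncomputable def pvefKa (c : ℝ) (m : ℕ) : ℝ := 3 * pvlmDel c m / 1000

theorem pvef_Ka_pos (c : ℝ) (m : ℕ) : 0 < pvefKa c m := by have := pvlm_Del_pos c m; unfold pvefKa; linarith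

variable (𝔓) in
/-- **`fY m t` OF RECORD** -/
noncomputable def pveffY (m : ℕ) (t : τ) : Set ℂ := pvljCore (pvefKa c m) (pveffY0 𝔓 m t)

theorem pvef_fY_of {m : ℕ} {t : τ} {v : ℂ} (hv : closedBall v (pvefKa c m) ⊆ pveffY0 𝔓 m t) : v ∈ pveffY 𝔓 m t := hv

theorem pvef_fY_sub0 (m : ℕ) (t : τ) : pveffY 𝔓 m t ⊆ pveffY0 𝔓 m t := pvlj_core_sub (pvef_Ka_pos c m).le _

/-- the core of a closed set is closed -/
theorem pvef_core_closed {X : Set ℂ} (hX : IsClosed X) (r : ℝ) : IsClosed (pvljCore r X) := by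
  have e : pvljCore r X = ⋂ e ∈ closedBall (0 : ℂ) r, {w : ℂ | w + e ∈ X} := by
    ext w
    simp only [pvljCore, Set.mem_ofPred_eq, mem_iInter]
    constructor
    · intro h e he
      refine h ?_
      rw [mem_closedBall_iff_norm] at he ⊢
      simpa using he
    · intro h x hx
      have := h (x - w) (by rw [mem_closedBall_iff_norm] at hx ⊢; simpa using hx)
      simpa using this
  rw [e]
  exact isClosed_biInter fun e _ => hX.preimage (by fun_prop)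

/-- the complement of the core of a set without hole is preconnected -/
theorem pvef_core_hole {X : Set ℂ} (hX : IsPreconnected Xᶜ) {r : ℝ} (hr : 0 ≤ r) : IsPreconnected (pvljCore r X)ᶜ := by
  have e : (pvljCore r X)ᶜ = Xᶜ ∪ ⋃ x ∈ Xᶜ, closedBall x r := by
    ext w
    simp only [pvljCore, Set.mem_ofPred_eq, mem_compl_iff, mem_union, mem_iUnion, exists_prop, Set.not_subset]
    constructor
    · rintro ⟨x, hx, hxX⟩
      exact Or.inr ⟨x, hxX, by rwa [mem_closedBall_comm]⟩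
    · rintro (h | ⟨x, hxX, hx⟩)
      · exact ⟨w, mem_closedBall_self hr, h⟩
      · exact ⟨x, by rwa [mem_closedBall_comm], hxX⟩
  rw [e]
  rcases (Xᶜ).eq_empty_or_nonempty with h0 | -
  · rw [h0]; simpa using isPreconnected_empty
  refine isPreconnected_of_forall_pair ?_
  have key : ∀ w ∈ Xᶜ ∪ ⋃ x ∈ Xᶜ, closedBall x r, ∃ x ∈ Xᶜ, w ∈ closedBall x r := by
    rintro w (h | h)
    · exact ⟨w, h, mem_closedBall_self hr⟩
    · simpa only [mem_iUnion, exists_prop] using h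
  intro a ha b hb
  obtain ⟨x, hx, hax⟩ := key a ha
  obtain ⟨y, hy, hby⟩ := key b hb
  have hsub : ∀ z ∈ Xᶜ, closedBall z r ⊆ Xᶜ ∪ ⋃ x ∈ Xᶜ, closedBall x r := fun z hz => (subset_biUnion_of_mem (u := fun x => closedBall x r) hz).trans subset_union_right
  refine ⟨closedBall x r ∪ Xᶜ ∪ closedBall y r, union_subset (union_subset (hsub x hx) subset_union_left) (hsub y hy), Or.inl (Or.inl hax), Or.inr hby, ?_⟩
  have c1 : IsPreconnected (closedBall x r ∪ Xᶜ) := IsPreconnected.union x (mem_closedBall_self hr) hx (convex_closedBall x r).isPreconnected hX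
  exact IsPreconnected.union y (Or.inr hy) (mem_closedBall_self hr) c1 (convex_closedBall y r).isPreconnected

theorem pvef_WL_closed (Δ : ℝ) (cu : ℂ) : IsClosed (pvefWL Δ cu) :=
  (isClosed_le continuous_const continuous_re).inter ((isClosed_le continuous_re continuous_const).inter
    ((isClosed_le continuous_const continuous_im).inter (isClosed_le continuous_im continuous_const)))

theorem pvef_fY0_closed {m : ℕ} (hn : 0 ≤ pvxrNw 𝔓 m) (t : τ) : IsClosed (pveffY0 𝔓 m t) :=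
  (((pveg_rc_closed _ _ _ _ _ _).union (pvlj_lanes_closed _ _ _ (pvef_D_ne hn t) _)).union (pvef_WL_closed _ _)).union isClosed_closedBall

theorem pvef_fY_closed {m : ℕ} (hn : 0 ≤ pvxrNw 𝔓 m) (t : τ) : IsClosed (pveffY 𝔓 m t) := pvef_core_closed (pvef_fY0_closed hn t) _

/-- **(F1)** -/
theorem pvef_m_fY {m : ℕ} (hn : 0 ≤ pvxrNw 𝔓 m) (t : τ) : MeasurableSet (pveffY 𝔓 m t) := (pvef_fY_closed hn t).measurableSet

/-- **(F4)** -/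
theorem pvef_fY_sub {m : ℕ} (hn : 0 ≤ pvxrNw 𝔓 m) (t : τ) : pveffY 𝔓 m t ⊆ pvegOM 𝔓 m t ∪ pveffK 𝔓 m t ∪ pvieSh ((pvxrGam 𝔓 m).zu t) (pvehrO 𝔓 m) :=
  (pvef_fY_sub0 m t).trans (pvef_fY0_sub hn t)

/-- **(F7) THE ROOMS OF THE THICK LINK AND OF THE THICK RETURN ARE `Δ / 64 ≥ δ` APART** -/
theorem pvef_sep {m : ℕ} {t : τ} (h : PvefNdg 𝔓 m t) (hΓ : 𝔓.Γ m = pvxrGam 𝔓 m) : ∀ w ∈ pveffY 𝔓 m t, ∀ v ∈ pveheY 𝔓 (pvegIM 𝔓) m t ∪ pvegIK 𝔓 m t, pvehDl 𝔓 m / 64 ≤ ‖w - v‖ :=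
  fun w hw => pvef_sep0 h hΓ w (pvef_fY_sub0 m t hw)

theorem pvef_sep_del {m : ℕ} {t : τ} (h : PvefNdg 𝔓 m t) (hΓ : 𝔓.Γ m = pvxrGam 𝔓 m) : ∀ w ∈ pveffY 𝔓 m t, ∀ v ∈ pveheY 𝔓 (pvegIM 𝔓) m t ∪ pvegIK 𝔓 m t, pvlmDel c m ≤ ‖w - v‖ :=
  fun w hw => pvef_sep_del0 h hΓ w (pvef_fY_sub0 m t hw)

/-- **(Rb) = (W-7 of 208) `fY_back`** -/
theorem pvef_fY_back {m : ℕ} {t : τ} (h : PvefNdg 𝔓 m t) : ∀ v ∈ pveffY 𝔓 m t, v ∈ pvieSh ((pvxrGam 𝔓 m).zu t) (pvehrO 𝔓 m) → (v - (pvxrGam 𝔓 m).zu t).re ≤ -(pvehDl 𝔓 m / 64) :=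
  fun v hv => pvef_fY0_back h v (pvef_fY_sub0 m t hv)

/-- **(Rc) THE COLLAR**, sharp form: the collar meets the region of the plug in its near half only (so it survives (U4) of R23: the east part of the annulus is not needed) -/
theorem pvef_fY_col {m : ℕ} {t : τ} (h : PvefNdg 𝔓 m t) : ∀ v ∈ pveffY 𝔓 m t, closedBall v (pvefKa c m) ⊆
    pvegOM 𝔓 m t ∪ pveffK 𝔓 m t ∪ (pvieSh ((pvxrGam 𝔓 m).zu t) (pvehrO 𝔓 m) ∩ {w | (w - (pvxrGam 𝔓 m).zu t).re ≤ -(pvehDl 𝔓 m / 64)}) := by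
  intro v hv w hw
  have hw0 : w ∈ pveffY0 𝔓 m t := hv hw
  rcases pvef_fY0_sub (pvef_n0 h) t hw0 with h1 | h1
  · exact Or.inl h1
  · exact Or.inr ⟨h1, pvef_fY0_back h w hw0 h1⟩

theorem pvef_Mu_le (m : ℕ) : 3 * pviwMu 𝔓 m ≤ pvefKa c m := by
  have : min (pvlmDel c m) (𝔓.num.rho3 * pvlmH m) ≤ pvlmDel c m := min_le_left _ _
  unfold pviwMu pvefKa
  linarith

/-- **(Rc) THE COLLAR** in the words of R22 -/
theorem pvef_fY_colMu {m : ℕ} {t : τ} (h : PvefNdg 𝔓 m t) : ∀ v ∈ pveffY 𝔓 m t, closedBall v (3 * pviwMu 𝔓 m) ⊆ pvegOM 𝔓 m t ∪ pveffK 𝔓 m t ∪ pvieSh ((pvxrGam 𝔓 m).zu t) (pvehrO 𝔓 m) :=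
  fun v hv => ((closedBall_subset_closedBall (pvef_Mu_le m)).trans (pvef_fY_col h v hv)).trans (union_subset_union_right _ inter_subset_left)

/-- **(Rd)**, second half -/
theorem pvef_fY_hole {m : ℕ} {t : τ} (h0 : IsPreconnected (pveffY0 𝔓 m t)ᶜ) : IsPreconnected (pveffY 𝔓 m t)ᶜ := pvef_core_hole h0 (pvef_Ka_pos c m).le

/-- **(Rd)**, first half -/
theorem pvef_fY_bdd {m : ℕ} {t : τ} (h : PvefNdg 𝔓 m t) : pveffY 𝔓 m t ⊆ closedBall 0 (2 * (((pvxrM 𝔓 m t : ℤ) : ℝ) + 3 * (2 * (pvxrNw 𝔓 m : ℝ) + 1) + 1) * pvlmDel c m) := by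
  intro v hv
  have hΔ := pveh_Dl_pos (pvef_n0 h)
  rcases pvef_fY_sub (pvef_n0 h) t hv with h1 | h1
  · exact pvef_bdd h h1
  · rw [pveh_sh_rO] at h1
    have h2 : v ∈ pvefBl (pvehDl 𝔓 m) (pvefZ 𝔓 m t) (pvefD 𝔓 m t) (pvefW 𝔓 m t) (pvefW 𝔓 m t).length := by
      have e : pvefV (pvxrM 𝔓 m t) (pvxrA 𝔓 t) (pvxrB 𝔓 t) (pvxrEp 𝔓 m t) (pvxrEm 𝔓 m t) (pvxrNw 𝔓 m) (pvefW 𝔓 m t).length = pvefU (pvxrB 𝔓 t) (pvxrEm 𝔓 m t) (pvxrNw 𝔓 m) :=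
        pvef_V_last (pvef_ok_of_ndg h)
      unfold pvefBl
      rw [pvef_W_C, e, ← pvef_zu h]
      exact pveh_sq_mono _ (by linarith) (pveh_open_sub _ _ h1)
    exact mem_closedBall_zero_iff.2 (pvef_block_bdd h le_rfl h2)

theorem pvef_fY_isBdd {m : ℕ} {t : τ} (h : PvefNdg 𝔓 m t) : Bornology.IsBounded (pveffY 𝔓 m t) := isBounded_closedBall.subset (pvef_fY_bdd h)

/-- **(Re)** the mouth, shrunk by the collar -/
theorem pvef_fY_ball (m : ℕ) (t : τ) : closedBall (pvegYp 𝔓 m t) (5 * pvegR 𝔓 m / 16 - pvefKa c m) ⊆ pveffY 𝔓 m t := by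
  intro v hv
  refine pvef_fY_of fun w hw => Or.inr ?_
  rw [mem_closedBall] at hv hw
  show w ∈ closedBall _ _
  rw [mem_closedBall]
  linarith [dist_triangle w v (pvegYp 𝔓 m t)]

/-- **(Re)** a lane of offsets in `[-1/10, 4/10]`, with its two caps, lies in the outer room -/
theorem pvef_Ln_fY0 {m : ℕ} {t : τ} (h : PvefNdg 𝔓 m t) {a' b' : ℝ} (ha : -(1 / 10) ≤ a') (hb : b' ≤ 4 / 10) : pvefLn 𝔓 a' b' m t ⊆ pveffY0 𝔓 m t := by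
  have hΔ := pveh_Dl_pos (pvef_n0 h)
  rintro w ((hw | hw) | hw)
  · exact Or.inl (Or.inl (Or.inl (pvef_cap h (pvccPl_mono _ _ (pvlj_rect_mono le_rfl le_rfl (by linarith) (by linarith)) hw))))
  · exact Or.inl (Or.inl (Or.inr (pvlj_lanes_mono ha hb _ _ _ hw)))
  · refine Or.inl (Or.inr ?_)
    rw [pvef_last_door h, pvef_last_dir h] at hw
    obtain ⟨x, ⟨x1, x2, x3, x4⟩, rfl⟩ := hw
    have e1 : ((pvxrGam 𝔓 m).zu t - (pvehDl 𝔓 m : ℂ) / 2 + (pvehDl 𝔓 m : ℂ) * x).re = ((pvxrGam 𝔓 m).zu t).re - pvehDl 𝔓 m / 2 + pvehDl 𝔓 m * x.re := by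
      simp [Complex.re_ofReal_mul]
    have e2 : ((pvxrGam 𝔓 m).zu t - (pvehDl 𝔓 m : ℂ) / 2 + (pvehDl 𝔓 m : ℂ) * x).im = ((pvxrGam 𝔓 m).zu t).im + pvehDl 𝔓 m * x.im := by
      simp [Complex.im_ofReal_mul]
    show _ ≤ ((pvxrGam 𝔓 m).zu t - (pvehDl 𝔓 m : ℂ) / 2 + (pvehDl 𝔓 m : ℂ) * x).re ∧ ((pvxrGam 𝔓 m).zu t - (pvehDl 𝔓 m : ℂ) / 2 + (pvehDl 𝔓 m : ℂ) * x).re ≤ _ ∧
      _ ≤ ((pvxrGam 𝔓 m).zu t - (pvehDl 𝔓 m : ℂ) / 2 + (pvehDl 𝔓 m : ℂ) * x).im ∧ ((pvxrGam 𝔓 m).zu t - (pvehDl 𝔓 m : ℂ) / 2 + (pvehDl 𝔓 m : ℂ) * x).im ≤ _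
    rw [e1, e2]
    refine ⟨by nlinarith, by nlinarith, by nlinarith, by nlinarith⟩

/-- **(Re)** the core of such a lane lies in the room -/
theorem pvef_Ln_core {m : ℕ} {t : τ} (h : PvefNdg 𝔓 m t) {a' b' r : ℝ} (ha : -(1 / 10) ≤ a') (hb : b' ≤ 4 / 10) (hr : pvefKa c m ≤ r) : pvljCore r (pvefLn 𝔓 a' b' m t) ⊆ pveffY 𝔓 m t :=
  (pvlj_core_anti hr _).trans (pvlj_core_mono _ (pvef_Ln_fY0 h ha hb))

/-- **(Re) (F6) DOOR TO DOOR INSIDE THE ROOM** -/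
theorem pvef_through_fY {m : ℕ} {t : τ} (h : PvefNdg 𝔓 m t) {a' b' s u t₀ t₁ : ℝ} (ha : -(1 / 10) ≤ a') (hb : b' ≤ 4 / 10) (h1 : a' + s ≤ u) (h2 : u + s ≤ b') (hs0 : 1 / 1000 ≤ s) (hs : s ≤ 1 / 2)
    (ht₀ : -3 + s ≤ t₀) (ht₀' : t₀ ≤ 0) (ht₁ : t₁ + s ≤ 2 / 5) (ht₁' : 0 ≤ t₁) :
    JoinedIn (pveffY 𝔓 m t) (pvljPt (pvefZ 𝔓 m t) (pvefD 𝔓 m t) (pvefW 𝔓 m t) 0 t₀ u) (pvljPt (pvefZ 𝔓 m t) (pvefD 𝔓 m t) (pvefW 𝔓 m t) (pvefW 𝔓 m t).length t₁ u) := by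
  refine (pvef_through h (by linarith) (by linarith) h1 h2 (by linarith) hs ht₀ ht₀' ht₁ ht₁').mono (pvef_Ln_core h ha hb ?_)
  obtain ⟨d1, -, d3⟩ := pvef_Dl_bounds h
  have hδ := pvlm_Del_pos c m
  have hΔ := pveh_Dl_pos (pvef_n0 h)
  unfold pvefKa
  nlinarith


end model

/-! ## 6. THE WEAK FRONT: the corridor does not come back to its own mouth      (need of 215 `PvmvGeo'.front'`, 296 `PvyrGeo.front`, and of the hole (Rd))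

`pvef_front` / `pvef_front1`: a point of a block of `f` (`j = length`: the block of `u`) is in front of the first door (`j ≥ 1`: of the second door), or `6 Δ` aside of the axis of the first block, or `12 Δ` behind its centre.
With `pvef_C0_frame` (`S C₀ = 3R/8 ± (R/32 + 2δ)`, `|L C₀| ≤ R/32 + 2δ`): off the square `{|L| ≤ 5R/16 + ..} × {- 5R/16 ≤ S}` of the mouth.      Integers: `PvefOKq`, `pvef_in_p`, `pvef_V_p`, producer `pvef_okq_of_ndg`. -/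

/-- **TWO MORE LINES ON THE TWO BASE CELLS** (`k₁ = 15 g`, `k₂ = 21 g` at cell scale; `13`, `19` at block scale): same side: `k₁` aside;   perpendicular sides: `k₂` aside or behind      [`cor` of `PvefOKb` is too weak for the exit mouth: the ramp runs `6` blocks aside of `e⁻`] -/
structure PvefOKq (a b : ℕ) (ep em : ℤ × ℤ) (k₁ k₂ : ℤ) : Prop where
  same : a = b → k₁ ≤ |pvxrDot ep (pvxrE (a + 1)) - pvxrDot em (pvxrE (a + 1))|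
  perp : (a + b) % 2 = 1 → k₂ ≤ |pvxrDot ep (pvxrE (a + 1)) - pvxrDot em (pvxrE (a + 1))| ∨ k₂ ≤ pvxrDot ep (pvxrE a) - pvxrDot em (pvxrE a)

set_option linter.unusedSimpArgs false in
set_option maxHeartbeats 4000000 in
/-- **SEPARATION FROM THE EXIT MOUTH**: the only block of the polyline in the zone `-12 ≤ ν ≤ 0`, `|λ| ≤ 6` (`ν`, `λ` = normal and lateral coordinates relative to `e⁺`, side `a`) is the first one: the zone contains the mouth `oM` and the funnel -/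
theorem pvef_in_p {B M : ℤ} {a b : ℕ} {ep em : ℤ × ℤ} (h : PvefOKb B M a b ep em) (q : PvefOKq a b ep em 13 19) : ∀ x, PvxrIn (ep - pvxrE a) (pvxrE a) (pvxrCorners M a b ep em 0) x →
    -12 ≤ pvxrDot x (pvxrE a) - pvxrDot ep (pvxrE a) → pvxrDot x (pvxrE a) - pvxrDot ep (pvxrE a) ≤ 0 → |pvxrDot x (pvxrE (a + 1)) - pvxrDot ep (pvxrE (a + 1))| ≤ 6 → x.1 = ep.1 ∧ x.2 = ep.2 := by
  obtain ⟨⟨a4, b4, n0, B0, ep_n, ep_l, em_n, em_l, ep_M, em_M, sep⟩, em_M2, far, cor⟩ := h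
  obtain ⟨same, perp⟩ := q
  rw [abs_le] at ep_l em_l
  obtain ⟨p1, p2⟩ := ep
  obtain ⟨m1, m2⟩ := em
  simp only [le_abs] at far cor same perp
  have r1 : List.range 1 = [0] := rfl
  have r2 : List.range 2 = [0, 1] := rfl
  have r3 : List.range 3 = [0, 1, 2] := rfl
  have r4 : List.range 4 = [0, 1, 2, 3] := rfl
  interval_cases a <;> interval_cases b <;>
  simp only [pvxrDot, pvxrE, Nat.reduceMod, Nat.reduceAdd, lt_abs, Nat.reduceEqDiff, forall_const, false_imp_iff, OfNat.zero_ne_ofNat, OfNat.ofNat_ne_zero, OfNat.one_ne_ofNat, OfNat.ofNat_ne_one, zero_ne_one, one_ne_zero, IsEmpty.forall_iff] at ep_n ep_l em_n em_l ep_M em_M em_M2 sep cor same perp <;>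
  simp only [pvxrDot, pvxrCorners, pvxrNc, pvxrProj, pvxrRo, pvxrMan, pvxrE, pvxrUo, Nat.reduceMod, Nat.reduceAdd, Nat.reduceSub, Prod.mk_add_mk, Prod.mk_sub_mk, true_and, false_and, if_false, Nat.reduceEqDiff, OfNat.zero_ne_ofNat, OfNat.ofNat_ne_zero, OfNat.one_ne_ofNat, OfNat.ofNat_ne_one, zero_ne_one, one_ne_zero, Nat.add_zero] <;>
  (try split_ifs) <;>
  simp only [Nat.reduceAdd, Nat.add_zero, Nat.zero_add, r1, r2, r3, r4, List.range_zero, List.nil_append, List.cons_append, List.map_cons, List.map_nil, pvxrCor, Nat.reduceMod, PvxrIn, PvxrLeg, pvccRotI, and_true, abs_le] <;>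
  (intro x hx h1 h2 h3) <;> omega

/-- differences of coordinates, from the cells to the blocks -/
theorem pvef_dd {n : ℤ} (n0 : 0 ≤ n) (em ep : ℤ × ℤ) (c : ℕ) :
    |(pvxrDot ep (pvxrE c) - pvxrDot em (pvxrE c)) - (2 * n + 1) * (pvxrDot (pvefEp n em ep) (pvxrE c) - pvxrDot (pvefEm n em) (pvxrE c))| ≤ 3 * n := by
  have hp : |ep.1 - (2 * n + 1) * (pvefEp n em ep).1| ≤ 2 * n ∧ |ep.2 - (2 * n + 1) * (pvefEp n em ep).2| ≤ 2 * n := by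
    obtain ⟨c1, c2⟩ := pvef_cc_ep n0 em ep
    obtain ⟨d1, d2⟩ := pvef_cc_near n0 em (pvefEp n em ep)
    rw [abs_le] at c1 c2 d1 d2 ⊢
    rw [abs_le]
    refine ⟨⟨?_, ?_⟩, ?_, ?_⟩ <;> linarith
  have hm : |em.1 - (2 * n + 1) * (pvefEm n em).1| ≤ n ∧ |em.2 - (2 * n + 1) * (pvefEm n em).2| ≤ n := by
    have h2 := pvef_cc_near n0 em (pvefEm n em)
    rwa [pvef_cc_em] at h2
  have h1 := pvef_dot_near hp.1 hp.2 c
  have h2 := pvef_dot_near hm.1 hm.2 c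
  rw [abs_le] at h1 h2 ⊢
  constructor <;> nlinarith

theorem pvef_dd_abs {n k X X' : ℤ} (n0 : 0 ≤ n) (h : |X - (2 * n + 1) * X'| ≤ 3 * n) (hk : (k + 2) * (2 * n + 1) ≤ |X|) : k ≤ |X'| := by
  have hg : (0 : ℤ) < 2 * n + 1 := by omega
  have h1 : |X| ≤ |(2 * n + 1) * X'| + 3 * n := by
    have := abs_sub_abs_le_abs_sub X ((2 * n + 1) * X')
    linarith
  rw [abs_mul, abs_of_pos hg] at h1
  have : (2 * n + 1) * (k - 1) < (2 * n + 1) * |X'| := by nlinarith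
  have := lt_of_mul_lt_mul_left this hg.le
  omega

theorem pvef_dd_le {n k X X' : ℤ} (n0 : 0 ≤ n) (h : |X - (2 * n + 1) * X'| ≤ 3 * n) (hk : (k + 2) * (2 * n + 1) ≤ X) : k ≤ X' := by
  have hg : (0 : ℤ) < 2 * n + 1 := by omega
  rw [abs_le] at h
  have : (2 * n + 1) * (k - 1) < (2 * n + 1) * X' := by nlinarith [h.2]
  have := lt_of_mul_lt_mul_left this hg.le
  omega

/-- **FROM THE CELLS TO THE BLOCKS** -/
theorem pvef_okq_b {a b : ℕ} {ep em : ℤ × ℤ} {n : ℤ} (n0 : 0 ≤ n) (q : PvefOKq a b ep em (15 * (2 * n + 1)) (21 * (2 * n + 1))) : PvefOKq a b (pvefEp n em ep) (pvefEm n em) 13 19 :=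
  ⟨fun hab => pvef_dd_abs n0 (pvef_dd n0 em ep (a + 1)) (by have := q.same hab; linarith),
   fun hab => (q.perp hab).imp (fun h => pvef_dd_abs n0 (pvef_dd n0 em ep (a + 1)) (by linarith)) (fun h => pvef_dd_le n0 (pvef_dd n0 em ep a) (by linarith))⟩

theorem pvef_V_zero (M : ℤ) (a b : ℕ) (ep em : ℤ × ℤ) (n : ℤ) : pvefV M a b ep em n 0 = pvefEp n em ep := by
  simp [pvefV, pvccAccI]

/-- **(WEAK FRONT), integers**: a block `j ≥ 1` of `f` (or the block of `u`) is in front of the first block, or `13` blocks behind it, or `7` blocks aside -/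
theorem pvef_V_p {B M : ℤ} {a b : ℕ} {ep em : ℤ × ℤ} {n : ℤ} (h : PvefOK B M a b ep em n) (q : PvefOKq a b ep em (15 * (2 * n + 1)) (21 * (2 * n + 1))) {j : ℕ} (hj : j ≤ (pvefWord M a b ep em n).length) :
    j = 0 ∨ 1 ≤ pvxrDot (pvefV M a b ep em n j) (pvxrE a) - pvxrDot (pvefEp n em ep) (pvxrE a) ∨ pvxrDot (pvefV M a b ep em n j) (pvxrE a) - pvxrDot (pvefEp n em ep) (pvxrE a) ≤ -13 ∨
      7 ≤ |pvxrDot (pvefV M a b ep em n j) (pvxrE (a + 1)) - pvxrDot (pvefEp n em ep) (pvxrE (a + 1))| := by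
  by_contra hc
  push Not at hc
  obtain ⟨h0, h1, h2, h3⟩ := hc
  obtain ⟨e1, e2⟩ := pvef_in_p (pvef_okb h) (pvef_okq_b h.ok.n0 q) _ (pvef_path_in h (pvef_V_mem h hj)) (by omega) (by omega) (by omega)
  have e : pvefV M a b ep em n j = pvefV M a b ep em n 0 := by rw [pvef_V_zero]; exact Prod.ext e1 e2
  exact h0 (pvef_V_inj h hj (Nat.zero_le _) e)

theorem pvef_latA_le {a : ℕ} (ha : a < 4) (y : ℂ) : |pvxrLatA a y| ≤ pvccN y := by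
  unfold pvccN
  interval_cases a <;> simp only [pvxrLatA, Nat.reduceMod, Nat.zero_mod, abs_neg]
  · exact le_max_right _ _
  · exact le_max_left _ _
  · exact le_max_right _ _
  · exact le_max_left _ _

/-- perpendicular sides: the shift of the base cell `e⁻` is lateral in the frame of the side `a` -/
theorem pvef_shift_perp {a b : ℕ} (ha : a < 4) (hb : b < 4) (hab : (a + b) % 2 = 1) (y : ℂ) (κ : ℝ) :
    ∃ σ : ℝ, (σ = 1 ∨ σ = -1) ∧ pvxrNorA a (y + κ * I ^ b) = pvxrNorA a y ∧ pvxrLatA a (y + κ * I ^ b) = pvxrLatA a y + σ * κ ∧ σ * pvxrLatA a y = pvxrNorA b y := by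
  have e2 : (I : ℂ) ^ 2 = -1 := I_sq
  have e3 : (I : ℂ) ^ 3 = -I := I_pow_three
  interval_cases a <;> interval_cases b <;> simp only [Nat.reduceAdd, Nat.reduceMod, zero_ne_one] at hab
  · exact ⟨1, Or.inl rfl, by simp [pvxrNorA], by simp [pvxrLatA], by simp [pvxrNorA, pvxrLatA]⟩
  · exact ⟨-1, Or.inr rfl, by simp [pvxrNorA, e3], by simp [pvxrLatA, e3]; try ring, by simp [pvxrNorA, pvxrLatA]⟩
  · exact ⟨-1, Or.inr rfl, by simp [pvxrNorA], by simp [pvxrLatA]; try ring, by simp [pvxrNorA, pvxrLatA]⟩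
  · exact ⟨1, Or.inl rfl, by simp [pvxrNorA, e2], by simp [pvxrLatA, e2]; try ring, by simp [pvxrNorA, pvxrLatA]⟩
  · exact ⟨-1, Or.inr rfl, by simp [pvxrNorA], by simp [pvxrLatA]; try ring, by simp [pvxrNorA, pvxrLatA]⟩
  · exact ⟨1, Or.inl rfl, by simp [pvxrNorA, e3], by simp [pvxrLatA, e3]; try ring, by simp [pvxrNorA, pvxrLatA]⟩
  · exact ⟨1, Or.inl rfl, by simp [pvxrNorA], by simp [pvxrLatA], by simp [pvxrNorA, pvxrLatA]⟩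
  · exact ⟨-1, Or.inr rfl, by simp [pvxrNorA, e2], by simp [pvxrLatA, e2]; try ring, by simp [pvxrNorA, pvxrLatA]⟩

theorem pvef_okq_num {ρ x y : ℝ} (hρ : 0 < ρ) (far : (7 / 4 * ρ) ^ 2 ≤ x ^ 2 + y ^ 2) (x1 : -(ρ / 5) ≤ x) (x2 : x < 11 / 10 * ρ) (y1 : -(ρ / 5) ≤ y) (y2 : y < 11 / 10 * ρ) : False := by
  have a1 : x ^ 2 < (11 / 10 * ρ) ^ 2 := sq_lt_sq' (by linarith) x2
  have a2 : y ^ 2 < (11 / 10 * ρ) ^ 2 := sq_lt_sq' (by linarith) y2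
  nlinarith [mul_pos hρ hρ]

theorem pvef_okq_aux {N ρ dn e : ℝ} {n X Y : ℤ} (N0 : 0 < N) (rho0 : 0 < ρ) (fine : 1024 ≤ N * ρ) (hn2 : (n : ℝ) < N * (ρ / 32) + 1)
    (far : (7 / 4 * ρ) ^ 2 ≤ dn ^ 2 + e ^ 2) (hdn : -(ρ / 5) ≤ dn) (he : -(ρ / 5) ≤ e) (hX : N * (dn + 3 * ρ / 8) - 2 < X) (hY : N * (e + 3 * ρ / 8) - 2 < Y) :
    21 * (2 * n + 1) ≤ Y ∨ 21 * (2 * n + 1) ≤ X := by
  by_contra hcon
  rw [not_or, not_le, not_le] at hcon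
  obtain ⟨c1, c2⟩ := hcon
  have c1' : (Y : ℝ) < 21 * (2 * n + 1) := by exact_mod_cast c1
  have c2' : (X : ℝ) < 21 * (2 * n + 1) := by exact_mod_cast c2
  have e1 : N * dn < N * (11 / 10 * ρ) := by nlinarith
  have e2 : N * e < N * (11 / 10 * ρ) := by nlinarith
  exact pvef_okq_num rho0 far hdn (lt_of_mul_lt_mul_left e1 N0.le) he (lt_of_mul_lt_mul_left e2 N0.le)

theorem pvef_okq_same {N ρ dn dl : ℝ} {n Y : ℤ} (N0 : 0 < N) (rho0 : 0 < ρ) (fine : 1024 ≤ N * ρ) (hn2 : (n : ℝ) < N * (ρ / 32) + 1)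
    (far : (7 / 4 * ρ) ^ 2 ≤ dn ^ 2 + dl ^ 2) (h1 : -(ρ / 5) ≤ dn) (h2 : dn ≤ ρ / 5) (hY : N * (|dl| - 3 * ρ / 8) - 2 < Y) : 15 * (2 * n + 1) ≤ Y := by
  have d2 : dn ^ 2 ≤ (ρ / 5) ^ 2 := sq_le_sq' h1 h2
  have d3 : (17 / 10 * ρ) ^ 2 ≤ dl ^ 2 := by nlinarith [mul_pos rho0 rho0]
  have d4 : 17 / 10 * ρ ≤ |dl| := by
    have := sq_le_sq.1 d3
    rwa [abs_of_nonneg (by positivity)] at this
  have d5 : N * (17 / 10 * ρ) ≤ N * |dl| := mul_le_mul_of_nonneg_left d4 N0.le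
  have : (15 : ℝ) * (2 * n + 1) < Y := by nlinarith
  exact le_of_lt (by exact_mod_cast this)

section front
variable {τ : Type} {c : ℝ} {𝔓 : PvxPar τ c}

/-- **(N') THE TWO MORE LINES AT THE MODEL** -/
theorem pvef_okq_of_ndg {m : ℕ} {t : τ} (h : PvefNdg 𝔓 m t) :
    PvefOKq (pvxrA 𝔓 t) (pvxrB 𝔓 t) (pvxrEp 𝔓 m t) (pvxrEm 𝔓 m t) (15 * (2 * pvxrNw 𝔓 m + 1)) (21 * (2 * pvxrNw 𝔓 m + 1)) := by
  obtain ⟨rho0, rho8, rho1, b2, lev, fine, nd_p, nd_m, far⟩ := h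
  have N0 : (0 : ℝ) < (pvlmN c m : ℝ) := by exact_mod_cast pvlm_N_pos c m
  have a4 : pvxrA 𝔓 t < 4 := pvxr_side_lt _
  have b4 : pvxrB 𝔓 t < 4 := pvxr_side_lt _
  have eκ : pvxrKap 𝔓 = 3 * 𝔓.num.rho / 8 := rfl
  have hn2 : (pvxrNw 𝔓 m : ℝ) < (pvlmN c m : ℝ) * (𝔓.num.rho / 32) + 1 := Int.ceil_lt_add_one _
  have c1 := pvef_cell_norA (pvlmN c m) a4 (pvxrYm 𝔓 t + pvxrKap 𝔓 * I ^ pvxrB 𝔓 t)
  have c2 := pvef_cell_latA (pvlmN c m) a4 (pvxrYm 𝔓 t + pvxrKap 𝔓 * I ^ pvxrB 𝔓 t)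
  have np := pvxr_cell_nor (pvlmN c m) (pvxrYp 𝔓 t) (pvxrKap 𝔓)
  have lp := pvxr_cell_lat (pvlmN c m) a4 (pvxrYp 𝔓 t) (pvxrKap 𝔓)
  have hns := pvxr_norm_sq a4 (pvxrYp 𝔓 t) (pvxrYm 𝔓 t)
  have hnp : pvxrNorA (pvxrA 𝔓 t) (pvxrYp 𝔓 t) = pvccN (pvxrYp 𝔓 t) := pvxr_nor_side _
  have hnm : pvxrNorA (pvxrB 𝔓 t) (pvxrYm 𝔓 t) = pvccN (pvxrYm 𝔓 t) := pvxr_nor_side _
  have hle := pvef_norA_le a4 (pvxrYm 𝔓 t)
  have hlp := abs_le.1 (pvef_latA_le a4 (pvxrYp 𝔓 t))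
  have nd_p' := abs_le.1 nd_p
  have nd_m' := abs_le.1 nd_m
  have yp' : pvccN (pvxrYp 𝔓 t) = pvccN (𝔓.ty t).yp := rfl
  have ym' : pvccN (pvxrYm 𝔓 t) = pvccN (𝔓.ty t).ym := rfl
  have far' : (7 / 4 * 𝔓.num.rho) ^ 2 ≤ (pvxrNorA (pvxrA 𝔓 t) (pvxrYp 𝔓 t) - pvxrNorA (pvxrA 𝔓 t) (pvxrYm 𝔓 t)) ^ 2 + (pvxrLatA (pvxrA 𝔓 t) (pvxrYp 𝔓 t) - pvxrLatA (pvxrA 𝔓 t) (pvxrYm 𝔓 t)) ^ 2 := by
    rw [← hns]
    have : ‖pvxrYp 𝔓 t - pvxrYm 𝔓 t‖ = ‖(𝔓.ty t).yp - (𝔓.ty t).ym‖ := rfl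
    exact pow_le_pow_left₀ (by positivity) (by rw [this]; linarith) 2
  have hdn : -(𝔓.num.rho / 5) ≤ pvxrNorA (pvxrA 𝔓 t) (pvxrYp 𝔓 t) - pvxrNorA (pvxrA 𝔓 t) (pvxrYm 𝔓 t) := by
    rw [hnp]
    linarith [nd_p'.1, nd_m'.2]
  refine ⟨fun hab => ?_, fun hab => ?_⟩
  · have hκ : (0 : ℝ) ≤ pvxrKap 𝔓 := by unfold pvxrKap; positivity
    have sh := pvef_shift a4 b4 (pvxrYm 𝔓 t) hκ
    refine pvef_okq_same (N := (pvlmN c m : ℝ)) (ρ := 𝔓.num.rho) N0 rho0 fine hn2 far' hdn ?_ ?_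
    · rw [hnp, hab, hnm]
      linarith [nd_p'.2, nd_m'.1]
    · rw [← eκ]
      push_cast
      exact pvef_lat_aux N0.le lp.1 lp.2 c2.1 c2.2 sh.2
  · obtain ⟨σ, hσ, s1, s2, s3⟩ := pvef_shift_perp a4 b4 hab (pvxrYm 𝔓 t) (pvxrKap 𝔓)
    rw [s1] at c1
    rw [s2] at c2
    refine pvef_okq_aux (N := (pvlmN c m : ℝ)) (ρ := 𝔓.num.rho) (dn := pvxrNorA (pvxrA 𝔓 t) (pvxrYp 𝔓 t) - pvxrNorA (pvxrA 𝔓 t) (pvxrYm 𝔓 t))
      (e := σ * (pvxrLatA (pvxrA 𝔓 t) (pvxrYm 𝔓 t) - pvxrLatA (pvxrA 𝔓 t) (pvxrYp 𝔓 t))) (n := pvxrNw 𝔓 m) N0 rho0 fine hn2 ?_ hdn ?_ ?_ ?_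
    · have : (σ * (pvxrLatA (pvxrA 𝔓 t) (pvxrYm 𝔓 t) - pvxrLatA (pvxrA 𝔓 t) (pvxrYp 𝔓 t))) ^ 2 = (pvxrLatA (pvxrA 𝔓 t) (pvxrYp 𝔓 t) - pvxrLatA (pvxrA 𝔓 t) (pvxrYm 𝔓 t)) ^ 2 := by
        rcases hσ with rfl | rfl <;> ring
      rw [this]
      exact far'
    · rw [mul_sub, s3, hnm]
      have : σ * pvxrLatA (pvxrA 𝔓 t) (pvxrYp 𝔓 t) ≤ pvccN (pvxrYp 𝔓 t) := by
        rcases hσ with rfl | rfl <;> linarith [hlp.1, hlp.2]
      linarith [nd_p'.2, nd_m'.1]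
    · have k1 : ((pvxrDot (pvxrEp 𝔓 m t) (pvxrE (pvxrA 𝔓 t)) : ℤ) : ℝ) > (pvlmN c m : ℝ) * (pvccN (pvxrYp 𝔓 t) + pvxrKap 𝔓) - 1 := np.1
      have k2 : ((pvxrDot (pvxrEm 𝔓 m t) (pvxrE (pvxrA 𝔓 t)) : ℤ) : ℝ) < (pvlmN c m : ℝ) * pvxrNorA (pvxrA 𝔓 t) (pvxrYm 𝔓 t) + 1 := c1.2
      rw [hnp, ← eκ]
      push_cast
      rw [mul_add] at k1
      rw [mul_add, mul_sub]
      linarith
    · have k1 : (pvlmN c m : ℝ) * pvxrLatA (pvxrA 𝔓 t) (pvxrYp 𝔓 t) - 1 < ((pvxrDot (pvxrEp 𝔓 m t) (pvxrE (pvxrA 𝔓 t + 1)) : ℤ) : ℝ) := lp.1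
      have k2 : ((pvxrDot (pvxrEp 𝔓 m t) (pvxrE (pvxrA 𝔓 t + 1)) : ℤ) : ℝ) < (pvlmN c m : ℝ) * pvxrLatA (pvxrA 𝔓 t) (pvxrYp 𝔓 t) + 1 := lp.2
      have k3 : (pvlmN c m : ℝ) * (pvxrLatA (pvxrA 𝔓 t) (pvxrYm 𝔓 t) + σ * pvxrKap 𝔓) - 1 < ((pvxrDot (pvxrEm 𝔓 m t) (pvxrE (pvxrA 𝔓 t + 1)) : ℤ) : ℝ) := c2.1
      have k4 : ((pvxrDot (pvxrEm 𝔓 m t) (pvxrE (pvxrA 𝔓 t + 1)) : ℤ) : ℝ) < (pvlmN c m : ℝ) * (pvxrLatA (pvxrA 𝔓 t) (pvxrYm 𝔓 t) + σ * pvxrKap 𝔓) + 1 := c2.2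
      rw [← eκ]
      push_cast
      rcases hσ with rfl | rfl
      · have := neg_abs_le (((pvxrDot (pvxrEp 𝔓 m t) (pvxrE (pvxrA 𝔓 t + 1)) : ℤ) : ℝ) - ((pvxrDot (pvxrEm 𝔓 m t) (pvxrE (pvxrA 𝔓 t + 1)) : ℤ) : ℝ))
        rw [mul_add] at k3
        rw [mul_add, one_mul, mul_sub]
        rw [one_mul] at k3
        linarith
      · have := le_abs_self (((pvxrDot (pvxrEp 𝔓 m t) (pvxrE (pvxrA 𝔓 t + 1)) : ℤ) : ℝ) - ((pvxrDot (pvxrEm 𝔓 m t) (pvxrE (pvxrA 𝔓 t + 1)) : ℤ) : ℝ))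
        rw [mul_add] at k4
        rw [mul_add]
        nlinarith

/-- the frame of the exit mouth at the centre of a block -/
theorem pvef_ctr_frame (m : ℕ) (t : τ) (x : ℤ × ℤ) :
    pvegS (pvegYp 𝔓 m t) (I ^ pvxrA 𝔓 t) (pvefCtr (pvlmDel c m) (pvxrNw 𝔓 m) (pvxrEm 𝔓 m t) x) = pvegS (pvegYp 𝔓 m t) (I ^ pvxrA 𝔓 t) (pvefC0 𝔓 m t) +
        pvehDl 𝔓 m * ((pvxrDot x (pvxrE (pvxrA 𝔓 t)) - pvxrDot (pvefEp (pvxrNw 𝔓 m) (pvxrEm 𝔓 m t) (pvxrEp 𝔓 m t)) (pvxrE (pvxrA 𝔓 t)) : ℤ) : ℝ) ∧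
      pvegL (pvegYp 𝔓 m t) (I ^ pvxrA 𝔓 t) (pvefCtr (pvlmDel c m) (pvxrNw 𝔓 m) (pvxrEm 𝔓 m t) x) = pvegL (pvegYp 𝔓 m t) (I ^ pvxrA 𝔓 t) (pvefC0 𝔓 m t) +
        pvehDl 𝔓 m * ((pvxrDot x (pvxrE (pvxrA 𝔓 t + 1)) - pvxrDot (pvefEp (pvxrNw 𝔓 m) (pvxrEm 𝔓 m t) (pvxrEp 𝔓 m t)) (pvxrE (pvxrA 𝔓 t + 1)) : ℤ) : ℝ) := by
  have a4 : pvxrA 𝔓 t < 4 := pvxr_side_lt _
  obtain ⟨x1, x2⟩ := pvef_x_ctr (pvlmDel c m) (pvxrNw 𝔓 m) (pvxrEm 𝔓 m t) x a4 (pvegYp 𝔓 m t)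
  obtain ⟨y1, y2⟩ := pvef_x_ctr (pvlmDel c m) (pvxrNw 𝔓 m) (pvxrEm 𝔓 m t) (pvefEp (pvxrNw 𝔓 m) (pvxrEm 𝔓 m t) (pvxrEp 𝔓 m t)) a4 (pvegYp 𝔓 m t)
  have eΔ : pvehDl 𝔓 m = (2 * (pvxrNw 𝔓 m : ℝ) + 1) * pvlmDel c m := rfl
  unfold pvefC0
  rw [x1, x2, y1, y2, eΔ]
  push_cast
  constructor <;> ring

/-- **(WEAK FRONT)**, blocks `j ≥ 1` and the block of `u` (`j = length`): in front of the first block, or `6 Δ` aside of its axis, or `12 Δ` behind its centre -/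
theorem pvef_front1 {m : ℕ} {t : τ} (h : PvefNdg 𝔓 m t) {j : ℕ} (h1 : 1 ≤ j) (hj : j ≤ (pvefW 𝔓 m t).length) {w : ℂ} (hw : w ∈ pvefBl (pvehDl 𝔓 m) (pvefZ 𝔓 m t) (pvefD 𝔓 m t) (pvefW 𝔓 m t) j) :
    pvegS (pvegYp 𝔓 m t) (I ^ pvxrA 𝔓 t) (pvefC0 𝔓 m t) + pvehDl 𝔓 m / 2 ≤ pvegS (pvegYp 𝔓 m t) (I ^ pvxrA 𝔓 t) w ∨
      6 * pvehDl 𝔓 m < |pvegL (pvegYp 𝔓 m t) (I ^ pvxrA 𝔓 t) w - pvegL (pvegYp 𝔓 m t) (I ^ pvxrA 𝔓 t) (pvefC0 𝔓 m t)| ∨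
      pvegS (pvegYp 𝔓 m t) (I ^ pvxrA 𝔓 t) w < pvegS (pvegYp 𝔓 m t) (I ^ pvxrA 𝔓 t) (pvefC0 𝔓 m t) - 12 * pvehDl 𝔓 m := by
  have hΔ := pveh_Dl_pos (pvef_n0 h)
  unfold pvefBl at hw
  rw [pvef_W_C] at hw
  have hN : pvccN (w - pvefCtr (pvlmDel c m) (pvxrNw 𝔓 m) (pvxrEm 𝔓 m t) (pvefV (pvxrM 𝔓 m t) (pvxrA 𝔓 t) (pvxrB 𝔓 t) (pvxrEp 𝔓 m t) (pvxrEm 𝔓 m t) (pvxrNw 𝔓 m) j)) ≤ pvehDl 𝔓 m / 2 := hw
  obtain ⟨s1, s2⟩ := pvef_x_SL (pvef_I_pow (pvxrA 𝔓 t)) (pvegYp 𝔓 m t) w (pvefCtr (pvlmDel c m) (pvxrNw 𝔓 m) (pvxrEm 𝔓 m t) (pvefV (pvxrM 𝔓 m t) (pvxrA 𝔓 t) (pvxrB 𝔓 t) (pvxrEp 𝔓 m t) (pvxrEm 𝔓 m t) (pvxrNw 𝔓 m) j))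
  obtain ⟨c1, c2⟩ := pvef_ctr_frame (𝔓 := 𝔓) m t (pvefV (pvxrM 𝔓 m t) (pvxrA 𝔓 t) (pvxrB 𝔓 t) (pvxrEp 𝔓 m t) (pvxrEm 𝔓 m t) (pvxrNw 𝔓 m) j)
  rw [c1] at s1
  rw [c2] at s2
  have s1' := abs_le.1 (s1.trans hN)
  have s2' := abs_le.1 (s2.trans hN)
  rcases pvef_V_p (pvef_ok_of_ndg h) (pvef_okq_of_ndg h) hj with h0 | h0 | h0 | h0
  · omega
  · left
    have h0' : (1 : ℝ) ≤ ((pvxrDot (pvefV (pvxrM 𝔓 m t) (pvxrA 𝔓 t) (pvxrB 𝔓 t) (pvxrEp 𝔓 m t) (pvxrEm 𝔓 m t) (pvxrNw 𝔓 m) j) (pvxrE (pvxrA 𝔓 t)) - pvxrDot (pvefEp (pvxrNw 𝔓 m) (pvxrEm 𝔓 m t) (pvxrEp 𝔓 m t)) (pvxrE (pvxrA 𝔓 t)) : ℤ) : ℝ) := by exact_mod_cast h0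
    have := mul_le_mul_of_nonneg_left h0' hΔ.le
    linarith [s1'.1]
  · right; right
    have h0' : ((pvxrDot (pvefV (pvxrM 𝔓 m t) (pvxrA 𝔓 t) (pvxrB 𝔓 t) (pvxrEp 𝔓 m t) (pvxrEm 𝔓 m t) (pvxrNw 𝔓 m) j) (pvxrE (pvxrA 𝔓 t)) - pvxrDot (pvefEp (pvxrNw 𝔓 m) (pvxrEm 𝔓 m t) (pvxrEp 𝔓 m t)) (pvxrE (pvxrA 𝔓 t)) : ℤ) : ℝ) ≤ -13 := by exact_mod_cast h0
    have := mul_le_mul_of_nonneg_left h0' hΔ.le
    linarith [s1'.2]
  · right; left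
    rcases le_abs.1 h0 with h0 | h0
    · have h0' : (7 : ℝ) ≤ ((pvxrDot (pvefV (pvxrM 𝔓 m t) (pvxrA 𝔓 t) (pvxrB 𝔓 t) (pvxrEp 𝔓 m t) (pvxrEm 𝔓 m t) (pvxrNw 𝔓 m) j) (pvxrE (pvxrA 𝔓 t + 1)) - pvxrDot (pvefEp (pvxrNw 𝔓 m) (pvxrEm 𝔓 m t) (pvxrEp 𝔓 m t)) (pvxrE (pvxrA 𝔓 t + 1)) : ℤ) : ℝ) := by exact_mod_cast h0
      have := mul_le_mul_of_nonneg_left h0' hΔ.le
      refine lt_of_lt_of_le ?_ (le_abs_self _)
      linarith [s2'.1]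
    · have h0' : (7 : ℝ) ≤ -((pvxrDot (pvefV (pvxrM 𝔓 m t) (pvxrA 𝔓 t) (pvxrB 𝔓 t) (pvxrEp 𝔓 m t) (pvxrEm 𝔓 m t) (pvxrNw 𝔓 m) j) (pvxrE (pvxrA 𝔓 t + 1)) - pvxrDot (pvefEp (pvxrNw 𝔓 m) (pvxrEm 𝔓 m t) (pvxrEp 𝔓 m t)) (pvxrE (pvxrA 𝔓 t + 1)) : ℤ) : ℝ) := by exact_mod_cast h0
      have := mul_le_mul_of_nonneg_left h0' hΔ.le
      refine lt_of_lt_of_le ?_ (neg_le_abs _)
      linarith [s2'.2]

/-- **(WEAK FRONT)**, all blocks -/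
theorem pvef_front {m : ℕ} {t : τ} (h : PvefNdg 𝔓 m t) {j : ℕ} (hj : j ≤ (pvefW 𝔓 m t).length) {w : ℂ} (hw : w ∈ pvefBl (pvehDl 𝔓 m) (pvefZ 𝔓 m t) (pvefD 𝔓 m t) (pvefW 𝔓 m t) j) :
    pvegS (pvegYp 𝔓 m t) (I ^ pvxrA 𝔓 t) (pvefC0 𝔓 m t) - pvehDl 𝔓 m / 2 ≤ pvegS (pvegYp 𝔓 m t) (I ^ pvxrA 𝔓 t) w ∨
      6 * pvehDl 𝔓 m < |pvegL (pvegYp 𝔓 m t) (I ^ pvxrA 𝔓 t) w - pvegL (pvegYp 𝔓 m t) (I ^ pvxrA 𝔓 t) (pvefC0 𝔓 m t)| ∨
      pvegS (pvegYp 𝔓 m t) (I ^ pvxrA 𝔓 t) w < pvegS (pvegYp 𝔓 m t) (I ^ pvxrA 𝔓 t) (pvefC0 𝔓 m t) - 12 * pvehDl 𝔓 m := by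
  have hΔ := pveh_Dl_pos (pvef_n0 h)
  rcases Nat.eq_zero_or_pos j with rfl | h1
  · left
    unfold pvefBl at hw
    rw [pvef_W_C, pvef_V_zero] at hw
    have hN : pvccN (w - pvefC0 𝔓 m t) ≤ pvehDl 𝔓 m / 2 := hw
    have s1 := abs_le.1 ((pvef_x_SL (pvef_I_pow (pvxrA 𝔓 t)) (pvegYp 𝔓 m t) w (pvefC0 𝔓 m t)).1.trans hN)
    linarith [s1.1]
  · exact (pvef_front1 h h1 hj hw).imp_left fun h => by linarith

end front

theorem pvef_eqns_cite : True := by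
  have := @pvefRd.eq_1; have := @pvefIx.eq_1; have := @pvefO.eq_1; have := @pvefEm.eq_1; have := @pvefEp.eq_1; have := @pvefCc.eq_1; have := @pvefB.eq_1; have := @pvefM.eq_1
  have := @pvefWord.eq_1; have := @pvefPath.eq_1; have := @pvefV.eq_1; have := @pvefU.eq_1; have := @pvefCtr.eq_1; have := @pvefZ0.eq_1; have := @pvefD0.eq_1
  have := @pvefBl.eq_1; have := @pvefBlocks.eq_1; have := @pvefWest.eq_1; have := @pvefBody.eq_1; have := @pvefFK.eq_1; have := @pvefWL.eq_1; have := @pvefFY.eq_1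
  have := @pvefW.eq_1; have := @pvefZ.eq_1; have := @pvefD.eq_1; have := @pvefC0.eq_1; have := @pvefF.eq_1; have := @pveffK.eq_1; have := @pveffY0.eq_1; have := @pveffY.eq_1; have := @pvefKa.eq_1; have := @pvefLn.eq_1
  trivial

end Claimed.Agent.R289
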