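-- KEEP
import Claimed.Agent.R289.Exit.ParEng
import Claimed.Agent.R289.Exit.ParEngY
import Claimed.Agent.R289.Exit.ParEngR
import Claimed.Agent.R289.Exit.ParEngC
import Claimed.Agent.R289.Exit.ParEngF
import Claimed.Agent.R289.Exit.ParGeo
import Claimed.Agent.R289.Exit.AnaDefs
import Claimed.Agent.R289.Exit.EngYe

/-!
# Row 289 (S0537), THE WALL, ROAD E, node (1) `exit_pvie_eng`, file Exit/EngAll : THE ENGINE OF RECORD = ONE DEFINITION, `PvieEng.Wf` = COMPILED GLUE OVER NAMED LEAVES      (pen helper124; prefix `pvea`, `Pvea`)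

* `PveaIn` = the data of the engine which are NOT regions (`kit XQ XV sp rp rG`: producers 34 258 244 161);   `PveaIn.Ok` = the lines (kit) (P) of `PvieEng.Wf`, VERBATIM
* **`pveaEng 𝔓 J : PvieEng τ`** : `o* i*` := `Exit/ParEng` (124), `r* rO` := `Exit/ParEngR` (166), `eM := iM`,
  **v6 = L2 (R27 of 234): `eY := pvvzEY` = open `3 μ₀`-core of `pveheY ∪ pvegIK` (118, `Exit/EngYe`)**
  **`eK := pveheK ∪ pvegIK`, (old) `eY := pveheY ∪ pvegIK`** [GAP FOUND: the last `g`-block ends at `S = 3ρh/8 - Δ/2 ≈ .344 ρh`, the mouth ball at `.3125 ρh`: without the funnel `iK` the room of the thick link is DISCONNECTED]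
  **v4: `oK oY iK iY` := `pvegOKa pvegOYa pvegIKa pvegIYa`** (ParEng v2: cure of the SLIT of 39 + W-7 of 208: funnel up to the plane of the door, tile := funnel minus mouth minus door region, room := mouth ∪ funnel)
  **v5: `oY iY` := `pvegOYc pvegIYc`** (245, `Exit/ParEngY`: ROOMS OF RECORD, R22 (2) of 234: mouth, funnel and neck shrunk by the collar `3 * pvilMu`: (Rc) `pvey_oYc_collar`, (Rd) `pvey_oYc_hole`, (Re) `pvey_mem_*`, W-7 `pvey_oYc_back pvey_iYc_front`; `⊆ pvegOYa pvegIYa`)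
* `PveaPar 𝔓 m0` = what is used of the parameters (producer 73 at `pvxParOf`: doors of helper1, regions of 209, `pvxo_fine`, `pvxo_tip_*`, `pvxo_nd_far`, `PvehGeo`)
* LEAVES (deterministic plane geometry; `Z j`, `C j` = door points and centres of the cells of the thin chain `l1 t`; `Yp Ym` = centres of the tip cells; `S` = `pvegS`):
  (E1) `pvea_l1_o`     a door point / centre of `l1 t` is IN FRONT of the exit door or FAR from `Yp`            (E2) `pvea_l1_i`   the same at the entrance door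
  (E3) `pvea_l1_box`   door points and centres of `l1 t` are off the own-level box (sup norm)                 (E4) `pvea_l1_end` tiles and doors `j < n` of `l1 t` miss the blocks of 166
  (E5) `pvea_end_o`    the blocks of 166 are FAR from `Yp`            (E6) `pvea_end_i`  plug block in front of the entrance door            (E7) `pvea_l1_simple`            (E8) `pvea_last`  the last door of `l1 t` is the west door of the plug
  (E9) `pvea_bdd`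
* **`pvea_wf`** (PROVED over the leaves) : `PveaPar 𝔓 m0 → J.Ok 𝔓 m0 r κs → ∃ Cth, PvieEng.Wf 𝔓 (pveaEng 𝔓 J) m0 Cth r κs`      (`pvea_cyc` = `cyc_disj`, `pvea_res_off` = `res_off`)
* **`pvea_par`** (PROVED) : `PveaPar (pvxParOf N hN c) N.m0`;   `pvea_tyOk` : every type of the menu of record is admissible
* `pveaInOf U c sp rp rG` = the data of record (`kit XQ XV` := the reference family of 258 scaled);   `pvea_unit_ref` (ONE radius for all meshes), `PveaUnitOk`, `pvea_in_ok`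
* **`pvea_exit_par`** : `PveaUnitOk (pvxParOf N hN c) U sp rp rG N.m0 κs → PvnaWf (pvxParOf N hN c) (pveaEng (pvxParOf N hN c) (pveaInOf U c sp rp rG))` = node (1) at the parameters of record
v1: `PveaPar.ok` is now a THEOREM at `B := pvxrBx` of helper1 (own box fattened by `ρ h / 10`; with the bare box `ep_l` fails near the corners: 285), from the field `ndg : PvxrNdg`.
-/

set_option autoImplicit false

namespace Claimed.Agent.R289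

open Set Metric Complex

/-! ## 1. the data, the engine -/

/-- the data of the engine which are not regions -/
structure PveaIn where
  kit : ℕ → ℝ → PvthKit
  XQ : ℕ → ℝ → PvtTurn → Conf PvPt → ℂ
  XV : ℕ → ℝ → PvtTurn → Conf PvPt → ℂ
  sp : ℕ → PviePl
  rp : ℕ → PviePl
  rG : ℕ → ℝ → Set (Conf PvPt)

/-- the reference region of the door plug of level `m` -/
def PveaIn.O0 (J : PveaIn) (m : ℕ) : Set ℂ := (J.kit m 1).O₀

section eng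

variable {τ : Type} {c : ℝ} (𝔓 : PvxPar τ c) (J : PveaIn)

/-- **THE ENGINE OF RECORD** -/
noncomputable def pveaEng : PvieEng τ where
  kit := J.kit
  XQ := J.XQ
  XV := J.XV
  sp := J.sp
  rp := J.rp
  rO := pvehrO 𝔓
  rG := J.rG
  oM := pvegOM 𝔓
  oK := pvegOKa 𝔓 J.O0
  oY := pvegOYc 𝔓
  iM := pvegIM 𝔓
  iK := pvegIKa 𝔓 J.O0
  iY := pvegIYc 𝔓
  eM := pvegIM 𝔓
  eK := fun m t => pveheK 𝔓 (pvegIM 𝔓) m t ∪ pvegIK 𝔓 m t
  eY := pvvzEY 𝔓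
  rK := pvehrK 𝔓 J.O0
  rY := pvehrY 𝔓 J.O0
  fM := pvegOM 𝔓
  fK := pveffK 𝔓
  fY := pveffY 𝔓

/-- **the lines (kit), (P) of `PvieEng.Wf`**, verbatim      [producers: 34 258 244 (kit, `G_sub`), 161 (plugs in exploration form), 166 (`rp_box` against `pvehrO`)] -/
structure PveaIn.Ok (m0 : ℕ) (r κs : ℕ → ℝ) : Prop where
  mO : ∀ m, MeasurableSet (J.O0 m)
  kit_del : ∀ m ε, (J.kit m ε).δ = pvlmDel c m
  kit_ref : ∀ m ε, PvccKitRef (J.kit m ε) (r m)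
  kit_O : ∀ m ε ε', (J.kit m ε).O₀ = (J.kit m ε').O₀
  kit_K : ∀ m ε ε', (J.kit m ε).K₀ = (J.kit m ε').K₀
  dp_win : ∀ m, m0 ≤ m → ∀ ε, pvwSq 0 (3 * (pvlmDel c m / 40)) ⊆ (J.kit m ε).O₀
  κs0 : ∀ m, 0 < κs m
  rp_h : ∀ m, m0 ≤ m → 0 < (J.rp m).h
  rp_win : ∀ m, m0 ≤ m → pvwSq 0 (3 * (J.rp m).h) ⊆ pvehrO 𝔓 m

/-- **what is used of the parameters**      [producer: 73 at `pvxParOf`] -/
structure PveaPar (m0 : ℕ) : Prop where
  rho0 : 0 < 𝔓.num.rho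
  rho3 : 0 ≤ 𝔓.num.rho3
  gam : ∀ m, 𝔓.Γ m = pvxrGam 𝔓 m
  reg : ∀ m π, 𝔓.reg m π = pvfeRegAt (𝔓.Γ m) 𝔓.ty 𝔓.cp 𝔓.cm 𝔓.num (pvlmH m) π.p
  doors : ∀ m, m0 ≤ m → PvfeDoors (𝔓.Γ m) 𝔓.ty 𝔓.num (pvlmH m)
  fine : ∀ m, m0 ≤ m → 1024 * pvlmDel c m ≤ 𝔓.num.rho * pvlmH m
  cp_small : ∀ t, ∀ w ∈ 𝔓.cp t, ‖w - (𝔓.ty t).yp‖ ≤ 𝔓.num.rho / 10
  cm_small : ∀ t, ∀ w ∈ 𝔓.cm t, ‖w - (𝔓.ty t).ym‖ ≤ 𝔓.num.rho / 10
  /-- the non degeneracy of helper1 (`Exit/TrPar.lean` sec. 6): gives `PvxrOK` at `B := pvxrBx` (own box FATTENED by `ρ h / 10`), `PvehGeo`, `pvxr_zu`, `pvxr_front_m/p`, `pvxr_poly_centres` .. -/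
  ndg : ∀ m, m0 ≤ m → ∀ t, pviwTyOk 𝔓 t → PvxrNdg 𝔓 m t

/-- door point number `j` of the thin chain `l1 t`, relative to the centre of the pin -/
noncomputable def pveaZ (m : ℕ) (t : τ) (j : ℕ) : ℂ := pvthZ (pvlmDel c m) ((𝔓.Γ m).pout t) ((𝔓.Γ m).dout t) ((𝔓.Γ m).l1 t) j
/-- frame number `j` -/
noncomputable def pveaF (m : ℕ) (t : τ) (j : ℕ) : ℂ := pvthD ((𝔓.Γ m).dout t) ((𝔓.Γ m).l1 t) j
/-- centre of the cell number `j` -/
noncomputable def pveaC (m : ℕ) (t : τ) (j : ℕ) : ℂ := pveaZ 𝔓 m t j + (pvlmDel c m : ℂ) * pveaF 𝔓 m t j / 2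
/-- the end of the `Σ₁` cycle: blocks of the thick link, tile and region of the reference plug (166) -/
noncomputable def pveaEnd (m : ℕ) (t : τ) : Set ℂ :=
  pveheK 𝔓 (pvegIM 𝔓) m t ∪ pvieSh ((pvxrGam 𝔓 m).zu t) (pvehrK 𝔓 J.O0 m) ∪ pvieSh ((pvxrGam 𝔓 m).zu t) (pvehrO 𝔓 m)

end eng

theorem pvea_eqns_cite : True := by
  have := @PveaIn.O0.eq_1; have := @pveaEng.eq_1; have := @pveaZ.eq_1; have := @pveaF.eq_1; have := @pveaC.eq_1; have := @pveaEnd.eq_1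
  trivial

/-! ## 2. the leaves -/

section leaves

variable {τ : Type} {c : ℝ} {𝔓 : PvxPar τ c} {J : PveaIn} {m0 : ℕ} {r κs : ℕ → ℝ}

theorem PveaPar.lev (H : PveaPar 𝔓 m0) {m : ℕ} (hm : m0 ≤ m) : PvegLev 𝔓 m where
  rho0 := H.rho0
  del := by rw [H.gam]; rfl
  doors := H.doors m hm
  fine := by
    have := H.fine m hm
    have := pvlm_Del_pos c m
    linarith

/-- the collar of the rooms is a nonnegative number -/
theorem PveaPar.mu0 (H : PveaPar 𝔓 m0) (m : ℕ) : 0 ≤ pvilMu 𝔓 m := pvey_mu_nonneg H.rho3 m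

theorem PveaPar.mu3 (H : PveaPar 𝔓 m0) (m : ℕ) : 0 ≤ 3 * pviwMu 𝔓 m := by
  have h : 0 ≤ pvilMu 𝔓 m := H.mu0 m
  have e : pviwMu 𝔓 m = pvilMu 𝔓 m := rfl
  rw [e]
  linarith

/-- `pvxo_nd_far` (third clause of `pviwTyOk` since InstWf v4) -/
theorem PveaPar.far (_ : PveaPar 𝔓 m0) (t : τ) (hT : pviwTyOk 𝔓 t) : 7 * 𝔓.num.rho / 4 ≤ ‖(𝔓.ty t).yp - (𝔓.ty t).ym‖ := hT.2.2

/-- the record of 166 -/
theorem PveaPar.geo (H : PveaPar 𝔓 m0) (m : ℕ) (hm : m0 ≤ m) (t : τ) (hT : pviwTyOk 𝔓 t) : PvehGeo 𝔓 m t := pvxr_geo (H.ndg m hm t hT)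

/-- the integer non degeneracy of helper1, `B := pvxrBx` = half side, in cells, of the own-level box fattened by `ρ h / 10` -/
theorem PveaPar.ok (H : PveaPar 𝔓 m0) (m : ℕ) (hm : m0 ≤ m) (t : τ) (hT : pviwTyOk 𝔓 t) :
    PvxrOK (pvxrBx 𝔓 m t) (pvxrM 𝔓 m t) (pvxrA 𝔓 t) (pvxrB 𝔓 t) (pvxrEp 𝔓 m t) (pvxrEm 𝔓 m t) (pvxrNw 𝔓 m) := pvxr_ok (H.ndg m hm t hT)

/-! ### kit of the cells of the thin chain (299) -/

theorem pvea_adj_unit {u : ℤ × ℤ} (hu : PvxrUnit u) (q : ℤ × ℤ) : PvtAdj4 q (q + u) := by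
  obtain ⟨q1, q2⟩ := q
  rcases pvxr_unit_cases hu with rfl | rfl | rfl | rfl <;> simp [PvtAdj4] <;> ring

theorem pvea_centres_head (z d : ℂ) (l : List PvtTurn) : ∃ r, pvtCentres z d l = z :: r := by
  cases l with
  | nil => exact ⟨[], rfl⟩
  | cons τ l => exact ⟨_, rfl⟩

/-- a list of cells whose centres are the centres of a word is a chain of cells -/
theorem pvea_chain (l : List PvtTurn) : ∀ {u : ℤ × ℤ} (_ : PvxrUnit u) (c1 : ℤ × ℤ) (t : List (ℤ × ℤ)), pvtCentres (pvtZ c1) (pvtZ u) l = (c1 :: t).map pvtZ →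
    List.IsChain PvtAdj4 (c1 :: t) := by
  induction l with
  | nil =>
    intro u hu c1 t h
    have h1 := congrArg List.length h
    simp only [pvtCentres, List.length_cons, List.length_nil, List.length_map] at h1
    have : t = [] := List.eq_nil_of_length_eq_zero (by omega)
    subst this
    exact List.isChain_singleton _
  | cons τ l ih =>
    intro u hu c1 t h
    simp only [pvtCentres, List.map_cons, List.cons.injEq, true_and] at h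
    rw [← pvccRotI_eq, ← pvtZ_add] at h
    obtain ⟨r, hr⟩ := pvea_centres_head (pvtZ (c1 + pvccRotI u τ)) (pvtZ (pvccRotI u τ)) l
    cases t with
    | nil => rw [hr] at h; simp at h
    | cons c2 t' =>
      have h2 := h
      rw [hr, List.map_cons, List.cons.injEq] at h2
      have e : c2 = c1 + pvccRotI u τ := (pvtZ_injective h2.1).symm
      subst e
      rw [List.isChain_cons_cons]
      exact ⟨pvea_adj_unit (hu.rot τ) c1, ih (hu.rot τ) _ _ h⟩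

/-- **THE CELLS OF THE THIN CHAIN OF RECORD**: `e⁺ :: tl` = the cells of the polyline of helper1 (the last one is the cell which follows the word);   doors and centres in cell form -/
theorem pvea_cells (H : PveaPar 𝔓 m0) {m : ℕ} (hm : m0 ≤ m) {t : τ} (hT : pviwTyOk 𝔓 t) :
    ∃ tl : List (ℤ × ℤ),
      pvxrCells (pvxrEp 𝔓 m t - pvxrE (pvxrA 𝔓 t)) (pvxrE (pvxrA 𝔓 t)) (pvxrCorners (pvxrM 𝔓 m t) (pvxrA 𝔓 t) (pvxrB 𝔓 t) (pvxrEp 𝔓 m t) (pvxrEm 𝔓 m t) (pvxrNw 𝔓 m)) = pvxrEp 𝔓 m t :: tl ∧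
      pvtCentres (pvtZ (pvxrEp 𝔓 m t)) (pvtZ (pvxrEp 𝔓 m t) - pvtZ (pvxrEp 𝔓 m t - pvxrE (pvxrA 𝔓 t))) ((𝔓.Γ m).l1 t) = (pvxrEp 𝔓 m t :: tl).map pvtZ ∧
      List.IsChain PvtAdj4 ((pvxrEp 𝔓 m t - pvxrE (pvxrA 𝔓 t)) :: pvxrEp 𝔓 m t :: tl) ∧
      ((𝔓.Γ m).l1 t).length = tl.length ∧
      (∀ j, pveaZ 𝔓 m t j = pvthZ (pvlmDel c m) ((pvtCtr (pvlmDel c m) (pvxrEp 𝔓 m t - pvxrE (pvxrA 𝔓 t)) + pvtCtr (pvlmDel c m) (pvxrEp 𝔓 m t)) / 2)
        (pvtZ (pvxrEp 𝔓 m t) - pvtZ (pvxrEp 𝔓 m t - pvxrE (pvxrA 𝔓 t))) ((𝔓.Γ m).l1 t) j) ∧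
      (∀ j, pveaF 𝔓 m t j = pvthD (pvtZ (pvxrEp 𝔓 m t) - pvtZ (pvxrEp 𝔓 m t - pvxrE (pvxrA 𝔓 t))) ((𝔓.Γ m).l1 t) j) ∧
      (∀ j (hj : j + 1 < ((pvxrEp 𝔓 m t - pvxrE (pvxrA 𝔓 t)) :: pvxrEp 𝔓 m t :: tl).length), pveaZ 𝔓 m t j =
        (pvtCtr (pvlmDel c m) (((pvxrEp 𝔓 m t - pvxrE (pvxrA 𝔓 t)) :: pvxrEp 𝔓 m t :: tl)[j]) + pvtCtr (pvlmDel c m) (((pvxrEp 𝔓 m t - pvxrE (pvxrA 𝔓 t)) :: pvxrEp 𝔓 m t :: tl)[j + 1])) / 2) ∧
      (∀ j (hj : j < (pvxrEp 𝔓 m t :: tl).length), pveaC 𝔓 m t j = pvtCtr (pvlmDel c m) ((pvxrEp 𝔓 m t :: tl)[j])) := by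
  have hok := H.ok m hm t hT
  have hu := pvxr_unit_E (pvxrA 𝔓 t)
  have hcons := pvxr_cons hok
  have hcen := pvxr_poly_centres hu _ _ hcons
  have e0 : pvxrEp 𝔓 m t - pvxrE (pvxrA 𝔓 t) + pvxrE (pvxrA 𝔓 t) = pvxrEp 𝔓 m t := sub_add_cancel _ _
  rw [e0] at hcen
  have ed : pvtZ (pvxrEp 𝔓 m t) - pvtZ (pvxrEp 𝔓 m t - pvxrE (pvxrA 𝔓 t)) = pvtZ (pvxrE (pvxrA 𝔓 t)) := by
    have := pvtZ_add (pvxrEp 𝔓 m t - pvxrE (pvxrA 𝔓 t)) (pvxrE (pvxrA 𝔓 t))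
    rw [e0] at this
    rw [this]
    ring
  have el : (𝔓.Γ m).l1 t = pvxrPoly (pvxrEp 𝔓 m t - pvxrE (pvxrA 𝔓 t)) (pvxrCorners (pvxrM 𝔓 m t) (pvxrA 𝔓 t) (pvxrB 𝔓 t) (pvxrEp 𝔓 m t) (pvxrEm 𝔓 m t) (pvxrNw 𝔓 m)) := by
    rw [H.gam, pvxr_gam_l1]
    rfl
  obtain ⟨r, hr⟩ := pvea_centres_head (pvtZ (pvxrEp 𝔓 m t)) (pvtZ (pvxrE (pvxrA 𝔓 t)))
    (pvxrPoly (pvxrEp 𝔓 m t - pvxrE (pvxrA 𝔓 t)) (pvxrCorners (pvxrM 𝔓 m t) (pvxrA 𝔓 t) (pvxrB 𝔓 t) (pvxrEp 𝔓 m t) (pvxrEm 𝔓 m t) (pvxrNw 𝔓 m)))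
  obtain ⟨tl, htl⟩ : ∃ tl, pvxrCells (pvxrEp 𝔓 m t - pvxrE (pvxrA 𝔓 t)) (pvxrE (pvxrA 𝔓 t)) (pvxrCorners (pvxrM 𝔓 m t) (pvxrA 𝔓 t) (pvxrB 𝔓 t) (pvxrEp 𝔓 m t) (pvxrEm 𝔓 m t) (pvxrNw 𝔓 m)) = pvxrEp 𝔓 m t :: tl := by
    rw [hr] at hcen
    cases hL : pvxrCells (pvxrEp 𝔓 m t - pvxrE (pvxrA 𝔓 t)) (pvxrE (pvxrA 𝔓 t)) (pvxrCorners (pvxrM 𝔓 m t) (pvxrA 𝔓 t) (pvxrB 𝔓 t) (pvxrEp 𝔓 m t) (pvxrEm 𝔓 m t) (pvxrNw 𝔓 m)) with
    | nil => rw [hL] at hcen; simp at hcen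
    | cons x tl =>
      rw [hL, List.map_cons, List.cons.injEq] at hcen
      exact ⟨tl, by rw [pvtZ_injective hcen.1]⟩
  rw [htl] at hcen
  have h3 : pvtCentres (pvtZ (pvxrEp 𝔓 m t)) (pvtZ (pvxrEp 𝔓 m t) - pvtZ (pvxrEp 𝔓 m t - pvxrE (pvxrA 𝔓 t))) ((𝔓.Γ m).l1 t) = (pvxrEp 𝔓 m t :: tl).map pvtZ := by
    rw [ed, el]
    exact hcen
  have hZ : ∀ j, pveaZ 𝔓 m t j = pvthZ (pvlmDel c m) ((pvtCtr (pvlmDel c m) (pvxrEp 𝔓 m t - pvxrE (pvxrA 𝔓 t)) + pvtCtr (pvlmDel c m) (pvxrEp 𝔓 m t)) / 2)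
        (pvtZ (pvxrEp 𝔓 m t) - pvtZ (pvxrEp 𝔓 m t - pvxrE (pvxrA 𝔓 t))) ((𝔓.Γ m).l1 t) j := by
    intro j
    unfold pveaZ
    rw [ed, pvxr_Z_E, ← pvxr_door_eq]
    conv_lhs => rw [H.gam, pvxr_gam_pout, pvxr_gam_dout]
    rw [H.gam]
  have hF : ∀ j, pveaF 𝔓 m t j = pvthD (pvtZ (pvxrEp 𝔓 m t) - pvtZ (pvxrEp 𝔓 m t - pvxrE (pvxrA 𝔓 t))) ((𝔓.Γ m).l1 t) j := by
    intro j
    unfold pveaF
    rw [ed, pvxr_Z_E]
    conv_lhs => rw [H.gam, pvxr_gam_dout]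
    rw [H.gam]
  refine ⟨tl, htl, h3, ?_, pvccm_len_eq h3, hZ, hF, ?_, ?_⟩
  · rw [List.isChain_cons_cons]
    refine ⟨?_, pvea_chain _ hu _ _ (by rw [← ed]; exact h3)⟩
    have := pvea_adj_unit hu (pvxrEp 𝔓 m t - pvxrE (pvxrA 𝔓 t))
    rwa [e0] at this
  · intro j hj
    rw [hZ]
    exact pvccm_door _ h3 j hj
  · intro j hj
    rw [← pvccm_centre _ h3 j hj]
    unfold pveaC pvccC
    rw [hZ, hF, pvthZ_eq, ← pvthD_eq]
    ring

/-- **(E1)** a door point of the thin chain is in front of the exit door or far from the exit tip cell; the same for the centres of its cells -/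
theorem pvea_l1_o (H : PveaPar 𝔓 m0) {m : ℕ} (hm : m0 ≤ m) {t : τ} (hT : pviwTyOk 𝔓 t) :
    (∀ j, j ≤ ((𝔓.Γ m).l1 t).length → pvegS (pvegYp 𝔓 m t) ((𝔓.Γ m).dout t) ((𝔓.Γ m).pout t) ≤ pvegS (pvegYp 𝔓 m t) ((𝔓.Γ m).dout t) (pveaZ 𝔓 m t j) ∨
      pvegR 𝔓 m / 2 + pvlmDel c m < ‖pveaZ 𝔓 m t j - pvegYp 𝔓 m t‖) ∧
    (∀ j, j < ((𝔓.Γ m).l1 t).length → pvegS (pvegYp 𝔓 m t) ((𝔓.Γ m).dout t) ((𝔓.Γ m).pout t) + pvlmDel c m / 2 ≤ pvegS (pvegYp 𝔓 m t) ((𝔓.Γ m).dout t) (pveaC 𝔓 m t j) ∨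
      pvegR 𝔓 m / 2 + pvlmDel c m < ‖pveaC 𝔓 m t j - pvegYp 𝔓 m t‖) := by
  have hf : 1000 * pvlmDel c m ≤ 𝔓.num.rho * pvlmH m := by
    have := H.fine m hm
    have := pvlm_Del_pos c m
    linarith
  exact ⟨fun j hj => (pvej_E1 (H.gam m) H.rho0 hf hT (H.ok m hm t hT) j hj).1, fun j hj => (pvej_E1 (H.gam m) H.rho0 hf hT (H.ok m hm t hT) j hj.le).2⟩

/-- **(E2)** a door point of the thin chain is in front of the entrance door (by half a cell) or far from the entrance tip cell; the same for the centres of its cells -/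
theorem pvea_l1_i (H : PveaPar 𝔓 m0) {m : ℕ} (hm : m0 ≤ m) {t : τ} (hT : pviwTyOk 𝔓 t) :
    (∀ j, j ≤ ((𝔓.Γ m).l1 t).length → pvegS (pvegYm 𝔓 m t) (-(𝔓.Γ m).din t) ((𝔓.Γ m).pin t) + pvlmDel c m / 2 ≤ pvegS (pvegYm 𝔓 m t) (-(𝔓.Γ m).din t) (pveaZ 𝔓 m t j) ∨
      pvegR 𝔓 m / 2 + pvlmDel c m < ‖pveaZ 𝔓 m t j - pvegYm 𝔓 m t‖) ∧
    (∀ j, j < ((𝔓.Γ m).l1 t).length → pvegS (pvegYm 𝔓 m t) (-(𝔓.Γ m).din t) ((𝔓.Γ m).pin t) + pvlmDel c m / 2 ≤ pvegS (pvegYm 𝔓 m t) (-(𝔓.Γ m).din t) (pveaC 𝔓 m t j) ∨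
      pvegR 𝔓 m / 2 + pvlmDel c m < ‖pveaC 𝔓 m t j - pvegYm 𝔓 m t‖) := by
  have hf : 1000 * pvlmDel c m ≤ 𝔓.num.rho * pvlmH m := by
    have := H.fine m hm
    have := pvlm_Del_pos c m
    linarith
  exact ⟨fun j hj => (pvej_E2 (H.gam m) H.rho0 hf hT (H.ok m hm t hT) j hj).1, fun j hj => (pvej_E2 (H.gam m) H.rho0 hf hT (H.ok m hm t hT) j hj.le).2⟩

/-- the door between two adjacent cells is at sup distance `δ / 2` of both centres -/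
theorem pvea_adj_ctr {δ : ℝ} (hδ : 0 ≤ δ) {p q : ℤ × ℤ} (h : PvtAdj4 p q) :
    pvccN (pvtCtr δ p - (pvtCtr δ p + pvtCtr δ q) / 2) ≤ δ / 2 ∧ pvccN (pvtCtr δ q - (pvtCtr δ p + pvtCtr δ q) / 2) ≤ δ / 2 := by
  obtain ⟨p1, p2⟩ := p
  obtain ⟨q1, q2⟩ := q
  have e1 : (pvtCtr δ (p1, p2) - (pvtCtr δ (p1, p2) + pvtCtr δ (q1, q2)) / 2).re = ((p1 : ℝ) - q1) * δ / 2 := by
    simp [pvtCtr]; ring
  have e2 : (pvtCtr δ (p1, p2) - (pvtCtr δ (p1, p2) + pvtCtr δ (q1, q2)) / 2).im = ((p2 : ℝ) - q2) * δ / 2 := by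
    simp [pvtCtr]; ring
  have e3 : (pvtCtr δ (q1, q2) - (pvtCtr δ (p1, p2) + pvtCtr δ (q1, q2)) / 2).re = ((q1 : ℝ) - p1) * δ / 2 := by
    simp [pvtCtr]; ring
  have e4 : (pvtCtr δ (q1, q2) - (pvtCtr δ (p1, p2) + pvtCtr δ (q1, q2)) / 2).im = ((q2 : ℝ) - p2) * δ / 2 := by
    simp [pvtCtr]; ring
  unfold pvccN
  rw [e1, e2, e3, e4]
  simp only [PvtAdj4] at h
  rcases h with ⟨h1, h2 | h2⟩ | ⟨h1, h2 | h2⟩ <;> subst h1 <;> subst h2 <;> push_cast <;>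
    refine ⟨max_le (abs_le.2 ⟨by linarith, by linarith⟩) (abs_le.2 ⟨by linarith, by linarith⟩), max_le (abs_le.2 ⟨by linarith, by linarith⟩) (abs_le.2 ⟨by linarith, by linarith⟩)⟩

/-- a cell of sup norm `> B` has its centre at sup norm `≥ (B + 1/2) δ` -/
theorem pvea_ctr_N {δ : ℝ} (hδ : 0 ≤ δ) {B : ℤ} {x : ℤ × ℤ} (h : B < |x.1| ∨ B < |x.2|) : ((B : ℝ) + 1 / 2) * δ ≤ pvccN (pvtCtr δ x) := by
  have key : ∀ y : ℤ, B < |y| → ((B : ℝ) + 1 / 2) * δ ≤ |((y : ℝ) + 1 / 2) * δ| := by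
    intro y hy
    rw [abs_mul, abs_of_nonneg hδ]
    refine mul_le_mul_of_nonneg_right ?_ hδ
    rcases lt_abs.1 hy with h1 | h1
    · have : (B : ℝ) + 1 ≤ y := by exact_mod_cast h1
      exact le_trans (by linarith) (le_abs_self _)
    · have : (B : ℝ) + 1 ≤ -y := by exact_mod_cast h1
      exact le_trans (by linarith) (neg_le_abs _)
  unfold pvccN pvtCtr
  rcases h with h | h
  · exact le_max_of_le_left (key _ h)
  · exact le_max_of_le_right (key _ h)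

/-- **(E3)** the door points `j ≥ 1` and the centres of the cells of the thin chain are off the own-level box with its collar -/
theorem pvea_l1_box (H : PveaPar 𝔓 m0) {m : ℕ} (hm : m0 ≤ m) {t : τ} (hT : pviwTyOk 𝔓 t) :
    (∀ j, 1 ≤ j → j ≤ ((𝔓.Γ m).l1 t).length → pviwRad 𝔓 m t + pvlmDel c m + pvlmDel c m / 4 ≤ pvccN (pveaZ 𝔓 m t j)) ∧
    (∀ j, j < ((𝔓.Γ m).l1 t).length → pviwRad 𝔓 m t + pvlmDel c m + pvlmDel c m / 2 ≤ pvccN (pveaC 𝔓 m t j)) := by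
  obtain ⟨tl, hL, h3, hch, hlen, hZ, hF, hdoor, hctr⟩ := pvea_cells H hm hT
  have hbox := pvxr_cells_box (H.ok m hm t hT)
  rw [hL] at hbox
  have hδ := pvlm_Del_pos c m
  have hB : pviwRad 𝔓 m t + pvlmDel c m + pvlmDel c m ≤ (pvxrBx 𝔓 m t : ℝ) * pvlmDel c m := by
    have h1 := Int.le_ceil ((pvlmN c m : ℝ) * (2 * (𝔓.ty t).b2 + (𝔓.ty t).k * 𝔓.num.rho1 + 𝔓.num.rho / 10))
    have h2 := mul_le_mul_of_nonneg_right h1 hδ.le
    have h3 := pvlm_N_mul_Del c m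
    have h4 := H.fine m hm
    have h5 : (pvlmN c m : ℝ) * (2 * (𝔓.ty t).b2 + (𝔓.ty t).k * 𝔓.num.rho1 + 𝔓.num.rho / 10) * pvlmDel c m = pviwRad 𝔓 m t + 𝔓.num.rho * pvlmH m / 10 := by
      unfold pviwRad pvwRad
      rw [← h3]
      ring
    unfold pvxrBx
    linarith
  have key : ∀ x ∈ pvxrEp 𝔓 m t :: tl, pviwRad 𝔓 m t + pvlmDel c m + 3 * pvlmDel c m / 2 ≤ pvccN (pvtCtr (pvlmDel c m) x) := by
    intro x hx
    have := pvea_ctr_N hδ.le (hbox x hx).1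
    push_cast at this
    linarith
  constructor
  · intro j h1 h2
    obtain ⟨i, rfl⟩ : ∃ i, j = i + 1 := ⟨j - 1, by omega⟩
    have hj : i + 1 + 1 < ((pvxrEp 𝔓 m t - pvxrE (pvxrA 𝔓 t)) :: pvxrEp 𝔓 m t :: tl).length := by
      simp only [List.length_cons]; omega
    rw [hdoor (i + 1) hj]
    have hadj := List.isChain_iff_getElem.1 hch (i + 1) hj
    have ha := (pvea_adj_ctr hδ.le hadj).1
    have hk := key (((pvxrEp 𝔓 m t - pvxrE (pvxrA 𝔓 t)) :: pvxrEp 𝔓 m t :: tl)[i + 1]) (by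
      simp only [List.getElem_cons_succ]
      exact List.getElem_mem _)
    have htri := pvccN_add_le ((pvtCtr (pvlmDel c m) (((pvxrEp 𝔓 m t - pvxrE (pvxrA 𝔓 t)) :: pvxrEp 𝔓 m t :: tl)[i + 1]) + pvtCtr (pvlmDel c m) (((pvxrEp 𝔓 m t - pvxrE (pvxrA 𝔓 t)) :: pvxrEp 𝔓 m t :: tl)[i + 1 + 1])) / 2)
      (pvtCtr (pvlmDel c m) (((pvxrEp 𝔓 m t - pvxrE (pvxrA 𝔓 t)) :: pvxrEp 𝔓 m t :: tl)[i + 1]) - (pvtCtr (pvlmDel c m) (((pvxrEp 𝔓 m t - pvxrE (pvxrA 𝔓 t)) :: pvxrEp 𝔓 m t :: tl)[i + 1]) + pvtCtr (pvlmDel c m) (((pvxrEp 𝔓 m t - pvxrE (pvxrA 𝔓 t)) :: pvxrEp 𝔓 m t :: tl)[i + 1 + 1])) / 2)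
    rw [add_sub_cancel] at htri
    linarith
  · intro j hj
    have hj' : j < (pvxrEp 𝔓 m t :: tl).length := by simp only [List.length_cons]; omega
    rw [hctr j hj']
    have := key _ (List.getElem_mem hj')
    linarith

theorem pvea_cells_last (r : List ((ℤ × ℤ) × PvtTurn)) : ∀ q u : ℤ × ℤ, (pvxrCells q u r).getLast? = some (pvxrEnd q u r) := by
  induction r with
  | nil => intro q u; rfl
  | cons x r ih =>
    intro q u
    obtain ⟨C, τ⟩ := x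
    simp only [pvxrCells, pvxrEnd, List.getLast?_append, ih, Option.some_or]

theorem pvea_TR_mono {b : ℕ} {em : ℤ × ℤ} {n : ℤ} (hb : b < 4) (hn : 0 ≤ n) {x : ℤ × ℤ} (h : PvxrTR b em n 0 x) : PvxrTR b em n n x := by
  interval_cases b <;> simp only [PvxrTR, Nat.reduceMod] at h ⊢ <;> omega

theorem pvea_TR_west {b : ℕ} {em : ℤ × ℤ} {n : ℤ} (hb : b < 4) (hn : 0 ≤ n) {x : ℤ × ℤ} (h : PvxrTR b em n 0 x) (h2 : x.2 = (em + pvxrUo b (2 * n + 1)).2)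
    (h1 : x.1 ≤ (em + pvxrUo b (2 * n + 1)).1 - n) : x = em + pvxrUo b (2 * n + 1) - (n, 0) := by
  obtain ⟨x1, x2⟩ := x
  obtain ⟨m1, m2⟩ := em
  interval_cases b <;> simp only [PvxrTR, pvxrUo, Nat.reduceMod, Prod.mk_add_mk, Prod.mk_sub_mk, Prod.mk.injEq] at h h1 h2 ⊢ <;> omega

/-- the cell behind the exit door is off the reference plug and the thick short link -/
theorem pvea_c0_off {B M : ℤ} {a b : ℕ} {ep em : ℤ × ℤ} {n : ℤ} (h : PvxrOK B M a b ep em n) : ¬ PvxrTR b em n 0 (ep - pvxrE a) := by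
  obtain ⟨a4, b4, n0, B0, ep_n, ep_l, em_n, em_l, ep_M, em_M, sep⟩ := h
  rw [abs_le] at ep_l em_l
  obtain ⟨p1, p2⟩ := ep
  obtain ⟨m1, m2⟩ := em
  interval_cases a <;> interval_cases b <;>
  simp only [pvxrDot, pvxrE, Nat.reduceMod, Nat.reduceAdd, lt_abs, Nat.reduceEqDiff, forall_const, false_imp_iff, OfNat.zero_ne_ofNat, OfNat.ofNat_ne_zero, OfNat.one_ne_ofNat, OfNat.ofNat_ne_one, zero_ne_one, one_ne_zero, IsEmpty.forall_iff] at ep_n ep_l em_n em_l ep_M em_M sep <;>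
  simp only [PvxrTR, pvxrE, Nat.reduceMod, Prod.mk_sub_mk] <;> omega

/-- the cells of 166 are the cells of helper1 -/
theorem pvea_E_thick {b : ℕ} {em : ℤ × ℤ} {n : ℤ} {x : ℤ × ℤ} (h : x ∈ pvehE (em + pvxrUo b (2 * n + 1)) n (pvxrLe b)) : x ∈ pvxrThick b em n 0 := by
  rcases h with h | ⟨j, hj, h⟩
  · left
    simpa [pvxrBlock, pvehCells] using h
  · right
    simp only [mem_iUnion, Finset.mem_range, exists_prop]
    refine ⟨j, hj, ?_⟩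
    have e : em + pvxrLk b (2 * n + 1) j = em + pvxrUo b (2 * n + 1) + (2 * n + 1) • pvehV (pvxrLe b) j := by
      unfold pvxrLk pvehV
      rw [add_assoc]
    rw [e]
    simpa [pvxrBlock, pvehCells] using h

/-- **(E4)** the door plugs `j < n` and the tiles of the thin chain miss the blocks of the thick link and the block of the reference plug      [`pveh_thin_disj`, `pveh_end_cells` of 166 + (Z5) of helper1] -/
theorem pvea_l1_end (H : PveaPar 𝔓 m0) (hJ : J.Ok 𝔓 m0 r κs) {m : ℕ} (hm : m0 ≤ m) {t : τ} (hT : pviwTyOk 𝔓 t) (ε : ℝ) :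
    (∀ j, j < ((𝔓.Γ m).l1 t).length → Disjoint (pveaEnd 𝔓 J m t) (pvthSim (pveaZ 𝔓 m t j) (pveaF 𝔓 m t j) '' (J.kit m ε).O₀)) ∧
    (∀ j, j < ((𝔓.Γ m).l1 t).length → Disjoint (pveaEnd 𝔓 J m t) (pvthSim (pveaZ 𝔓 m t j) (pveaF 𝔓 m t j) '' (J.kit m ε).K₀ (pvthL ((𝔓.Γ m).l1 t) j))) := by
  obtain ⟨tl, hL, h3, hch, hlen, hZ, hF, hdoor, hctr⟩ := pvea_cells H hm hT
  have hok := H.ok m hm t hT
  have hG := H.geo m hm t hT
  have hsub : pveaEnd 𝔓 J m t ⊆ pvtU (pvlmDel c m) (pvehE (pvxrEm 𝔓 m t + pvxrUo (pvxrB 𝔓 t) (2 * pvxrNw 𝔓 m + 1)) (pvxrNw 𝔓 m) (pvxrLe (pvxrB 𝔓 t))) :=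
    pveh_end_cells J.O0 (pvegIM 𝔓) hG
  have hnd := pvxr_nodup hok
  have hlast := pvea_cells_last (pvxrCorners (pvxrM 𝔓 m t) (pvxrA 𝔓 t) (pvxrB 𝔓 t) (pvxrEp 𝔓 m t) (pvxrEm 𝔓 m t) (pvxrNw 𝔓 m)) (pvxrEp 𝔓 m t - pvxrE (pvxrA 𝔓 t)) (pvxrE (pvxrA 𝔓 t))
  rw [pvxr_end hok] at hlast
  have hmem := pvxr_mem_cells (pvxr_unit_E (pvxrA 𝔓 t)) _ _ (pvxr_cons hok)
  rw [hL] at hnd hlast hmem
  have hE : ∀ j (hj : j < ((pvxrEp 𝔓 m t - pvxrE (pvxrA 𝔓 t)) :: pvxrEp 𝔓 m t :: tl).length), j ≤ ((𝔓.Γ m).l1 t).length →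
      ((pvxrEp 𝔓 m t - pvxrE (pvxrA 𝔓 t)) :: pvxrEp 𝔓 m t :: tl)[j] ∉ pvehE (pvxrEm 𝔓 m t + pvxrUo (pvxrB 𝔓 t) (2 * pvxrNw 𝔓 m + 1)) (pvxrNw 𝔓 m) (pvxrLe (pvxrB 𝔓 t)) := by
    intro j hj hjl hx
    have hTR := pvxr_thick_rect hok.b4 hok.n0 (pvea_E_thick hx)
    cases j with
    | zero => exact pvea_c0_off hok hTR
    | succ i =>
      simp only [List.getElem_cons_succ] at hTR
      have hi : i < (pvxrEp 𝔓 m t :: tl).length := by simp only [List.length_cons] at hj ⊢; omega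
      have hin := (hmem _).1 (List.getElem_mem hi)
      obtain ⟨a2, a1⟩ := pvxr_in_thick hok _ hin (pvea_TR_mono hok.b4 hok.n0 hTR)
      have e := pvea_TR_west hok.b4 hok.n0 hTR a2 a1
      rw [List.getLast?_eq_getElem?] at hlast
      have hl : (pvxrEp 𝔓 m t :: tl).length - 1 < (pvxrEp 𝔓 m t :: tl).length := by simp only [List.length_cons]; omega
      rw [List.getElem?_eq_getElem hl, Option.some.injEq, ← e] at hlast
      have := (List.Nodup.getElem_inj_iff hnd).1 hlast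
      simp only [List.length_cons] at this
      omega
  have hd := pveh_thin_disj (hJ.kit_ref m ε) hch h3 _ hE
  rw [hJ.kit_del] at hd
  constructor
  · intro j hj
    rw [hZ, hF]
    exact ((hd.1 j hj).mono_right hsub).symm
  · intro j hj
    rw [hZ, hF]
    exact ((hd.2 j hj).mono_right hsub).symm

/-- the side of the blocks is about `ρ h / 16` -/
theorem pvea_Dl_le (𝔓 : PvxPar τ c) (m : ℕ) : pvehDl 𝔓 m ≤ pvegR 𝔓 m / 16 + 3 * pvlmDel c m := by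
  have hδ := pvlm_Del_pos c m
  have hN := pvlm_N_mul_Del c m
  have h1 : (pvxrNw 𝔓 m : ℝ) < (pvlmN c m : ℝ) * (𝔓.num.rho / 32) + 1 := Int.ceil_lt_add_one _
  unfold pvehDl pvegR
  rw [← hN]
  nlinarith

/-- the centre of the base cell `e⁻` is at distance `≤ 3 ρ h / 8 + δ` of the centre of the entrance tip cell -/
theorem pvea_em_near (H : PveaPar 𝔓 m0) (m : ℕ) (t : τ) : ‖pvtCtr (pvlmDel c m) (pvxrEm 𝔓 m t) - pvegYm 𝔓 m t‖ ≤ 3 * pvegR 𝔓 m / 8 + pvlmDel c m := by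
  have h1 := pvxr_cell_near (pvlm_Del_pos c m) (pvlmN c m) (pvxrYm 𝔓 t + pvxrKap 𝔓 * I ^ pvxrB 𝔓 t)
  rw [pvlm_N_mul_Del] at h1
  have h2 : ‖(pvlmH m : ℂ) * (pvxrYm 𝔓 t + pvxrKap 𝔓 * I ^ pvxrB 𝔓 t) - pvegYm 𝔓 m t‖ = 3 * pvegR 𝔓 m / 8 := by
    have e : (pvlmH m : ℂ) * (pvxrYm 𝔓 t + pvxrKap 𝔓 * I ^ pvxrB 𝔓 t) - pvegYm 𝔓 m t = ((pvlmH m * pvxrKap 𝔓 : ℝ) : ℂ) * I ^ pvxrB 𝔓 t := by
      unfold pvegYm pvxrYm
      push_cast
      ring
    rw [e, norm_mul, norm_pow, Complex.norm_I, one_pow, mul_one, Complex.norm_real, Real.norm_eq_abs, abs_of_nonneg]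
    · unfold pvxrKap pvegR; ring
    · have := pvlm_H_pos m
      have := H.rho0
      unfold pvxrKap
      positivity
  have h3 := norm_add_le (pvtCtr (pvlmDel c m) (pvxrEm 𝔓 m t) - (pvlmH m : ℂ) * (pvxrYm 𝔓 t + pvxrKap 𝔓 * I ^ pvxrB 𝔓 t)) ((pvlmH m : ℂ) * (pvxrYm 𝔓 t + pvxrKap 𝔓 * I ^ pvxrB 𝔓 t) - pvegYm 𝔓 m t)
  rw [sub_add_sub_cancel] at h3
  have h1' : ‖pvtCtr (pvlmDel c m) (pvxrEm 𝔓 m t) - (pvlmH m : ℂ) * (pvxrYm 𝔓 t + pvxrKap 𝔓 * I ^ pvxrB 𝔓 t)‖ ≤ pvlmDel c m := h1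
  linarith

/-- **(E5)** the end of the cycle is far from the exit tip cell      [`pveh_body_near`: within `13 Δ` of the centre of `e⁻`; `far`] -/
theorem pvea_end_o (H : PveaPar 𝔓 m0) {m : ℕ} (hm : m0 ≤ m) {t : τ} (hT : pviwTyOk 𝔓 t) : ∀ v ∈ pveaEnd 𝔓 J m t, pvegR 𝔓 m / 2 < ‖v - pvegYp 𝔓 m t‖ := by
  intro v hv
  have G := H.geo m hm t hT
  have hΔ := pveh_Dl_pos G.n0
  have hδ := pvlm_Del_pos c m
  have h1 := pveh_end_sub J.O0 (pvegIM 𝔓) G.n0 t hv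
  rw [G.zu'] at h1
  have h2 := pveh_body_near hΔ _ _ h1
  have h3 := pvea_em_near H m t
  have h4 := pvea_Dl_le 𝔓 m
  have h5 : 7 * pvegR 𝔓 m / 4 ≤ ‖pvegYp 𝔓 m t - pvegYm 𝔓 m t‖ := by
    have e : pvegYp 𝔓 m t - pvegYm 𝔓 m t = (pvlmH m : ℂ) * ((𝔓.ty t).yp - (𝔓.ty t).ym) := by
      unfold pvegYp pvegYm; ring
    rw [e, norm_mul, Complex.norm_real, Real.norm_eq_abs, abs_of_pos (pvlm_H_pos m)]
    have := H.far t hT
    have hh := pvlm_H_pos m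
    unfold pvegR
    nlinarith
  have h6 : 1024 * pvlmDel c m ≤ pvegR 𝔓 m := H.fine m hm
  have h7 : ‖pvegYp 𝔓 m t - pvegYm 𝔓 m t‖ ≤ ‖v - pvegYp 𝔓 m t‖ + ‖v - pvtCtr (pvlmDel c m) (pvxrEm 𝔓 m t)‖ + ‖pvtCtr (pvlmDel c m) (pvxrEm 𝔓 m t) - pvegYm 𝔓 m t‖ := by
    have a1 := norm_add_le (pvegYp 𝔓 m t - v) (v - pvegYm 𝔓 m t)
    have a2 := norm_add_le (v - pvtCtr (pvlmDel c m) (pvxrEm 𝔓 m t)) (pvtCtr (pvlmDel c m) (pvxrEm 𝔓 m t) - pvegYm 𝔓 m t)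
    rw [sub_add_sub_cancel] at a1 a2
    rw [norm_sub_rev (pvegYp 𝔓 m t) v] at a1
    linarith
  linarith

/-- the forward coordinate in the direction `I ^ b` -/
theorem pvea_S_front (b : ℕ) (Y v : ℂ) : pvegS Y (I ^ b) v = pvehFront b v - pvehFront b Y := by
  have h4 : (I : ℂ) ^ 4 = 1 := Complex.I_pow_four
  have e : (I : ℂ) ^ b = I ^ (b % 4) := by
    conv_lhs => rw [← Nat.div_add_mod b 4, pow_add, pow_mul, h4, one_pow, one_mul]
  rw [e]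
  have h : b % 4 = 0 ∨ b % 4 = 1 ∨ b % 4 = 2 ∨ b % 4 = 3 := by omega
  rcases h with h | h | h | h <;> simp only [pvegS, pvehFront, h]
  · simp
  · simp
  · simp [pow_two]; ring
  · simp [pow_succ]; ring

/-- the front coordinate of the entrance door -/
theorem pvea_front_door (δ : ℝ) (e : ℤ × ℤ) (b : ℕ) : pvehFront b (pvxrDoor δ e b) = pvehFront b (pvtCtr δ e) - δ / 2 := by
  have h4 : (I : ℂ) ^ 4 = 1 := Complex.I_pow_four
  have e' : (I : ℂ) ^ b = I ^ (b % 4) := by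
    conv_lhs => rw [← Nat.div_add_mod b 4, pow_add, pow_mul, h4, one_pow, one_mul]
  rw [pvxrDoor, pvxr_ctr_eq, e']
  have h : b % 4 = 0 ∨ b % 4 = 1 ∨ b % 4 = 2 ∨ b % 4 = 3 := by omega
  rcases h with h | h | h | h <;> simp only [pvehFront, h]
  · simp; ring
  · simp; ring
  · simp [pow_two]; ring
  · simp [pow_succ]; ring

/-- the block of the plug is four blocks in front of the base cell -/
theorem pvea_front_plug {Δ : ℝ} (hΔ : 0 < Δ) (ce : ℂ) (b : ℕ) {w : ℂ} (hw : w ∈ pvehSq (ce + (Δ : ℂ) * pvtZ (pvxrUo b 1)) (Δ / 2)) : pvehFront b ce + 3 * Δ ≤ pvehFront b w := by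
  rw [pveh_mem_sq] at hw
  obtain ⟨⟨a1, a2⟩, a3, a4⟩ := hw
  have h : b % 4 = 0 ∨ b % 4 = 1 ∨ b % 4 = 2 ∨ b % 4 = 3 := by omega
  rcases h with h | h | h | h <;> simp only [pvxrUo, pvehFront, h, pvtZ] at a1 a2 a3 a4 ⊢ <;> simp at a1 a2 a3 a4 <;> linarith

/-- **(E6)** tile and region of the reference plug lie in front of the entrance door -/
theorem pvea_end_i (H : PveaPar 𝔓 m0) {m : ℕ} (hm : m0 ≤ m) {t : τ} (hT : pviwTyOk 𝔓 t) :
    ∀ v ∈ pvieSh ((pvxrGam 𝔓 m).zu t) (pvehrK 𝔓 J.O0 m) ∪ pvieSh ((pvxrGam 𝔓 m).zu t) (pvehrO 𝔓 m),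
      pvegS (pvegYm 𝔓 m t) (-(𝔓.Γ m).din t) ((𝔓.Γ m).pin t) - pvlmDel c m / 4 < pvegS (pvegYm 𝔓 m t) (-(𝔓.Γ m).din t) v := by
  intro v hv
  have G := H.geo m hm t hT
  have hΔ := pveh_Dl_pos G.n0
  have hδ := pvlm_Del_pos c m
  have hsq : pvieSh ((pvxrGam 𝔓 m).zu t) (pvehSq 0 (pvehDl 𝔓 m / 2)) = pvehSq ((pvxrGam 𝔓 m).zu t) (pvehDl 𝔓 m / 2) := by rw [pveh_sh_sqc, add_zero]
  have h1 : v ∈ pvehSq ((pvxrGam 𝔓 m).zu t) (pvehDl 𝔓 m / 2) := by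
    rcases hv with h | h
    · rw [← hsq]; exact Set.image_mono (pveh_RK_sub _ _) h
    · rw [← hsq]; exact Set.image_mono (pveh_O_sub hΔ.le) h
  rw [G.zu'] at h1
  have h2 := pvea_front_plug hΔ _ _ h1
  rw [H.gam, pvxr_gam_din, pvxr_gam_pin, neg_neg, pvea_S_front, pvea_S_front, pvea_front_door]
  linarith

/-- **(E7)** the thin chain is cell-simple -/
theorem pvea_l1_simple (H : PveaPar 𝔓 m0) {m : ℕ} (hm : m0 ≤ m) {t : τ} (hT : pviwTyOk 𝔓 t) : PvccSimple ((𝔓.Γ m).l1 t) ((𝔓.Γ m).l1 t).length := by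
  rw [H.gam, pvxr_gam_l1]
  exact pvxr_word_simple (H.ok m hm t hT)

/-- **(E8)** the last door of the thin chain is the west door of the reference plug -/
theorem pvea_last (H : PveaPar 𝔓 m0) (m : ℕ) (t : τ) (O : Set ℂ) :
    pvthSim (pveaZ 𝔓 m t ((𝔓.Γ m).l1 t).length) (pveaF 𝔓 m t ((𝔓.Γ m).l1 t).length) '' O = pvieSh ((pvxrGam 𝔓 m).zu t) (pvthSim (pvxrGam 𝔓 m).pin0 (pvxrGam 𝔓 m).din0 '' O) := by
  have hZ : pveaZ 𝔓 m t ((𝔓.Γ m).l1 t).length = (pvxrGam 𝔓 m).zu t + (pvxrGam 𝔓 m).pin0 := by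
    unfold pveaZ pvthZ
    rw [List.take_length, H.gam]
    have := (pvxrGam 𝔓 m).l1_disp t
    rw [pvxr_gam_del] at this
    rw [this]; ring
  have hF : pveaF 𝔓 m t ((𝔓.Γ m).l1 t).length = (pvxrGam 𝔓 m).din0 := by
    unfold pveaF pvthD
    rw [List.take_length, H.gam]
    exact (pvxrGam 𝔓 m).l1_dir t
  rw [hZ, hF]
  unfold pvieSh
  rw [Set.image_image]
  apply Set.image_congr
  intro w _
  unfold pvthSim
  ring

/-- **(E9)** the thick link is short, uniformly in the level -/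
theorem pvea_bdd [Fintype τ] (H : PveaPar 𝔓 m0) : ∃ Cth : ℝ, ∀ m, m0 ≤ m → ∀ t, pviwTyOk 𝔓 t → pvegIM 𝔓 m t ∪ pvegIK 𝔓 m t ∪ pveaEnd 𝔓 J m t ⊆ closedBall 0 (Cth * pvlmH m) := by
  classical
  have hAt : ∀ t, ‖(𝔓.ty t).ym‖ ≤ ∑ t : τ, ‖(𝔓.ty t).ym‖ := fun t =>
    Finset.single_le_sum (f := fun t => ‖(𝔓.ty t).ym‖) (fun _ _ => norm_nonneg _) (Finset.mem_univ t)
  generalize (∑ t : τ, ‖(𝔓.ty t).ym‖) = A at hAt
  refine ⟨A + 2 * 𝔓.num.rho, fun m hm t hT => ?_⟩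
  have hL := H.lev hm
  have hρ := H.rho0
  have hh := pvlm_H_pos m
  have hδ := pvlm_Del_pos c m
  have hfine := H.fine m hm
  have hYm : ‖pvegYm 𝔓 m t‖ ≤ A * pvlmH m := by
    unfold pvegYm
    rw [norm_mul, Complex.norm_real, Real.norm_of_nonneg hh.le, mul_comm]
    exact mul_le_mul_of_nonneg_right (hAt t) hh.le
  have hρh : 0 < 𝔓.num.rho * pvlmH m := mul_pos hρ hh
  have hball : closedBall (pvegYm 𝔓 m t) (pvegR 𝔓 m / 2) ⊆ closedBall 0 ((A + 2 * 𝔓.num.rho) * pvlmH m) := by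
    intro v hv
    rw [mem_closedBall_iff_norm] at hv
    rw [mem_closedBall_zero_iff]
    have h1 : ‖v‖ ≤ ‖v - pvegYm 𝔓 m t‖ + ‖pvegYm 𝔓 m t‖ := by
      have := norm_add_le (v - pvegYm 𝔓 m t) (pvegYm 𝔓 m t)
      rwa [sub_add_cancel] at this
    unfold pvegR at hv
    nlinarith
  refine union_subset (union_subset ((pveg_M_ball (pveg_door_i hL hT)).trans hball) ((pveg_K_ball (pveg_door_i hL hT)).trans hball)) ?_
  refine (pveh_e_bdd J.O0 (pvegIM 𝔓) (H.geo m hm t hT)).trans (closedBall_subset_closedBall ?_)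
  have h1 := pvxr_cell_near hδ (pvlmN c m) (pvxrYm 𝔓 t + pvxrKap 𝔓 * I ^ pvxrB 𝔓 t)
  rw [pvlm_N_mul_Del] at h1
  have h2 : ‖((pvlmH m : ℝ) : ℂ) * (pvxrYm 𝔓 t + pvxrKap 𝔓 * I ^ pvxrB 𝔓 t)‖ ≤ pvlmH m * (A + 3 * 𝔓.num.rho / 8) := by
    rw [norm_mul, Complex.norm_real, Real.norm_of_nonneg hh.le]
    refine mul_le_mul_of_nonneg_left ?_ hh.le
    refine (norm_add_le _ _).trans (add_le_add (hAt t) ?_)
    rw [norm_mul, norm_pow, Complex.norm_I, one_pow, mul_one, Complex.norm_real, Real.norm_of_nonneg (by unfold pvxrKap; positivity)]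
    unfold pvxrKap
    exact le_rfl
  have h3 : ‖pvtCtr (pvlmDel c m) (pvxrEm 𝔓 m t)‖ ≤ pvlmDel c m + pvlmH m * (A + 3 * 𝔓.num.rho / 8) := by
    have := norm_add_le (pvtCtr (pvlmDel c m) (pvxrEm 𝔓 m t) - ((pvlmH m : ℝ) : ℂ) * (pvxrYm 𝔓 t + pvxrKap 𝔓 * I ^ pvxrB 𝔓 t)) (((pvlmH m : ℝ) : ℂ) * (pvxrYm 𝔓 t + pvxrKap 𝔓 * I ^ pvxrB 𝔓 t))
    rw [sub_add_cancel] at this
    have h1' : ‖pvtCtr (pvlmDel c m) (pvxrEm 𝔓 m t) - ((pvlmH m : ℝ) : ℂ) * (pvxrYm 𝔓 t + pvxrKap 𝔓 * I ^ pvxrB 𝔓 t)‖ ≤ pvlmDel c m := h1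
    linarith
  have h4 : pvehDl 𝔓 m ≤ 𝔓.num.rho * pvlmH m / 16 + 3 * pvlmDel c m := by
    unfold pvehDl
    have k1 : ((pvxrNw 𝔓 m : ℤ) : ℝ) < (pvlmN c m : ℝ) * (𝔓.num.rho / 32) + 1 := Int.ceil_lt_add_one _
    have k2 := pvlm_N_mul_Del c m
    have k3 : ((pvxrNw 𝔓 m : ℤ) : ℝ) * pvlmDel c m ≤ ((pvlmN c m : ℝ) * (𝔓.num.rho / 32) + 1) * pvlmDel c m := mul_le_mul_of_nonneg_right k1.le hδ.le
    have k4 : ((pvlmN c m : ℝ) * (𝔓.num.rho / 32) + 1) * pvlmDel c m = pvlmH m * (𝔓.num.rho / 32) + pvlmDel c m := by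
      rw [← k2]; ring
    nlinarith
  nlinarith

end leaves

/-! ## 3. squares -/

theorem pvea_norm_le_N (w : ℂ) : ‖w‖ ≤ 2 * pvccN w := by
  have h := Complex.norm_le_abs_re_add_abs_im w
  have h1 : |w.re| ≤ pvccN w := le_max_left _ _
  have h2 : |w.im| ≤ pvccN w := le_max_right _ _
  linarith

/-- a square in front of a door misses mouth and tile -/
theorem pvea_sq_front {Y u p : ℂ} {e δ w rM κ rI rk : ℝ} (H : PvegDoor Y u p e δ w rM κ rI rk) {Z : ℂ} {s a : ℝ} (ha : s ≤ a + δ / 4) (hZ : pvegS Y u p + a ≤ pvegS Y u Z) :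
    Disjoint (closedBall Y rM ∪ pvegK Y u p e δ w rM) (pvccSq Z s) := by
  refine pveg_MK_front H ?_
  intro v hv
  have := abs_lt.1 (pveg_sq_S H.u4 Y hv)
  linarith [this.1]

/-- a square far from the tip cell misses mouth and tile -/
theorem pvea_sq_far {Y u p : ℂ} {e δ w rM κ rI rk : ℝ} (H : PvegDoor Y u p e δ w rM κ rI rk) {Z : ℂ} {s : ℝ} (hs : s ≤ δ / 2) (hZ : rI + δ < ‖Z - Y‖) :
    Disjoint (closedBall Y rM ∪ pvegK Y u p e δ w rM) (pvccSq Z s) := by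
  refine pveg_MK_far H ?_
  intro v hv
  have h1 : ‖v - Z‖ ≤ 2 * pvccN (v - Z) := pvea_norm_le_N _
  have h2 : pvccN (v - Z) < s := hv
  have h3 : ‖Z - Y‖ ≤ ‖v - Y‖ + ‖v - Z‖ := by
    have := norm_sub_le (v - Y) (v - Z)
    simpa using this
  linarith

/-- a square in front of the plane of a door misses the room -/
theorem pvea_sq_front_a {Y u p : ℂ} {e δ w rM κ rI rk a : ℝ} (H : PvegDoor Y u p e δ w rM κ rI rk) (ha : 0 ≤ a) (ha' : a ≤ δ / 4) {Z : ℂ} {s b : ℝ} (hb : s ≤ b + a) (hZ : pvegS Y u p + b ≤ pvegS Y u Z) :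
    Disjoint (pvegYa Y u p e δ w rM a) (pvccSq Z s) := by
  refine pveg_Ya_front H ha ha' ?_
  intro v hv
  have := abs_lt.1 (pveg_sq_S H.u4 Y hv)
  linarith [this.1]

/-- a square far from the tip cell misses the room -/
theorem pvea_sq_far_a {Y u p : ℂ} {e δ w rM κ rI rk a : ℝ} (H : PvegDoor Y u p e δ w rM κ rI rk) (ha : 0 ≤ a) {Z : ℂ} {s b : ℝ} (hs : 2 * s ≤ b) (hZ : rI + b ≤ ‖Z - Y‖) :
    Disjoint (pvegYa Y u p e δ w rM a) (pvccSq Z s) := by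
  refine pveg_Ya_far H ha ?_
  intro v hv
  have h1 : ‖v - Z‖ ≤ 2 * pvccN (v - Z) := pvea_norm_le_N _
  have h2 : pvccN (v - Z) < s := hv
  have h3 : ‖Z - Y‖ ≤ ‖v - Y‖ + ‖v - Z‖ := by
    have := norm_sub_le (v - Y) (v - Z)
    simpa using this
  linarith

/-- a square whose centre has a large sup norm is off a centred closed square -/
theorem pvea_sq_box {Z : ℂ} {s R : ℝ} (h : R + s ≤ pvccN Z) : Disjoint (pvccSq Z s) (pvwSq 0 R) := by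
  rw [Set.disjoint_left]
  intro v hv hb
  have h1 : pvccN v ≤ R := by
    have := hb
    simp only [pvwSq, sub_zero, mem_ofPred_eq] at this
    exact max_le this.1 this.2
  have h2 : pvccN (v - Z) < s := hv
  have h3 : pvccN Z ≤ pvccN v + pvccN (v - Z) := by
    have := pvccN_add_le v (-(v - Z))
    rw [pvccN_neg] at this
    simpa using this
  linarith

theorem pvea_pairwise_range {n : ℕ} {D : ℕ → Set ℂ} (h : ∀ i < n, ∀ j < n, i ≠ j → Disjoint (D i) (D j)) : ((List.range n).map D).Pairwise Disjoint := by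
  rw [List.pairwise_map]
  refine List.Pairwise.imp_of_mem ?_ (List.pairwise_lt_range (n := n))
  intro i j hi hj hij
  exact h i (List.mem_range.1 hi) j (List.mem_range.1 hj) hij.ne

theorem pvea_prod_disj {A B : Set ℂ} (h : Disjoint (A ×ˢ (univ : Set Bool)) (B ×ˢ (univ : Set Bool))) : Disjoint A B := by
  rcases Set.disjoint_prod.1 h with h | h
  · exact h
  · exact (Set.disjoint_left.1 h (mem_univ true) (mem_univ true)).elim

section glue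

variable {τ : Type} {c : ℝ} {𝔓 : PvxPar τ c} {J : PveaIn} {m0 : ℕ} {r κs : ℕ → ℝ}

theorem pvea_F4 (H : PveaPar 𝔓 m0) {m : ℕ} (hm : m0 ≤ m) (t : τ) (j : ℕ) : pveaF 𝔓 m t j ^ 4 = 1 :=
  pvtDir_pow_four _ (pveg_dout4 (H.lev hm) t) _

/-- the door plug number `j` lies in its door square -/
theorem pvea_D_sq (H : PveaPar 𝔓 m0) (hJ : J.Ok 𝔓 m0 r κs) {m : ℕ} (hm : m0 ≤ m) (t : τ) (ε : ℝ) (j : ℕ) :
    pvthSim (pveaZ 𝔓 m t j) (pveaF 𝔓 m t j) '' (J.kit m ε).O₀ ⊆ pvccSq (pveaZ 𝔓 m t j) (pvlmDel c m / 4) := by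
  have R := hJ.kit_ref m ε
  exact pveg_sim_sq R.O_sub (by rw [← hJ.kit_del m ε]; exact R.r_le) _ (pvea_F4 H hm t j)

/-- the tile number `j` lies in its open cell -/
theorem pvea_C_sq (H : PveaPar 𝔓 m0) (hJ : J.Ok 𝔓 m0 r κs) {m : ℕ} (hm : m0 ≤ m) (t : τ) (ε : ℝ) (j : ℕ) (σ : PvtTurn) :
    pvthSim (pveaZ 𝔓 m t j) (pveaF 𝔓 m t j) '' (J.kit m ε).K₀ σ ⊆ pvccSq (pveaC 𝔓 m t j) (pvlmDel c m / 2) := by
  have R := hJ.kit_ref m ε
  have h1 : pvthSim (pveaZ 𝔓 m t j) (pveaF 𝔓 m t j) '' (J.kit m ε).K₀ σ ⊆ pvccPl (pveaZ 𝔓 m t j) (pveaF 𝔓 m t j) (pvccSq (((J.kit m ε).δ : ℂ) * (1 / 2)) ((J.kit m ε).δ * (1 / 2))) :=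
    Set.image_mono (R.K_cell σ)
  rw [pvccPl_sq _ (pvea_F4 H hm t j), hJ.kit_del m ε] at h1
  have e1 : pveaZ 𝔓 m t j + pveaF 𝔓 m t j * ((pvlmDel c m : ℂ) * (1 / 2)) = pveaC 𝔓 m t j := by unfold pveaC; ring
  have e2 : pvlmDel c m * (1 / 2) = pvlmDel c m / 2 := by ring
  rwa [e1, e2] at h1

/-- a door point `j ≥ 1` of the thin chain is the midpoint of the centres of the cells `j - 1`, `j` -/
theorem pvea_Z_mid (H : PveaPar 𝔓 m0) {m : ℕ} (hm : m0 ≤ m) {t : τ} (hT : pviwTyOk 𝔓 t) {j : ℕ} (hj : j + 1 ≤ ((𝔓.Γ m).l1 t).length) :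
    pveaZ 𝔓 m t (j + 1) = (pveaC 𝔓 m t j + pveaC 𝔓 m t (j + 1)) / 2 := by
  obtain ⟨tl, -, -, -, hlen, -, -, hdoor, hctr⟩ := pvea_cells H hm hT
  have h1 : j + 1 + 1 < ((pvxrEp 𝔓 m t - pvxrE (pvxrA 𝔓 t)) :: pvxrEp 𝔓 m t :: tl).length := by simp only [List.length_cons]; omega
  have h2 : j < (pvxrEp 𝔓 m t :: tl).length := by simp only [List.length_cons]; omega
  have h3 : j + 1 < (pvxrEp 𝔓 m t :: tl).length := by simp only [List.length_cons]; omega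
  rw [hdoor (j + 1) h1, hctr j h2, hctr (j + 1) h3]
  rfl

/-- (E1) for the centres of ALL the cells `j ≤ n` -/
theorem pvea_l1_oC (H : PveaPar 𝔓 m0) {m : ℕ} (hm : m0 ≤ m) {t : τ} (hT : pviwTyOk 𝔓 t) {j : ℕ} (hj : j ≤ ((𝔓.Γ m).l1 t).length) :
    pvegS (pvegYp 𝔓 m t) ((𝔓.Γ m).dout t) ((𝔓.Γ m).pout t) + pvlmDel c m / 2 ≤ pvegS (pvegYp 𝔓 m t) ((𝔓.Γ m).dout t) (pveaC 𝔓 m t j) ∨
      pvegR 𝔓 m / 2 + pvlmDel c m < ‖pveaC 𝔓 m t j - pvegYp 𝔓 m t‖ := by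
  have hf : 1000 * pvlmDel c m ≤ 𝔓.num.rho * pvlmH m := by
    have := H.fine m hm
    have := pvlm_Del_pos c m
    linarith
  exact (pvej_E1 (H.gam m) H.rho0 hf hT (H.ok m hm t hT) j hj).2

theorem pvea_S_mid (Y u a b : ℂ) : pvegS Y u ((a + b) / 2) = (pvegS Y u a + pvegS Y u b) / 2 := by
  unfold pvegS
  have : ((a + b) / 2 - Y) * (starRingEnd ℂ) u = ((a - Y) * (starRingEnd ℂ) u + (b - Y) * (starRingEnd ℂ) u) / 2 := by ring
  rw [this]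
  simp

/-- the distance from a door point to the centre of its cell -/
theorem pvea_ZC (H : PveaPar 𝔓 m0) {m : ℕ} (hm : m0 ≤ m) (t : τ) (j : ℕ) : ‖pveaC 𝔓 m t j - pveaZ 𝔓 m t j‖ = pvlmDel c m / 2 := by
  unfold pveaC
  rw [add_sub_cancel_left, norm_div, norm_mul, pveg_norm_unit (pvea_F4 H hm t j), mul_one, Complex.norm_real, Real.norm_eq_abs, abs_of_pos (pvlm_Del_pos c m)]
  norm_num

/-- the room of the first link misses every door plug `j ≥ 1` of the thin chain -/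
theorem pvea_o_D (H : PveaPar 𝔓 m0) (hJ : J.Ok 𝔓 m0 r κs) {m : ℕ} (hm : m0 ≤ m) {t : τ} (hT : pviwTyOk 𝔓 t) (ε : ℝ) {j : ℕ} (hj : j + 1 ≤ ((𝔓.Γ m).l1 t).length) :
    Disjoint (pvegOYa 𝔓 m t) (pvthSim (pveaZ 𝔓 m t (j + 1)) (pveaF 𝔓 m t (j + 1)) '' (J.kit m ε).O₀) := by
  refine Disjoint.mono_right (pvea_D_sq H hJ hm t ε (j + 1)) ?_
  have hD := pveg_door_o (H.lev hm) hT
  have hδ := pvlm_Del_pos c m
  have ha := pveg_A_pos c m
  have hmid := pvea_Z_mid H hm hT hj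
  have hc1 := pvea_ZC H hm t (j + 1)
  have hc0 : ‖pveaC 𝔓 m t j - pveaZ 𝔓 m t (j + 1)‖ = pvlmDel c m / 2 := by
    rw [← hc1, ← norm_neg]
    congr 1
    rw [hmid]
    ring
  have far : ∀ C : ℂ, ‖C - pveaZ 𝔓 m t (j + 1)‖ = pvlmDel c m / 2 → pvegR 𝔓 m / 2 + pvlmDel c m < ‖C - pvegYp 𝔓 m t‖ →
      pvegR 𝔓 m / 2 + pvlmDel c m / 2 ≤ ‖pveaZ 𝔓 m t (j + 1) - pvegYp 𝔓 m t‖ := by
    intro C h1 h2
    have h3 : ‖C - pvegYp 𝔓 m t‖ ≤ ‖C - pveaZ 𝔓 m t (j + 1)‖ + ‖pveaZ 𝔓 m t (j + 1) - pvegYp 𝔓 m t‖ := by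
      have := norm_add_le (C - pveaZ 𝔓 m t (j + 1)) (pveaZ 𝔓 m t (j + 1) - pvegYp 𝔓 m t)
      simpa using this
    linarith
  rcases pvea_l1_oC H hm hT (j := j) (by omega) with h0 | h0
  · rcases pvea_l1_oC H hm hT hj with h1 | h1
    · refine pvea_sq_front_a hD ha.le (pveg_A_le c m) (b := pvlmDel c m / 2) (by linarith) ?_
      rw [hmid, pvea_S_mid]
      linarith
    · exact pvea_sq_far_a hD ha.le (b := pvlmDel c m / 2) (by linarith) (far _ hc1 h1)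
  · exact pvea_sq_far_a hD ha.le (b := pvlmDel c m / 2) (by linarith) (far _ hc0 h0)

theorem pvea_o_C (H : PveaPar 𝔓 m0) (hJ : J.Ok 𝔓 m0 r κs) {m : ℕ} (hm : m0 ≤ m) {t : τ} (hT : pviwTyOk 𝔓 t) (ε : ℝ) {j : ℕ} (hj : j < ((𝔓.Γ m).l1 t).length) (σ : PvtTurn) :
    Disjoint (pvegOYa 𝔓 m t) (pvthSim (pveaZ 𝔓 m t j) (pveaF 𝔓 m t j) '' (J.kit m ε).K₀ σ) := by
  refine Disjoint.mono_right (pvea_C_sq H hJ hm t ε j σ) ?_
  have hD := pveg_door_o (H.lev hm) hT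
  have hδ := pvlm_Del_pos c m
  have ha := pveg_A_pos c m
  rcases (pvea_l1_o H hm hT).2 j hj with h | h
  · exact pvea_sq_front_a hD ha.le (pveg_A_le c m) (b := pvlmDel c m / 2) (by linarith) h
  · exact pvea_sq_far_a hD ha.le (b := pvlmDel c m) (by linarith) h.le

/-- the entrance group `iM ∪ iK` misses every door plug of the thin chain -/
theorem pvea_i_D (H : PveaPar 𝔓 m0) (hJ : J.Ok 𝔓 m0 r κs) {m : ℕ} (hm : m0 ≤ m) {t : τ} (hT : pviwTyOk 𝔓 t) (ε : ℝ) {j : ℕ} (hj : j ≤ ((𝔓.Γ m).l1 t).length) :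
    Disjoint (pvegIM 𝔓 m t ∪ pvegIK 𝔓 m t) (pvthSim (pveaZ 𝔓 m t j) (pveaF 𝔓 m t j) '' (J.kit m ε).O₀) := by
  refine Disjoint.mono_right (pvea_D_sq H hJ hm t ε j) ?_
  have hD := pveg_door_i (H.lev hm) hT
  have hδ := pvlm_Del_pos c m
  rcases (pvea_l1_i H hm hT).1 j hj with h | h
  · exact pvea_sq_front hD (a := pvlmDel c m / 2) (by linarith) h
  · exact pvea_sq_far hD (by linarith) h

theorem pvea_i_C (H : PveaPar 𝔓 m0) (hJ : J.Ok 𝔓 m0 r κs) {m : ℕ} (hm : m0 ≤ m) {t : τ} (hT : pviwTyOk 𝔓 t) (ε : ℝ) {j : ℕ} (hj : j < ((𝔓.Γ m).l1 t).length) (σ : PvtTurn) :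
    Disjoint (pvegIM 𝔓 m t ∪ pvegIK 𝔓 m t) (pvthSim (pveaZ 𝔓 m t j) (pveaF 𝔓 m t j) '' (J.kit m ε).K₀ σ) := by
  refine Disjoint.mono_right (pvea_C_sq H hJ hm t ε j σ) ?_
  have hD := pveg_door_i (H.lev hm) hT
  have hδ := pvlm_Del_pos c m
  rcases (pvea_l1_i H hm hT).2 j hj with h | h
  · exact pvea_sq_front hD (a := pvlmDel c m / 2) (by linarith) h
  · exact pvea_sq_far hD le_rfl h

/-- exit group, entrance group -/
theorem pvea_o_i (H : PveaPar 𝔓 m0) {m : ℕ} (hm : m0 ≤ m) {t : τ} (hT : pviwTyOk 𝔓 t) : Disjoint (pvegOYa 𝔓 m t) (pvegIM 𝔓 m t ∪ pvegIK 𝔓 m t) := by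
  refine pveg_Ya_far (pveg_door_o (H.lev hm) hT) (pveg_A_pos c m).le ?_
  intro v hv
  have h1 := (pveg_MK_back (pveg_door_i (H.lev hm) hT) hv).1
  rw [mem_closedBall_iff_norm] at h1
  have hr := pveg_R_pos (H.lev hm)
  have h2 : 7 * pvegR 𝔓 m / 4 ≤ ‖pvegYp 𝔓 m t - pvegYm 𝔓 m t‖ := by
    unfold pvegYp pvegYm pvegR
    rw [← mul_sub, norm_mul, Complex.norm_real, Real.norm_eq_abs, abs_of_pos (pvlm_H_pos m)]
    nlinarith [H.far t hT, pvlm_H_pos m]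
  have h3 : ‖pvegYp 𝔓 m t - pvegYm 𝔓 m t‖ ≤ ‖v - pvegYm 𝔓 m t‖ + ‖v - pvegYp 𝔓 m t‖ := by
    have := norm_sub_le (v - pvegYm 𝔓 m t) (v - pvegYp 𝔓 m t)
    simpa using this
  linarith

/-- exit group, end of the cycle -/
theorem pvea_o_end (H : PveaPar 𝔓 m0) {m : ℕ} (hm : m0 ≤ m) {t : τ} (hT : pviwTyOk 𝔓 t) : Disjoint (pvegOYa 𝔓 m t) (pveaEnd 𝔓 J m t) :=
  pveg_Ya_far (pveg_door_o (H.lev hm) hT) (pveg_A_pos c m).le (pvea_end_o H hm hT)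

/-- entrance group, tile and region of the reference plug -/
theorem pvea_i_plug (H : PveaPar 𝔓 m0) {m : ℕ} (hm : m0 ≤ m) {t : τ} (hT : pviwTyOk 𝔓 t) :
    Disjoint (pvegIM 𝔓 m t ∪ pvegIK 𝔓 m t) (pvieSh ((pvxrGam 𝔓 m).zu t) (pvehrK 𝔓 J.O0 m) ∪ pvieSh ((pvxrGam 𝔓 m).zu t) (pvehrO 𝔓 m)) :=
  pveg_MK_front (pveg_door_i (H.lev hm) hT) (pvea_end_i H hm hT)

/-- the doors and the tiles of the thin chain are pairwise disjoint -/
theorem pvea_l1_self (H : PveaPar 𝔓 m0) (hJ : J.Ok 𝔓 m0 r κs) {m : ℕ} (hm : m0 ≤ m) {t : τ} (hT : pviwTyOk 𝔓 t) (ε : ℝ) :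
    (∀ i ≤ ((𝔓.Γ m).l1 t).length, ∀ j ≤ ((𝔓.Γ m).l1 t).length, i ≠ j →
      Disjoint (pvthSim (pveaZ 𝔓 m t i) (pveaF 𝔓 m t i) '' (J.kit m ε).O₀) (pvthSim (pveaZ 𝔓 m t j) (pveaF 𝔓 m t j) '' (J.kit m ε).O₀)) ∧
    (∀ i ≤ ((𝔓.Γ m).l1 t).length, ∀ j ≤ ((𝔓.Γ m).l1 t).length, i ≠ j →
      Disjoint (pvthSim (pveaZ 𝔓 m t i) (pveaF 𝔓 m t i) '' (J.kit m ε).K₀ (pvthL ((𝔓.Γ m).l1 t) i)) (pvthSim (pveaZ 𝔓 m t j) (pveaF 𝔓 m t j) '' (J.kit m ε).K₀ (pvthL ((𝔓.Γ m).l1 t) j))) ∧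
    (∀ i j, Disjoint (pvthSim (pveaZ 𝔓 m t i) (pveaF 𝔓 m t i) '' (J.kit m ε).O₀) (pvthSim (pveaZ 𝔓 m t j) (pveaF 𝔓 m t j) '' (J.kit m ε).K₀ (pvthL ((𝔓.Γ m).l1 t) j))) := by
  have hd : (𝔓.Γ m).dout t ≠ 0 := by
    intro h
    have := (𝔓.Γ m).dout1 t
    rw [h, norm_zero] at this
    exact zero_ne_one this
  obtain ⟨h1, h2, h3⟩ := pvcc_kit_disj_open (hJ.kit_ref m ε) ((𝔓.Γ m).pout t) hd (pvea_l1_simple H hm hT)
  rw [hJ.kit_del m ε] at h1 h2 h3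
  exact ⟨fun i hi j hj hij => pvea_prod_disj (h1 i hi j hj hij), fun i hi j hj hij => pvea_prod_disj (h2 i hi j hj hij), fun i j => pvea_prod_disj (h3 i j)⟩

/-- the end of the cycle misses every door plug of the thin chain -/
theorem pvea_end_D (H : PveaPar 𝔓 m0) (hJ : J.Ok 𝔓 m0 r κs) {m : ℕ} (hm : m0 ≤ m) {t : τ} (hT : pviwTyOk 𝔓 t) (ε : ℝ) {j : ℕ} (hj : j ≤ ((𝔓.Γ m).l1 t).length) :
    Disjoint (pveaEnd 𝔓 J m t) (pvthSim (pveaZ 𝔓 m t j) (pveaF 𝔓 m t j) '' (J.kit m ε).O₀) := by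
  rcases hj.lt_or_eq with h | h
  · exact (pvea_l1_end H hJ hm hT ε).1 j h
  · rw [h, pvea_last H m t, hJ.kit_O m ε 1]
    have R := hJ.kit_ref m 1
    obtain ⟨-, -, -, a4, -, a6, a7⟩ := pveh_end_disj (𝔓 := 𝔓) (O0 := J.O0) (Mo := pvegIM 𝔓) (H.geo m hm t hT).n0 R.O_sub (by rw [← hJ.kit_del m 1]; exact R.r_le) t
    exact Disjoint.union_left (Disjoint.union_left a4 a6) a7

/-- **`cyc_disj`** -/
theorem pvea_cyc (H : PveaPar 𝔓 m0) (hJ : J.Ok 𝔓 m0 r κs) {m : ℕ} (hm : m0 ≤ m) (ε : ℝ) {t : τ} (hT : pviwTyOk 𝔓 t) : (pviwCyc 𝔓 (pveaEng 𝔓 J) m ε t).Pairwise Disjoint := by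
  have hL := H.lev hm
  have R := hJ.kit_ref m 1
  obtain ⟨a1, a2, a3, -, a5, -, -⟩ := pveh_end_disj (𝔓 := 𝔓) (O0 := J.O0) (Mo := pvegIM 𝔓) (H.geo m hm t hT).n0 R.O_sub (by rw [← hJ.kit_del m 1]; exact R.r_le) t
  have hsub := pveg_oMK_sub (𝔓 := 𝔓) J.O0 m t
  have oi := (pvea_o_i H hm hT).mono_left hsub
  have oe := (pvea_o_end (J := J) H hm hT).mono_left hsub
  have ip := pvea_i_plug (J := J) H hm hT
  obtain ⟨s1, s2, s3⟩ := pvea_l1_self H hJ hm hT ε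
  have hΓ : (𝔓.Γ m).zu t = (pvxrGam 𝔓 m).zu t := by rw [H.gam]
  have hk : ((pveaEng 𝔓 J).kit m ε).δ = pvlmDel c m := hJ.kit_del m ε
  -- names
  set oM := pvegOM 𝔓 m t with hoM
  set oK := pvegOKa 𝔓 J.O0 m t with hoK
  set iM := pvegIM 𝔓 m t with hiM
  set iK := pvegIK 𝔓 m t with hiK
  set eK0 := pveheK 𝔓 (pvegIM 𝔓) m t with heK0
  set Rk := pvieSh ((pvxrGam 𝔓 m).zu t) (pvehrK 𝔓 J.O0 m) with hRk
  set Ro := pvieSh ((pvxrGam 𝔓 m).zu t) (pvehrO 𝔓 m) with hRo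
  have hD : ∀ S ∈ pviwDoors 𝔓 (pveaEng 𝔓 J) m ε t, ∃ j ≤ ((𝔓.Γ m).l1 t).length, S = pvthSim (pveaZ 𝔓 m t j) (pveaF 𝔓 m t j) '' (J.kit m ε).O₀ := by
    intro S hS
    simp only [pviwDoors, List.mem_map, List.mem_range] at hS
    obtain ⟨j, hj, rfl⟩ := hS
    refine ⟨j, by omega, ?_⟩
    unfold pvieDoor pveaZ pveaF
    rw [hk]
    rfl
  have hC : ∀ S ∈ pviwCells 𝔓 (pveaEng 𝔓 J) m ε t, ∃ j < ((𝔓.Γ m).l1 t).length, S = pvthSim (pveaZ 𝔓 m t j) (pveaF 𝔓 m t j) '' (J.kit m ε).K₀ (pvthL ((𝔓.Γ m).l1 t) j) := by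
    intro S hS
    simp only [pviwCells, List.mem_map, List.mem_range] at hS
    obtain ⟨j, hj, rfl⟩ := hS
    refine ⟨j, hj, ?_⟩
    unfold pveaZ pveaF
    rw [hk]
    rfl
  have e1 : pviwCyc 𝔓 (pveaEng 𝔓 J) m ε t = [oM, iM] ++ ([oK, eK0 ∪ iK, Rk, Ro] ++ pviwDoors 𝔓 (pveaEng 𝔓 J) m ε t ++ pviwCells 𝔓 (pveaEng 𝔓 J) m ε t) := by
    unfold pviwCyc pviwRes pviwRk pviwRo
    rw [hΓ]
    rfl
  rw [e1]
  -- the groups against the thin chain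
  have oD : ∀ S ∈ pviwDoors 𝔓 (pveaEng 𝔓 J) m ε t, Disjoint (oM ∪ oK) S := by
    intro S hS; obtain ⟨j, hj, rfl⟩ := hD S hS
    rcases Nat.eq_zero_or_pos j with rfl | hj0
    · have h0 := pveg_o_disj_a (𝔓 := 𝔓) (t := t) hL hT (O₀ := J.O0) R.O_sub (by rw [← hJ.kit_del m 1]; exact R.r_le)
      simp only [List.pairwise_cons, List.mem_cons, List.not_mem_nil, or_false, forall_eq_or_imp, forall_eq, IsEmpty.forall_iff, implies_true, List.Pairwise.nil, and_true] at h0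
      have e0 : pvthSim (pveaZ 𝔓 m t 0) (pveaF 𝔓 m t 0) '' (J.kit m ε).O₀ = pvthSim ((𝔓.Γ m).pout t) ((𝔓.Γ m).dout t) '' J.O0 m := by
        unfold pveaZ pveaF PveaIn.O0
        rw [pvthx_Z_zero, pvthx_D_zero, hJ.kit_O m ε 1]
      rw [e0]
      exact Disjoint.union_left h0.1.2 h0.2
    · obtain ⟨i, rfl⟩ : ∃ i, j = i + 1 := ⟨j - 1, by omega⟩
      exact (pvea_o_D H hJ hm hT ε hj).mono_left hsub
  have oC : ∀ S ∈ pviwCells 𝔓 (pveaEng 𝔓 J) m ε t, Disjoint (oM ∪ oK) S := by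
    intro S hS; obtain ⟨j, hj, rfl⟩ := hC S hS; exact (pvea_o_C H hJ hm hT ε hj _).mono_left hsub
  have iD : ∀ S ∈ pviwDoors 𝔓 (pveaEng 𝔓 J) m ε t, Disjoint (iM ∪ iK) S := by
    intro S hS; obtain ⟨j, hj, rfl⟩ := hD S hS; exact pvea_i_D H hJ hm hT ε hj
  have iC : ∀ S ∈ pviwCells 𝔓 (pveaEng 𝔓 J) m ε t, Disjoint (iM ∪ iK) S := by
    intro S hS; obtain ⟨j, hj, rfl⟩ := hC S hS; exact pvea_i_C H hJ hm hT ε hj _
  have eD : ∀ S ∈ pviwDoors 𝔓 (pveaEng 𝔓 J) m ε t, Disjoint (eK0 ∪ Rk ∪ Ro) S := by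
    intro S hS; obtain ⟨j, hj, rfl⟩ := hD S hS; exact pvea_end_D H hJ hm hT ε hj
  have eC : ∀ S ∈ pviwCells 𝔓 (pveaEng 𝔓 J) m ε t, Disjoint (eK0 ∪ Rk ∪ Ro) S := by
    intro S hS; obtain ⟨j, hj, rfl⟩ := hC S hS; exact (pvea_l1_end H hJ hm hT ε).2 j hj
  have L : ∀ {A B C : Set ℂ}, Disjoint (A ∪ B) C → Disjoint A C := fun h => h.mono_left subset_union_left
  have Rr : ∀ {A B C : Set ℂ}, Disjoint (A ∪ B) C → Disjoint B C := fun h => h.mono_left subset_union_right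
  have L' : ∀ {A B C : Set ℂ}, Disjoint C (A ∪ B) → Disjoint C A := fun h => h.mono_right subset_union_left
  have R' : ∀ {A B C : Set ℂ}, Disjoint C (A ∪ B) → Disjoint C B := fun h => h.mono_right subset_union_right
  have MK_o : Disjoint oM oK := by
    have h0 := pveg_o_disj_a (𝔓 := 𝔓) (t := t) hL hT (O₀ := J.O0) R.O_sub (by rw [← hJ.kit_del m 1]; exact R.r_le)
    simp only [List.pairwise_cons, List.mem_cons, List.not_mem_nil, or_false, forall_eq_or_imp, forall_eq, IsEmpty.forall_iff, implies_true, List.Pairwise.nil, and_true] at h0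
    exact h0.1.1
  have MK_i : Disjoint iM iK := pveg_disj_MK
  -- assembling
  rw [List.pairwise_append]
  refine ⟨?_, ?_, ?_⟩
  · simp only [List.pairwise_cons, List.mem_cons, List.not_mem_nil, or_false, forall_eq, IsEmpty.forall_iff, implies_true, List.Pairwise.nil, and_true]
    exact L (L' oi)
  · rw [List.pairwise_append]
    refine ⟨?_, ?_, ?_⟩
    · rw [List.pairwise_append]
      refine ⟨?_, ?_, ?_⟩
      · simp only [List.pairwise_cons, List.mem_cons, List.not_mem_nil, or_false, forall_eq_or_imp, forall_eq, IsEmpty.forall_iff, implies_true, List.Pairwise.nil, and_true]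
        refine ⟨⟨?_, ?_, ?_⟩, ⟨?_, ?_⟩, a5⟩
        · exact Disjoint.union_right (L' (L' (Rr oe))) (R' (Rr oi))
        · exact R' (L' (Rr oe))
        · exact R' (Rr oe)
        · exact Disjoint.union_left a2 (L' (Rr ip))
        · exact Disjoint.union_left a3 (R' (Rr ip))
      · refine pvea_pairwise_range ?_
        intro i hi j hj hij
        have := s1 i (by omega) j (by omega) hij
        unfold pvieDoor
        rw [hk]
        exact this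
      · intro A hA S hS
        simp only [List.mem_cons, List.not_mem_nil, or_false] at hA
        rcases hA with rfl | rfl | rfl | rfl
        · exact Rr (oD S hS)
        · exact Disjoint.union_left (L (L (eD S hS))) (Rr (iD S hS))
        · exact Rr (L (eD S hS))
        · exact Rr (eD S hS)
    · refine pvea_pairwise_range ?_
      intro i hi j hj hij
      have := s2 i (by omega) j (by omega) hij
      rw [hk]
      exact this
    · intro A hA S hS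
      rw [List.mem_append] at hA
      rcases hA with hA | hA
      · simp only [List.mem_cons, List.not_mem_nil, or_false] at hA
        rcases hA with rfl | rfl | rfl | rfl
        · exact Rr (oC S hS)
        · exact Disjoint.union_left (L (L (eC S hS))) (Rr (iC S hS))
        · exact Rr (L (eC S hS))
        · exact Rr (eC S hS)
      · obtain ⟨i, -, rfl⟩ := hD A hA
        obtain ⟨j, -, rfl⟩ := hC S hS
        exact s3 i j
  · intro A hA S hS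
    simp only [List.mem_cons, List.not_mem_nil, or_false] at hA
    rw [List.mem_append, List.mem_append] at hS
    simp only [List.mem_cons, List.not_mem_nil, or_false] at hS
    rcases hA with rfl | rfl
    · rcases hS with (hS | hS) | hS
      · rcases hS with rfl | rfl | rfl | rfl
        · exact MK_o
        · exact Disjoint.union_right (L' (L' (L oe))) (R' (L oi))
        · exact R' (L' (L oe))
        · exact R' (L oe)
      · exact L (oD S hS)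
      · exact L (oC S hS)
    · rcases hS with (hS | hS) | hS
      · rcases hS with rfl | rfl | rfl | rfl
        · exact (L' (Rr oi)).symm
        · exact Disjoint.union_right a1 MK_i
        · exact L' (L ip)
        · exact R' (L ip)
      · exact L (iD S hS)
      · exact L (iC S hS)

theorem pvea_Nw_nonneg (H : PveaPar 𝔓 m0) (m : ℕ) : 0 ≤ pvxrNw 𝔓 m := by
  unfold pvxrNw
  refine Int.ceil_nonneg ?_
  have := H.rho0
  positivity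

theorem pvea_din_ne (H : PveaPar 𝔓 m0) (m : ℕ) (t : τ) : (𝔓.Γ m).din t ≠ 0 := by
  rw [H.gam, pvxr_gam_din]
  exact neg_ne_zero.2 (pow_ne_zero _ Complex.I_ne_zero)

/-- **`res_off`** -/
theorem pvea_res_off (H : PveaPar 𝔓 m0) (hJ : J.Ok 𝔓 m0 r κs) {m : ℕ} (hm : m0 ≤ m) (ε : ℝ) {t : τ} (hT : pviwTyOk 𝔓 t) : ∀ S ∈ pviwRes 𝔓 (pveaEng 𝔓 J) m ε t, Disjoint S (pviwBox 𝔓 m t) := by
  have hL := H.lev hm
  have hk : ((pveaEng 𝔓 J).kit m ε).δ = pvlmDel c m := hJ.kit_del m ε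
  have hΓ : (𝔓.Γ m).zu t = (pvxrGam 𝔓 m).zu t := by rw [H.gam]
  have he := pveh_res_off J.O0 (pvegIM 𝔓) (H.geo m hm t hT)
  have R := hJ.kit_ref m ε
  have hr : r m ≤ pvlmDel c m / 4 := by rw [← hJ.kit_del m ε]; exact R.r_le
  intro S hS
  unfold pviwRes at hS
  rw [List.mem_append, List.mem_append] at hS
  rcases hS with (hS | hS) | hS
  · simp only [List.mem_cons, List.not_mem_nil, or_false] at hS
    rcases hS with rfl | rfl | rfl | rfl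
    · exact pveg_oKa_off hL hT J.O0
    · exact Disjoint.union_left (he.mono_left (subset_union_left.trans subset_union_left)) (pveg_iK_off hL hT)
    · unfold pviwRk
      rw [hΓ]
      exact he.mono_left (subset_union_right.trans subset_union_left)
    · unfold pviwRo
      rw [hΓ]
      exact he.mono_left subset_union_right
  · simp only [pviwDoors, List.mem_map, List.mem_range] at hS
    obtain ⟨j, hj, rfl⟩ := hS
    unfold pvieDoor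
    rw [hk]
    rcases Nat.eq_zero_or_pos j with rfl | hj0
    · rw [pvthx_Z_zero]
      exact pveg_Do_off hL hT R.O_sub hr
    · refine Disjoint.mono_left (pvea_D_sq H hJ hm t ε j) (pvea_sq_box ?_)
      exact (pvea_l1_box H hm hT).1 j hj0 (by omega)
  · simp only [pviwCells, List.mem_map, List.mem_range] at hS
    obtain ⟨j, hj, rfl⟩ := hS
    rw [hk]
    refine Disjoint.mono_left (pvea_C_sq H hJ hm t ε j _) (pvea_sq_box ?_)
    exact (pvea_l1_box H hm hT).2 j hj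

/-! ### InstWf v5.1 (168): the lines (F) of the thick return, at the regions `pveffK pveffY` of 182 (`Exit/ParEngF`)      [(A) of T22: helper13] -/

/-- the hypothesis of `Exit/ParEngF` -/
theorem pvea_ndgF (H : PveaPar 𝔓 m0) {m : ℕ} (hm : m0 ≤ m) {t : τ} (hT : pviwTyOk 𝔓 t) : PvefNdg 𝔓 m t := pvef_ndg_of (H.ndg m hm t hT) hT

/-- (F3) the five atoms of the closed cycle `u ⇒ t ⇒ u` -/
theorem pvea_th_disj (H : PveaPar 𝔓 m0) (hJ : J.Ok 𝔓 m0 r κs) {m : ℕ} (hm : m0 ≤ m) {t : τ} (hT : pviwTyOk 𝔓 t) :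
    [(pveaEng 𝔓 J).eM m t, (pveaEng 𝔓 J).eK m t, (pveaEng 𝔓 J).fM m t, (pveaEng 𝔓 J).fK m t, pviwRo 𝔓 (pveaEng 𝔓 J) m t].Pairwise Disjoint := by
  have h := pvea_cyc H hJ hm 1 hT
  simp only [pviwCyc, pviwRes, List.cons_append, List.nil_append, List.pairwise_cons, List.mem_cons, List.mem_append, forall_eq_or_imp] at h
  obtain ⟨⟨h1, -, h3, -, h5, -⟩, ⟨-, g2, -, g4, -⟩, -, ⟨-, k2, -⟩, -⟩ := h
  have hn := pvea_ndgF H hm hT
  have e1 : (pveaEng 𝔓 J).fM m t = (pveaEng 𝔓 J).oM m t := rfl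
  have f1 : Disjoint ((pveaEng 𝔓 J).fK m t) ((pveaEng 𝔓 J).eM m t) := pvef_fK_iM hn
  have f2 : Disjoint ((pveaEng 𝔓 J).fK m t) ((pveaEng 𝔓 J).eK m t) := Set.disjoint_union_right.2 ⟨pvef_fK_eK hn _, pvef_fK_iK hn (H.gam m)⟩
  have f3 : Disjoint ((pveaEng 𝔓 J).fK m t) ((pveaEng 𝔓 J).oM m t) := pvef_fK_fM m t
  have f4 : Disjoint ((pveaEng 𝔓 J).fK m t) (pviwRo 𝔓 (pveaEng 𝔓 J) m t) := by
    unfold pviwRo
    rw [H.gam]
    exact pvef_fK_rO m t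
  rw [e1]
  simp only [List.pairwise_cons, List.mem_cons, forall_eq_or_imp, List.not_mem_nil, IsEmpty.forall_iff, forall_const, List.Pairwise.nil, and_true]
  exact ⟨⟨g2, h1.symm, f1.symm, g4⟩, ⟨h3.symm, f2.symm, k2⟩, ⟨f3.symm, h5⟩, f4⟩

/-- (F5) -/
theorem pvea_f_bdd [Fintype τ] (H : PveaPar 𝔓 m0) : ∃ Cf : ℝ, ∀ m, m0 ≤ m → ∀ t, pviwTyOk 𝔓 t → pvegOM 𝔓 m t ∪ pveffK 𝔓 m t ⊆ closedBall 0 (Cf * pvlmH m) := by
  classical
  have hAt : ∀ t, (𝔓.ty t).b2 ≤ ∑ t : τ, |(𝔓.ty t).b2| := fun t =>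
    (le_abs_self _).trans (Finset.single_le_sum (f := fun t => |(𝔓.ty t).b2|) (fun _ _ => abs_nonneg _) (Finset.mem_univ t))
  generalize (∑ t : τ, |(𝔓.ty t).b2|) = A at hAt
  refine ⟨2 * (2 * A + 𝔓.num.K * 𝔓.num.rho1 + 1) + 1, fun m hm t hT => ?_⟩
  refine (pvef_bdd_h (pvea_ndgF H hm hT)).trans (closedBall_subset_closedBall (mul_le_mul_of_nonneg_right ?_ (pvlm_H_pos m).le))
  have := hAt t
  linarith

/-- **THE CONTRACT OF 168 HOLDS FOR THE ENGINE OF RECORD** -/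
theorem pvea_wf [Fintype τ] (H : PveaPar 𝔓 m0) (hJ : J.Ok 𝔓 m0 r κs) : ∃ Cth : ℝ, PvieEng.Wf 𝔓 (pveaEng 𝔓 J) m0 Cth r κs := by
  obtain ⟨Cth0, hC0⟩ := pvea_bdd (J := J) H
  obtain ⟨Cf, hCf⟩ := pvea_f_bdd H
  obtain ⟨Cth, hCC, hCF⟩ : ∃ Cth : ℝ, Cth0 ≤ Cth ∧ Cf ≤ Cth := ⟨max Cth0 Cf, le_max_left _ _, le_max_right _ _⟩
  have hC : ∀ m, m0 ≤ m → ∀ t, pviwTyOk 𝔓 t → pvegIM 𝔓 m t ∪ pvegIK 𝔓 m t ∪ pveaEnd 𝔓 J m t ⊆ closedBall 0 (Cth * pvlmH m) := fun m hm t hT =>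
    (hC0 m hm t hT).trans (closedBall_subset_closedBall (mul_le_mul_of_nonneg_right hCC (pvlm_H_pos m).le))
  have hr : ∀ m ε, r m ≤ pvlmDel c m / 4 := fun m ε => by rw [← hJ.kit_del m ε]; exact (hJ.kit_ref m ε).r_le
  have hO1 : ∀ m, J.O0 m ⊆ pvccSq 0 (r m) := fun m => (hJ.kit_ref m 1).O_sub
  have hM : ∀ m t, MeasurableSet (pvegIM 𝔓 m t) := fun m t => pveg_m_iM m t
  refine ⟨Cth, ?_⟩
  exact
    { m_oM := fun m t => pveg_m_oM m t
      m_oK := fun m t => pveg_m_oKa hJ.mO m t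
      m_oY := fun m t => pvey_m_oYc m t
      m_iM := hM
      m_iK := fun m t => pveg_m_iKa hJ.mO m t (pvea_din_ne H m t)
      m_iY := fun m t => pvey_m_iYc m t
      m_eM := hM
      m_eK := fun m t => (pveh_m_eK hM m t).union (pveg_m_iK m t)
      m_eY := fun m t => pvvz_eY_meas 𝔓 m t
      m_rK := fun m => pveh_m_rK hJ.mO m
      m_rY := fun m => pveh_m_rY hJ.mO m
      m_rO := fun m => pveh_m_rO m
      m_fM := fun m t => pveg_m_oM m t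
      m_fK := fun m t => pvef_m_fK m t
      m_fY := fun m t => pvef_m_fY (pvea_Nw_nonneg H m) t
      kit_del := hJ.kit_del
      kit_ref := hJ.kit_ref
      kit_O := hJ.kit_O
      kit_K := hJ.kit_K
      oM_in := fun m hm t _ => pveg_oM_in (H.lev hm) (H.cp_small t)
      iM_in := fun m hm t _ => pveg_iM_in (H.lev hm) (H.cm_small t)
      eM_in := fun m hm t _ => pveg_iM_in (H.lev hm) (H.cm_small t)
      oM_tip := fun m hm t _ => pveg_oM_tip (H.lev hm) (H.cp_small t)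
      iM_tip := fun m hm t _ => pveg_iM_tip (H.lev hm) (H.cm_small t)
      eM_tip := fun m hm t _ => pveg_iM_tip (H.lev hm) (H.cm_small t)
      oM_cen := fun m hm t _ => closedBall_subset_closedBall (by have := pveg_R_pos (H.lev hm); unfold pvegR at this ⊢; linarith)
      iM_cen := fun m hm t _ => closedBall_subset_closedBall (by have := pveg_R_pos (H.lev hm); unfold pvegR at this ⊢; linarith)
      eM_cen := fun m hm t _ => closedBall_subset_closedBall (by have := pveg_R_pos (H.lev hm); unfold pvegR at this ⊢; linarith)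
      fM_in := fun m hm t _ => pveg_oM_in (H.lev hm) (H.cp_small t)
      fM_tip := fun m hm t _ => pveg_oM_tip (H.lev hm) (H.cp_small t)
      fM_cen := fun m hm t _ => closedBall_subset_closedBall (by have := pveg_R_pos (H.lev hm); unfold pvegR at this ⊢; linarith)
      oM_half := fun m hm t _ => closedBall_subset_closedBall (by have := pveg_R_pos (H.lev hm); unfold pvegR at this ⊢; linarith)
      iM_half := fun m hm t _ => closedBall_subset_closedBall (by have := pveg_R_pos (H.lev hm); unfold pvegR at this ⊢; linarith)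
      eM_half := fun m hm t _ => closedBall_subset_closedBall (by have := pveg_R_pos (H.lev hm); unfold pvegR at this ⊢; linarith)
      fM_half := fun m hm t _ => closedBall_subset_closedBall (by have := pveg_R_pos (H.lev hm); unfold pvegR at this ⊢; linarith)
      res_off := fun m hm ε t hT => pvea_res_off H hJ hm ε hT
      fK_off := fun m hm t hT => pvef_fK_box (pvea_ndgF H hm hT)
      fY_sub := fun m _ t _ => by
        show pveffY 𝔓 m t ⊆ pvegOM 𝔓 m t ∪ pveffK 𝔓 m t ∪ pvieSh ((𝔓.Γ m).zu t) (pvehrO 𝔓 m)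
        rw [H.gam]
        exact pvef_fY_sub (pvea_Nw_nonneg H m) t
      th_disj := fun m hm t hT => pvea_th_disj H hJ hm hT
      ef_sep := fun m hm t hT a ha b hb => by
        rw [norm_sub_rev]
        exact pvef_sep_del (pvea_ndgF H hm hT) (H.gam m) b hb a (pvvz_eY_old (H.mu3 m) t ha)
      f_bdd := fun m hm t hT => (hCf m hm t hT).trans (closedBall_subset_closedBall (mul_le_mul_of_nonneg_right hCF (pvlm_H_pos m).le))
      iK_off := fun m hm t hT => pveg_iKa_off (H.lev hm) hT J.O0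
      Di_off := fun m hm ε t hT => pveg_Di_off (H.lev hm) hT (hJ.kit_ref m ε).O_sub (hr m ε)
      oY_sub := fun m hm ε t _ => by
        show pvegOYc 𝔓 m t ⊆ pvegOM 𝔓 m t ∪ pvegOKa 𝔓 J.O0 m t ∪ pvthSim ((𝔓.Γ m).pout t) ((𝔓.Γ m).dout t) '' (J.kit m ε).O₀
        rw [hJ.kit_O m ε 1]
        exact pvey_oYc_sub (H.lev hm) (pvey_mu_nonneg H.rho3 m) J.O0 t
      iY_sub := fun m hm ε t _ => by
        show pvegIYc 𝔓 m t ⊆ pvegIM 𝔓 m t ∪ pvegIKa 𝔓 J.O0 m t ∪ pvthSim ((𝔓.Γ m).pin t) ((𝔓.Γ m).din t) '' (J.kit m ε).O₀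
        rw [hJ.kit_O m ε 1]
        exact pvey_iYc_sub (H.lev hm) (pvey_mu_nonneg H.rho3 m) J.O0 t
      eY_sub := fun m _ t _ => by
        refine (pvvz_eY_old (H.mu3 m) t).trans ?_
        show pveheY 𝔓 (pvegIM 𝔓) m t ∪ pvegIK 𝔓 m t ⊆ pvegIM 𝔓 m t ∪ (pveheK 𝔓 (pvegIM 𝔓) m t ∪ pvegIK 𝔓 m t) ∪ pvieSh ((𝔓.Γ m).zu t) (pvehrO 𝔓 m)
        rw [H.gam]
        refine union_subset ?_ ?_
        · refine (pveh_eY_sub (Mi := pvegIM 𝔓) (Mo := pvegIM 𝔓) (fun _ _ => subset_rfl) (pvea_Nw_nonneg H m) t).trans ?_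
          exact union_subset_union_left _ (union_subset_union_right _ subset_union_left)
        · exact (subset_union_right.trans subset_union_right).trans subset_union_left
      rY_sub := fun m _ ε => by
        show pvehrY 𝔓 J.O0 m ⊆ pvehrK 𝔓 J.O0 m ∪ pvehrO 𝔓 m ∪ pvthSim (𝔓.Γ m).pin0 (𝔓.Γ m).din0 '' (J.kit m ε).O₀
        rw [hJ.kit_O m ε 1, H.gam]
        exact pveh_rY_sub J.O0 m
      oY_reg := fun m hm π hT => pvey_oYc_reg (H.lev hm) (pvey_mu_nonneg H.rho3 m) hT (H.reg m π)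
      iY_reg := fun m hm π hT => pvey_iYc_reg (H.lev hm) (pvey_mu_nonneg H.rho3 m) hT (H.reg m π)
      o_disj := fun m hm ε t hT => by
        show [pvegOM 𝔓 m t, pvegOKa 𝔓 J.O0 m t, pvthSim ((𝔓.Γ m).pout t) ((𝔓.Γ m).dout t) '' (J.kit m ε).O₀].Pairwise Disjoint
        rw [hJ.kit_O m ε 1]
        exact pveg_o_disj_a (H.lev hm) hT (hO1 m) (hr m 1)
      i_disj := fun m hm ε t hT => by
        show [pvegIM 𝔓 m t, pvegIKa 𝔓 J.O0 m t, pvthSim ((𝔓.Γ m).pin t) ((𝔓.Γ m).din t) '' (J.kit m ε).O₀].Pairwise Disjoint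
        rw [hJ.kit_O m ε 1]
        exact pveg_i_disj_a (H.lev hm) hT (hO1 m) (hr m 1)
      oi_disj := fun m hm t hT => pveg_oi_disj (H.lev hm) hT
      cyc_disj := fun m hm ε t hT => pvea_cyc H hJ hm ε hT
      dp_win := hJ.dp_win
      κs0 := hJ.κs0
      rp_h := hJ.rp_h
      rp_win := hJ.rp_win
      e_bdd := fun m hm t hT => by
        refine Subset.trans ?_ (hC m hm t hT)
        show pvegIM 𝔓 m t ∪ (pveheK 𝔓 (pvegIM 𝔓) m t ∪ pvegIK 𝔓 m t) ∪ pvieSh ((𝔓.Γ m).zu t) (pvehrO 𝔓 m) ⊆ _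
        rw [H.gam]
        unfold pveaEnd
        rintro v ((h | h | h) | h)
        · exact Or.inl (Or.inl h)
        · exact Or.inr (Or.inl (Or.inl h))
        · exact Or.inl (Or.inr h)
        · exact Or.inr (Or.inr h) }

/-- **the body of `exit_pvie_eng`** at parameters of record -/
theorem pvea_exit [Fintype τ] (H : PveaPar 𝔓 𝔓.m0) (hJ : J.Ok 𝔓 𝔓.m0 r κs) (hU : ∃ U : PvkmUnit, PvkmEng (pveaEng 𝔓 J) c U) : PvnaWf 𝔓 (pveaEng 𝔓 J) := by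
  obtain ⟨Cth, h⟩ := pvea_wf H hJ
  exact ⟨⟨Cth, r, κs, h⟩, hU⟩

end glue

/-! ## 5. the hypotheses are PAID at the parameters of record -/

section par

variable {N : PvxNums} (hN : N.Ok) {c : ℝ} (c0 : 0 < c)

include c0 in
/-- **`PveaPar` AT THE PARAMETERS OF RECORD** (73, helper1, 209) -/
theorem pvea_par : PveaPar (pvxParOf N hN c) N.m0 where
  rho0 := hN.rho0
  rho3 := hN.msk0.le
  gam := fun _ => rfl
  reg := fun _ _ => rfl
  doors := fun m _ => pvxr_doors_par hN m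
  fine := fun m hm => by
    have h1 := pvxo_fine hN c0 hm
    have hd := pvlm_Del_pos c m
    show 1024 * pvlmDel c m ≤ N.rho * pvlmH m
    linarith
  cp_small := fun t w hw => by
    have h := pvxo_tip_p (N := N) (hN := hN) (c := c) (t := t) (z := 0) (p := w) (h := 1) one_pos ⟨w, hw, by simp⟩
    show ‖w - pvxoYp t‖ ≤ N.rho / 10
    simpa using h
  cm_small := fun t w hw => by
    have h := pvxo_tip_m (N := N) (hN := hN) (c := c) (t := t) (z := 0) (p := w) (h := 1) one_pos ⟨w, hw, by simp⟩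
    show ‖w - pvxoYm t‖ ≤ N.rho / 10
    simpa using h
  ndg := fun m hm t _ => pvxr_ndg_par hN c0 hm t

/-- every type of the menu of record is admissible -/
theorem pvea_tyOk (t : pvxTau N) : pviwTyOk (pvxParOf N hN c) t :=
  ⟨pvxo_nd_p t, pvxo_nd_m t, by
    have := pvxo_nd_far t
    show 7 * N.rho / 4 ≤ ‖pvxoYp t - pvxoYm t‖
    linarith⟩

end par

/-! ## 6. the kit of record -/

section kit

open Filter Topology in
/-- the containment record of 166 holds at EVERY mesh, with ONE radius, as soon as the regions of the reference family do not depend on the mesh -/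
theorem pvea_unit_ref (U : PvkmUnit) (hO : ∀ e e', (U.kit e).O₀ = (U.kit e').O₀) (hK : ∀ e e', (U.kit e).K₀ = (U.kit e').K₀) : ∃ r0 : ℝ, ∀ e, PvccKitRef (U.kit e) r0 := by
  obtain ⟨e0, h0⟩ := U.ok.exists
  have R := h0.ref
  refine ⟨U.r e0, fun e => ?_⟩
  have hd : (U.kit e).δ = (U.kit e0).δ := by rw [U.kδ, U.kδ]
  exact
    { δ0 := by rw [hd]; exact R.δ0
      r_le := by rw [hd]; exact R.r_le
      O_sub := by rw [hO e e0]; exact R.O_sub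
      K_cell := fun τ => by rw [hK e e0, hd]; exact R.K_cell τ
      K_off := fun τ v hv => by rw [hK e e0, hd]; exact R.K_off τ v hv }

/-- **the data of record**: `kit XQ XV` := the reference family of 258 scaled by `δ_m` -/
noncomputable def pveaInOf (U : PvkmUnit) (c : ℝ) (sp rp : ℕ → PviePl) (rG : ℕ → ℝ → Set (Conf PvPt)) : PveaIn := ⟨pvkmEngKit U c, pvkmEngXQ U c, pvkmEngXV U c, sp, rp, rG⟩

theorem pvea_eqns_cite2 : True := by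
  have := @pveaInOf.eq_1
  trivial

/-- (NUM) of 258, by definition -/
theorem pvea_num {τ : Type} {c : ℝ} (𝔓 : PvxPar τ c) (U : PvkmUnit) (sp rp : ℕ → PviePl) (rG : ℕ → ℝ → Set (Conf PvPt)) : PvkmEng (pveaEng 𝔓 (pveaInOf U c sp rp rG)) c U := ⟨rfl, rfl, rfl⟩

end kit

section kit2

variable {τ : Type} {c : ℝ} (𝔓 : PvxPar τ c) (U : PvkmUnit) (sp rp : ℕ → PviePl) (rG : ℕ → ℝ → Set (Conf PvPt))

/-- **what is left of `PveaIn.Ok` at the data of record**: four lines on the REGIONS of the reference family (34 258) + the unit of the reference plug (163: `Δ / 16`) -/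
structure PveaUnitOk : Prop where
  mO : ∀ e, MeasurableSet (U.kit e).O₀
  hO : ∀ e e', (U.kit e).O₀ = (U.kit e').O₀
  hK : ∀ e e', (U.kit e).K₀ = (U.kit e').K₀
  /-- mesh window of the door plug `pvkdP (1/40)` (34 12:20Z), cells of side `1` -/
  win : ∀ e, pvwSq 0 (3 / 40) ⊆ (U.kit e).O₀
  rp_h : ∀ m, (rp m).h = pvehDl 𝔓 m / 16

variable {𝔓 U sp rp rG}

theorem pvea_in_ok {m0 : ℕ} (H : PveaPar 𝔓 m0) [Nonempty τ] (hT : ∀ t, pviwTyOk 𝔓 t) (h : PveaUnitOk 𝔓 U rp) : ∃ r : ℕ → ℝ, (pveaInOf U c sp rp rG).Ok 𝔓 m0 r (fun _ => 1) := by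
  obtain ⟨r0, hr⟩ := pvea_unit_ref U h.hO h.hK
  have hE := pvea_num 𝔓 U sp rp rG
  obtain ⟨t0⟩ := ‹Nonempty τ›
  have hD : ∀ m, m0 ≤ m → 0 < pvehDl 𝔓 m := fun m hm => pveh_Dl_pos (H.geo m hm t0 (hT t0)).n0
  refine ⟨fun m => pvlmDel c m * r0, ?_⟩
  exact
    { mO := fun m => pveg_sim_meas (h.mO _) 0 (by exact_mod_cast (pvlm_Del_pos c m).ne')
      kit_del := fun m ε => hE.kδ m ε
      kit_ref := fun m ε => pvkm_ref_sc (pvlm_Del_pos c m) (hr _)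
      kit_O := fun m ε ε' => hE.O_eq h.hO m ε ε'
      kit_K := fun m ε ε' => hE.K_eq h.hK m ε ε'
      dp_win := fun m _ ε w hw => by
        have hδ := pvlm_Del_pos c m
        refine ⟨w / (pvlmDel c m : ℂ), h.win _ ?_, ?_⟩
        · obtain ⟨h1, h2⟩ := hw
          simp only [sub_zero] at h1 h2
          constructor
          · simp only [sub_zero, Complex.div_ofReal_re, abs_div, abs_of_pos hδ]
            rw [div_le_iff₀ hδ]; linarith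
          · simp only [sub_zero, Complex.div_ofReal_im, abs_div, abs_of_pos hδ]
            rw [div_le_iff₀ hδ]; linarith
        · have hne : (pvlmDel c m : ℂ) ≠ 0 := by exact_mod_cast hδ.ne'
          simp only [pvthSim]
          field_simp
          try ring
      κs0 := fun _ => one_pos
      rp_h := fun m hm => by
        show 0 < (rp m).h
        rw [h.rp_h]; have := hD m hm; linarith
      rp_win := fun m hm w hw => by
        have hw' : w ∈ pvwSq 0 (3 * (rp m).h) := hw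
        rw [h.rp_h] at hw'
        obtain ⟨h1, h2⟩ := hw'
        have := hD m hm
        show pvccN (w - 0) < pvehDl 𝔓 m / 4
        exact max_lt (by linarith) (by linarith) }

end kit2

section final

variable {N : PvxNums} (hN : N.Ok) {c : ℝ} (c0 : 0 < c) {U : PvkmUnit} {sp rp : ℕ → PviePl} {rG : ℕ → ℝ → Set (Conf PvPt)}

include c0 in
/-- **NODE (1) `exit_pvie_eng` AT THE PARAMETERS OF RECORD**: the contract on the data of the engine, from four lines on the regions of the reference family -/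
theorem pvea_exit_par (h : PveaUnitOk (pvxParOf N hN c) U rp) : PvnaWf (pvxParOf N hN c) (pveaEng (pvxParOf N hN c) (pveaInOf U c sp rp rG)) := by
  haveI := pvxo_nonempty hN
  obtain ⟨r, hJ⟩ := pvea_in_ok (sp := sp) (rG := rG) (pvea_par hN c0) (pvea_tyOk hN) h
  exact pvea_exit (pvea_par hN c0) hJ ⟨U, pvea_num _ U sp rp rG⟩

end final

end Claimed.Agent.R289
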