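import Claimed.Agent.R289.Tr.PlugClose
import Claimed.Agent.R289.Tr.PlugFrc
import Claimed.Agent.R289.Exit.AnaNum

/-!
# Row 289 (S0537), THE WALL, file Exit/NumQ : THE ROOF OF (NUM) AT THE MODEL      (helper258, post Z2 of 82; prefix `pvku_`, `Pvku`)      v2: GENERIC IN THE DATUM

CHAIN (all compiled):   `exit_pvie_num` (271, `Exit/Ana.lean`)  ⟸  `PvnaWf.num : ∃ U : PvkmUnit, PvkmEng 𝔈 c U` (`Exit/AnaNum.lean`)  ⟸  ONE `U : PvkmUnit` (`Tr/BuNum.lean`: cells of side `1`, all levels by scaling)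
      ⟸  `PvpgFam (fun _ => 1)` (34, `Tr/Plug.lean`)  ⟸  **`PvkuOk 𝔊 b q β' CB r`** = `𝔊.Ok ε ..` eventually + [TAIL]  ⟸  **`pvku_ok`** (PROVED)  ⟸  **`PvkuIn 𝔊 Mk r B a cM`** = THE NAMED SUB-EXITS, for ANY global datum `𝔊 : PvpgGlob` with `𝔊.δ = 1`.
THE SUB-EXITS (sec. 1):
* [GEO]    `PvkuGeo 𝔊 Mk r B a cM`   regions: `PvccKitRef`, Borel; the eight masks of the hexagon loop: Borel, bounded, area `≤ cM`, pairwise disjoint; `B` bounded, `0 < a`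
* [MEAS]   `PvkuMeas 𝔊`              `C`, `H i`, `A τ` measurable sets, `XQ τ`, `ζ` measurable, `‖ζ‖ ≤ δ`
* [LOC]    `PvkuLoc 𝔊 ε`             a.s. locality of `C` (window of the plug), of `A τ`, `XQ τ` (window of the link)
* [ADM]    `PvkuAdm 𝔊`               `∃ p0 > 0`, eventually `p0 ≤ P(C ∩ ⋂ H i)`
* [FRC]    `PvkuFrc 𝔊`               for every threshold `b ≠ 0` a bound `q ≠ 0`, eventually in `ε`, for a.e. pair of usable states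
* [CLOSE]  `𝔊.Close ε Mk B a`        (52), eventually
AT THE DEFS OF `Tr/PlugK.lean` (34), `𝔊 = 𝔤.glob Hf` (sec. 4):   `pvku_geo_of` ([GEO] from `PvccKitRef` + `PvkxRef` of 244 + Borel regions),   `pvku_adm_of_dict` ([ADM] from `PvkdAdm` + `HDict`),   `pvku_frc_of_cf` ([FRC] from `PvcfOk` of 52),
`pvkx_main` of 244 ([CLOSE] from [COV] + `PvkxRef`),   **`PvkuK 𝔤 Hf r`** = the list at PlugK,   **`pvku_in_of`** : `PvkuK 𝔤 Hf r → PvkuIn (𝔤.glob Hf) 𝔤.MkJ r (closedBall 0 4) 1 (16 π)`.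
-/

set_option autoImplicit false

namespace Claimed.Agent.R289

open Set MeasureTheory Filter Topology Claims.C0465
open scoped ENNReal

/-! ## 1. the statements -/

/-- **[GEO]** -/
structure PvkuGeo (𝔊 : PvpgGlob) (Mk : ℕ → Set ℂ) (r : ℝ) (B : Set ℂ) (a cM : ℝ) : Prop where
  δ1 : 𝔊.δ = 1
  ref : PvccKitRef 𝔊.pre r
  mO : MeasurableSet 𝔊.O₀
  mK : ∀ τ, MeasurableSet (𝔊.K₀ τ)
  mMk : ∀ j < 8, MeasurableSet (Mk j)
  bMk : ∀ j < 8, Bornology.IsBounded (Mk j)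
  vMk : ∀ j < 8, volume (Mk j) ≤ ENNReal.ofReal cM
  dMk : ∀ i < 8, ∀ j < 8, i ≠ j → Disjoint (Mk i) (Mk j)
  cM0 : 0 ≤ cM
  bB : Bornology.IsBounded B
  a0 : 0 < a

/-- **[MEAS]** -/
structure PvkuMeas (𝔊 : PvpgGlob) : Prop where
  mC : MeasurableSet 𝔊.C
  mH : ∀ i, MeasurableSet (𝔊.H i)
  mA : ∀ τ, MeasurableSet (𝔊.A τ)
  mX : ∀ τ, Measurable (𝔊.XQ τ)
  mζ : Measurable 𝔊.ζ
  ζ_le : ∀ η, ‖𝔊.ζ η‖ ≤ 𝔊.δ

/-- **[LOC]** at the mesh `ε` -/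
structure PvkuLoc (𝔊 : PvpgGlob) (ε : ℝ) : Prop where
  lC : PvpgLocal (pvP ε) (𝔊.pre.O 0 1) 𝔊.C
  lA : ∀ τ, PvpgLocal (pvP ε) (𝔊.win τ) (𝔊.A τ)
  lX : ∀ τ, ∀ᵐ p ∂((pvP ε).prod (pvP ε)), p.1 ∈ 𝔊.A τ → 𝔊.XQ τ (Conf.spl (𝔊.win τ) p) = 𝔊.XQ τ p.1

/-- **[ADM]**, consumer form -/
def PvkuAdm (𝔊 : PvpgGlob) : Prop := ∃ p0 : ℝ≥0∞, 0 < p0 ∧ ∀ᶠ ε in 𝓝[>] (0 : ℝ), p0 ≤ pvP ε (𝔊.C ∩ ⋂ i, 𝔊.H i)

/-- **[FRC]**, consumer form: for every threshold `b` of the propensities a lower bound `q`, uniform in the mesh -/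
def PvkuFrc (𝔊 : PvpgGlob) : Prop :=
  ∀ b : ℝ≥0∞, b ≠ 0 → b ≤ 1 → ∃ q : ℝ≥0∞, q ≠ 0 ∧ q ≤ 1 ∧ ∀ᶠ ε in 𝓝[>] (0 : ℝ), ∀ τ, ∀ᵐ σ ∂(pvP ε), σ ∈ 𝔊.G2 (pvP ε) b τ →
    q ≤ pvtiP (pvP ε) (𝔊.pre.OO 0 1 τ) (𝔊.A τ) σ

/-- **THE NAMED SUB-EXITS OF (NUM)** -/
structure PvkuIn (𝔊 : PvpgGlob) (Mk : ℕ → Set ℂ) (r : ℝ) (B : Set ℂ) (a cM : ℝ) : Prop where
  geo : PvkuGeo 𝔊 Mk r B a cM
  meas : PvkuMeas 𝔊
  loc : ∀ᶠ ε in 𝓝[>] (0 : ℝ), PvkuLoc 𝔊 ε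
  adm : PvkuAdm 𝔊
  frc : PvkuFrc 𝔊
  close : ∀ᶠ ε in 𝓝[>] (0 : ℝ), 𝔊.Close ε Mk B a

/-- **WHAT `Tr/Plug.lean` CONSUMES**, constants explicit -/
structure PvkuOk (𝔊 : PvpgGlob) (b q β' : ℝ≥0∞) (CB r : ℝ) : Prop where
  δ1 : 𝔊.δ = 1
  ok : ∀ᶠ ε in 𝓝[>] (0 : ℝ), 𝔊.Ok ε b q β' CB r
  tail : Tendsto (fun ε => ∫⁻ η, ‖∑ j ∈ Finset.range 8, pvthX 𝔊.XQ (pvthZ 𝔊.δ 0 1 pvcnHex j) (pvthD 1 pvcnHex j) (pvthL pvcnHex j) η‖ₑ ^ 2 *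
    (𝔊.EvG 0 1 pvcnHex).indicator 1 η ∂(pvP ε)) (𝓝[>] (0 : ℝ)) (𝓝 0)

theorem pvku_eqns_cite : True := by
  have := @PvkuFrc.eq_1; have := @PvkuAdm.eq_1
  trivial

/-! ## 2. from `PvkuOk` to the reference family -/

section unit

variable {𝔊 : PvpgGlob} {b q β' : ℝ≥0∞} {CB r : ℝ}

/-- the family of 34 at `δ ≡ 1` -/
noncomputable def PvkuOk.fam (H : PvkuOk 𝔊 b q β' CB r) : PvpgFam (fun _ => (1 : ℝ)) where
  𝔊 := fun _ => 𝔊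
  b := b
  q := q
  β' := β'
  CB := CB
  r := fun _ => r
  hδ := fun _ => H.δ1
  ok := fun _ => H.ok
  tail := fun _ => H.tail

/-- **THE REFERENCE FAMILY** (cells of side `1`) -/
noncomputable def PvkuOk.unit (H : PvkuOk 𝔊 b q β' CB r) : PvkmUnit := PvkmUnit.ofFam H.fam.toFam

theorem pvku_eqns_cite2 : True := by
  have := @PvkuOk.fam.eq_1; have := @PvkuOk.unit.eq_1
  trivial

theorem pvku_unit_kit (H : PvkuOk 𝔊 b q β' CB r) (e : ℝ) : H.unit.kit e = 𝔊.kit (pvP e) b q := rfl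
theorem pvku_unit_XQ (H : PvkuOk 𝔊 b q β' CB r) (e : ℝ) : H.unit.XQ e = 𝔊.fQ (pvP e) := rfl
theorem pvku_unit_XV (H : PvkuOk 𝔊 b q β' CB r) (e : ℝ) : H.unit.XV e = 𝔊.fV (pvP e) := rfl
theorem pvku_unit_r (H : PvkuOk 𝔊 b q β' CB r) (e : ℝ) : H.unit.r e = r := rfl
theorem pvku_unit_q (H : PvkuOk 𝔊 b q β' CB r) : H.unit.q = q := rfl
theorem pvku_unit_β (H : PvkuOk 𝔊 b q β' CB r) : H.unit.β' = β' := rfl

end unit

/-! ## 3. the glue -/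

section glue

variable {𝔊 : PvpgGlob} {Mk : ℕ → Set ℂ} {r : ℝ} {B : Set ℂ} {a cM : ℝ}

theorem pvku_div_ne {p c : ℝ≥0∞} (hp : p ≠ 0) (hc : c ≠ ∞) : p / c ≠ 0 := by
  simp only [ne_eq, ENNReal.div_eq_zero_iff, not_or]
  exact ⟨hp, hc⟩

theorem pvku_arith (p : ℝ≥0∞) : p / 4 + 4 * (p / 16) = p / 2 := by
  have e2 : (4 : ℝ≥0∞) * (p / 16) = p / 4 := by
    rw [div_eq_mul_inv, div_eq_mul_inv, mul_comm, mul_assoc]
    congr 1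
    rw [← ENNReal.toReal_eq_toReal_iff' (by finiteness) (by finiteness)]
    simp [ENNReal.toReal_mul, ENNReal.toReal_inv]
    norm_num
  rw [e2, div_eq_mul_inv, div_eq_mul_inv, ← mul_add]
  congr 1
  rw [← ENNReal.toReal_eq_toReal_iff' (by finiteness) (by finiteness)]
  rw [ENNReal.toReal_add (by finiteness) (by finiteness)]
  simp [ENNReal.toReal_inv]
  norm_num

/-- **THE ROOF**: the named sub-exits give what `Tr/Plug.lean` consumes -/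
theorem pvku_ok (H : PvkuIn 𝔊 Mk r B a cM) : ∃ (b q β' : ℝ≥0∞) (CB : ℝ), PvkuOk 𝔊 b q β' CB r := by
  obtain ⟨p0, hp00, hadm0⟩ := H.adm
  set p := min p0 1 with hpdef
  have hp0 : p ≠ 0 := (lt_min hp00 one_pos).ne'
  have hp1 : p ≤ 1 := min_le_right _ _
  have hb0 : p / 16 ≠ 0 := pvku_div_ne hp0 (by norm_num)
  have hb1 : p / 16 ≤ 1 := (ENNReal.div_le_of_le_mul (by
    calc p ≤ 1 := hp1
      _ ≤ 1 * 16 := by norm_num))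
  have hβ0 : p / 4 ≠ 0 := pvku_div_ne hp0 (by norm_num)
  obtain ⟨q, hq0, hq1, hfrc⟩ := H.frc (p / 16) hb0 hb1
  have hv : ∀ j < 8, volume (Mk j) ≤ ENNReal.ofReal (cM * 𝔊.δ ^ 2) := by
    intro j hj
    rw [H.geo.δ1, one_pow, mul_one]
    exact H.geo.vMk j hj
  refine ⟨p / 16, q, p / 4, pvbeCB.toReal * cM, H.geo.δ1, ?_, ?_⟩
  · filter_upwards [H.loc, hadm0, hfrc, H.close, self_mem_nhdsWithin] with ε hl ha hf hc hε
    exact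
      { ref := H.geo.ref
        mO := H.geo.mO
        mK := H.geo.mK
        mC := H.meas.mC
        mH := H.meas.mH
        mA := H.meas.mA
        mX := H.meas.mX
        mζ := H.meas.mζ
        ζ_le := H.meas.ζ_le
        lC := hl.lC
        lA := hl.lA
        lX := hl.lX
        b0 := hb0
        q0 := hq0
        q1 := hq1
        β0 := hβ0
        adm := by
          rw [pvku_arith]
          exact (ENNReal.half_le_self.trans (min_le_left _ _)).trans ha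
        frc := hf
        CB0 := mul_nonneg ENNReal.toReal_nonneg H.geo.cM0
        bes := pvcq_plug_bes hc hε H.geo.mMk H.geo.bMk hv }
  · exact pvcq_plug_tail (Mks := fun _ => Mk) H.geo.bB H.geo.a0 (H.close.mono fun ε h => ⟨h, H.geo.dMk⟩)

/-- **(NUM) AT THE MODEL**: the reference family, with its kit and its fields in the vocabulary of 34 -/
theorem pvku_unit (H : PvkuIn 𝔊 Mk r B a cM) : ∃ (U : PvkmUnit) (b q : ℝ≥0∞), b ≠ 0 ∧ q ≠ 0 ∧ (∀ e, U.kit e = 𝔊.kit (pvP e) b q) ∧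
    (∀ e, U.XQ e = 𝔊.fQ (pvP e)) ∧ (∀ e, U.XV e = 𝔊.fV (pvP e)) ∧ (∀ e, U.r e = r) ∧ ∀ᶠ ε in 𝓝[>] (0 : ℝ), ∃ β' CB, 𝔊.Ok ε b q β' CB r := by
  obtain ⟨b, q, β', CB, h⟩ := pvku_ok H
  obtain ⟨ε, hε⟩ := h.ok.exists
  exact ⟨h.unit, b, q, hε.b0, hε.q0, fun _ => rfl, fun _ => rfl, fun _ => rfl, fun _ => rfl, h.ok.mono fun _ h' => ⟨β', CB, h'⟩⟩

/-- **[FRC]** from the abstract annealed bridge of 52 (`Tr/PlugFrc.lean`): bars of probability `≥ qb`, mesh failing with probability `→ 0` -/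
theorem pvku_frc_of_cf {Br : PvcfBr} {qb : ℝ≥0∞} (hq0 : qb ≠ 0) (hq1 : qb ≤ 1)
    (h : ∀ err : ℝ≥0∞, err ≠ 0 → ∀ᶠ ε in 𝓝[>] (0 : ℝ), PvcfOk 𝔊 Br ε r qb err) : PvkuFrc 𝔊 := by
  intro b hb0 hb1
  have hx0 : b ^ 4 * qb ≠ 0 := mul_ne_zero (pow_ne_zero _ hb0) hq0
  have hx1 : b ^ 4 * qb ≤ 1 := mul_le_one' (pow_le_one₀ zero_le hb1) hq1
  have hxt : b ^ 4 * qb ≠ ∞ := ne_top_of_le_ne_top ENNReal.one_ne_top hx1
  refine ⟨b ^ 4 * qb - b ^ 4 * qb / 2, pvcf_q_pos (ENNReal.half_lt_self hx0 hxt), pvcf_q_le_one hb1 hq1, ?_⟩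
  filter_upwards [h _ (pvku_div_ne (c := 2) hx0 (by norm_num))] with ε H τ
  exact pvcf_frc H b τ

end glue

/-! ## 4. at the definitions of `Tr/PlugK.lean` -/

section plugK

variable {𝔤 : PvkdGeo} {Hf : Fin 4 → Set (Conf PvPt)} {r : ℝ}

/-- **[ADM]** from the roof of 34 and the dictionary graph form ⟶ form of [FRC] -/
theorem pvku_adm_of_dict (ha : PvkdAdm 𝔤.toPvkdPlug) (hd : ∀ err : ℝ≥0∞, err ≠ 0 → ∀ᶠ ε in 𝓝[>] (0 : ℝ), 𝔤.HDict Hf ε err) : PvkuAdm (𝔤.glob Hf) := by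
  obtain ⟨p0, hp0, hp⟩ := ha
  set p := min p0 1 with hpdef
  have hp1 : p ≤ 1 := min_le_right _ _
  have hpt : p ≠ ∞ := ne_top_of_le_ne_top ENNReal.one_ne_top hp1
  have hpp : p ≠ 0 := (lt_min hp0 one_pos).ne'
  have h2 : p / 2 ≠ 0 := pvku_div_ne hpp (by norm_num)
  refine ⟨p / 2, pos_iff_ne_zero.2 h2, ?_⟩
  filter_upwards [hp, hd (p / 2) h2] with ε h3 h4
  have h5 : pvP ε (𝔤.CH 0 1) ≤ pvP ε (𝔤.CH 0 1 ∩ ⋂ i, Hf i) + pvP ε (𝔤.CH 0 1 \ ⋂ i, Hf i) := measure_le_inter_add_sdiff _ _ _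
  have h6 : pvP ε (𝔤.CH 0 1 ∩ ⋂ i, Hf i) ≤ pvP ε (𝔤.C 0 1 ∩ ⋂ i, Hf i) := measure_mono (inter_subset_inter_left _ inter_subset_left)
  have h7 : p / 2 + p / 2 ≤ pvP ε (𝔤.C 0 1 ∩ ⋂ i, Hf i) + p / 2 := by
    rw [ENNReal.add_halves]
    calc p ≤ p0 := min_le_left _ _
      _ ≤ _ := h3
      _ ≤ _ := h5
      _ ≤ _ := add_le_add h6 h4
  exact ENNReal.le_of_add_le_add_right (by finiteness) h7

theorem pvku_at_meas {z d : ℂ} (hd : d ≠ 0) {S : Set ℂ} (hS : MeasurableSet S) : MeasurableSet (pvkdAt z d S) := by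
  have e : pvkdAt z d S = pvthInv z d ⁻¹' S := by
    ext w
    exact pvkx_mem_at hd S w
  rw [e]
  exact pvth_measurable_inv z d hS

theorem pvku_M_meas (δ : ℝ) : MeasurableSet (pvkxM δ) := by
  have h1 : MeasurableSet {w : ℂ | 0 ≤ w.re} := measurableSet_le measurable_const Complex.measurable_re
  have h2 : MeasurableSet {w : ℂ | w.re < δ} := measurableSet_lt Complex.measurable_re measurable_const
  have h3 : MeasurableSet {w : ℂ | -(δ / 2) < w.im} := measurableSet_lt measurable_const Complex.measurable_im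
  have h4 : MeasurableSet {w : ℂ | w.im < δ / 2} := measurableSet_lt Complex.measurable_im measurable_const
  exact h1.inter (h2.inter (h3.inter h4))

/-- **[GEO]** from the containments of 166 (`PvccKitRef`), the reference frame conditions of 244 (`PvkxRef`) and Borel regions -/
theorem pvku_geo_of (h1 : 𝔤.δ = 1) (hr : PvccKitRef ⟨𝔤.δ, 𝔤.O₀, 𝔤.K₀, ∅, fun _ => ∅⟩ r) (hx : PvkxRef 𝔤) (mO : MeasurableSet 𝔤.O₀) (mK : ∀ τ, MeasurableSet (𝔤.K₀ τ)) :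
    PvkuGeo (𝔤.glob Hf) 𝔤.MkJ r (Metric.closedBall 0 4) 1 (16 * Real.pi) := by
  have eM : ∀ j, 𝔤.MkJ j = pvkxMj 1 j := fun j => by
    unfold PvkdGeo.MkJ pvkxMj
    rw [hx.Mk, h1]
    rfl
  have hsub : ∀ j < 8, 𝔤.MkJ j ⊆ Metric.closedBall 0 4 := fun j hj => by
    rw [eM j]
    have := pvkx_MB (δ := 1) one_pos hj
    rwa [mul_one] at this
  refine ⟨h1, hr, mO, mK, fun j _ => ?_, fun j hj => Metric.isBounded_closedBall.subset (hsub j hj), fun j hj => ?_, fun i hi j hj hij => ?_, by positivity,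
    Metric.isBounded_closedBall, one_pos⟩
  · rw [eM j]
    exact pvku_at_meas (pvkx_D_ne j) (pvku_M_meas 1)
  · refine (measure_mono (hsub j hj)).trans (le_of_eq ?_)
    rw [Complex.volume_closedBall]
    rw [ENNReal.ofReal_mul (by norm_num), ← ENNReal.ofReal_pow (by norm_num)]
    congr 1
    · norm_num
    · rw [ENNReal.ofReal_coe_nnreal.symm]
      rfl
  · rw [eM i, eM j]
    exact pvkx_Md one_pos hi hj hij

/-- **THE LIST AT `Tr/PlugK.lean`** -/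
structure PvkuK (𝔤 : PvkdGeo) (Hf : Fin 4 → Set (Conf PvPt)) (r : ℝ) : Prop where
  /-- [GEO] -/
  δ1 : 𝔤.δ = 1
  ref : PvccKitRef ⟨𝔤.δ, 𝔤.O₀, 𝔤.K₀, ∅, fun _ => ∅⟩ r
  xref : PvkxRef 𝔤
  mO : MeasurableSet 𝔤.O₀
  mK : ∀ τ, MeasurableSet (𝔤.K₀ τ)
  /-- [MEAS] -/
  mC : MeasurableSet (𝔤.C 0 1)
  mH : ∀ i, MeasurableSet (Hf i)
  mA : ∀ τ, MeasurableSet (𝔤.A 0 1 τ)
  mX : ∀ τ, Measurable (𝔤.XQ 0 1 τ)
  /-- [LOC] -/
  loc : ∀ᶠ ε in 𝓝[>] (0 : ℝ), PvkuLoc (𝔤.glob Hf) ε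
  /-- [ADM] -/
  adm : PvkuAdm (𝔤.glob Hf)
  /-- [FRC] -/
  frc : PvkuFrc (𝔤.glob Hf)
  /-- [COV] -/
  cov : 𝔤.Cov

/-- the list at PlugK gives the named sub-exits -/
theorem pvku_in_of (H : PvkuK 𝔤 Hf r) : PvkuIn (𝔤.glob Hf) 𝔤.MkJ r (Metric.closedBall 0 4) 1 (16 * Real.pi) where
  geo := pvku_geo_of H.δ1 H.ref H.xref H.mO H.mK
  meas := ⟨H.mC, H.mH, H.mA, H.mX, measurable_const, fun η => by
    show ‖(0 : ℂ)‖ ≤ 𝔤.δ
    rw [norm_zero, H.δ1]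
    exact zero_le_one⟩
  loc := H.loc
  adm := H.adm
  frc := H.frc
  close := Eventually.of_forall fun ε => by
    have h := pvkx_main 𝔤 Hf H.cov (pvkx_geo H.xref) ε
    rwa [H.δ1, mul_one] at h

end plugK

end Claimed.Agent.R289
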