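-- KEEP
import Claimed.Agent.R289.Exit.NumQ
import Claimed.Agent.R289.Exit.EngAll
import Claimed.Agent.R289.Tr.DilK
import Claimed.Agent.R289.Tr.StateP
import Claimed.Agent.R289.Mesh.Tri
import Claimed.Agent.R289.Arm.BxpPv

/-!
# Row 289 (S0537), THE WALL, ROAD E, file Exit/RefPlug : THE REFERENCE PLUG AT SCALE      (helper31, post of RULING 20 of 234; prefix `pvur_`, `pvur`, `Pvur`)

CONSUMERS: `norm` of thick / cyc1 (7 223 124 168: `MeasurableSet (𝔈.rG m ε)`, `Conf.Reads (𝔈.rO m ×ˢ univ) (· ∈ 𝔈.rG m ε)`, `b0 ≤ pvP ε (𝔈.rG m ε)` UNIFORMLY in `m`), forced (E10) of the links `Lr`, `Le` (propensities of the half lanes GIVEN THE STATE ON `rO`).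
THE DEFINITION OF RECORD.      `𝔊 : PvpgGlob` = THE unit datum of 34 / 258 (`𝔤.glob Hf`, `δ = 1`, plug `pvkdP (1/16)`);   `s` = the scale (`s m = pvehDl 𝔓 m = Δ`: a `Δ`-cell with a kit plug in the middle, unit `Δ/16`);   `W` = the region (`rO m = pvehrO 𝔓 m` of 166);
      `pvurSc s M := cfMap (w ↦ w / s) ⁻¹' M`,      **`pvurG 𝔊 b s W ε := Sure (pvP ε) (W ×ˢ univ) (Sc s 𝔊.C) ∩ ⋂ i, Thr (pvP ε) (W ×ˢ univ) (Sc s (𝔊.H i)) b`**.
WHY THE WINDOW IS `rO` AND NOT `s • O₀`: the weights `pvilW1e`, `pvilWr` divide by `P(A | everything kept)`, and ALL of `rO` is kept / integrated with the weight `1_G / μ(G)`: the propensity `b ≤ P(S± | σ)` must be given `σ` on `rO` itself.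
* sec. 1  model free: `pvurU μ W C H b`, `pvur_U_meas`, `pvur_U_reads`, `pvur_sure_of_ae` (an event which is a.e. an event read from `W` is a.e. sure given `W`), **`pvur_U_adm`**
* sec. 2  at the scale `s`: `pvurSc`, `pvurG`, `pvur_G_meas`, `pvur_G_reads`, **`pvur_G_adm`** (`𝔊.Ok e .. → β' ≤ pvP (s e) (pvurG 𝔊 b s W (s e))`), `pvur_G_sure` (a.s. on `G`: the plain plug), `pvur_G_thr`
* sec. 2b (MESH-u) of RULING 22 (3): `pvurMs μ W` = finitely many points + mesh `μ` IN ALL OF `W` (Borel, exact reader of `W`, probability `→ 1`);   **`pvurGM 𝔊 b s W μ ε := pvurG .. ∩ pvurMs μ W`**;   `pvur_P_inter` : `P(H ∩ R | σ) = 1_R(σ) P(H | σ)` for `R` read from the window;   `pvur_GM_thr`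
* sec. 3  all levels: `PvurNorm rO rG b0`, **`pvur_norm`**, **`pvur_normM`** (with the mesh clause: `b0 = β' / 2`)
* sec. 3b (U4) of RULING 23 (2), window `W = s • O₀`: `pvur_P_sc`, **`pvur_G_eq_sc`** : `pvurG 𝔊 b s (s • O₀) (s e) = ((𝔊.kit (pvP e) b q).sc s).G₀`, `pvur_Ms_mono`, **`pvur_normU`**
* sec. 4  the plain objects at the scale `s` (dilation covariance = 227, `Tr/DilK`): `pvur_Sc_C`, `pvur_Sc_CP`, `pvur_G_door`, `pvur_G_door_at`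
* sec. 5  AT THE MODEL: `pvurS`, `pvurRu`, **`pvurGE 𝔓 𝔊 b m ε`** (v2: WITH the mesh clause `pvilMu 𝔓 m / 8` on `rO m`), **`pvur_model`**, `pvur_model_door`, `pvur_GE_thr`, `pvur_GE_mesh`, (c1)-(c5)
-/

set_option autoImplicit false

namespace Claimed.Agent.R289

open MeasureTheory Set Filter Topology Claims.C0465
open scoped ENNReal

/-! ## 1. model free -/

section soft

variable {E : Type*} [MeasurableSpace E] {m : Measure E} {μ : Measure (Conf E)} {W : Set E} {C M S : Set (Conf E)} {H : Fin 4 → Set (Conf E)} {b β' : ℝ≥0∞}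

/-- **usable states at the window `W`**: the plug is sure, the four half lanes have propensity `≥ b`, GIVEN THE RESTRICTION TO `W` -/
def pvurU (μ : Measure (Conf E)) (W : Set E) (C : Set (Conf E)) (H : Fin 4 → Set (Conf E)) (b : ℝ≥0∞) : Set (Conf E) := pvpgSure μ W C ∩ ⋂ i, pvpgThr μ W (H i) b

theorem pvur_eqns_cite : True := by
  have := @pvurU.eq_1.{0}
  trivial

theorem pvur_U_meas [SFinite μ] (hW : MeasurableSet W) (hC : MeasurableSet C) (hH : ∀ i, MeasurableSet (H i)) (b : ℝ≥0∞) : MeasurableSet (pvurU μ W C H b) :=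
  (pvpg_sure_meas hW hC).inter (MeasurableSet.iInter fun i => pvpg_thr_meas hW (hH i) b)

theorem pvur_U_reads (μ : Measure (Conf E)) (W : Set E) (C : Set (Conf E)) (H : Fin 4 → Set (Conf E)) (b : ℝ≥0∞) : Conf.Reads W (fun η => η ∈ pvurU μ W C H b) := by
  intro η
  have h1 := pvpg_sure_reads μ W C η
  have h2 : ∀ i, _ := fun i => pvpg_thr_reads μ W (H i) b η
  simp only [eq_iff_iff] at h1 h2 ⊢
  unfold pvurU
  simp only [mem_inter_iff, mem_iInter]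
  rw [h1]
  simp only [h2]

/-- an event which is a.e. equal to an event READ FROM `W` is a.e. sure given `W` -/
theorem pvur_sure_of_ae (h : IsPpp m μ) (hW : MeasurableSet W) (hS : Conf.Reads W (fun η => η ∈ S)) (he : ∀ᵐ η ∂μ, η ∈ M ↔ η ∈ S) : ∀ᵐ η ∂μ, η ∈ M → η ∈ pvpgSure μ W M := by
  have := h.prob
  filter_upwards [he, h.ae_ae_splice hW he] with σ h1 h2 hm
  show pvtiP μ W M σ = 1
  unfold pvtiP
  rw [lintegral_congr_ae (g := fun _ => 1) (by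
    filter_upwards [h2] with ξ hξ
    have h3 : Conf.spl W (σ, ξ) ∈ S := by
      have := hS.spl_left Subset.rfl σ ξ
      exact this ▸ (h1.1 hm)
    have h4 : Conf.spl W (σ, ξ) ∈ M := hξ.2 h3
    exact Set.indicator_of_mem h4 _)]
  simp

/-- **ADMISSION AT THE WINDOW `W`** -/
theorem pvur_U_adm (h : IsPpp m μ) (hW : MeasurableSet W) (hH : ∀ i, MeasurableSet (H i)) (hl : ∀ᵐ η ∂μ, η ∈ C → η ∈ pvpgSure μ W C)
    (adm : β' + 4 * b ≤ μ (C ∩ ⋂ i, H i)) : β' ≤ μ (pvurU μ W C H b) := by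
  have := h.prob
  have hsub : C ∩ ⋂ i, H i ⊆ pvurU μ W C H b ∪ ((C \ pvpgSure μ W C) ∪ ⋃ i, (H i \ pvpgThr μ W (H i) b)) := by
    rintro η ⟨hC, hH⟩
    by_cases h1 : η ∈ pvpgSure μ W C
    · by_cases h2 : ∀ i, η ∈ pvpgThr μ W (H i) b
      · exact Or.inl ⟨h1, mem_iInter.2 h2⟩
      · push Not at h2
        obtain ⟨i, hi⟩ := h2
        exact Or.inr (Or.inr (mem_iUnion.2 ⟨i, mem_iInter.1 hH i, hi⟩))
    · exact Or.inr (Or.inl ⟨hC, h1⟩)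
  have h0 : μ (C \ pvpgSure μ W C) = 0 := by
    rw [measure_eq_zero_iff_ae_notMem]
    filter_upwards [hl] with η h1 h2
    exact h2.2 (h1 h2.1)
  have h4 : μ (⋃ i, (H i \ pvpgThr μ W (H i) b)) ≤ 4 * b := by
    refine (measure_iUnion_fintype_le _ _).trans ?_
    refine (Finset.sum_le_sum fun i _ => pvpg_thr_le h hW (hH i) b).trans ?_
    simp
  have hb : 4 * b ≠ ∞ := by
    have h5 : 4 * b ≤ 1 := (le_add_self.trans adm).trans prob_le_one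
    exact ne_top_of_le_ne_top ENNReal.one_ne_top h5
  refine ENNReal.le_of_add_le_add_right hb (adm.trans ?_)
  calc μ (C ∩ ⋂ i, H i) ≤ μ (pvurU μ W C H b ∪ ((C \ pvpgSure μ W C) ∪ ⋃ i, (H i \ pvpgThr μ W (H i) b))) := measure_mono hsub
    _ ≤ μ (pvurU μ W C H b) + (μ (C \ pvpgSure μ W C) + μ (⋃ i, (H i \ pvpgThr μ W (H i) b))) :=
        (measure_union_le _ _).trans (add_le_add le_rfl (measure_union_le _ _))
    _ ≤ μ (pvurU μ W C H b) + 4 * b := by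
        rw [h0, zero_add]
        exact add_le_add le_rfl h4

end soft

/-! ## 2. at the scale `s` -/

/-- the event `M` of the unit picture, at the scale `s` -/
def pvurSc (s : ℝ) (M : Set (Conf PvPt)) : Set (Conf PvPt) := cfMap (pvthInv 0 s) ⁻¹' M

/-- **THE USABLE STATES OF THE PLUG OF THE UNIT DATUM `𝔊` AT THE SCALE `s`, REGION `W`** -/
noncomputable def pvurG (𝔊 : PvpgGlob) (b : ℝ≥0∞) (s : ℝ) (W : Set ℂ) (ε : ℝ) : Set (Conf PvPt) :=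
  pvurU (pvP ε) (W ×ˢ univ) (pvurSc s 𝔊.C) (fun i => pvurSc s (𝔊.H i)) b

theorem pvur_eqns_cite2 : True := by
  have := @pvurSc.eq_1; have := @pvurG.eq_1
  trivial

section scale

variable {𝔊 : PvpgGlob} {e : ℝ} {b q β' : ℝ≥0∞} {CB r s : ℝ} {W : Set ℂ}

theorem pvur_Sc_meas (s : ℝ) {M : Set (Conf PvPt)} (hM : MeasurableSet M) : MeasurableSet (pvurSc s M) := measurable_cfMap (pvth_measurable_inv 0 s) hM

theorem pvur_Sc_inter (s : ℝ) (M M' : Set (Conf PvPt)) : pvurSc s (M ∩ M') = pvurSc s M ∩ pvurSc s M' := rfl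

theorem pvur_Sc_iInter {ι : Type*} (s : ℝ) (M : ι → Set (Conf PvPt)) : pvurSc s (⋂ i, M i) = ⋂ i, pvurSc s (M i) := preimage_iInter

/-- probabilities do not see the scale -/
theorem pvur_Sc_P (hs : 0 < s) (e : ℝ) {M : Set (Conf PvPt)} (hM : MeasurableSet M) : pvP (s * e) (pvurSc s M) = pvP e M := by
  rw [← pvbe_law_sc hs e, Measure.map_apply (measurable_cfMap (pvth_measurable_inv 0 s)) hM]
  rfl

theorem pvur_Sc_ae (hs : 0 < s) (e : ℝ) {p : Conf PvPt → Prop} (hp : ∀ᵐ η ∂(pvP e), p η) : ∀ᵐ η ∂(pvP (s * e)), p (cfMap (pvthInv 0 s) η) := by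
  rw [← pvbe_law_sc hs e] at hp
  exact ae_of_ae_map (measurable_cfMap (pvth_measurable_inv 0 s)).aemeasurable hp

/-- what is read from `O ×ˢ univ` in the unit picture is read from `(s • O) ×ˢ univ` at the scale `s` -/
theorem pvur_Sc_reads (hs : 0 < s) {O : Set ℂ} {M : Set (Conf PvPt)} (hM : Conf.Reads (O ×ˢ univ) (fun η => η ∈ M)) (hW : pvthSim 0 s '' O ⊆ W) :
    Conf.Reads (W ×ˢ univ) (fun η => η ∈ pvurSc s M) := by
  have h3 := pvth_reads_map (g := pvthInv 0 (s : ℂ)) hM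
  refine h3.mono ?_
  rintro ⟨p, c⟩ hp
  have hp' : pvthInv 0 (s : ℂ) p ∈ O := hp.1
  refine ⟨hW ⟨_, hp', ?_⟩, mem_univ _⟩
  have h0 := pvbe_sc_ne hs
  simp only [pvthSim, pvthInv]
  field_simp
  ring

theorem pvur_G_meas (mW : MeasurableSet W) (mC : MeasurableSet 𝔊.C) (mH : ∀ i, MeasurableSet (𝔊.H i)) (b : ℝ≥0∞) (s ε : ℝ) : MeasurableSet (pvurG 𝔊 b s W ε) :=
  pvur_U_meas (mW.prod MeasurableSet.univ) (pvur_Sc_meas s mC) (fun i => pvur_Sc_meas s (mH i)) b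

theorem pvur_G_reads (𝔊 : PvpgGlob) (b : ℝ≥0∞) (s : ℝ) (W : Set ℂ) (ε : ℝ) : Conf.Reads (W ×ˢ univ) (fun η => η ∈ pvurG 𝔊 b s W ε) := pvur_U_reads _ _ _ _ _

theorem pvur_pre_O (𝔊 : PvpgGlob) : 𝔊.pre.O 0 1 = 𝔊.O₀ ×ˢ univ := by
  unfold PvthKit.O
  rw [pvth_sim_id, Set.image_id]
  rfl

/-- the plug at the scale `s` is a.s. sure given the region `W ⊇ s • O₀` -/
theorem pvur_C_sure (H : 𝔊.Ok e b q β' CB r) (hs : 0 < s) (mW : MeasurableSet W) (hW : pvthSim 0 s '' 𝔊.O₀ ⊆ W) :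
    ∀ᵐ η ∂(pvP (s * e)), η ∈ pvurSc s 𝔊.C → η ∈ pvpgSure (pvP (s * e)) (W ×ˢ univ) (pvurSc s 𝔊.C) := by
  have hO : MeasurableSet (𝔊.pre.O 0 1) := pvpg_mO H 0 1 one_ne_zero
  have he : ∀ᵐ η ∂(pvP e), η ∈ 𝔊.C ↔ η ∈ pvpgSure (pvP e) (𝔊.pre.O 0 1) 𝔊.C := by
    filter_upwards [pvpg_sure_ae (pv_isPpp e) hO H.mC, pvpg_local_ae (pv_isPpp e) hO H.mC H.lC] with η h1 h2
    exact ⟨h2, h1⟩
  have hr : Conf.Reads (𝔊.O₀ ×ˢ univ) (fun η => η ∈ pvpgSure (pvP e) (𝔊.pre.O 0 1) 𝔊.C) := by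
    rw [← pvur_pre_O]
    exact pvpg_sure_reads _ _ _
  exact pvur_sure_of_ae (S := pvurSc s (pvpgSure (pvP e) (𝔊.pre.O 0 1) 𝔊.C)) (pv_isPpp (s * e)) (mW.prod MeasurableSet.univ) (pvur_Sc_reads hs hr hW) (pvur_Sc_ae hs e he)

/-- **ADMISSION AT THE SCALE `s`**: the constant `β'` of the unit datum -/
theorem pvur_G_adm (H : 𝔊.Ok e b q β' CB r) (hs : 0 < s) (mW : MeasurableSet W) (hW : pvthSim 0 s '' 𝔊.O₀ ⊆ W) : β' ≤ pvP (s * e) (pvurG 𝔊 b s W (s * e)) := by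
  refine pvur_U_adm (pv_isPpp (s * e)) (mW.prod MeasurableSet.univ) (fun i => pvur_Sc_meas s (H.mH i)) (pvur_C_sure H hs mW hW) ?_
  rw [← pvur_Sc_iInter, ← pvur_Sc_inter, pvur_Sc_P hs e (H.mC.inter (MeasurableSet.iInter H.mH))]
  exact H.adm

/-- a.s. on the usable states: the PLAIN plug at the scale `s` -/
theorem pvur_G_sure (mW : MeasurableSet W) (mC : MeasurableSet 𝔊.C) (b : ℝ≥0∞) (s ε : ℝ) : ∀ᵐ η ∂(pvP ε), η ∈ pvurG 𝔊 b s W ε → η ∈ pvurSc s 𝔊.C := by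
  filter_upwards [pvpg_sure_ae (pv_isPpp ε) (mW.prod MeasurableSet.univ) (pvur_Sc_meas s mC)] with η h1 h2
  exact h1 h2.1

/-- on the usable states: the plug is sure given the state on `W` -/
theorem pvur_G_one {ε : ℝ} {η : Conf PvPt} (h : η ∈ pvurG 𝔊 b s W ε) : pvtiP (pvP ε) (W ×ˢ univ) (pvurSc s 𝔊.C) η = 1 := h.1

/-- on the usable states: the propensities of the four half lanes GIVEN THE STATE ON `W` -/
theorem pvur_G_thr {ε : ℝ} {η : Conf PvPt} (h : η ∈ pvurG 𝔊 b s W ε) (i : Fin 4) : b ≤ pvtiP (pvP ε) (W ×ˢ univ) (pvurSc s (𝔊.H i)) η := mem_iInter.1 h.2 i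

end scale

/-! ## 2b. (MESH-u): the mesh of the WHOLE region -/

/-- **finitely many points and mesh `μ` in the region `W`** -/
def pvurMs (μ : ℝ) (W : Set ℂ) : Set (Conf PvPt) := {η | PvtnFin W η ∧ PvtrMesh μ W (cfSites η)}

/-- **THE USABLE STATES WITH THE MESH OF THE WHOLE REGION** (RULING 22 (3)) -/
noncomputable def pvurGM (𝔊 : PvpgGlob) (b : ℝ≥0∞) (s : ℝ) (W : Set ℂ) (μ ε : ℝ) : Set (Conf PvPt) := pvurG 𝔊 b s W ε ∩ pvurMs μ W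

theorem pvur_eqns_cite5 : True := by
  have := @pvurMs.eq_1; have := @pvurGM.eq_1
  trivial

section mesh

variable {W : Set ℂ} {μ : ℝ}

theorem pvur_Ms_meas (mW : MeasurableSet W) (bW : Bornology.IsBounded W) (μ : ℝ) : MeasurableSet (pvurMs μ W) := pvsp_mesh_meas mW bW μ

theorem pvur_Ms_reads (μ : ℝ) (W : Set ℂ) : Conf.Reads (W ×ˢ univ) (fun η => η ∈ pvurMs μ W) := by
  intro η
  have h1 : PvtrMesh μ W (cfSites (Conf.restr (W ×ˢ univ) η)) = PvtrMesh μ W (cfSites η) := pvtr_reads_mesh μ W η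
  have h2 : PvtnFin W (Conf.restr (W ×ˢ univ) η) = PvtnFin W η := by
    unfold PvtnFin
    have e : (Conf.restr (W ×ˢ (univ : Set Bool)) η).pts ∩ W ×ˢ (univ : Set Bool) = η.pts ∩ W ×ˢ (univ : Set Bool) := by
      show (η.pts ∩ W ×ˢ (univ : Set Bool)) ∩ W ×ˢ (univ : Set Bool) = η.pts ∩ W ×ˢ (univ : Set Bool)
      rw [inter_assoc, inter_self]
    rw [e]
  show (PvtnFin W (Conf.restr (W ×ˢ univ) η) ∧ PvtrMesh μ W (cfSites (Conf.restr (W ×ˢ univ) η))) = (PvtnFin W η ∧ PvtrMesh μ W (cfSites η))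
  rw [h1, h2]

theorem pvur_fin_ae (bW : Bornology.IsBounded W) (ε : ℝ) : ∀ᵐ η ∂(pvP ε), PvtnFin W η := by
  filter_upwards [pvmt_lf_ae (pv_isPpp ε)] with η h
  obtain ⟨R, hR⟩ := bW.subset_closedBall 0
  have hfin : ((cfSites η ∩ Metric.closedBall (0 : ℂ) R) ×ˢ (univ : Set Bool)).Finite := (h R).prod finite_univ
  refine hfin.subset ?_
  rintro p ⟨hp, hk⟩
  exact ⟨⟨⟨p, hp, rfl⟩, hR hk.1⟩, mem_univ _⟩

/-- the mesh of a bounded region fails with small probability -/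
theorem pvur_Ms_tendsto (bW : Bornology.IsBounded W) (hμ : 0 < μ) : Tendsto (fun ε : ℝ => pvP ε (pvurMs μ W)ᶜ) (𝓝[>] 0) (𝓝 0) := by
  have hb : Bornology.IsBounded (pvtrCore μ W) := bW.subset fun x hx => hx (Metric.mem_closedBall_self hμ.le)
  refine (pvax_dense hb hμ).congr fun ε => ?_
  have hn : NullMeasurableSet {η : Conf PvPt | ¬ PvtrMesh μ W (cfSites η)} (pvP ε) := (pvtm_null_mesh μ _ ε).compl
  have e : pvP ε (pvurMs μ W)ᶜ = pvP ε {η : Conf PvPt | ¬ PvtrMesh μ W (cfSites η)} := by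
    refine measure_congr ?_
    filter_upwards [pvur_fin_ae bW ε] with η hη
    apply propext
    exact ⟨fun h h2 => h ⟨hη, h2⟩, fun h h2 => h h2.2⟩
  rw [e]
  unfold pvP at hn ⊢
  rw [Measure.map_apply₀ measurable_pvConf.aemeasurable hn]
  rfl

end mesh

/-- an event READ FROM THE WINDOW comes out of the conditional probability -/
theorem pvur_P_inter {E : Type*} [MeasurableSpace E] (μ : Measure (Conf E)) {W : Set E} {R : Set (Conf E)} (hR : Conf.Reads W (fun η => η ∈ R)) (H : Set (Conf E)) (σ : Conf E) :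
    pvtiP μ W (H ∩ R) σ = R.indicator 1 σ * pvtiP μ W H σ := by
  unfold pvtiP
  by_cases hσ : σ ∈ R
  · rw [Set.indicator_of_mem hσ, Pi.one_apply, one_mul]
    refine lintegral_congr fun ξ => ?_
    have hs : Conf.spl W (σ, ξ) ∈ R := by
      have := hR.spl_left Subset.rfl σ ξ
      exact this ▸ hσ
    by_cases hm : Conf.spl W (σ, ξ) ∈ H
    · rw [Set.indicator_of_mem hm, Set.indicator_of_mem (show Conf.spl W (σ, ξ) ∈ H ∩ R from ⟨hm, hs⟩)]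
    · rw [Set.indicator_of_notMem hm, Set.indicator_of_notMem (fun hc : Conf.spl W (σ, ξ) ∈ H ∩ R => hm hc.1)]
  · rw [Set.indicator_of_notMem hσ, zero_mul]
    have hz : ∀ ξ, (H ∩ R).indicator (1 : Conf E → ℝ≥0∞) (Conf.spl W (σ, ξ)) = 0 := by
      intro ξ
      have hs : Conf.spl W (σ, ξ) ∉ R := by
        have := hR.spl_left Subset.rfl σ ξ
        intro hc
        exact hσ (this ▸ hc)
      exact Set.indicator_of_notMem (fun hc => hs hc.2) _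
    simp only [hz, lintegral_zero]

section meshG

variable {𝔊 : PvpgGlob} {b : ℝ≥0∞} {s μ ε : ℝ} {W : Set ℂ}

theorem pvur_GM_meas (mW : MeasurableSet W) (bW : Bornology.IsBounded W) (mC : MeasurableSet 𝔊.C) (mH : ∀ i, MeasurableSet (𝔊.H i)) (b : ℝ≥0∞) (s μ ε : ℝ) : MeasurableSet (pvurGM 𝔊 b s W μ ε) :=
  (pvur_G_meas mW mC mH b s ε).inter (pvur_Ms_meas mW bW μ)

theorem pvur_GM_reads (𝔊 : PvpgGlob) (b : ℝ≥0∞) (s : ℝ) (W : Set ℂ) (μ ε : ℝ) : Conf.Reads (W ×ˢ univ) (fun η => η ∈ pvurGM 𝔊 b s W μ ε) :=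
  (pvur_G_reads 𝔊 b s W ε).map₂ (pvur_Ms_reads μ W) (fun a b => a ∧ b)

/-- on the usable states, POINTWISE: the propensities of the half lanes TOGETHER WITH the mesh of the whole region -/
theorem pvur_GM_thr {η : Conf PvPt} (h : η ∈ pvurGM 𝔊 b s W μ ε) (i : Fin 4) : b ≤ pvtiP (pvP ε) (W ×ˢ univ) (pvurSc s (𝔊.H i) ∩ pvurMs μ W) η := by
  rw [pvur_P_inter _ (pvur_Ms_reads μ W), Set.indicator_of_mem h.2, Pi.one_apply, one_mul]
  exact pvur_G_thr h.1 i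

end meshG

/-! ## 3. all levels -/

/-- **THE LINES OWED FOR `norm`** (7; `= rG_meas rG_reads b00 adm` of `PvjtWf` of 223, `PveuRef` of 84) -/
structure PvurNorm (rO : ℕ → Set ℂ) (rG : ℕ → ℝ → Set (Conf PvPt)) (b0 : ℝ≥0∞) : Prop where
  meas : ∀ m ε, MeasurableSet (rG m ε)
  reads : ∀ m ε, Conf.Reads (rO m ×ˢ univ) (fun η => η ∈ rG m ε)
  b00 : b0 ≠ 0
  adm : ∀ m, ∀ᶠ ε in 𝓝[>] (0 : ℝ), b0 ≤ pvP ε (rG m ε)

section levels

variable {𝔊 : PvpgGlob} {b q β' : ℝ≥0∞} {CB r : ℝ} {s : ℕ → ℝ} {W : ℕ → Set ℂ}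

/-- **ALL LEVELS**: Borel and read from the region at EVERY mesh; admission with the constant `β'` of the unit datum, UNIFORM in the level -/
theorem pvur_norm (H : ∀ᶠ e in 𝓝[>] (0 : ℝ), 𝔊.Ok e b q β' CB r) (hs : ∀ m, 0 < s m) (mW : ∀ m, MeasurableSet (W m)) (hW : ∀ m, pvthSim 0 (s m) '' 𝔊.O₀ ⊆ W m) :
    PvurNorm W (fun m ε => pvurG 𝔊 b (s m) (W m) ε) β' := by
  obtain ⟨e0, h0⟩ := H.exists
  refine ⟨fun m ε => pvur_G_meas (mW m) h0.mC h0.mH b (s m) ε, fun m ε => pvur_G_reads 𝔊 b (s m) (W m) ε, h0.β0, fun m => ?_⟩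
  filter_upwards [(pvkm_tendsto_div (hs m)).eventually H] with ε hε
  have h := pvur_G_adm hε (hs m) (mW m) (hW m)
  rwa [mul_div_cancel₀ ε (hs m).ne'] at h

/-- **ALL LEVELS, WITH THE MESH OF THE WHOLE REGION**: admission with `β' / 2`, UNIFORM in the level -/
theorem pvur_normM (H : ∀ᶠ e in 𝓝[>] (0 : ℝ), 𝔊.Ok e b q β' CB r) (hs : ∀ m, 0 < s m) (mW : ∀ m, MeasurableSet (W m)) (bW : ∀ m, Bornology.IsBounded (W m)) (hW : ∀ m, pvthSim 0 (s m) '' 𝔊.O₀ ⊆ W m)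
    {μ : ℕ → ℝ} (hμ : ∀ m, 0 < μ m) : PvurNorm W (fun m ε => pvurGM 𝔊 b (s m) (W m) (μ m) ε) (β' / 2) := by
  obtain ⟨e0, h0⟩ := H.exists
  have h := pvur_norm H hs mW hW
  have hβ : β' / 2 ≠ 0 := by
    simp only [ne_eq, ENNReal.div_eq_zero_iff, not_or]
    exact ⟨h0.β0, by norm_num⟩
  refine ⟨fun m ε => pvur_GM_meas (mW m) (bW m) h0.mC h0.mH b (s m) (μ m) ε, fun m ε => pvur_GM_reads 𝔊 b (s m) (W m) (μ m) ε, hβ, fun m => ?_⟩
  have ht := (pvur_Ms_tendsto (bW m) (hμ m)).eventually (ge_mem_nhds (pos_iff_ne_zero.2 hβ))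
  filter_upwards [h.adm m, ht] with ε h1 h2
  have h3 : pvP ε (pvurG 𝔊 b (s m) (W m) ε) ≤ pvP ε (pvurGM 𝔊 b (s m) (W m) (μ m) ε) + pvP ε (pvurMs (μ m) (W m))ᶜ := by
    refine (measure_mono ?_).trans (measure_union_le _ _)
    intro η hη
    by_cases hm : η ∈ pvurMs (μ m) (W m)
    · exact Or.inl ⟨hη, hm⟩
    · exact Or.inr hm
  have h4 : β' / 2 + β' / 2 ≤ pvP ε (pvurGM 𝔊 b (s m) (W m) (μ m) ε) + β' / 2 := by
    rw [ENNReal.add_halves]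
    exact (h1.trans h3).trans (add_le_add le_rfl h2)
  have hfin : β' / 2 ≠ ∞ := by
    have h5 : β' ≤ 1 := h1.trans prob_le_one
    exact ne_top_of_le_ne_top ENNReal.one_ne_top (ENNReal.half_le_self.trans h5)
  exact ENNReal.le_of_add_le_add_right hfin h4

end levels

/-! ## 3b. THE WINDOW `W = s • O₀` (cure U4 of RULING 23 (2)): the usable states ARE the dilated usable states of the unit kit -/

section dilated

variable {𝔊 : PvpgGlob} {b q β' : ℝ≥0∞} {CB r s : ℝ}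

/-- conditional probabilities given the dilated window -/
theorem pvur_P_sc (hs : 0 < s) (e : ℝ) (𝔊 : PvpgGlob) (M : Set (Conf PvPt)) (η : Conf PvPt) :
    pvtiP (pvP (s * e)) ((pvthSim 0 s '' 𝔊.O₀) ×ˢ univ) (pvurSc s M) η = pvtiP (pvP e) (𝔊.pre.O 0 1) M (cfMap (pvthInv 0 s) η) := by
  have h0 := pvbe_sc_ne hs
  have e1 : ((pvthSim 0 s '' 𝔊.O₀) ×ˢ univ : Set PvPt) = pvciAff (s : ℂ) 0 h0 '' 𝔊.pre.O 0 1 := pvth_O_place 𝔊.pre 0 s h0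
  rw [e1]
  exact congrFun (pvci_P_T (pvciAff (s : ℂ) 0 h0) (pvbe_sc_law hs e) (𝔊.pre.O 0 1) M) η

/-- **at the window `s • O₀` the usable states are the usable states of the unit kit, dilated by `s`**      (`= ((𝔊.kit (pvP e) b q).sc s).G₀`: the lemmas of `Tr/Bes` sec. 6, `Tr/BuNum`, `Tr/DilK` apply) -/
theorem pvur_G_eq_sc (hs : 0 < s) (e : ℝ) (𝔊 : PvpgGlob) (b q : ℝ≥0∞) : pvurG 𝔊 b s (pvthSim 0 s '' 𝔊.O₀) (s * e) = ((𝔊.kit (pvP e) b q).sc s).G₀ := by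
  ext η
  show (pvtiP (pvP (s * e)) ((pvthSim 0 s '' 𝔊.O₀) ×ˢ univ) (pvurSc s 𝔊.C) η = 1 ∧ η ∈ ⋂ i, pvpgThr (pvP (s * e)) ((pvthSim 0 s '' 𝔊.O₀) ×ˢ univ) (pvurSc s (𝔊.H i)) b) ↔
    (pvtiP (pvP e) (𝔊.pre.O 0 1) 𝔊.C (cfMap (pvthInv 0 s) η) = 1 ∧ cfMap (pvthInv 0 s) η ∈ ⋂ i, pvpgThr (pvP e) (𝔊.pre.O 0 1) (𝔊.H i) b)
  rw [pvur_P_sc hs e 𝔊, mem_iInter, mem_iInter]
  refine and_congr Iff.rfl (forall_congr' fun i => ?_)
  show b ≤ pvtiP (pvP (s * e)) ((pvthSim 0 s '' 𝔊.O₀) ×ˢ univ) (pvurSc s (𝔊.H i)) η ↔ b ≤ pvtiP (pvP e) (𝔊.pre.O 0 1) (𝔊.H i) (cfMap (pvthInv 0 s) η)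
  rw [pvur_P_sc hs e 𝔊]

theorem pvur_G_eq_sc' (hs : 0 < s) (ε : ℝ) (𝔊 : PvpgGlob) (b q : ℝ≥0∞) : pvurG 𝔊 b s (pvthSim 0 s '' 𝔊.O₀) ε = ((𝔊.kit (pvP (ε / s)) b q).sc s).G₀ := by
  have h := pvur_G_eq_sc hs (ε / s) 𝔊 b q
  rwa [mul_div_cancel₀ ε hs.ne'] at h

theorem pvur_dil_meas (hs : 0 < s) {O : Set ℂ} (mO : MeasurableSet O) : MeasurableSet (pvthSim 0 s '' O) := by
  rw [pvbe_sim_image hs.ne']
  exact pvth_measurable_inv 0 s mO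

theorem pvur_dil_bdd (s : ℝ) {O : Set ℂ} (bO : Bornology.IsBounded O) : Bornology.IsBounded (pvthSim 0 s '' O) := by
  obtain ⟨R, hR⟩ := bO.subset_closedBall 0
  refine (Metric.isBounded_closedBall (x := (0 : ℂ)) (r := |s| * R)).subset ?_
  rintro _ ⟨w, hw, rfl⟩
  have h1 := hR hw
  rw [mem_closedBall_zero_iff] at h1 ⊢
  simp only [pvthSim, zero_add, norm_mul, Complex.norm_real, Real.norm_eq_abs]
  exact mul_le_mul_of_nonneg_left h1 (abs_nonneg s)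

/-- a finer mesh is a mesh -/
theorem pvur_Ms_mono {μ μ' : ℝ} (h : μ ≤ μ') (W : Set ℂ) : pvurMs μ W ⊆ pvurMs μ' W := fun _ hη =>
  ⟨hη.1, fun z hz => by
    obtain ⟨u, hu, h1⟩ := hη.2 z (pvtr_core_anti h hz)
    exact ⟨u, hu, h1.trans h⟩⟩

/-- **(U4) ALL LEVELS AT THE WINDOWS `s m • O₀`, WITH THE MESH**: the lines owed for `norm` -/
theorem pvur_normU (H : ∀ᶠ e in 𝓝[>] (0 : ℝ), 𝔊.Ok e b q β' CB r) (bO : Bornology.IsBounded 𝔊.O₀) {s : ℕ → ℝ} (hs : ∀ m, 0 < s m) {μ : ℕ → ℝ} (hμ : ∀ m, 0 < μ m) :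
    PvurNorm (fun m => pvthSim 0 (s m) '' 𝔊.O₀) (fun m ε => pvurGM 𝔊 b (s m) (pvthSim 0 (s m) '' 𝔊.O₀) (μ m) ε) (β' / 2) := by
  obtain ⟨e0, h0⟩ := H.exists
  exact pvur_normM H hs (fun m => pvur_dil_meas (hs m) h0.mO) (fun m => pvur_dil_bdd (s m) bO) (fun _ => Subset.rfl) hμ

end dilated

/-! ## 4. the plain objects at the scale `s`      (dilation covariance: 227, `Tr/DilK.lean`) -/

section plain

variable {s : ℝ}

theorem pvur_Sc_C (𝔭 : PvkdPlug) (hs : 0 < s) : pvurSc s (𝔭.C 0 1) = (𝔭.sc s).C 0 1 := by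
  have h := pvdil_cov_C 𝔭 hs 0 1
  rw [mul_zero] at h
  exact h.symm

theorem pvur_Sc_CP (hs : 0 < s) (r : ℝ) : pvurSc s ((pvkdP r).C 0 1) = (pvkdP (s * r)).C 0 1 := by
  rw [pvur_Sc_C _ hs, pvdil_P hs]

/-- the plain plug carries the state of a door -/
theorem pvur_door_of_C {𝔭 : PvkdPlug} {η : Conf PvPt} {z d : ℂ} (h : η ∈ 𝔭.C z d) : ∃ 𝔖, PvkdDoor 𝔭 η z d 𝔖 := by
  obtain ⟨hN, g, hg⟩ := h
  exact ⟨_, hN, g, hg, rfl⟩

/-- **a.s. a usable state carries THE DOOR STATE of the kit plug at the scale `s`**, reference frame -/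
theorem pvur_G_door (𝔤 : PvkdGeo) (Hf : Fin 4 → Set (Conf PvPt)) (mC : MeasurableSet (𝔤.C 0 1)) (hs : 0 < s) {W : Set ℂ} (mW : MeasurableSet W) (b : ℝ≥0∞) (ε : ℝ) :
    ∀ᵐ η ∂(pvP ε), η ∈ pvurG (𝔤.glob Hf) b s W ε → ∃ 𝔖, PvkdDoor (𝔤.toPvkdPlug.sc s) η 0 1 𝔖 := by
  filter_upwards [pvur_G_sure (𝔊 := 𝔤.glob Hf) mW mC b s ε] with η h1 h2
  have h3 : η ∈ pvurSc s (𝔤.toPvkdPlug.C 0 1) := h1 h2
  rw [pvur_Sc_C _ hs] at h3
  exact pvur_door_of_C h3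

/-- the same, the plug placed at `(z, 1)`      (form of `pvieGr`, `pvjtGu`: `cfMap (pvthInv z 1) ⁻¹' rG`) -/
theorem pvur_G_door_at (𝔤 : PvkdGeo) (Hf : Fin 4 → Set (Conf PvPt)) (mC : MeasurableSet (𝔤.C 0 1)) (hs : 0 < s) {W : Set ℂ} (mW : MeasurableSet W) (b : ℝ≥0∞) (ε : ℝ) (z : ℂ) :
    ∀ᵐ η ∂(pvP ε), cfMap (pvthInv z 1) η ∈ pvurG (𝔤.glob Hf) b s W ε → ∃ 𝔖, PvkdDoor (𝔤.toPvkdPlug.sc s) η z 1 𝔖 := by
  have h1 := pvur_G_sure (𝔊 := 𝔤.glob Hf) mW mC b s ε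
  have hl : (pvP ε).map (cfMap (pvthInv z 1)) = pvP ε := by
    have e : pvthInv z (1 : ℂ) = fun w : ℂ => w + (-z) := by
      funext w
      simp [pvthInv, sub_eq_add_neg]
    rw [e]
    exact pvP_translate (-z) ε
  rw [← hl] at h1
  have h2 := ae_of_ae_map (measurable_cfMap (pvth_measurable_inv z 1)).aemeasurable h1
  filter_upwards [h2] with η h3 h4
  have h5 : cfMap (pvthInv z 1) η ∈ pvurSc s (𝔤.toPvkdPlug.C 0 1) := h3 h4
  rw [pvur_Sc_C _ hs] at h5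
  have h6 : η ∈ (𝔤.toPvkdPlug.sc s).C z 1 := by
    rw [pvco_cov_C _ z (by norm_num : (1 : ℂ) ^ 4 = 1)]
    exact h5
  exact pvur_door_of_C h6

end plain

/-! ## 5. AT THE MODEL

NUMBERS OF RECORD.      `Δ = pvehDl 𝔓 m` (side of the block of 166), `rO = pvccSq 0 (Δ/4)`, rooms `rY eY` = lanes `[-Δ/10, 4Δ/10]`; unit datum: plug `pvkdP (1/40)`, `O₀ = pvccSq 0 (13/160)` (34, 12:20Z).      In units of the unit `u` of the reference plug: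
 (c1) `3 u < Δ/4` (`rp_win`),   (c2) `13 u / 4 ≤ Δ/4` (the region of the plug inside `rO`),   **(c3) `Δ/4 ≤ 6 u`: THE TARGETS `|x| ∈ [6u, 7u]` OF THE HALF LANES LIE OFF `rO`** [the part of `rO` beyond the targets is KEPT and not controlled by the usable states: (K5) would be false],
 (c4) `3u/2 + 3u/16 ≤ Δ/10` (the banks stay in the rooms),   (c5) `15 u / 2 ≤ Δ/2` (the windows `E±` of the half lanes inside the block).      So `Δ/24 ≤ u ≤ Δ/17`:   **`u = Δ/20`, `s = 40 u = 2 Δ`**. -/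

section model

variable {τ : Type} {c : ℝ} (𝔓 : PvxPar τ c)

/-- the scale of the reference plug of level `m` -/
noncomputable def pvurS (m : ℕ) : ℝ := 2 * pvehDl 𝔓 m

/-- the unit of the reference plug of level `m` (`= (𝔈.rp m).h = pvilRu 𝔈 m`) -/
noncomputable def pvurRu (m : ℕ) : ℝ := pvehDl 𝔓 m / 20

/-- **THE USABLE STATES OF THE REFERENCE PLUG OF LEVEL `m`**      (v2, RULING 22 (3): with the mesh `pvilMu 𝔓 m / 8` of the WHOLE region `rO m`) -/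
noncomputable def pvurGE (𝔊 : PvpgGlob) (b : ℝ≥0∞) (m : ℕ) (ε : ℝ) : Set (Conf PvPt) := pvurGM 𝔊 b (pvurS 𝔓 m) (pvehrO 𝔓 m) (pvilMu 𝔓 m / 8) ε

end model

theorem pvur_eqns_cite3 : True := by
  have := @pvurS.eq_1; have := @pvurRu.eq_1; have := @pvurGE.eq_1
  trivial

section model2

variable {τ : Type} {c : ℝ} {𝔓 : PvxPar τ c} {𝔊 : PvpgGlob} {b q β' : ℝ≥0∞} {CB r : ℝ}

theorem pvur_Dl_pos (hρ : 0 < 𝔓.num.rho) (m : ℕ) : 0 < pvehDl 𝔓 m := by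
  refine pveh_Dl_pos ?_
  unfold pvxrNw
  refine Int.ceil_nonneg ?_
  positivity

theorem pvur_S_pos (hρ : 0 < 𝔓.num.rho) (m : ℕ) : 0 < pvurS 𝔓 m := by
  have := pvur_Dl_pos hρ m
  unfold pvurS
  positivity

theorem pvur_S_Ru (m : ℕ) : pvurS 𝔓 m * (1 / 40) = pvurRu 𝔓 m := by
  unfold pvurS pvurRu
  ring

/-- (c2) -/
theorem pvur_reg_sub (hρ : 0 < 𝔓.num.rho) (hO : 𝔊.O₀ ⊆ pvccSq 0 (1 / 8)) (m : ℕ) : pvthSim 0 (pvurS 𝔓 m) '' 𝔊.O₀ ⊆ pvehrO 𝔓 m := by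
  rintro _ ⟨w, hw, rfl⟩
  have hΔ := pvur_Dl_pos hρ m
  have h1 : pvccN (w - 0) < 1 / 8 := hO hw
  show pvccN (pvthSim 0 (pvurS 𝔓 m) w - 0) < pvehDl 𝔓 m / 4
  unfold pvccN at h1 ⊢
  simp only [sub_zero] at h1 ⊢
  obtain ⟨h2, h3⟩ := max_lt_iff.1 h1
  have e1 : (pvthSim 0 (pvurS 𝔓 m) w).re = 2 * pvehDl 𝔓 m * w.re := by simp [pvthSim, pvurS]
  have e2 : (pvthSim 0 (pvurS 𝔓 m) w).im = 2 * pvehDl 𝔓 m * w.im := by simp [pvthSim, pvurS]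
  rw [e1, e2, abs_mul (2 * pvehDl 𝔓 m), abs_mul (2 * pvehDl 𝔓 m), abs_of_pos (by positivity : 0 < 2 * pvehDl 𝔓 m)]
  exact max_lt (by nlinarith) (by nlinarith)

theorem pvur_rO_bdd (m : ℕ) : Bornology.IsBounded (pvehrO 𝔓 m) := by
  refine (Metric.isBounded_closedBall (x := (0 : ℂ)) (r := pvehDl 𝔓 m)).subset ?_
  intro w hw
  have h1 : pvccN (w - 0) < pvehDl 𝔓 m / 4 := hw
  unfold pvccN at h1
  simp only [sub_zero] at h1
  obtain ⟨h2, h3⟩ := max_lt_iff.1 h1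
  rw [mem_closedBall_zero_iff]
  have h4 := Complex.norm_le_abs_re_add_abs_im w
  linarith [abs_nonneg w.re]

theorem pvur_Mu_pos (hρ3 : 0 < 𝔓.num.rho3) (m : ℕ) : 0 < pvilMu 𝔓 m / 8 := by
  have h1 := pvlm_Del_pos c m
  have h2 := pvlm_H_pos m
  have h3 : 0 < min (pvlmDel c m) (𝔓.num.rho3 * pvlmH m) := lt_min h1 (mul_pos hρ3 h2)
  unfold pvilMu
  positivity

/-- **THE LINES OWED FOR `norm`, AT THE MODEL** -/
theorem pvur_model (hρ : 0 < 𝔓.num.rho) (hρ3 : 0 < 𝔓.num.rho3) (H : ∀ᶠ e in 𝓝[>] (0 : ℝ), 𝔊.Ok e b q β' CB r) (hO : 𝔊.O₀ ⊆ pvccSq 0 (1 / 8)) : PvurNorm (pvehrO 𝔓) (pvurGE 𝔓 𝔊 b) (β' / 2) :=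
  pvur_normM H (pvur_S_pos hρ) pveh_m_rO pvur_rO_bdd (pvur_reg_sub hρ hO) (pvur_Mu_pos hρ3)

theorem pvur_GE_sub (𝔓 : PvxPar τ c) (𝔊 : PvpgGlob) (b : ℝ≥0∞) (m : ℕ) (ε : ℝ) : pvurGE 𝔓 𝔊 b m ε ⊆ pvurG 𝔊 b (pvurS 𝔓 m) (pvehrO 𝔓 m) ε := fun _ h => h.1

/-- on the usable states: the mesh of the whole region -/
theorem pvur_GE_mesh {m : ℕ} {ε : ℝ} {η : Conf PvPt} (h : η ∈ pvurGE 𝔓 𝔊 b m ε) : PvtrMesh (pvilMu 𝔓 m / 8) (pvehrO 𝔓 m) (cfSites η) := h.2.2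

/-- on the usable states, POINTWISE: the plain plug is sure given the state on `rO` -/
theorem pvur_GE_one {m : ℕ} {ε : ℝ} {η : Conf PvPt} (h : η ∈ pvurGE 𝔓 𝔊 b m ε) : pvtiP (pvP ε) (pvehrO 𝔓 m ×ˢ univ) (pvurSc (pvurS 𝔓 m) 𝔊.C) η = 1 := pvur_G_one h.1

/-- on the usable states, POINTWISE: the propensities of the four half lanes, with the mesh of the whole region, given the state on `rO` -/
theorem pvur_GE_thr {m : ℕ} {ε : ℝ} {η : Conf PvPt} (h : η ∈ pvurGE 𝔓 𝔊 b m ε) (i : Fin 4) :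
    b ≤ pvtiP (pvP ε) (pvehrO 𝔓 m ×ˢ univ) (pvurSc (pvurS 𝔓 m) (𝔊.H i) ∩ pvurMs (pvilMu 𝔓 m / 8) (pvehrO 𝔓 m)) η := pvur_GM_thr h i

/-- the plain plug of the usable states is the kit plug `pvkdP (Δ/20)` -/
theorem pvur_model_C (hρ : 0 < 𝔓.num.rho) (m : ℕ) : pvurSc (pvurS 𝔓 m) ((pvkdP (1 / 40)).C 0 1) = (pvkdP (pvurRu 𝔓 m)).C 0 1 := by
  rw [pvur_Sc_CP (pvur_S_pos hρ m), pvur_S_Ru]

/-- **a.s. a usable state of the reference plug placed at `(z, 1)` carries the door state of `pvkdP (Δ/20)`** -/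
theorem pvur_model_door (hρ : 0 < 𝔓.num.rho) {𝔤 : PvkdGeo} (h𝔤 : 𝔤.toPvkdPlug = pvkdP (1 / 40)) (Hf : Fin 4 → Set (Conf PvPt)) (mC : MeasurableSet (𝔤.C 0 1)) (b : ℝ≥0∞) (m : ℕ) (ε : ℝ) (z : ℂ) :
    ∀ᵐ η ∂(pvP ε), cfMap (pvthInv z 1) η ∈ pvurGE 𝔓 (𝔤.glob Hf) b m ε → ∃ 𝔖, PvkdDoor (pvkdP (pvurRu 𝔓 m)) η z 1 𝔖 := by
  have h := pvur_G_door_at 𝔤 Hf mC (pvur_S_pos hρ m) (pveh_m_rO (𝔓 := 𝔓) m) b ε z
  rw [h𝔤, pvdil_P (pvur_S_pos hρ m), pvur_S_Ru] at h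
  filter_upwards [h] with η h1 h2
  exact h1 h2.1

/-- (c1) `= rp_win` of `PvieEng.Wf` -/
theorem pvur_win (hρ : 0 < 𝔓.num.rho) (m : ℕ) : pvwSq 0 (3 * pvurRu 𝔓 m) ⊆ pvehrO 𝔓 m := by
  intro w hw
  have hΔ := pvur_Dl_pos hρ m
  obtain ⟨h1, h2⟩ := hw
  show pvccN (w - 0) < pvehDl 𝔓 m / 4
  unfold pvurRu at h1 h2
  exact max_lt (by linarith) (by linarith)

/-- (c3) the targets of the four half lanes lie off the region -/
theorem pvur_Dr_off (hρ : 0 < 𝔓.num.rho) (m : ℕ) (σ β : Bool) : Disjoint ((pvkdP (pvurRu 𝔓 m)).Dr σ β) (pvehrO 𝔓 m) := by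
  have hΔ := pvur_Dl_pos hρ m
  rw [Set.disjoint_left]
  intro w hw hO
  have h1 : pvccN (w - 0) < pvehDl 𝔓 m / 4 := hO
  unfold pvccN at h1
  simp only [sub_zero] at h1
  have h2 := abs_lt.1 (max_lt_iff.1 h1).1
  cases σ <;> cases β <;> simp only [pvkdP, pvkdRect, rswRect, pvurRu, if_true, if_false, Bool.false_eq_true, Set.mem_ofPred_eq] at hw <;> obtain ⟨a1, a2, -, -⟩ := hw <;> linarith [h2.1, h2.2]

/-- (c4), (c5) the rooms of the four half lanes lie in the block of the plug, at lateral distance `≤ 3Δ/40` of the axis -/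
theorem pvur_Ln_sub (hρ : 0 < 𝔓.num.rho) (m : ℕ) (σ β : Bool) : (pvkdP (pvurRu 𝔓 m)).Ln σ β ⊆ rswRect (-(7 * pvehDl 𝔓 m / 20)) (7 * pvehDl 𝔓 m / 20) (-(3 * pvehDl 𝔓 m / 40)) (3 * pvehDl 𝔓 m / 40) := by
  have hΔ := pvur_Dl_pos hρ m
  intro w hw
  cases σ <;> cases β <;> simp only [pvkdP, pvkdRect, rswRect, pvurRu, if_true, if_false, Bool.false_eq_true, Set.mem_ofPred_eq, Set.mem_union] at hw ⊢ <;>
    rcases hw with ⟨a1, a2, a3, a4⟩ | ⟨a1, a2, a3, a4⟩ <;> refine ⟨by linarith, by linarith, by linarith, by linarith⟩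

end model2

end Claimed.Agent.R289
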