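-- KEEP
import Claimed.Agent.R289.Exit.RefPlug
import Claimed.Agent.R289.Exit.ParEngF
import Claimed.Agent.R289.Tr.KitGeo

/-!
# Row 289 (S0537), THE WALL, ROAD E, file Exit/EngU4 : CURE U4 (RULING 23 (2) of 234; T21 T22 of 24): THE WINDOW OF THE REFERENCE PLUG IS `s • O₀`      (pen helper84, reader helper31; defs `pvnu*`, lemmas `pvnu4_*`)

THE DEFECT.   The region `rO m = pvccSq 0 (Δ/4)` of the reference plug is KEPT by the links `r e f` and integrated with the weight `1_G / μ(G)`, but the usable states control only the dilated door region `s • O₀` (half side `13 Δ / 80`): the ring between the two is neither resampled nor controlled.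
THE CURE.     `rO' m := s_m • O₀`, `s_m = pvurS 𝔓 m = 2 Δ_m`;   the ring `An = rO \ rO'` is RESAMPLED: its West half `{re < 0}` by the links which END at the plug (`rK`, `fK`), its East half `{0 ≤ re}` by the link which STARTS there (`eK`).
* sec. 1  MODEL FREE: `pvnuAW O O'`, `pvnuAE O O'`, **`pvnuEng 𝔓 𝔈 rO' rY' rp' rG'`** (the engine `𝔈` with the new window) and **`pvnu4_wf`** : `PvieEng.Wf 𝔓 𝔈 .. → (cuts) → PvieEng.Wf 𝔓 (pvnuEng ..) ..`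
* sec. 2  the names of record `pvnuRO pvnuRK pvnuEK pvnuFK pvnuRY pvnuRp pvnuRG`
-/

set_option autoImplicit false

namespace Claimed.Agent.R289

open Set Metric MeasureTheory Claims.C0465
open scoped ENNReal

/-! ## 1. model free -/

/-- the West half of the ring `O \ O'` -/
def pvnuAW (O O' : Set ℂ) : Set ℂ := (O \ O') ∩ {w : ℂ | w.re < 0}

/-- the East half of the ring `O \ O'` -/
def pvnuAE (O O' : Set ℂ) : Set ℂ := (O \ O') ∩ {w : ℂ | 0 ≤ w.re}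

/-- **THE ENGINE `𝔈` WITH THE WINDOW `rO'` OF THE REFERENCE PLUG**: the ring is resampled by the neighbouring tiles -/
def pvnuEng {τ : Type} {c : ℝ} (𝔓 : PvxPar τ c) (𝔈 : PvieEng τ) (rO' rY' : ℕ → Set ℂ) (rp' : ℕ → PviePl) (rG' : ℕ → ℝ → Set (Conf PvPt)) : PvieEng τ where
  kit := 𝔈.kit
  XQ := 𝔈.XQ
  XV := 𝔈.XV
  sp := 𝔈.sp
  rp := rp'
  rO := rO'
  rG := rG'
  oM := 𝔈.oM
  oK := 𝔈.oK
  oY := 𝔈.oY
  iM := 𝔈.iM
  iK := 𝔈.iK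
  iY := 𝔈.iY
  eM := 𝔈.eM
  eK := fun m t => 𝔈.eK m t ∪ pvieSh ((𝔓.Γ m).zu t) (pvnuAE (𝔈.rO m) (rO' m))
  eY := 𝔈.eY
  rK := fun m => 𝔈.rK m ∪ pvnuAW (𝔈.rO m) (rO' m)
  rY := rY'
  fM := 𝔈.fM
  fK := fun m t => 𝔈.fK m t ∪ pvieSh ((𝔓.Γ m).zu t) (pvnuAW (𝔈.rO m) (rO' m))
  fY := 𝔈.fY

theorem pvnu4_eqns_cite : True := by
  have := @pvnuAW.eq_1; have := @pvnuAE.eq_1; have := @pvnuEng.eq_1
  trivial

section ring

variable {O O' : Set ℂ}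

theorem pvnu4_AW_sub (O O' : Set ℂ) : pvnuAW O O' ⊆ O := fun _ h => h.1.1
theorem pvnu4_AE_sub (O O' : Set ℂ) : pvnuAE O O' ⊆ O := fun _ h => h.1.1
theorem pvnu4_AW_AE (O O' : Set ℂ) : Disjoint (pvnuAW O O') (pvnuAE O O') := Set.disjoint_left.2 fun _ h1 h2 => absurd (show (0 : ℝ) ≤ _ from h2.2) (not_le.2 h1.2)
theorem pvnu4_AW_O (O O' : Set ℂ) : Disjoint (pvnuAW O O') O' := Set.disjoint_left.2 fun _ h1 h2 => h1.1.2 h2
theorem pvnu4_AE_O (O O' : Set ℂ) : Disjoint (pvnuAE O O') O' := Set.disjoint_left.2 fun _ h1 h2 => h1.1.2 h2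

/-- the old window is the new one and the two halves of the ring -/
theorem pvnu4_split (O O' : Set ℂ) : O ⊆ pvnuAW O O' ∪ pvnuAE O O' ∪ O' := by
  intro w hw
  by_cases h1 : w ∈ O'
  · exact Or.inr h1
  · rcases lt_or_ge w.re 0 with h2 | h2
    · exact Or.inl (Or.inl ⟨⟨hw, h1⟩, h2⟩)
    · exact Or.inl (Or.inr ⟨⟨hw, h1⟩, h2⟩)

theorem pvnu4_AW_meas (hO : MeasurableSet O) (hO' : MeasurableSet O') : MeasurableSet (pvnuAW O O') :=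
  (hO.diff hO').inter (measurableSet_lt Complex.measurable_re measurable_const)

theorem pvnu4_AE_meas (hO : MeasurableSet O) (hO' : MeasurableSet O') : MeasurableSet (pvnuAE O O') :=
  (hO.diff hO').inter (measurableSet_le measurable_const Complex.measurable_re)

theorem pvnu4_sh_meas (z : ℂ) {S : Set ℂ} (hS : MeasurableSet S) : MeasurableSet (pvieSh z S) := by
  have e : pvieSh z S = (fun w : ℂ => w - z) ⁻¹' S := by
    ext w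
    constructor
    · rintro ⟨v, hv, rfl⟩
      simpa using hv
    · intro h
      exact ⟨w - z, h, by simp⟩
  rw [e]
  exact (measurable_id.sub_const z) hS

theorem pvnu4_sh_mono (z : ℂ) {S T : Set ℂ} (h : S ⊆ T) : pvieSh z S ⊆ pvieSh z T := Set.image_mono h

theorem pvnu4_sh_union (z : ℂ) (S T : Set ℂ) : pvieSh z (S ∪ T) = pvieSh z S ∪ pvieSh z T := Set.image_union _ _ _

theorem pvnu4_sh_disj (z : ℂ) {S T : Set ℂ} (h : Disjoint S T) : Disjoint (pvieSh z S) (pvieSh z T) :=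
  (Set.disjoint_image_iff (add_right_injective z)).2 h

end ring

/-- the atoms of a cycle after the cut of the window `o` into `A B C` -/
theorem pvnu4_list {α : Type*} {a b c e k o A B C : Set α} {T : List (Set α)} (h : ([a, b] ++ ([c, e, k, o] ++ T)).Pairwise Disjoint)
    (hA : A ⊆ o) (hB : B ⊆ o) (hC : C ⊆ o) (dAB : Disjoint A B) (dAC : Disjoint A C) (dBC : Disjoint B C) :
    ([a, b] ++ ([c, e ∪ A, k ∪ B, C] ++ T)).Pairwise Disjoint := by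
  simp only [List.cons_append, List.nil_append, List.pairwise_cons, List.mem_cons] at h ⊢
  obtain ⟨ha, hb, hc, he, hk, ho, hT⟩ := h
  have ao := ha o (by simp)
  have bo := hb o (by simp)
  have co := hc o (by simp)
  have eo := he o (by simp)
  have ko := hk o (by simp)
  refine ⟨?_, ?_, ?_, ?_, ?_, ?_, hT⟩
  · rintro x (rfl | rfl | rfl | rfl | rfl | hx)
    · exact ha _ (by simp)
    · exact ha _ (by simp)
    · exact Disjoint.union_right (ha _ (by simp)) (ao.mono_right hA)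
    · exact Disjoint.union_right (ha _ (by simp)) (ao.mono_right hB)
    · exact ao.mono_right hC
    · exact ha _ (by simp [hx])
  · rintro x (rfl | rfl | rfl | rfl | hx)
    · exact hb _ (by simp)
    · exact Disjoint.union_right (hb _ (by simp)) (bo.mono_right hA)
    · exact Disjoint.union_right (hb _ (by simp)) (bo.mono_right hB)
    · exact bo.mono_right hC
    · exact hb _ (by simp [hx])
  · rintro x (rfl | rfl | rfl | hx)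
    · exact Disjoint.union_right (hc _ (by simp)) (co.mono_right hA)
    · exact Disjoint.union_right (hc _ (by simp)) (co.mono_right hB)
    · exact co.mono_right hC
    · exact hc _ (by simp [hx])
  · rintro x (rfl | rfl | hx)
    · exact Disjoint.union_left (Disjoint.union_right (he _ (by simp)) (eo.mono_right hB)) (Disjoint.union_right (ko.symm.mono_left hA) dAB)
    · exact Disjoint.union_left (eo.mono_right hC) dAC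
    · exact Disjoint.union_left (he _ (by simp [hx])) ((ho _ hx).mono_left hA)
  · rintro x (rfl | hx)
    · exact Disjoint.union_left (ko.mono_right hC) dBC
    · exact Disjoint.union_left (hk _ (by simp [hx])) ((ho _ hx).mono_left hB)
  · intro x hx
    exact (ho _ hx).mono_left hC

/-- the atoms of the closed thick pair after the cut -/
theorem pvnu4_list5 {α : Type*} {a e b f o A B C : Set α} (h : [a, e, b, f, o].Pairwise Disjoint)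
    (hA : A ⊆ o) (hB : B ⊆ o) (hC : C ⊆ o) (dAB : Disjoint A B) (dAC : Disjoint A C) (dBC : Disjoint B C) :
    [a, e ∪ A, b, f ∪ B, C].Pairwise Disjoint := by
  simp only [List.pairwise_cons, List.mem_cons, List.not_mem_nil, or_false, forall_eq_or_imp, forall_eq, IsEmpty.forall_iff, implies_true, List.Pairwise.nil, and_true] at h ⊢
  obtain ⟨⟨ae, ab, af, ao⟩, ⟨eb, ef, eo⟩, ⟨bf, bo⟩, fo⟩ := h
  refine ⟨⟨Disjoint.union_right ae (ao.mono_right hA), ab, Disjoint.union_right af (ao.mono_right hB), ao.mono_right hC⟩,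
    ⟨Disjoint.union_left eb (bo.symm.mono_left hA), Disjoint.union_left (Disjoint.union_right ef (eo.mono_right hB)) (Disjoint.union_right (fo.symm.mono_left hA) dAB), Disjoint.union_left (eo.mono_right hC) dAC⟩,
    ⟨Disjoint.union_right bf (bo.mono_right hB), bo.mono_right hC⟩, Disjoint.union_left (fo.mono_right hC) dBC⟩

section transfer

variable {τ : Type} {c : ℝ} {𝔓 : PvxPar τ c} {𝔈 : PvieEng τ} {rO' rY' : ℕ → Set ℂ} {rp' : ℕ → PviePl} {rG' : ℕ → ℝ → Set (Conf PvPt)} {m0 : ℕ} {Cth : ℝ} {r κs : ℕ → ℝ}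

/-- **what the new window, the new room of `r` and the new unit owe** -/
structure PvnuCut (𝔓 : PvxPar τ c) (𝔈 : PvieEng τ) (rO' rY' : ℕ → Set ℂ) (rp' : ℕ → PviePl) (m0 : ℕ) : Prop where
  mO : ∀ m, MeasurableSet (rO' m)
  mY : ∀ m, MeasurableSet (rY' m)
  sub : ∀ m, rO' m ⊆ 𝔈.rO m
  rp_h : ∀ m, m0 ≤ m → 0 < (rp' m).h
  rp_win : ∀ m, m0 ≤ m → pvwSq 0 (3 * (rp' m).h) ⊆ rO' m
  /-- the new room of `r` in the OLD union -/
  rY_sub : ∀ m, m0 ≤ m → ∀ ε, rY' m ⊆ 𝔈.rK m ∪ 𝔈.rO m ∪ pvieDoor 𝔈 m ε (𝔓.Γ m).pin0 (𝔓.Γ m).din0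
  /-- (c2) the room of `r` misses the East half of the ring -/
  rY_E : ∀ m, m0 ≤ m → Disjoint (rY' m) (pvnuAE (𝔈.rO m) (rO' m))
  /-- (c1) the room of `e` misses the West half of the ring -/
  eY_W : ∀ m, m0 ≤ m → ∀ t, pviwTyOk 𝔓 t → Disjoint (𝔈.eY m t) (pvieSh ((𝔓.Γ m).zu t) (pvnuAW (𝔈.rO m) (rO' m)))
  /-- (c3) the room of `f` misses the East half of the ring -/
  fY_E : ∀ m, m0 ≤ m → ∀ t, pviwTyOk 𝔓 t → Disjoint (𝔈.fY m t) (pvieSh ((𝔓.Γ m).zu t) (pvnuAE (𝔈.rO m) (rO' m)))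

/-- a room in `X ∪ (z + O)` which misses one half of the ring lies in `X ∪ (the other half) ∪ (z + O')` -/
theorem pvnu4_room_W {Y X O O' : Set ℂ} (z : ℂ) (h : Y ⊆ X ∪ pvieSh z O) (hd : Disjoint Y (pvieSh z (pvnuAW O O'))) : Y ⊆ X ∪ pvieSh z (pvnuAE O O') ∪ pvieSh z O' := by
  intro w hw
  rcases h hw with h1 | ⟨v, hv, rfl⟩
  · exact Or.inl (Or.inl h1)
  · rcases pvnu4_split O O' hv with (h2 | h2) | h2
    · exact absurd ⟨v, h2, rfl⟩ (Set.disjoint_left.1 hd hw)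
    · exact Or.inl (Or.inr ⟨v, h2, rfl⟩)
    · exact Or.inr ⟨v, h2, rfl⟩

theorem pvnu4_room_E {Y X O O' : Set ℂ} (z : ℂ) (h : Y ⊆ X ∪ pvieSh z O) (hd : Disjoint Y (pvieSh z (pvnuAE O O'))) : Y ⊆ X ∪ pvieSh z (pvnuAW O O') ∪ pvieSh z O' := by
  intro w hw
  rcases h hw with h1 | ⟨v, hv, rfl⟩
  · exact Or.inl (Or.inl h1)
  · rcases pvnu4_split O O' hv with (h2 | h2) | h2
    · exact Or.inl (Or.inr ⟨v, h2, rfl⟩)
    · exact absurd ⟨v, h2, rfl⟩ (Set.disjoint_left.1 hd hw)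
    · exact Or.inr ⟨v, h2, rfl⟩

/-- **THE CONTRACT OF 168 SURVIVES THE CUT OF THE WINDOW** -/
theorem pvnu4_wf (h : PvieEng.Wf 𝔓 𝔈 m0 Cth r κs) (hc : PvnuCut 𝔓 𝔈 rO' rY' rp' m0) : PvieEng.Wf 𝔓 (pvnuEng 𝔓 𝔈 rO' rY' rp' rG') m0 Cth r κs where
  m_oM := h.m_oM
  m_oK := h.m_oK
  m_oY := h.m_oY
  m_iM := h.m_iM
  m_iK := h.m_iK
  m_iY := h.m_iY
  m_eM := h.m_eM
  m_eK := fun m t => (h.m_eK m t).union (pvnu4_sh_meas _ (pvnu4_AE_meas (h.m_rO m) (hc.mO m)))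
  m_eY := h.m_eY
  m_rK := fun m => (h.m_rK m).union (pvnu4_AW_meas (h.m_rO m) (hc.mO m))
  m_rY := hc.mY
  m_rO := hc.mO
  m_fM := h.m_fM
  m_fK := fun m t => (h.m_fK m t).union (pvnu4_sh_meas _ (pvnu4_AW_meas (h.m_rO m) (hc.mO m)))
  m_fY := h.m_fY
  kit_del := h.kit_del
  kit_ref := h.kit_ref
  kit_O := h.kit_O
  kit_K := h.kit_K
  oM_in := h.oM_in
  iM_in := h.iM_in
  eM_in := h.eM_in
  oM_tip := h.oM_tip
  iM_tip := h.iM_tip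
  eM_tip := h.eM_tip
  oM_cen := h.oM_cen
  iM_cen := h.iM_cen
  eM_cen := h.eM_cen
  fM_in := h.fM_in
  fM_tip := h.fM_tip
  fM_cen := h.fM_cen
  oM_half := h.oM_half
  iM_half := h.iM_half
  eM_half := h.eM_half
  fM_half := h.fM_half
  res_off := fun m hm ε t ht S hS => by
    have H := h.res_off m hm ε t ht
    have hRo : Disjoint (pviwRo 𝔓 𝔈 m t) (pviwBox 𝔓 m t) := H _ (by simp [pviwRes])
    have hS' : S = 𝔈.oK m t ∨ S = 𝔈.eK m t ∪ pvieSh ((𝔓.Γ m).zu t) (pvnuAE (𝔈.rO m) (rO' m)) ∨ S = pvieSh ((𝔓.Γ m).zu t) (𝔈.rK m ∪ pvnuAW (𝔈.rO m) (rO' m)) ∨ S = pvieSh ((𝔓.Γ m).zu t) (rO' m) ∨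
        S ∈ pviwDoors 𝔓 𝔈 m ε t ∨ S ∈ pviwCells 𝔓 𝔈 m ε t := by
      have h1 : S ∈ [𝔈.oK m t, 𝔈.eK m t ∪ pvieSh ((𝔓.Γ m).zu t) (pvnuAE (𝔈.rO m) (rO' m)), pvieSh ((𝔓.Γ m).zu t) (𝔈.rK m ∪ pvnuAW (𝔈.rO m) (rO' m)), pvieSh ((𝔓.Γ m).zu t) (rO' m)] ++ pviwDoors 𝔓 𝔈 m ε t ++ pviwCells 𝔓 𝔈 m ε t := hS
      simpa [or_assoc] using h1
    rcases hS' with rfl | rfl | rfl | rfl | h1 | h1
    · exact H _ (by simp [pviwRes])
    · exact Disjoint.union_left (H _ (by simp [pviwRes])) (hRo.mono_left (pvnu4_sh_mono _ (pvnu4_AE_sub _ _)))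
    · rw [pvnu4_sh_union]
      exact Disjoint.union_left (H (pviwRk 𝔓 𝔈 m t) (by simp [pviwRes])) (hRo.mono_left (pvnu4_sh_mono _ (pvnu4_AW_sub _ _)))
    · exact hRo.mono_left (pvnu4_sh_mono _ (hc.sub m))
    · exact H _ (by simp [pviwRes, h1])
    · exact H _ (by simp [pviwRes, h1])
  iK_off := h.iK_off
  Di_off := h.Di_off
  fK_off := fun m hm t ht => by
    have hRo : Disjoint (pviwRo 𝔓 𝔈 m t) (pviwBox 𝔓 m t) := h.res_off m hm 1 t ht _ (by simp [pviwRes])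
    exact Disjoint.union_left (h.fK_off m hm t ht) (hRo.mono_left (pvnu4_sh_mono _ (pvnu4_AW_sub _ _)))
  oY_sub := h.oY_sub
  iY_sub := h.iY_sub
  eY_sub := fun m hm t ht => by
    have h1 := pvnu4_room_W (O' := rO' m) ((𝔓.Γ m).zu t) (h.eY_sub m hm t ht) (hc.eY_W m hm t ht)
    intro w hw
    rcases h1 hw with ((h2 | h2) | h2) | h2
    · exact Or.inl (Or.inl h2)
    · exact Or.inl (Or.inr (Or.inl h2))
    · exact Or.inl (Or.inr (Or.inr h2))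
    · exact Or.inr h2
  rY_sub := fun m hm ε => by
    intro w hw
    rcases hc.rY_sub m hm ε hw with (h2 | h2) | h2
    · exact Or.inl (Or.inl (Or.inl h2))
    · rcases pvnu4_split _ (rO' m) h2 with (h3 | h3) | h3
      · exact Or.inl (Or.inl (Or.inr h3))
      · exact absurd h3 (Set.disjoint_left.1 (hc.rY_E m hm) hw)
      · exact Or.inl (Or.inr h3)
    · exact Or.inr h2
  fY_sub := fun m hm t ht => by
    have h1 := pvnu4_room_E (O' := rO' m) ((𝔓.Γ m).zu t) (h.fY_sub m hm t ht) (hc.fY_E m hm t ht)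
    intro w hw
    rcases h1 hw with ((h2 | h2) | h2) | h2
    · exact Or.inl (Or.inl h2)
    · exact Or.inl (Or.inr (Or.inl h2))
    · exact Or.inl (Or.inr (Or.inr h2))
    · exact Or.inr h2
  oY_reg := h.oY_reg
  iY_reg := h.iY_reg
  o_disj := h.o_disj
  i_disj := h.i_disj
  oi_disj := h.oi_disj
  cyc_disj := fun m hm ε t ht => by
    have H : ([𝔈.oM m t, 𝔈.eM m t] ++ ([𝔈.oK m t, 𝔈.eK m t, pviwRk 𝔓 𝔈 m t, pviwRo 𝔓 𝔈 m t] ++ (pviwDoors 𝔓 𝔈 m ε t ++ pviwCells 𝔓 𝔈 m ε t))).Pairwise Disjoint := by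
      have := h.cyc_disj m hm ε t ht
      unfold pviwCyc pviwRes at this
      rwa [List.append_assoc [𝔈.oK m t, 𝔈.eK m t, pviwRk 𝔓 𝔈 m t, pviwRo 𝔓 𝔈 m t]] at this
    have H2 := pvnu4_list H (A := pvieSh ((𝔓.Γ m).zu t) (pvnuAE (𝔈.rO m) (rO' m))) (B := pvieSh ((𝔓.Γ m).zu t) (pvnuAW (𝔈.rO m) (rO' m))) (C := pvieSh ((𝔓.Γ m).zu t) (rO' m))
      (pvnu4_sh_mono _ (pvnu4_AE_sub _ _)) (pvnu4_sh_mono _ (pvnu4_AW_sub _ _)) (pvnu4_sh_mono _ (hc.sub m))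
      (pvnu4_sh_disj _ (pvnu4_AW_AE _ _).symm) (pvnu4_sh_disj _ (pvnu4_AE_O _ _)) (pvnu4_sh_disj _ (pvnu4_AW_O _ _))
    have e : pviwRk 𝔓 𝔈 m t ∪ pvieSh ((𝔓.Γ m).zu t) (pvnuAW (𝔈.rO m) (rO' m)) = pvieSh ((𝔓.Γ m).zu t) (𝔈.rK m ∪ pvnuAW (𝔈.rO m) (rO' m)) := (pvnu4_sh_union _ _ _).symm
    rw [e, ← List.append_assoc [𝔈.oK m t, _, _, _]] at H2
    exact H2
  th_disj := fun m hm t ht =>
    pvnu4_list5 (h.th_disj m hm t ht) (pvnu4_sh_mono _ (pvnu4_AE_sub _ _)) (pvnu4_sh_mono _ (pvnu4_AW_sub _ _)) (pvnu4_sh_mono _ (hc.sub m))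
      (pvnu4_sh_disj _ (pvnu4_AW_AE _ _).symm) (pvnu4_sh_disj _ (pvnu4_AE_O _ _)) (pvnu4_sh_disj _ (pvnu4_AW_O _ _))
  ef_sep := h.ef_sep
  dp_win := h.dp_win
  κs0 := h.κs0
  rp_h := hc.rp_h
  rp_win := hc.rp_win
  e_bdd := fun m hm t ht => by
    have H := h.e_bdd m hm t ht
    intro w hw
    rcases hw with (h2 | h2 | h2) | h2
    · exact H (Or.inl (Or.inl h2))
    · exact H (Or.inl (Or.inr h2))
    · exact H (Or.inr (pvnu4_sh_mono _ (pvnu4_AE_sub _ _) h2))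
    · exact H (Or.inr (pvnu4_sh_mono _ (hc.sub m) h2))
  f_bdd := fun m hm t ht => by
    have H := h.f_bdd m hm t ht
    intro w hw
    rcases hw with h2 | h2 | h2
    · exact H (Or.inl h2)
    · exact H (Or.inr h2)
    · exact h.e_bdd m hm t ht (Or.inr (pvnu4_sh_mono _ (pvnu4_AW_sub _ _) h2))

end transfer

/-! ## 2. the names of record -/

section record

variable {τ : Type} {c : ℝ} (𝔓 : PvxPar τ c)

/-- **`rO m`** := the door region of the unit datum at the scale `s_m = pvurS 𝔓 m = 2 Δ_m`   (`= pvccSq 0 (13 Δ / 80)`: `pvnu4_RO_sq`) -/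
noncomputable def pvnuRO (m : ℕ) : Set ℂ := pvthSim 0 (pvurS 𝔓 m) '' pvkgG.O₀

/-- **`rK m`** := the tile of 166 and the West half of the ring -/
noncomputable def pvnuRK (O0 : ℕ → Set ℂ) (m : ℕ) : Set ℂ := pvehrK 𝔓 O0 m ∪ pvnuAW (pvehrO 𝔓 m) (pvnuRO 𝔓 m)

/-- **`rY m`** := the lane of 166, FROM `pvilRd / 4 = δ / 160` IN FRONT OF THE PLANE OF THE LAST DOOR (numeral seam of 233; R25 of 234, correction of 13:49Z) to `Δ / 64` behind the plane of the reference plug -/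
noncomputable def pvnuRY (m : ℕ) : Set ℂ := pvehRY (2 * pvlmDel c m / 5) (pvehDl 𝔓 m)

/-- **`eK m t`** := the tile of 166 / 124 and the East half of the ring -/
noncomputable def pvnuEK (m : ℕ) (t : τ) : Set ℂ := pveheK 𝔓 (pvegIM 𝔓) m t ∪ pvegIK 𝔓 m t ∪ pvieSh ((𝔓.Γ m).zu t) (pvnuAE (pvehrO 𝔓 m) (pvnuRO 𝔓 m))

/-- **`fK m t`** := the tile of 182 and the West half of the ring -/
noncomputable def pvnuFK (m : ℕ) (t : τ) : Set ℂ := pveffK 𝔓 m t ∪ pvieSh ((𝔓.Γ m).zu t) (pvnuAW (pvehrO 𝔓 m) (pvnuRO 𝔓 m))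

/-- **the reference plug**: only the scale `h = pvurRu 𝔓 m = Δ_m / 20 = s_m / 40` is read -/
noncomputable def pvnuRp (m : ℕ) : PviePl := ⟨0, pvurRu 𝔓 m, ⟨0, 0, 0, 0, 0, false, 0, 0⟩, ∅, ∅, ∅, ∅, True⟩

/-- **`rG m ε`** := the usable states of the unit datum at the scale `s_m`, WINDOW `rO m = s_m • O₀`, with the mesh `pvilMu 𝔓 m / 8` of the whole window (31, `Exit/RefPlug` sec. 2b, 3b) -/
noncomputable def pvnuRG (𝔊 : PvpgGlob) (b : ℝ≥0∞) (m : ℕ) (ε : ℝ) : Set (Conf PvPt) := pvurGM 𝔊 b (pvurS 𝔓 m) (pvnuRO 𝔓 m) (pvilMu 𝔓 m / 8) ε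

end record

theorem pvnu4_eqns_cite2 : True := by
  have := @pvnuRO.eq_1; have := @pvnuRK.eq_1; have := @pvnuRY.eq_1; have := @pvnuEK.eq_1; have := @pvnuFK.eq_1; have := @pvnuRp.eq_1; have := @pvnuRG.eq_1
  trivial

section record2

variable {τ : Type} {c : ℝ} {𝔓 : PvxPar τ c}

/-- **the window is the open square of half side `13 Δ / 80`** -/
theorem pvnu4_RO_sq (hρ : 0 < 𝔓.num.rho) (m : ℕ) : pvnuRO 𝔓 m = pvccSq 0 (13 * pvehDl 𝔓 m / 80) := by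
  have hΔ := pvur_Dl_pos hρ m
  have hs := pvur_S_pos hρ m
  unfold pvnuRO
  rw [pvbe_sim_image hs.ne']
  show pvthInv 0 (pvurS 𝔓 m) ⁻¹' pvkgO = _
  rw [pvkgg_O_sq]
  ext w
  rw [Set.mem_preimage, pvccm_mem_sq, pvccm_mem_sq]
  have e1 : (pvthInv 0 (pvurS 𝔓 m : ℂ) w).re = w.re / (2 * pvehDl 𝔓 m) := by
    unfold pvthInv pvurS
    rw [sub_zero, Complex.div_ofReal_re]
  have e2 : (pvthInv 0 (pvurS 𝔓 m : ℂ) w).im = w.im / (2 * pvehDl 𝔓 m) := by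
    unfold pvthInv pvurS
    rw [sub_zero, Complex.div_ofReal_im]
  have h2 : 0 < 2 * pvehDl 𝔓 m := by positivity
  rw [e1, e2]
  simp only [Complex.zero_re, Complex.zero_im, zero_sub, zero_add]
  rw [lt_div_iff₀ h2, div_lt_iff₀ h2, lt_div_iff₀ h2, div_lt_iff₀ h2]
  constructor
  · rintro ⟨⟨a1, a2⟩, a3, a4⟩
    exact ⟨⟨by linarith, by linarith⟩, by linarith, by linarith⟩
  · rintro ⟨⟨a1, a2⟩, a3, a4⟩
    exact ⟨⟨by linarith, by linarith⟩, by linarith, by linarith⟩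

theorem pvnu4_RO_meas (hρ : 0 < 𝔓.num.rho) (m : ℕ) : MeasurableSet (pvnuRO 𝔓 m) := by
  rw [pvnu4_RO_sq hρ]
  exact pvccm_sq_meas _ _

/-- the new window lies in the old one -/
theorem pvnu4_RO_sub (hρ : 0 < 𝔓.num.rho) (m : ℕ) : pvnuRO 𝔓 m ⊆ pvehrO 𝔓 m := by
  have hΔ := pvur_Dl_pos hρ m
  rw [pvnu4_RO_sq hρ]
  intro w hw
  have h1 : pvccN (w - 0) < 13 * pvehDl 𝔓 m / 80 := hw
  show pvccN (w - 0) < pvehDl 𝔓 m / 4
  linarith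

/-- `rp_win` -/
theorem pvnu4_win (hρ : 0 < 𝔓.num.rho) (m : ℕ) : pvwSq 0 (3 * (pvnuRp 𝔓 m).h) ⊆ pvnuRO 𝔓 m := by
  have hΔ := pvur_Dl_pos hρ m
  rw [pvnu4_RO_sq hρ]
  intro w hw
  obtain ⟨h1, h2⟩ := hw
  have e : (pvnuRp 𝔓 m).h = pvehDl 𝔓 m / 20 := rfl
  rw [e] at h1 h2
  show pvccN (w - 0) < 13 * pvehDl 𝔓 m / 80
  exact max_lt (by linarith) (by linarith)

theorem pvnu4_Rp_h (m : ℕ) : (pvnuRp 𝔓 m).h = pvurRu 𝔓 m := rfl

/-- rule `s = 40 h` -/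
theorem pvnu4_S_h (m : ℕ) : pvurS 𝔓 m = 40 * (pvnuRp 𝔓 m).h := by
  show pvurS 𝔓 m = 40 * pvurRu 𝔓 m
  unfold pvurS pvurRu
  ring

theorem pvnu4_RY_meas (m : ℕ) : MeasurableSet (pvnuRY 𝔓 m) := pveh_RY_meas _ _

/-- the room of `r`, explicit -/
theorem pvnu4_mem_RY {m : ℕ} {w : ℂ} : w ∈ pvnuRY 𝔓 m ↔ -(pvehDl 𝔓 m / 2) + pvlmDel c m / 160 ≤ w.re ∧ w.re ≤ -(pvehDl 𝔓 m / 64) ∧ -(pvehDl 𝔓 m / 10) ≤ w.im ∧ w.im ≤ 4 * pvehDl 𝔓 m / 10 := by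
  show (-(pvehDl 𝔓 m / 2) + 2 * pvlmDel c m / 5 / 64 ≤ w.re ∧ w.re ≤ -(pvehDl 𝔓 m / 64) ∧ -(pvehDl 𝔓 m / 10) ≤ w.im ∧ w.im ≤ 4 * pvehDl 𝔓 m / 10) ↔ _
  rw [show 2 * pvlmDel c m / 5 / 64 = pvlmDel c m / 160 by ring]

/-- the old room lies in the new one -/
theorem pvnu4_RY_old (O0 : ℕ → Set ℂ) (m : ℕ) : pvehrY 𝔓 O0 m ⊆ pvnuRY 𝔓 m := by
  rintro w ⟨h1, h2, h3, h4⟩
  have := pvlm_Del_pos c m
  exact pvnu4_mem_RY.2 ⟨by linarith, h2, h3, h4⟩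

/-- W-7 at the last door: the room of `r` lies `pvilRd / 4 = δ / 160` in front of the plane of the last door -/
theorem pvnu4_RY_front (m : ℕ) {v : ℂ} (hv : v ∈ pvnuRY 𝔓 m) : pvlmDel c m / 160 ≤ ((v - (pvxrGam 𝔓 m).pin0) * (starRingEnd ℂ) (pvxrGam 𝔓 m).din0).re := by
  obtain ⟨h1, -, -, -⟩ := pvnu4_mem_RY.1 hv
  rw [pvxr_gam_din0, pvxr_gam_pin0, map_one, mul_one, Complex.sub_re]
  have e : (-(pvlmDel c m : ℂ) * ((pvxrNw 𝔓 m : ℂ) + 1 / 2)).re = -(pvehDl 𝔓 m / 2) := by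
    have : -(pvlmDel c m : ℂ) * ((pvxrNw 𝔓 m : ℂ) + 1 / 2) = ((-(pvehDl 𝔓 m / 2) : ℝ) : ℂ) := by
      unfold pvehDl; push_cast; ring
    rw [this, Complex.ofReal_re]
  rw [e]
  linarith

/-- W-7 at the reference plug -/
theorem pvnu4_RY_back (m : ℕ) {v : ℂ} (hv : v ∈ pvnuRY 𝔓 m) : v.re ≤ -(pvehDl 𝔓 m / 64) := hv.2.1

/-- the new room of `r` in the OLD union -/
theorem pvnu4_RY_sub (O0 : ℕ → Set ℂ) (m : ℕ) : pvnuRY 𝔓 m ⊆ pvehrK 𝔓 O0 m ∪ pvehrO 𝔓 m ∪ pvehDr 𝔓 O0 m :=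
  pveh_RY_sub _ (by have := pvlm_Del_pos c m; positivity)

/-- (c2) -/
theorem pvnu4_RY_E (hρ : 0 < 𝔓.num.rho) (m : ℕ) (O O' : Set ℂ) : Disjoint (pvnuRY 𝔓 m) (pvnuAE O O') := by
  have hΔ := pvur_Dl_pos hρ m
  rw [Set.disjoint_left]
  intro w hw hE
  have h1 := pvnu4_RY_back m hw
  have h2 : 0 ≤ w.re := hE.2
  linarith

/-- (c1) a room inside the room of record of `e` misses the West half of the ring -/
theorem pvnu4_eY_W {m : ℕ} (hn : 0 ≤ pvxrNw 𝔓 m) (t : τ) {Y : Set ℂ} (hY : Y ⊆ pveheY 𝔓 (pvegIM 𝔓) m t ∪ pvegIK 𝔓 m t)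
    (hM : Disjoint (pvegIM 𝔓 m t) (pvieSh ((pvxrGam 𝔓 m).zu t) (pvehrO 𝔓 m))) (hK : Disjoint (pvegIK 𝔓 m t) (pvieSh ((pvxrGam 𝔓 m).zu t) (pvehrO 𝔓 m))) (O' : Set ℂ) :
    Disjoint Y (pvieSh ((pvxrGam 𝔓 m).zu t) (pvnuAW (pvehrO 𝔓 m) O')) := by
  have hΔ := pveh_Dl_pos hn
  rw [Set.disjoint_left]
  intro v hv hW
  have hO : v ∈ pvieSh ((pvxrGam 𝔓 m).zu t) (pvehrO 𝔓 m) := pvnu4_sh_mono _ (pvnu4_AW_sub _ _) hW
  have h0 : (v - (pvxrGam 𝔓 m).zu t).re < 0 := (pveh_mem_sh.1 hW).2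
  rcases hY hv with h1 | h1
  · have := pveh_eY_front hn t h1 hO (fun h => Set.disjoint_left.1 hM h hO)
    linarith
  · exact Set.disjoint_left.1 hK h1 hO

/-- (c3) a room inside the room of record of `f` misses the East half of the ring -/
theorem pvnu4_fY_E {m : ℕ} {t : τ} (h : PvefNdg 𝔓 m t) {Y : Set ℂ} (hY : Y ⊆ pveffY 𝔓 m t) (O' : Set ℂ) :
    Disjoint Y (pvieSh ((pvxrGam 𝔓 m).zu t) (pvnuAE (pvehrO 𝔓 m) O')) := by
  have hΔ := pveh_Dl_pos (pvef_n0 h)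
  rw [Set.disjoint_left]
  intro v hv hE
  have hO : v ∈ pvieSh ((pvxrGam 𝔓 m).zu t) (pvehrO 𝔓 m) := pvnu4_sh_mono _ (pvnu4_AE_sub _ _) hE
  have h0 : 0 ≤ (v - (pvxrGam 𝔓 m).zu t).re := (pveh_mem_sh.1 hE).2
  have := pvef_fY_back h v (hY hv) hO
  linarith

end record2

/-! ## 3. at the engine `pveaEng 𝔓 J` of 124 -/

section atEng

variable {τ : Type} {c : ℝ} {𝔓 : PvxPar τ c} {J : PveaIn} {m0 : ℕ} {Cth : ℝ} {r κs : ℕ → ℝ}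

/-- **THE ENGINE AFTER U4** -/
noncomputable def pvnuEngA (𝔓 : PvxPar τ c) (J : PveaIn) (rY' : ℕ → Set ℂ) (𝔊 : PvpgGlob) (b : ℝ≥0∞) : PvieEng τ :=
  pvnuEng 𝔓 (pveaEng 𝔓 J) (pvnuRO 𝔓) rY' (pvnuRp 𝔓) (pvnuRG 𝔓 𝔊 b)

theorem pvnu4_eqns_cite3 : True := by
  have := @pvnuEngA.eq_1
  trivial

/-- a room which, inside `z + O`, stays in front of the plane of the plug misses the West half of the ring -/
theorem pvnu4_W_of_front {Y O : Set ℂ} {z : ℂ} (h : ∀ v ∈ Y, v ∈ pvieSh z O → 0 ≤ (v - z).re) (O' : Set ℂ) : Disjoint Y (pvieSh z (pvnuAW O O')) := by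
  rw [Set.disjoint_left]
  intro v hv hW
  have h0 : (v - z).re < 0 := (pveh_mem_sh.1 hW).2
  have := h v hv (pvnu4_sh_mono _ (pvnu4_AW_sub _ _) hW)
  linarith

/-- a room which, inside `z + O`, stays behind the plane of the plug misses the East half of the ring -/
theorem pvnu4_E_of_back {Y O : Set ℂ} {z : ℂ} (h : ∀ v ∈ Y, v ∈ pvieSh z O → (v - z).re < 0) (O' : Set ℂ) : Disjoint Y (pvieSh z (pvnuAE O O')) := by
  rw [Set.disjoint_left]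
  intro v hv hE
  have h0 : 0 ≤ (v - z).re := (pveh_mem_sh.1 hE).2
  have := h v hv (pvnu4_sh_mono _ (pvnu4_AE_sub _ _) hE)
  linarith

/-- **the cut lines at the engine of 124**, for ANY rooms: `rY'` in the old union and West of the plane of the plug; inside `zu + rO` (old window) `eY` East, `fY` West of the plane -/
theorem pvnu4_cut (H : PveaPar 𝔓 m0) (hW : PvieEng.Wf 𝔓 (pveaEng 𝔓 J) m0 Cth r κs) {rY' : ℕ → Set ℂ} (mY : ∀ m, MeasurableSet (rY' m))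
    (hrY : ∀ m, m0 ≤ m → rY' m ⊆ pvehrK 𝔓 J.O0 m ∪ pvehrO 𝔓 m ∪ pvehDr 𝔓 J.O0 m) (hrB : ∀ m, m0 ≤ m → ∀ v ∈ rY' m, v.re < 0)
    (heF : ∀ m, m0 ≤ m → ∀ t, pviwTyOk 𝔓 t → ∀ v ∈ (pveaEng 𝔓 J).eY m t, v ∈ pvieSh ((pvxrGam 𝔓 m).zu t) (pvehrO 𝔓 m) → 0 ≤ (v - (pvxrGam 𝔓 m).zu t).re)
    (hfB : ∀ m, m0 ≤ m → ∀ t, pviwTyOk 𝔓 t → ∀ v ∈ (pveaEng 𝔓 J).fY m t, v ∈ pvieSh ((pvxrGam 𝔓 m).zu t) (pvehrO 𝔓 m) → (v - (pvxrGam 𝔓 m).zu t).re < 0) :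
    PvnuCut 𝔓 (pveaEng 𝔓 J) (pvnuRO 𝔓) rY' (pvnuRp 𝔓) m0 where
  mO := pvnu4_RO_meas H.rho0
  mY := mY
  sub := pvnu4_RO_sub H.rho0
  rp_h := fun m _ => by
    have := pvur_Dl_pos H.rho0 m
    show 0 < pvehDl 𝔓 m / 20
    positivity
  rp_win := fun m _ => pvnu4_win H.rho0 m
  rY_sub := fun m hm ε => by
    refine (hrY m hm).trans ?_
    show _ ⊆ pvehrK 𝔓 J.O0 m ∪ pvehrO 𝔓 m ∪ pvthSim (𝔓.Γ m).pin0 (𝔓.Γ m).din0 '' (J.kit m ε).O₀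
    rw [show (J.kit m ε).O₀ = (J.kit m 1).O₀ from hW.kit_O m ε 1, H.gam]
    exact Subset.rfl
  rY_E := fun m hm => Set.disjoint_left.2 fun v hv hE => absurd (show (0 : ℝ) ≤ v.re from hE.2) (not_le.2 (hrB m hm v hv))
  eY_W := fun m hm t hT => by
    show Disjoint ((pveaEng 𝔓 J).eY m t) (pvieSh ((𝔓.Γ m).zu t) (pvnuAW (pvehrO 𝔓 m) (pvnuRO 𝔓 m)))
    rw [H.gam]
    exact pvnu4_W_of_front (heF m hm t hT) _
  fY_E := fun m hm t hT => by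
    show Disjoint ((pveaEng 𝔓 J).fY m t) (pvieSh ((𝔓.Γ m).zu t) (pvnuAE (pvehrO 𝔓 m) (pvnuRO 𝔓 m)))
    rw [H.gam]
    exact pvnu4_E_of_back (hfB m hm t hT) _

/-- the front line for a room inside the room `pveheY ∪ pvegIK` of 166 / 124 -/
theorem pvnu4_eF_old (H : PveaPar 𝔓 m0) (hW : PvieEng.Wf 𝔓 (pveaEng 𝔓 J) m0 Cth r κs) {m : ℕ} (hm : m0 ≤ m) {t : τ} (hT : pviwTyOk 𝔓 t) {Y : Set ℂ} (hY : Y ⊆ pveheY 𝔓 (pvegIM 𝔓) m t ∪ pvegIK 𝔓 m t) :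
    ∀ v ∈ Y, v ∈ pvieSh ((pvxrGam 𝔓 m).zu t) (pvehrO 𝔓 m) → 0 ≤ (v - (pvxrGam 𝔓 m).zu t).re := by
  have hd := hW.th_disj m hm t hT
  simp only [List.pairwise_cons, List.mem_cons, List.not_mem_nil, or_false, forall_eq_or_imp, forall_eq] at hd
  have hM : Disjoint (pvegIM 𝔓 m t) (pvieSh ((𝔓.Γ m).zu t) (pvehrO 𝔓 m)) := hd.1.2.2.2
  have hK : Disjoint (pvegIK 𝔓 m t) (pvieSh ((𝔓.Γ m).zu t) (pvehrO 𝔓 m)) := Disjoint.mono_left (show pvegIK 𝔓 m t ⊆ (pveaEng 𝔓 J).eK m t from subset_union_right) hd.2.1.2.2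
  rw [H.gam] at hM hK
  have hΔ := pveh_Dl_pos (pvea_Nw_nonneg H m)
  intro v hv hO
  rcases hY hv with h1 | h1
  · have := pveh_eY_front (pvea_Nw_nonneg H m) t h1 hO (fun h => Set.disjoint_left.1 hM h hO)
    linarith
  · exact absurd hO (Set.disjoint_left.1 hK h1)

/-- the back line for a room inside the room `pveffY` of 182 -/
theorem pvnu4_fB_old (H : PveaPar 𝔓 m0) {m : ℕ} (hm : m0 ≤ m) {t : τ} (hT : pviwTyOk 𝔓 t) {Y : Set ℂ} (hY : Y ⊆ pveffY 𝔓 m t) :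
    ∀ v ∈ Y, v ∈ pvieSh ((pvxrGam 𝔓 m).zu t) (pvehrO 𝔓 m) → (v - (pvxrGam 𝔓 m).zu t).re < 0 := by
  have hΔ := pveh_Dl_pos (pvea_Nw_nonneg H m)
  intro v hv hO
  have := pvef_fY_back (pvef_ndg_of (H.ndg m hm t hT) hT) v (hY hv) hO
  linarith

/-- the contract of record survives the cut -/
theorem pvnu4_na {𝔈 : PvieEng τ} {rO' rY' : ℕ → Set ℂ} {rp' : ℕ → PviePl} (rG' : ℕ → ℝ → Set (Conf PvPt)) (h : PvnaWf 𝔓 𝔈) (hc : PvnuCut 𝔓 𝔈 rO' rY' rp' 𝔓.m0) :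
    PvnaWf 𝔓 (pvnuEng 𝔓 𝔈 rO' rY' rp' rG') := by
  obtain ⟨⟨Cth, r, κs, hW⟩, U, hU⟩ := h
  exact ⟨⟨Cth, r, κs, pvnu4_wf hW hc⟩, U, ⟨hU.kit, hU.XQ, hU.XV⟩⟩

/-- **THE CONTRACT OF RECORD AT THE ENGINE AFTER U4** -/
theorem pvnu4_naA (H : PveaPar 𝔓 𝔓.m0) (h : PvnaWf 𝔓 (pveaEng 𝔓 J)) {rY' : ℕ → Set ℂ} (mY : ∀ m, MeasurableSet (rY' m))
    (hrY : ∀ m, 𝔓.m0 ≤ m → rY' m ⊆ pvehrK 𝔓 J.O0 m ∪ pvehrO 𝔓 m ∪ pvehDr 𝔓 J.O0 m) (hrB : ∀ m, 𝔓.m0 ≤ m → ∀ v ∈ rY' m, v.re < 0)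
    (heF : ∀ m, 𝔓.m0 ≤ m → ∀ t, pviwTyOk 𝔓 t → ∀ v ∈ (pveaEng 𝔓 J).eY m t, v ∈ pvieSh ((pvxrGam 𝔓 m).zu t) (pvehrO 𝔓 m) → 0 ≤ (v - (pvxrGam 𝔓 m).zu t).re)
    (hfB : ∀ m, 𝔓.m0 ≤ m → ∀ t, pviwTyOk 𝔓 t → ∀ v ∈ (pveaEng 𝔓 J).fY m t, v ∈ pvieSh ((pvxrGam 𝔓 m).zu t) (pvehrO 𝔓 m) → (v - (pvxrGam 𝔓 m).zu t).re < 0)
    (𝔊 : PvpgGlob) (b : ℝ≥0∞) : PvnaWf 𝔓 (pvnuEngA 𝔓 J rY' 𝔊 b) := by
  obtain ⟨Cth, r, κs, hW⟩ := h.wf
  exact pvnu4_na _ h (pvnu4_cut H hW mY hrY hrB heF hfB)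

section unfoldA

variable (𝔓 J) (rY' : ℕ → Set ℂ) (𝔊 : PvpgGlob) (b : ℝ≥0∞)

theorem pvnu4_A_rO (m : ℕ) : (pvnuEngA 𝔓 J rY' 𝔊 b).rO m = pvnuRO 𝔓 m := rfl
theorem pvnu4_A_rK (m : ℕ) : (pvnuEngA 𝔓 J rY' 𝔊 b).rK m = pvnuRK 𝔓 J.O0 m := rfl
theorem pvnu4_A_rY (m : ℕ) : (pvnuEngA 𝔓 J rY' 𝔊 b).rY m = rY' m := rfl
theorem pvnu4_A_eK (m : ℕ) (t : τ) : (pvnuEngA 𝔓 J rY' 𝔊 b).eK m t = pvnuEK 𝔓 m t := rfl
theorem pvnu4_A_fK (m : ℕ) (t : τ) : (pvnuEngA 𝔓 J rY' 𝔊 b).fK m t = pvnuFK 𝔓 m t := rfl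
theorem pvnu4_A_rp (m : ℕ) : (pvnuEngA 𝔓 J rY' 𝔊 b).rp m = pvnuRp 𝔓 m := rfl
theorem pvnu4_A_rG (m : ℕ) (ε : ℝ) : (pvnuEngA 𝔓 J rY' 𝔊 b).rG m ε = pvnuRG 𝔓 𝔊 b m ε := rfl

end unfoldA

end atEng

end Claimed.Agent.R289
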