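-- KEEP
import Claimed.Agent.R289.Tr.FrcLayB
import Claimed.Agent.R289.Tr.FrcLayE
import Claimed.Agent.R289.Exit.NumQ

/-!
# Row 289 (S0537), THE WALL, cell kit, file Exit/FrcMS : **(SIDE) AT THE MODEL, CLOSED: [MEAS] `mH` + [HDICT] + [FRC] AT THE SIDE EVENTS OF RECORD, WITH THE FINE MESH OF (MESH-D)**      (helper174; prefix `pvhf_`, `pvhf`)      0 sorry

PURE ASSEMBLY of:   174 `Tr/FrcM` (side events `pvhfS`, `pvhfH`, fine mesh `𝔱.fine μ W`, `pvhf_geo_fine`, `pvhf_S_fine`),   52 `Tr/PlugFrcT` (`pvjo_t_side`, `pvjoT`, `pvjo_t_geo`), `Tr/FrcLayB` (`pvjo_b_*`, `pvjoKr`),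
278 `Tr/FrcLay`, `Tr/FrcLayE` (`pvuf_f_*`, `pvuf_lay`),   258 `Tr/KitGeo` (`pvkgG`),   173 `Tr/PlugEv` (`pvze_mC`).
* `pvhfLam` : the layout of record;   **`pvhf_lam_ok : pvhfLam.Ok pvkgG (pvjoT (1/40))`** (= the only debt of `pvjo_t_side`);   `pvhf_lay_fine` (the layout does not see the fine mesh).
* **`pvhfHr μ₁ i`** `:= pvhfH pvkgG.toPvkdPlug ((pvjoT (1/40)).fine μ₁ pvkgG.O₀) i` : THE FOUR SIDE EVENTS WITH THE MESH `μ₁` ON ALL OF `O₀`;   `pvhfH0` : without fine mesh.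
* **`pvhf_side_r (hμ : 0 < μ₁)`** : `mH ∧ dict ∧ frc` at `pvhfHr μ₁` (the three fields of `PvdkSide` of 10 / `PvdrIn` of 9, VERBATIM);   **`pvhf_side_0`** : the same at `pvhfH0`.
* **`pvhf_hmesh`** : `pvhfHr μ₁ i ⊆ {η | PvtrMesh μ₁ pvkgG.O₀ (cfSites η)}`;   `pvhf_hmesh_jo` : `⊆ pvjoMesh μ₁ pvkgG.O₀`;   `pvhf_Hr_eq` : `pvhfHr μ₁ i = pvhfH0 i ∩ {mesh}` (= the wrapper form `Hf i ∩ R μ₁` of R23 (1') of 234).
-/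

set_option autoImplicit false

namespace Claimed.Agent.R289

open MeasureTheory Set Filter Topology Metric Claims.C0465
open scoped ENNReal

/-- **THE LAYOUT OF RECORD** (walks and zones of 278, tile window of 258, sub-room of 52) -/
noncomputable def pvhfLam : PvjoLay := ⟨1 / 320, fun τ β => pvufL β τ, fun τ β => pvufK β τ, pvkgEt, pvjoKr⟩

/-- the four side events of record, no fine mesh -/
noncomputable def pvhfH0 : Fin 4 → Set (Conf PvPt) := pvhfH pvkgG.toPvkdPlug (pvjoT (1 / 40))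

/-- **THE FOUR SIDE EVENTS OF RECORD WITH THE MESH `μ₁` ON THE DOOR SQUARE `O₀`** -/
noncomputable def pvhfHr (μ₁ : ℝ) : Fin 4 → Set (Conf PvPt) := pvhfH pvkgG.toPvkdPlug ((pvjoT (1 / 40)).fine μ₁ pvkgG.O₀)

theorem pvhf_eqns_cite9 : True := by
  have := @pvhfLam.eq_1; have := @pvhfH0.eq_1; have := @pvhfHr.eq_1
  trivial

/-- **THE GEOMETRY OF [FRC] AT THE MODEL** -/
theorem pvhf_lam_ok : pvhfLam.Ok pvkgG (pvjoT (1 / 40)) where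
  mO := pvjo_b_mO
  EO := pvjo_b_EO
  dj := pvuf_f_dj
  djK := pvuf_f_djK
  w := pvuf_f_w
  off := pvuf_f_off
  zp := pvuf_f_zp
  zm := pvuf_f_zm
  mEt := pvjo_b_mEt
  bEt := pvjo_b_bEt
  dEt := pvjo_b_dEt
  cover := pvjo_b_cover
  sub := pvjo_b_sub
  lay := fun τ => pvuf_lay τ (X0 := 0) (X1 := 357 / 640) (Y := 37 / 640) (by norm_num) (by norm_num) (by norm_num) (by rw [pvkgg_zo, neg_zero]; exact Subset.rfl) (pvjo_b_geo_r τ)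

/-- the layout does not see the fine mesh -/
theorem pvhf_lay_fine {Λ : PvjoLay} {𝔤 : PvkdGeo} {𝔱 : PvhfTr} (H : Λ.Ok 𝔤 𝔱) (μ : ℝ) (W : Set ℂ) : Λ.Ok 𝔤 (𝔱.fine μ W) :=
  ⟨H.mO, H.EO, H.dj, H.djK, H.w, H.off, H.zp, H.zm, H.mEt, H.bEt, H.dEt, H.cover, H.sub, H.lay⟩

theorem pvhf_geo_r0 : PvhfGeo pvkgG.toPvkdPlug (pvjoT (1 / 40)) := pvjo_t_geo (by norm_num)

/-- the door square lies in both windows -/
theorem pvhf_O_sub (σ : Bool) : pvkgG.O₀ ⊆ (pvjoT (1 / 40)).Es σ := by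
  rintro w ⟨a, b, c, d⟩
  refine Or.inl ?_
  rw [pvjo_t_sq_eq]
  exact ⟨by linarith, by linarith, by linarith, by linarith⟩

theorem pvhf_geo_r {μ₁ : ℝ} (hμ : 0 < μ₁) : PvhfGeo pvkgG.toPvkdPlug ((pvjoT (1 / 40)).fine μ₁ pvkgG.O₀) :=
  pvhf_geo_fine pvhf_geo_r0 hμ pvjo_b_mO pvhf_O_sub

/-- **(SIDE) AT THE SIDE EVENTS OF RECORD, NO FINE MESH** -/
theorem pvhf_side_0 : (∀ i, MeasurableSet (pvhfH0 i)) ∧ (∀ err : ℝ≥0∞, err ≠ 0 → ∀ᶠ ε in 𝓝[>] (0 : ℝ), pvkgG.HDict pvhfH0 ε err) ∧ PvkuFrc (pvkgG.glob pvhfH0) :=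
  pvjo_t_side pvhf_geo_r0 pvhf_lam_ok (pvze_mC pvkgg_ze)

/-- **(SIDE) AT THE SIDE EVENTS OF RECORD WITH THE FINE MESH**, every `μ₁ > 0` -/
theorem pvhf_side_r {μ₁ : ℝ} (hμ : 0 < μ₁) :
    (∀ i, MeasurableSet (pvhfHr μ₁ i)) ∧ (∀ err : ℝ≥0∞, err ≠ 0 → ∀ᶠ ε in 𝓝[>] (0 : ℝ), pvkgG.HDict (pvhfHr μ₁) ε err) ∧ PvkuFrc (pvkgG.glob (pvhfHr μ₁)) :=
  pvjo_t_side (pvhf_geo_r hμ) (pvhf_lay_fine pvhf_lam_ok _ _) (pvze_mC pvkgg_ze)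

/-- **(hmesh)** -/
theorem pvhf_hmesh (μ₁ : ℝ) (i : Fin 4) : pvhfHr μ₁ i ⊆ {η | PvtrMesh μ₁ pvkgG.O₀ (cfSites η)} := fun _ h => (pvhf_S_fine h).2

/-- in the words of 52 -/
theorem pvhf_hmesh_jo {μ₁ : ℝ} (hμ : 0 < μ₁) (i : Fin 4) : pvhfHr μ₁ i ⊆ pvjoMesh μ₁ pvkgG.O₀ := by
  intro η h
  refine (pvjo_mesh_iff _ _ η).2 ⟨(pvhf_S_fine h).2, ?_⟩
  have hf : PvtnFin pvkgG.O₀ η := pvhf_S_fin (pvhf_geo_r hμ) h
  exact fun k => hf.subset fun p hp => hp.1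

/-- the wrapper form of R23 (1') -/
theorem pvhf_Hr_eq (μ₁ : ℝ) (i : Fin 4) : pvhfHr μ₁ i = pvhfH0 i ∩ {η | PvtrMesh μ₁ pvkgG.O₀ (cfSites η)} :=
  pvhf_S_fine_eq pvkgG.toPvkdPlug (𝔱 := pvjoT (1 / 40)) zero_le_one rfl _ μ₁ pvkgG.O₀

end Claimed.Agent.R289
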