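import Claimed.Agent.R289.Exit.NumQ
import Claimed.Agent.R289.Tr.KitGeo
import Claimed.Agent.R289.Tr.KitGeoW
import Claimed.Agent.R289.Tr.DilK

/-!
# Row 289 (S0537), THE WALL, file Exit/NumI : (NUM) AT THE INSTANCE OF RECORD `pvkgG`      (helper258; prefix `pvnn_`, `Pvnn`)

`Exit/NumQ.lean` = the roof (generic);   `Tr/KitGeo.lean` = the instance of record `pvkgG : PvkdGeo` (v2: RULING of 34 12:20Z: plug `pvkdP (1/40)`, `O₀ = pvccSq 0 (13/160)`);
[GEO] proved there;   [MEAS] [LOC] = `Tr/PlugEv.lean` (173) / `Tr/PlugW.lean` (107), [CLOSE] = `Tr/PlugClose.lean` (244), [COV] = `Tr/FrameIso.lean` (251): PROVED.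
**WHAT IS LEFT UNDER (NUM)** = `PvnnIn Hf`, THREE NAMED DEBTS on `𝔊 := pvkgG.glob Hf`:
* `mH`   : the side events `Hf i` are measurable                                                        [174]
* `adm`  : `PvkuAdm 𝔊`  (`∃ p0 > 0`, eventually `p0 ≤ P(C ∩ ⋂ Hf i)`);   `pvnn_adm` : from `exit_pvkd_adm` AT `1/16` (34; 19 262 ..) + dilation (227) + `HDict` (174)
* `frc`  : `PvkuFrc 𝔊`                                                                                   [52 174 204 278: route Q; `pvjo_frc` of 52, `Tr/PlugFrcR`]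
**`pvnn_K`** : `PvnnIn Hf → PvkuK pvkgG Hf (13/160)`;   **`pvnn_ok`**, **`pvnn_unit`**;   `pvnn_zn : PvznGeo pvkgG` (107);   `pvnn_adm_P`.      CONSUMERS: `Exit/NumK` (10), `Exit/EngTop` (9), `Exit/EngRec` (124).
THE CONTRACT FOR THE ENGINE (equality of data; form of 227 / 168 / 271): **`PvnnEng 𝔈 c`** := the kit and the fields of `𝔈` ARE the scaled soft kit of `pvkgG.glob Hf`;   `PvnnEng.num` (= `PvnaWf.num`), `PvnnEng.kit`.
-/

set_option autoImplicit false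

namespace Claimed.Agent.R289

open Set MeasureTheory Filter Topology Claims.C0465
open scoped ENNReal

/-- **WHAT IS LEFT UNDER (NUM)** -/
structure PvnnIn (Hf : Fin 4 → Set (Conf PvPt)) : Prop where
  mH : ∀ i, MeasurableSet (Hf i)
  adm : PvkuAdm (pvkgG.glob Hf)
  frc : PvkuFrc (pvkgG.glob Hf)

variable {Hf : Fin 4 → Set (Conf PvPt)}

/-- the admissibility of the plug at any radius from the one at `1/16` -/
theorem pvnn_adm_P (ha : PvkdAdm (pvkdP (1 / 16))) : PvkdAdm (pvkdP (1 / 40)) := by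
  have h := pvdil_adm ha (s := 2 / 5) (by norm_num)
  rw [pvdil_P (by norm_num)] at h
  have e : (2 / 5 : ℝ) * (1 / 16) = 1 / 40 := by norm_num
  rwa [e] at h

/-- [ADM] at the instance of record from the roof of 34 (at `1/16`), the dilation of 227 and the dictionary -/
theorem pvnn_adm (ha : PvkdAdm (pvkdP (1 / 16))) (hd : ∀ err : ℝ≥0∞, err ≠ 0 → ∀ᶠ ε in 𝓝[>] (0 : ℝ), pvkgG.HDict Hf ε err) : PvkuAdm (pvkgG.glob Hf) :=
  pvku_adm_of_dict (𝔤 := pvkgG) (pvnn_adm_P ha) hd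

/-- the record of 107 at the instance of record -/
theorem pvnn_zn : PvznGeo pvkgG :=
  pvzn_geo_of (r := 1 / 40) (by norm_num) rfl pvkgg_ze.mO pvkgg_ze.mK pvkgg_ze.wA pvkgg_ze.bA pvkgg_dp_win
    (fun τ => by
      have e : (3 : ℝ) * (1 / 40 / 16) = 3 / 640 := by norm_num
      rw [e, pvkgg_Ea]; rfl) (fun _ => rfl)

/-- the list at PlugK, at the instance of record -/
theorem pvnn_K (H : PvnnIn Hf) : PvkuK pvkgG Hf (13 / 160) where
  δ1 := rfl
  ref := pvkgg_ref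
  xref := pvkgg_xref
  mO := pvkgg_ze.mO
  mK := pvkgg_ze.mK
  mC := pvze_mC pvkgg_ze
  mH := H.mH
  mA := pvze_mA pvkgg_ze
  mX := pvze_mX pvkgg_ze
  loc := by
    filter_upwards [self_mem_nhdsWithin] with ε hε
    have h0 : ε ≠ 0 := (ne_of_gt hε)
    exact ⟨pvze_lC pvkgg_ze Hf h0, pvze_lA pvkgg_ze Hf h0, pvze_lX pvkgg_ze Hf h0⟩
  adm := H.adm
  frc := H.frc
  cov := pvco_cov pvkgG

/-- what `Tr/Plug.lean` consumes, at the instance of record -/
theorem pvnn_ok (H : PvnnIn Hf) : ∃ (b q β' : ℝ≥0∞) (CB : ℝ), PvkuOk (pvkgG.glob Hf) b q β' CB (13 / 160) := pvku_ok (pvku_in_of (pvnn_K H))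

/-- **THE CONTRACT ON THE CELL KIT OF THE ENGINE** (equality of data): kit, `XQ`, `XV` of level `m`, mesh `ε` are the soft kit (Sure / Thr / Fix / Loc of 34) of the datum of record at the mesh `ε / δ_m`, scaled by `δ_m` -/
def PvnnEng {τ : Type} (𝔈 : PvieEng τ) (c : ℝ) : Prop :=
  ∃ (Hf : Fin 4 → Set (Conf PvPt)) (b q β' : ℝ≥0∞) (CB : ℝ) (H : PvkuOk (pvkgG.glob Hf) b q β' CB (13 / 160)), PvkmEng 𝔈 c H.unit

theorem pvnn_eqns_cite : True := by
  have := @PvnnEng.eq_1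
  trivial

/-- the field (NUM) of `PvnaWf` -/
theorem PvnnEng.num {τ : Type} {𝔈 : PvieEng τ} {c : ℝ} (h : PvnnEng 𝔈 c) : ∃ U : PvkmUnit, PvkmEng 𝔈 c U := by
  obtain ⟨_, _, _, _, _, H, hU⟩ := h
  exact ⟨H.unit, hU⟩

/-- the kit of the engine, unfolded -/
theorem PvnnEng.kit {τ : Type} {𝔈 : PvieEng τ} {c : ℝ} (h : PvnnEng 𝔈 c) : ∃ (Hf : Fin 4 → Set (Conf PvPt)) (b q β' : ℝ≥0∞) (CB : ℝ), PvkuOk (pvkgG.glob Hf) b q β' CB (13 / 160) ∧
    (∀ m ε, 𝔈.kit m ε = ((pvkgG.glob Hf).kit (pvP (ε / pvlmDel c m)) b q).sc (pvlmDel c m)) ∧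
    (∀ m ε, 𝔈.XQ m ε = pvthX ((pvkgG.glob Hf).fQ (pvP (ε / pvlmDel c m))) 0 (pvlmDel c m)) := by
  obtain ⟨Hf, b, q, β', CB, H, hU⟩ := h
  refine ⟨Hf, b, q, β', CB, H, fun m ε => ?_, fun m ε => ?_⟩
  · rw [hU.kit]; rfl
  · rw [hU.XQ]; rfl

/-- **(NUM) AT THE MODEL**: the reference family of record exists as soon as the three debts are paid -/
theorem pvnn_unit (H : PvnnIn Hf) : ∃ (b q β' : ℝ≥0∞) (CB : ℝ) (h : PvkuOk (pvkgG.glob Hf) b q β' CB (13 / 160)), ∀ e, h.unit.kit e = (pvkgG.glob Hf).kit (pvP e) b q := by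
  obtain ⟨b, q, β', CB, h⟩ := pvnn_ok H
  exact ⟨b, q, β', CB, h, fun _ => rfl⟩

end Claimed.Agent.R289
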