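-- KEEP
import Claimed.Agent.R289.Defs.TrModel
import Claimed.Agent.R289.Tr.CellChain

/-!
# Row 289 (S0537), THE WALL, roof (S0) PAR, file Exit/ParCell : TIP CELLS AND MASKS OF THE TYPES      (helper285; post of helper24, ruling T2bis; head of (S0) helper73; prefix `pvzg`, `Pvzg`)

D10, D11 of `origin/helper208:notes/R289/W1_208_v3.md`; ruling 13 (2) of 234 (positions are read only through fixed Borel tests at GRID centres).      NO probability, NO planar map: plane geometry of two square grids.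
* sec. 0  `pvzgCell e q` the HALF-OPEN square cell of mesh `e` (a partition of the plane), `pvzgIdx`, `pvzgCtr`, `pvzgUn e A` (union of the cells of a finite set of indices), `pvzgBox n`, `pvzgD` (sup distance of indices),
          `pvzgFat g A` (fattening), `PvzgSep g A B` (`g = 0`: disjoint; `g = 2`: cell distance `≥ 3`)
* sec. 1  cells: membership through the index, disjointness, measurability, centre
* sec. 2  fattening and separation, index distance against distance in the plane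
* sec. 3  placed sets `pvxPl z h S`
* sec. 4  `PvzgGeo n1 n2 g` = THE GEOMETRIC PART OF A TYPE (two tip cells, two masks, SEP): `Fintype`, `Nonempty`; the sets `cp cm Mp Mm` with the fields of `PvxPar.WfB` which speak of them
* sec. 5  **THE MENU COVERS**: `pvzg_tip`, `pvzg_masks`, `pvzg_geo`
* sec. 6  `pvzg_ctr_eq`: the centre of the bounding box of a cell
* sec. 7  everything a type describes lies in a fixed sup-ball (`PvzgGeo.cp_box .. Mm_pl_sq`);  non degenerate tip cells (`pvzg_ctr_sup`, `pvzg_nd_of_pl`, `pvzg_ctr_far_of_pl`; sup norm = `pvccN` of 166)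
-/

set_option autoImplicit false

namespace Claimed.Agent.R289

open Set

/-! ## 0. definitions -/

/-- the HALF-OPEN square cell of mesh `e` and index `q` -/
def pvzgCell (e : ℝ) (q : ℤ × ℤ) : Set ℂ :=
  {w | (q.1 : ℝ) * e ≤ w.re ∧ w.re < ((q.1 : ℝ) + 1) * e ∧ (q.2 : ℝ) * e ≤ w.im ∧ w.im < ((q.2 : ℝ) + 1) * e}

/-- the index of the cell of a point -/
noncomputable def pvzgIdx (e : ℝ) (w : ℂ) : ℤ × ℤ := (⌊w.re / e⌋, ⌊w.im / e⌋)

/-- the centre of a cell -/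
noncomputable def pvzgCtr (e : ℝ) (q : ℤ × ℤ) : ℂ := ⟨((q.1 : ℝ) + 1 / 2) * e, ((q.2 : ℝ) + 1 / 2) * e⟩

/-- the union of the cells of a finite set of indices -/
def pvzgUn (e : ℝ) (A : Finset (ℤ × ℤ)) : Set ℂ := ⋃ q ∈ A, pvzgCell e q

/-- the indices of sup norm `≤ n` -/
noncomputable def pvzgBox (n : ℕ) : Finset (ℤ × ℤ) := Finset.Icc (-(n : ℤ)) n ×ˢ Finset.Icc (-(n : ℤ)) n

/-- sup distance of two indices -/
def pvzgD (a b : ℤ × ℤ) : ℕ := max (a.1 - b.1).natAbs (a.2 - b.2).natAbs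

/-- the indices within sup distance `g` of `A` -/
noncomputable def pvzgFat (g : ℕ) (A : Finset (ℤ × ℤ)) : Finset (ℤ × ℤ) :=
  A.biUnion fun a => Finset.Icc (a.1 - (g : ℤ)) (a.1 + g) ×ˢ Finset.Icc (a.2 - (g : ℤ)) (a.2 + g)

/-- **SEP**: the two sets of indices are at sup distance `> g` -/
def PvzgSep (g : ℕ) (A B : Finset (ℤ × ℤ)) : Prop := ∀ a ∈ A, ∀ b ∈ B, g < pvzgD a b

theorem pvzg_eqns_cite : True := by
  have := @pvzgCell.eq_1; have := @pvzgIdx.eq_1; have := @pvzgCtr.eq_1; have := @pvzgUn.eq_1; have := @pvzgBox.eq_1; have := @pvzgD.eq_1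
  have := @pvzgFat.eq_1; have := @PvzgSep.eq_1
  trivial

/-! ## 1. cells -/

section cells

variable {e : ℝ} {q q' : ℤ × ℤ} {w w' : ℂ} {A B : Finset (ℤ × ℤ)}

theorem pvzg_mem_cell_iff (he : 0 < e) : w ∈ pvzgCell e q ↔ pvzgIdx e w = q := by
  unfold pvzgCell pvzgIdx
  rw [Prod.ext_iff]
  simp only [mem_ofPred_eq, Int.floor_eq_iff, le_div_iff₀ he, div_lt_iff₀ he]
  tauto

theorem pvzg_mem_cell_idx (he : 0 < e) (w : ℂ) : w ∈ pvzgCell e (pvzgIdx e w) := (pvzg_mem_cell_iff he).2 rfl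

theorem pvzg_cell_disj (he : 0 < e) (h : q ≠ q') : Disjoint (pvzgCell e q) (pvzgCell e q') :=
  Set.disjoint_left.2 fun _ h1 h2 => h (((pvzg_mem_cell_iff he).1 h1).symm.trans ((pvzg_mem_cell_iff he).1 h2))

theorem pvzg_cell_eq (e : ℝ) (q : ℤ × ℤ) :
    pvzgCell e q = Complex.re ⁻¹' Ico ((q.1 : ℝ) * e) (((q.1 : ℝ) + 1) * e) ∩ Complex.im ⁻¹' Ico ((q.2 : ℝ) * e) (((q.2 : ℝ) + 1) * e) := by
  ext w
  simp only [pvzgCell, mem_ofPred_eq, mem_inter_iff, mem_preimage, mem_Ico]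
  tauto

theorem pvzg_cell_meas (e : ℝ) (q : ℤ × ℤ) : MeasurableSet (pvzgCell e q) := by
  rw [pvzg_cell_eq]
  exact (Complex.measurable_re measurableSet_Ico).inter (Complex.measurable_im measurableSet_Ico)

theorem pvzg_un_meas (e : ℝ) (A : Finset (ℤ × ℤ)) : MeasurableSet (pvzgUn e A) :=
  Finset.measurableSet_biUnion A fun q _ => pvzg_cell_meas e q

theorem pvzg_mem_un_iff (he : 0 < e) : w ∈ pvzgUn e A ↔ pvzgIdx e w ∈ A := by
  unfold pvzgUn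
  simp only [mem_iUnion, exists_prop]
  constructor
  · rintro ⟨q, hq, hw⟩
    rwa [(pvzg_mem_cell_iff he).1 hw]
  · exact fun h => ⟨_, h, pvzg_mem_cell_idx he w⟩

theorem pvzg_un_mono (e : ℝ) (h : A ⊆ B) : pvzgUn e A ⊆ pvzgUn e B := biUnion_subset_biUnion_left fun _ hq => h hq

theorem pvzg_cell_sub_un (e : ℝ) (h : q ∈ A) : pvzgCell e q ⊆ pvzgUn e A := subset_biUnion_of_mem (u := fun q => pvzgCell e q) h

theorem pvzg_un_empty (e : ℝ) : pvzgUn e ∅ = ∅ := by simp [pvzgUn]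

theorem pvzg_un_disj (he : 0 < e) (h : Disjoint A B) : Disjoint (pvzgUn e A) (pvzgUn e B) :=
  Set.disjoint_left.2 fun _ h1 h2 => Finset.disjoint_left.1 h ((pvzg_mem_un_iff he).1 h1) ((pvzg_mem_un_iff he).1 h2)

/-- a point of a cell is within `e` of the centre -/
theorem pvzg_ctr_near (h : w ∈ pvzgCell e q) : ‖w - pvzgCtr e q‖ ≤ e := by
  obtain ⟨h1, h2, h3, h4⟩ := h
  have a1 : |(w - pvzgCtr e q).re| ≤ e / 2 := by
    rw [abs_le]
    simp only [pvzgCtr, Complex.sub_re]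
    constructor <;> linarith
  have a2 : |(w - pvzgCtr e q).im| ≤ e / 2 := by
    rw [abs_le]
    simp only [pvzgCtr, Complex.sub_im]
    constructor <;> linarith
  have := Complex.norm_le_abs_re_add_abs_im (w - pvzgCtr e q)
  linarith

theorem pvzg_ctr_mem (he : 0 < e) (q : ℤ × ℤ) : pvzgCtr e q ∈ pvzgCell e q := by
  refine ⟨?_, ?_, ?_, ?_⟩ <;> simp only [pvzgCtr] <;> nlinarith

theorem pvzg_mem_box {n : ℕ} : q ∈ pvzgBox n ↔ q.1.natAbs ≤ n ∧ q.2.natAbs ≤ n := by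
  unfold pvzgBox
  simp only [Finset.mem_product, Finset.mem_Icc]
  omega

/-- the cell of a point of the square of half side `r ≤ n e` has its index in the box -/
theorem pvzg_idx_box (he : 0 < e) {n : ℕ} {r : ℝ} (hr : r ≤ n * e) (h1 : |w.re| ≤ r) (h2 : |w.im| ≤ r) : pvzgIdx e w ∈ pvzgBox n := by
  have key : ∀ t : ℝ, |t| ≤ r → -(n : ℤ) ≤ ⌊t / e⌋ ∧ ⌊t / e⌋ ≤ n := by
    intro t ht
    obtain ⟨t1, t2⟩ := abs_le.1 ht
    constructor
    · rw [Int.le_floor, le_div_iff₀ he]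
      push_cast
      linarith
    · have : t / e ≤ n := by rw [div_le_iff₀ he]; linarith
      have h3 := Int.floor_le_floor this
      rwa [Int.floor_natCast] at h3
  unfold pvzgBox pvzgIdx
  simp only [Finset.mem_product, Finset.mem_Icc]
  exact ⟨key _ h1, key _ h2⟩

end cells

/-! ## 2. fattening and separation -/

section fat

variable {e : ℝ} {q a b c : ℤ × ℤ} {w w' : ℂ} {A B : Finset (ℤ × ℤ)} {g g1 g2 : ℕ}

theorem pvzg_D_comm (a b : ℤ × ℤ) : pvzgD a b = pvzgD b a := by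
  unfold pvzgD
  omega

theorem pvzg_D_self (a : ℤ × ℤ) : pvzgD a a = 0 := by
  unfold pvzgD
  omega

theorem pvzg_D_tri (a b c : ℤ × ℤ) : pvzgD a c ≤ pvzgD a b + pvzgD b c := by
  unfold pvzgD
  omega

theorem pvzg_D_eq_zero : pvzgD a b = 0 ↔ a = b := by
  unfold pvzgD
  rw [Prod.ext_iff]
  omega

theorem pvzg_mem_fat : q ∈ pvzgFat g A ↔ ∃ a ∈ A, pvzgD q a ≤ g := by
  unfold pvzgFat pvzgD
  simp only [Finset.mem_biUnion, Finset.mem_product, Finset.mem_Icc]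
  constructor
  · rintro ⟨a, ha, h⟩
    exact ⟨a, ha, by omega⟩
  · rintro ⟨a, ha, h⟩
    exact ⟨a, ha, by omega⟩

theorem pvzg_sub_fat (g : ℕ) (A : Finset (ℤ × ℤ)) : A ⊆ pvzgFat g A := fun a ha => pvzg_mem_fat.2 ⟨a, ha, by rw [pvzg_D_self]; exact Nat.zero_le _⟩

theorem pvzg_fat_box {n : ℕ} (h : A ⊆ pvzgBox n) : pvzgFat g A ⊆ pvzgBox (n + g) := by
  intro q hq
  obtain ⟨a, ha, hd⟩ := pvzg_mem_fat.1 hq
  have := pvzg_mem_box.1 (h ha)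
  rw [pvzg_mem_box]
  unfold pvzgD at hd
  omega

theorem PvzgSep.symm (h : PvzgSep g A B) : PvzgSep g B A := fun b hb a ha => by
  rw [pvzg_D_comm]
  exact h a ha b hb

theorem PvzgSep.mono (h : PvzgSep g A B) (hg : g1 ≤ g) : PvzgSep g1 A B := fun a ha b hb => lt_of_le_of_lt hg (h a ha b hb)

theorem PvzgSep.subset {A' B' : Finset (ℤ × ℤ)} (h : PvzgSep g A B) (hA : A' ⊆ A) (hB : B' ⊆ B) : PvzgSep g A' B' := fun a ha b hb => h a (hA ha) b (hB hb)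

theorem PvzgSep.disjoint (h : PvzgSep g A B) : Disjoint A B :=
  Finset.disjoint_left.2 fun a ha hb => by
    have := h a ha a hb
    rw [pvzg_D_self] at this
    exact absurd this (Nat.not_lt_zero _)

theorem pvzg_sep_zero : PvzgSep 0 A B ↔ Disjoint A B :=
  ⟨PvzgSep.disjoint, fun h _ ha _ hb => Nat.pos_of_ne_zero fun h0 => Finset.disjoint_left.1 h ha (pvzg_D_eq_zero.1 h0 ▸ hb)⟩

theorem pvzg_sep_empty_left (g : ℕ) (B : Finset (ℤ × ℤ)) : PvzgSep g ∅ B := fun _ ha => absurd ha (Finset.notMem_empty _)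

/-- the fattened sets are still separated -/
theorem PvzgSep.fat (h : PvzgSep (g + g1 + g2) A B) : PvzgSep g (pvzgFat g1 A) (pvzgFat g2 B) := by
  intro x hx y hy
  obtain ⟨a, ha, h1⟩ := pvzg_mem_fat.1 hx
  obtain ⟨b, hb, h2⟩ := pvzg_mem_fat.1 hy
  have h3 := h a ha b hb
  have h4 := pvzg_D_tri a x b
  have h5 := pvzg_D_tri x y b
  rw [pvzg_D_comm a x] at h4
  omega

theorem PvzgSep.fat_disjoint (h : PvzgSep g A B) (hg : g1 + g2 ≤ g) : Disjoint (pvzgFat g1 A) (pvzgFat g2 B) :=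
  (PvzgSep.fat (g := 0) (h.mono (by omega))).disjoint

theorem pvzg_floor_near {s t : ℝ} (h : |s - t| ≤ g) : (⌊s⌋ - ⌊t⌋).natAbs ≤ g := by
  obtain ⟨h1, h2⟩ := abs_le.1 h
  have a1 : ⌊s⌋ ≤ ⌊t⌋ + g := by
    have := Int.floor_le_floor (show s ≤ t + (g : ℝ) by linarith)
    rwa [Int.floor_add_natCast] at this
  have a2 : ⌊t⌋ ≤ ⌊s⌋ + g := by
    have := Int.floor_le_floor (show t ≤ s + (g : ℝ) by linarith)
    rwa [Int.floor_add_natCast] at this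
  omega

/-- close points have close indices -/
theorem pvzg_idx_near (he : 0 < e) (h : ‖w' - w‖ ≤ g * e) : pvzgD (pvzgIdx e w') (pvzgIdx e w) ≤ g := by
  have key : ∀ s t : ℝ, |s - t| ≤ g * e → |s / e - t / e| ≤ g := by
    intro s t hst
    rw [← sub_div, abs_div, abs_of_pos he, div_le_iff₀ he]
    exact hst
  have h1 : |w'.re - w.re| ≤ g * e := by
    rw [← Complex.sub_re]
    exact (Complex.abs_re_le_norm _).trans h
  have h2 : |w'.im - w.im| ≤ g * e := by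
    rw [← Complex.sub_im]
    exact (Complex.abs_im_le_norm _).trans h
  unfold pvzgD pvzgIdx
  exact max_le (pvzg_floor_near (key _ _ h1)) (pvzg_floor_near (key _ _ h2))

/-- a point within `g e` of the union of the cells of `A` lies in the union of the cells of the fattening -/
theorem pvzg_fat_near (he : 0 < e) (hw : w ∈ pvzgUn e A) (h : ‖w' - w‖ ≤ g * e) : w' ∈ pvzgUn e (pvzgFat g A) :=
  (pvzg_mem_un_iff he).2 (pvzg_mem_fat.2 ⟨_, (pvzg_mem_un_iff he).1 hw, pvzg_idx_near he h⟩)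

theorem pvzg_floor_far {s t : ℝ} (h : (⌊s⌋ - ⌊t⌋).natAbs ≤ g) : |s - t| ≤ (g : ℝ) + 1 := by
  have h1 := Int.floor_le s
  have h2 := Int.lt_floor_add_one s
  have h3 := Int.floor_le t
  have h4 := Int.lt_floor_add_one t
  have a1 : (⌊s⌋ : ℝ) - ⌊t⌋ ≤ g := by
    have : ⌊s⌋ - ⌊t⌋ ≤ (g : ℤ) := by omega
    exact_mod_cast this
  have a2 : (⌊t⌋ : ℝ) - ⌊s⌋ ≤ g := by
    have : ⌊t⌋ - ⌊s⌋ ≤ (g : ℤ) := by omega
    exact_mod_cast this
  rw [abs_le]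
  constructor <;> linarith

/-- points with close indices are close -/
theorem pvzg_near_of_idx (he : 0 < e) (h : pvzgD (pvzgIdx e w') (pvzgIdx e w) ≤ g) : ‖w' - w‖ ≤ 2 * ((g : ℝ) + 1) * e := by
  unfold pvzgD pvzgIdx at h
  have key : ∀ s t : ℝ, (⌊s / e⌋ - ⌊t / e⌋).natAbs ≤ g → |s - t| ≤ ((g : ℝ) + 1) * e := by
    intro s t hst
    have := pvzg_floor_far hst
    rwa [← sub_div, abs_div, abs_of_pos he, div_le_iff₀ he] at this
  have h1 := key _ _ ((le_max_left _ _).trans h)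
  have h2 := key _ _ ((le_max_right _ _).trans h)
  have h3 := Complex.norm_le_abs_re_add_abs_im (w' - w)
  rw [Complex.sub_re, Complex.sub_im] at h3
  linarith

/-- far points have far indices -/
theorem pvzg_idx_far (he : 0 < e) (h : 2 * ((g : ℝ) + 1) * e < ‖w' - w‖) : g < pvzgD (pvzgIdx e w') (pvzgIdx e w) := by
  by_contra hcon
  exact absurd (pvzg_near_of_idx he (not_lt.1 hcon)) (not_le.2 h)

end fat

/-! ## 3. placed sets -/

section placed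

variable {z p : ℂ} {h : ℝ} {S S' : Set ℂ}

theorem pvzg_mem_pl (hh : 0 < h) : p ∈ pvxPl z h S ↔ (p - z) / (h : ℂ) ∈ S := by
  have hc : (h : ℂ) ≠ 0 := by exact_mod_cast hh.ne'
  unfold pvxPl
  constructor
  · rintro ⟨w, hw, rfl⟩
    have : (z + (h : ℂ) * w - z) / (h : ℂ) = w := by field_simp; ring
    rwa [this]
  · intro hp
    exact ⟨_, hp, by field_simp; ring⟩

theorem pvzg_pl_eq (hh : 0 < h) (z : ℂ) (S : Set ℂ) : pvxPl z h S = (fun p : ℂ => (p - z) / (h : ℂ)) ⁻¹' S := by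
  ext p
  exact pvzg_mem_pl hh

theorem pvzg_pl_meas (hh : 0 < h) (z : ℂ) (hS : MeasurableSet S) : MeasurableSet (pvxPl z h S) := by
  rw [pvzg_pl_eq hh]
  exact (by fun_prop : Measurable fun p : ℂ => (p - z) / (h : ℂ)) hS

theorem pvzg_pl_mono (z : ℂ) (h : ℝ) (hS : S ⊆ S') : pvxPl z h S ⊆ pvxPl z h S' := image_mono hS

theorem pvzg_pl_disj (hh : 0 < h) (z : ℂ) (hS : Disjoint S S') : Disjoint (pvxPl z h S) (pvxPl z h S') :=
  Set.disjoint_left.2 fun _ h1 h2 => Set.disjoint_left.1 hS ((pvzg_mem_pl hh).1 h1) ((pvzg_mem_pl hh).1 h2)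

/-- distances are multiplied by `h` -/
theorem pvzg_pl_norm (hh : 0 < h) (z p p' : ℂ) : ‖(p - z) / (h : ℂ) - (p' - z) / (h : ℂ)‖ = ‖p - p'‖ / h := by
  rw [← sub_div, norm_div, Complex.norm_real, Real.norm_of_nonneg hh.le]
  congr 2
  ring

theorem pvzg_pl_norm' (hh : 0 < h) (z p w : ℂ) : ‖p - (z + (h : ℂ) * w)‖ = h * ‖(p - z) / (h : ℂ) - w‖ := by
  have hc : (h : ℂ) ≠ 0 := by exact_mod_cast hh.ne'
  have : p - (z + (h : ℂ) * w) = (h : ℂ) * ((p - z) / (h : ℂ) - w) := by field_simp; ring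
  rw [this, norm_mul, Complex.norm_real, Real.norm_of_nonneg hh.le]

/-- a point of the square of half side `r h` round `z`, in units of `h` -/
theorem pvzg_sq_unit (hh : 0 < h) {r : ℝ} (hp : p ∈ pvwSq z (r * h)) : |((p - z) / (h : ℂ)).re| ≤ r ∧ |((p - z) / (h : ℂ)).im| ≤ r := by
  obtain ⟨h1, h2⟩ := hp
  rw [Complex.div_ofReal_re, Complex.div_ofReal_im, abs_div, abs_div, abs_of_pos hh, div_le_iff₀ hh, div_le_iff₀ hh]
  exact ⟨h1, h2⟩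

end placed

/-! ## 4. the geometric part of a type -/

/-- **THE GEOMETRIC PART OF A TYPE** (D10, D11): the indices of the two tip cells (grid of `2 n1 + 1` cells a side), the indices of the cells of the two masks (grid of `2 n2 + 1` cells a side), SEP -/
structure PvzgGeo (n1 n2 g : ℕ) where
  yp : ℤ × ℤ
  ym : ℤ × ℤ
  Ap : Finset (ℤ × ℤ)
  Am : Finset (ℤ × ℤ)
  yp_mem : yp ∈ pvzgBox n1
  ym_mem : ym ∈ pvzgBox n1
  Ap_sub : Ap ⊆ pvzgBox n2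
  Am_sub : Am ⊆ pvzgBox n2
  sep : PvzgSep g Ap Am

section geo

variable {n1 n2 g : ℕ}

theorem PvzgGeo.ext' {G G' : PvzgGeo n1 n2 g} (h1 : G.yp = G'.yp) (h2 : G.ym = G'.ym) (h3 : G.Ap = G'.Ap) (h4 : G.Am = G'.Am) : G = G' := by
  cases G
  cases G'
  simp only at h1 h2 h3 h4
  subst h1 h2 h3 h4
  rfl

noncomputable instance pvzgGeoFintype (n1 n2 g : ℕ) : Fintype (PvzgGeo n1 n2 g) :=
  Fintype.ofInjective
    (fun G : PvzgGeo n1 n2 g => ((⟨G.yp, G.yp_mem⟩ : ↥(pvzgBox n1)), (⟨G.ym, G.ym_mem⟩ : ↥(pvzgBox n1)),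
      (⟨G.Ap, Finset.mem_powerset.2 G.Ap_sub⟩ : ↥(pvzgBox n2).powerset), (⟨G.Am, Finset.mem_powerset.2 G.Am_sub⟩ : ↥(pvzgBox n2).powerset)))
    (fun G G' h => by
      simp only [Prod.mk.injEq, Subtype.mk.injEq] at h
      exact PvzgGeo.ext' h.1 h.2.1 h.2.2.1 h.2.2.2)

instance pvzgGeoNonempty (n1 n2 g : ℕ) : Nonempty (PvzgGeo n1 n2 g) :=
  ⟨⟨(0, 0), (0, 0), ∅, ∅, pvzg_mem_box.2 (by simp), pvzg_mem_box.2 (by simp), Finset.empty_subset _, Finset.empty_subset _, pvzg_sep_empty_left g ∅⟩⟩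

/-- cell of the tip `x⁺` (units of `h`, relative to the centre of the pin) -/
def PvzgGeo.cp (G : PvzgGeo n1 n2 g) (e1 : ℝ) : Set ℂ := pvzgCell e1 G.yp
/-- cell of the tip `x⁻` -/
def PvzgGeo.cm (G : PvzgGeo n1 n2 g) (e1 : ℝ) : Set ℂ := pvzgCell e1 G.ym
/-- GRID centre `y⁺` of the tip cell -/
noncomputable def PvzgGeo.cyp (G : PvzgGeo n1 n2 g) (e1 : ℝ) : ℂ := pvzgCtr e1 G.yp
/-- GRID centre `y⁻` of the tip cell -/
noncomputable def PvzgGeo.cym (G : PvzgGeo n1 n2 g) (e1 : ℝ) : ℂ := pvzgCtr e1 G.ym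
/-- the mask `M⁺` -/
def PvzgGeo.Mp (G : PvzgGeo n1 n2 g) (e2 : ℝ) : Set ℂ := pvzgUn e2 G.Ap
/-- the mask `M⁻` -/
def PvzgGeo.Mm (G : PvzgGeo n1 n2 g) (e2 : ℝ) : Set ℂ := pvzgUn e2 G.Am

theorem pvzg_eqns_cite2 : True := by
  have := @PvzgGeo.cp.eq_1; have := @PvzgGeo.cm.eq_1; have := @PvzgGeo.cyp.eq_1; have := @PvzgGeo.cym.eq_1; have := @PvzgGeo.Mp.eq_1; have := @PvzgGeo.Mm.eq_1
  trivial

variable (G : PvzgGeo n1 n2 g) {e1 e2 : ℝ}

theorem PvzgGeo.cp_meas (e1 : ℝ) : MeasurableSet (G.cp e1) := pvzg_cell_meas _ _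
theorem PvzgGeo.cm_meas (e1 : ℝ) : MeasurableSet (G.cm e1) := pvzg_cell_meas _ _
theorem PvzgGeo.Mp_meas (e2 : ℝ) : MeasurableSet (G.Mp e2) := pvzg_un_meas _ _
theorem PvzgGeo.Mm_meas (e2 : ℝ) : MeasurableSet (G.Mm e2) := pvzg_un_meas _ _

/-- field `sep` of `PvxPar.WfB` -/
theorem PvzgGeo.M_disj (he : 0 < e2) : Disjoint (G.Mp e2) (G.Mm e2) := pvzg_un_disj he G.sep.disjoint

/-- SEP with room: the `g1 e2`-neighbourhood of `M⁺` and the `g2 e2`-neighbourhood of `M⁻` are disjoint as soon as `g1 + g2 ≤ g` -/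
theorem PvzgGeo.M_room (he : 0 < e2) {g1 g2 : ℕ} (hg : g1 + g2 ≤ g) {a b w : ℂ} (ha : a ∈ G.Mp e2) (hb : b ∈ G.Mm e2) (h1 : ‖w - a‖ ≤ g1 * e2) (h2 : ‖w - b‖ ≤ g2 * e2) : False :=
  Set.disjoint_left.1 (pvzg_un_disj he (G.sep.fat_disjoint hg)) (pvzg_fat_near he ha h1) (pvzg_fat_near he hb h2)

/-- the two masks are at distance `> g e2` -/
theorem PvzgGeo.M_far (he : 0 < e2) {a b : ℂ} (ha : a ∈ G.Mp e2) (hb : b ∈ G.Mm e2) : (g : ℝ) * e2 < ‖a - b‖ := by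
  by_contra hcon
  have h1 := pvzg_idx_near he (not_lt.1 hcon)
  exact absurd (G.sep _ ((pvzg_mem_un_iff he).1 ha) _ ((pvzg_mem_un_iff he).1 hb)) (not_lt.2 h1)

theorem PvzgGeo.cp_near {w : ℂ} (hw : w ∈ G.cp e1) : ‖w - G.cyp e1‖ ≤ e1 := pvzg_ctr_near hw
theorem PvzgGeo.cm_near {w : ℂ} (hw : w ∈ G.cm e1) : ‖w - G.cym e1‖ ≤ e1 := pvzg_ctr_near hw

/-- placed form: a point of the placed tip cell is within `e1 h` of the placed grid centre -/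
theorem PvzgGeo.cp_near_pl {z p : ℂ} {h : ℝ} (hh : 0 < h) (hp : p ∈ pvxPl z h (G.cp e1)) : ‖p - (z + (h : ℂ) * G.cyp e1)‖ ≤ e1 * h := by
  rw [pvzg_pl_norm' hh, mul_comm]
  exact mul_le_mul_of_nonneg_right (G.cp_near ((pvzg_mem_pl hh).1 hp)) hh.le

theorem PvzgGeo.cm_near_pl {z p : ℂ} {h : ℝ} (hh : 0 < h) (hp : p ∈ pvxPl z h (G.cm e1)) : ‖p - (z + (h : ℂ) * G.cym e1)‖ ≤ e1 * h := by
  rw [pvzg_pl_norm' hh, mul_comm]
  exact mul_le_mul_of_nonneg_right (G.cm_near ((pvzg_mem_pl hh).1 hp)) hh.le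

/-- placed form of SEP -/
theorem PvzgGeo.M_far_pl (he : 0 < e2) {z a b : ℂ} {h : ℝ} (hh : 0 < h) (ha : a ∈ pvxPl z h (G.Mp e2)) (hb : b ∈ pvxPl z h (G.Mm e2)) : (g : ℝ) * e2 * h < ‖a - b‖ := by
  have h1 := G.M_far he ((pvzg_mem_pl hh).1 ha) ((pvzg_mem_pl hh).1 hb)
  rwa [pvzg_pl_norm hh, lt_div_iff₀ hh] at h1

/-- the masks and the tip cells stay in a fixed square -/
theorem pvzg_un_box {e : ℝ} (he : 0 < e) {n : ℕ} {A : Finset (ℤ × ℤ)} (hA : A ⊆ pvzgBox n) {w : ℂ} (hw : w ∈ pvzgUn e A) : |w.re| ≤ ((n : ℝ) + 1) * e ∧ |w.im| ≤ ((n : ℝ) + 1) * e := by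
  have h1 := pvzg_mem_box.1 (hA ((pvzg_mem_un_iff he).1 hw))
  obtain ⟨a1, a2, a3, a4⟩ := pvzg_mem_cell_idx he w
  set q := pvzgIdx e w
  have b1 : -(n : ℝ) ≤ q.1 ∧ (q.1 : ℝ) ≤ n := by
    have c1 : -(n : ℤ) ≤ q.1 := by omega
    have c2 : q.1 ≤ (n : ℤ) := by omega
    exact ⟨by exact_mod_cast c1, by exact_mod_cast c2⟩
  have b2 : -(n : ℝ) ≤ q.2 ∧ (q.2 : ℝ) ≤ n := by
    have c1 : -(n : ℤ) ≤ q.2 := by omega
    have c2 : q.2 ≤ (n : ℤ) := by omega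
    exact ⟨by exact_mod_cast c1, by exact_mod_cast c2⟩
  constructor <;> rw [abs_le] <;> constructor <;> nlinarith

end geo

/-! ## 5. THE MENU COVERS -/

section cover

variable {z : ℂ} {h r e1 e2 : ℝ} {n1 n2 g : ℕ}

/-- **the tip cell**: every point of the box lies in a placed cell of the menu -/
theorem pvzg_tip (hh : 0 < h) (he : 0 < e1) (hr : r ≤ n1 * e1) {p : ℂ} (hp : p ∈ pvwSq z (r * h)) :
    ∃ y ∈ pvzgBox n1, p ∈ pvxPl z h (pvzgCell e1 y) ∧ ‖p - (z + (h : ℂ) * pvzgCtr e1 y)‖ ≤ e1 * h := by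
  obtain ⟨h1, h2⟩ := pvzg_sq_unit hh hp
  have h3 := pvzg_mem_cell_idx he ((p - z) / (h : ℂ))
  refine ⟨_, pvzg_idx_box he hr h1 h2, (pvzg_mem_pl hh).2 h3, ?_⟩
  rw [pvzg_pl_norm' hh, mul_comm]
  exact mul_le_mul_of_nonneg_right (pvzg_ctr_near h3) hh.le

open Classical in
/-- **one mask**: the cells of the grid met by a subset of the box -/
theorem pvzg_mask (hh : 0 < h) (he : 0 < e2) (hr : r ≤ n2 * e2) {X : Set ℂ} (hX : X ⊆ pvwSq z (r * h)) :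
    ∃ A : Finset (ℤ × ℤ), A ⊆ pvzgBox n2 ∧ X ⊆ pvxPl z h (pvzgUn e2 A) ∧ ∀ q ∈ A, ∃ p ∈ X, pvzgIdx e2 ((p - z) / (h : ℂ)) = q := by
  refine ⟨(pvzgBox n2).filter fun q => ∃ p ∈ X, pvzgIdx e2 ((p - z) / (h : ℂ)) = q, Finset.filter_subset _ _, fun p hp => ?_, fun q hq => (Finset.mem_filter.1 hq).2⟩
  obtain ⟨h1, h2⟩ := pvzg_sq_unit hh (hX hp)
  exact (pvzg_mem_pl hh).2 ((pvzg_mem_un_iff he).2 (Finset.mem_filter.2 ⟨pvzg_idx_box he hr h1 h2, p, hp, rfl⟩))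

/-- **the two masks**: two subsets of the box at distance `> 2 (g + 1) e2 h` have separated masks -/
theorem pvzg_masks (hh : 0 < h) (he : 0 < e2) (hr : r ≤ n2 * e2) {Xp Xm : Set ℂ} (hXp : Xp ⊆ pvwSq z (r * h)) (hXm : Xm ⊆ pvwSq z (r * h))
    (hfar : ∀ a ∈ Xp, ∀ b ∈ Xm, 2 * ((g : ℝ) + 1) * e2 * h < ‖a - b‖) :
    ∃ Ap Am : Finset (ℤ × ℤ), Ap ⊆ pvzgBox n2 ∧ Am ⊆ pvzgBox n2 ∧ PvzgSep g Ap Am ∧ Xp ⊆ pvxPl z h (pvzgUn e2 Ap) ∧ Xm ⊆ pvxPl z h (pvzgUn e2 Am) ∧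
      (∀ q ∈ Ap, ∃ p ∈ Xp, pvzgIdx e2 ((p - z) / (h : ℂ)) = q) ∧ ∀ q ∈ Am, ∃ p ∈ Xm, pvzgIdx e2 ((p - z) / (h : ℂ)) = q := by
  obtain ⟨Ap, a1, a2, a3⟩ := pvzg_mask hh he hr hXp
  obtain ⟨Am, b1, b2, b3⟩ := pvzg_mask hh he hr hXm
  refine ⟨Ap, Am, a1, b1, fun q hq q' hq' => ?_, a2, b2, a3, b3⟩
  obtain ⟨a, ha, rfl⟩ := a3 q hq
  obtain ⟨b, hb, rfl⟩ := b3 q' hq'
  refine pvzg_idx_far he ?_
  rw [pvzg_pl_norm hh, lt_div_iff₀ hh]
  exact hfar a ha b hb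

/-- **THE MENU COVERS**: two tips and two arcs in the box, the arcs at distance `> 2 (g + 1) e2 h`: some geometric type fits -/
theorem pvzg_geo (hh : 0 < h) (he1 : 0 < e1) (he2 : 0 < e2) (hr1 : r ≤ n1 * e1) (hr2 : r ≤ n2 * e2) {xp xm : ℂ} (hxp : xp ∈ pvwSq z (r * h)) (hxm : xm ∈ pvwSq z (r * h))
    {Xp Xm : Set ℂ} (hXp : Xp ⊆ pvwSq z (r * h)) (hXm : Xm ⊆ pvwSq z (r * h)) (hfar : ∀ a ∈ Xp, ∀ b ∈ Xm, 2 * ((g : ℝ) + 1) * e2 * h < ‖a - b‖) :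
    ∃ G : PvzgGeo n1 n2 g, xp ∈ pvxPl z h (G.cp e1) ∧ xm ∈ pvxPl z h (G.cm e1) ∧ Xp ⊆ pvxPl z h (G.Mp e2) ∧ Xm ⊆ pvxPl z h (G.Mm e2) ∧
      (∀ q ∈ G.Ap, ∃ p ∈ Xp, pvzgIdx e2 ((p - z) / (h : ℂ)) = q) ∧ ∀ q ∈ G.Am, ∃ p ∈ Xm, pvzgIdx e2 ((p - z) / (h : ℂ)) = q := by
  obtain ⟨yp, c1, c2, -⟩ := pvzg_tip hh he1 hr1 hxp
  obtain ⟨ym, d1, d2, -⟩ := pvzg_tip hh he1 hr1 hxm
  obtain ⟨Ap, Am, a1, a2, a3, a4, a5, a6, a7⟩ := pvzg_masks hh he2 hr2 hXp hXm hfar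
  exact ⟨⟨yp, ym, Ap, Am, c1, d1, a1, a2, a3⟩, c2, d2, a4, a5, a6, a7⟩

/-- the geometric type of a state is UNIQUE once the masks are asked to be minimal: tip cells -/
theorem pvzg_tip_unique (hh : 0 < h) (he : 0 < e1) {p : ℂ} {y y' : ℤ × ℤ} (h1 : p ∈ pvxPl z h (pvzgCell e1 y)) (h2 : p ∈ pvxPl z h (pvzgCell e1 y')) : y = y' :=
  ((pvzg_mem_cell_iff he).1 ((pvzg_mem_pl hh).1 h1)).symm.trans ((pvzg_mem_cell_iff he).1 ((pvzg_mem_pl hh).1 h2))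

/-- the minimal mask of a set is unique -/
theorem pvzg_mask_unique (hh : 0 < h) (he : 0 < e2) {X : Set ℂ} {A A' : Finset (ℤ × ℤ)} (h1 : X ⊆ pvxPl z h (pvzgUn e2 A)) (h1' : X ⊆ pvxPl z h (pvzgUn e2 A'))
    (h2 : ∀ q ∈ A, ∃ p ∈ X, pvzgIdx e2 ((p - z) / (h : ℂ)) = q) (h2' : ∀ q ∈ A', ∃ p ∈ X, pvzgIdx e2 ((p - z) / (h : ℂ)) = q) : A = A' := by
  refine Finset.Subset.antisymm (fun q hq => ?_) fun q hq => ?_
  · obtain ⟨p, hp, rfl⟩ := h2 q hq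
    exact (pvzg_mem_un_iff he).1 ((pvzg_mem_pl hh).1 (h1' hp))
  · obtain ⟨p, hp, rfl⟩ := h2' q hq
    exact (pvzg_mem_un_iff he).1 ((pvzg_mem_pl hh).1 (h1 hp))

end cover

/-! ## 6. the centre of a cell is the centre of its bounding box      (for `pvxrCtr` of helper1, `Exit/TrPar`) -/

section bbox

variable {e : ℝ}

theorem pvzg_re_image (he : 0 < e) (q : ℤ × ℤ) : Complex.re '' pvzgCell e q = Ico ((q.1 : ℝ) * e) (((q.1 : ℝ) + 1) * e) := by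
  ext t
  constructor
  · rintro ⟨w, hw, rfl⟩
    exact ⟨hw.1, hw.2.1⟩
  · intro ht
    exact ⟨⟨t, (q.2 : ℝ) * e⟩, ⟨ht.1, ht.2, le_rfl, by nlinarith⟩, rfl⟩

theorem pvzg_im_image (he : 0 < e) (q : ℤ × ℤ) : Complex.im '' pvzgCell e q = Ico ((q.2 : ℝ) * e) (((q.2 : ℝ) + 1) * e) := by
  ext t
  constructor
  · rintro ⟨w, hw, rfl⟩
    exact ⟨hw.2.2.1, hw.2.2.2⟩
  · intro ht
    exact ⟨⟨(q.1 : ℝ) * e, t⟩, ⟨le_rfl, by nlinarith, ht.1, ht.2⟩, rfl⟩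

/-- the centre of the bounding box of a cell (the right-hand side of `pvxrCtr.eq_1` at `S := pvzgCell e q`) is `pvzgCtr e q` -/
theorem pvzg_ctr_eq (he : 0 < e) (q : ℤ × ℤ) :
    (⟨(sInf (Complex.re '' pvzgCell e q) + sSup (Complex.re '' pvzgCell e q)) / 2, (sInf (Complex.im '' pvzgCell e q) + sSup (Complex.im '' pvzgCell e q)) / 2⟩ : ℂ) = pvzgCtr e q := by
  have h1 : (q.1 : ℝ) * e < ((q.1 : ℝ) + 1) * e := by nlinarith
  have h2 : (q.2 : ℝ) * e < ((q.2 : ℝ) + 1) * e := by nlinarith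
  rw [pvzg_re_image he, pvzg_im_image he, csInf_Ico h1, csSup_Ico h1, csInf_Ico h2, csSup_Ico h2]
  unfold pvzgCtr
  refine Complex.ext ?_ ?_ <;> simp only <;> ring

end bbox

/-! ## 7. everything a type describes lies in a fixed sup-ball; non degenerate tip cells      (request of 73, 10:40Z) -/

section supball

variable {e e1 e2 h r d : ℝ} {n n1 n2 g : ℕ} {q : ℤ × ℤ} {w z p : ℂ}

theorem pvzg_cell_box (he : 0 < e) (hq : q ∈ pvzgBox n) (hw : w ∈ pvzgCell e q) : |w.re| ≤ ((n : ℝ) + 1) * e ∧ |w.im| ≤ ((n : ℝ) + 1) * e :=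
  pvzg_un_box he (A := {q}) (Finset.singleton_subset_iff.2 hq) (pvzg_cell_sub_un e (Finset.mem_singleton_self q) hw)

theorem pvzg_ctr_box (he : 0 < e) (hq : q ∈ pvzgBox n) : |(pvzgCtr e q).re| ≤ ((n : ℝ) + 1) * e ∧ |(pvzgCtr e q).im| ≤ ((n : ℝ) + 1) * e :=
  pvzg_cell_box he hq (pvzg_ctr_mem he q)

theorem PvzgGeo.cp_box (G : PvzgGeo n1 n2 g) (he : 0 < e1) (hw : w ∈ G.cp e1) : |w.re| ≤ ((n1 : ℝ) + 1) * e1 ∧ |w.im| ≤ ((n1 : ℝ) + 1) * e1 := pvzg_cell_box he G.yp_mem hw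
theorem PvzgGeo.cm_box (G : PvzgGeo n1 n2 g) (he : 0 < e1) (hw : w ∈ G.cm e1) : |w.re| ≤ ((n1 : ℝ) + 1) * e1 ∧ |w.im| ≤ ((n1 : ℝ) + 1) * e1 := pvzg_cell_box he G.ym_mem hw
theorem PvzgGeo.cyp_box (G : PvzgGeo n1 n2 g) (he : 0 < e1) : |(G.cyp e1).re| ≤ ((n1 : ℝ) + 1) * e1 ∧ |(G.cyp e1).im| ≤ ((n1 : ℝ) + 1) * e1 := pvzg_ctr_box he G.yp_mem
theorem PvzgGeo.cym_box (G : PvzgGeo n1 n2 g) (he : 0 < e1) : |(G.cym e1).re| ≤ ((n1 : ℝ) + 1) * e1 ∧ |(G.cym e1).im| ≤ ((n1 : ℝ) + 1) * e1 := pvzg_ctr_box he G.ym_mem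
theorem PvzgGeo.Mp_box (G : PvzgGeo n1 n2 g) (he : 0 < e2) (hw : w ∈ G.Mp e2) : |w.re| ≤ ((n2 : ℝ) + 1) * e2 ∧ |w.im| ≤ ((n2 : ℝ) + 1) * e2 := pvzg_un_box he G.Ap_sub hw
theorem PvzgGeo.Mm_box (G : PvzgGeo n1 n2 g) (he : 0 < e2) (hw : w ∈ G.Mm e2) : |w.re| ≤ ((n2 : ℝ) + 1) * e2 ∧ |w.im| ≤ ((n2 : ℝ) + 1) * e2 := pvzg_un_box he G.Am_sub hw

/-- a set of the sup-ball of radius `r`, placed, lies in the square of half side `r h` -/
theorem pvzg_pl_sq (hh : 0 ≤ h) {S : Set ℂ} (hS : ∀ w ∈ S, |w.re| ≤ r ∧ |w.im| ≤ r) (z : ℂ) : pvxPl z h S ⊆ pvwSq z (r * h) := by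
  rintro _ ⟨w, hw, rfl⟩
  obtain ⟨h1, h2⟩ := hS w hw
  have e1 : (z + (h : ℂ) * w - z).re = h * w.re := by simp
  have e2 : (z + (h : ℂ) * w - z).im = h * w.im := by simp
  refine ⟨?_, ?_⟩
  · rw [e1, abs_mul, abs_of_nonneg hh, mul_comm]; exact mul_le_mul_of_nonneg_right h1 hh
  · rw [e2, abs_mul, abs_of_nonneg hh, mul_comm]; exact mul_le_mul_of_nonneg_right h2 hh

theorem PvzgGeo.cp_pl_sq (G : PvzgGeo n1 n2 g) (he : 0 < e1) (hh : 0 ≤ h) (z : ℂ) : pvxPl z h (G.cp e1) ⊆ pvwSq z (((n1 : ℝ) + 1) * e1 * h) := pvzg_pl_sq hh (fun _ hw => G.cp_box he hw) z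
theorem PvzgGeo.cm_pl_sq (G : PvzgGeo n1 n2 g) (he : 0 < e1) (hh : 0 ≤ h) (z : ℂ) : pvxPl z h (G.cm e1) ⊆ pvwSq z (((n1 : ℝ) + 1) * e1 * h) := pvzg_pl_sq hh (fun _ hw => G.cm_box he hw) z
theorem PvzgGeo.Mp_pl_sq (G : PvzgGeo n1 n2 g) (he : 0 < e2) (hh : 0 ≤ h) (z : ℂ) : pvxPl z h (G.Mp e2) ⊆ pvwSq z (((n2 : ℝ) + 1) * e2 * h) := pvzg_pl_sq hh (fun _ hw => G.Mp_box he hw) z
theorem PvzgGeo.Mm_pl_sq (G : PvzgGeo n1 n2 g) (he : 0 < e2) (hh : 0 ≤ h) (z : ℂ) : pvxPl z h (G.Mm e2) ⊆ pvwSq z (((n2 : ℝ) + 1) * e2 * h) := pvzg_pl_sq hh (fun _ hw => G.Mm_box he hw) z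

/-- the sup norm is `1`-Lipschitz for the coordinates -/
theorem pvzg_sup_lip {a b : ℂ} (h1 : |a.re - b.re| ≤ d) (h2 : |a.im - b.im| ≤ d) : |pvccN a - pvccN b| ≤ d := by
  unfold pvccN
  have k1 : |(|a.re| - |b.re|)| ≤ d := (abs_abs_sub_abs_le_abs_sub _ _).trans h1
  have k2 : |(|a.im| - |b.im|)| ≤ d := (abs_abs_sub_abs_le_abs_sub _ _).trans h2
  exact (abs_max_sub_max_le_max _ _ _ _).trans (max_le k1 k2)

/-- in a cell the sup norm differs from the sup norm of the centre by at most half the mesh -/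
theorem pvzg_ctr_sup (hw : w ∈ pvzgCell e q) : |pvccN w - pvccN (pvzgCtr e q)| ≤ e / 2 := by
  obtain ⟨a1, a2, a3, a4⟩ := hw
  refine pvzg_sup_lip ?_ ?_ <;> unfold pvzgCtr <;> simp only <;> rw [abs_le] <;> constructor <;> nlinarith

/-- **NON DEGENERATE TIP CELL**: a point of the placed cell whose sup distance to `z` is within `d h` of `r h` (a tip: on the boundary of the box of its level up to the mesh) forces the centre of the cell to sit within `d + e / 2` of the sup sphere of radius `r` -/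
theorem pvzg_nd_of_pl (hh : 0 < h) (hp : p ∈ pvxPl z h (pvzgCell e q)) (hd : |pvccN (p - z) - r * h| ≤ d * h) :
    |pvccN (pvzgCtr e q) - r| ≤ d + e / 2 := by
  obtain ⟨w, hw, rfl⟩ := hp
  have e0 : pvccN (z + (h : ℂ) * w - z) = h * pvccN w := by
    unfold pvccN
    have e1 : (z + (h : ℂ) * w - z).re = h * w.re := by simp
    have e2 : (z + (h : ℂ) * w - z).im = h * w.im := by simp
    rw [e1, e2, abs_mul, abs_mul, abs_of_pos hh, ← mul_max_of_nonneg _ _ hh.le]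
  rw [e0, mul_comm r h, ← mul_sub, abs_mul, abs_of_pos hh, mul_comm d h] at hd
  have h1 : |pvccN w - r| ≤ d := le_of_mul_le_mul_left hd hh
  have h2 := pvzg_ctr_sup hw
  rw [abs_le] at h1 h2 ⊢
  constructor <;> linarith [h1.1, h1.2, h2.1, h2.2]

/-- two points in two placed cells: the centres are as far apart as the points, up to the two radii -/
theorem pvzg_ctr_far_of_pl (hh : 0 < h) {q' : ℤ × ℤ} {p' : ℂ} (hp : p ∈ pvxPl z h (pvzgCell e q)) (hp' : p' ∈ pvxPl z h (pvzgCell e q')) : ‖p - p'‖ / h - 2 * e ≤ ‖pvzgCtr e q - pvzgCtr e q'‖ := by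
  have a1 := pvzg_ctr_near ((pvzg_mem_pl hh).1 hp)
  have a2 := pvzg_ctr_near ((pvzg_mem_pl hh).1 hp')
  rw [← pvzg_pl_norm hh z p p']
  have a3 : (p - z) / (h : ℂ) - (p' - z) / (h : ℂ) = ((p - z) / (h : ℂ) - pvzgCtr e q) + (pvzgCtr e q - pvzgCtr e q') - ((p' - z) / (h : ℂ) - pvzgCtr e q') := by ring
  rw [a3]
  have a4 := norm_sub_le (((p - z) / (h : ℂ) - pvzgCtr e q) + (pvzgCtr e q - pvzgCtr e q')) ((p' - z) / (h : ℂ) - pvzgCtr e q')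
  have a5 := norm_add_le ((p - z) / (h : ℂ) - pvzgCtr e q) (pvzgCtr e q - pvzgCtr e q')
  linarith

end supball

end Claimed.Agent.R289
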