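import Claimed.Agent.R289.Defs.TrModel
import Claimed.Agent.R289.Tr.CellChain
import Claimed.Agent.R289.Defs.FitReg

/-!
# Row 289 (S0537), THE WALL, ROAD E, roof (S0) PAR : THE DOORS AND THE REFERENCE WORDS, EXPLICIT      (pen helper1, RULING T2 of 24; prefix `pvxr`, `Pvxr`)

CONSUMER: `exit_pvx_par` of `Exit/Tr.lean` (187):   `𝔓₀.WfB → ∃ Γ reg, (𝔓₀.upd Γ reg).Wf`.      HERE: `Γ := pvxrGam 𝔓₀` (a DEFINITION, total in the base data);   `reg` = `pvxdReg` of 124 (`Defs/TrReg.lean`).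
ALL in integer coordinates of the `δ`-cells `pvtSq δ q` RELATIVE TO THE CENTRE `z ∈ h ℤ² ⊆ δ ℤ²` of the pin (`h = N δ`, `N = pvlmN c m`: `pvlm_N_mul_Del`).

GEOMETRY OF RECORD (units: cells).      sides / directions `a = 0 1 2 3` = east north west south, `I ^ a`.
* `y⁺ y⁻` = GRID centres of the tip cells = `(ty t).yp`, `(ty t).ym` (`Tr/Defs` v3; units of `h`);   `a = pvxrSide y⁺`, `b = pvxrSide y⁻` = the side of the box they face (dominant coordinate: corners are no exception).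
* BASE CELLS `e⁺ = cell of h (y⁺ + κ I^a)`, `e⁻ = cell of h (y⁻ + κ I^b)`, `κ = 3 ρ / 8` (`pvxrKap`, RULING S0-N of 73 = (D4) of 209): IN FRONT OF the tip cell, outside the box, inside the inner mouth `closedBall (h y) (ρ h / 2)`.
* DOORS = the INNER side of the base cell:  `pout = δ (e⁺ + (1+i)/2 - I^a/2)`, `dout = I^a` (the chain starts with the cell `e⁺`, outwards);   `pin = δ (e⁻ + (1+i)/2 - I^b/2)`, `din = - I^b` (the chain ends with the cell `e⁻`, inwards).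
* REFERENCE PLUG `u`: a block of `g × g` cells, `g = 2 n_w + 1`, `n_w = ⌈N ρ / 32⌉`, FIXED ORIENTATION: entered eastwards through the middle of its west side: `din0 = 1`, `pin0 = - (n_w + 1/2) δ` (relative to the centre of its central cell).
  It sits in front of `y⁻`: central cell `e⁻ + pvxrUo b g` = `(5g,3g) (-3g,4g) (-4g,0) (-3g,-4g)` for `b = 0 1 2 3`.
* THICK SHORT LINK `u → x⁻(t)`: the chain of `g`-blocks of the word `pvxrLe b` started at the east side of `u`, ending with the block centred at `e⁻`, inwards.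
* THIN CHAIN `l1 t`: `e⁺` straight out to the RING ROAD (the cells of sup-norm `M = ⌈N (2 b₂ + K ρ₁ + 1)⌉`), ALWAYS COUNTERCLOCKWISE along it to the ramp of `y⁻`, left turn, in, and the manoeuvre `pvxrMan` which brings it to the west door of `u`.
  It is `pvxrPoly` (word of a polyline given by its corner cells) of an explicit list of corners.
* `zu t` := where the word `l1 t` ends (so `l1_disp` holds by definition, for ALL base data);   `pvxr_zu` : it is the centre of the cell `e⁻ + pvxrUo b g` as soon as the type is not degenerate (`PvxrOK`).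
-/

set_option autoImplicit false

namespace Claimed.Agent.R289

open Set Complex Claims.C0465

/-! ## 1. polylines of cells and their words -/

/-- `L¹` distance of two cells -/
def pvxrD (p q : ℤ × ℤ) : ℕ := (q.1 - p.1).natAbs + (q.2 - p.2).natAbs

/-- **the word of a polyline**: from the cell `c` (not counted) straight to the corner cell `C₁`, where the letter `τ₁` is played, straight to `C₂`, .. -/
def pvxrPoly : ℤ × ℤ → List ((ℤ × ℤ) × PvtTurn) → List PvtTurn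
  | _, [] => []
  | c, (C, τ) :: r => List.replicate (pvxrD c C - 1) PvtTurn.S ++ τ :: pvxrPoly C r

theorem pvxr_poly_dir (d : ℂ) (c : ℤ × ℤ) (r : List ((ℤ × ℤ) × PvtTurn)) :
    pvtDir d (pvxrPoly c r) = d * (r.map fun x => x.2.rot).prod := by
  induction r generalizing d c with
  | nil => simp [pvxrPoly]
  | cons x r ih =>
    obtain ⟨C, τ⟩ := x
    simp only [pvxrPoly, pvtDir_append, pvtDir_replicate_S, pvtDir_cons, ih, List.map_cons, List.prod_cons]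
    ring

/-- integer model of `pvtDir` -/
def pvxrDirI (u : ℤ × ℤ) : List PvtTurn → ℤ × ℤ
  | [] => u
  | τ :: l => pvxrDirI (pvccRotI u τ) l

/-- the polyline is CONSISTENT: every corner lies straight ahead of the previous one, at distance `≥ 1` -/
def PvxrCons : ℤ × ℤ → ℤ × ℤ → List ((ℤ × ℤ) × PvtTurn) → Prop
  | _, _, [] => True
  | c, u, (C, τ) :: r => (∃ k : ℕ, 0 < k ∧ C = c + (k : ℤ) • u) ∧ PvxrCons C (pvccRotI u τ) r

/-- the cell which follows the polyline -/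
def pvxrEnd : ℤ × ℤ → ℤ × ℤ → List ((ℤ × ℤ) × PvtTurn) → ℤ × ℤ
  | c, u, [] => c + u
  | _, u, (C, τ) :: r => pvxrEnd C (pvccRotI u τ) r

/-- **the cells of the polyline**, in order; the last one is `pvxrEnd` (the cell which FOLLOWS the word) -/
def pvxrCells : ℤ × ℤ → ℤ × ℤ → List ((ℤ × ℤ) × PvtTurn) → List (ℤ × ℤ)
  | c, u, [] => [c + u]
  | c, u, (C, τ) :: r => ((List.range (pvxrD c C)).map fun s : ℕ => c + ((s : ℤ) + 1) • u) ++ pvxrCells C (pvccRotI u τ) r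

/-- unit vectors of the grid -/
def PvxrUnit (u : ℤ × ℤ) : Prop := u.1.natAbs + u.2.natAbs = 1

theorem PvxrUnit.rot {u : ℤ × ℤ} (h : PvxrUnit u) (τ : PvtTurn) : PvxrUnit (pvccRotI u τ) := by
  unfold PvxrUnit at *
  cases τ <;> simp only [pvccRotI] <;> omega

theorem pvxr_D_smul {u : ℤ × ℤ} (h : PvxrUnit u) (c : ℤ × ℤ) (k : ℕ) : pvxrD c (c + (k : ℤ) • u) = k := by
  unfold PvxrUnit at h
  unfold pvxrD
  simp only [Prod.fst_add, Prod.snd_add, Prod.smul_fst, Prod.smul_snd, smul_eq_mul, add_sub_cancel_left, Int.natAbs_mul, Int.natAbs_natCast]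
  rw [← Nat.mul_add, h, Nat.mul_one]

theorem pvxr_centres_straight (z d : ℂ) (k : ℕ) (l : List PvtTurn) :
    pvtCentres z d (List.replicate k PvtTurn.S ++ l) = ((List.range k).map fun s : ℕ => z + (s : ℂ) * d) ++ pvtCentres (z + (k : ℂ) * d) d l := by
  induction k generalizing z with
  | zero => simp
  | succ k ih =>
    rw [List.replicate_succ, List.cons_append, pvtCentres, List.range_succ_eq_map, List.map_cons, List.cons_append]
    simp only [PvtTurn.rot, mul_one, ih, List.map_map]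
    congr 1
    · simp
    · congr 1
      · apply List.map_congr_left
        intro s _
        simp only [Function.comp, Nat.cast_succ]
        ring
      · congr 1
        push_cast
        ring

/-- **the centres of the cells of the word of a consistent polyline** -/
theorem pvxr_poly_centres {u : ℤ × ℤ} (hu : PvxrUnit u) (c : ℤ × ℤ) (r : List ((ℤ × ℤ) × PvtTurn)) (h : PvxrCons c u r) :
    pvtCentres (pvtZ (c + u)) (pvtZ u) (pvxrPoly c r) = (pvxrCells c u r).map pvtZ := by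
  induction r generalizing c u with
  | nil => simp [pvxrPoly, pvxrCells, pvtCentres]
  | cons x r ih =>
    obtain ⟨C, τ⟩ := x
    obtain ⟨⟨k, hk, rfl⟩, h2⟩ := h
    obtain ⟨k, rfl⟩ : ∃ j, k = j + 1 := ⟨k - 1, by omega⟩
    simp only [pvxrPoly, pvxrCells, pvxr_D_smul hu, Nat.add_sub_cancel, pvxr_centres_straight, pvtCentres, List.map_append, List.map_map]
    have e1 : pvtZ (c + u) + (k : ℂ) * pvtZ u = pvtZ (c + ((k + 1 : ℕ) : ℤ) • u) := by
      simp only [pvtZ, Prod.fst_add, Prod.snd_add, Prod.smul_fst, Prod.smul_snd, smul_eq_mul]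
      push_cast
      ring
    have e2 : pvtZ (c + u) + (k : ℂ) * pvtZ u + pvtZ u * τ.rot = pvtZ (c + ((k + 1 : ℕ) : ℤ) • u + pvccRotI u τ) := by
      rw [e1, pvtZ_add _ (pvccRotI u τ), pvccRotI_eq]
    rw [e2, ← pvccRotI_eq, ih (hu.rot τ) _ h2, List.range_succ, List.map_append, List.append_assoc]
    congr 1
    · apply List.map_congr_left
      intro s _
      simp only [Function.comp, pvtZ, Prod.fst_add, Prod.snd_add, Prod.smul_fst, Prod.smul_snd, smul_eq_mul]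
      push_cast
      ring
    · simp only [List.map_cons, List.map_nil, List.cons_append, List.nil_append, Function.comp]
      congr 1

/-- **criterion of cell-simplicity** for the word of a consistent polyline -/
theorem pvxr_poly_simple {u : ℤ × ℤ} (hu : PvxrUnit u) (c : ℤ × ℤ) (r : List ((ℤ × ℤ) × PvtTurn)) (h : PvxrCons c u r) (hn : (pvxrCells c u r).Nodup) :
    PvccSimple (pvxrPoly c r) (pvxrPoly c r).length := by
  apply pvcc_simple_of_nodup (z := pvtZ (c + u)) (d := pvtZ u)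
  rw [pvxr_poly_centres hu c r h]
  exact hn.map pvtZ_injective

/-! ## 2. sides, base cells, doors -/

/-- centre of the bounding box of a set -/
noncomputable def pvxrCtr (S : Set ℂ) : ℂ :=
  ⟨(sInf (re '' S) + sSup (re '' S)) / 2, (sInf (im '' S) + sSup (im '' S)) / 2⟩

/-- the side of the boxes faced by `y`: `0` east, `1` north, `2` west, `3` south -/
noncomputable def pvxrSide (y : ℂ) : ℕ :=
  if |y.im| ≤ |y.re| then (if 0 ≤ y.re then 0 else 2) else (if 0 ≤ y.im then 1 else 3)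

theorem pvxr_side_lt (y : ℂ) : pvxrSide y < 4 := by
  unfold pvxrSide
  split_ifs <;> norm_num

/-- the four directions, in integers -/
def pvxrE (a : ℕ) : ℤ × ℤ :=
  match a % 4 with
  | 0 => (1, 0)
  | 1 => (0, 1)
  | 2 => (-1, 0)
  | _ => (0, -1)

/-- the cell (relative to the centre of the pin) of the point `h w`, `h = N δ` -/
noncomputable def pvxrCell (N : ℕ) (w : ℂ) : ℤ × ℤ := (⌊(N : ℝ) * w.re⌋, ⌊(N : ℝ) * w.im⌋)

/-- the midpoint of the side of the cell `e` which looks in the direction `- I ^ a` -/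
noncomputable def pvxrDoor (δ : ℝ) (e : ℤ × ℤ) (a : ℕ) : ℂ := (δ : ℂ) * (pvtZ e + (1 + I) / 2 - I ^ a / 2)

/-! ## 3. the ring road, the ramp, the manoeuvre -/

/-- the corner of the ring road reached in the direction `I ^ j` -/
def pvxrCor (M : ℤ) (j : ℕ) : ℤ × ℤ :=
  match j % 4 with
  | 0 => (M, -M)
  | 1 => (M, M)
  | 2 => (-M, M)
  | _ => (-M, -M)

/-- the cell of the ring road reached from `e` in the direction `I ^ a` -/
def pvxrProj (M : ℤ) (a : ℕ) (e : ℤ × ℤ) : ℤ × ℤ :=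
  match a % 4 with
  | 0 => (M, e.2)
  | 1 => (e.1, M)
  | 2 => (-M, e.2)
  | _ => (e.1, -M)

/-- a cell of the line of the ramp, relative to `e⁻` -/
def pvxrRo (b : ℕ) (g : ℤ) : ℤ × ℤ :=
  match b % 4 with
  | 0 => (0, 6 * g)
  | 1 => (-5 * g, 0)
  | 2 => (0, 0)
  | _ => (-5 * g, 0)

/-- the central cell of the reference plug, relative to `e⁻` -/
def pvxrUo (b : ℕ) (g : ℤ) : ℤ × ℤ :=
  match b % 4 with
  | 0 => (5 * g, 3 * g)
  | 1 => (-3 * g, 4 * g)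
  | 2 => (-4 * g, 0)
  | _ => (-3 * g, -4 * g)

/-- **the manoeuvre**: from the ramp (direction `- I ^ b`) to the west door of the reference plug (direction `1`);   `n` = `n_w`, `g = 2 n + 1` -/
def pvxrMan (b : ℕ) (e : ℤ × ℤ) (n : ℤ) : List ((ℤ × ℤ) × PvtTurn) :=
  match b % 4 with
  | 0 => [((e.1 + 2 * (2 * n + 1), e.2 + 6 * (2 * n + 1)), PvtTurn.L), ((e.1 + 2 * (2 * n + 1), e.2 + 3 * (2 * n + 1)), PvtTurn.L), ((e.1 + 5 * (2 * n + 1) - n - 1, e.2 + 3 * (2 * n + 1)), PvtTurn.S)]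
  | 1 => [((e.1 - 5 * (2 * n + 1), e.2 + 4 * (2 * n + 1)), PvtTurn.L), ((e.1 - 3 * (2 * n + 1) - n - 1, e.2 + 4 * (2 * n + 1)), PvtTurn.S)]
  | 2 => [((e.1 - 4 * (2 * n + 1) - n - 1, e.2), PvtTurn.S)]
  | _ => [((e.1 - 5 * (2 * n + 1), e.2 - 4 * (2 * n + 1)), PvtTurn.R), ((e.1 - 3 * (2 * n + 1) - n - 1, e.2 - 4 * (2 * n + 1)), PvtTurn.S)]

/-- the word (in `g`-blocks) of the THICK SHORT LINK from the east side of the reference plug to the block centred at `e⁻`, which is left in the direction `- I ^ b` -/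
def pvxrLe (b : ℕ) : List PvtTurn :=
  match b % 4 with
  | 0 => [PvtTurn.S, PvtTurn.S, PvtTurn.R, PvtTurn.S, PvtTurn.S, PvtTurn.R, PvtTurn.S, PvtTurn.S, PvtTurn.S, PvtTurn.S, PvtTurn.S, PvtTurn.S, PvtTurn.S, PvtTurn.S]
  | 1 => [PvtTurn.S, PvtTurn.S, PvtTurn.R, PvtTurn.S, PvtTurn.S, PvtTurn.S, PvtTurn.S]
  | 2 => [PvtTurn.S, PvtTurn.S, PvtTurn.S, PvtTurn.S]
  | _ => [PvtTurn.S, PvtTurn.S, PvtTurn.L, PvtTurn.S, PvtTurn.S, PvtTurn.S, PvtTurn.S]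

/-- the number of corners of the ring road passed by the chain: `b - a` modulo `4`, a whole turn more when the ramp lies on the side of the start, behind it -/
def pvxrNc (a b : ℕ) (W T : ℤ × ℤ) : ℕ :=
  (b + 4 - a) % 4 + if a = b ∧ ¬ 0 < (T.1 - W.1) * (pvxrE (a + 1)).1 + (T.2 - W.2) * (pvxrE (a + 1)).2 then 4 else 0

/-- **the corners of the thin chain** from the door `(e⁺, a)` to the west door of the reference plug of `(e⁻, b)` -/
def pvxrCorners (M : ℤ) (a b : ℕ) (ep em : ℤ × ℤ) (n : ℤ) : List ((ℤ × ℤ) × PvtTurn) :=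
  (pvxrProj M a ep, PvtTurn.L) ::
    ((List.range (pvxrNc a b (pvxrProj M a ep) (pvxrProj M b (em + pvxrRo b (2 * n + 1))))).map fun i => (pvxrCor M (a + 1 + i), PvtTurn.L)) ++
      (pvxrProj M b (em + pvxrRo b (2 * n + 1)), PvtTurn.L) :: pvxrMan b em n

/-- **the reference word** -/
def pvxrWord (M : ℤ) (a b : ℕ) (ep em : ℤ × ℤ) (n : ℤ) : List PvtTurn := pvxrPoly (ep - pvxrE a) (pvxrCorners M a b ep em n)

theorem pvxr_word_dir (M : ℤ) {a b : ℕ} (ha : a < 4) (hb : b < 4) (ep em : ℤ × ℤ) (n : ℤ) : pvtDir (I ^ a) (pvxrWord M a b ep em n) = 1 := by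
  rw [pvxrWord, pvxr_poly_dir, pvxrCorners]
  simp only [List.map_cons, List.map_append, List.map_map, List.prod_cons, List.prod_append, Function.comp_def, List.map_const', List.prod_replicate, List.length_range, PvtTurn.rot]
  have h4 : (I : ℂ) ^ 4 = 1 := Complex.I_pow_four
  have h2 : (I : ℂ) ^ 2 = -1 := Complex.I_sq
  unfold pvxrNc
  interval_cases a <;> interval_cases b <;> split_ifs <;> simp [pvxrMan, pow_succ]

/-! ## 3bis. the integer geometry of the reference cycle -/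

/-- scalar product -/
def pvxrDot (p q : ℤ × ℤ) : ℤ := p.1 * q.1 + p.2 * q.2

/-- **THE TYPE IS NOT DEGENERATE** (integers; `B` = half side of the own box in cells): both base cells face their side of the box (normal coordinate `> B`, for `e⁻` even `> B + 2 n`: the block centred at `e⁻`, fattened by `n`, is outside the box; lateral coordinate in `[-B, B]`),
everything lies well inside the ring road, and two base cells on the same side are more than `6 g` apart -/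
structure PvxrOK (B M : ℤ) (a b : ℕ) (ep em : ℤ × ℤ) (n : ℤ) : Prop where
  a4 : a < 4
  b4 : b < 4
  n0 : 0 ≤ n
  B0 : 0 ≤ B
  ep_n : B < pvxrDot ep (pvxrE a)
  ep_l : |pvxrDot ep (pvxrE (a + 1))| ≤ B
  em_n : B + 2 * n < pvxrDot em (pvxrE b)
  em_l : |pvxrDot em (pvxrE (b + 1))| ≤ B
  ep_M : pvxrDot ep (pvxrE a) < M
  em_M : pvxrDot em (pvxrE b) + 9 * (2 * n + 1) < M
  sep : a = b → 6 * (2 * n + 1) < |pvxrDot ep (pvxrE (a + 1)) - pvxrDot em (pvxrE (a + 1))|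

/-- the `w`-neighbourhood of the block of half size `n` centred at `q` -/
def pvxrBlock (q : ℤ × ℤ) (n : ℤ) : Set (ℤ × ℤ) := {x | |x.1 - q.1| ≤ n ∧ |x.2 - q.2| ≤ n}

/-- centre (relative to `e⁻`) of the `j`-th block of the thick short link, `j < (pvxrLe b).length` -/
def pvxrLk (b : ℕ) (g : ℤ) (j : ℕ) : ℤ × ℤ := pvxrUo b g + g • ((1, 0) + pvccAccI (1, 0) ((pvxrLe b).take j))

/-- the cells of the reference plug and of the thick short link, fattened by `w` cells -/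
def pvxrThick (b : ℕ) (em : ℤ × ℤ) (n w : ℤ) : Set (ℤ × ℤ) :=
  pvxrBlock (em + pvxrUo b (2 * n + 1)) (n + w) ∪ ⋃ j ∈ Finset.range (pvxrLe b).length, pvxrBlock (em + pvxrLk b (2 * n + 1) j) (n + w)

/-- the thick link ends with the block centred at `e⁻`, which it leaves inwards -/
theorem pvxr_lk_last {b : ℕ} (hb : b < 4) (g : ℤ) : pvxrLk b g ((pvxrLe b).length - 1) = (0, 0) ∧ pvxrDirI (1, 0) (pvxrLe b) = - pvxrE b := by
  interval_cases b <;> simp [pvxrLk, pvxrLe, pvxrUo, pvxrE, pvccAccI, pvccRotI, pvxrDirI] <;> ring_nf <;> simp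

section ok

variable {B M : ℤ} {a b : ℕ} {ep em : ℤ × ℤ} {n : ℤ}

theorem pvxr_unit_E (a : ℕ) : PvxrUnit (pvxrE a) := by
  unfold PvxrUnit pvxrE
  split <;> simp

/-! the four legs: `simp` lemmas which turn `PvxrCons` of an explicit list of corners into linear arithmetic -/

theorem pvxr_leg_E (c1 c2 C1 C2 : ℤ) : (∃ k : ℕ, 0 < k ∧ (C1, C2) = (c1, c2) + (k : ℤ) • ((1, 0) : ℤ × ℤ)) ↔ C2 = c2 ∧ c1 < C1 := by
  constructor
  · rintro ⟨k, hk, h⟩
    simp only [Prod.smul_mk, smul_eq_mul, mul_one, mul_zero, Prod.mk_add_mk, Prod.mk.injEq] at h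
    omega
  · rintro ⟨h2, h1⟩
    refine ⟨(C1 - c1).toNat, by omega, ?_⟩
    simp only [Prod.smul_mk, smul_eq_mul, mul_one, mul_zero, Prod.mk_add_mk, Prod.mk.injEq]
    omega

theorem pvxr_leg_W (c1 c2 C1 C2 : ℤ) : (∃ k : ℕ, 0 < k ∧ (C1, C2) = (c1, c2) + (k : ℤ) • ((-1, 0) : ℤ × ℤ)) ↔ C2 = c2 ∧ C1 < c1 := by
  constructor
  · rintro ⟨k, hk, h⟩
    simp only [Prod.smul_mk, smul_eq_mul, mul_neg, mul_one, mul_zero, Prod.mk_add_mk, Prod.mk.injEq] at h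
    omega
  · rintro ⟨h2, h1⟩
    refine ⟨(c1 - C1).toNat, by omega, ?_⟩
    simp only [Prod.smul_mk, smul_eq_mul, mul_neg, mul_one, mul_zero, Prod.mk_add_mk, Prod.mk.injEq]
    omega

theorem pvxr_leg_N (c1 c2 C1 C2 : ℤ) : (∃ k : ℕ, 0 < k ∧ (C1, C2) = (c1, c2) + (k : ℤ) • ((0, 1) : ℤ × ℤ)) ↔ C1 = c1 ∧ c2 < C2 := by
  constructor
  · rintro ⟨k, hk, h⟩
    simp only [Prod.smul_mk, smul_eq_mul, mul_one, mul_zero, Prod.mk_add_mk, Prod.mk.injEq] at h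
    omega
  · rintro ⟨h2, h1⟩
    refine ⟨(C2 - c2).toNat, by omega, ?_⟩
    simp only [Prod.smul_mk, smul_eq_mul, mul_one, mul_zero, Prod.mk_add_mk, Prod.mk.injEq]
    omega

theorem pvxr_leg_S (c1 c2 C1 C2 : ℤ) : (∃ k : ℕ, 0 < k ∧ (C1, C2) = (c1, c2) + (k : ℤ) • ((0, -1) : ℤ × ℤ)) ↔ C1 = c1 ∧ C2 < c2 := by
  constructor
  · rintro ⟨k, hk, h⟩
    simp only [Prod.smul_mk, smul_eq_mul, mul_neg, mul_one, mul_zero, Prod.mk_add_mk, Prod.mk.injEq] at h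
    omega
  · rintro ⟨h2, h1⟩
    refine ⟨(c2 - C2).toNat, by omega, ?_⟩
    simp only [Prod.smul_mk, smul_eq_mul, mul_neg, mul_one, mul_zero, Prod.mk_add_mk, Prod.mk.injEq]
    omega

/-- (Z1) the polyline of record is consistent -/
theorem pvxr_cons (h : PvxrOK B M a b ep em n) : PvxrCons (ep - pvxrE a) (pvxrE a) (pvxrCorners M a b ep em n) := by
  obtain ⟨a4, b4, n0, B0, ep_n, ep_l, em_n, em_l, ep_M, em_M, sep⟩ := h
  obtain ⟨e1, e2⟩ := ep
  obtain ⟨f1, f2⟩ := em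
  rw [abs_le] at ep_l em_l
  simp only [lt_abs] at sep
  interval_cases a <;> interval_cases b <;>
  simp only [pvxrDot, pvxrE, pvxrCorners, pvxrNc, pvxrProj, pvxrRo, pvxrMan, pvxrCor, Nat.reduceAdd, Nat.reduceMod, Nat.reduceSub, mul_one, mul_zero, add_zero, zero_add, mul_neg, true_and, forall_const, Prod.mk_add_mk, Prod.mk_sub_mk] at * <;>
  split_ifs <;>
  simp only [List.range_succ, List.range_zero, List.nil_append, List.map_append, List.map_cons, List.map_nil, List.cons_append, Nat.reduceAdd, Nat.reduceMod, PvxrCons, pvccRotI, pvxr_leg_E, pvxr_leg_W, pvxr_leg_N, pvxr_leg_S, neg_neg, neg_zero, and_true, add_zero, true_and, sub_zero] <;>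
  omega

/-- (Z2) it ends at the west door of the reference plug -/
theorem pvxr_end (h : PvxrOK B M a b ep em n) : pvxrEnd (ep - pvxrE a) (pvxrE a) (pvxrCorners M a b ep em n) = em + pvxrUo b (2 * n + 1) - (n, 0) := by
  obtain ⟨a4, b4, n0, B0, ep_n, ep_l, em_n, em_l, ep_M, em_M, sep⟩ := h
  obtain ⟨e1, e2⟩ := ep
  obtain ⟨f1, f2⟩ := em
  interval_cases a <;> interval_cases b <;>
  simp only [pvxrE, pvxrCorners, pvxrNc, pvxrProj, pvxrRo, pvxrMan, pvxrCor, pvxrUo, Nat.reduceAdd, Nat.reduceMod, Nat.reduceSub, mul_one, mul_zero, add_zero, zero_add, mul_neg, true_and, forall_const, Prod.mk_add_mk, Prod.mk_sub_mk] <;>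
  split_ifs <;>
  simp only [List.range_succ, List.range_zero, List.nil_append, List.map_append, List.map_cons, List.map_nil, List.cons_append, Nat.reduceAdd, Nat.reduceMod, pvxrEnd, pvccRotI, neg_neg, neg_zero, add_zero, sub_zero, Prod.mk_add_mk, Prod.mk.injEq, and_true] <;>
  omega

/-- the leg from `c` (excluded) to `C` (included) in the direction `u`, linear form -/
def PvxrLeg (c u C x : ℤ × ℤ) : Prop :=
  (x.1 - c.1) * u.2 = (x.2 - c.2) * u.1 ∧ 0 < (x.1 - c.1) * u.1 + (x.2 - c.2) * u.2 ∧ (x.1 - c.1) * u.1 + (x.2 - c.2) * u.2 ≤ (C.1 - c.1) * u.1 + (C.2 - c.2) * u.2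

/-- membership in the cells of the polyline, linear form -/
def PvxrIn : ℤ × ℤ → ℤ × ℤ → List ((ℤ × ℤ) × PvtTurn) → ℤ × ℤ → Prop
  | c, u, [], x => x.1 = c.1 + u.1 ∧ x.2 = c.2 + u.2
  | c, u, (C, τ) :: r, x => PvxrLeg c u C x ∨ PvxrIn C (pvccRotI u τ) r x

/-- the legs are disjoint, linear form -/
def PvxrND : ℤ × ℤ → ℤ × ℤ → List ((ℤ × ℤ) × PvtTurn) → Prop
  | _, _, [] => True
  | c, u, (C, τ) :: r => (∀ x, PvxrLeg c u C x → ¬ PvxrIn C (pvccRotI u τ) r x) ∧ PvxrND C (pvccRotI u τ) r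

theorem pvxr_unit_cases {u : ℤ × ℤ} (h : PvxrUnit u) : u = (1, 0) ∨ u = (-1, 0) ∨ u = (0, 1) ∨ u = (0, -1) := by
  obtain ⟨u1, u2⟩ := u
  simp only [PvxrUnit] at h
  simp only [Prod.mk.injEq]
  omega

theorem pvxr_mem_leg {u : ℤ × ℤ} (hu : PvxrUnit u) (c : ℤ × ℤ) (k : ℕ) (x : ℤ × ℤ) :
    x ∈ ((List.range k).map fun s : ℕ => c + ((s : ℤ) + 1) • u) ↔ PvxrLeg c u (c + (k : ℤ) • u) x := by
  obtain ⟨c1, c2⟩ := c
  obtain ⟨x1, x2⟩ := x
  simp only [List.mem_map, List.mem_range, PvxrLeg]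
  rcases pvxr_unit_cases hu with rfl | rfl | rfl | rfl <;> simp only [Prod.smul_mk, smul_eq_mul, Prod.mk_add_mk, Prod.mk.injEq]
  · constructor
    · rintro ⟨s, hs, h1, h2⟩; omega
    · intro h; exact ⟨(x1 - c1 - 1).toNat, by omega, by omega, by omega⟩
  · constructor
    · rintro ⟨s, hs, h1, h2⟩; omega
    · intro h; exact ⟨(c1 - x1 - 1).toNat, by omega, by omega, by omega⟩
  · constructor
    · rintro ⟨s, hs, h1, h2⟩; omega
    · intro h; exact ⟨(x2 - c2 - 1).toNat, by omega, by omega, by omega⟩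
  · constructor
    · rintro ⟨s, hs, h1, h2⟩; omega
    · intro h; exact ⟨(c2 - x2 - 1).toNat, by omega, by omega, by omega⟩

theorem pvxr_mem_cells {u : ℤ × ℤ} (hu : PvxrUnit u) (c : ℤ × ℤ) (r : List ((ℤ × ℤ) × PvtTurn)) (h : PvxrCons c u r) (x : ℤ × ℤ) : x ∈ pvxrCells c u r ↔ PvxrIn c u r x := by
  induction r generalizing c u with
  | nil =>
    simp only [pvxrCells, List.mem_singleton, PvxrIn]
    constructor
    · rintro rfl; exact ⟨rfl, rfl⟩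
    · rintro ⟨h1, h2⟩; exact Prod.ext h1 h2
  | cons y r ih =>
    obtain ⟨C, τ⟩ := y
    obtain ⟨⟨k, hk, rfl⟩, h2⟩ := h
    simp only [pvxrCells, List.mem_append, PvxrIn, pvxr_D_smul hu, pvxr_mem_leg hu, ih (hu.rot τ) _ h2]

theorem pvxr_leg_nodup {u : ℤ × ℤ} (hu : PvxrUnit u) (c : ℤ × ℤ) (k : ℕ) : ((List.range k).map fun s : ℕ => c + ((s : ℤ) + 1) • u).Nodup := by
  refine List.Nodup.map ?_ List.nodup_range
  intro s t hst
  obtain ⟨c1, c2⟩ := c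
  rcases pvxr_unit_cases hu with rfl | rfl | rfl | rfl <;> simp only [Prod.smul_mk, smul_eq_mul, Prod.mk_add_mk, Prod.mk.injEq] at hst <;> omega

theorem pvxr_nodup_of {u : ℤ × ℤ} (hu : PvxrUnit u) (c : ℤ × ℤ) (r : List ((ℤ × ℤ) × PvtTurn)) (h : PvxrCons c u r) (hn : PvxrND c u r) : (pvxrCells c u r).Nodup := by
  induction r generalizing c u with
  | nil => simp [pvxrCells]
  | cons y r ih =>
    obtain ⟨C, τ⟩ := y
    obtain ⟨⟨k, hk, rfl⟩, h2⟩ := h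
    simp only [pvxrCells, pvxr_D_smul hu]
    rw [List.nodup_append]
    refine ⟨pvxr_leg_nodup hu c k, ih (hu.rot τ) _ h2 hn.2, ?_⟩
    intro x hx y hy hxy
    subst hxy
    exact hn.1 x ((pvxr_mem_leg hu c k x).1 hx) ((pvxr_mem_cells (hu.rot τ) _ r h2 x).1 hy)



set_option linter.unusedSimpArgs false in
theorem pvxr_nd (h : PvxrOK B M a b ep em n) : PvxrND (ep - pvxrE a) (pvxrE a) (pvxrCorners M a b ep em n) := by
  obtain ⟨a4, b4, n0, B0, ep_n, ep_l, em_n, em_l, ep_M, em_M, sep⟩ := h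
  rw [abs_le] at ep_l em_l
  obtain ⟨p1, p2⟩ := ep
  obtain ⟨m1, m2⟩ := em
  have r1 : List.range 1 = [0] := rfl
  have r2 : List.range 2 = [0, 1] := rfl
  have r3 : List.range 3 = [0, 1, 2] := rfl
  have r4 : List.range 4 = [0, 1, 2, 3] := rfl
  interval_cases a <;> interval_cases b <;>
  simp only [pvxrDot, pvxrE, Nat.reduceMod, Nat.reduceAdd, lt_abs, Nat.reduceEqDiff, forall_const, false_imp_iff, OfNat.zero_ne_ofNat, OfNat.ofNat_ne_zero, OfNat.one_ne_ofNat, OfNat.ofNat_ne_one, zero_ne_one, one_ne_zero, IsEmpty.forall_iff] at ep_n ep_l em_n em_l ep_M em_M sep <;>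
  simp only [pvxrCorners, pvxrNc, pvxrProj, pvxrRo, pvxrMan, pvxrE, pvxrUo, Nat.reduceMod, Nat.reduceAdd, Nat.reduceSub, Prod.mk_add_mk, Prod.mk_sub_mk, true_and, false_and, if_false, Nat.reduceEqDiff, OfNat.zero_ne_ofNat, OfNat.ofNat_ne_zero, OfNat.one_ne_ofNat, OfNat.ofNat_ne_one, zero_ne_one, one_ne_zero, Nat.add_zero] <;>
  (try split_ifs) <;>
  simp only [Nat.reduceAdd, Nat.add_zero, Nat.zero_add, r1, r2, r3, r4, List.range_zero, List.nil_append, List.cons_append, List.map_cons, List.map_nil, pvxrCor, Nat.reduceMod, PvxrND, PvxrIn, PvxrLeg, pvccRotI, and_true] <;>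
  (repeat' apply And.intro) <;> (intro x hx) <;> omega


set_option linter.unusedSimpArgs false in
theorem pvxr_in_box (h : PvxrOK B M a b ep em n) : ∀ x, PvxrIn (ep - pvxrE a) (pvxrE a) (pvxrCorners M a b ep em n) x →
    ((B < x.1 ∨ B < -x.1) ∨ (B < x.2 ∨ B < -x.2)) ∧ (-M ≤ x.1 ∧ x.1 ≤ M) ∧ (-M ≤ x.2 ∧ x.2 ≤ M) := by
  obtain ⟨a4, b4, n0, B0, ep_n, ep_l, em_n, em_l, ep_M, em_M, sep⟩ := h
  rw [abs_le] at ep_l em_l
  obtain ⟨p1, p2⟩ := ep
  obtain ⟨m1, m2⟩ := em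
  have r1 : List.range 1 = [0] := rfl
  have r2 : List.range 2 = [0, 1] := rfl
  have r3 : List.range 3 = [0, 1, 2] := rfl
  have r4 : List.range 4 = [0, 1, 2, 3] := rfl
  interval_cases a <;> interval_cases b <;>
  simp only [pvxrDot, pvxrE, Nat.reduceMod, Nat.reduceAdd, lt_abs, Nat.reduceEqDiff, forall_const, false_imp_iff, OfNat.zero_ne_ofNat, OfNat.ofNat_ne_zero, OfNat.one_ne_ofNat, OfNat.ofNat_ne_one, zero_ne_one, one_ne_zero, IsEmpty.forall_iff] at ep_n ep_l em_n em_l ep_M em_M sep <;>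
  simp only [pvxrCorners, pvxrNc, pvxrProj, pvxrRo, pvxrMan, pvxrE, pvxrUo, Nat.reduceMod, Nat.reduceAdd, Nat.reduceSub, Prod.mk_add_mk, Prod.mk_sub_mk, true_and, false_and, if_false, Nat.reduceEqDiff, OfNat.zero_ne_ofNat, OfNat.ofNat_ne_zero, OfNat.one_ne_ofNat, OfNat.ofNat_ne_one, zero_ne_one, one_ne_zero, Nat.add_zero] <;>
  (try split_ifs) <;>
  simp only [Nat.reduceAdd, Nat.add_zero, Nat.zero_add, r1, r2, r3, r4, List.range_zero, List.nil_append, List.cons_append, List.map_cons, List.map_nil, pvxrCor, Nat.reduceMod, PvxrIn, PvxrLeg, pvccRotI, and_true] <;>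
  (intro x hx) <;> omega

/-- the reference plug and the thick short link as a union of rectangles -/
def PvxrTR (b : ℕ) (e : ℤ × ℤ) (n w : ℤ) (x : ℤ × ℤ) : Prop :=
  match b % 4 with
  | 0 => (e.1 + 5 * (2 * n + 1) - (n + w) ≤ x.1 ∧ x.1 ≤ e.1 + 8 * (2 * n + 1) + (n + w) ∧ e.2 + 3 * (2 * n + 1) - (n + w) ≤ x.2 ∧ x.2 ≤ e.2 + 3 * (2 * n + 1) + (n + w)) ∨
      (e.1 + 8 * (2 * n + 1) - (n + w) ≤ x.1 ∧ x.1 ≤ e.1 + 8 * (2 * n + 1) + (n + w) ∧ e.2 - (n + w) ≤ x.2 ∧ x.2 ≤ e.2 + 3 * (2 * n + 1) + (n + w)) ∨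
      (e.1 - (n + w) ≤ x.1 ∧ x.1 ≤ e.1 + 8 * (2 * n + 1) + (n + w) ∧ e.2 - (n + w) ≤ x.2 ∧ x.2 ≤ e.2 + (n + w))
  | 1 => (e.1 - 3 * (2 * n + 1) - (n + w) ≤ x.1 ∧ x.1 ≤ e.1 + (n + w) ∧ e.2 + 4 * (2 * n + 1) - (n + w) ≤ x.2 ∧ x.2 ≤ e.2 + 4 * (2 * n + 1) + (n + w)) ∨
      (e.1 - (n + w) ≤ x.1 ∧ x.1 ≤ e.1 + (n + w) ∧ e.2 - (n + w) ≤ x.2 ∧ x.2 ≤ e.2 + 4 * (2 * n + 1) + (n + w))
  | 2 => (e.1 - 4 * (2 * n + 1) - (n + w) ≤ x.1 ∧ x.1 ≤ e.1 + (n + w) ∧ e.2 - (n + w) ≤ x.2 ∧ x.2 ≤ e.2 + (n + w))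
  | _ => (e.1 - 3 * (2 * n + 1) - (n + w) ≤ x.1 ∧ x.1 ≤ e.1 + (n + w) ∧ e.2 - 4 * (2 * n + 1) - (n + w) ≤ x.2 ∧ x.2 ≤ e.2 - 4 * (2 * n + 1) + (n + w)) ∨
      (e.1 - (n + w) ≤ x.1 ∧ x.1 ≤ e.1 + (n + w) ∧ e.2 - 4 * (2 * n + 1) - (n + w) ≤ x.2 ∧ x.2 ≤ e.2 + (n + w))

set_option linter.unusedSimpArgs false in
theorem pvxr_thick_rect (hb : b < 4) (hn : 0 ≤ n) {w : ℤ} {x : ℤ × ℤ} (hx : x ∈ pvxrThick b em n w) : PvxrTR b em n w x := by
  obtain ⟨m1, m2⟩ := em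
  simp only [pvxrThick, mem_union, mem_iUnion, Finset.mem_range, exists_prop, pvxrBlock, mem_ofPred_eq, abs_le] at hx
  interval_cases b
  all_goals
    simp only [PvxrTR, Nat.reduceMod]
    simp only [pvxrLe, Nat.reduceMod, List.length_cons, List.length_nil, Nat.reduceAdd] at hx
    rcases hx with hx | ⟨j, hj, hx⟩
    · simp only [pvxrUo, Nat.reduceMod, Prod.mk_add_mk] at hx
      omega
    · interval_cases j <;>
      simp only [pvxrLk, pvxrLe, pvxrUo, Nat.reduceMod, List.take_succ_cons, List.take_zero, pvccAccI, pvccRotI, Prod.mk_add_mk, Prod.smul_mk, smul_eq_mul] at hx <;>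
      omega


set_option linter.unusedSimpArgs false in
theorem pvxr_in_thick (h : PvxrOK B M a b ep em n) : ∀ x, PvxrIn (ep - pvxrE a) (pvxrE a) (pvxrCorners M a b ep em n) x → PvxrTR b em n n x →
    x.2 = (em + pvxrUo b (2 * n + 1)).2 ∧ x.1 ≤ (em + pvxrUo b (2 * n + 1)).1 - n := by
  obtain ⟨a4, b4, n0, B0, ep_n, ep_l, em_n, em_l, ep_M, em_M, sep⟩ := h
  rw [abs_le] at ep_l em_l
  obtain ⟨p1, p2⟩ := ep
  obtain ⟨m1, m2⟩ := em
  have r1 : List.range 1 = [0] := rfl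
  have r2 : List.range 2 = [0, 1] := rfl
  have r3 : List.range 3 = [0, 1, 2] := rfl
  have r4 : List.range 4 = [0, 1, 2, 3] := rfl
  interval_cases a <;> interval_cases b <;>
  simp only [pvxrDot, pvxrE, Nat.reduceMod, Nat.reduceAdd, lt_abs, Nat.reduceEqDiff, forall_const, false_imp_iff, OfNat.zero_ne_ofNat, OfNat.ofNat_ne_zero, OfNat.one_ne_ofNat, OfNat.ofNat_ne_one, zero_ne_one, one_ne_zero, IsEmpty.forall_iff] at ep_n ep_l em_n em_l ep_M em_M sep <;>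
  simp only [pvxrCorners, pvxrNc, pvxrProj, pvxrRo, pvxrMan, pvxrE, pvxrUo, Nat.reduceMod, Nat.reduceAdd, Nat.reduceSub, Prod.mk_add_mk, Prod.mk_sub_mk, true_and, false_and, if_false, Nat.reduceEqDiff, OfNat.zero_ne_ofNat, OfNat.ofNat_ne_zero, OfNat.one_ne_ofNat, OfNat.ofNat_ne_one, zero_ne_one, one_ne_zero, Nat.add_zero] <;>
  (try split_ifs) <;>
  simp only [Nat.reduceAdd, Nat.add_zero, Nat.zero_add, r1, r2, r3, r4, List.range_zero, List.nil_append, List.cons_append, List.map_cons, List.map_nil, pvxrCor, Nat.reduceMod, PvxrIn, PvxrLeg, PvxrTR, pvccRotI, and_true] <;>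
  (intro x hx hT) <;> omega

set_option linter.unusedSimpArgs false in
theorem pvxr_rect_box (h : PvxrOK B M a b ep em n) : ∀ x, PvxrTR b em n 0 x → ((B < x.1 ∨ B < -x.1) ∨ (B < x.2 ∨ B < -x.2)) ∧ (-M < x.1 ∧ x.1 < M) ∧ (-M < x.2 ∧ x.2 < M) := by
  obtain ⟨a4, b4, n0, B0, ep_n, ep_l, em_n, em_l, ep_M, em_M, sep⟩ := h
  rw [abs_le] at em_l
  obtain ⟨m1, m2⟩ := em
  interval_cases b <;>
  simp only [pvxrDot, pvxrE, Nat.reduceMod, Nat.reduceAdd] at em_n em_l em_M <;>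
  simp only [PvxrTR, Nat.reduceMod] <;>
  (intro x hT) <;> omega

/-- (Z3) its cells are distinct -/
theorem pvxr_nodup (h : PvxrOK B M a b ep em n) : (pvxrCells (ep - pvxrE a) (pvxrE a) (pvxrCorners M a b ep em n)).Nodup := by
  exact pvxr_nodup_of (pvxr_unit_E a) _ _ (pvxr_cons h) (pvxr_nd h)

/-- (Z4) its cells lie outside the own box and inside the ring road -/
theorem pvxr_cells_box (h : PvxrOK B M a b ep em n) : ∀ x ∈ pvxrCells (ep - pvxrE a) (pvxrE a) (pvxrCorners M a b ep em n), (B < |x.1| ∨ B < |x.2|) ∧ |x.1| ≤ M ∧ |x.2| ≤ M := by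
  intro x hx
  rw [lt_abs, lt_abs, abs_le, abs_le]
  exact pvxr_in_box h x ((pvxr_mem_cells (pvxr_unit_E a) _ _ (pvxr_cons h) x).1 hx)

/-- (Z5) its cells stay `n` cells away from the reference plug and the thick short link, except the LAST LEG: the cells of the row of the west door of the plug, west of it -/
theorem pvxr_cells_thick (h : PvxrOK B M a b ep em n) : ∀ x ∈ pvxrCells (ep - pvxrE a) (pvxrE a) (pvxrCorners M a b ep em n), x ∈ pvxrThick b em n n →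
    x.2 = (em + pvxrUo b (2 * n + 1)).2 ∧ x.1 ≤ (em + pvxrUo b (2 * n + 1)).1 - n := by
  intro x hx hT
  exact pvxr_in_thick h x ((pvxr_mem_cells (pvxr_unit_E a) _ _ (pvxr_cons h) x).1 hx) (pvxr_thick_rect h.b4 h.n0 hT)

/-- (Z6) the reference plug and the thick short link lie outside the own box, inside the ring road, and `n` cells away from the ray of the exit door -/
theorem pvxr_thick_box (h : PvxrOK B M a b ep em n) : ∀ x ∈ pvxrThick b em n 0, (B < |x.1| ∨ B < |x.2|) ∧ |x.1| < M ∧ |x.2| < M := by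
  intro x hT
  rw [lt_abs, lt_abs, abs_lt, abs_lt]
  exact pvxr_rect_box h x (pvxr_thick_rect h.b4 h.n0 hT)

/-- **the reference word is cell-simple** -/
theorem pvxr_word_simple (h : PvxrOK B M a b ep em n) : PvccSimple (pvxrWord M a b ep em n) (pvxrWord M a b ep em n).length :=
  pvxr_poly_simple (pvxr_unit_E a) _ _ (pvxr_cons h) (pvxr_nodup h)

end ok

/-! ## 3ter. from the plane to the integer geometry -/

theorem pvxr_Z_E (a : ℕ) : pvtZ (pvxrE a) = I ^ a := by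
  have h4 : (I : ℂ) ^ 4 = 1 := Complex.I_pow_four
  have e : (I : ℂ) ^ a = I ^ (a % 4) := by
    conv_lhs => rw [← Nat.div_add_mod a 4, pow_add, pow_mul, h4, one_pow, one_mul]
  rw [e]
  have hlt : a % 4 < 4 := Nat.mod_lt _ (by norm_num)
  unfold pvxrE
  interval_cases (a % 4) <;> simp [pvtZ, pow_succ]

theorem pvxr_dir_E (a : ℕ) : PvfeDir (pvxrE a) := by
  unfold PvfeDir pvxrE
  split <;> simp

theorem pvxr_ctr_eq (δ : ℝ) (e : ℤ × ℤ) : pvtCtr δ e = (δ : ℂ) * (pvtZ e + (1 + I) / 2) := by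
  apply Complex.ext <;> simp [pvtCtr, pvtZ] <;> ring

theorem pvxr_door_eq (δ : ℝ) (e : ℤ × ℤ) (a : ℕ) : pvxrDoor δ e a = (pvtCtr δ (e - pvxrE a) + pvtCtr δ e) / 2 := by
  have h : pvtZ (e - pvxrE a) = pvtZ e - I ^ a := by
    rw [← pvxr_Z_E]
    simp only [pvtZ, Prod.fst_sub, Prod.snd_sub]
    push_cast
    ring
  rw [pvxrDoor, pvxr_ctr_eq, pvxr_ctr_eq, h]
  ring

/-- the point `h w` lies in its cell -/
theorem pvxr_cell_near {δ : ℝ} (hδ : 0 < δ) (N : ℕ) (w : ℂ) : ‖pvtCtr δ (pvxrCell N w) - ((N * δ : ℝ) : ℂ) * w‖ ≤ δ := by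
  have h1 : |(pvtCtr δ (pvxrCell N w) - ((N * δ : ℝ) : ℂ) * w).re| ≤ δ / 2 := by
    simp only [pvtCtr, pvxrCell, sub_re, mul_re, ofReal_re, ofReal_im, zero_mul, sub_zero]
    have a1 := Int.floor_le ((N : ℝ) * w.re)
    have a2 := Int.lt_floor_add_one ((N : ℝ) * w.re)
    rw [abs_le]
    constructor <;> nlinarith
  have h2 : |(pvtCtr δ (pvxrCell N w) - ((N * δ : ℝ) : ℂ) * w).im| ≤ δ / 2 := by
    simp only [pvtCtr, pvxrCell, sub_im, mul_im, ofReal_re, ofReal_im, zero_mul, add_zero]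
    have a1 := Int.floor_le ((N : ℝ) * w.im)
    have a2 := Int.lt_floor_add_one ((N : ℝ) * w.im)
    rw [abs_le]
    constructor <;> nlinarith
  calc ‖pvtCtr δ (pvxrCell N w) - ((N * δ : ℝ) : ℂ) * w‖ ≤ |(pvtCtr δ (pvxrCell N w) - ((N * δ : ℝ) : ℂ) * w).re| + |(pvtCtr δ (pvxrCell N w) - ((N * δ : ℝ) : ℂ) * w).im| := Complex.norm_le_abs_re_add_abs_im _
    _ ≤ δ := by linarith

/-- the side is the dominant direction -/
theorem pvxr_side_dom (y : ℂ) : (y * (starRingEnd ℂ) (I ^ pvxrSide y)).re = pvccN y := by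
  unfold pvxrSide pvccN
  split_ifs with h1 h2 h2
  · rw [abs_of_nonneg h2] at h1
    simp [abs_of_nonneg h2, h1]
  · rw [not_le] at h2
    rw [abs_of_neg h2] at h1
    simp [pow_succ, abs_of_neg h2, h1]
  · rw [not_le] at h1
    rw [abs_of_nonneg h2] at h1
    simp [abs_of_nonneg h2, h1.le]
  · rw [not_le] at h1 h2
    rw [abs_of_neg h2] at h1
    simp [pow_succ, abs_of_neg h2, h1.le]

/-- real normal coordinate with respect to the side `a` -/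
def pvxrNorA (a : ℕ) (y : ℂ) : ℝ :=
  match a % 4 with
  | 0 => y.re
  | 1 => y.im
  | 2 => -y.re
  | _ => -y.im

/-- real lateral coordinate along the side `a` (counterclockwise) -/
def pvxrLatA (a : ℕ) (y : ℂ) : ℝ :=
  match a % 4 with
  | 0 => y.im
  | 1 => -y.re
  | 2 => -y.im
  | _ => y.re

theorem pvxr_nor_side (y : ℂ) : pvxrNorA (pvxrSide y) y = pvccN y := by
  unfold pvxrSide pvccN
  split_ifs with h1 h2 h2
  · rw [abs_of_nonneg h2] at h1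
    simp [pvxrNorA, abs_of_nonneg h2, h1]
  · rw [not_le] at h2
    rw [abs_of_neg h2] at h1
    simp [pvxrNorA, abs_of_neg h2, h1]
  · rw [not_le] at h1
    rw [abs_of_nonneg h2] at h1
    simp [pvxrNorA, abs_of_nonneg h2, h1.le]
  · rw [not_le] at h1 h2
    rw [abs_of_neg h2] at h1
    simp [pvxrNorA, abs_of_neg h2, h1.le]

theorem pvxr_lat_side (y : ℂ) : |pvxrLatA (pvxrSide y) y| ≤ pvccN y := by
  unfold pvxrSide pvccN
  split_ifs with h1 h2 h2 <;> simp [pvxrLatA]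

theorem pvxr_norm_sq {a : ℕ} (ha : a < 4) (y y' : ℂ) : ‖y - y'‖ ^ 2 = (pvxrNorA a y - pvxrNorA a y') ^ 2 + (pvxrLatA a y - pvxrLatA a y') ^ 2 := by
  rw [Complex.sq_norm, Complex.normSq_apply]
  interval_cases a <;> simp [pvxrNorA, pvxrLatA] <;> ring

theorem pvxr_cell_lat (N : ℕ) {a : ℕ} (ha : a < 4) (y : ℂ) (κ : ℝ) :
    (N : ℝ) * pvxrLatA a y - 1 < (pvxrDot (pvxrCell N (y + κ * I ^ a)) (pvxrE (a + 1)) : ℤ) ∧
      ((pvxrDot (pvxrCell N (y + κ * I ^ a)) (pvxrE (a + 1)) : ℤ) : ℝ) < (N : ℝ) * pvxrLatA a y + 1 := by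
  have e2 : (I : ℂ) ^ 2 = -1 := I_sq
  have e3 : (I : ℂ) ^ 3 = -I := I_pow_three
  interval_cases a
  · simp only [pvxrDot, pvxrE, pvxrCell, pvxrLatA, pow_zero, mul_one, add_re, ofReal_re, add_im, ofReal_im, add_zero, mul_zero, zero_add, Nat.reduceAdd, Nat.reduceMod, Nat.zero_mod]
    have a1 := Int.floor_le ((N : ℝ) * y.im)
    have a2 := Int.lt_floor_add_one ((N : ℝ) * y.im)
    constructor <;> linarith
  · simp only [pvxrDot, pvxrE, pvxrCell, pvxrLatA, pow_one, add_re, mul_re, ofReal_re, I_re, mul_zero, ofReal_im, I_im, mul_one, sub_self, add_zero, add_im, mul_im, zero_add, Nat.reduceAdd, Nat.reduceMod, mul_neg]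
    have a1 := Int.floor_le ((N : ℝ) * y.re)
    have a2 := Int.lt_floor_add_one ((N : ℝ) * y.re)
    push_cast
    constructor <;> linarith
  · simp only [pvxrDot, pvxrE, pvxrCell, pvxrLatA, e2, mul_neg, mul_one, add_re, neg_re, ofReal_re, add_im, neg_im, ofReal_im, neg_zero, add_zero, mul_zero, zero_add, Nat.reduceAdd, Nat.reduceMod]
    have a1 := Int.floor_le ((N : ℝ) * y.im)
    have a2 := Int.lt_floor_add_one ((N : ℝ) * y.im)
    push_cast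
    constructor <;> linarith
  · simp only [pvxrDot, pvxrE, pvxrCell, pvxrLatA, e3, mul_neg, add_re, neg_re, mul_re, ofReal_re, I_re, mul_zero, ofReal_im, I_im, mul_one, sub_self, neg_zero, add_zero, add_im, neg_im, mul_im, zero_add, Nat.reduceAdd, Nat.reduceMod]
    have a1 := Int.floor_le ((N : ℝ) * y.re)
    have a2 := Int.lt_floor_add_one ((N : ℝ) * y.re)
    constructor <;> linarith

theorem pvxr_cell_nor (N : ℕ) (y : ℂ) (κ : ℝ) :
    (N : ℝ) * (pvccN y + κ) - 1 < (pvxrDot (pvxrCell N (y + κ * I ^ pvxrSide y)) (pvxrE (pvxrSide y)) : ℤ) ∧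
      ((pvxrDot (pvxrCell N (y + κ * I ^ pvxrSide y)) (pvxrE (pvxrSide y)) : ℤ) : ℝ) < (N : ℝ) * (pvccN y + κ) + 1 := by
  unfold pvxrSide pvccN
  split_ifs with h1 h2 h2
  · rw [abs_of_nonneg h2] at h1
    simp only [pvxrDot, pvxrE, pvxrCell, pow_zero, mul_one, add_re, ofReal_re, add_im, ofReal_im, add_zero, mul_zero, abs_of_nonneg h2, max_eq_left h1, Nat.zero_mod]
    have a1 := Int.floor_le ((N : ℝ) * (y.re + κ))
    have a2 := Int.lt_floor_add_one ((N : ℝ) * (y.re + κ))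
    constructor <;> linarith
  · rw [not_le] at h2
    rw [abs_of_neg h2] at h1
    have e : (I : ℂ) ^ 2 = -1 := I_sq
    simp only [pvxrDot, pvxrE, pvxrCell, e, mul_neg, mul_one, add_re, neg_re, ofReal_re, add_im, neg_im, ofReal_im, neg_zero, add_zero, mul_zero, abs_of_neg h2, max_eq_left h1, Nat.reduceMod]
    have a1 := Int.floor_le ((N : ℝ) * (y.re + -κ))
    have a2 := Int.lt_floor_add_one ((N : ℝ) * (y.re + -κ))
    push_cast
    constructor <;> linarith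
  · rw [not_le] at h1
    rw [abs_of_nonneg h2] at h1
    simp only [pvxrDot, pvxrE, pvxrCell, pow_one, add_re, mul_re, ofReal_re, I_re, mul_zero, ofReal_im, I_im, mul_one, sub_self, add_zero, add_im, mul_im, zero_add, abs_of_nonneg h2, max_eq_right h1.le, Nat.reduceMod, zero_mul]
    have a1 := Int.floor_le ((N : ℝ) * (y.im + κ))
    have a2 := Int.lt_floor_add_one ((N : ℝ) * (y.im + κ))
    constructor <;> linarith
  · rw [not_le] at h1 h2
    rw [abs_of_neg h2] at h1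
    have e : (I : ℂ) ^ 3 = -I := I_pow_three
    simp only [pvxrDot, pvxrE, pvxrCell, e, mul_neg, add_re, neg_re, mul_re, ofReal_re, I_re, mul_zero, ofReal_im, I_im, mul_one, sub_self, neg_zero, add_zero, add_im, neg_im, mul_im, zero_add, abs_of_neg h2, max_eq_right h1.le, Nat.reduceMod, zero_mul]
    have a1 := Int.floor_le ((N : ℝ) * (y.im + -κ))
    have a2 := Int.lt_floor_add_one ((N : ℝ) * (y.im + -κ))
    push_cast
    constructor <;> linarith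


theorem pvxr_ok_aux {N ρ rk RK sp sm latp latm : ℝ} {a b : ℕ} {B M n : ℤ} {ep em : ℤ × ℤ} (a4 : a < 4) (b4 : b < 4)
    (N0 : 0 < N) (rho0 : 0 < ρ) (rho8 : 8 * ρ ≤ 1) (fine : 1024 ≤ N * ρ) (rk0 : 0 ≤ rk) (hRK : rk ≤ RK)
    (nd_p : |sp - rk| ≤ ρ / 10) (nd_m : |sm - rk| ≤ ρ / 10) (Lp : |latp| ≤ sp) (Lm : |latm| ≤ sm)
    (far : a = b → (4 * ρ / 5) ^ 2 ≤ (sp - sm) ^ 2 + (latp - latm) ^ 2)
    (hB1 : N * (rk + ρ / 10) ≤ B) (hB2 : (B : ℝ) < N * (rk + ρ / 10) + 1) (hn1 : N * (ρ / 32) ≤ n) (hn2 : (n : ℝ) < N * (ρ / 32) + 1) (hM : N * (RK + 1) ≤ M)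
    (np : N * (sp + 3 * ρ / 8) - 1 < (pvxrDot ep (pvxrE a) : ℤ) ∧ ((pvxrDot ep (pvxrE a) : ℤ) : ℝ) < N * (sp + 3 * ρ / 8) + 1)
    (nm : N * (sm + 3 * ρ / 8) - 1 < (pvxrDot em (pvxrE b) : ℤ) ∧ ((pvxrDot em (pvxrE b) : ℤ) : ℝ) < N * (sm + 3 * ρ / 8) + 1)
    (lp : N * latp - 1 < (pvxrDot ep (pvxrE (a + 1)) : ℤ) ∧ ((pvxrDot ep (pvxrE (a + 1)) : ℤ) : ℝ) < N * latp + 1)
    (lm : N * latm - 1 < (pvxrDot em (pvxrE (b + 1)) : ℤ) ∧ ((pvxrDot em (pvxrE (b + 1)) : ℤ) : ℝ) < N * latm + 1) :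
    PvxrOK B M a b ep em n := by
  rw [abs_le] at nd_p nd_m Lp Lm
  obtain ⟨np1, np2⟩ := np
  obtain ⟨nm1, nm2⟩ := nm
  obtain ⟨lp1, lp2⟩ := lp
  obtain ⟨lm1, lm2⟩ := lm
  have q1 : N * (sp - rk) ≤ N * (ρ / 10) := mul_le_mul_of_nonneg_left nd_p.2 N0.le
  have q2 : N * (-(ρ / 10)) ≤ N * (sp - rk) := mul_le_mul_of_nonneg_left nd_p.1 N0.le
  have q3 : N * (sm - rk) ≤ N * (ρ / 10) := mul_le_mul_of_nonneg_left nd_m.2 N0.le
  have q4 : N * (-(ρ / 10)) ≤ N * (sm - rk) := mul_le_mul_of_nonneg_left nd_m.1 N0.le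
  have q5 : N * latp ≤ N * sp := mul_le_mul_of_nonneg_left Lp.2 N0.le
  have q6 : N * (-sp) ≤ N * latp := mul_le_mul_of_nonneg_left Lp.1 N0.le
  have q7 : N * latm ≤ N * sm := mul_le_mul_of_nonneg_left Lm.2 N0.le
  have q8 : N * (-sm) ≤ N * latm := mul_le_mul_of_nonneg_left Lm.1 N0.le
  have q9 : N * rk ≤ N * RK := mul_le_mul_of_nonneg_left hRK N0.le
  have q10 : N * (8 * ρ) ≤ N * 1 := mul_le_mul_of_nonneg_left rho8 N0.le
  have q11 : 0 ≤ N * rk := mul_nonneg N0.le rk0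
  simp only [mul_add, mul_sub, mul_neg, mul_one] at *
  have r1 : N * (ρ / 10) = N * ρ / 10 := by ring
  have r2 : N * (ρ / 32) = N * ρ / 32 := by ring
  have r3 : N * (3 * ρ / 8) = 3 * (N * ρ) / 8 := by ring
  have r4 : N * (8 * ρ) = 8 * (N * ρ) := by ring
  rw [r1] at q1 q2 q3 q4 hB1 hB2
  rw [r2] at hn1 hn2
  rw [r3] at np1 np2 nm1 nm2
  rw [r4] at q10
  refine ⟨a4, b4, ?_, ?_, ?_, ?_, ?_, ?_, ?_, ?_, ?_⟩
  · have : (0 : ℝ) ≤ (n : ℝ) := by linarith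
    exact_mod_cast this
  · have : (0 : ℝ) ≤ (B : ℝ) := by linarith
    exact_mod_cast this
  · have : (B : ℝ) < (pvxrDot ep (pvxrE a) : ℤ) := by linarith
    exact_mod_cast this
  · rw [abs_le]
    constructor
    · have : (-(B : ℝ)) - 1 < (pvxrDot ep (pvxrE (a + 1)) : ℤ) := by linarith
      have h2 : -B - 1 < pvxrDot ep (pvxrE (a + 1)) := by exact_mod_cast this
      omega
    · have : ((pvxrDot ep (pvxrE (a + 1)) : ℤ) : ℝ) < B + 1 := by linarith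
      have h2 : pvxrDot ep (pvxrE (a + 1)) < B + 1 := by exact_mod_cast this
      omega
  · have : (B : ℝ) + 2 * n < (pvxrDot em (pvxrE b) : ℤ) := by linarith
    exact_mod_cast this
  · rw [abs_le]
    constructor
    · have : (-(B : ℝ)) - 1 < (pvxrDot em (pvxrE (b + 1)) : ℤ) := by linarith
      have h2 : -B - 1 < pvxrDot em (pvxrE (b + 1)) := by exact_mod_cast this
      omega
    · have : ((pvxrDot em (pvxrE (b + 1)) : ℤ) : ℝ) < B + 1 := by linarith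
      have h2 : pvxrDot em (pvxrE (b + 1)) < B + 1 := by exact_mod_cast this
      omega
  · have : ((pvxrDot ep (pvxrE a) : ℤ) : ℝ) < M := by linarith
    exact_mod_cast this
  · have : ((pvxrDot em (pvxrE b) : ℤ) : ℝ) + 9 * (2 * n + 1) < M := by linarith
    exact_mod_cast this
  · intro hab
    subst hab
    have f := far rfl
    have d1 : |sp - sm| ≤ ρ / 5 := by rw [abs_le]; constructor <;> linarith [nd_p.1, nd_p.2, nd_m.1, nd_m.2]
    have d2 : (sp - sm) ^ 2 ≤ (ρ / 5) ^ 2 := by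
      rw [← sq_abs]; exact pow_le_pow_left₀ (abs_nonneg _) d1 2
    have d3 : (77 / 100 * ρ) ^ 2 ≤ (latp - latm) ^ 2 := by nlinarith
    have d4 : 77 / 100 * ρ ≤ |latp - latm| := by
      have := sq_le_sq.1 d3
      rwa [abs_of_nonneg (by positivity)] at this
    have d5 : N * (77 / 100 * ρ) ≤ N * |latp - latm| := mul_le_mul_of_nonneg_left d4 N0.le
    have d6 : N * |latp - latm| = |N * latp - N * latm| := by rw [← mul_sub, abs_mul, abs_of_pos N0]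
    have d7 : |N * latp - N * latm| < |((pvxrDot ep (pvxrE (a + 1)) : ℤ) : ℝ) - (pvxrDot em (pvxrE (a + 1)) : ℤ)| + 2 := by
      rcases abs_cases (N * latp - N * latm) with ⟨e, _⟩ | ⟨e, _⟩
      · rw [e]; have := le_abs_self (((pvxrDot ep (pvxrE (a + 1)) : ℤ) : ℝ) - (pvxrDot em (pvxrE (a + 1)) : ℤ)); linarith
      · rw [e]; have := neg_abs_le (((pvxrDot ep (pvxrE (a + 1)) : ℤ) : ℝ) - (pvxrDot em (pvxrE (a + 1)) : ℤ)); linarith
    have d8 : (6 : ℝ) * (2 * n + 1) < |((pvxrDot ep (pvxrE (a + 1)) : ℤ) : ℝ) - (pvxrDot em (pvxrE (a + 1)) : ℤ)| := by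
      have : N * (77 / 100 * ρ) = 77 / 100 * (N * ρ) := by ring
      linarith
    exact_mod_cast d8

/-- the cell which follows the word of a consistent polyline -/
theorem pvxr_poly_end {u : ℤ × ℤ} (hu : PvxrUnit u) (c : ℤ × ℤ) (r : List ((ℤ × ℤ) × PvtTurn)) (h : PvxrCons c u r) :
    pvtEnd (pvtZ (c + u)) (pvtZ u) (pvxrPoly c r) = pvtZ (pvxrEnd c u r) := by
  induction r generalizing c u with
  | nil => simp [pvxrPoly, pvxrEnd, pvtEnd]
  | cons x r ih =>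
    obtain ⟨C, τ⟩ := x
    obtain ⟨⟨k, hk, rfl⟩, h2⟩ := h
    obtain ⟨k, rfl⟩ : ∃ j, k = j + 1 := ⟨k - 1, by omega⟩
    have ih' := ih (hu.rot τ) _ h2
    simp only [pvxrPoly, pvxrEnd, pvxr_D_smul hu, Nat.add_sub_cancel]
    rw [← ih']
    simp only [pvtEnd, pvtAcc_append, pvtAcc_replicate_S, pvtDir_replicate_S, pvtAcc_cons, pvtZ_add, pvccRotI_eq, PvtTurn.rot, mul_one]
    have e1 : pvtZ (((k + 1 : ℕ) : ℤ) • u) = ((k : ℂ) + 1) * pvtZ u := by
      simp only [pvtZ, Prod.smul_fst, Prod.smul_snd, smul_eq_mul]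
      push_cast
      ring
    rw [e1]
    ring

/-- displacement of the word of record -/
theorem pvxr_word_disp {B M : ℤ} {a b : ℕ} {ep em : ℤ × ℤ} {n : ℤ} (h : PvxrOK B M a b ep em n) :
    pvtDisp (I ^ a) (pvxrWord M a b ep em n) = (pvtZ (em + pvxrUo b (2 * n + 1)) - (n : ℂ) - 1 / 2) - (pvtZ ep - I ^ a / 2) := by
  have h1 := pvxr_poly_end (pvxr_unit_E a) (ep - pvxrE a) _ (pvxr_cons h)
  rw [pvxr_end h, sub_add_cancel, pvxr_Z_E] at h1
  rw [pvt_disp_eq_end (pvtZ ep), pvxr_word_dir M h.a4 h.b4, pvxrWord, h1]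
  have e : pvtZ (em + pvxrUo b (2 * n + 1) - (n, 0)) = pvtZ (em + pvxrUo b (2 * n + 1)) - (n : ℂ) := by
    simp only [pvtZ, Prod.fst_sub, Prod.snd_sub, Prod.fst_add, Prod.snd_add]
    push_cast
    ring
  rw [e]

/-! ## 4. THE DOORS OF RECORD -/

/-- **the deterministic data of one level**, as a function of: the mesh `δ ≠ 0`, the number `N` of cells per `h`, the distance `κ` of the doors (units of `h`), the centres `yp ym` of the tip cells (units of `h`),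
the radius `M` of the ring road and the half size `n` of the reference plug (cells) -/
noncomputable def pvxrGeo {τ : Type} (δ : ℝ) (hδ : δ ≠ 0) (N : ℕ) (κ : ℝ) (yp ym : τ → ℂ) (M : τ → ℤ) (n : ℤ) : PvtsGeo τ where
  δ := δ
  pout := fun t => pvxrDoor δ (pvxrCell N (yp t + κ * I ^ pvxrSide (yp t))) (pvxrSide (yp t))
  pin := fun t => pvxrDoor δ (pvxrCell N (ym t + κ * I ^ pvxrSide (ym t))) (pvxrSide (ym t))
  dout := fun t => I ^ pvxrSide (yp t)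
  din := fun t => - I ^ pvxrSide (ym t)
  pin0 := - (δ : ℂ) * ((n : ℂ) + 1 / 2)
  din0 := 1
  zu := fun t => pvxrDoor δ (pvxrCell N (yp t + κ * I ^ pvxrSide (yp t))) (pvxrSide (yp t)) +
    (δ : ℂ) * pvtDisp (I ^ pvxrSide (yp t)) (pvxrWord (M t) (pvxrSide (yp t)) (pvxrSide (ym t)) (pvxrCell N (yp t + κ * I ^ pvxrSide (yp t))) (pvxrCell N (ym t + κ * I ^ pvxrSide (ym t))) n) -
      - (δ : ℂ) * ((n : ℂ) + 1 / 2)
  l1 := fun t => pvxrWord (M t) (pvxrSide (yp t)) (pvxrSide (ym t)) (pvxrCell N (yp t + κ * I ^ pvxrSide (yp t))) (pvxrCell N (ym t + κ * I ^ pvxrSide (ym t))) n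
  δ0 := hδ
  dout1 := fun t => by simp
  l1_disp := fun t => by ring
  l1_dir := fun t => pvxr_word_dir _ (pvxr_side_lt _) (pvxr_side_lt _) _ _ _

section par

variable {τ : Type} {c : ℝ} (𝔓 : PvxPar τ c)

/-- distance of the doors from the centres of the tip cells, units of `h` -/
noncomputable def pvxrKap : ℝ := 3 * 𝔓.num.rho / 8

/-- grid centre of the tip cell of `x⁺` (field of `PvwTy`, `Tr/Defs` v3) -/
def pvxrYp (t : τ) : ℂ := (𝔓.ty t).yp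

/-- grid centre of the tip cell of `x⁻` -/
def pvxrYm (t : τ) : ℂ := (𝔓.ty t).ym

/-- radius of the ring road of the type `t`, in cells: one `h` outside the largest box -/
noncomputable def pvxrM (m : ℕ) (t : τ) : ℤ := ⌈(pvlmN c m : ℝ) * (2 * (𝔓.ty t).b2 + 𝔓.num.K * 𝔓.num.rho1 + 1)⌉

/-- half size of the reference plug, in cells -/
noncomputable def pvxrNw (m : ℕ) : ℤ := ⌈(pvlmN c m : ℝ) * (𝔓.num.rho / 32)⌉

/-- **THE DOORS AND THE REFERENCE WORDS OF RECORD**, level `m` -/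
noncomputable def pvxrGam (m : ℕ) : PvtsGeo τ :=
  pvxrGeo (pvlmDel c m) (pvlm_Del_pos c m).ne' (pvlmN c m) (pvxrKap 𝔓) (pvxrYp 𝔓) (pvxrYm 𝔓) (pvxrM 𝔓 m) (pvxrNw 𝔓 m)

theorem pvxr_gam_del (m : ℕ) : (pvxrGam 𝔓 m).δ = pvlmDel c m := rfl

/-- side of the exit tip -/
noncomputable def pvxrA (t : τ) : ℕ := pvxrSide (pvxrYp 𝔓 t)
/-- side of the entrance tip -/
noncomputable def pvxrB (t : τ) : ℕ := pvxrSide (pvxrYm 𝔓 t)
/-- base cell of the exit door (= FIRST cell of every chain which leaves a pin of type `t`), relative to the centre -/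
noncomputable def pvxrEp (m : ℕ) (t : τ) : ℤ × ℤ := pvxrCell (pvlmN c m) (pvxrYp 𝔓 t + pvxrKap 𝔓 * I ^ pvxrA 𝔓 t)
/-- base cell of the entrance door (= LAST cell of every chain which arrives at a pin of type `t`), relative to the centre -/
noncomputable def pvxrEm (m : ℕ) (t : τ) : ℤ × ℤ := pvxrCell (pvlmN c m) (pvxrYm 𝔓 t + pvxrKap 𝔓 * I ^ pvxrB 𝔓 t)

theorem pvxr_gam_pout (m : ℕ) (t : τ) : (pvxrGam 𝔓 m).pout t = pvxrDoor (pvlmDel c m) (pvxrEp 𝔓 m t) (pvxrA 𝔓 t) := rfl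
theorem pvxr_gam_pin (m : ℕ) (t : τ) : (pvxrGam 𝔓 m).pin t = pvxrDoor (pvlmDel c m) (pvxrEm 𝔓 m t) (pvxrB 𝔓 t) := rfl
theorem pvxr_gam_dout (m : ℕ) (t : τ) : (pvxrGam 𝔓 m).dout t = I ^ pvxrA 𝔓 t := rfl
theorem pvxr_gam_din (m : ℕ) (t : τ) : (pvxrGam 𝔓 m).din t = - I ^ pvxrB 𝔓 t := rfl
theorem pvxr_gam_din0 (m : ℕ) : (pvxrGam 𝔓 m).din0 = 1 := rfl
theorem pvxr_gam_pin0 (m : ℕ) : (pvxrGam 𝔓 m).pin0 = - (pvlmDel c m : ℂ) * ((pvxrNw 𝔓 m : ℂ) + 1 / 2) := rfl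
theorem pvxr_gam_l1 (m : ℕ) (t : τ) : (pvxrGam 𝔓 m).l1 t = pvxrWord (pvxrM 𝔓 m t) (pvxrA 𝔓 t) (pvxrB 𝔓 t) (pvxrEp 𝔓 m t) (pvxrEm 𝔓 m t) (pvxrNw 𝔓 m) := rfl

/-! ## 5. the regions of record (= `pvfeReg` of 209 at the doors of record) and THE ROOF -/

/-- **THE REGIONS OF RECORD** of the index `π`, level `m`: `pvfeRegAt` of 209 (`Defs/FitReg.lean`) at the doors `pvxrGam`: tip cells and grid centres of the base data, `r_I = ρ h / 2`, `r_O = ρ h`, `κ = 3` -/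
noncomputable def pvxrReg (m : ℕ) (π : PvxIx τ) : PvwPat := pvfeRegAt (pvxrGam 𝔓 m) 𝔓.ty 𝔓.cp 𝔓.cm 𝔓.num (pvlmH m) π.p

/-- **(S0) PAR** = `exit_pvx_par` of `Exit/Tr.lean`, with EXPLICIT doors and regions -/
theorem pvxr_wf (h : 𝔓.WfB) : (𝔓.upd (pvxrGam 𝔓) (pvxrReg 𝔓)).Wf where
  toWfB := ⟨h.mc_eq, h.a3_le, h.b_le, h.a0, h.ab, h.gap, h.ab2, h.b2_le, h.lev, h.rho0, h.rho1, h.rho2, h.rho3, h.sep, h.cp_meas, h.cm_meas, h.Mp_meas, h.Mm_meas⟩
  reg_meas := fun m π => pvfe_regAt_meas _ _ _ _ _ _ _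
  del := fun _ => rfl
  reg_zs := fun _ _ => rfl
  reg_zt := fun _ _ => rfl
  reg_ts := fun _ _ => rfl
  reg_tt := fun _ _ => rfl
  reg_cs := fun _ _ => rfl
  reg_ct := fun _ _ => rfl
  reg_wf := fun m π => pvfe_regAt_wf _ _ _ _ (mul_pos h.rho0 (pvlm_H_pos m)).le _

theorem pvxr_par (h : 𝔓.WfB) : ∃ (Γ : ℕ → PvtsGeo τ) (reg : ℕ → PvxIx τ → PvwPat), (𝔓.upd Γ reg).Wf := ⟨pvxrGam 𝔓, pvxrReg 𝔓, pvxr_wf 𝔓 h⟩

/-! ## 6. THE FACTS ON THE DOORS AND ON THE REFERENCE CYCLE, AT THE MODEL -/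

/-- **THE DOORS IN CELL FORM** (line `doors` of 209 for `PvxPar.Wf`) -/
theorem pvxr_doors (m : ℕ)
    (nd_p : ∀ t, |pvccN (𝔓.ty t).yp - (2 * (𝔓.ty t).b2 + (𝔓.ty t).k * 𝔓.num.rho1)| ≤ 𝔓.num.rho / 4)
    (nd_m : ∀ t, |pvccN (𝔓.ty t).ym - (2 * (𝔓.ty t).b2 + (𝔓.ty t).k * 𝔓.num.rho1)| ≤ 𝔓.num.rho / 4) :
    PvfeDoors (pvxrGam 𝔓 m) 𝔓.ty 𝔓.num (pvlmH m) where
  out := fun t => by
    refine ⟨pvxrEp 𝔓 m t, pvxrE (pvxrA 𝔓 t), pvxr_dir_E _, ?_, ?_, ?_, ?_⟩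
    · rw [pvxr_gam_pout]; exact pvxr_door_eq _ _ _
    · rw [pvxr_gam_dout, pvxr_Z_E]
    · have := pvxr_cell_near (pvlm_Del_pos c m) (pvlmN c m) (pvxrYp 𝔓 t + pvxrKap 𝔓 * I ^ pvxrA 𝔓 t)
      rw [pvlm_N_mul_Del] at this
      rw [pvxr_Z_E]
      exact this
    · rw [pvxr_Z_E]; exact pvxr_side_dom _
  inn := fun t => by
    refine ⟨pvxrEm 𝔓 m t, pvxrE (pvxrB 𝔓 t), pvxr_dir_E _, ?_, ?_, ?_, ?_⟩
    · rw [pvxr_gam_pin, pvxr_door_eq, add_comm]; rfl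
    · rw [pvxr_gam_din, pvxr_Z_E]
    · have := pvxr_cell_near (pvlm_Del_pos c m) (pvlmN c m) (pvxrYm 𝔓 t + pvxrKap 𝔓 * I ^ pvxrB 𝔓 t)
      rw [pvlm_N_mul_Del] at this
      rw [pvxr_Z_E]
      exact this
    · rw [pvxr_Z_E]; exact pvxr_side_dom _
  nd_p := nd_p
  nd_m := nd_m

/-- **the type `t` is not degenerate** (menu of 73: `pvxo_nd_p pvxo_nd_m pvxo_nd_far`) **and the level `m` is fine** (`m0 ≤ m`) -/
structure PvxrNdg (m : ℕ) (t : τ) : Prop where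
  rho0 : 0 < 𝔓.num.rho
  rho8 : 8 * 𝔓.num.rho ≤ 1
  rho1 : 0 ≤ 𝔓.num.rho1
  b2 : 0 ≤ (𝔓.ty t).b2
  lev : (𝔓.ty t).k ≤ 𝔓.num.K
  fine : 1024 ≤ (pvlmN c m : ℝ) * 𝔓.num.rho
  nd_p : |pvccN (𝔓.ty t).yp - (2 * (𝔓.ty t).b2 + (𝔓.ty t).k * 𝔓.num.rho1)| ≤ 𝔓.num.rho / 10
  nd_m : |pvccN (𝔓.ty t).ym - (2 * (𝔓.ty t).b2 + (𝔓.ty t).k * 𝔓.num.rho1)| ≤ 𝔓.num.rho / 10
  far : 7 * 𝔓.num.rho / 4 ≤ ‖(𝔓.ty t).yp - (𝔓.ty t).ym‖

/-- half side, in cells, of the own box fattened by `ρ h / 10` -/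
noncomputable def pvxrBx (m : ℕ) (t : τ) : ℤ := ⌈(pvlmN c m : ℝ) * (2 * (𝔓.ty t).b2 + (𝔓.ty t).k * 𝔓.num.rho1 + 𝔓.num.rho / 10)⌉

variable {𝔓} in
theorem pvxr_ok {m : ℕ} {t : τ} (h : PvxrNdg 𝔓 m t) :
    PvxrOK (pvxrBx 𝔓 m t) (pvxrM 𝔓 m t) (pvxrA 𝔓 t) (pvxrB 𝔓 t) (pvxrEp 𝔓 m t) (pvxrEm 𝔓 m t) (pvxrNw 𝔓 m) := by
  obtain ⟨rho0, rho8, rho1, b2, lev, fine, nd_p, nd_m, far⟩ := h
  have N0 : (0 : ℝ) < (pvlmN c m : ℝ) := by exact_mod_cast pvlm_N_pos c m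
  have hK : ((𝔓.ty t).k : ℝ) * 𝔓.num.rho1 ≤ 𝔓.num.K * 𝔓.num.rho1 := mul_le_mul_of_nonneg_right (by exact_mod_cast lev) rho1
  refine pvxr_ok_aux (N := (pvlmN c m : ℝ)) (ρ := 𝔓.num.rho) (rk := 2 * (𝔓.ty t).b2 + (𝔓.ty t).k * 𝔓.num.rho1) (RK := 2 * (𝔓.ty t).b2 + 𝔓.num.K * 𝔓.num.rho1)
    (sp := pvccN (𝔓.ty t).yp) (sm := pvccN (𝔓.ty t).ym) (latp := pvxrLatA (pvxrSide (𝔓.ty t).yp) (𝔓.ty t).yp) (latm := pvxrLatA (pvxrSide (𝔓.ty t).ym) (𝔓.ty t).ym)
    (pvxr_side_lt _) (pvxr_side_lt _) N0 rho0 rho8 fine (by positivity) (by linarith) nd_p nd_m (pvxr_lat_side _) (pvxr_lat_side _) ?_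
    (Int.le_ceil _) (Int.ceil_lt_add_one _) (Int.le_ceil _) (Int.ceil_lt_add_one _) (Int.le_ceil _)
    (pvxr_cell_nor _ _ _) (pvxr_cell_nor _ _ _) (pvxr_cell_lat _ (pvxr_side_lt _) _ _) (pvxr_cell_lat _ (pvxr_side_lt _) _ _)
  intro hab
  have hab' : pvxrSide (𝔓.ty t).yp = pvxrSide (𝔓.ty t).ym := hab
  have h1 := pvxr_norm_sq (pvxr_side_lt (𝔓.ty t).yp) (𝔓.ty t).yp (𝔓.ty t).ym
  have h2 := pvxr_nor_side (𝔓.ty t).yp
  have h3 := pvxr_nor_side (𝔓.ty t).ym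
  rw [← hab'] at h3 ⊢
  rw [h2, h3] at h1
  rw [← h1]
  exact pow_le_pow_left₀ (by positivity) (by linarith) 2

variable {𝔓} in
/-- **the reference plug sits where it should**: its centre is the centre of the cell `e⁻ + pvxrUo b g` -/
theorem pvxr_zu_of_ok {B : ℤ} {m : ℕ} {t : τ} (h : PvxrOK B (pvxrM 𝔓 m t) (pvxrA 𝔓 t) (pvxrB 𝔓 t) (pvxrEp 𝔓 m t) (pvxrEm 𝔓 m t) (pvxrNw 𝔓 m)) :
    (pvxrGam 𝔓 m).zu t = pvtCtr (pvlmDel c m) (pvxrEm 𝔓 m t + pvxrUo (pvxrB 𝔓 t) (2 * pvxrNw 𝔓 m + 1)) := by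
  have h1 := pvxr_word_disp h
  have h2 : (pvxrGam 𝔓 m).zu t = pvxrDoor (pvlmDel c m) (pvxrEp 𝔓 m t) (pvxrA 𝔓 t) + (pvlmDel c m : ℂ) * pvtDisp (I ^ pvxrA 𝔓 t) (pvxrWord (pvxrM 𝔓 m t) (pvxrA 𝔓 t) (pvxrB 𝔓 t) (pvxrEp 𝔓 m t) (pvxrEm 𝔓 m t) (pvxrNw 𝔓 m)) -
      - (pvlmDel c m : ℂ) * ((pvxrNw 𝔓 m : ℂ) + 1 / 2) := rfl
  rw [h2, h1, pvxr_ctr_eq, pvxrDoor]
  ring

variable {𝔓} in
/-- **the centre of the reference plug** [166] -/
theorem pvxr_zu {m : ℕ} {t : τ} (h : PvxrNdg 𝔓 m t) : (pvxrGam 𝔓 m).zu t = pvtCtr (pvlmDel c m) (pvxrEm 𝔓 m t + pvxrUo (pvxrB 𝔓 t) (2 * pvxrNw 𝔓 m + 1)) :=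
  pvxr_zu_of_ok (pvxr_ok h)

/-- normal coordinate of the centre of a cell -/
theorem pvxr_nor_ctr {δ : ℝ} (hδ : 0 < δ) {b : ℕ} (hb : b < 4) (e : ℤ × ℤ) : ((pvxrDot e (pvxrE b) : ℤ) - 1 / 2 : ℝ) * δ ≤ pvxrNorA b (pvtCtr δ e) := by
  interval_cases b <;> simp only [pvxrDot, pvxrE, pvxrNorA, pvtCtr, Nat.reduceMod, Nat.zero_mod, mul_one, mul_zero, add_zero, zero_add, mul_neg] <;> push_cast <;> nlinarith

variable {𝔓} in
/-- **the base cell `e⁻` lies in front of the own box**: the centre of `e⁻` is at normal distance `> ρ h / 10 + (2 n + 1/2) δ` from it      [166: field `front` of `PvehGeo`; `pvehFront = pvxrNorA`] -/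
theorem pvxr_front_m {m : ℕ} {t : τ} (h : PvxrNdg 𝔓 m t) :
    pvwRad 𝔓.num (pvlmH m) (𝔓.ty t) (𝔓.ty t).k + 𝔓.num.rho * pvlmH m / 10 + (2 * (pvxrNw 𝔓 m : ℝ) + 1 / 2) * pvlmDel c m ≤ pvxrNorA (pvxrB 𝔓 t) (pvtCtr (pvlmDel c m) (pvxrEm 𝔓 m t)) := by
  have hO := pvxr_ok h
  have hd := pvlm_Del_pos c m
  refine le_trans ?_ (pvxr_nor_ctr hd hO.b4 _)
  have h1 : (pvxrBx 𝔓 m t : ℝ) + 2 * (pvxrNw 𝔓 m : ℝ) + 1 ≤ (pvxrDot (pvxrEm 𝔓 m t) (pvxrE (pvxrB 𝔓 t)) : ℤ) := by exact_mod_cast hO.em_n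
  have h2 : (pvlmN c m : ℝ) * (2 * (𝔓.ty t).b2 + (𝔓.ty t).k * 𝔓.num.rho1 + 𝔓.num.rho / 10) ≤ (pvxrBx 𝔓 m t : ℝ) := Int.le_ceil _
  have h3 : pvlmH m = (pvlmN c m : ℝ) * pvlmDel c m := (pvlm_N_mul_Del c m).symm
  unfold pvwRad
  rw [h3]
  nlinarith

variable {𝔓} in
/-- the same for the base cell `e⁺` -/
theorem pvxr_front_p {m : ℕ} {t : τ} (h : PvxrNdg 𝔓 m t) :
    pvwRad 𝔓.num (pvlmH m) (𝔓.ty t) (𝔓.ty t).k + 𝔓.num.rho * pvlmH m / 10 + pvlmDel c m / 2 ≤ pvxrNorA (pvxrA 𝔓 t) (pvtCtr (pvlmDel c m) (pvxrEp 𝔓 m t)) := by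
  have hO := pvxr_ok h
  have hd := pvlm_Del_pos c m
  refine le_trans ?_ (pvxr_nor_ctr hd hO.a4 _)
  have h1 : (pvxrBx 𝔓 m t : ℝ) + 1 ≤ (pvxrDot (pvxrEp 𝔓 m t) (pvxrE (pvxrA 𝔓 t)) : ℤ) := by exact_mod_cast hO.ep_n
  have h2 : (pvlmN c m : ℝ) * (2 * (𝔓.ty t).b2 + (𝔓.ty t).k * 𝔓.num.rho1 + 𝔓.num.rho / 10) ≤ (pvxrBx 𝔓 m t : ℝ) := Int.le_ceil _
  have h3 : pvlmH m = (pvlmN c m : ℝ) * pvlmDel c m := (pvlm_N_mul_Del c m).symm
  unfold pvwRad
  rw [h3]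
  nlinarith

variable {𝔓} in
/-- **the reference word is cell-simple** -/
theorem pvxr_l1_simple {m : ℕ} {t : τ} (h : PvxrNdg 𝔓 m t) : PvccSimple ((pvxrGam 𝔓 m).l1 t) ((pvxrGam 𝔓 m).l1 t).length :=
  pvxr_word_simple (pvxr_ok h)

end par

end Claimed.Agent.R289
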