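-- KEEP
import Claimed.Agent.R289.Exit.TrPar
import Claimed.Agent.R289.Exit.ParCell

/-!
# Row 289 (S0537), THE WALL, ROAD E, roof (S0) PAR, file Exit/Par : THE PARAMETERS OF RECORD, EXPLICIT      (head + pen helper73, RULING T2bis of 24; prefix `pvxo`, `PvxNums`, `pvxTau`, `pvxParOf`)

"12 chooses NUMBERS, nobody else chooses anything."
* `PvxNums`, `PvxNums.Ok`      the numbers of road E (order of W1_208 v3 sec.0) and the explicit inequalities between them;   `N.m0` THE FIRST LEVEL OF THE WALL (`pvxo_fine`: from `m0` on, `10⁶ δ_m ≤ ρ h_m`)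
* `pvxTau N`                   THE FINITE MENU: level `k ≤ K0`, colour, orientation bit of the gate, orientation bit of the OUTER gate, geometric part `PvzgGeo n1 n2 g` of 285 (`Exit/ParCell.lean`: tip cells of mesh `ρ/10`,
                               masks = finite unions of cells of mesh `ρ''`, separated);   **NON DEGENERATE** (D11): `pvxo_nd_p pvxo_nd_m` (the tip cells sit ON the boundary of the box of the level), `pvxo_nd_far` (the two mouths are far from each other)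
* `pvxoBase N hN c`            the base data `𝔐 num col ty ty2 cp cm Mp Mm` (doors and regions: junk)
* **`pvxParOf N hN c`**        `:= (pvxoBase ..).upd (pvxrGam ..) (pvxrReg ..)`: doors and reference words of helper1 (`Exit/TrPar.lean`), regions of 209 (`Defs/FitReg.lean`)
* `pvxo_wfB`, **`pvxo_wf`**    `(pvxParOf N hN c).Wf`
* sec. 5  what the fields ARE (all `rfl`)      * sec. 6  centres of the tip cells: `pvxrYp = pvxoYp = (ty t).yp`      * sec. 7  boxes      * sec. 8  **THE MENU COVERS** (`pvxo_cover`)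
CONSUMERS use the named lemmas (fields of `Wf`, `pvxo_*`, `pvxr_*`, `pvzg_*`, `pvfe_*`); nobody unfolds.
WHY A SECOND ORIENTATION BIT: `PvwSt.Gate` READS `τ.o` (field `ori`), also for the outer actual gate of `pvxPins` (`𝔓.ty2 s.typ`): with a constant bit half of the outer gates would be refused.
WHY NON DEGENERATE: every "for all `t`" constraint on the doors (door outside the own box, reference cycle simple, the two mouths disjoint) is FALSE for a type whose tip cell sits at the centre of the pin.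
v2 (11:05Z): `Tr/Defs` v3 (`PvwTy.yp ym`), RULING S0-N (numbers of the mouth, `m0`, non degenerate menu, `K0 ≤ K` = ruling 16 (9) of 234).
-/

set_option autoImplicit false

namespace Claimed.Agent.R289

open Set Claims.C0465

/-! ## 1. the numbers -/

structure PvxNums where
  m : ℝ
  B : ℝ
  a1 : ℝ
  b1 : ℝ
  a2 : ℝ
  b2 : ℝ
  L : ℝ
  K0 : ℕ
  K : ℕ
  rho : ℝ
  rho1 : ℝ
  rho2 : ℝ
  rho3 : ℝ
  g : ℕ

namespace PvxNums

variable (N : PvxNums)

/-- the explicit inequalities -/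
structure Ok : Prop where
  m_gt : 100 < N.m
  m_lt : N.m < N.B / 10
  B_lt : 100 * N.B < N.a1
  ab1 : N.a1 < N.b1
  gap : N.b1 + 2 ≤ N.a2
  ab2 : N.a2 < N.b2
  b2_le : N.b2 ≤ N.L
  /-- the trap radius is of the order of the boxes (ruling 19 (3) of 234) -/
  L_le : N.L ≤ 4 * N.b2
  rho0 : 0 < N.rho
  rho1 : 8 * N.rho ≤ N.rho1
  rho2 : 8 * N.rho1 ≤ N.rho2
  rho3 : 8 * N.rho2 ≤ 1
  msk0 : 0 < N.rho3
  /-- the mesh of the masks is small -/
  msk : 100 * ((N.g : ℝ) + 1) * N.rho3 ≤ N.rho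
  /-- SEP in VERTEX form: cell distance `≥ 3` (ruling 16 (8) of 234) -/
  g2 : 2 ≤ N.g
  /-- the levels of the types -/
  K0_le : N.K0 ≤ N.K
  /-- the largest box contains the boxes of the types with the discs of radius `2 ρ₂ h` round their tips (ruling 16 (9) of 234) -/
  room : N.K0 * N.rho1 + 2 * N.rho2 ≤ N.K * N.rho1
  /-- the levels fill a shell of width `≤ 3 h` -/
  shell : N.K * N.rho1 ≤ 3

/-- everything a type describes lies in the square of half side `big` (units of `h`): the largest box has half side `2 b₂ + K ρ₁ ≤ 2 b₂ + 3` -/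
def big : ℝ := 2 * N.b2 + 4

/-- half side of the box of level `k` (units of `h`) -/
def rad (k : ℕ) : ℝ := 2 * N.b2 + k * N.rho1

/-- mesh of the tip cells -/
noncomputable def e1 : ℝ := N.rho / 10

/-- range of the indices of the tip cells -/
noncomputable def n1 : ℕ := ⌈N.big / N.e1⌉₊ + 1

/-- range of the indices of the cells of the masks -/
noncomputable def n2 : ℕ := ⌈N.big / N.rho3⌉₊ + 1

/-- the numbers in the vocabulary of `Tr/Defs` -/
def num : PvwNum := ⟨N.m, N.rho, N.rho1, N.rho2, N.rho3, N.K⟩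

/-- **the first level of the wall**: from `m0` on, `δ_m ≤ 10⁻⁶ ρ h_m` (`pvxo_fine`) -/
noncomputable def m0 : ℕ := ⌈1000000 / N.rho⌉₊

variable {N}

theorem Ok.e1_pos (h : N.Ok) : 0 < N.e1 := by
  have := h.rho0
  unfold PvxNums.e1
  positivity

theorem Ok.m_pos (h : N.Ok) : 0 < N.m := by linarith [h.m_gt]

theorem Ok.B_pos (h : N.Ok) : 0 < N.B := by linarith [h.m_gt, h.m_lt]

theorem Ok.a1_pos (h : N.Ok) : 0 < N.a1 := by linarith [h.B_pos, h.B_lt]

theorem Ok.b2_pos (h : N.Ok) : 0 < N.b2 := by linarith [h.a1_pos, h.ab1, h.gap, h.ab2]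

theorem Ok.a1_le_L (h : N.Ok) : N.a1 ≤ N.L := by linarith [h.ab1, h.gap, h.ab2, h.b2_le]

theorem Ok.b1_le_L (h : N.Ok) : N.b1 ≤ N.L := by linarith [h.gap, h.ab2, h.b2_le]

theorem Ok.rho_lt_rho1 (h : N.Ok) : N.rho < N.rho1 := by linarith [h.rho0, h.rho1]

theorem Ok.rho1_pos (h : N.Ok) : 0 < N.rho1 := by linarith [h.rho0, h.rho1]

theorem Ok.rho1_lt_rho2 (h : N.Ok) : N.rho1 < N.rho2 := by linarith [h.rho1_pos, h.rho2]

theorem Ok.rho2_pos (h : N.Ok) : 0 < N.rho2 := by linarith [h.rho1_pos, h.rho2]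

theorem Ok.rho2_lt_one (h : N.Ok) : N.rho2 < 1 := by linarith [h.rho2_pos, h.rho3]

theorem Ok.rho_lt_one (h : N.Ok) : N.rho < 1 := by linarith [h.rho_lt_rho1, h.rho1_lt_rho2, h.rho2_lt_one]

theorem Ok.big_pos (h : N.Ok) : 0 < N.big := by
  have := h.b2_pos
  unfold PvxNums.big
  linarith

theorem Ok.rad_le (h : N.Ok) {k : ℕ} (hk : k ≤ N.K) : N.rad k ≤ 2 * N.b2 + 3 := by
  have h1 : (k : ℝ) * N.rho1 ≤ N.K * N.rho1 := mul_le_mul_of_nonneg_right (by exact_mod_cast hk) (by linarith [h.rho0, h.rho1])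
  have h2 := h.shell
  unfold PvxNums.rad
  linarith

theorem Ok.le_rad (h : N.Ok) (k : ℕ) : 2 * N.b2 ≤ N.rad k := by
  have h1 : 0 ≤ (k : ℝ) * N.rho1 := mul_nonneg (Nat.cast_nonneg _) (by linarith [h.rho0, h.rho1])
  unfold PvxNums.rad
  linarith

theorem Ok.big_le_n1 (h : N.Ok) : N.big ≤ N.n1 * N.e1 := by
  have h1 : N.big / N.e1 ≤ (N.n1 : ℝ) := by
    unfold PvxNums.n1
    push_cast
    linarith [Nat.le_ceil (N.big / N.e1)]
  exact (div_le_iff₀ h.e1_pos).1 h1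

theorem Ok.big_le_n2 (h : N.Ok) : N.big ≤ N.n2 * N.rho3 := by
  have h1 : N.big / N.rho3 ≤ (N.n2 : ℝ) := by
    unfold PvxNums.n2
    push_cast
    linarith [Nat.le_ceil (N.big / N.rho3)]
  exact (div_le_iff₀ h.msk0).1 h1

end PvxNums

/-- the number of cells per `h_m` is at least `m` -/
theorem pvxo_le_N {c : ℝ} (c0 : 0 < c) (m : ℕ) : (m : ℝ) ≤ pvlmN c m := by
  have hh := pvlm_H_pos m
  have h1 : pvlmH m ^ (-(pvlmQ c + m)) ≤ (pvlmN c m : ℝ) := Nat.le_ceil _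
  have h2 : pvlmH m ^ (-1 : ℝ) ≤ pvlmH m ^ (-(pvlmQ c + m)) :=
    Real.rpow_le_rpow_of_exponent_ge hh (pvlm_H_le_one m) (by have := pvlm_Q_pos c0; have : (0 : ℝ) ≤ m := Nat.cast_nonneg _; linarith)
  have h3 : pvlmH m ^ (-1 : ℝ) = 2 ^ m := by
    rw [Real.rpow_neg_one]
    unfold pvlmH
    rw [inv_pow, inv_inv]
  have h4 : (m : ℝ) ≤ 2 ^ m := by exact_mod_cast (Nat.lt_two_pow_self (n := m)).le
  linarith

/-- **from the level `⌈C / ρ⌉` on, `C δ_m ≤ ρ h_m`** -/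
theorem pvxo_fine_of {N : PvxNums} (hN : N.Ok) {c : ℝ} (c0 : 0 < c) {C : ℝ} {m : ℕ} (hm : ⌈C / N.rho⌉₊ ≤ m) : C * pvlmDel c m ≤ N.rho * pvlmH m := by
  have h1 : C / N.rho ≤ (m : ℝ) := (Nat.le_ceil _).trans (by exact_mod_cast hm)
  have h2 : C ≤ pvlmN c m * N.rho := by
    have := (div_le_iff₀ hN.rho0).1 (h1.trans (pvxo_le_N c0 m))
    linarith
  have h3 := pvlm_N_mul_Del c m
  have h4 := pvlm_Del_pos c m
  calc C * pvlmDel c m ≤ (pvlmN c m * N.rho) * pvlmDel c m := mul_le_mul_of_nonneg_right h2 h4.le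
    _ = N.rho * pvlmH m := by rw [← h3]; ring

/-- **from `m0` on, `10⁶ δ_m ≤ ρ h_m`** -/
theorem pvxo_fine {N : PvxNums} (hN : N.Ok) {c : ℝ} (c0 : 0 < c) {m : ℕ} (hm : N.m0 ≤ m) : 1000000 * pvlmDel c m ≤ N.rho * pvlmH m := pvxo_fine_of hN c0 hm

/-! ## 2. the finite menu -/

/-- the sup norm is `1`-Lipschitz -/
theorem pvxo_N_sub (a b : ℂ) : |pvccN a - pvccN b| ≤ pvccN (a - b) := by
  have h1 := pvccN_add_le (a - b) b
  have h2 := pvccN_add_le (b - a) a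
  have h3 := pvccN_neg (a - b)
  rw [sub_add_cancel] at h1 h2
  rw [neg_sub] at h3
  rw [abs_le]
  constructor <;> linarith

/-- a point of a cell is within `e / 2` of the centre, in the sup norm -/
theorem pvxo_cell_sup {e : ℝ} {q : ℤ × ℤ} {w : ℂ} (h : w ∈ pvzgCell e q) : pvccN (w - pvzgCtr e q) ≤ e / 2 := by
  obtain ⟨h1, h2, h3, h4⟩ := h
  unfold pvccN pvzgCtr
  simp only [Complex.sub_re, Complex.sub_im]
  refine max_le (abs_le.2 ⟨by linarith, by linarith⟩) (abs_le.2 ⟨by linarith, by linarith⟩)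

/-- **NON DEGENERATE** (D11): the tip cell of index `y` sits ON the boundary of the box of level `k` -/
def PvxoNd (N : PvxNums) (k : ℕ) (y : ℤ × ℤ) : Prop := |pvccN (pvzgCtr N.e1 y) - N.rad k| ≤ N.rho / 10

/-- the cell of a point near the boundary of the box is not degenerate -/
theorem pvxo_nd_of {N : PvxNums} {k : ℕ} {y : ℤ × ℤ} {w : ℂ} (hw : w ∈ pvzgCell N.e1 y) (h : |pvccN w - N.rad k| ≤ N.rho / 20) : PvxoNd N k y := by
  have h1 := pvxo_N_sub w (pvzgCtr N.e1 y)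
  have h2 := pvxo_cell_sup hw
  have h3 : N.e1 / 2 = N.rho / 20 := by unfold PvxNums.e1; ring
  unfold PvxoNd
  rw [abs_le] at h h1 ⊢
  constructor <;> linarith [h.1, h.2, h1.1, h1.2]

/-- placed form: the tip lies in the placed cell and within `ρ h / 20` (sup norm) of the boundary of the box -/
theorem pvxo_nd_of_pl {N : PvxNums} {k : ℕ} {y : ℤ × ℤ} {z x : ℂ} {h : ℝ} (hh : 0 < h) (hx : x ∈ pvxPl z h (pvzgCell N.e1 y)) (hb : |pvccN (x - z) - N.rad k * h| ≤ N.rho / 20 * h) : PvxoNd N k y := by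
  refine pvxo_nd_of ((pvzg_mem_pl hh).1 hx) ?_
  have e : pvccN ((x - z) / (h : ℂ)) = pvccN (x - z) / h := by
    have h1 : (x - z) / (h : ℂ) = ((h⁻¹ : ℝ) : ℂ) * (x - z) := by
      push_cast
      field_simp
    rw [h1, pvccN_real_mul (inv_nonneg.2 hh.le)]
    field_simp
  rw [e]
  have h2 : pvccN (x - z) / h - N.rad k = (pvccN (x - z) - N.rad k * h) / h := by field_simp
  rw [h2, abs_div, abs_of_pos hh, div_le_iff₀ hh]
  exact hb

/-- **the two mouths of a type are far from each other** -/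
def PvxoFar (N : PvxNums) (y y' : ℤ × ℤ) : Prop := 7 / 4 * N.rho ≤ ‖pvzgCtr N.e1 y - pvzgCtr N.e1 y'‖

/-- DETERMINISTIC, from the clauses `far_p`, `tip_m` of a state (`Tr/Defs` v3): a point beyond `2 ρ h` from `Y⁺`, within `ρ h / 4` of `Y⁻` -/
theorem pvxo_far_of {N : PvxNums} {y y' : ℤ × ℤ} {z v : ℂ} {h : ℝ} (hh : 0 < h) (h1 : 2 * N.rho * h < ‖v - (z + (h : ℂ) * pvzgCtr N.e1 y)‖)
    (h2 : ‖v - (z + (h : ℂ) * pvzgCtr N.e1 y')‖ ≤ N.rho * h / 4) : PvxoFar N y y' := by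
  have h3 : ‖v - (z + (h : ℂ) * pvzgCtr N.e1 y)‖ ≤ ‖v - (z + (h : ℂ) * pvzgCtr N.e1 y')‖ + ‖(h : ℂ) * (pvzgCtr N.e1 y - pvzgCtr N.e1 y')‖ := by
    have e : v - (z + (h : ℂ) * pvzgCtr N.e1 y) = (v - (z + (h : ℂ) * pvzgCtr N.e1 y')) - (h : ℂ) * (pvzgCtr N.e1 y - pvzgCtr N.e1 y') := by ring
    rw [e]
    exact norm_sub_le _ _
  rw [norm_mul, Complex.norm_real, Real.norm_eq_abs, abs_of_pos hh] at h3
  unfold PvxoFar
  have h4 : 7 / 4 * N.rho * h ≤ h * ‖pvzgCtr N.e1 y - pvzgCtr N.e1 y'‖ := by linarith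
  have h5 : (7 / 4 * N.rho) * h ≤ ‖pvzgCtr N.e1 y - pvzgCtr N.e1 y'‖ * h := by linarith
  exact le_of_mul_le_mul_right h5 hh

/-- **THE FINITE MENU**: level `k ≤ K0`, colour of the rim, orientation bit of the gate, orientation bit of the outer gate, tip cells and masks;   NON DEGENERATE: the two tip cells on the boundary of the box of the level, far from each other -/
def pvxTau (N : PvxNums) : Type :=
  {t : Fin (N.K0 + 1) × Bool × Bool × Bool × PvzgGeo N.n1 N.n2 N.g // PvxoNd N t.1.1 t.2.2.2.2.yp ∧ PvxoNd N t.1.1 t.2.2.2.2.ym ∧ PvxoFar N t.2.2.2.2.yp t.2.2.2.2.ym}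

open Classical in
noncomputable instance pvxoFintype (N : PvxNums) : Fintype (pvxTau N) := by unfold pvxTau; infer_instance

section proj

variable {N : PvxNums} (t : pvxTau N)

/-- the level -/
def pvxoK : ℕ := t.1.1.1
/-- the colour -/
def pvxoCol : Bool := t.1.2.1
/-- the orientation bit of the gate -/
def pvxoO : Bool := t.1.2.2.1
/-- the orientation bit of the outer actual gate -/
def pvxoO2 : Bool := t.1.2.2.2.1
/-- tip cells and masks -/
def pvxoG : PvzgGeo N.n1 N.n2 N.g := t.1.2.2.2.2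
/-- the centre of the tip cell of `x⁺` (units of `h`, relative to the centre of the pin) -/
noncomputable def pvxoYp : ℂ := (pvxoG t).cyp N.e1
/-- the centre of the tip cell of `x⁻` -/
noncomputable def pvxoYm : ℂ := (pvxoG t).cym N.e1
/-- the type in the vocabulary of `Tr/Defs` -/
noncomputable def pvxoTy : PvwTy := ⟨N.a1, N.b1, N.a2, N.b2, pvxoK t, pvxoO t, pvxoYp t, pvxoYm t⟩

theorem pvxo_K_le0 : pvxoK t ≤ N.K0 := Nat.lt_succ_iff.1 t.1.1.2

/-- **the exit tip cell sits on the boundary of the box of the level** -/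
theorem pvxo_nd_p : |pvccN (pvxoYp t) - N.rad (pvxoK t)| ≤ N.rho / 10 := t.2.1

/-- **the entrance tip cell sits on the boundary of the box of the level** -/
theorem pvxo_nd_m : |pvccN (pvxoYm t) - N.rad (pvxoK t)| ≤ N.rho / 10 := t.2.2.1

/-- **the two mouths are far from each other** -/
theorem pvxo_nd_far : 7 / 4 * N.rho ≤ ‖pvxoYp t - pvxoYm t‖ := t.2.2.2

end proj

/-- the type with prescribed components -/
def pvxoMk {N : PvxNums} (k : ℕ) (hk : k ≤ N.K0) (b o o2 : Bool) (G : PvzgGeo N.n1 N.n2 N.g) (hp : PvxoNd N k G.yp) (hm : PvxoNd N k G.ym) (hf : PvxoFar N G.yp G.ym) : pvxTau N :=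
  ⟨(⟨k, Nat.lt_succ_iff.2 hk⟩, b, o, o2, G), hp, hm, hf⟩

section mk

variable {N : PvxNums} (k : ℕ) (hk : k ≤ N.K0) (b o o2 : Bool) (G : PvzgGeo N.n1 N.n2 N.g) (hp : PvxoNd N k G.yp) (hm : PvxoNd N k G.ym) (hf : PvxoFar N G.yp G.ym)

theorem pvxo_mk_K : pvxoK (pvxoMk k hk b o o2 G hp hm hf) = k := rfl
theorem pvxo_mk_col : pvxoCol (pvxoMk k hk b o o2 G hp hm hf) = b := rfl
theorem pvxo_mk_O : pvxoO (pvxoMk k hk b o o2 G hp hm hf) = o := rfl
theorem pvxo_mk_O2 : pvxoO2 (pvxoMk k hk b o o2 G hp hm hf) = o2 := rfl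
theorem pvxo_mk_G : pvxoG (pvxoMk k hk b o o2 G hp hm hf) = G := rfl
theorem pvxo_mk_ty : pvxoTy (pvxoMk k hk b o o2 G hp hm hf) = ⟨N.a1, N.b1, N.a2, N.b2, k, o, G.cyp N.e1, G.cym N.e1⟩ := rfl

theorem pvxo_mk_eta (t : pvxTau N) : pvxoMk (pvxoK t) (pvxo_K_le0 t) (pvxoCol t) (pvxoO t) (pvxoO2 t) (pvxoG t) t.2.1 t.2.2.1 t.2.2.2 = t := rfl

end mk

theorem pvxo_K_le {N : PvxNums} (hN : N.Ok) (t : pvxTau N) : pvxoK t ≤ N.K := (pvxo_K_le0 t).trans hN.K0_le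

/-- the menu is not empty -/
theorem pvxo_nonempty {N : PvxNums} (hN : N.Ok) : Nonempty (pvxTau N) := by
  have he := hN.e1_pos
  have hr0 : N.rad 0 = 2 * N.b2 := by unfold PvxNums.rad; simp
  have hb := hN.b2_pos
  have hb1 : 1 < N.b2 := by linarith [hN.a1_pos, hN.ab1, hN.gap, hN.ab2]
  have key : ∀ s : ℝ, |s| = 1 → pvzgIdx N.e1 ⟨s * N.rad 0, 0⟩ ∈ pvzgBox N.n1 ∧ PvxoNd N 0 (pvzgIdx N.e1 ⟨s * N.rad 0, 0⟩) := by
    intro s hs
    have habs : |s * N.rad 0| = N.rad 0 := by rw [abs_mul, hs, one_mul, abs_of_nonneg (by rw [hr0]; linarith)]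
    have hNw : pvccN ⟨s * N.rad 0, 0⟩ = N.rad 0 := by
      unfold pvccN
      simp only [abs_zero]
      rw [max_eq_left (abs_nonneg _), habs]
    refine ⟨pvzg_idx_box he hN.big_le_n1 ?_ ?_, pvxo_nd_of (pvzg_mem_cell_idx he _) (by rw [hNw, sub_self, abs_zero]; have := hN.rho0; positivity)⟩
    · show |s * N.rad 0| ≤ N.big
      rw [habs, hr0]
      unfold PvxNums.big
      linarith
    · show |(0 : ℝ)| ≤ N.big
      rw [abs_zero]
      exact hN.big_pos.le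
  obtain ⟨b1, n1⟩ := key 1 (by simp)
  obtain ⟨b2, n2⟩ := key (-1) (by simp)
  have hfar : PvxoFar N (pvzgIdx N.e1 ⟨1 * N.rad 0, 0⟩) (pvzgIdx N.e1 ⟨-1 * N.rad 0, 0⟩) := by
    have c1 := pvxo_cell_sup (pvzg_mem_cell_idx he (⟨1 * N.rad 0, 0⟩ : ℂ))
    have c2 := pvxo_cell_sup (pvzg_mem_cell_idx he (⟨-1 * N.rad 0, 0⟩ : ℂ))
    unfold PvxoFar
    generalize pvzgCtr N.e1 (pvzgIdx N.e1 ⟨1 * N.rad 0, 0⟩) = A at c1 ⊢
    generalize pvzgCtr N.e1 (pvzgIdx N.e1 ⟨-1 * N.rad 0, 0⟩) = B at c2 ⊢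
    have d1 : |1 * N.rad 0 - A.re| ≤ N.e1 / 2 := (le_max_left _ _).trans c1
    have d2 : |-1 * N.rad 0 - B.re| ≤ N.e1 / 2 := (le_max_left _ _).trans c2
    rw [abs_le] at d1 d2
    have h3 := Complex.abs_re_le_norm (A - B)
    have h4 := le_abs_self ((A - B).re)
    rw [Complex.sub_re] at h3 h4
    have h5 : N.e1 = N.rho / 10 := rfl
    have h6 := hN.rho_lt_one
    linarith [d1.1, d1.2, d2.1, d2.2]
  exact ⟨pvxoMk 0 (Nat.zero_le _) true true true ⟨_, _, ∅, ∅, b1, b2, Finset.empty_subset _, Finset.empty_subset _, pvzg_sep_empty_left _ ∅⟩ n1 n2 hfar⟩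

/-! ## 3. the base data -/

/-- the numbers consumed by S6b -/
def pvxoMenu (N : PvxNums) (hN : N.Ok) : PvbMenu (pvxTau N) where
  mc := fun _ => N.m
  b2 := fun _ => N.B
  a3 := fun _ => N.a1
  L := N.L
  mc_gt := fun _ => hN.m_gt
  mc_lt := fun _ => hN.m_lt
  a3_gt := fun _ => hN.B_lt
  a3_le := fun _ => hN.a1_le_L

/-- **THE BASE DATA OF RECORD** (the fields `Γ`, `reg` are junk here: they are replaced in `pvxParOf`) -/
noncomputable def pvxoBase (N : PvxNums) (hN : N.Ok) (c : ℝ) : PvxPar (pvxTau N) c where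
  𝔐 := pvxoMenu N hN
  num := N.num
  col := pvxoCol
  ty := pvxoTy
  ty2 := fun t => (pvxoTy t).outer (pvxoO2 t)
  cp := fun t => (pvxoG t).cp N.e1
  cm := fun t => (pvxoG t).cm N.e1
  Mp := fun t => (pvxoG t).Mp N.rho3
  Mm := fun t => (pvxoG t).Mm N.rho3
  m0 := N.m0
  Γ := fun _ => pvxrGeo 1 one_ne_zero 1 0 (fun _ => 0) (fun _ => 0) (fun _ => 0) 0
  reg := fun _ π => pvfeReg (pvxrGeo 1 one_ne_zero 1 0 (fun _ => 0) (fun _ => 0) (fun _ => 0) 0) pvxoTy ∅ ∅ 0 0 0 0 0 π.p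

theorem pvxo_wfB (N : PvxNums) (hN : N.Ok) (c : ℝ) : (pvxoBase N hN c).WfB where
  mc_eq := fun _ => rfl
  a3_le := fun _ => le_refl _
  b_le := fun _ => hN.b1_le_L
  a0 := fun _ => hN.a1_pos
  ab := fun _ => hN.ab1
  gap := fun _ => hN.gap
  ab2 := fun _ => hN.ab2
  b2_le := fun _ => hN.b2_le
  lev := fun t => pvxo_K_le hN t
  rho0 := hN.rho0
  rho1 := hN.rho_lt_rho1
  rho2 := hN.rho1_lt_rho2
  rho3 := hN.rho2_lt_one
  sep := fun t => (pvxoG t).M_disj hN.msk0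
  cp_meas := fun t => (pvxoG t).cp_meas _
  cm_meas := fun t => (pvxoG t).cm_meas _
  Mp_meas := fun t => (pvxoG t).Mp_meas _
  Mm_meas := fun t => (pvxoG t).Mm_meas _

/-! ## 4. THE PARAMETERS OF RECORD -/

/-- **THE PARAMETERS OF ROAD E**, a function of the numbers -/
noncomputable def pvxParOf (N : PvxNums) (hN : N.Ok) (c : ℝ) : PvxPar (pvxTau N) c :=
  (pvxoBase N hN c).upd (pvxrGam (pvxoBase N hN c)) (pvxrReg (pvxoBase N hN c))

/-- **(S0) PAR** -/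
theorem pvxo_wf (N : PvxNums) (hN : N.Ok) (c : ℝ) : (pvxParOf N hN c).Wf := pvxr_wf _ (pvxo_wfB N hN c)

theorem pvxo_par_eqns_cite : True := by
  have := @PvxNums.big.eq_1; have := @PvxNums.rad.eq_1; have := @PvxNums.e1.eq_1; have := @PvxNums.n1.eq_1; have := @PvxNums.n2.eq_1; have := @PvxNums.num.eq_1; have := @PvxNums.m0.eq_1; have := @pvxTau.eq_1
  have := @pvxoK.eq_1; have := @pvxoCol.eq_1; have := @pvxoO.eq_1; have := @pvxoO2.eq_1; have := @pvxoG.eq_1; have := @pvxoYp.eq_1; have := @pvxoYm.eq_1; have := @pvxoTy.eq_1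
  have := @pvxoMk.eq_1; have := @pvxoMenu.eq_1; have := @pvxoBase.eq_1; have := @pvxParOf.eq_1; have := @PvxoNd.eq_1; have := @PvxoFar.eq_1
  trivial

/-! ## 5. what the fields are -/

section fields

variable (N : PvxNums) (hN : N.Ok) (c : ℝ)

theorem pvxo_menu : (pvxParOf N hN c).𝔐 = pvxoMenu N hN := rfl
theorem pvxo_num : (pvxParOf N hN c).num = N.num := rfl
theorem pvxo_col (t : pvxTau N) : (pvxParOf N hN c).col t = pvxoCol t := rfl
theorem pvxo_ty (t : pvxTau N) : (pvxParOf N hN c).ty t = pvxoTy t := rfl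
theorem pvxo_ty2 (t : pvxTau N) : (pvxParOf N hN c).ty2 t = ((pvxParOf N hN c).ty t).outer (pvxoO2 t) := rfl
theorem pvxo_cp (t : pvxTau N) : (pvxParOf N hN c).cp t = (pvxoG t).cp N.e1 := rfl
theorem pvxo_cm (t : pvxTau N) : (pvxParOf N hN c).cm t = (pvxoG t).cm N.e1 := rfl
theorem pvxo_Mp (t : pvxTau N) : (pvxParOf N hN c).Mp t = (pvxoG t).Mp N.rho3 := rfl
theorem pvxo_Mm (t : pvxTau N) : (pvxParOf N hN c).Mm t = (pvxoG t).Mm N.rho3 := rfl
/-- the doors of record are the doors of helper1 AT THE PARAMETERS OF RECORD THEMSELVES (they read the base data only) -/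
theorem pvxo_gam : (pvxParOf N hN c).Γ = pvxrGam (pvxParOf N hN c) := rfl
theorem pvxo_reg : (pvxParOf N hN c).reg = pvxrReg (pvxParOf N hN c) := rfl

theorem pvxo_num_m : (pvxParOf N hN c).num.m = N.m := rfl
theorem pvxo_num_rho : (pvxParOf N hN c).num.rho = N.rho := rfl
theorem pvxo_num_rho1 : (pvxParOf N hN c).num.rho1 = N.rho1 := rfl
theorem pvxo_num_rho2 : (pvxParOf N hN c).num.rho2 = N.rho2 := rfl
theorem pvxo_num_rho3 : (pvxParOf N hN c).num.rho3 = N.rho3 := rfl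
theorem pvxo_num_K : (pvxParOf N hN c).num.K = N.K := rfl
theorem pvxo_ty_a (t : pvxTau N) : ((pvxParOf N hN c).ty t).a = N.a1 := rfl
theorem pvxo_ty_b (t : pvxTau N) : ((pvxParOf N hN c).ty t).b = N.b1 := rfl
theorem pvxo_ty_a2 (t : pvxTau N) : ((pvxParOf N hN c).ty t).a2 = N.a2 := rfl
theorem pvxo_ty_b2 (t : pvxTau N) : ((pvxParOf N hN c).ty t).b2 = N.b2 := rfl
theorem pvxo_ty_k (t : pvxTau N) : ((pvxParOf N hN c).ty t).k = pvxoK t := rfl
theorem pvxo_ty_o (t : pvxTau N) : ((pvxParOf N hN c).ty t).o = pvxoO t := rfl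
theorem pvxo_ty_yp (t : pvxTau N) : ((pvxParOf N hN c).ty t).yp = pvxoYp t := rfl
theorem pvxo_ty_ym (t : pvxTau N) : ((pvxParOf N hN c).ty t).ym = pvxoYm t := rfl
theorem pvxo_ty2_a (t : pvxTau N) : ((pvxParOf N hN c).ty2 t).a = N.a2 := rfl
theorem pvxo_ty2_b (t : pvxTau N) : ((pvxParOf N hN c).ty2 t).b = N.b2 := rfl
theorem pvxo_ty2_o (t : pvxTau N) : ((pvxParOf N hN c).ty2 t).o = pvxoO2 t := rfl
theorem pvxo_menu_mc (t : pvxTau N) : (pvxParOf N hN c).𝔐.mc t = N.m := rfl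
theorem pvxo_menu_b2 (t : pvxTau N) : (pvxParOf N hN c).𝔐.b2 t = N.B := rfl
theorem pvxo_menu_a3 (t : pvxTau N) : (pvxParOf N hN c).𝔐.a3 t = N.a1 := rfl
theorem pvxo_menu_L : (pvxParOf N hN c).𝔐.L = N.L := rfl
theorem pvxo_m0 : (pvxParOf N hN c).m0 = N.m0 := rfl

end fields

/-! ## 6. the centres of the tip cells -/

/-- the centre of the bounding box of a cell (helper1) is its grid centre (285) -/
theorem pvxo_ctr_cell {e : ℝ} (he : 0 < e) (q : ℤ × ℤ) : pvxrCtr (pvzgCell e q) = pvzgCtr e q := pvzg_ctr_eq he q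

section centres

variable (N : PvxNums) (hN : N.Ok) (c : ℝ) (t : pvxTau N)

theorem pvxo_Yp : pvxrYp (pvxParOf N hN c) t = pvxoYp t := rfl

theorem pvxo_Ym : pvxrYm (pvxParOf N hN c) t = pvxoYm t := rfl

theorem pvxo_kap : pvxrKap (pvxParOf N hN c) = 3 * N.rho / 8 := rfl

/-- the grid centre of the type is the centre of its tip cell -/
theorem pvxo_Yp_mem : pvxoYp t ∈ (pvxParOf N hN c).cp t := pvzg_ctr_mem hN.e1_pos _

theorem pvxo_Ym_mem : pvxoYm t ∈ (pvxParOf N hN c).cm t := pvzg_ctr_mem hN.e1_pos _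

/-- a tip in its placed cell is within `ρ h / 10` of the placed grid centre -/
theorem pvxo_tip_p {z p : ℂ} {h : ℝ} (hh : 0 < h) (hp : p ∈ pvxPl z h ((pvxParOf N hN c).cp t)) : ‖p - (z + (h : ℂ) * pvxoYp t)‖ ≤ N.rho / 10 * h :=
  (pvxoG t).cp_near_pl hh hp

theorem pvxo_tip_m {z p : ℂ} {h : ℝ} (hh : 0 < h) (hp : p ∈ pvxPl z h ((pvxParOf N hN c).cm t)) : ‖p - (z + (h : ℂ) * pvxoYm t)‖ ≤ N.rho / 10 * h :=
  (pvxoG t).cm_near_pl hh hp

/-- the two masks of a type are far from each other -/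
theorem pvxo_mask_far {z a b : ℂ} {h : ℝ} (hh : 0 < h) (ha : a ∈ pvxPl z h ((pvxParOf N hN c).Mp t)) (hb : b ∈ pvxPl z h ((pvxParOf N hN c).Mm t)) : (N.g : ℝ) * N.rho3 * h < ‖a - b‖ :=
  (pvxoG t).M_far_pl hN.msk0 hh ha hb

end centres

/-! ## 7. boxes -/

section boxes

variable (N : PvxNums) (hN : N.Ok) (c : ℝ)

theorem pvxo_rad (h : ℝ) (t : pvxTau N) (k : ℕ) : pvwRad (pvxParOf N hN c).num h ((pvxParOf N hN c).ty t) k = N.rad k * h := rfl

theorem pvxo_box (m : ℕ) (z : ℂ) (t : pvxTau N) : (pvxParOf N hN c).box m z t = pvwSq z (N.rad N.K * pvlmH m) := rfl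

theorem pvxo_sq_mono (z : ℂ) {r r' : ℝ} (h : r ≤ r') : pvwSq z r ⊆ pvwSq z r' := fun _ hw => ⟨hw.1.trans h, hw.2.trans h⟩

theorem pvxo_mem_sq {z w : ℂ} {r : ℝ} : w ∈ pvwSq z r ↔ pvccN (w - z) ≤ r := by
  unfold pvwSq pvccN
  exact max_le_iff.symm

theorem pvxo_rad_le {h : ℝ} (hh : 0 < h) (t : pvxTau N) {k : ℕ} (hk : k ≤ N.K) : pvwRad (pvxParOf N hN c).num h ((pvxParOf N hN c).ty t) k ≤ N.big * h := by
  rw [pvxo_rad]
  refine mul_le_mul_of_nonneg_right ?_ hh.le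
  have := hN.rad_le hk
  unfold PvxNums.big
  linarith

/-- every box of a candidate lies in the square `big` -/
theorem pvxo_lev_sub_big {h : ℝ} (hh : 0 < h) (z : ℂ) (t : pvxTau N) {k : ℕ} (hk : k ≤ N.K) :
    pvwSq z (pvwRad (pvxParOf N hN c).num h ((pvxParOf N hN c).ty t) k) ⊆ pvwSq z (N.big * h) := pvxo_sq_mono z (pvxo_rad_le N hN c hh t hk)

theorem pvxo_box_sub_big (m : ℕ) (z : ℂ) (t : pvxTau N) : (pvxParOf N hN c).box m z t ⊆ pvwSq z (N.big * pvlmH m) :=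
  pvxo_lev_sub_big N hN c (pvlm_H_pos m) z t (le_refl _)

/-- the largest box contains the own box of a type with the discs of radius `2 ρ₂ h` round its points (ruling 16 (9) of 234) -/
theorem pvxo_room {N : PvxNums} (hN : N.Ok) {h : ℝ} (hh : 0 < h) {z w v : ℂ} (t : pvxTau N) (hw : w ∈ pvwSq z (N.rad (pvxoK t) * h)) (hv : ‖v - w‖ ≤ 2 * N.rho2 * h) : v ∈ pvwSq z (N.rad N.K * h) := by
  rw [pvxo_mem_sq] at hw ⊢
  have h1 := pvccN_add_le (v - w) (w - z)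
  rw [sub_add_sub_cancel] at h1
  have h2 : pvccN (v - w) ≤ ‖v - w‖ := max_le (Complex.abs_re_le_norm _) (Complex.abs_im_le_norm _)
  have h3 : (pvxoK t : ℝ) * N.rho1 ≤ N.K0 * N.rho1 := mul_le_mul_of_nonneg_right (by exact_mod_cast pvxo_K_le0 t) hN.rho1_pos.le
  have h4 : N.rad (pvxoK t) + 2 * N.rho2 ≤ N.rad N.K := by
    have := hN.room
    unfold PvxNums.rad
    linarith
  have h5 := mul_le_mul_of_nonneg_right h4 hh.le
  linarith

/-- **the trap radius is small in the patch of a pattern** (ruling 19 (3) of 234): clause (b2) of `pvxPatSet` + `L ≤ 4 b₂` -/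
theorem pvxo_LR {x : ℂ} {R : ℝ} {m : ℕ} {π : PvxIx (pvxTau N)} (hπ : π ∈ pvxPatSet (pvxParOf N hN c) x R m) : N.L * pvlmH m + pvlmH m ≤ R := by
  have h1 : 2 * (N.rad N.K * pvlmH m) + pvlmH m ≤ R := hπ.2.2.1
  have hh := pvlm_H_pos m
  have h2 : N.L * pvlmH m ≤ 2 * (N.rad N.K * pvlmH m) := by
    have h3 : N.L ≤ 2 * N.rad N.K := by linarith [hN.L_le, hN.le_rad N.K]
    nlinarith
  linarith

end boxes

/-! ## 8. THE MENU COVERS -/

/-- **THE MENU COVERS, geometric part**: two tips and two arcs in the square `big`, the arcs at distance `> 2 (g + 1) ρ'' h`: some geometric type fits, with MINIMAL masks -/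
theorem pvxo_cover_geo (N : PvxNums) (hN : N.Ok) {z : ℂ} {h : ℝ} (hh : 0 < h) {xp xm : ℂ} (hxp : xp ∈ pvwSq z (N.big * h)) (hxm : xm ∈ pvwSq z (N.big * h))
    {Xp Xm : Set ℂ} (hXp : Xp ⊆ pvwSq z (N.big * h)) (hXm : Xm ⊆ pvwSq z (N.big * h)) (hfar : ∀ a ∈ Xp, ∀ b ∈ Xm, 2 * ((N.g : ℝ) + 1) * N.rho3 * h < ‖a - b‖) :
    ∃ G : PvzgGeo N.n1 N.n2 N.g, xp ∈ pvxPl z h (G.cp N.e1) ∧ xm ∈ pvxPl z h (G.cm N.e1) ∧ Xp ⊆ pvxPl z h (G.Mp N.rho3) ∧ Xm ⊆ pvxPl z h (G.Mm N.rho3) ∧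
      (∀ q ∈ G.Ap, ∃ p ∈ Xp, pvzgIdx N.rho3 ((p - z) / (h : ℂ)) = q) ∧ ∀ q ∈ G.Am, ∃ p ∈ Xm, pvzgIdx N.rho3 ((p - z) / (h : ℂ)) = q :=
  pvzg_geo (g := N.g) hh hN.e1_pos hN.msk0 hN.big_le_n1 hN.big_le_n2 hxp hxm hXp hXm hfar

/-- **THE MENU COVERS**: level `k ≤ K0`, colour, the two orientation bits are free;   two tips within `ρ h / 20` (sup norm) of the boundary of the box of level `k`, at distance `≥ 2 ρ h` from each other, two arcs in the square `big` at distance `> 2 (g + 1) ρ'' h`: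
some type of the menu fits, with MINIMAL masks -/
theorem pvxo_cover (N : PvxNums) (hN : N.Ok) (c : ℝ) {z : ℂ} {h : ℝ} (hh : 0 < h) (k : ℕ) (hk : k ≤ N.K0) (b o o2 : Bool) {xp xm : ℂ}
    (hxp : |pvccN (xp - z) - N.rad k * h| ≤ N.rho / 20 * h) (hxm : |pvccN (xm - z) - N.rad k * h| ≤ N.rho / 20 * h) (hx : 2 * N.rho * h ≤ ‖xp - xm‖)
    {Xp Xm : Set ℂ} (hXp : Xp ⊆ pvwSq z (N.big * h)) (hXm : Xm ⊆ pvwSq z (N.big * h)) (hfar : ∀ a ∈ Xp, ∀ b ∈ Xm, 2 * ((N.g : ℝ) + 1) * N.rho3 * h < ‖a - b‖) :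
    ∃ t : pvxTau N, pvxoK t = k ∧ pvxoCol t = b ∧ pvxoO t = o ∧ pvxoO2 t = o2 ∧
      xp ∈ pvxPl z h ((pvxParOf N hN c).cp t) ∧ xm ∈ pvxPl z h ((pvxParOf N hN c).cm t) ∧ Xp ⊆ pvxPl z h ((pvxParOf N hN c).Mp t) ∧ Xm ⊆ pvxPl z h ((pvxParOf N hN c).Mm t) ∧
      (∀ q ∈ (pvxoG t).Ap, ∃ p ∈ Xp, pvzgIdx N.rho3 ((p - z) / (h : ℂ)) = q) ∧ ∀ q ∈ (pvxoG t).Am, ∃ p ∈ Xm, pvzgIdx N.rho3 ((p - z) / (h : ℂ)) = q := by
  have hbig : ∀ x : ℂ, |pvccN (x - z) - N.rad k * h| ≤ N.rho / 20 * h → x ∈ pvwSq z (N.big * h) := by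
    intro x hx
    rw [pvxo_mem_sq]
    have h1 := (abs_le.1 hx).2
    have h2 := hN.rad_le (hk.trans hN.K0_le)
    have h3 : (N.rad k + N.rho / 20) * h ≤ N.big * h := by
      refine mul_le_mul_of_nonneg_right ?_ hh.le
      have := hN.rho_lt_one
      unfold PvxNums.big
      linarith
    linarith
  obtain ⟨G, h1, h2, h3, h4, h5, h6⟩ := pvxo_cover_geo N hN hh (hbig _ hxp) (hbig _ hxm) hXp hXm hfar
  have hf : PvxoFar N G.yp G.ym := by
    have e1 : ‖xp - (z + (h : ℂ) * G.cyp N.e1)‖ ≤ N.rho / 10 * h := G.cp_near_pl hh h1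
    have e2 : ‖xm - (z + (h : ℂ) * G.cym N.e1)‖ ≤ N.rho / 10 * h := G.cm_near_pl hh h2
    have e3 : ‖xp - xm‖ ≤ ‖xp - (z + (h : ℂ) * G.cyp N.e1)‖ + ‖(h : ℂ) * (G.cyp N.e1 - G.cym N.e1)‖ + ‖xm - (z + (h : ℂ) * G.cym N.e1)‖ := by
      have e : xp - xm = (xp - (z + (h : ℂ) * G.cyp N.e1)) + (h : ℂ) * (G.cyp N.e1 - G.cym N.e1) - (xm - (z + (h : ℂ) * G.cym N.e1)) := by ring
      rw [e]
      exact (norm_sub_le _ _).trans (add_le_add_left (norm_add_le _ _) _)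
    rw [norm_mul, Complex.norm_real, Real.norm_eq_abs, abs_of_pos hh] at e3
    have e5 : (7 / 4 * N.rho) * h ≤ ‖G.cyp N.e1 - G.cym N.e1‖ * h := by
      have := mul_pos hN.rho0 hh
      linarith
    exact le_of_mul_le_mul_right e5 hh
  exact ⟨pvxoMk k hk b o o2 G (pvxo_nd_of_pl hh h1 hxp) (pvxo_nd_of_pl hh h2 hxm) hf, rfl, rfl, rfl, rfl, h1, h2, h3, h4, h5, h6⟩

/-- numbers exist (a sanity check of `Ok`; THE numbers of the wall are chosen by 12) -/
theorem pvxo_nums_exist : ∃ N : PvxNums, N.Ok :=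
  ⟨⟨101, 1011, 101101, 101102, 101104, 101105, 101105, 1, 17, 1 / 512, 1 / 64, 1 / 8, 1 / 1000000, 2⟩,
    ⟨by norm_num, by norm_num, by norm_num, by norm_num, by norm_num, by norm_num, by norm_num, by norm_num, by norm_num, by norm_num, by norm_num, by norm_num, by norm_num, by norm_num, by norm_num, by norm_num,
      by norm_num, by norm_num⟩⟩

end Claimed.Agent.R289
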