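-- KEEP
import Claimed.Agent.R289.Tr.InstL
import Claimed.Agent.R289.Exit.Par

/-!
# Row 289 (S0537), THE WALL, file Exit/NumS : **THE MESH CONSTANT `μ₁` OF THE USABLE DOOR STATES** (R23 (1') of 234)      (helper10, integrator of (NUM); prefix `pvwy_`, `pvwy`)      0 sorry

`pvwyMu ρ'' := min 1 ρ'' / 3000` : a constant of the DATUM (no level `m`, no `m₀`).      **`pvwy_hmu`** : `μ₁ δ_m ≤ pvilMu 𝔓 m / 3` for EVERY level `m` (`N_m ≥ 1` is enough: `δ_m = h_m / N_m ≤ h_m`).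
-/

set_option autoImplicit false

namespace Claimed.Agent.R289

/-- **the mesh of the usable door states**, unit cell -/
noncomputable def pvwyMu (ρ3 : ℝ) : ℝ := min 1 ρ3 / 3000

theorem pvwy_eqns_cite : True := by
  have := @pvwyMu.eq_1
  trivial

theorem pvwy_mu_pos {ρ3 : ℝ} (h : 0 < ρ3) : 0 < pvwyMu ρ3 := by
  unfold pvwyMu
  have : 0 < min 1 ρ3 := lt_min one_pos h
  positivity

theorem pvwy_mu_le (ρ3 : ℝ) : pvwyMu ρ3 ≤ 1 / 3000 := by
  unfold pvwyMu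
  have : min 1 ρ3 ≤ 1 := min_le_left _ _
  linarith

/-- `δ_m ≤ h_m` -/
theorem pvwy_del_le (c : ℝ) (m : ℕ) : pvlmDel c m ≤ pvlmH m := by
  have h1 : (1 : ℝ) ≤ pvlmN c m := by exact_mod_cast pvlm_N_pos c m
  have h2 := pvlm_N_mul_Del c m
  have h3 := (pvlm_Del_pos c m).le
  nlinarith

/-- **(hmu)**, every level -/
theorem pvwy_hmu {τ : Type} {c : ℝ} (𝔓 : PvxPar τ c) (h3 : 0 ≤ 𝔓.num.rho3) (m : ℕ) : pvwyMu 𝔓.num.rho3 * pvlmDel c m ≤ pvilMu 𝔓 m / 3 := by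
  have hd := (pvlm_Del_pos c m).le
  have key : min 1 𝔓.num.rho3 * pvlmDel c m ≤ min (pvlmDel c m) (𝔓.num.rho3 * pvlmH m) := by
    refine le_min ?_ ?_
    · calc min 1 𝔓.num.rho3 * pvlmDel c m ≤ 1 * pvlmDel c m := mul_le_mul_of_nonneg_right (min_le_left _ _) hd
        _ = pvlmDel c m := one_mul _
    · calc min 1 𝔓.num.rho3 * pvlmDel c m ≤ 𝔓.num.rho3 * pvlmDel c m := mul_le_mul_of_nonneg_right (min_le_right _ _) hd
        _ ≤ 𝔓.num.rho3 * pvlmH m := mul_le_mul_of_nonneg_left (pvwy_del_le c m) h3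
  unfold pvwyMu pvilMu
  linarith

/-- at the parameters of road E -/
theorem pvwy_hmu_par (N : PvxNums) (hN : N.Ok) (c : ℝ) (m : ℕ) : pvwyMu N.rho3 * pvlmDel c m ≤ pvilMu (pvxParOf N hN c) m / 3 :=
  pvwy_hmu (pvxParOf N hN c) hN.msk0.le m

end Claimed.Agent.R289
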