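-- KEEP
import Claimed.Agent.R289.Exit.NumI
import Claimed.Agent.R289.Exit.Adm
import Claimed.Agent.R289.Tr.FrameIso
import Claimed.Agent.R289.Tr.FrcLayB
import Claimed.Agent.R289.Tr.FrcLayE
import Claimed.Agent.R289.Tr.SideOpen
import Claimed.Agent.R289.Exit.NumS

/-!
# Row 289 (S0537), THE WALL, file Exit/NumK : **ALL OF (NUM) AT THE MODEL IN ONE STATEMENT** `exit_pvku_K`      (helper10, integrator of `U : PvkmUnit`: T11 (5) of 24, 234 12:03Z; prefix `pvdk_`, exits `exit_pvdk_*`, `exit_pvku_K`)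

CHAIN (all compiled):   `exit_pvie_eng` (field `PvnaWf.num`)  ⟸  `U : PvkmUnit`  ⟸  `PvkuOk.unit` (258, `Exit/NumQ`)  ⟸  `pvku_ok`, `pvku_in_of`  ⟸  **`exit_pvku_K : ∃ 𝔤 Hf r, PvkuK 𝔤 Hf r ∧ pvwSq 0 (3/40) ⊆ 𝔤.O₀`** (HERE)
      ⟸  `pvnn_K` (258, `Exit/NumI`: [GEO] `Tr/KitGeo`, [MEAS] [LOC] of `C A XQ` 173 `Tr/PlugEv`, [CLOSE] 244 `Tr/PlugClose`: PROVED)  +  [COV] `pvco_cov` (251, `Tr/FrameIso`: PROVED)  +  [ADM] `exit_pvkd_adm` (262, `Tr/AdmP`)  +  **(SIDE)**.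
THE DATUM:   `𝔤 := pvkgG` (258),   `r := 13/160`,   **`Hf := pvwyHf := pvhfH pvkgG.toPvkdPlug (pvjoT pvkgG.a)`** = the four side events `S⁺ S⁺ S⁻ S⁻` of route Q (174; truncation of 52).
**NOTHING IS LEFT UNDER (NUM): 0 sorry in the whole closure** ([ADM] closed 12:53Z: 262 19 219 .. ;   (SIDE) = `pvwy_side` HERE := `pvjo_t_side` (52) at `pvwy_lay_ok` (fields of 52 `Tr/FrcLayB`, 278 `Tr/FrcLayE`)).
New names of this file: prefix `pvwy_` (`pvdk_` is shared with `Exit/PinsDM` of 235: the old names `PvdkSide pvdk_sq_sub pvdk_in exit_pvdk_*` stay).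
-/

set_option autoImplicit false

namespace Claimed.Agent.R289

open Set MeasureTheory Filter Topology Claims.C0465
open scoped ENNReal

/-- **WHAT THE SIDE EVENTS OWE**, jointly: measurable, dictionary with the graph form `CH` of [ADM], the bound of [FRC] -/
structure PvdkSide (Hf : Fin 4 → Set (Conf PvPt)) : Prop where
  /-- [MEAS] -/
  mH : ∀ i, MeasurableSet (Hf i)
  /-- [HDICT]: up to `err`, the plug with its four half lanes in graph form lies in the four side events -/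
  dict : ∀ err : ℝ≥0∞, err ≠ 0 → ∀ᶠ ε in 𝓝[>] (0 : ℝ), pvkgG.HDict Hf ε err
  /-- [FRC] -/
  frc : PvkuFrc (pvkgG.glob Hf)

/-- **THE LAYOUT OF RECORD** of the connectors of route Q: fine side `1/320`, full walks and zones of 278, tile window of 258, sub-room of 52 -/
noncomputable def pvwyLay : PvjoLay := ⟨1 / 320, fun τ β => pvufL β τ, fun τ β => pvufK β τ, pvkgEt, pvjoKr⟩

/-- **THE SIDE EVENTS OF RECORD** `S⁺ S⁺ S⁻ S⁻` (174), truncation `pvjoT` (52: rooms of 174, windows of 258), NUMERAL FREE -/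
noncomputable def pvwyHf : Fin 4 → Set (Conf PvPt) := pvhfH pvkgG.toPvkdPlug (pvjoT pvkgG.a)

theorem pvwy_eqns_cite2 : True := by
  have := @pvwyLay.eq_1; have := @pvwyHf.eq_1
  trivial

/-- **THE GEOMETRY OF ROUTE Q AT THE DATUM**: the fourteen fields (52 `Tr/FrcLayB`, 278 `Tr/FrcLayE`) -/
theorem pvwy_lay_ok : pvwyLay.Ok pvkgG (pvjoT pvkgG.a) where
  mO := pvjo_b_mO
  EO := pvjo_b_EO
  dj := pvjo_b_dj
  djK := pvuf_f_djK
  w := pvuf_f_w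
  off := pvuf_f_off
  zp := pvuf_f_zp
  zm := pvuf_f_zm
  mEt := pvjo_b_mEt
  bEt := pvjo_b_bEt
  dEt := pvjo_b_dEt
  cover := pvjo_b_cover
  sub := pvjo_b_sub
  lay := fun τ => pvuf_lay τ (X0 := 0) (X1 := 357 / 640) (Y := 37 / 640) (by norm_num) (by norm_num) (by norm_num)
    (by
      rw [pvkgg_zo, neg_zero]
      exact Subset.rfl) (pvjo_b_geo_r τ)

/-- **(SIDE) AT THE SIDE EVENTS OF RECORD**: PROVED      (`pvjo_t_side` of 52 = glue of 174 `Tr/FrcM`, 294 `Tr/FrcDetL`, 272 `Tr/ForceP`, 52 `Tr/PlugFrcQ R T`) -/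
theorem pvwy_side : PvdkSide pvwyHf := by
  obtain ⟨h1, h2, h3⟩ := pvjo_t_side (𝔤 := pvkgG) (𝔱 := pvjoT pvkgG.a) (pvjo_t_geo (r := pvkgG.a) (by show (0 : ℝ) < 1 / 40; norm_num)) pvwy_lay_ok (pvze_mC pvkgg_ze)
  exact ⟨h1, h2, h3⟩

/-- the same under the name announced by 253 (his landing e47b984371 crossed mine by one minute; same statement) -/
theorem pvdk_side_T : PvdkSide (pvhfH pvkgG.toPvkdPlug (pvjoT pvkgG.a)) := pvwy_side

/-- (SIDE), existential form -/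
theorem exit_pvdk_side : ∃ Hf : Fin 4 → Set (Conf PvPt), PvdkSide Hf := ⟨pvwyHf, pvwy_side⟩

/-- the closed square of half side `3/40` (window `Ew` of the plug of record) lies in the door square -/
theorem pvdk_sq_sub : pvwSq 0 (3 / 40) ⊆ pvkgG.O₀ := by
  intro w hw
  have h1 : |(w - 0).re| ≤ 3 / 40 := hw.1
  have h2 : |(w - 0).im| ≤ 3 / 40 := hw.2
  rw [sub_zero, abs_le] at h1 h2
  exact ⟨by linarith [h1.1], by linarith [h1.2], by linarith [h2.1], by linarith [h2.2]⟩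

/-- the four debts of 258 from (SIDE) -/
theorem pvdk_in {Hf : Fin 4 → Set (Conf PvPt)} (H : PvdkSide Hf) : PvnnIn Hf where
  mH := H.mH
  adm := pvnn_adm exit_pvkd_adm H.dict
  frc := H.frc

/-- **ALL OF (NUM) AT THE MODEL** -/
theorem exit_pvku_K : ∃ (𝔤 : PvkdGeo) (Hf : Fin 4 → Set (Conf PvPt)) (r : ℝ), PvkuK 𝔤 Hf r ∧ pvwSq 0 (3 / 40) ⊆ 𝔤.O₀ := by
  obtain ⟨Hf, H⟩ := exit_pvdk_side
  exact ⟨pvkgG, Hf, 13 / 160, pvnn_K (pvdk_in H), pvdk_sq_sub⟩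

/-- the same AT THE DATUM OF RECORD (for the contracts which are equalities of data: `PvnnEng` of 258) -/
theorem exit_pvdk_K : ∃ Hf : Fin 4 → Set (Conf PvPt), PvkuK pvkgG Hf (13 / 160) := by
  obtain ⟨Hf, H⟩ := exit_pvdk_side
  exact ⟨Hf, pvnn_K (pvdk_in H)⟩

/-- **THE REFERENCE FAMILY OF RECORD** -/
theorem exit_pvdk_unit : ∃ (Hf : Fin 4 → Set (Conf PvPt)) (b q β' : ℝ≥0∞) (CB : ℝ) (h : PvkuOk (pvkgG.glob Hf) b q β' CB (13 / 160)), ∀ e, h.unit.kit e = (pvkgG.glob Hf).kit (pvP e) b q := by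
  obtain ⟨Hf, H⟩ := exit_pvdk_side
  exact ⟨Hf, pvnn_unit (pvdk_in H)⟩

/-- **ALL OF (NUM) AT THE DATUM AND AT THE SIDE EVENTS OF RECORD** -/
theorem pvwy_in : PvnnIn pvwyHf := pvdk_in pvwy_side

theorem pvwy_K : PvkuK pvkgG pvwyHf (13 / 160) := pvnn_K pvwy_in

/-! ## THE RECORD OF R24 (234, 13:23Z): open windows (125), fine mesh on the door square (174, 233) -/

/-- `PvjoLay.Ok` reads `Ln Dr Es` only -/
theorem pvwy_ok_fine {Λ : PvjoLay} {𝔤 : PvkdGeo} {𝔱 : PvhfTr} (H : Λ.Ok 𝔤 𝔱) (μ : ℝ) (W : Set ℂ) : Λ.Ok 𝔤 (𝔱.fine μ W) :=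
  ⟨H.mO, H.EO, H.dj, H.djK, H.w, H.off, H.zp, H.zm, H.mEt, H.bEt, H.dEt, H.cover, H.sub, H.lay⟩

/-- **THE TRUNCATION OF RECORD (R24 of 234)**: rooms of 174, OPEN windows of 258, fine mesh `μ₁ = pvwyMu ρ''` on the door square -/
noncomputable def pvwyT (ρ3 : ℝ) : PvhfTr := (pvhfTw pvkgG.a (fun sg => if sg then pvkgEp else pvkgEm)).fine (pvwyMu ρ3) pvkgO

theorem pvwy_eqns_cite3 : True := by
  have := @pvwyT.eq_1
  trivial

theorem pvwy_T_geo {ρ3 : ℝ} (h : 0 < ρ3) : PvhfGeo pvkgG.toPvkdPlug (pvwyT ρ3) :=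
  pvhf_geo_fine pvk2_geo (pvwy_mu_pos h) pvkgg_ze.mO pvk2_O_sub

theorem pvwy_T_ok (ρ3 : ℝ) : pvwyLay.Ok pvkgG (pvwyT ρ3) := pvwy_ok_fine (pvk2_ok_of pvwy_lay_ok fun _ => rfl) _ _

/-- **(SIDE) AT THE SIDE EVENTS OF RECORD OF R24** -/
theorem pvwy_side_rec {ρ3 : ℝ} (h : 0 < ρ3) : PvdkSide (pvhfH pvkgG.toPvkdPlug (pvwyT ρ3)) := by
  obtain ⟨h1, h2, h3⟩ := pvjo_t_side (pvwy_T_geo h) (pvwy_T_ok ρ3) (pvze_mC pvkgg_ze)
  exact ⟨h1, h2, h3⟩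

theorem pvwy_in_rec {ρ3 : ℝ} (h : 0 < ρ3) : PvnnIn (pvhfH pvkgG.toPvkdPlug (pvwyT ρ3)) := pvdk_in (pvwy_side_rec h)

end Claimed.Agent.R289
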