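-- KEEP
import Claimed.Agent.R289.Exit.EngAll
import Claimed.Agent.R289.Exit.EngU4
import Claimed.Agent.R289.Exit.NumI
import Claimed.Agent.R289.Tr.FrcM
import Claimed.Agent.R289.Tr.SideOpen
import Claimed.Agent.R289.Exit.FrcMS
import Claimed.Agent.R289.Exit.NumS
import Claimed.Agent.R289.Exit.NumK

/-!
# Row 289 (S0537), THE WALL, ROAD E, node (1) `exit_pvie_eng`, file Exit/EngRec : THE ENGINE OF RECORD AS ONE EQUATION      (pen helper124; RULING T12 of 24 = "ONE EQUATION" of 208; names `PvnaNb pvnaEngRec PvnaRec` fixed by the ruling, lemmas `pvnr_*`)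

**v3 (9, 14:00Z) = RULING R24 of 234 (ONE DEF of the side events of record; closes R23 (1') (MESH-D), DEFECT (RH) of 125):**
* `pvnaT N`                   THE TRUNCATION OF RECORD `:= pvk2T.fine (pvwyMu N.rho3) pvkgO`: rooms, targets of 174 (`pvhfT`), OPEN windows `pvkgEp pvkgEm` of 258 (125, `Tr/SideOpen`), FINE MESH `μ₁ = pvwyMu N.rho3 = min 1 ρ'' / 3000` (10, `Exit/NumS`) on ALL of the door square `O₀`
* `pvnaHf N`                  THE FOUR SIDE EVENTS OF RECORD `:= pvhfH pvkgG.toPvkdPlug (pvnaT N)` (174, `Tr/FrcM`; NOT free: 196).      **NOBODY UNFOLDS IT: API = `pvna_Hf_reads`, `pvna_Hf_mesh`, `pvna_Hf_sub`** (+ `pvna_Hf_eq`, `pvna_Hf_fin`, `pvna_geo`, `pvna_G0_mesh`, `pvna_hmu`; placed forms: `pvna_Hf_reads_at`, `pvna_Hf_mesh_at`)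
* `PvnaNb N`                  the FREE NUMBERS of the engine: thresholds `b q β'`, constant `CB`, and the proof `H : PvkuOk (pvkgG.glob (pvnaHf N)) b q β' CB (13/160)` (258, `Exit/NumQ`, `Exit/NumI`)
* **`pvna_side hN : PvdkSide (pvnaHf N)`** (PROVED: 52 `pvjo_t_side`, 174 `pvhf_lam_ok pvhf_lay_fine pvhf_geo_fine`, 125 `pvk2_geo pvk2_ok_of`, 278, 258),   **`pvnr_nb hN : Nonempty (PvnaNb N)`** (PROVED: + [ADM] `Exit/Adm`)
* `pvnaRp 𝔓 m`, `pvnaRG 𝔓 𝔊 b m ε`      PRE-U4 data of the BASE engine `pveaEng` (scale `Δ_m / 16`, window `pvehrO`): DEAD, overridden by U4, read by nobody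
* **v4 = L2: U4 (R23 (2) of 234; 84, `Exit/EngU4`)**: scale of `u` BY NAME `pvurS 𝔓 m = 2 Δ_m`, unit `(rp m).h = pvurRu 𝔓 m = Δ_m / 20`, `rO := pvnuRO` `= pvurS • O₀`, `rK := pvnuRK`, `eK := pvnuEK`, `fK := pvnuFK`, `rY := pvnuRY`, `rG := pvnuRG` (`pvurGM` of 31: window `rO`, mesh `pvilMu / 8`);   `eY := pvvzEY` (118)
* **`pvnaEngRec N hN c nb : PvieEng (pvxTau N)`** := `pvnuEngA (pvxParOf N hN c) (pvnaInRec N hN c nb) (pvnuRY ..) nb.glob nb.b` `= pvnuEng .. (pveaEng (pvxParOf N hN c) (pvnaInRec N hN c nb)) ..`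
* **`PvnaRec N hN c 𝔈`** := `∃ nb, 𝔈 = pvnaEngRec N hN c nb`
USE (T12 (3)): a roof which needs a fact on `kit A₀ XQ rG` or on a region:   `obtain ⟨nb, rfl⟩ := hR`   and proves a LEMMA at the concrete engine in its own file.      The unfolding lemmas are in sec. 2 (all `rfl`).
* **`pvnr_wf`** (PROVED) : `0 < c → PvnaWf (pvxParOf N hN c) (pvnaEngRec N hN c nb)`      for EVERY `nb`
* **`pvnr_exit`** (PROVED) : `0 < c → Nonempty (PvnaNb N) → ∃ 𝔈, PvnaWf (pvxParOf N hN c) 𝔈 ∧ PvnaRec N hN c 𝔈`;      `pvnr_nb_of` : `PvnnIn (pvnaHf N) → Nonempty (PvnaNb N)`;      **`pvnr_eng hN c0`** = NODE (1), NO HYPOTHESIS.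
-/

set_option autoImplicit false

namespace Claimed.Agent.R289

open Set MeasureTheory Claims.C0465
open scoped ENNReal

/-! ## 1. the definitions -/

/-- **THE TRUNCATION OF RECORD** (R24 of 234): rooms and targets of 174, OPEN windows of 258 (125), fine mesh `μ₁ = pvwyMu N.rho3` (10) on the whole door square -/
noncomputable def pvnaT (N : PvxNums) : PvhfTr := pvk2T.fine (pvwyMu N.rho3) pvkgO

/-- **THE FOUR SIDE EVENTS OF RECORD** (174, `Tr/FrcM`): `S⁺ S⁺ S⁻ S⁻` of the door plug of record at the truncation of record      [196: NOT a free field: E10 at the hybrid ends reads the door through `Hf` only] -/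
noncomputable def pvnaHf (N : PvxNums) : Fin 4 → Set (Conf PvPt) := pvhfH pvkgG.toPvkdPlug (pvnaT N)

/-- the same at a generic parameter (for the DEFS typed at a generic `𝔓`; `pvna_HfP : pvnaHfP (pvxParOf N hN c) = pvnaHf N` by `rfl`) -/
noncomputable def pvnaHfP {τ : Type} {c : ℝ} (𝔓 : PvxPar τ c) : Fin 4 → Set (Conf PvPt) := pvhfH pvkgG.toPvkdPlug (pvk2T.fine (pvwyMu 𝔓.num.rho3) pvkgO)

/-- **THE FREE NUMBERS OF THE ENGINE OF RECORD** -/
structure PvnaNb (N : PvxNums) where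
  /-- threshold of the propensities of the half lanes -/
  b : ℝ≥0∞
  /-- forcing constant of a cell -/
  q : ℝ≥0∞
  /-- admission constant of a door plug -/
  β' : ℝ≥0∞
  CB : ℝ
  H : PvkuOk (pvkgG.glob (pvnaHf N)) b q β' CB (13 / 160)

/-- the four side events in the form of [FRC] -/
noncomputable def PvnaNb.Hf {N : PvxNums} (_ : PvnaNb N) : Fin 4 → Set (Conf PvPt) := pvnaHf N

/-- the global datum of record (cells of side `1`) -/
noncomputable def PvnaNb.glob {N : PvxNums} (nb : PvnaNb N) : PvpgGlob := pvkgG.glob nb.Hf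

/-- the reference family of record (cells of side `1`) -/
noncomputable def PvnaNb.unit {N : PvxNums} (nb : PvnaNb N) : PvkmUnit := nb.H.unit

section defs

variable {τ : Type} {c : ℝ} (𝔓 : PvxPar τ c)

/-- **the reference plug**: only the scale is read -/
noncomputable def pvnaRp (m : ℕ) : PviePl := ⟨0, pvehDl 𝔓 m / 16, ⟨0, 0, 0, 0, 0, false, 0, 0⟩, ∅, ∅, ∅, ∅, True⟩

/-- **the usable states of the reference plug** (31): the plug of the datum (unit `1/40`), scaled by `5 Δ_m / 2 = 40 (rp m).h` (so that its unit is `(rp m).h = Δ_m / 16`), is sure GIVEN THE WHOLE WINDOW `rO m`, its four half lanes have propensity `≥ b` given `rO m` -/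
noncomputable def pvnaRG (𝔊 : PvpgGlob) (b : ℝ≥0∞) (m : ℕ) (ε : ℝ) : Set (Conf PvPt) :=
  pvpgSure (pvP ε) (pvehrO 𝔓 m ×ˢ univ) (cfMap (pvthInv 0 ((5 / 2 * pvehDl 𝔓 m : ℝ) : ℂ)) ⁻¹' 𝔊.C) ∩
    ⋂ i, pvpgThr (pvP ε) (pvehrO 𝔓 m ×ˢ univ) (cfMap (pvthInv 0 ((5 / 2 * pvehDl 𝔓 m : ℝ) : ℂ)) ⁻¹' 𝔊.H i) b

end defs

/-- the data of record which are not regions -/
noncomputable def pvnaInRec (N : PvxNums) (hN : N.Ok) (c : ℝ) (nb : PvnaNb N) : PveaIn :=
  pveaInOf nb.unit c (pvnaRp (pvxParOf N hN c)) (pvnaRp (pvxParOf N hN c)) (pvnaRG (pvxParOf N hN c) nb.glob nb.b)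

/-- **THE ENGINE OF RECORD** -/
noncomputable def pvnaEngRec (N : PvxNums) (hN : N.Ok) (c : ℝ) (nb : PvnaNb N) : PvieEng (pvxTau N) :=
  pvnuEngA (pvxParOf N hN c) (pvnaInRec N hN c nb) (pvnuRY (pvxParOf N hN c)) nb.glob nb.b

/-- **`𝔈` IS THE ENGINE OF RECORD** -/
def PvnaRec (N : PvxNums) (hN : N.Ok) (c : ℝ) (𝔈 : PvieEng (pvxTau N)) : Prop := ∃ nb : PvnaNb N, 𝔈 = pvnaEngRec N hN c nb

theorem pvnaRec_eqns_cite : True := by
  have := @pvnaT.eq_1; have := @pvnaHf.eq_1; have := @pvnaHfP.eq_1; have := @PvnaNb.Hf.eq_1; have := @PvnaNb.glob.eq_1; have := @PvnaNb.unit.eq_1; have := @pvnaRp.eq_1; have := @pvnaRG.eq_1; have := @pvnaInRec.eq_1; have := @pvnaEngRec.eq_1; have := @PvnaRec.eq_1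
  trivial

/-! ## 2. unfolding (all by `rfl`) -/

section unfold

variable (N : PvxNums) (hN : N.Ok) (c : ℝ) (nb : PvnaNb N)

/-- the cell kit: the soft kit (Sure / Thr / Fix of 34) of the datum of record at the mesh `ε / δ_m`, scaled by `δ_m` -/
theorem pvnr_kit (m : ℕ) (ε : ℝ) : (pvnaEngRec N hN c nb).kit m ε = (nb.glob.kit (pvP (ε / pvlmDel c m)) nb.b nb.q).sc (pvlmDel c m) := rfl
theorem pvnr_XQ (m : ℕ) (ε : ℝ) : (pvnaEngRec N hN c nb).XQ m ε = pvthX (nb.glob.fQ (pvP (ε / pvlmDel c m))) 0 (pvlmDel c m) := rfl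
theorem pvnr_XV (m : ℕ) (ε : ℝ) : (pvnaEngRec N hN c nb).XV m ε = pvthX (nb.glob.fV (pvP (ε / pvlmDel c m))) 0 (pvlmDel c m) := rfl
theorem pvnr_kit_O (m : ℕ) (ε : ℝ) : ((pvnaEngRec N hN c nb).kit m ε).O₀ = pvthSim 0 (pvlmDel c m) '' pvkgG.O₀ := rfl
theorem pvnr_kit_K (m : ℕ) (ε : ℝ) (t : PvtTurn) : ((pvnaEngRec N hN c nb).kit m ε).K₀ t = pvthSim 0 (pvlmDel c m) '' pvkgG.K₀ t := rfl
theorem pvnr_rp_h (m : ℕ) : ((pvnaEngRec N hN c nb).rp m).h = pvehDl (pvxParOf N hN c) m / 20 := rfl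
theorem pvnr_rp_ru (m : ℕ) : ((pvnaEngRec N hN c nb).rp m).h = pvurRu (pvxParOf N hN c) m := rfl
/-- rule `s = 40 h`: the scale of `u` BY NAME -/
theorem pvnr_S_h (m : ℕ) : pvurS (pvxParOf N hN c) m = 40 * ((pvnaEngRec N hN c nb).rp m).h := pvnu4_S_h m
theorem pvnr_rG (m : ℕ) (ε : ℝ) : (pvnaEngRec N hN c nb).rG m ε = pvnuRG (pvxParOf N hN c) nb.glob nb.b m ε := rfl
theorem pvnr_rO (m : ℕ) : (pvnaEngRec N hN c nb).rO m = pvnuRO (pvxParOf N hN c) m := rfl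
theorem pvnr_rK (m : ℕ) : (pvnaEngRec N hN c nb).rK m = pvnuRK (pvxParOf N hN c) (pvnaInRec N hN c nb).O0 m := rfl
theorem pvnr_rY (m : ℕ) : (pvnaEngRec N hN c nb).rY m = pvnuRY (pvxParOf N hN c) m := rfl
theorem pvnr_oM (m : ℕ) (t : pvxTau N) : (pvnaEngRec N hN c nb).oM m t = pvegOM (pvxParOf N hN c) m t := rfl
/-- the reference region of the door plug of level `m` -/
theorem pvnr_O0 (m : ℕ) : (pvnaInRec N hN c nb).O0 m = pvthSim 0 (pvlmDel c m) '' pvkgG.O₀ := rfl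
theorem pvnr_oK (m : ℕ) (t : pvxTau N) : (pvnaEngRec N hN c nb).oK m t = pvegOKa (pvxParOf N hN c) (pvnaInRec N hN c nb).O0 m t := rfl
theorem pvnr_oY (m : ℕ) (t : pvxTau N) : (pvnaEngRec N hN c nb).oY m t = pvegOYc (pvxParOf N hN c) m t := rfl
theorem pvnr_iM (m : ℕ) (t : pvxTau N) : (pvnaEngRec N hN c nb).iM m t = pvegIM (pvxParOf N hN c) m t := rfl
theorem pvnr_iK (m : ℕ) (t : pvxTau N) : (pvnaEngRec N hN c nb).iK m t = pvegIKa (pvxParOf N hN c) (pvnaInRec N hN c nb).O0 m t := rfl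
theorem pvnr_iY (m : ℕ) (t : pvxTau N) : (pvnaEngRec N hN c nb).iY m t = pvegIYc (pvxParOf N hN c) m t := rfl
theorem pvnr_eM (m : ℕ) (t : pvxTau N) : (pvnaEngRec N hN c nb).eM m t = pvegIM (pvxParOf N hN c) m t := rfl
theorem pvnr_eK (m : ℕ) (t : pvxTau N) : (pvnaEngRec N hN c nb).eK m t = pvnuEK (pvxParOf N hN c) m t := rfl
theorem pvnr_eY (m : ℕ) (t : pvxTau N) : (pvnaEngRec N hN c nb).eY m t = pvvzEY (pvxParOf N hN c) m t := rfl
theorem pvnr_fM (m : ℕ) (t : pvxTau N) : (pvnaEngRec N hN c nb).fM m t = pvegOM (pvxParOf N hN c) m t := rfl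
theorem pvnr_fK (m : ℕ) (t : pvxTau N) : (pvnaEngRec N hN c nb).fK m t = pvnuFK (pvxParOf N hN c) m t := rfl
theorem pvnr_fY (m : ℕ) (t : pvxTau N) : (pvnaEngRec N hN c nb).fY m t = pveffY (pvxParOf N hN c) m t := rfl

/-- (NUM) of 258 -/
theorem pvnr_num : PvkmEng (pvnaEngRec N hN c nb) c nb.unit := ⟨rfl, rfl, rfl⟩

/-- the contract of 258 on the cell kit -/
theorem pvnr_nn : PvnnEng (pvnaEngRec N hN c nb) c := ⟨nb.Hf, nb.b, nb.q, nb.β', nb.CB, nb.H, pvnr_num N hN c nb⟩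

end unfold

/-! ## 3. the contract holds at the engine of record, for every choice of the free numbers -/

section wf

variable {N : PvxNums} (hN : N.Ok) {c : ℝ}

/-- the regions of the reference family of record -/
theorem pvnr_unit_O (nb : PvnaNb N) (e : ℝ) : (nb.unit.kit e).O₀ = pvkgO := by
  unfold PvnaNb.unit
  rw [pvku_unit_kit]
  rfl

theorem pvnr_unit_K (nb : PvnaNb N) (e : ℝ) : (nb.unit.kit e).K₀ = pvkgK := by
  unfold PvnaNb.unit
  rw [pvku_unit_kit]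
  rfl

/-- the five lines on the regions of the reference family -/
theorem pvnr_unit_ok (nb : PvnaNb N) : PveaUnitOk (pvxParOf N hN c) nb.unit (pvnaRp (pvxParOf N hN c)) where
  mO := fun e => by rw [pvnr_unit_O]; exact pvkgg_ze.mO
  hO := fun e e' => by rw [pvnr_unit_O, pvnr_unit_O]
  hK := fun e e' => by rw [pvnr_unit_K, pvnr_unit_K]
  win := fun e w hw => by
    rw [pvnr_unit_O, pvkgg_O_sq]
    obtain ⟨h1, h2⟩ := hw
    exact max_lt (lt_of_le_of_lt h1 (by norm_num)) (lt_of_le_of_lt h2 (by norm_num))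
  rp_h := fun _ => rfl

/-- **THE CONTRACT ON THE DATA OF THE ENGINE, AT THE ENGINE OF RECORD** -/
theorem pvnr_wf (c0 : 0 < c) (nb : PvnaNb N) : PvnaWf (pvxParOf N hN c) (pvnaEngRec N hN c nb) := by
  have H : PveaPar (pvxParOf N hN c) (pvxParOf N hN c).m0 := pvea_par hN c0
  have h0 : PvnaWf (pvxParOf N hN c) (pveaEng (pvxParOf N hN c) (pvnaInRec N hN c nb)) := pvea_exit_par hN c0 (pvnr_unit_ok hN nb)
  obtain ⟨Cth, r, κs, hW⟩ := h0.wf
  exact pvnu4_naA H h0 pvnu4_RY_meas (fun m _ => pvnu4_RY_sub _ m)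
    (fun m _ v hv => by
      have h1 := pvnu4_RY_back m hv
      have h2 := pvur_Dl_pos H.rho0 m
      linarith)
    (fun m hm t hT => pvnu4_eF_old H hW hm hT (pvvz_eY_old (H.mu3 m) t))
    (fun m hm t hT => pvnu4_fB_old H hm hT Subset.rfl) _ _

/-- the free numbers exist as soon as the four debts of (NUM) are paid -/
theorem pvnr_nb_of (H : PvnnIn (pvnaHf N)) : Nonempty (PvnaNb N) := by
  obtain ⟨b, q, β', CB, h⟩ := pvnn_ok H
  exact ⟨⟨b, q, β', CB, h⟩⟩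

/-- **the body of `exit_pvie_eng`** (form of T12 (2)) -/
theorem pvnr_exit (c0 : 0 < c) (h : Nonempty (PvnaNb N)) : ∃ 𝔈 : PvieEng (pvxTau N), PvnaWf (pvxParOf N hN c) 𝔈 ∧ PvnaRec N hN c 𝔈 := by
  obtain ⟨nb⟩ := h
  exact ⟨pvnaEngRec N hN c nb, pvnr_wf hN c0 nb, nb, rfl⟩

end wf

/-! ## 4. THE SIDE EVENTS OF RECORD: the API (R24 of 234), (SIDE), node (1) -/

section side

variable (N : PvxNums)

theorem pvna_T_Ln : (pvnaT N).Ln = pvk2T.Ln := rfl
theorem pvna_T_Dr : (pvnaT N).Dr = pvk2T.Dr := rfl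
theorem pvna_T_Es : (pvnaT N).Es = pvk2Es := rfl
theorem pvna_T_mu : (pvnaT N).μ = pvwyMu N.rho3 := rfl
theorem pvna_T_W : (pvnaT N).W = pvkgO := rfl

theorem pvna_HfP (hN : N.Ok) (c : ℝ) : pvnaHfP (pvxParOf N hN c) = pvnaHf N := rfl

/-- the side of the half lane number `i` (`true` = exit side) -/
theorem pvna_Hf_S (i : Fin 4) : pvnaHf N i = pvhfS pvkgG.toPvkdPlug (pvnaT N) (decide (i.1 < 2)) := rfl

/-- **the side events of record = the side events at the open windows ∩ the fine mesh of the door square** -/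
theorem pvna_Hf_eq (i : Fin 4) : pvnaHf N i = pvk2H i ∩ {η | PvtrMesh (pvwyMu N.rho3) pvkgO (cfSites η)} :=
  pvhf_S_fine_eq pvkgG.toPvkdPlug (𝔱 := pvk2T) zero_le_one rfl _ _ _

/-- **(API 3)** -/
theorem pvna_Hf_sub (i : Fin 4) : pvnaHf N i ⊆ pvk2H i := by
  rw [pvna_Hf_eq]
  exact inter_subset_left

/-- **(API 2)**, reference frame: the mesh `μ₁` on the WHOLE door square -/
theorem pvna_Hf_mesh {i : Fin 4} {η : Conf PvPt} (h : η ∈ pvnaHf N i) : PvtrMesh (pvwyMu N.rho3) pvkgO (cfSites η) := (pvhf_S_fine h).2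

variable {N}

/-- [GEO] of 174 at the truncation of record -/
theorem pvna_geo (hN : N.Ok) : PvhfGeo pvkgG.toPvkdPlug (pvnaT N) := pvhf_geo_fine pvk2_geo (pvwy_mu_pos hN.msk0) pvkgg_ze.mO pvk2_O_sub

/-- **(API 1)**, reference frame: exact reader of the OPEN window of its side -/
theorem pvna_Hf_reads (hN : N.Ok) (i : Fin 4) : Conf.ReadsSet (pvk2Es (decide (i.1 < 2)) ×ˢ univ) (pvnaHf N i) := pvhf_rS (pvna_geo hN) _

/-- finitely many points in the window -/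
theorem pvna_Hf_fin {i : Fin 4} {η : Conf PvPt} (h : η ∈ pvnaHf N i) : PvtnFin (pvk2Es (decide (i.1 < 2))) η := (pvhf_S_fine h).1

/-- in the words of 52 -/
theorem pvna_Hf_jo (hN : N.Ok) (i : Fin 4) : pvnaHf N i ⊆ pvjoMesh (pvwyMu N.rho3) pvkgO := by
  intro η h
  refine (pvjo_mesh_iff _ _ η).2 ⟨pvna_Hf_mesh N h, ?_⟩
  have hf : PvtnFin pvkgO η := pvhf_S_fin (pvna_geo hN) h
  exact fun k => hf.subset fun p hp => hp.1

/-- **(hmu)** of R23 (1'): the mesh of the scaled door square is finer than a third of the mesh of the windows, EVERY level -/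
theorem pvna_hmu (hN : N.Ok) (c : ℝ) (m : ℕ) : pvwyMu N.rho3 * pvlmDel c m ≤ pvilMu (pvxParOf N hN c) m / 3 := pvwy_hmu_par N hN c m

/-- the layout of record at the truncation of record -/
theorem pvna_lay (N : PvxNums) : pvhfLam.Ok pvkgG (pvnaT N) := pvhf_lay_fine (pvk2_ok_of pvhf_lam_ok fun _ => rfl) _ _

/-- **(SIDE) AT THE SIDE EVENTS OF RECORD** -/
theorem pvna_side (hN : N.Ok) : PvdkSide (pvnaHf N) :=
  have h := pvjo_t_side (pvna_geo hN) (pvna_lay N) (pvze_mC pvkgg_ze)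
  ⟨h.1, h.2.1, h.2.2⟩

/-- **THE FREE NUMBERS EXIST** -/
theorem pvnr_nb (hN : N.Ok) : Nonempty (PvnaNb N) := pvnr_nb_of (pvdk_in (pvna_side hN))

/-- **NODE (1)**, no hypothesis -/
theorem pvnr_eng (hN : N.Ok) {c : ℝ} (c0 : 0 < c) : ∃ 𝔈 : PvieEng (pvxTau N), PvnaWf (pvxParOf N hN c) 𝔈 ∧ PvnaRec N hN c 𝔈 := pvnr_exit hN c0 (pvnr_nb hN)

end side

end Claimed.Agent.R289
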