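-- KEEP
import Claimed.Agent.R289.Exit.AnaDefs
import Claimed.Agent.R289.Defs.GdReg
import Claimed.Agent.R289.Defs.GdThick
import Claimed.Agent.R289.Tr.DenseS

/-!
# Row 289 (S0537), THE WALL, ROAD E, file Exit/GdRec : THE GOOD PART OF RECORD AS ONE EQUATION      (helper238, pen of `Exit/GdCut.lean`; RULING T14 of 24; prefix `pvgu`, `Pvgu`; `pvrgFf` = the name fixed by the ruling)

DEFS + ACCESSORS + THE KIT OF THE SUB-EXITS (0 sorry).      A ROOF AND AN INTEGRATOR OF A SUB-EXIT IMPORT THIS FILE (never `Exit/GdCut.lean`, which imports the integrators).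
* `pvguRet 𝔈` = the data `fM fK fY` of the thick return read in the engine (record `PvjtRet` of 223; its mask is not read by the event);   `pvguEf`, `pvguEfAt` = THE THICK RETURN `f : t ⇒ u` AS AN END OF 218 (`K := z + fK`, `y := z + fM \ F_out`, `A := pvjtAf` of 223, `X := 0`)
* **`pvrgFf 𝔓 𝔈 qf m ε z t`** = the thick return is FORCED IN ITS OWN EXPERIMENT `(fK ∪ (zu + rO), fM \ F_out)`      (mirror of `pvrgFe` of 256; the form asked by 7, `Exit/ThickGd.lean`: `pvek_gd_two`)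
* `pvguFeV 𝔓 𝔈 qe m ε z t` = `pvrgFe` AT THE WEIGHT `pvilV` ((M3), (L5) of 200)
* **`pvguGd 𝔓 𝔈 q qe qf`** : `PvnaGd τ` = THE GOOD PART OF RECORD:   `O := pvrgFo (q m)`,   `I := pvrgFi (q m) ∩ pvrgFe qe ∩ pvrgFf qf ∩ pvguFeV qe`,   `B := pvrgB`      (named sets of 256, `Defs/GdReg.lean`)
* **`PvguRec 𝔓 𝔈 𝔊`** := `∃ q qe qf, (∀ m, q m ≠ 0) ∧ qe ≠ 0 ∧ qf ≠ 0 ∧ 𝔊 = pvguGd 𝔓 𝔈 q qe qf`
USE (T14 (3)).   `obtain ⟨q, qe, qf, hq, hqe, hqf, rfl⟩ := hGR`, then THE ACCESSORS `pvgu_all_Fo _Fi _Fe _Ff _FeV _B` (`ω ∈ 𝔊.all ..`), `pvgu_O_Fo`, `pvgu_I_Fi _Fe _Ff _FeV`, `pvgu_B_B` (halves).      CITE THE ACCESSORS, NOT `.1.2.1`: conjuncts will be APPENDED.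
* sec. 2  `PvguNeg 𝔓 m z t S` : `(pvhbUp ε).P (U(z,t) \ S ε) → 0`;   **`PvguFrc 𝔓 m z t S`** = THE SHAPE OF A SUB-EXIT: `∃ Cert`, `(pvhbUp ε).P {conf ∉ Cert ε} → 0`, eventually `U ∩ Cert ε ⊆ S ε` (the prover CHOOSES his certificate);
          kit: `PvguFrc.inter .mono .neg`, `PvguNeg.inter .mono`, `pvgu_up_of_P` (cost under `pvP ε`, OUTER measure), `pvgu_neg_of_small`, `pvgu_frc_of_small`, **`pvgu_frc_mesh`**, `pvgu_neg_mesh` (every mesh certificate `pvrgMesh r E`, `E` bounded, is free).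
ONE MORE SET IN THE GOOD PART: the exact def line to 238: he appends a conjunct here and pays `bad` in `Exit/GdCut.lean`; nobody else moves.
-/

set_option autoImplicit false

namespace Claimed.Agent.R289

open MeasureTheory Filter Topology Set Claims.C0465
open scoped ENNReal

/-! ## 1. the good part of record -/

section gd

variable {τ : Type} {c : ℝ} (𝔓 : PvxPar τ c) (𝔈 : PvieEng τ)

/-- the data of the thick return, read in the engine      (the mask `Mk` of `PvjtRet` is not read by `pvjtLf pvjtWnf pvjtMf pvjtAf`) -/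
def pvguRet : PvjtRet τ := ⟨𝔈.fM, 𝔈.fK, 𝔈.fY, fun _ _ => univ⟩

/-- **the thick return `t ⇒ u` at the base data `(Z, F)` of `Σ_out(z,t)`**, in the record of 218 (only the event is used) -/
noncomputable def pvguEf (m : ℕ) (ε : ℝ) (z : ℂ) (t : τ) (Z : Set (ℤ × ℤ)) (F : Set ℂ) : PvkyEnd where
  K := pvieSh z (𝔈.fK m t)
  y := fun _ => pvieSh z (𝔈.fM m t) \ F
  A := pvjtAf 𝔓 𝔈 (pvguRet 𝔈) m ε z t Z
  X := fun _ => 0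

/-- the thick return at the base data OF THE CONFIGURATION `η₀` -/
noncomputable def pvguEfAt (m : ℕ) (ε : ℝ) (z : ℂ) (t : τ) (η₀ : Conf PvPt) : PvkyEnd := pvguEf 𝔓 𝔈 m ε z t (pvilZo 𝔓 m z t η₀) (pvilFo 𝔓 m z t η₀)

/-- **(Ff) THE THICK RETURN `t → reference plug` IS FORCED**, in its own experiment (reference plug integrated) -/
def pvrgFf (q : ℝ≥0∞) (m : ℕ) (ε : ℝ) (z : ℂ) (t : τ) : Set (Conf PvPt) :=
  {η | η ∈ pvrgEnd ε (pvguEfAt 𝔓 𝔈 m ε z t η) (pvieSh (pvieZu 𝔓 m z t) (𝔈.rO m)) (pvrgGr 𝔈 m ε (𝔓.col t) (pvieZu 𝔓 m z t)) q}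

/-- **(FeV) THE THICK LINK `reference plug → t` IS FORCED, AT THE WEIGHT `V`**      (since InstL v2.1 the success `pvilSA` of a soft link reads the weight: (M3) of 200; line (L5) of `Exit/GdSeam.lean`: the thick pair of `cV_L2`) -/
def pvguFeV (q : ℝ≥0∞) (m : ℕ) (ε : ℝ) (z : ℂ) (t : τ) : Set (Conf PvPt) :=
  {η | η ∈ pvrgEnd ε (pvilEeAt 𝔓 𝔈 m ε pvilV z t η) (pvieSh (pvieZu 𝔓 m z t) (𝔈.rO m)) (pvrgGr 𝔈 m ε (𝔓.col t) (pvieZu 𝔓 m z t)) q}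

/-- **THE GOOD PART OF RECORD**: `q m` = the constant of the thin end links of level `m`;   `qe`, `qf` = the constants of the thick link and of the thick return (FREE OF THE LEVEL) -/
def pvguGd (q : ℕ → ℝ≥0∞) (qe qf : ℝ≥0∞) : PvnaGd τ where
  O := fun m ε z t => pvrgFo 𝔓 𝔈 (q m) m ε z t
  I := fun m ε z t => pvrgFi 𝔓 𝔈 (q m) m ε z t ∩ pvrgFe 𝔓 𝔈 qe m ε z t ∩ pvrgFf 𝔓 𝔈 qf m ε z t ∩ pvguFeV 𝔓 𝔈 qe m ε z t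
  B := fun m _ z t => pvrgB 𝔓 m z t

/-- **`𝔊` IS THE GOOD PART OF RECORD** -/
def PvguRec (𝔊 : PvnaGd τ) : Prop := ∃ (q : ℕ → ℝ≥0∞) (qe qf : ℝ≥0∞), (∀ m, q m ≠ 0) ∧ qe ≠ 0 ∧ qf ≠ 0 ∧ 𝔊 = pvguGd 𝔓 𝔈 q qe qf

theorem pvgu_eqns_cite2 : True := by
  have := @pvguRet.eq_1; have := @pvguEf.eq_1; have := @pvguEfAt.eq_1; have := @pvrgFf.eq_1; have := @pvguFeV.eq_1; have := @pvguGd.eq_1; have := @PvguRec.eq_1
  trivial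

variable {𝔓 𝔈} {q : ℕ → ℝ≥0∞} {qe qf : ℝ≥0∞} {m : ℕ} {ε : ℝ} {z : ℂ} {t : τ}

/-! ### the halves -/

theorem pvgu_O_Fo {η : Conf PvPt} (h : η ∈ (pvguGd 𝔓 𝔈 q qe qf).O m ε z t) : η ∈ pvrgFo 𝔓 𝔈 (q m) m ε z t := h
theorem pvgu_I_Fi {η : Conf PvPt} (h : η ∈ (pvguGd 𝔓 𝔈 q qe qf).I m ε z t) : η ∈ pvrgFi 𝔓 𝔈 (q m) m ε z t := h.1.1.1
theorem pvgu_I_Fe {η : Conf PvPt} (h : η ∈ (pvguGd 𝔓 𝔈 q qe qf).I m ε z t) : η ∈ pvrgFe 𝔓 𝔈 qe m ε z t := h.1.1.2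
theorem pvgu_I_Ff {η : Conf PvPt} (h : η ∈ (pvguGd 𝔓 𝔈 q qe qf).I m ε z t) : η ∈ pvrgFf 𝔓 𝔈 qf m ε z t := h.1.2
theorem pvgu_I_FeV {η : Conf PvPt} (h : η ∈ (pvguGd 𝔓 𝔈 q qe qf).I m ε z t) : η ∈ pvguFeV 𝔓 𝔈 qe m ε z t := h.2
theorem pvgu_B_B {η : Conf PvPt} (h : η ∈ (pvguGd 𝔓 𝔈 q qe qf).B m ε z t) : η ∈ pvrgB 𝔓 m z t := h

/-! ### the good samples -/

theorem pvgu_all_O {ω : PVSample} (h : ω ∈ (pvguGd 𝔓 𝔈 q qe qf).all m ε z t) : pvConf ω ∈ (pvguGd 𝔓 𝔈 q qe qf).O m ε z t := h.1.1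
theorem pvgu_all_I {ω : PVSample} (h : ω ∈ (pvguGd 𝔓 𝔈 q qe qf).all m ε z t) : pvConf ω ∈ (pvguGd 𝔓 𝔈 q qe qf).I m ε z t := h.1.2
theorem pvgu_all_Fo {ω : PVSample} (h : ω ∈ (pvguGd 𝔓 𝔈 q qe qf).all m ε z t) : pvConf ω ∈ pvrgFo 𝔓 𝔈 (q m) m ε z t := pvgu_O_Fo (pvgu_all_O h)
theorem pvgu_all_Fi {ω : PVSample} (h : ω ∈ (pvguGd 𝔓 𝔈 q qe qf).all m ε z t) : pvConf ω ∈ pvrgFi 𝔓 𝔈 (q m) m ε z t := pvgu_I_Fi (pvgu_all_I h)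
theorem pvgu_all_Fe {ω : PVSample} (h : ω ∈ (pvguGd 𝔓 𝔈 q qe qf).all m ε z t) : pvConf ω ∈ pvrgFe 𝔓 𝔈 qe m ε z t := pvgu_I_Fe (pvgu_all_I h)
theorem pvgu_all_Ff {ω : PVSample} (h : ω ∈ (pvguGd 𝔓 𝔈 q qe qf).all m ε z t) : pvConf ω ∈ pvrgFf 𝔓 𝔈 qf m ε z t := pvgu_I_Ff (pvgu_all_I h)
theorem pvgu_all_FeV {ω : PVSample} (h : ω ∈ (pvguGd 𝔓 𝔈 q qe qf).all m ε z t) : pvConf ω ∈ pvguFeV 𝔓 𝔈 qe m ε z t := pvgu_I_FeV (pvgu_all_I h)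
theorem pvgu_all_B {ω : PVSample} (h : ω ∈ (pvguGd 𝔓 𝔈 q qe qf).all m ε z t) : pvConf ω ∈ pvrgB 𝔓 m z t := pvgu_B_B h.2

/-- membership in `pvrgFf`, unfolded: the hypothesis `h2` of `pvek_gd_two` (7) -/
theorem pvgu_mem_Ff {η : Conf PvPt} : η ∈ pvrgFf 𝔓 𝔈 qf m ε z t ↔
    η ∈ pvrgEnd ε (pvguEfAt 𝔓 𝔈 m ε z t η) (pvieSh (pvieZu 𝔓 m z t) (𝔈.rO m)) (pvrgGr 𝔈 m ε (𝔓.col t) (pvieZu 𝔓 m z t)) qf := by
  rw [pvrgFf, mem_ofPred_eq]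

theorem pvgu_mem_Fe {η : Conf PvPt} : η ∈ pvrgFe 𝔓 𝔈 qe m ε z t ↔
    η ∈ pvrgEnd ε (pvilEeAt 𝔓 𝔈 m ε pvilQ z t η) (pvieSh (pvieZu 𝔓 m z t) (𝔈.rO m)) (pvrgGr 𝔈 m ε (𝔓.col t) (pvieZu 𝔓 m z t)) qe := by
  rw [pvrgFe, mem_ofPred_eq]

/-- the event of the thick return reads `fM fK fY` only: ANY record of 223 with the regions of the engine gives the event of record -/
theorem pvgu_Af_ret (𝔯 : PvjtRet τ) (h1 : 𝔯.fM = 𝔈.fM) (h2 : 𝔯.fK = 𝔈.fK) (h3 : 𝔯.fY = 𝔈.fY) (Z : Set (ℤ × ℤ)) :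
    pvjtAf 𝔓 𝔈 (pvguRet 𝔈) m ε z t Z = pvjtAf 𝔓 𝔈 𝔯 m ε z t Z := by
  obtain ⟨a, b, c', d⟩ := 𝔯
  simp only at h1 h2 h3
  subst h1 h2 h3
  rfl

/-- the plain success of a link does not read its mask -/
theorem pvgu_A_mask (p p' : PvilPl) (Y Mk Mk' : Set ℂ) (d d' : Bool) (N : PvwNum) (b : Bool) : (⟨p, p', Y, Mk, d, d'⟩ : PvilLk).A N b = (⟨p, p', Y, Mk', d, d'⟩ : PvilLk).A N b := by
  ext η
  constructor
  · rintro ⟨𝔖, 𝔖', y, h⟩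
    exact ⟨𝔖, 𝔖', y, ⟨h.at_p, h.at_p', h.run⟩⟩
  · rintro ⟨𝔖, 𝔖', y, h⟩
    exact ⟨𝔖, 𝔖', y, ⟨h.at_p, h.at_p', h.run⟩⟩

/-- **THE EVENT OF THE THICK RETURN OF RECORD IS `pvilAf` OF `Tr/InstL` sec. 8** (168): same window, same plain event (the masks of `pvjtLf` and `pvilLf` differ; the event does not read them) -/
theorem pvgu_Af_il (Z : Set (ℤ × ℤ)) : pvjtAf 𝔓 𝔈 (pvguRet 𝔈) m ε z t Z = pvilAf 𝔓 𝔈 m ε z t Z := by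
  have e : pvjtMf 𝔓 𝔈 (pvguRet 𝔈) m z t Z = pvilMf 𝔓 𝔈 m z t Z := by
    unfold pvjtMf pvilMf pvjtLf pvilLf
    rw [pvgu_A_mask _ _ _ univ (pvieSh (pvieZu 𝔓 m z t) (𝔈.rO m) ∩ pvilHp (pvieZu 𝔓 m z t) 1)ᶜ]
    rfl
  unfold pvjtAf pvilAf
  rw [e]
  rfl

theorem pvgu_mem_FeV {η : Conf PvPt} : η ∈ pvguFeV 𝔓 𝔈 qe m ε z t ↔
    η ∈ pvrgEnd ε (pvilEeAt 𝔓 𝔈 m ε pvilV z t η) (pvieSh (pvieZu 𝔓 m z t) (𝔈.rO m)) (pvrgGr 𝔈 m ε (𝔓.col t) (pvieZu 𝔓 m z t)) qe := by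
  rw [pvguFeV, mem_ofPred_eq]

end gd

/-! ## 2. THE SHAPE OF A SUB-EXIT OF `bad`, calculus of negligible defects -/

section neg

variable {τ : Type} {c : ℝ} (𝔓 : PvxPar τ c)

/-- **the usable candidates `(z,t)` of level `m` whose configuration misses `S ε` are negligible** as `ε ↓ 0` -/
def PvguNeg (m : ℕ) (z : ℂ) (t : τ) (S : ℝ → Set (Conf PvPt)) : Prop :=
  Tendsto (fun ε => ((pvhbUp ε).P (pvMerge ⁻¹' (pvxU 𝔓 m z t \ pvConf ⁻¹' S ε))).toReal) (𝓝[>] (0 : ℝ)) (𝓝 0)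

/-- **THE SHAPE OF A SUB-EXIT**: a certificate of small cost which forces `S` on the usable candidates -/
def PvguFrc (m : ℕ) (z : ℂ) (t : τ) (S : ℝ → Set (Conf PvPt)) : Prop :=
  ∃ Cert : ℝ → Set (Conf PvPt), Tendsto (fun ε => ((pvhbUp ε).P {x | pvConf (pvMerge x) ∉ Cert ε}).toReal) (𝓝[>] (0 : ℝ)) (𝓝 0) ∧
    ∀ᶠ ε in 𝓝[>] (0 : ℝ), ∀ ω ∈ pvxU 𝔓 m z t, pvConf ω ∈ Cert ε → pvConf ω ∈ S ε

theorem pvgu_eqns_cite : True := by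
  have := @PvguNeg.eq_1; have := @PvguFrc.eq_1
  trivial

variable {𝔓} {m : ℕ} {z : ℂ} {t : τ} {S S' : ℝ → Set (Conf PvPt)}

theorem PvguNeg.inter (h : PvguNeg 𝔓 m z t S) (h' : PvguNeg 𝔓 m z t S') : PvguNeg 𝔓 m z t fun ε => S ε ∩ S' ε := by
  refine pvty_up_tendsto_union pvhbUp (fun ε => ?_) h h'
  rintro q ⟨hU, hn⟩
  by_cases h1 : pvConf (pvMerge q) ∈ S ε
  · exact Or.inr ⟨hU, fun h2 => hn ⟨h1, h2⟩⟩
  · exact Or.inl ⟨hU, h1⟩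

/-- eventually, on the usable candidates, `S ε ⊆ S' ε` -/
theorem PvguNeg.mono (h : PvguNeg 𝔓 m z t S) (hS : ∀ᶠ ε in 𝓝[>] (0 : ℝ), ∀ ω ∈ pvxU 𝔓 m z t, pvConf ω ∈ S ε → pvConf ω ∈ S' ε) : PvguNeg 𝔓 m z t S' := by
  refine squeeze_zero' (Eventually.of_forall fun ε => ENNReal.toReal_nonneg) ?_ h
  filter_upwards [hS] with ε hε
  refine ENNReal.toReal_mono ((pvhbUp ε).P_ne_top _) ((pvhbUp ε).P_mono ?_)
  rintro q ⟨hU, hn⟩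
  exact ⟨hU, fun h1 => hn (hε _ hU h1)⟩

/-- the cost of an event over the upper probability of the wall, from its cost under `pvP ε` (OUTER measure of the complement: no measurability) -/
theorem pvgu_up_of_P (h : Tendsto (fun ε => pvP ε (S ε)ᶜ) (𝓝[>] (0 : ℝ)) (𝓝 0)) : Tendsto (fun ε => ((pvhbUp ε).P {x | pvConf (pvMerge x) ∉ S ε}).toReal) (𝓝[>] (0 : ℝ)) (𝓝 0) := by
  have h1 : Tendsto (fun ε => (pvP ε (S ε)ᶜ).toReal) (𝓝[>] (0 : ℝ)) (𝓝 0) := by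
    have h0 := (ENNReal.tendsto_toReal ENNReal.zero_ne_top).comp h
    rw [ENNReal.toReal_zero] at h0
    exact h0
  refine squeeze_zero (fun ε => ENNReal.toReal_nonneg) (fun ε => ?_) h1
  have := (pv_isPpp ε).prob
  exact ENNReal.toReal_mono (measure_ne_top _ _) (pvhb_up_P_conf ε (S ε)ᶜ)

/-- an event of small cost -/
theorem pvgu_neg_of_small (𝔓 : PvxPar τ c) (m : ℕ) (z : ℂ) (t : τ) (h : Tendsto (fun ε => ((pvhbUp ε).P {x | pvConf (pvMerge x) ∉ S ε}).toReal) (𝓝[>] (0 : ℝ)) (𝓝 0)) : PvguNeg 𝔓 m z t S := by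
  refine squeeze_zero (fun ε => ENNReal.toReal_nonneg) (fun ε => ?_) h
  refine ENNReal.toReal_mono ((pvhbUp ε).P_ne_top _) ((pvhbUp ε).P_mono ?_)
  rintro q ⟨-, hn⟩
  exact hn

/-- **CERTIFICATE + FORCING ⟹ NEGLIGIBLE DEFECT** -/
theorem PvguFrc.neg (h : PvguFrc 𝔓 m z t S) : PvguNeg 𝔓 m z t S := by
  obtain ⟨Cert, h1, h2⟩ := h
  exact (pvgu_neg_of_small 𝔓 m z t h1).mono h2

theorem PvguFrc.inter (h : PvguFrc 𝔓 m z t S) (h' : PvguFrc 𝔓 m z t S') : PvguFrc 𝔓 m z t fun ε => S ε ∩ S' ε := by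
  obtain ⟨C1, a1, a2⟩ := h
  obtain ⟨C2, b1, b2⟩ := h'
  refine ⟨fun ε => C1 ε ∩ C2 ε, pvty_up_tendsto_union pvhbUp (fun ε => ?_) a1 b1, ?_⟩
  · intro x hx
    by_cases h1 : pvConf (pvMerge x) ∈ C1 ε
    · exact Or.inr fun h2 => hx ⟨h1, h2⟩
    · exact Or.inl h1
  · filter_upwards [a2, b2] with ε h1 h2 ω hU hC
    exact ⟨h1 ω hU hC.1, h2 ω hU hC.2⟩

/-- on the usable candidates a forced set forces what it implies -/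
theorem PvguFrc.mono (h : PvguFrc 𝔓 m z t S) (hS : ∀ᶠ ε in 𝓝[>] (0 : ℝ), ∀ ω ∈ pvxU 𝔓 m z t, pvConf ω ∈ S ε → pvConf ω ∈ S' ε) : PvguFrc 𝔓 m z t S' := by
  obtain ⟨C1, a1, a2⟩ := h
  refine ⟨C1, a1, ?_⟩
  filter_upwards [a2, hS] with ε h1 h2 ω hU hC
  exact h2 ω hU (h1 ω hU hC)

/-- an event of small cost is its own certificate -/
theorem pvgu_frc_of_small (𝔓 : PvxPar τ c) (m : ℕ) (z : ℂ) (t : τ) (h : Tendsto (fun ε => pvP ε (S ε)ᶜ) (𝓝[>] (0 : ℝ)) (𝓝 0)) : PvguFrc 𝔓 m z t S :=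
  ⟨S, pvgu_up_of_P h, Eventually.of_forall fun _ _ _ h1 => h1⟩

/-- **every mesh certificate is free** -/
theorem pvgu_frc_mesh (𝔓 : PvxPar τ c) (m : ℕ) (z : ℂ) (t : τ) {r : ℝ} (hr : 0 < r) {E : Set ℂ} (hE : Bornology.IsBounded E) : PvguFrc 𝔓 m z t fun _ => pvrgMesh r E :=
  pvgu_frc_of_small 𝔓 m z t (pvds_mesh_lim hr hE)

theorem pvgu_neg_mesh (𝔓 : PvxPar τ c) (m : ℕ) (z : ℂ) (t : τ) {r : ℝ} (hr : 0 < r) {E : Set ℂ} (hE : Bornology.IsBounded E) : PvguNeg 𝔓 m z t fun _ => pvrgMesh r E :=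
  (pvgu_frc_mesh 𝔓 m z t hr hE).neg

end neg

end Claimed.Agent.R289
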