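-- KEEP
import Claimed.Agent.R289.Defs.GdReg
import Claimed.Agent.R289.Tr.InstEKS

/-!
# Row 289 (S0537), THE WALL, ROAD E, file Exit/ThickGd : THE SEAM `Exit/GdCut` ⟶ THE GOOD SET OF `thick`      (helper7, architect of the field `thick`; prefix `pvek`)

`Exit/GdCut` (238, T14 of 24): the good part of record contains `pvrgFe qe` (the thick link `e : u ⇒ t` is FORCED IN ITS OWN EXPERIMENT `(eK ∪ (zu + rO), eM \ F_in)`) and `pvrgFf qf` (the thick return `f : t ⇒ u` is forced in ITS own experiment `(fK ∪ (zu + rO), fM \ F_out)`).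
The roof `Exit/Thick` (fields `bd`, `ins` of `PvekDat.At`; named set `pvjtGd` of 223) needs the two forcing lines ALONG THE ENLARGED EXPERIMENT `(eK ∪ (zu + rO) ∪ fK, (eM \ F_in) ∪ (fM \ F_out))`.
THE TRANSFER IS FREE: same seed;   the event `G` (plug usable) and the conditional probability `pvdyQ ε K ye A` read the window of the link, and inside that window the two experiments resample / recolour the same points.      MODEL FREE.
* `pvek_frc_drop`   `pvrgFrc` does not see what an experiment does off the window of `G`, `P`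
* `pvek_end_big`    an end link of 218 with constant `y`, forced in its own experiment, is forced along every experiment which agrees with its own inside its window
* **`pvek_gd_two`** the two lines of (K5) = the body of `pvjtGd` of 223, from `pvrgEnd` of `e` and `pvrgEnd` of `f`
* `pvek_win_iff_C`, `pvek_win_iff_y` the two window hypotheses from DISJOINTNESS (the form of `PvjtWf` + the window lines of `Exit/ThickLG`)
-/

set_option autoImplicit false

namespace Claimed.Agent.R289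

open Set MeasureTheory Claims.C0465
open scoped ENNReal

section transfer

variable {ε : ℝ} {C C₁ y y₁ Wn : Set ℂ} {G : Set (Conf PvPt)} {P : Conf PvPt → ℝ≥0∞} {q : ℝ≥0∞}

/-- **FORCED DOES NOT SEE WHAT THE EXPERIMENT DOES OFF THE WINDOW** -/
theorem pvek_frc_drop (hG : Conf.ReadsSet (Wn ×ˢ univ) G) (hP : Conf.Reads (Wn ×ˢ univ) P) (hC : ∀ z ∈ Wn, (z ∈ C ↔ z ∈ C₁)) (hy : ∀ z ∈ Wn, (z ∈ y ↔ z ∈ y₁)) (η : Conf PvPt) :
    η ∈ pvrgFrc ε C (fun _ => y) G P q ↔ η ∈ pvrgFrc ε C₁ (fun _ => y₁) G P q := by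
  have hG' : Conf.Reads (Wn ×ˢ univ) (fun η => η ∈ G) := fun η => propext (hG η)
  have e1 : ∀ p, (pvdyR C (fun _ => y) η p ∈ G) = (pvdyR C₁ (fun _ => y₁) η p ∈ G) := fun p => pvks_reads_drop hG' hC hy η p
  have e2 : ∀ p, P (pvdyR C (fun _ => y) η p) = P (pvdyR C₁ (fun _ => y₁) η p) := fun p => pvks_reads_drop hP hC hy η p
  rw [pvrg_mem_frc, pvrg_mem_frc]
  simp only [e1, e2]

/-- **AN END LINK FORCED IN ITS OWN EXPERIMENT IS FORCED ALONG EVERY EXPERIMENT WHICH AGREES WITH ITS OWN INSIDE ITS WINDOW** -/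
theorem pvek_end_big {e : PvkyEnd} {D ye : Set ℂ} (he : e.y = fun _ => ye) (hA : Conf.ReadsSet (Wn ×ˢ univ) e.A) (hG : Conf.ReadsSet (Wn ×ˢ univ) G)
    (hC : ∀ z ∈ Wn, (z ∈ C ↔ z ∈ e.K ∪ D)) (hy : ∀ z ∈ Wn, (z ∈ y ↔ z ∈ ye)) {η : Conf PvPt} (h : η ∈ pvrgEnd ε e D G q) :
    ∀ᵐ p ∂pvdyNu ε, pvdyR C (fun _ => y) η p ∈ G → q ≤ pvdyQ ε e.K (fun _ => ye) e.A (pvdyR C (fun _ => y) η p) := by
  unfold pvrgEnd at h
  rw [he] at h
  exact pvrg_mem_frc.1 ((pvek_frc_drop hG (pvks_Q_reads ε e.K ye hA) hC hy η).2 h)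

/-- inside a window which misses the foreign atoms the enlarged resampled region is the own one -/
theorem pvek_win_iff_C {K D K' : Set ℂ} (h : Disjoint Wn K') : ∀ z ∈ Wn, (z ∈ K ∪ D ∪ K' ↔ z ∈ K ∪ D) := fun z hz =>
  ⟨fun h1 => h1.resolve_right fun h2 => disjoint_left.1 h hz h2, Or.inl⟩

/-- the same with the own tile in the last place -/
theorem pvek_win_iff_C' {K D K' : Set ℂ} (h : Disjoint Wn K') : ∀ z ∈ Wn, (z ∈ K' ∪ D ∪ K ↔ z ∈ K ∪ D) := fun z hz =>
  ⟨fun h1 => by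
    rcases h1 with (h2 | h2) | h2
    · exact absurd h2 (disjoint_left.1 h hz)
    · exact Or.inr h2
    · exact Or.inl h2, fun h1 => by
    rcases h1 with h2 | h2
    · exact Or.inr h2
    · exact Or.inl (Or.inr h2)⟩

/-- inside a window which misses the foreign fresh sites the enlarged set of recoloured sites is the own one -/
theorem pvek_win_iff_y {ye yf : Set ℂ} (h : Disjoint Wn yf) : ∀ z ∈ Wn, (z ∈ ye ∪ yf ↔ z ∈ ye) := fun z hz =>
  ⟨fun h1 => h1.resolve_right fun h2 => disjoint_left.1 h hz h2, Or.inl⟩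

theorem pvek_win_iff_y' {ye yf : Set ℂ} (h : Disjoint Wn ye) : ∀ z ∈ Wn, (z ∈ ye ∪ yf ↔ z ∈ yf) := fun z hz =>
  ⟨fun h1 => h1.resolve_left fun h2 => disjoint_left.1 h hz h2, Or.inr⟩

end transfer

/-- **(K5): THE TWO FORCING LINES ALONG THE ENLARGED EXPERIMENT** `(e.K ∪ D ∪ f.K, ye ∪ yf)` from the two ends forced in their OWN experiments.
`We`, `Wf` = the windows of the two links;   `G` (the plug in `D` is usable) is read in both.      The four disjointness lines: the window of a link misses the tile and the fresh sites of the other one. -/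
theorem pvek_gd_two {ε : ℝ} {e f : PvkyEnd} {D ye yf We Wf : Set ℂ} {G : Set (Conf PvPt)} {q q' : ℝ≥0∞} (he : e.y = fun _ => ye) (hf : f.y = fun _ => yf)
    (rAe : Conf.ReadsSet (We ×ˢ univ) e.A) (rAf : Conf.ReadsSet (Wf ×ˢ univ) f.A) (rGe : Conf.ReadsSet (We ×ˢ univ) G) (rGf : Conf.ReadsSet (Wf ×ˢ univ) G)
    (d1 : Disjoint We f.K) (d2 : Disjoint We yf) (d3 : Disjoint Wf e.K) (d4 : Disjoint Wf ye) {η : Conf PvPt} (h1 : η ∈ pvrgEnd ε e D G q) (h2 : η ∈ pvrgEnd ε f D G q') :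
    ∀ᵐ p ∂pvdyNu ε, pvdyR (e.K ∪ D ∪ f.K) (fun _ => ye ∪ yf) η p ∈ G →
      q ≤ pvdyQ ε e.K (fun _ => ye) e.A (pvdyR (e.K ∪ D ∪ f.K) (fun _ => ye ∪ yf) η p) ∧ q' ≤ pvdyQ ε f.K (fun _ => yf) f.A (pvdyR (e.K ∪ D ∪ f.K) (fun _ => ye ∪ yf) η p) := by
  filter_upwards [pvek_end_big he rAe rGe (pvek_win_iff_C d1) (pvek_win_iff_y d2) h1, pvek_end_big hf rAf rGf (pvek_win_iff_C' d3) (pvek_win_iff_y' d4) h2] with p a1 a2 hG
  exact ⟨a1 hG, a2 hG⟩

end Claimed.Agent.R289
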