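-- KEEP
import Claimed.Agent.R289.Tr.BuThick

/-!
# Row 289 (S0537), THE WALL, ROAD E, file Exit/Thick : THE ROOF OF THE FIELD `thick`, BASE INDEXED, ON THE GOOD PART      (helper7, architect of the field `thick`; prefix `pvek`, `Pvek`)

FORM OF RECORD = RULING 18 (3) of 234 = (L1) (L2) (L3) of 141 + RULING 16 (3) (good part `Gd`, 61 `Exit/AnaGd`, 6 `Exit/AnaG`).
Inside ONE experiment everything is indexed by THE BASE DATA `i = β ω` of the candidate in the ACTUAL configuration `ω` (hull, frozen positions); the set of the recoloured sites is CONSTANT along the experiment: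
      `ke ω = pvdyHat ε C (fun _ => y i) (w i) (Y i) ω`,   `i = β ω`      (`pvekHat`).
THE CHAIN (pointwise at a.e. good `ω`, `R p = pvdyR C (fun _ => y i) ω p`):
      `|ke ω|²  ≤(norm, Jensen of 103)  ∫ w i |Y i|² (R p)  ≤(bd)  q⁻¹ ∫ 1_{A i} |Y i|² (R p)  ≤(ins)  q⁻¹ q'⁻¹ ∫ 1_{A i ∩ A' i} |Y i|² (R p)  ≤(rec + I.BES)  q⁻¹ q'⁻¹ ∫ H (R p)`,
then the invariance of the law under the hybrid resampling in UPPER form (`pvkt_inv_gen`, 103; `stop`).      NO measurability leaf: all integrals are lower integrals, `H` alone is measurable;   (ins) is asked AGAINST MEASURABLE MAJORANTS (87: `pvek_insert_up`; a lower bound of a lower integral would need measurable sections).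
* sec. 1  one candidate, one mesh, model free: `pvekHat`, `pvekJ` (second moment), **`pvek_upF`** (any `F ≤ J` on `B`), `pvek_upJ`, `pvek_up`, **`pvek_besF`**, `pvek_bes`
* sec. 2  at the model: `PvekDat τ`, `PvekDat.ke`, the leaves `PvekDat.At`, `PvekDat.Ok`, **`pvek_thick`** = the field `thick` of `PvelAna` / `PvelLocQ` (61) over `pvxU ∩ Gd`, generic in the raw summand `W`;   `pvek_thickF`, `pvek_thickJ` (second moment `D.J`, 61 189: `cV_L2` with lower integrals only), `pvek_thick_of` (any smaller good set, any `ke` which agrees there), **`PvekDat.OkL`, `pvek_thick_L`, `pvek_thickJ_L`** (levels `m0 ≤ m` only = the shape `PvnaThick` of 271), `pvek_thick_Q`, `pvek_thick_V`, `pvek_thick_a`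
OWNERS OF THE LEAVES (split of 11:10Z):   `stop` 96 (`Tr/StopM`)   `norm bd` 103   `ins` + enlargement 99   `rec` 118 (deterministic) + 132 (bridge)   forced on `Gd`, field `bad` 252 256 111.
-/

set_option autoImplicit false

namespace Claimed.Agent.R289

open Set MeasureTheory Filter Topology Claims.C0465
open scoped ENNReal

/-! ## 1. one candidate, one mesh -/

section one

variable {ι : Type} {Ok : Set ℂ → Prop} {C : Set ℂ} {ε : ℝ} {β : Conf PvPt → ι} {y : ι → Set ℂ} {w : ι → Conf PvPt → ℝ≥0∞} {Y : ι → Conf PvPt → ℂ}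
  {A A' : ι → Set (Conf PvPt)} {B : Set (Conf PvPt)} {H : Conf PvPt → ℝ≥0∞} {q q' CB : ℝ≥0∞} {W : Set ℂ → ℂ × ℂ → ℂ} {M : Set ℂ}

/-- **THE BASE INDEXED HYBRID MEAN**: weight, value and recoloured sites are those of the base data `β ω` of the ACTUAL configuration, never re-evaluated at a resampled configuration -/
noncomputable def pvekHat (ε : ℝ) (C : Set ℂ) (β : Conf PvPt → ι) (y : ι → Set ℂ) (w : ι → Conf PvPt → ℝ≥0∞) (Y : ι → Conf PvPt → ℂ) (ω : Conf PvPt) : ℂ :=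
  pvdyHat ε C (fun _ => y (β ω)) (w (β ω)) (Y (β ω)) ω

theorem pvek_eqns_cite : True := by
  have := @pvekHat.eq_1
  trivial

/-- the experiment with the constant choice of the base = the experiment with the choice `η ↦ y (β η)` -/
theorem pvek_R_eq (C : Set ℂ) (β : Conf PvPt → ι) (y : ι → Set ℂ) (ω : Conf PvPt) (p : (ℂ → Bool) × Conf PvPt) :
    pvdyR C (fun _ => y (β ω)) ω p = pvdyR C (fun η => y (β η)) ω p := rfl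

/-- **INSERTION ON THE SEED SPACE, UPPER FORM: NO MEASURABILITY** (87; twin of `pvbu_insert` of 223 without `AEMeasurable φ`, `NullMeasurableSet A2`).      `ρ` = a law preserving mix (the atom of the closing link is replaced by a fresh copy), `φ` (ANY function) is not
touched by the mix, the event `A2` (ANY set) has OUTER probability `≥ q'` after the mix wherever `φ ≠ 0`, `G` = a measurable majorant of `φ` on `A2`.      [Markov at fixed `p` for the measurable section `p' ↦ G (ρ (p, p'))`, which is `≥ φ p` on `{ρ (p, ·) ∈ A2}`.] -/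
theorem pvek_insert_up {P : Type*} [MeasurableSpace P] {ν : Measure P} [SFinite ν] {ρ : P × P → P} (hρ : Measurable ρ) (hlaw : (ν.prod ν).map ρ = ν) {φ G : P → ℝ≥0∞} {A2 : Set P}
    (mG : Measurable G) (hG : ∀ p ∈ A2, φ p ≤ G p) (hfix : ∀ p p', φ (ρ (p, p')) = φ p) {q' : ℝ≥0∞} (hq : ∀ᵐ p ∂ν, φ p ≠ 0 → q' ≤ ν {p' | ρ (p, p') ∈ A2}) :
    q' * ∫⁻ p, φ p ∂ν ≤ ∫⁻ p, G p ∂ν := by
  have key : ∀ᵐ p ∂ν, q' * φ p ≤ ∫⁻ p', G (ρ (p, p')) ∂ν := by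
    filter_upwards [hq] with p hp
    by_cases h0 : φ p = 0
    · rw [h0, mul_zero]; exact zero_le
    have hsub : {p' | ρ (p, p') ∈ A2} ⊆ {p' | φ p ≤ G (ρ (p, p'))} := fun p' hp' => by
      have := hG _ hp'
      rwa [hfix] at this
    calc q' * φ p ≤ ν {p' | φ p ≤ G (ρ (p, p'))} * φ p := mul_le_mul' ((hp h0).trans (measure_mono hsub)) le_rfl
      _ = φ p * ν {p' | φ p ≤ G (ρ (p, p'))} := mul_comm _ _
      _ ≤ ∫⁻ p', G (ρ (p, p')) ∂ν := mul_meas_ge_le_lintegral (mG.comp (hρ.comp measurable_prodMk_left)) (φ p)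
  calc q' * ∫⁻ p, φ p ∂ν ≤ ∫⁻ p, q' * φ p ∂ν := lintegral_const_mul_le _ _
    _ ≤ ∫⁻ p, ∫⁻ p', G (ρ (p, p')) ∂ν ∂ν := lintegral_mono_ae key
    _ = ∫⁻ x, G (ρ x) ∂(ν.prod ν) := (lintegral_prod _ (mG.comp hρ).aemeasurable).symm
    _ = ∫⁻ p, G p ∂((ν.prod ν).map ρ) := (lintegral_map mG hρ).symm
    _ = ∫⁻ p, G p ∂ν := by rw [hlaw]

/-- the LOWER form of the insertion implies the upper form -/
theorem pvek_ins_of_lower {P : Type*} [MeasurableSpace P] {ν : Measure P} {R : P → Conf PvPt} {A1 A2 : Set (Conf PvPt)} {F G : Conf PvPt → ℝ≥0∞} {q' : ℝ≥0∞}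
    (h : q' * ∫⁻ p, A1.indicator F (R p) ∂ν ≤ ∫⁻ p, (A1 ∩ A2).indicator F (R p) ∂ν) (hG : ∀ η, η ∈ A1 → η ∈ A2 → F η ≤ G η) :
    q' * ∫⁻ p, A1.indicator F (R p) ∂ν ≤ ∫⁻ p, G (R p) ∂ν := by
  refine h.trans (lintegral_mono fun p => ?_)
  by_cases hp : R p ∈ A1 ∩ A2
  · rw [indicator_of_mem hp]; exact hG _ hp.1 hp.2
  · rw [indicator_of_notMem hp]; exact zero_le

/-- the second moment of the increment under the weighted experiment at the base `ω` (a LOWER integral) -/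
noncomputable def pvekJ (ε : ℝ) (C : Set ℂ) (β : Conf PvPt → ι) (y : ι → Set ℂ) (w : ι → Conf PvPt → ℝ≥0∞) (Y : ι → Conf PvPt → ℂ) (ω : Conf PvPt) : ℝ≥0∞ :=
  ∫⁻ p, w (β ω) (pvdyR C (fun _ => y (β ω)) ω p) * ‖Y (β ω) (pvdyR C (fun _ => y (β ω)) ω p)‖ₑ ^ 2 ∂pvdyNu ε

theorem pvek_eqns_citeJ : True := by
  have := @pvekJ.eq_1
  trivial

/-- **BOUND OF THE WEIGHT + INSERTION + INVARIANCE, BASE INDEXED, UPPER FORM, FOR ANY FUNCTION `F ≤ pvekJ` ON `B`**.      `B` = the good usable configurations (ANY set).      `hdom`: ONE majorant for all the indices. -/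
theorem pvek_upF (ε : ℝ) (hC : MeasurableSet C) (hok : ∀ᵐ ω ∂pvP ε, Ok (cfSites ω)) (hS : PvktStop Ok (fun η => y (β η))) (mH : AEMeasurable H (pvP ε))
    (hq : q ≠ 0) (hq0 : q' ≠ 0) (hqt : q' ≠ ∞) {F : Conf PvPt → ℝ≥0∞} (hF : ∀ᵐ ω ∂pvP ε, ω ∈ B → F ω ≤ pvekJ ε C β y w Y ω)
    (hbd : ∀ᵐ ω ∂pvP ε, ω ∈ B → ∀ᵐ p ∂pvdyNu ε, w (β ω) (pvdyR C (fun _ => y (β ω)) ω p) ≤ q⁻¹ * (A (β ω)).indicator 1 (pvdyR C (fun _ => y (β ω)) ω p))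
    (hins : ∀ᵐ ω ∂pvP ε, ω ∈ B → ∀ G : Conf PvPt → ℝ≥0∞, Measurable G → (∀ η, η ∈ A (β ω) → η ∈ A' (β ω) → ‖Y (β ω) η‖ₑ ^ 2 ≤ G η) →
      q' * ∫⁻ p, (A (β ω)).indicator (fun η => ‖Y (β ω) η‖ₑ ^ 2) (pvdyR C (fun _ => y (β ω)) ω p) ∂pvdyNu ε ≤ ∫⁻ p, G (pvdyR C (fun _ => y (β ω)) ω p) ∂pvdyNu ε)
    (hdom : ∀ᵐ η ∂pvP ε, ∀ i, η ∈ A i → η ∈ A' i → ‖Y i η‖ₑ ^ 2 ≤ H η) :
    (pvhbUp ε).E (fun x => B.indicator F (pvConf (pvMerge x))) ≤ q'⁻¹ * (q⁻¹ * ∫⁻ ω, H ω ∂pvP ε) := by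
  -- a measurable majorant valid EVERYWHERE
  have hdom' : ∀ᵐ η ∂pvP ε, ∀ i, η ∈ A i → η ∈ A' i → ‖Y i η‖ₑ ^ 2 ≤ mH.mk H η := by
    filter_upwards [hdom, mH.ae_eq_mk] with η h1 h2 i h3 h4
    rw [← h2]; exact h1 i h3 h4
  obtain ⟨N, hN, mN, h0⟩ := exists_measurable_superset_of_null hdom'
  let H' : Conf PvPt → ℝ≥0∞ := fun ω => q'⁻¹ * (q⁻¹ * (mH.mk H ω + N.indicator (fun _ => ∞) ω))
  have mH0 : Measurable fun ω => mH.mk H ω + N.indicator (fun _ => (∞ : ℝ≥0∞)) ω := mH.measurable_mk.add (measurable_const.indicator mN)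
  have mH' : Measurable H' := (mH0.const_mul _).const_mul _
  have eH' : ∫⁻ ω, H' ω ∂pvP ε = q'⁻¹ * (q⁻¹ * ∫⁻ ω, H ω ∂pvP ε) := by
    have e1 : ∫⁻ ω, H' ω ∂pvP ε = q'⁻¹ * (q⁻¹ * ∫⁻ ω, (mH.mk H ω + N.indicator (fun _ => ∞) ω) ∂pvP ε) := by
      rw [← lintegral_const_mul _ mH0, ← lintegral_const_mul _ (mH0.const_mul _)]
    rw [e1, lintegral_add_left mH.measurable_mk, lintegral_indicator mN, setLIntegral_measure_zero _ _ h0, add_zero, lintegral_congr_ae mH.ae_eq_mk]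
  have hall : ∀ i η, (A i ∩ A' i).indicator (fun η => ‖Y i η‖ₑ ^ 2) η ≤ mH.mk H η + N.indicator (fun _ => ∞) η := by
    intro i η
    by_cases hA : η ∈ A i ∩ A' i
    · rw [indicator_of_mem hA]
      by_cases hη : η ∈ N
      · rw [indicator_of_mem hη, add_top]; exact le_top
      · rw [indicator_of_notMem hη, add_zero]
        by_contra hh
        refine hη (hN fun h => hh (h i hA.1 hA.2))
    · rw [indicator_of_notMem hA]; exact zero_le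
  rw [← eH']
  refine pvkt_inv_gen ε hC hok hS mH' ?_
  filter_upwards [hbd, hins, hF] with ω h5 h4 h6
  by_cases hω : ω ∈ B
  · rw [indicator_of_mem hω]
    refine (h6 hω).trans ?_
    change ∫⁻ p, w (β ω) (pvdyR C (fun _ => y (β ω)) ω p) * ‖Y (β ω) (pvdyR C (fun _ => y (β ω)) ω p)‖ₑ ^ 2 ∂pvdyNu ε ≤ ∫⁻ p, H' (pvdyR C (fun _ => y (β ω)) ω p) ∂pvdyNu ε
    have k1 : ∫⁻ p, w (β ω) (pvdyR C (fun _ => y (β ω)) ω p) * ‖Y (β ω) (pvdyR C (fun _ => y (β ω)) ω p)‖ₑ ^ 2 ∂pvdyNu ε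
        ≤ q⁻¹ * ∫⁻ p, (A (β ω)).indicator (fun η => ‖Y (β ω) η‖ₑ ^ 2) (pvdyR C (fun _ => y (β ω)) ω p) ∂pvdyNu ε := by
      rw [← lintegral_const_mul' _ _ (ENNReal.inv_ne_top.2 hq)]
      refine lintegral_mono_ae ?_
      filter_upwards [h5 hω] with p hp
      by_cases hA : pvdyR C (fun _ => y (β ω)) ω p ∈ A (β ω)
      · rw [indicator_of_mem hA]
        rw [indicator_of_mem hA, Pi.one_apply, mul_one] at hp
        exact mul_le_mul' hp le_rfl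
      · rw [indicator_of_notMem hA, mul_zero] at hp
        rw [nonpos_iff_eq_zero.1 hp, zero_mul]; exact zero_le
    have k2 : ∫⁻ p, (A (β ω)).indicator (fun η => ‖Y (β ω) η‖ₑ ^ 2) (pvdyR C (fun _ => y (β ω)) ω p) ∂pvdyNu ε
        ≤ q'⁻¹ * ∫⁻ p, (mH.mk H (pvdyR C (fun _ => y (β ω)) ω p) + N.indicator (fun _ => ∞) (pvdyR C (fun _ => y (β ω)) ω p)) ∂pvdyNu ε := by
      rw [← ENNReal.div_eq_inv_mul, ENNReal.le_div_iff_mul_le (Or.inl hq0) (Or.inl hqt), mul_comm]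
      refine h4 hω _ mH0 fun η hA hA' => ?_
      have := hall (β ω) η
      rwa [indicator_of_mem (show η ∈ A (β ω) ∩ A' (β ω) from ⟨hA, hA'⟩)] at this
    refine k1.trans ?_
    calc q⁻¹ * ∫⁻ p, (A (β ω)).indicator (fun η => ‖Y (β ω) η‖ₑ ^ 2) (pvdyR C (fun _ => y (β ω)) ω p) ∂pvdyNu ε
        ≤ q⁻¹ * (q'⁻¹ * ∫⁻ p, (mH.mk H (pvdyR C (fun _ => y (β ω)) ω p) + N.indicator (fun _ => ∞) (pvdyR C (fun _ => y (β ω)) ω p)) ∂pvdyNu ε) := by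
          exact mul_le_mul' le_rfl k2
      _ = q'⁻¹ * (q⁻¹ * ∫⁻ p, (mH.mk H (pvdyR C (fun _ => y (β ω)) ω p) + N.indicator (fun _ => ∞) (pvdyR C (fun _ => y (β ω)) ω p)) ∂pvdyNu ε) := by ring
      _ ≤ ∫⁻ p, H' (pvdyR C (fun _ => y (β ω)) ω p) ∂pvdyNu ε :=
          (mul_le_mul' le_rfl (lintegral_const_mul_le _ _)).trans (lintegral_const_mul_le _ _)
  · rw [indicator_of_notMem hω]; exact zero_le

/-- JENSEN (103) at one base:   `|ke|² ≤ J` -/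
theorem pvek_hat_le_J (ε : ℝ) (C : Set ℂ) (β : Conf PvPt → ι) (y : ι → Set ℂ) (w : ι → Conf PvPt → ℝ≥0∞) (Y : ι → Conf PvPt → ℂ) {ω : Conf PvPt}
    (h : ∫⁻ p, w (β ω) (pvdyR C (fun _ => y (β ω)) ω p) ∂pvdyNu ε ≤ 1) : ‖pvekHat ε C β y w Y ω‖ₑ ^ 2 ≤ pvekJ ε C β y w Y ω :=
  pvkt_jensen0 ε C (fun _ => y (β ω)) (w (β ω)) (Y (β ω)) h

/-- **THE SECOND MOMENT** (asked by 61 for `cV_L2`: NO Jensen, NO `norm`) -/
theorem pvek_upJ (ε : ℝ) (hC : MeasurableSet C) (hok : ∀ᵐ ω ∂pvP ε, Ok (cfSites ω)) (hS : PvktStop Ok (fun η => y (β η))) (mH : AEMeasurable H (pvP ε))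
    (hq : q ≠ 0) (hq0 : q' ≠ 0) (hqt : q' ≠ ∞)
    (hbd : ∀ᵐ ω ∂pvP ε, ω ∈ B → ∀ᵐ p ∂pvdyNu ε, w (β ω) (pvdyR C (fun _ => y (β ω)) ω p) ≤ q⁻¹ * (A (β ω)).indicator 1 (pvdyR C (fun _ => y (β ω)) ω p))
    (hins : ∀ᵐ ω ∂pvP ε, ω ∈ B → ∀ G : Conf PvPt → ℝ≥0∞, Measurable G → (∀ η, η ∈ A (β ω) → η ∈ A' (β ω) → ‖Y (β ω) η‖ₑ ^ 2 ≤ G η) →
      q' * ∫⁻ p, (A (β ω)).indicator (fun η => ‖Y (β ω) η‖ₑ ^ 2) (pvdyR C (fun _ => y (β ω)) ω p) ∂pvdyNu ε ≤ ∫⁻ p, G (pvdyR C (fun _ => y (β ω)) ω p) ∂pvdyNu ε)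
    (hdom : ∀ᵐ η ∂pvP ε, ∀ i, η ∈ A i → η ∈ A' i → ‖Y i η‖ₑ ^ 2 ≤ H η) :
    (pvhbUp ε).E (fun x => B.indicator (pvekJ ε C β y w Y) (pvConf (pvMerge x))) ≤ q'⁻¹ * (q⁻¹ * ∫⁻ ω, H ω ∂pvP ε) :=
  pvek_upF ε hC hok hS mH hq hq0 hqt (Eventually.of_forall fun _ _ => le_rfl) hbd hins hdom

/-- **JENSEN + BOUND OF THE WEIGHT + INSERTION + INVARIANCE, BASE INDEXED, UPPER FORM**.      `B` = the good usable configurations (ANY set).      `hdom`: ONE majorant for all the indices. -/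
theorem pvek_up (ε : ℝ) (hC : MeasurableSet C) (hok : ∀ᵐ ω ∂pvP ε, Ok (cfSites ω)) (hS : PvktStop Ok (fun η => y (β η))) (mH : AEMeasurable H (pvP ε))
    (hq : q ≠ 0) (hq0 : q' ≠ 0) (hqt : q' ≠ ∞)
    (hnorm : ∀ᵐ ω ∂pvP ε, ω ∈ B → ∫⁻ p, w (β ω) (pvdyR C (fun _ => y (β ω)) ω p) ∂pvdyNu ε ≤ 1)
    (hbd : ∀ᵐ ω ∂pvP ε, ω ∈ B → ∀ᵐ p ∂pvdyNu ε, w (β ω) (pvdyR C (fun _ => y (β ω)) ω p) ≤ q⁻¹ * (A (β ω)).indicator 1 (pvdyR C (fun _ => y (β ω)) ω p))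
    (hins : ∀ᵐ ω ∂pvP ε, ω ∈ B → ∀ G : Conf PvPt → ℝ≥0∞, Measurable G → (∀ η, η ∈ A (β ω) → η ∈ A' (β ω) → ‖Y (β ω) η‖ₑ ^ 2 ≤ G η) →
      q' * ∫⁻ p, (A (β ω)).indicator (fun η => ‖Y (β ω) η‖ₑ ^ 2) (pvdyR C (fun _ => y (β ω)) ω p) ∂pvdyNu ε ≤ ∫⁻ p, G (pvdyR C (fun _ => y (β ω)) ω p) ∂pvdyNu ε)
    (hdom : ∀ᵐ η ∂pvP ε, ∀ i, η ∈ A i → η ∈ A' i → ‖Y i η‖ₑ ^ 2 ≤ H η) :
    (pvhbUp ε).E (fun x => B.indicator (fun ω => ‖pvekHat ε C β y w Y ω‖ₑ ^ 2) (pvConf (pvMerge x))) ≤ q'⁻¹ * (q⁻¹ * ∫⁻ ω, H ω ∂pvP ε) := by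
  refine pvek_upF ε hC hok hS mH hq hq0 hqt ?_ hbd hins hdom
  filter_upwards [hnorm] with ω h hω
  exact pvek_hat_le_J ε C β y w Y (h hω)

/-- **THE SAME WITH I.BES**, for any `F ≤ pvekJ` on `B`.      `hrec` = RECOGNITION: for a.e. configuration, FOR ALL INDICES, on the closed cycle `A i ∩ A' i` the increment `Y i` is the mass of ONE rim of colour `b` in the deterministic mask `M`. -/
theorem pvek_besF (hB : PvbeIn W CB) (hε : 0 < ε) (b : Bool) (hC : MeasurableSet C) (hok : ∀ᵐ ω ∂pvP ε, Ok (cfSites ω)) (hS : PvktStop Ok (fun η => y (β η)))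
    (hq : q ≠ 0) (hq0 : q' ≠ 0) (hqt : q' ≠ ∞) {F : Conf PvPt → ℝ≥0∞} (hF : ∀ᵐ ω ∂pvP ε, ω ∈ B → F ω ≤ pvekJ ε C β y w Y ω)
    (hbd : ∀ᵐ ω ∂pvP ε, ω ∈ B → ∀ᵐ p ∂pvdyNu ε, w (β ω) (pvdyR C (fun _ => y (β ω)) ω p) ≤ q⁻¹ * (A (β ω)).indicator 1 (pvdyR C (fun _ => y (β ω)) ω p))
    (hins : ∀ᵐ ω ∂pvP ε, ω ∈ B → ∀ G : Conf PvPt → ℝ≥0∞, Measurable G → (∀ η, η ∈ A (β ω) → η ∈ A' (β ω) → ‖Y (β ω) η‖ₑ ^ 2 ≤ G η) →
      q' * ∫⁻ p, (A (β ω)).indicator (fun η => ‖Y (β ω) η‖ₑ ^ 2) (pvdyR C (fun _ => y (β ω)) ω p) ∂pvdyNu ε ≤ ∫⁻ p, G (pvdyR C (fun _ => y (β ω)) ω p) ∂pvdyNu ε)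
    (hM : MeasurableSet M) (hb : Bornology.IsBounded M)
    (hrec : ∀ᵐ η ∂pvP ε, ∀ i, η ∈ A i → η ∈ A' i → ∃ x, pvbeTag (pvktFl b η) x ∧ Y i η = pvbeLab W (M.indicator 1) (pvktFl b η) x) :
    (pvhbUp ε).E (fun x => B.indicator F (pvConf (pvMerge x))) ≤ q'⁻¹ * (q⁻¹ * (CB * volume M)) := by
  obtain ⟨H, hH, h1, h2⟩ := hB ε hε _ (pvbe_test_ind hM hb)
  rw [pvbe_ind_sq hM] at h2
  have mp := pvkt_fl_mp ε b
  have hH' : AEMeasurable (fun η => H (pvktFl b η)) (pvP ε) := by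
    refine AEMeasurable.comp_measurable ?_ mp.measurable
    rw [mp.map_eq]; exact hH
  have eH : ∫⁻ η, H (pvktFl b η) ∂pvP ε = ∫⁻ η, H η ∂pvP ε := by
    conv_rhs => rw [← mp.map_eq]
    rw [lintegral_map' (by rw [mp.map_eq]; exact hH) mp.measurable.aemeasurable]
  have h1' : ∀ᵐ η ∂pvP ε, ∀ x, pvbeTag (pvktFl b η) x → ‖pvbeLab W (M.indicator 1) (pvktFl b η) x‖ₑ ^ 2 ≤ H (pvktFl b η) := mp.quasiMeasurePreserving.ae h1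
  refine (pvek_upF (H := fun η => H (pvktFl b η)) ε hC hok hS hH' hq hq0 hqt hF hbd hins ?_).trans ?_
  · filter_upwards [h1', hrec] with η a1 a3 i hA hA'
    obtain ⟨x, hx, e⟩ := a3 i hA hA'
    rw [e]
    exact a1 x hx
  · rw [eH]
    gcongr

/-- the mean `ke` -/
theorem pvek_bes (hB : PvbeIn W CB) (hε : 0 < ε) (b : Bool) (hC : MeasurableSet C) (hok : ∀ᵐ ω ∂pvP ε, Ok (cfSites ω)) (hS : PvktStop Ok (fun η => y (β η)))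
    (hq : q ≠ 0) (hq0 : q' ≠ 0) (hqt : q' ≠ ∞)
    (hnorm : ∀ᵐ ω ∂pvP ε, ω ∈ B → ∫⁻ p, w (β ω) (pvdyR C (fun _ => y (β ω)) ω p) ∂pvdyNu ε ≤ 1)
    (hbd : ∀ᵐ ω ∂pvP ε, ω ∈ B → ∀ᵐ p ∂pvdyNu ε, w (β ω) (pvdyR C (fun _ => y (β ω)) ω p) ≤ q⁻¹ * (A (β ω)).indicator 1 (pvdyR C (fun _ => y (β ω)) ω p))
    (hins : ∀ᵐ ω ∂pvP ε, ω ∈ B → ∀ G : Conf PvPt → ℝ≥0∞, Measurable G → (∀ η, η ∈ A (β ω) → η ∈ A' (β ω) → ‖Y (β ω) η‖ₑ ^ 2 ≤ G η) →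
      q' * ∫⁻ p, (A (β ω)).indicator (fun η => ‖Y (β ω) η‖ₑ ^ 2) (pvdyR C (fun _ => y (β ω)) ω p) ∂pvdyNu ε ≤ ∫⁻ p, G (pvdyR C (fun _ => y (β ω)) ω p) ∂pvdyNu ε)
    (hM : MeasurableSet M) (hb : Bornology.IsBounded M)
    (hrec : ∀ᵐ η ∂pvP ε, ∀ i, η ∈ A i → η ∈ A' i → ∃ x, pvbeTag (pvktFl b η) x ∧ Y i η = pvbeLab W (M.indicator 1) (pvktFl b η) x) :
    (pvhbUp ε).E (fun x => B.indicator (fun ω => ‖pvekHat ε C β y w Y ω‖ₑ ^ 2) (pvConf (pvMerge x))) ≤ q'⁻¹ * (q⁻¹ * (CB * volume M)) := by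
  refine pvek_besF hB hε b hC hok hS hq hq0 hqt ?_ hbd hins hM hb hrec
  filter_upwards [hnorm] with ω h hω
  exact pvek_hat_le_J ε C β y w Y (h hω)

end one

/-! ## 2. at the model -/

section model

variable {τ : Type} {c : ℝ}

/-- **THE DATA OF THE THICK SHORT LINK, BASE INDEXED** (level `m`, mesh `ε`, centre `z`, type `t`).
`ι` = the base data (hull, frozen positions);   `β` = the base data of a configuration;   `C` = the resampled region (reference plug, tile of the thick link, tile of the thick return);   `y i` = the recoloured sites (the two mouths minus the frozen positions);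
`w i` = the weight of the experiment of `ke`;   `Y i` = the increment of the field along the link;   `A i` = the reference plug is usable and the thick link succeeds;   `A' i` = the thick return closes the cycle;   `M` = the deterministic mask;
`Gd` = the good configurations of the candidate. -/
structure PvekDat (τ : Type) where
  ι : Type
  β : ℕ → ℝ → ℂ → τ → Conf PvPt → ι
  C : ℕ → ℝ → ℂ → τ → Set ℂ
  y : ℕ → ℝ → ℂ → τ → ι → Set ℂ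
  w : ℕ → ℝ → ℂ → τ → ι → Conf PvPt → ℝ≥0∞
  Y : ℕ → ℝ → ℂ → τ → ι → Conf PvPt → ℂ
  A : ℕ → ℝ → ℂ → τ → ι → Set (Conf PvPt)
  A' : ℕ → ℝ → ℂ → τ → ι → Set (Conf PvPt)
  M : ℕ → ℂ → τ → Set ℂ
  Gd : ℕ → ℝ → ℂ → τ → Set (Conf PvPt)

/-- `ke`: the mean of the thick short link -/
noncomputable def PvekDat.ke (D : PvekDat τ) (m : ℕ) (ε : ℝ) (z : ℂ) (t : τ) (ω : PVSample) : ℂ :=
  pvekHat ε (D.C m ε z t) (D.β m ε z t) (D.y m ε z t) (D.w m ε z t) (D.Y m ε z t) (pvConf ω)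

/-- the second moment of the increment of the thick short link under the weighted experiment (lower integral) -/
noncomputable def PvekDat.J (D : PvekDat τ) (m : ℕ) (ε : ℝ) (z : ℂ) (t : τ) (ω : PVSample) : ℝ≥0∞ :=
  pvekJ ε (D.C m ε z t) (D.β m ε z t) (D.y m ε z t) (D.w m ε z t) (D.Y m ε z t) (pvConf ω)

/-- the experiment at the base `ω` -/
noncomputable def PvekDat.R (D : PvekDat τ) (m : ℕ) (ε : ℝ) (z : ℂ) (t : τ) (ω : Conf PvPt) : (ℂ → Bool) × Conf PvPt → Conf PvPt :=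
  pvdyR (D.C m ε z t) (fun _ => D.y m ε z t (D.β m ε z t ω)) ω

/-- the good usable configurations of the candidate -/
def PvekDat.B (D : PvekDat τ) (𝔓 : PvxPar τ c) (m : ℕ) (ε : ℝ) (z : ℂ) (t : τ) : Set (Conf PvPt) := pvConf '' pvxU 𝔓 m z t ∩ D.Gd m ε z t

/-- **THE LEAVES OF `thick` AT ONE CANDIDATE, ONE MESH**;   `W` = the raw summand of the field (`pvqWQ`: `Q`, `pvbeWV`: `V`, `pvbeComb pvqWQ pvbeWV (-a)`: `Q - a V`) -/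
structure PvekDat.At (D : PvekDat τ) (𝔓 : PvxPar τ c) (W : Set ℂ → ℂ × ℂ → ℂ) (q q' : ℝ≥0∞) (m : ℕ) (ε : ℝ) (z : ℂ) (t : τ) : Prop where
  mC : MeasurableSet (D.C m ε z t)
  /-- (K1) the recoloured sites are a stopping choice (frozen sites = witness), at almost every geometry -/
  stop : ∃ Ok : Set ℂ → Prop, (∀ᵐ ω ∂pvP ε, Ok (cfSites ω)) ∧ PvktStop Ok (fun η => D.y m ε z t (D.β m ε z t η))
  /-- (K2) the weight has (lower) mass at most one -/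
  norm : ∀ᵐ ω ∂pvP ε, ω ∈ D.B 𝔓 m ε z t → ∫⁻ p, D.w m ε z t (D.β m ε z t ω) (D.R m ε z t ω p) ∂pvdyNu ε ≤ 1
  /-- (K2) + (K5) admission of the reference plug and forcing of the thick link, UNIFORM, along the experiment of a good base -/
  bd : ∀ᵐ ω ∂pvP ε, ω ∈ D.B 𝔓 m ε z t → ∀ᵐ p ∂pvdyNu ε, D.w m ε z t (D.β m ε z t ω) (D.R m ε z t ω p) ≤ q⁻¹ * (D.A m ε z t (D.β m ε z t ω)).indicator 1 (D.R m ε z t ω p)
  /-- (K3) + (K5) forcing of the thick return + independence, UPPER FORM (87): against every measurable majorant `G` of `|Y|²` on the closed cycle.      NO measurability of `A A' Y`: `pvek_insert_up` (forcing in OUTER measure is enough);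
  the former field (lower integral of `1_{A ∩ A'} |Y|²` on the right: it needs null measurable sections) implies this one: `pvek_ins_of_lower` -/
  ins : ∀ᵐ ω ∂pvP ε, ω ∈ D.B 𝔓 m ε z t → ∀ G : Conf PvPt → ℝ≥0∞, Measurable G →
    (∀ η, η ∈ D.A m ε z t (D.β m ε z t ω) → η ∈ D.A' m ε z t (D.β m ε z t ω) → ‖D.Y m ε z t (D.β m ε z t ω) η‖ₑ ^ 2 ≤ G η) →
    q' * ∫⁻ p, (D.A m ε z t (D.β m ε z t ω)).indicator (fun η => ‖D.Y m ε z t (D.β m ε z t ω) η‖ₑ ^ 2) (D.R m ε z t ω p) ∂pvdyNu ε ≤ ∫⁻ p, G (D.R m ε z t ω p) ∂pvdyNu ε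
  /-- (K4) E2 / E30: recognition with the mask, for all the indices at once -/
  recog : ∀ᵐ η ∂pvP ε, ∀ i, η ∈ D.A m ε z t i → η ∈ D.A' m ε z t i → ∃ x, pvbeTag (pvktFl (𝔓.col t) η) x ∧
    D.Y m ε z t i η = pvbeLab W ((D.M m z t).indicator 1) (pvktFl (𝔓.col t) η) x

/-- **THE LEAVES OF `thick`** -/
structure PvekDat.Ok (D : PvekDat τ) (𝔓 : PvxPar τ c) (W : Set ℂ → ℂ × ℂ → ℂ) (q q' : ℝ≥0∞) (L : ℝ) : Prop where
  q0 : q ≠ 0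
  q'0 : q' ≠ 0
  q't : q' ≠ ∞
  mM : ∀ m z t, MeasurableSet (D.M m z t)
  sub : ∀ m z t, D.M m z t ⊆ Metric.closedBall z (L * pvlmH m)
  ev : ∀ (m : ℕ) (p : ℤ × ℤ) (t : τ), ∀ᶠ ε in 𝓝[>] (0 : ℝ), D.At 𝔓 W q q' m ε (l9Pt (pvlmH m) p) t

theorem pvek_eqns_cite2 : True := by
  have := @PvekDat.ke.eq_1; have := @PvekDat.R.eq_1; have := @PvekDat.B.eq_1; have := @PvekDat.J.eq_1
  trivial

/-- `D.J` unfolded in the vocabulary of `D.R` -/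
theorem PvekDat.J_eq (D : PvekDat τ) (m : ℕ) (ε : ℝ) (z : ℂ) (t : τ) (ω : PVSample) :
    D.J m ε z t ω = ∫⁻ p, D.w m ε z t (D.β m ε z t (pvConf ω)) (D.R m ε z t (pvConf ω) p) * ‖D.Y m ε z t (D.β m ε z t (pvConf ω)) (D.R m ε z t (pvConf ω) p)‖ₑ ^ 2 ∂pvdyNu ε := rfl

/-- **THE ROOF FOR ANY FUNCTION OF THE CONFIGURATION BELOW THE SECOND MOMENT**:   `F ≤ D.J` at almost every good usable configuration -/
theorem pvek_thickF {D : PvekDat τ} {𝔓 : PvxPar τ c} {W : Set ℂ → ℂ × ℂ → ℂ} {q q' CB : ℝ≥0∞} {L : ℝ} (hB : PvbeIn W CB) (hCB : CB ≠ ∞) (h : D.Ok 𝔓 W q q' L)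
    {F : ℕ → ℝ → ℂ → τ → Conf PvPt → ℝ≥0∞}
    (hF : ∀ (m : ℕ) (p : ℤ × ℤ) (t : τ), ∀ᶠ ε in 𝓝[>] (0 : ℝ), ∀ᵐ ω ∂pvP ε, ω ∈ D.B 𝔓 m ε (l9Pt (pvlmH m) p) t →
      F m ε (l9Pt (pvlmH m) p) t ω ≤ pvekJ ε (D.C m ε (l9Pt (pvlmH m) p) t) (D.β m ε (l9Pt (pvlmH m) p) t) (D.y m ε (l9Pt (pvlmH m) p) t) (D.w m ε (l9Pt (pvlmH m) p) t) (D.Y m ε (l9Pt (pvlmH m) p) t) ω) :
    ∀ (m : ℕ) (p : ℤ × ℤ) (t : τ), ∀ᶠ ε in 𝓝[>] (0 : ℝ),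
    (pvhbUp ε).E ((pvMerge ⁻¹' pvxU 𝔓 m (l9Pt (pvlmH m) p) t ∩ pvMerge ⁻¹' (pvConf ⁻¹' D.Gd m ε (l9Pt (pvlmH m) p) t)).indicator fun x => F m ε (l9Pt (pvlmH m) p) t (pvConf (pvMerge x)))
      ≤ ENNReal.ofReal (pvktCe q q' CB L * pvlmH m ^ 2) := by
  intro m p t
  filter_upwards [h.ev m p t, hF m p t, self_mem_nhdsWithin] with ε hA hF hε
  obtain ⟨Ok, hok, hS⟩ := hA.stop
  have k := pvek_besF (B := D.B 𝔓 m ε (l9Pt (pvlmH m) p) t) hB hε (𝔓.col t) hA.mC hok hS h.q0 h.q'0 h.q't hF hA.bd hA.ins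
    (h.mM m _ t) (Metric.isBounded_closedBall.subset (h.sub m _ t)) hA.recog
  refine (((pvhbUp ε).mono fun x => ?_).trans k).trans (pvkt_Ce_le h.q0 h.q'0 hCB (h.sub m _ t))
  by_cases hx : x ∈ pvMerge ⁻¹' pvxU 𝔓 m (l9Pt (pvlmH m) p) t ∩ pvMerge ⁻¹' (pvConf ⁻¹' D.Gd m ε (l9Pt (pvlmH m) p) t)
  · have hx' : pvConf (pvMerge x) ∈ D.B 𝔓 m ε (l9Pt (pvlmH m) p) t := ⟨⟨pvMerge x, hx.1, rfl⟩, hx.2⟩
    rw [indicator_of_mem hx, indicator_of_mem hx']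
  · rw [indicator_of_notMem hx]; exact zero_le

/-- **THE SECOND MOMENT `D.J` OVER `pvxU ∩ Gd`** (61 189: `cV_L2` without Bochner integrals) -/
theorem pvek_thickJ {D : PvekDat τ} {𝔓 : PvxPar τ c} {W : Set ℂ → ℂ × ℂ → ℂ} {q q' CB : ℝ≥0∞} {L : ℝ} (hB : PvbeIn W CB) (hCB : CB ≠ ∞) (h : D.Ok 𝔓 W q q' L) :
    ∀ (m : ℕ) (p : ℤ × ℤ) (t : τ), ∀ᶠ ε in 𝓝[>] (0 : ℝ),
    (pvhbUp ε).E ((pvMerge ⁻¹' pvxU 𝔓 m (l9Pt (pvlmH m) p) t ∩ pvMerge ⁻¹' (pvConf ⁻¹' D.Gd m ε (l9Pt (pvlmH m) p) t)).indicator fun x => D.J m ε (l9Pt (pvlmH m) p) t (pvMerge x))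
      ≤ ENNReal.ofReal (pvktCe q q' CB L * pvlmH m ^ 2) :=
  pvek_thickF (F := fun m ε z t => pvekJ ε (D.C m ε z t) (D.β m ε z t) (D.y m ε z t) (D.w m ε z t) (D.Y m ε z t)) hB hCB h
    fun _ _ _ => Eventually.of_forall fun _ => Eventually.of_forall fun _ _ => le_rfl

/-- **THE FIELD `thick` OVER `pvxU ∩ Gd`, GENERIC IN THE WEIGHT**      (shape of `PvelAna.thick`, `PvelLocQ.thick`, `PvelLocQ.cV_L2` of 61) -/
theorem pvek_thick {D : PvekDat τ} {𝔓 : PvxPar τ c} {W : Set ℂ → ℂ × ℂ → ℂ} {q q' CB : ℝ≥0∞} {L : ℝ} (hB : PvbeIn W CB) (hCB : CB ≠ ∞) (h : D.Ok 𝔓 W q q' L) :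
    ∀ (m : ℕ) (p : ℤ × ℤ) (t : τ), ∀ᶠ ε in 𝓝[>] (0 : ℝ),
    (pvhbUp ε).E ((pvMerge ⁻¹' pvxU 𝔓 m (l9Pt (pvlmH m) p) t ∩ pvMerge ⁻¹' (pvConf ⁻¹' D.Gd m ε (l9Pt (pvlmH m) p) t)).indicator fun x => ‖D.ke m ε (l9Pt (pvlmH m) p) t (pvMerge x)‖ₑ ^ 2)
      ≤ ENNReal.ofReal (pvktCe q q' CB L * pvlmH m ^ 2) := by
  refine pvek_thickF (F := fun m ε z t ω => ‖pvekHat ε (D.C m ε z t) (D.β m ε z t) (D.y m ε z t) (D.w m ε z t) (D.Y m ε z t) ω‖ₑ ^ 2) hB hCB h fun m p t => ?_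
  filter_upwards [h.ev m p t] with ε hA
  filter_upwards [hA.norm] with ω hn hω
  exact pvek_hat_le_J ε _ _ _ _ _ (hn hω)

/-- the same for ANY smaller good set of samples and ANY `ke` which agrees with `D.ke` there      (the good set of record is an intersection `GdO ∩ GdI ∩ ..`;   `D` = the experiment of `ke` ENLARGED by the resources of the return link) -/
theorem pvek_thick_of {D : PvekDat τ} {𝔓 : PvxPar τ c} {W : Set ℂ → ℂ × ℂ → ℂ} {q q' CB : ℝ≥0∞} {L : ℝ} (hB : PvbeIn W CB) (hCB : CB ≠ ∞) (h : D.Ok 𝔓 W q q' L)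
    {Gd : ℕ → ℝ → ℂ → τ → Set PVSample} (hG : ∀ m ε z t, Gd m ε z t ⊆ pvConf ⁻¹' D.Gd m ε z t)
    {ke : ℕ → ℝ → ℂ → τ → PVSample → ℂ} (hke : ∀ m ε z t, ∀ ω ∈ pvxU 𝔓 m z t ∩ Gd m ε z t, ke m ε z t ω = D.ke m ε z t ω) :
    ∀ (m : ℕ) (p : ℤ × ℤ) (t : τ), ∀ᶠ ε in 𝓝[>] (0 : ℝ),
    (pvhbUp ε).E ((pvMerge ⁻¹' pvxU 𝔓 m (l9Pt (pvlmH m) p) t ∩ pvMerge ⁻¹' Gd m ε (l9Pt (pvlmH m) p) t).indicator fun x => ‖ke m ε (l9Pt (pvlmH m) p) t (pvMerge x)‖ₑ ^ 2)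
      ≤ ENNReal.ofReal (pvktCe q q' CB L * pvlmH m ^ 2) := by
  intro m p t
  filter_upwards [pvek_thick hB hCB h m p t] with ε hε
  refine ((pvhbUp ε).mono fun x => ?_).trans hε
  by_cases hx : x ∈ pvMerge ⁻¹' pvxU 𝔓 m (l9Pt (pvlmH m) p) t ∩ pvMerge ⁻¹' Gd m ε (l9Pt (pvlmH m) p) t
  · have hx' : x ∈ pvMerge ⁻¹' pvxU 𝔓 m (l9Pt (pvlmH m) p) t ∩ pvMerge ⁻¹' (pvConf ⁻¹' D.Gd m ε (l9Pt (pvlmH m) p) t) := ⟨hx.1, hG _ _ _ _ hx.2⟩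
    rw [indicator_of_mem hx, indicator_of_mem hx', hke m ε _ t (pvMerge x) hx]
  · rw [indicator_of_notMem hx]; exact zero_le

/-- **THE LEAVES OF `thick`, OWED FROM THE LEVEL `m0` ON** (RULING 18 (1): every field of the records of 271 is owed for `m0 ≤ m` only) -/
structure PvekDat.OkL (D : PvekDat τ) (𝔓 : PvxPar τ c) (W : Set ℂ → ℂ × ℂ → ℂ) (q q' : ℝ≥0∞) (L : ℝ) (m0 : ℕ) : Prop where
  q0 : q ≠ 0
  q'0 : q' ≠ 0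
  q't : q' ≠ ∞
  mM : ∀ m, m0 ≤ m → ∀ z t, MeasurableSet (D.M m z t)
  sub : ∀ m, m0 ≤ m → ∀ z t, D.M m z t ⊆ Metric.closedBall z (L * pvlmH m)
  ev : ∀ (m : ℕ), m0 ≤ m → ∀ (p : ℤ × ℤ) (t : τ), ∀ᶠ ε in 𝓝[>] (0 : ℝ), D.At 𝔓 W q q' m ε (l9Pt (pvlmH m) p) t

/-- **THE FIELD `thick` IN THE SHAPE `PvnaThick` OF 271** (`Exit/AnaDefs`): levels `m0 ≤ m`, ANY good set of samples inside `D.Gd`, ANY `ke` which agrees with `D.ke` on the good usable samples -/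
theorem pvek_thick_L {D : PvekDat τ} {𝔓 : PvxPar τ c} {W : Set ℂ → ℂ × ℂ → ℂ} {q q' CB : ℝ≥0∞} {L : ℝ} {m0 : ℕ} (hB : PvbeIn W CB) (hCB : CB ≠ ∞) (h : D.OkL 𝔓 W q q' L m0)
    {Gd : ℕ → ℝ → ℂ → τ → Set PVSample} (hG : ∀ m, m0 ≤ m → ∀ ε z t, Gd m ε z t ⊆ pvConf ⁻¹' D.Gd m ε z t)
    {ke : ℕ → ℝ → ℂ → τ → PVSample → ℂ} (hke : ∀ m, m0 ≤ m → ∀ ε z t, ∀ ω ∈ pvxU 𝔓 m z t ∩ Gd m ε z t, ke m ε z t ω = D.ke m ε z t ω) :
    ∀ (m : ℕ), m0 ≤ m → ∀ (p : ℤ × ℤ) (t : τ), ∀ᶠ ε in 𝓝[>] (0 : ℝ),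
    (pvhbUp ε).E ((pvMerge ⁻¹' pvxU 𝔓 m (l9Pt (pvlmH m) p) t ∩ pvMerge ⁻¹' Gd m ε (l9Pt (pvlmH m) p) t).indicator fun x => ‖ke m ε (l9Pt (pvlmH m) p) t (pvMerge x)‖ₑ ^ 2)
      ≤ ENNReal.ofReal (pvktCe q q' CB L * pvlmH m ^ 2) := by
  intro m hm p t
  filter_upwards [h.ev m hm p t, self_mem_nhdsWithin] with ε hA hε
  obtain ⟨Ok, hok, hS⟩ := hA.stop
  have k := pvek_bes (B := D.B 𝔓 m ε (l9Pt (pvlmH m) p) t) hB hε (𝔓.col t) hA.mC hok hS h.q0 h.q'0 h.q't hA.norm hA.bd hA.ins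
    (h.mM m hm _ t) (Metric.isBounded_closedBall.subset (h.sub m hm _ t)) hA.recog
  refine (((pvhbUp ε).mono fun x => ?_).trans k).trans (pvkt_Ce_le h.q0 h.q'0 hCB (h.sub m hm _ t))
  by_cases hx : x ∈ pvMerge ⁻¹' pvxU 𝔓 m (l9Pt (pvlmH m) p) t ∩ pvMerge ⁻¹' Gd m ε (l9Pt (pvlmH m) p) t
  · have hx' : pvConf (pvMerge x) ∈ D.B 𝔓 m ε (l9Pt (pvlmH m) p) t := ⟨⟨pvMerge x, hx.1, rfl⟩, hG m hm _ _ _ hx.2⟩
    rw [indicator_of_mem hx, indicator_of_mem hx', hke m hm ε _ t (pvMerge x) hx]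
    exact le_rfl
  · rw [indicator_of_notMem hx]; exact zero_le

/-- the second moment, levels `m0 ≤ m`, any good set of samples inside `D.Gd`, any function of the sample below `D.J` there -/
theorem pvek_thickJ_L {D : PvekDat τ} {𝔓 : PvxPar τ c} {W : Set ℂ → ℂ × ℂ → ℂ} {q q' CB : ℝ≥0∞} {L : ℝ} {m0 : ℕ} (hB : PvbeIn W CB) (hCB : CB ≠ ∞) (h : D.OkL 𝔓 W q q' L m0)
    {Gd : ℕ → ℝ → ℂ → τ → Set PVSample} (hG : ∀ m, m0 ≤ m → ∀ ε z t, Gd m ε z t ⊆ pvConf ⁻¹' D.Gd m ε z t)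
    {F : ℕ → ℝ → ℂ → τ → PVSample → ℝ≥0∞} (hF : ∀ m, m0 ≤ m → ∀ ε z t, ∀ ω ∈ pvxU 𝔓 m z t ∩ Gd m ε z t, F m ε z t ω ≤ D.J m ε z t ω) :
    ∀ (m : ℕ), m0 ≤ m → ∀ (p : ℤ × ℤ) (t : τ), ∀ᶠ ε in 𝓝[>] (0 : ℝ),
    (pvhbUp ε).E ((pvMerge ⁻¹' pvxU 𝔓 m (l9Pt (pvlmH m) p) t ∩ pvMerge ⁻¹' Gd m ε (l9Pt (pvlmH m) p) t).indicator fun x => F m ε (l9Pt (pvlmH m) p) t (pvMerge x))
      ≤ ENNReal.ofReal (pvktCe q q' CB L * pvlmH m ^ 2) := by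
  intro m hm p t
  filter_upwards [h.ev m hm p t, self_mem_nhdsWithin] with ε hA hε
  obtain ⟨Ok, hok, hS⟩ := hA.stop
  have k := pvek_besF (B := D.B 𝔓 m ε (l9Pt (pvlmH m) p) t) hB hε (𝔓.col t) hA.mC hok hS h.q0 h.q'0 h.q't (Eventually.of_forall fun _ _ => le_rfl) hA.bd hA.ins
    (h.mM m hm _ t) (Metric.isBounded_closedBall.subset (h.sub m hm _ t)) hA.recog
  refine (((pvhbUp ε).mono fun x => ?_).trans k).trans (pvkt_Ce_le h.q0 h.q'0 hCB (h.sub m hm _ t))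
  by_cases hx : x ∈ pvMerge ⁻¹' pvxU 𝔓 m (l9Pt (pvlmH m) p) t ∩ pvMerge ⁻¹' Gd m ε (l9Pt (pvlmH m) p) t
  · have hx' : pvConf (pvMerge x) ∈ D.B 𝔓 m ε (l9Pt (pvlmH m) p) t := ⟨⟨pvMerge x, hx.1, rfl⟩, hG m hm _ _ _ hx.2⟩
    rw [indicator_of_mem hx, indicator_of_mem hx']
    exact hF m hm ε _ t (pvMerge x) hx
  · rw [indicator_of_notMem hx]; exact zero_le

/-- `Q` alone (RULING 12) -/
theorem pvek_thick_Q {D : PvekDat τ} {𝔓 : PvxPar τ c} {q q' : ℝ≥0∞} {L : ℝ} (h : D.Ok 𝔓 pvqWQ q q' L) :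
    ∀ (m : ℕ) (p : ℤ × ℤ) (t : τ), ∀ᶠ ε in 𝓝[>] (0 : ℝ),
    (pvhbUp ε).E ((pvMerge ⁻¹' pvxU 𝔓 m (l9Pt (pvlmH m) p) t ∩ pvMerge ⁻¹' (pvConf ⁻¹' D.Gd m ε (l9Pt (pvlmH m) p) t)).indicator fun x => ‖D.ke m ε (l9Pt (pvlmH m) p) t (pvMerge x)‖ₑ ^ 2)
      ≤ ENNReal.ofReal (pvktCe q q' pvbeCB L * pvlmH m ^ 2) :=
  pvek_thick pvbe_in_Q' pvbe_CB_ne_top h

/-- the field `V` (`cV_L2`) -/
theorem pvek_thick_V {D : PvekDat τ} {𝔓 : PvxPar τ c} {q q' : ℝ≥0∞} {L : ℝ} (h : D.Ok 𝔓 pvbeWV q q' L) :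
    ∀ (m : ℕ) (p : ℤ × ℤ) (t : τ), ∀ᶠ ε in 𝓝[>] (0 : ℝ),
    (pvhbUp ε).E ((pvMerge ⁻¹' pvxU 𝔓 m (l9Pt (pvlmH m) p) t ∩ pvMerge ⁻¹' (pvConf ⁻¹' D.Gd m ε (l9Pt (pvlmH m) p) t)).indicator fun x => ‖D.ke m ε (l9Pt (pvlmH m) p) t (pvMerge x)‖ₑ ^ 2)
      ≤ ENNReal.ofReal (pvktCe q q' pvbeCB L * pvlmH m ^ 2) :=
  pvek_thick pvbe_in_V pvbe_CB_ne_top h

/-- the fields `y_a = Q - a V`, uniformly in `‖a‖ ≤ CA`      (`PvelAna.thick` verbatim) -/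
theorem pvek_thick_a {D : ℂ → PvekDat τ} {𝔓 : PvxPar τ c} {q q' : ℝ≥0∞} {L : ℝ} (h : ∀ a, (D a).Ok 𝔓 (pvbeComb pvqWQ pvbeWV (-a)) q q' L) (CA : ℝ) :
    ∀ (a : ℂ), ‖a‖ ≤ CA → ∀ (m : ℕ) (p : ℤ × ℤ) (t : τ), ∀ᶠ ε in 𝓝[>] (0 : ℝ),
    (pvhbUp ε).E ((pvMerge ⁻¹' pvxU 𝔓 m (l9Pt (pvlmH m) p) t ∩ pvMerge ⁻¹' (pvConf ⁻¹' (D a).Gd m ε (l9Pt (pvlmH m) p) t)).indicator fun x => ‖(D a).ke m ε (l9Pt (pvlmH m) p) t (pvMerge x)‖ₑ ^ 2)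
      ≤ ENNReal.ofReal (pvktCe q q' (pvktCBa CA) L * pvlmH m ^ 2) :=
  fun a ha => pvek_thick (pvkt_in_QaV ha) (pvkt_CBa_ne_top CA) (h a)

end model

end Claimed.Agent.R289
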