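-- KEEP
import Claimed.Agent.R289.Defs.GdThick
import Claimed.Agent.R289.Exit.Thick

/-!
# Row 289 (S0537), THE WALL, ROAD E, file Exit/ThickL : THE CUT OF `exit_pvie_thick` AT THE NAMES OF `Tr/InstL`      (helper223, second of helper7; prefix `pvjt`, `Pvjt`)

`Exit/Thick.lean` (7): `PvekDat τ` (base indexed data of the thick short link), leaves `PvekDat.At / Ok`, roof `pvek_thick_of`.      HERE: THE EXPLICIT DATUM **`pvjtDat 𝔓 𝔈 𝔯 wt q q'`** at the definitions of record `Tr/InstL.lean` (168) + `Defs/GdThick.lean`,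
the contract `PvjtWf` on the regions / on the reference plug, ONE NAMED STATEMENT PER LEAF at that datum, and the COMPILED glue
      **`pvjt_thick`** : `PvjtWf` ⟹ the field `thick` for `pvilKeW 𝔓 𝔈 wt` over `pvxU ∩ Gd`, for every good set `Gd ⊆ pvConf ⁻¹' pvjtGd ..`      (`wt = pvilQ`, `W = pvqWQ`: `thick`;   `wt = pvilV`, `W = pvbeWV`: `cV_L2`).
* sec. 1  the datum: `pvjtW pvjtX pvjtA pvjtA' pvjtDat`
* sec. 2  the contracts `PvjtWf` (regions, reference plug), `PvjtRecAt`, `PvjtRecog` (K4)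
* sec. 3  basics: `pvjt_beta_some pvjt_beta_inv PvjtRaw pvjt_raw_Q pvjt_raw_V pvjt_sh_meas`
THE LEAVES AND THE GLUE ARE IN **`Exit/ThickLT.lean`** (top file).      A LEAF IS CLOSED IN ITS OWN FILE (imports THIS file, never `ThickLT`), then cited in `ThickLT` by one line.
-/

set_option autoImplicit false

namespace Claimed.Agent.R289

open Set MeasureTheory Filter Topology Claims.C0465
open scoped ENNReal

/-! ## 1. the datum -/

section dat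

variable {τ : Type} {c : ℝ} (𝔓 : PvxPar τ c) (𝔈 : PvieEng τ) (𝔯 : PvjtRet τ) (wt : ∀ η : Conf PvPt, (delbPl (pvieY η)).Dart → ℂ)

/-- the weight of the experiment of `ke` at the base data -/
noncomputable def pvjtW (m : ℕ) (ε : ℝ) (z : ℂ) (t : τ) : Option PvjtIx → Conf PvPt → ℝ≥0∞
  | none => 0
  | some i => pvilW1e 𝔓 𝔈 m ε z t (pvilEe 𝔓 𝔈 m ε wt z t i.1.1 i.1.2)

/-- the (soft) value of the thick link at the base data -/
noncomputable def pvjtX (m : ℕ) (ε : ℝ) (z : ℂ) (t : τ) : Option PvjtIx → Conf PvPt → ℂ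
  | none => 0
  | some i => (pvilEe 𝔓 𝔈 m ε wt z t i.1.1 i.1.2).X

/-- the reference plug is usable and the thick link succeeds      (hulls finite = `pvilFin` inside `pvjtAe`, `pvjtAf`: COUNTABLY many events;   `pvjtGi` = guard (G) of 290 on the index) -/
noncomputable def pvjtA (m : ℕ) (ε : ℝ) (z : ℂ) (t : τ) : Option PvjtIx → Set (Conf PvPt)
  | none => ∅
  | some i => {_η | pvjtLv 𝔓 m t ∧ pvjtGi 𝔓 m z t i} ∩ (pvjtGu 𝔓 𝔈 m ε z t ∩ pvjtAe 𝔓 𝔈 wt m ε z t i.1.1)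

/-- the thick return closes the cycle -/
def pvjtA' (m : ℕ) (ε : ℝ) (z : ℂ) (t : τ) : Option PvjtIx → Set (Conf PvPt)
  | none => ∅
  | some i => pvjtAf 𝔓 𝔈 𝔯 m ε z t i.2.1

/-- **THE DATUM OF `Exit/Thick` AT THE DEFINITIONS OF RECORD** -/
noncomputable def pvjtDat (L : ℝ) (q q' : ℝ≥0∞) : PvekDat τ where
  ι := Option PvjtIx
  β := fun m _ z t => pvjtBeta 𝔓 m z t
  C := fun m _ z t => pvjtC 𝔓 𝔈 𝔯 m z t
  y := fun m _ z t => pvjtY 𝔈 𝔯 m z t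
  w := pvjtW 𝔓 𝔈 wt
  Y := pvjtX 𝔓 𝔈 wt
  A := pvjtA 𝔓 𝔈 wt
  A' := pvjtA' 𝔓 𝔈 𝔯
  M := fun m z t => pvieSh z (𝔯.Mk m t ∩ Metric.closedBall 0 (L * pvlmH m))
  Gd := pvjtGd 𝔓 𝔈 𝔯 wt q q'

theorem pvjt_eqns_cite2 : True := by
  have := @pvjtW.eq_1; have := @pvjtX.eq_1; have := @pvjtA.eq_1; have := @pvjtA'.eq_1; have := @pvjtDat.eq_1
  trivial

/-! ## 2. the contract -/

/-- **THE CONTRACT OF `thick`** on the regions of the two thick links and on the reference plug      (`L` = size of the mask in units of `h`, `b0` = admission of the reference plug).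
[regions: 182 `Exit/ParEngF`, 166 124 168;   reference plug: 34 127 140 262] -/
structure PvjtWf (L : ℝ) (b0 : ℝ≥0∞) : Prop where
  -- Borel
  m_eM : ∀ m t, MeasurableSet (𝔈.eM m t)
  m_eK : ∀ m t, MeasurableSet (𝔈.eK m t)
  m_rO : ∀ m, MeasurableSet (𝔈.rO m)
  m_fM : ∀ m t, MeasurableSet (𝔯.fM m t)
  m_fK : ∀ m t, MeasurableSet (𝔯.fK m t)
  m_Mk : ∀ m t, MeasurableSet (𝔯.Mk m t)
  /-- the atoms of the closed cycle `u ⇒ t ⇒ u` are disjoint -/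
  disj : ∀ m t, pvjtLv 𝔓 m t → [𝔈.eM m t, 𝔈.eK m t, 𝔯.fM m t, 𝔯.fK m t, pviwRo 𝔓 𝔈 m t].Pairwise Disjoint
  /-- the recoloured mouths lie in the balls `ρh/2` round the grid centres of the tip cells (line (W2) of R21 (1)) -/
  eM_cen : ∀ m t, pvjtLv 𝔓 m t → 𝔈.eM m t ⊆ Metric.closedBall ((pvlmH m : ℂ) * (𝔓.ty t).ym) (𝔓.num.rho * pvlmH m / 2)
  fM_cen : ∀ m t, pvjtLv 𝔓 m t → 𝔯.fM m t ⊆ Metric.closedBall ((pvlmH m : ℂ) * (𝔓.ty t).yp) (𝔓.num.rho * pvlmH m / 2)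
  /-- the tiles and the region of the reference plug are off the own-level box `+ δ` (`res_off` form of `Defs/InstWf`; the windows of InstL v2.2 are cut by that box) -/
  eK_off : ∀ m t, pvjtLv 𝔓 m t → Disjoint (𝔈.eK m t) (pviwBox 𝔓 m t)
  fK_off : ∀ m t, pvjtLv 𝔓 m t → Disjoint (𝔯.fK m t) (pviwBox 𝔓 m t)
  rO_off : ∀ m t, pvjtLv 𝔓 m t → Disjoint (pviwRo 𝔓 𝔈 m t) (pviwBox 𝔓 m t)
  /-- the cells are small against the mouths -/
  del_le : ∀ m, 𝔓.m0 ≤ m → 0 < pvlmDel c m ∧ 64 * pvlmDel c m ≤ 𝔓.num.rho * pvlmH m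
  /-- the usable states of the reference plug: Borel, read in the region, ADMISSION uniform in the mesh -/
  rG_meas : ∀ m ε, MeasurableSet (𝔈.rG m ε)
  rG_reads : ∀ m ε, Conf.Reads (𝔈.rO m ×ˢ univ) (fun η => η ∈ 𝔈.rG m ε)
  b00 : b0 ≠ 0
  adm : ∀ m, 𝔓.m0 ≤ m → ∀ᶠ ε in 𝓝[>] (0 : ℝ), b0 ≤ pvP ε (𝔈.rG m ε)

/-- **(K4) RECOGNITION AT ONE CANDIDATE, ONE MESH**, for all the base data at once: a.s., if the thick link and the thick return succeed, the soft value of the thick link IS the masked label of a tag of the closed cycle.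
A CONTRACT, NOT A CONSEQUENCE OF `PvjtWf` (265 88: `PvjtWf` does not tie `Mk eY fY`): it is owed by the pens of recog (132 290 118 55 288) from THEIR design record at the regions of record. -/
def PvjtRecAt (W : Set ℂ → ℂ × ℂ → ℂ) (L : ℝ) (m : ℕ) (ε : ℝ) (z : ℂ) (t : τ) : Prop :=
  ∀ᵐ η ∂pvP ε, ∀ i : PvjtIx, η ∈ pvjtA 𝔓 𝔈 wt m ε z t (some i) → η ∈ pvjtA' 𝔓 𝔈 𝔯 m ε z t (some i) → ∃ x, pvbeTag (pvktFl (𝔓.col t) η) x ∧
    pvjtX 𝔓 𝔈 wt m ε z t (some i) η = pvbeLab W ((pvieSh z (𝔯.Mk m t ∩ Metric.closedBall 0 (L * pvlmH m))).indicator 1) (pvktFl (𝔓.col t) η) x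

/-- **(K4) THE RECOGNITION CONTRACT**: levels of the engine, non degenerate types, candidates of the grid, eventually in the mesh -/
def PvjtRecog (W : Set ℂ → ℂ × ℂ → ℂ) (L : ℝ) : Prop :=
  ∀ (m : ℕ) (p : ℤ × ℤ) (t : τ), pvjtLv 𝔓 m t → ∀ᶠ ε in 𝓝[>] (0 : ℝ), PvjtRecAt 𝔓 𝔈 𝔯 wt W L m ε (l9Pt (pvlmH m) p) t

theorem pvjt_eqns_cite4 : True := by
  have := @PvjtRecAt.eq_1; have := @PvjtRecog.eq_1
  trivial

end dat

/-! ## 3. basics -/

section basics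

variable {τ : Type} {c : ℝ} {𝔓 : PvxPar τ c} {m : ℕ} {z : ℂ} {t : τ}

/-- the base data of a usable candidate of a level of the engine -/
theorem pvjt_beta_some (hl : pvjtLv 𝔓 m t) {η : Conf PvPt} (h : η ∈ pvilU 𝔓.num (𝔓.col t) (pvilPin 𝔓 m z t)) :
    pvjtBeta 𝔓 m z t η = some ((pvilZi 𝔓 m z t η, pvilFi 𝔓 m z t η), (pvilZo 𝔓 m z t η, pvilFo 𝔓 m z t η)) := by
  unfold pvjtBeta
  rw [if_pos ⟨hl, h⟩]

theorem pvjt_beta_inv {η : Conf PvPt} {i : PvjtIx} (h : pvjtBeta 𝔓 m z t η = some i) :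
    pvjtLv 𝔓 m t ∧ η ∈ pvilU 𝔓.num (𝔓.col t) (pvilPin 𝔓 m z t) ∧ i = ((pvilZi 𝔓 m z t η, pvilFi 𝔓 m z t η), (pvilZo 𝔓 m z t η, pvilFo 𝔓 m z t η)) := by
  unfold pvjtBeta at h
  split_ifs at h with hh
  exact ⟨hh.1, hh.2, (Option.some.inj h).symm⟩

/-- the dart weight `wt` is the raw summand `W` -/
def PvjtRaw (wt : ∀ η : Conf PvPt, (delbPl (pvieY η)).Dart → ℂ) (W : Set ℂ → ℂ × ℂ → ℂ) : Prop :=
  ∀ η : Conf PvPt, DelGood (pvieY η) → ∀ d : (delbPl (pvieY η)).Dart, wt η d = W (pvieY η) (d.1.1.1, d.1.2.1)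

theorem pvjt_eqns_cite3 : True := by
  have := @PvjtRaw.eq_1
  trivial

theorem pvjt_raw_aux {Y : Set ℂ} (h : DelGood Y) {P : PlTri ↥Y} (hP : P = delPl h) (d : P.Dart) :
    P.toMap.qpart Subtype.val d = pvqWQ Y (d.1.1.1, d.1.2.1) ∧ P.toMap.side Subtype.val d = pvbeWV Y (d.1.1.1, d.1.2.1) := by
  subst hP
  refine ⟨(pvq_del_qpart h d).symm, ?_⟩
  unfold pvbeWV
  rw [show ((d.1.1.1, d.1.2.1) : ℂ × ℂ) = pvqCode d from rfl, pvq_del_qpart, pvq_del_upart, PvMap.upart_add_qpart]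

/-- `Q` -/
theorem pvjt_raw_Q : PvjtRaw pvilQ pvqWQ := fun _ h d => (pvjt_raw_aux h (delb_pl_eq h) d).1

/-- `V` -/
theorem pvjt_raw_V : PvjtRaw pvilV pvbeWV := fun _ h d => (pvjt_raw_aux h (delb_pl_eq h) d).2

theorem pvjt_sh_meas (z : ℂ) {S : Set ℂ} (hS : MeasurableSet S) : MeasurableSet (pvieSh z S) :=
  (Homeomorph.addLeft z).toMeasurableEquiv.measurableSet_image.2 hS

end basics

end Claimed.Agent.R289
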