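import Claimed.Agent.R289.Exit.ThickL
import Claimed.Agent.R289.Tr.BuNormL

/-!
# Row 289 (S0537), THE WALL, ROAD E, file Exit/ThickLK2 : THE LEAF `exit_pvjt_norm` OF `Exit/ThickLT` (223), PROVED      (helper103; prefix `pvkt_`)

* `pvkt_sh_sh`, `pvkt_sh_disjoint` (shifted regions),   `pvkt_jt_disj` (the five atoms of the closed cycle, placed)
* **`pvkt_jt_norm`** = the statement of `exit_pvjt_norm` VERBATIM (`hLF` not used)
-/

set_option autoImplicit false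

namespace Claimed.Agent.R289

open Set MeasureTheory Filter Topology Claims.C0465
open scoped ENNReal

theorem pvkt_sh_sh (z w : ℂ) (S : Set ℂ) : pvieSh (z + w) S = pvieSh z (pvieSh w S) := by
  unfold pvieSh
  rw [image_image]
  exact image_congr fun a _ => add_assoc z w a

theorem pvkt_sh_disjoint (z : ℂ) {S T : Set ℂ} (h : Disjoint S T) : Disjoint (pvieSh z S) (pvieSh z T) :=
  (disjoint_image_iff (add_right_injective z)).2 h

section norm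

variable {τ : Type} {c : ℝ} {𝔓 : PvxPar τ c} {𝔈 : PvieEng τ} {𝔯 : PvjtRet τ} {wt : ∀ η : Conf PvPt, (delbPl (pvieY η)).Dart → ℂ} {L : ℝ} {b0 : ℝ≥0∞}
  {m : ℕ} {z : ℂ} {t : τ}

/-- the region of the reference plug of the candidate, placed -/
theorem pvkt_jt_Ro (𝔓 : PvxPar τ c) (𝔈 : PvieEng τ) (m : ℕ) (z : ℂ) (t : τ) : pvieSh (pvieZu 𝔓 m z t) (𝔈.rO m) = pvieSh z (pviwRo 𝔓 𝔈 m t) := pvkt_sh_sh z _ _

/-- **(K2) NORM AT THE DATUM OF 223** -/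
theorem pvkt_jt_norm (H : PvjtWf 𝔓 𝔈 𝔯 L b0) (ε : ℝ) {ω : Conf PvPt} {i : PvjtIx} (hi : pvjtBeta 𝔓 m z t ω = some i) :
    ∫⁻ p, pvjtW 𝔓 𝔈 wt m ε z t (some i) (pvjtR 𝔓 𝔈 𝔯 m z t (some i) ω p) ∂pvdyNu ε ≤ 1 := by
  obtain ⟨hl, -, -⟩ := pvjt_beta_inv hi
  have hd := H.disj m t hl
  simp only [List.pairwise_cons, List.mem_cons, List.not_mem_nil, or_false, forall_eq_or_imp, forall_eq, IsEmpty.forall_iff, implies_true, List.Pairwise.nil, and_true] at hd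
  obtain ⟨⟨-, -, h_eM_fK, h_eM_Ro⟩, ⟨-, -, h_eK_Ro⟩, -⟩ := hd
  refine pvkt_W1e_norm (e := pvilEe 𝔓 𝔈 m ε wt z t i.1.1 i.1.2) (C := pvjtC 𝔓 𝔈 𝔯 m z t) (y := pvjtY 𝔈 𝔯 m z t (some i)) (ye := pvjtYe 𝔈 m z t i)
    (H.rG_reads m ε) rfl (pvjt_sh_meas z (H.m_eK m t)) (fun v hv => Or.inl (Or.inl hv)) ?_ (fun v hv => Or.inl (Or.inr hv)) ?_ ω
  · intro v hv hK
    refine ⟨?_, Or.inl hv⟩
    rintro ((h | h) | h)
    · exact hK h
    · rw [pvkt_jt_Ro] at h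
      exact Set.disjoint_left.1 (pvkt_sh_disjoint z h_eM_Ro) hv.1 h
    · exact Set.disjoint_left.1 (pvkt_sh_disjoint z h_eM_fK) hv.1 h
  · rw [pvkt_jt_Ro]
    exact (pvkt_sh_disjoint z h_eK_Ro).symm

end norm

end Claimed.Agent.R289
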