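-- KEEP
import Claimed.Agent.R289.Exit.ThickL
import Claimed.Agent.R289.Exit.ThickLK2
import Claimed.Agent.R289.Tr.StopLT
import Claimed.Agent.R289.Tr.InstEKL
import Claimed.Agent.R289.Tr.ThickEnl

/-!
# Row 289 (S0537), THE WALL, ROAD E, file Exit/ThickLT : THE LEAVES OF `exit_pvie_thick` AT THE DATUM `pvjtDat` AND THE COMPILED GLUE      (helper223, second of helper7; prefix `pvjt`, `Pvjt`)

TOP FILE.      RULE: a leaf `exit_pvjt_X` is proved IN ITS OWN FILE (which imports `Exit/ThickL.lean` = datum + contract, NEVER this file) under the prefix of its owner, with the statement below VERBATIM;   then ONE import line + ONE line here.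
* sec. 3  the leaves at the datum: `exit_pvjt_U` (seam, PROVED 152 50 38) `exit_pvjt_stop` (K1, PROVED 96 181) `exit_pvjt_norm` (K2, PROVED 103 46) `pvjt_bd` (K2 + K5, PROVED) `pvjt_ins` `pvjt_enl` (K3, PROVED from 99's `Tr/InstEKL`);
          `pvjt_gi` (guard (G) of 290 at the base data of a full state) `pvjt_d1` `pvjt_d2` (window of `e` off the atom of the return): PROVED from the geometry of 269 (`Tr/ThickEnl`: `pvjf_Zi_far pvjf_Zo_far pvjf_box_off`).      **0 SORRY.**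
          (K4) recog IS A HYPOTHESIS OF THE GLUE: contract `PvjtRecog` of `Exit/ThickL.lean` (132 290 118 55 288 produce it at the regions of record).
* sec. 4  `pvjt_at`, `pvjt_ok`, **`pvjt_thick`**, `pvjt_thick_Q`, `pvjt_thick_V`
-/

set_option autoImplicit false

namespace Claimed.Agent.R289

open Set MeasureTheory Filter Topology Claims.C0465
open scoped ENNReal

/-! ## 3. the leaves at the datum -/

section leaves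

variable {τ : Type} {c : ℝ} {𝔓 : PvxPar τ c} {𝔈 : PvieEng τ} {𝔯 : PvjtRet τ} {wt : ∀ η : Conf PvPt, (delbPl (pvieY η)).Dart → ℂ} {L : ℝ} {b0 q q' : ℝ≥0∞}
  {m : ℕ} {ε : ℝ} {z : ℂ} {t : τ}

/-- **(SEAM)** the usable candidates of `Defs/TrModel` v4 carry the full state of `Tr/InstL`      [168: `PvilOut.tip`, `PvilIn.tip` must test the BLACK END of the tip dart as `PvxAt.tip_p`, `tip_m` do] -/
theorem exit_pvjt_U (𝔓 : PvxPar τ c) (m : ℕ) (z : ℂ) (t : τ) : pvxU 𝔓 m z t ⊆ pvConf ⁻¹' pvilU 𝔓.num (𝔓.col t) (pvilPin 𝔓 m z t) := by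
  rintro ω ⟨𝔖, H⟩
  have e1 : (pvilPin 𝔓 m z t).pos (pvConf ω) = pvxPos ω := by
    funext v
    show (starRingEnd ℂ) (1 : ℂ) * pviePos (pvConf ω) v = _
    rw [map_one, one_mul]
    rfl
  have e2 : (pvilPin 𝔓 m z t).zf = z := by
    show (starRingEnd ℂ) (1 : ℂ) * z = z
    rw [map_one, one_mul]
  refine ⟨𝔖, ⟨H.good, ?_, H.tip_p, H.mask_p, H.inn_p, H.lev0⟩, ⟨H.good, ?_, H.tip_m, H.mask_m, H.inn_m, H.lev0⟩, ?_, ?_⟩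
  · rw [e1, e2]; exact H.st.out
  · rw [e1, e2]; exact H.st.inn
  · rw [e1, e2]; exact H.st.far_p
  · rw [e1, e2]; exact H.st.far_m

/-- **(K1) STOP**      [96 `Tr/StopM`: `pvsm_stop_gd` at the half states of `Tr/InstL`;   off `pvjtLv` nothing is recoloured] -/
theorem exit_pvjt_stop (H : PvjtWf 𝔓 𝔈 𝔯 L b0) (m : ℕ) (ε : ℝ) (z : ℂ) (t : τ) :
    ∃ Ok : Set ℂ → Prop, (∀ᵐ ω ∂pvP ε, Ok (cfSites ω)) ∧ PvktStop Ok (fun η => pvjtY 𝔈 𝔯 m z t (pvjtBeta 𝔓 m z t η)) :=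
  pvsml_thick_leaf H m ε z t

/-- **(K2) NORM**: the lower mass of the weight is at most one      [103: model free, constant `yf`;   `pvieGr` reads `zu + rO`, off the atom `(eK, eM \ F)`] -/
theorem exit_pvjt_norm (H : PvjtWf 𝔓 𝔈 𝔯 L b0) (ε : ℝ) {ω : Conf PvPt} {i : PvjtIx} (hi : pvjtBeta 𝔓 m z t ω = some i) :
    ∫⁻ p, pvjtW 𝔓 𝔈 wt m ε z t (some i) (pvjtR 𝔓 𝔈 𝔯 m z t (some i) ω p) ∂pvdyNu ε ≤ 1 :=
  pvkt_jt_norm H ε hi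

/-- the cells of a hull lie in the fattened hull -/
theorem pvjt_U_sub_fat (δ : ℝ) (Z : Set (ℤ × ℤ)) : pvtU δ Z ⊆ pvilFat δ Z := by
  intro w hw
  unfold pvtU at hw
  simp only [mem_iUnion, exists_prop] at hw
  obtain ⟨q, hq, hw⟩ := hw
  unfold pvilFat pvtU
  simp only [mem_iUnion, exists_prop]
  exact ⟨q, ⟨q, hq, Or.inl rfl⟩, hw⟩

theorem pvjt_sh_ball (z y : ℂ) (r : ℝ) : Metric.closedBall (z + y) r ⊆ pvieSh z (Metric.closedBall y r) := by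
  intro w hw
  rw [pvjf_sh_mem, Metric.mem_closedBall, dist_eq_norm]
  rw [Metric.mem_closedBall, dist_eq_norm] at hw
  rwa [sub_sub]

/-- **(G) THE GUARD OF 290 HOLDS AT THE BASE DATA OF A FULL STATE**      PROVED from `pvjf_Zi_far pvjf_Zo_far` of 269 (`far_p far_m` (`2ρh`), `7ρ/4 ≤ |yp - ym|` (`pviwTyOk`), `64 δ ≤ ρh`) -/
theorem pvjt_gi (H : PvjtWf 𝔓 𝔈 𝔯 L b0) {ω : Conf PvPt} {i : PvjtIx} (hi : pvjtBeta 𝔓 m z t ω = some i) : pvjtGi 𝔓 m z t i := by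
  obtain ⟨hl, hU, rfl⟩ := pvjt_beta_inv hi
  exact ⟨((pvjf_Zo_far H hl hU).mono_left (pvjt_U_sub_fat _ _)).mono_right (pvjt_sh_ball _ _ _), ((pvjf_Zi_far H hl hU).mono_left (pvjt_U_sub_fat _ _)).mono_right (pvjt_sh_ball _ _ _)⟩

/-- **(GEO 1)** the window of the thick link misses the tile of the return, ANY hull      (the window is cut by the own-level box `+ δ`: `fK_off`, `disj`) -/
theorem pvjt_d1 (H : PvjtWf 𝔓 𝔈 𝔯 L b0) (hl : pvjtLv 𝔓 m t) (z : ℂ) (Z : Set (ℤ × ℤ)) : Disjoint (pvilWne 𝔓 𝔈 m z t Z) (pvieSh z (𝔯.fK m t)) := by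
  have hd := H.disj m t hl
  simp only [List.pairwise_cons, List.mem_cons, List.not_mem_nil, or_false, forall_eq_or_imp, forall_eq] at hd
  unfold pvilWne
  rw [pvkt_jt_Ro]
  refine ((Disjoint.union_left ?_ (pvkt_sh_disjoint z hd.1.2.2.1)).union_left (pvkt_sh_disjoint z hd.2.1.2.1)).union_left (pvkt_sh_disjoint z hd.2.2.2.1.symm)
  exact (pvjf_box_off (H.fK_off m t hl) z).mono_left inter_subset_right

/-- **(GEO 2)** the window of the thick link misses the recoloured mouth of the return, AT THE BASE DATA OF A FULL STATE -/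
theorem pvjt_d2 (H : PvjtWf 𝔓 𝔈 𝔯 L b0) {ω : Conf PvPt} {i : PvjtIx} (hi : pvjtBeta 𝔓 m z t ω = some i) : Disjoint (pvilWne 𝔓 𝔈 m z t i.1.1) (pvjtYf 𝔯 m z t i) := by
  obtain ⟨hl, hU, ei⟩ := pvjt_beta_inv hi
  have eZ : i.1.1 = pvilZi 𝔓 m z t ω := by rw [ei]
  have hd := H.disj m t hl
  simp only [List.pairwise_cons, List.mem_cons, List.not_mem_nil, or_false, forall_eq_or_imp, forall_eq] at hd
  have h58 : 𝔓.num.rho * pvlmH m / 2 ≤ 5 * 𝔓.num.rho * pvlmH m / 8 := by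
    have := H.del_le m hl.1
    linarith [this.1, this.2]
  refine Disjoint.mono_right (show pvjtYf 𝔯 m z t i ⊆ pvieSh z (𝔯.fM m t) from sdiff_subset) ?_
  unfold pvilWne
  rw [pvkt_jt_Ro]
  refine ((Disjoint.union_left ?_ (pvkt_sh_disjoint z hd.1.2.1)).union_left (pvkt_sh_disjoint z hd.2.1.1)).union_left (pvkt_sh_disjoint z hd.2.2.1.2.symm)
  rw [eZ]
  exact ((pvjf_Zi_far H hl hU).mono_right (Set.image_mono ((H.fM_cen m t hl).trans (Metric.closedBall_subset_closedBall h58)))).mono_left inter_subset_left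

/-- **(K3) INSERTION OF THE RETURN**, UPPER FORM of 87 (= the field `ins` of `PvekDat.At` at one base)      PROVED from `pvks_Ke_ins` of 99 + (GEO 1) (GEO 2) + the second line of `pvjtGd` -/
theorem pvjt_ins (H : PvjtWf 𝔓 𝔈 𝔯 L b0) (hε : 0 < ε) {ω : Conf PvPt} (hLF : PvLF ω) {i : PvjtIx} (hi : pvjtBeta 𝔓 m z t ω = some i) (hG : ω ∈ pvjtGd 𝔓 𝔈 𝔯 wt q q' m ε z t)
    {G : Conf PvPt → ℝ≥0∞} (mG : Measurable G) (hGle : ∀ η, η ∈ pvjtA 𝔓 𝔈 wt m ε z t (some i) → η ∈ pvjtA' 𝔓 𝔈 𝔯 m ε z t (some i) → ‖pvjtX 𝔓 𝔈 wt m ε z t (some i) η‖ₑ ^ 2 ≤ G η) :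
    q' * ∫⁻ p, (pvjtA 𝔓 𝔈 wt m ε z t (some i)).indicator (fun η => ‖pvjtX 𝔓 𝔈 wt m ε z t (some i) η‖ₑ ^ 2) (pvjtR 𝔓 𝔈 𝔯 m z t (some i) ω p) ∂pvdyNu ε
      ≤ ∫⁻ p, G (pvjtR 𝔓 𝔈 𝔯 m z t (some i) ω p) ∂pvdyNu ε := by
  obtain ⟨hl, -, -⟩ := pvjt_beta_inv hi
  have hgi := pvjt_gi H hi
  have hd := H.disj m t hl
  simp only [List.pairwise_cons, List.mem_cons, List.not_mem_nil, or_false, forall_eq_or_imp, forall_eq] at hd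
  have eA : pvjtA 𝔓 𝔈 wt m ε z t (some i) = pvktGs 𝔈 m ε (pvieZu 𝔓 m z t) (𝔓.col t) ∩ (pvilEe 𝔓 𝔈 m ε wt z t i.1.1 i.1.2).A := by
    ext η
    exact ⟨fun h => h.2, fun h => ⟨⟨hl, hgi⟩, h⟩⟩
  rw [eA] at hGle ⊢
  refine pvks_Ke_ins 𝔓 wt z t i.1.1 i.1.2 (cK := pvieSh z (𝔯.fK m t)) (yc := pvjtYf 𝔯 m z t i) (A' := pvjtA' 𝔓 𝔈 𝔯 m ε z t (some i)) hε (H.rG_reads m ε)
    (((pvjt_sh_meas z (H.m_eK m t)).union (pvjt_sh_meas _ (H.m_rO m))).union (pvjt_sh_meas z (H.m_fK m t))) (pvdy_countable_of_LF hLF) (pvjt_sh_meas z (H.m_fK m t))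
    (pvjt_d1 H hl z _) (pvjt_d2 H hi) subset_union_right subset_union_right ?_ ?_ mG hGle
  · rintro x hx ((hx1 | hx1) | hx1)
    · exact absurd hx1 (disjoint_left.1 (pvkt_sh_disjoint z hd.2.1.1.symm) hx.1)
    · rw [pvkt_jt_Ro] at hx1
      exact absurd hx1 (disjoint_left.1 (pvkt_sh_disjoint z hd.2.2.1.2) hx.1)
    · exact hx1
  · filter_upwards [hG.2 i hi] with p hp hA
    exact (hp hA.1).2

/-- **(K3) ENLARGEMENT**: the mean of record resamples the atoms of `e` only; the resources of the return do not change it      PROVED from `pvks_hat_drop_union` of 99 + (GEO 1) (GEO 2) -/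
theorem pvjt_enl (H : PvjtWf 𝔓 𝔈 𝔯 L b0) (ε : ℝ) {ω : Conf PvPt} {i : PvjtIx} (hi : pvjtBeta 𝔓 m z t ω = some i) :
    pvdyHat ε (pvjtC 𝔓 𝔈 𝔯 m z t) (fun _ => pvjtY 𝔈 𝔯 m z t (some i)) (pvjtW 𝔓 𝔈 wt m ε z t (some i)) (pvjtX 𝔓 𝔈 wt m ε z t (some i)) ω
      = pvdyHat ε (pvieSh z (𝔈.eK m t) ∪ pvieSh (pvieZu 𝔓 m z t) (𝔈.rO m)) (fun _ => pvjtYe 𝔈 m z t i) (pvjtW 𝔓 𝔈 wt m ε z t (some i)) (pvjtX 𝔓 𝔈 wt m ε z t (some i)) ω :=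
  pvks_hat_drop_union ε (pvks_W1e_reads 𝔓 wt z t i.1.1 i.1.2 (H.rG_reads m ε)) (pvks_Ee_X_reads 𝔓 𝔈 m ε wt z t i.1.1 i.1.2) (pvjt_d1 H (pvjt_beta_inv hi).1 z _) (pvjt_d2 H hi) ω

/-- **(K2) + (K5) BOUND OF THE WEIGHT** along the experiment of a good base: admission of the reference plug + the first line of `pvjtGd`      PROVED -/
theorem pvjt_bd (H : PvjtWf 𝔓 𝔈 𝔯 L b0) (hb : b0 ≤ pvP ε (𝔈.rG m ε)) {ω : Conf PvPt} {i : PvjtIx} (hi : pvjtBeta 𝔓 m z t ω = some i) (hG : ω ∈ pvjtGd 𝔓 𝔈 𝔯 wt q q' m ε z t) :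
    ∀ᵐ p ∂pvdyNu ε, pvjtW 𝔓 𝔈 wt m ε z t (some i) (pvjtR 𝔓 𝔈 𝔯 m z t (some i) ω p) ≤ (b0 * q)⁻¹ * (pvjtA 𝔓 𝔈 wt m ε z t (some i)).indicator 1 (pvjtR 𝔓 𝔈 𝔯 m z t (some i) ω p) := by
  obtain ⟨hl, -, -⟩ := pvjt_beta_inv hi
  have hbt : b0 ≠ ∞ := ne_top_of_le_ne_top (measure_ne_top _ _) hb
  filter_upwards [hG.2 i hi] with p hp
  set η := pvjtR 𝔓 𝔈 𝔯 m z t (some i) ω p with hη
  have ew : pvjtW 𝔓 𝔈 wt m ε z t (some i) η = (pvjtGu 𝔓 𝔈 m ε z t).indicator 1 η / pvP ε (𝔈.rG m ε) *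
      ((pvjtAe 𝔓 𝔈 wt m ε z t i.1.1).indicator 1 η / pvdyQ ε (pvieSh z (𝔈.eK m t)) (fun _ => pvjtYe 𝔈 m z t i) (pvjtAe 𝔓 𝔈 wt m ε z t i.1.1) η) := rfl
  rw [ew]
  by_cases hGu : η ∈ pvjtGu 𝔓 𝔈 m ε z t
  · by_cases hA : η ∈ pvjtAe 𝔓 𝔈 wt m ε z t i.1.1
    · have hmem : η ∈ pvjtA 𝔓 𝔈 wt m ε z t (some i) := by
        exact ⟨⟨hl, pvjt_gi H hi⟩, hGu, hA⟩
      rw [indicator_of_mem hGu, indicator_of_mem hA, indicator_of_mem hmem]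
      simp only [Pi.one_apply, mul_one, one_div]
      rw [ENNReal.mul_inv (Or.inl H.b00) (Or.inl hbt)]
      exact mul_le_mul' (ENNReal.inv_le_inv.2 hb) (ENNReal.inv_le_inv.2 (hp hGu).1)
    · rw [indicator_of_notMem hA, ENNReal.zero_div, mul_zero]; exact zero_le
  · rw [indicator_of_notMem hGu, ENNReal.zero_div, zero_mul]; exact zero_le

end leaves

/-! ## 4. the glue -/

section glue

variable {τ : Type} {c : ℝ} {𝔓 : PvxPar τ c} {𝔈 : PvieEng τ} {𝔯 : PvjtRet τ} {wt : ∀ η : Conf PvPt, (delbPl (pvieY η)).Dart → ℂ} {L : ℝ} {b0 q q' : ℝ≥0∞} {W : Set ℂ → ℂ × ℂ → ℂ}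

/-- a good usable configuration has base data -/
theorem pvjt_B_some {m : ℕ} {ε : ℝ} {z : ℂ} {t : τ} {ω : Conf PvPt} (h : ω ∈ (pvjtDat 𝔓 𝔈 𝔯 wt L q q').B 𝔓 m ε z t) : ∃ i, pvjtBeta 𝔓 m z t ω = some i := by
  obtain ⟨⟨o, ho, rfl⟩, hG⟩ := h
  exact ⟨_, pvjt_beta_some hG.1 (exit_pvjt_U 𝔓 m z t ho)⟩

/-- **THE LEAVES OF 7 AT THE DATUM**, one candidate, one mesh -/
theorem pvjt_at (H : PvjtWf 𝔓 𝔈 𝔯 L b0) {m : ℕ} {ε : ℝ} (hε : 0 < ε) (hb : 𝔓.m0 ≤ m → b0 ≤ pvP ε (𝔈.rG m ε)) (z : ℂ) (t : τ) (hR : pvjtLv 𝔓 m t → PvjtRecAt 𝔓 𝔈 𝔯 wt W L m ε z t) :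
    (pvjtDat 𝔓 𝔈 𝔯 wt L q q').At 𝔓 W (b0 * q) q' m ε z t where
  mC := ((pvjt_sh_meas z (H.m_eK m t)).union (pvjt_sh_meas _ (H.m_rO m))).union (pvjt_sh_meas z (H.m_fK m t))
  stop := exit_pvjt_stop H m ε z t
  norm := by
    filter_upwards [pvcn_LF_ae ε] with ω hLF hω
    obtain ⟨i, hi⟩ := pvjt_B_some hω
    have := exit_pvjt_norm (wt := wt) H ε hi
    show ∫⁻ p, pvjtW 𝔓 𝔈 wt m ε z t (pvjtBeta 𝔓 m z t ω) (pvjtR 𝔓 𝔈 𝔯 m z t (pvjtBeta 𝔓 m z t ω) ω p) ∂pvdyNu ε ≤ 1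
    rw [hi]; exact this
  bd := by
    refine ae_of_all _ fun ω hω => ?_
    obtain ⟨i, hi⟩ := pvjt_B_some hω
    have := pvjt_bd (wt := wt) H (hb hω.2.1.1) hi hω.2
    show ∀ᵐ p ∂pvdyNu ε, pvjtW 𝔓 𝔈 wt m ε z t (pvjtBeta 𝔓 m z t ω) (pvjtR 𝔓 𝔈 𝔯 m z t (pvjtBeta 𝔓 m z t ω) ω p)
      ≤ (b0 * q)⁻¹ * (pvjtA 𝔓 𝔈 wt m ε z t (pvjtBeta 𝔓 m z t ω)).indicator 1 (pvjtR 𝔓 𝔈 𝔯 m z t (pvjtBeta 𝔓 m z t ω) ω p)
    rw [hi]; exact this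
  ins := by
    filter_upwards [pvcn_LF_ae ε] with ω hLF hω G mG hG
    obtain ⟨i, hi⟩ := pvjt_B_some hω
    have hG' : ∀ η, η ∈ pvjtA 𝔓 𝔈 wt m ε z t (pvjtBeta 𝔓 m z t ω) → η ∈ pvjtA' 𝔓 𝔈 𝔯 m ε z t (pvjtBeta 𝔓 m z t ω) → ‖pvjtX 𝔓 𝔈 wt m ε z t (pvjtBeta 𝔓 m z t ω) η‖ₑ ^ 2 ≤ G η := hG
    show q' * ∫⁻ p, (pvjtA 𝔓 𝔈 wt m ε z t (pvjtBeta 𝔓 m z t ω)).indicator (fun η => ‖pvjtX 𝔓 𝔈 wt m ε z t (pvjtBeta 𝔓 m z t ω) η‖ₑ ^ 2) (pvjtR 𝔓 𝔈 𝔯 m z t (pvjtBeta 𝔓 m z t ω) ω p) ∂pvdyNu ε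
      ≤ ∫⁻ p, G (pvjtR 𝔓 𝔈 𝔯 m z t (pvjtBeta 𝔓 m z t ω) ω p) ∂pvdyNu ε
    rw [hi] at hG' ⊢
    exact pvjt_ins H hε hLF hi hω.2 mG hG'
  recog := by
    by_cases hl : pvjtLv 𝔓 m t
    · filter_upwards [hR hl] with η hη i hA hA'
      cases i with
      | none => exact absurd hA (notMem_empty η)
      | some i => exact hη i hA hA'
    · refine ae_of_all _ fun η i hA _ => ?_
      cases i with
      | none => exact absurd hA (notMem_empty η)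
      | some i => exact absurd hA.1.1 hl

/-- **THE LEAVES OF 7 AT THE DATUM** -/
theorem pvjt_ok (H : PvjtWf 𝔓 𝔈 𝔯 L b0) (hR : PvjtRecog 𝔓 𝔈 𝔯 wt W L) (hq : q ≠ 0) (hq0 : q' ≠ 0) (hqt : q' ≠ ∞) : (pvjtDat 𝔓 𝔈 𝔯 wt L q q').Ok 𝔓 W (b0 * q) q' L where
  q0 := mul_ne_zero H.b00 hq
  q'0 := hq0
  q't := hqt
  mM := fun m z t => pvjt_sh_meas z ((H.m_Mk m t).inter Metric.isClosed_closedBall.measurableSet)
  sub := by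
    rintro m z t _ ⟨w, hw, rfl⟩
    have := hw.2
    rw [mem_closedBall_zero_iff] at this
    rw [Metric.mem_closedBall, dist_eq_norm]
    simpa using this
  ev := by
    intro m p t
    by_cases hl : pvjtLv 𝔓 m t
    · filter_upwards [H.adm m hl.1, self_mem_nhdsWithin, hR m p t hl] with ε h1 hε h2
      exact pvjt_at H hε (fun _ => h1) _ t fun _ => h2
    · by_cases hm : 𝔓.m0 ≤ m
      · filter_upwards [H.adm m hm, self_mem_nhdsWithin] with ε h1 hε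
        exact pvjt_at H hε (fun _ => h1) _ t fun h => absurd h hl
      · filter_upwards [self_mem_nhdsWithin] with ε hε
        exact pvjt_at H hε (fun h => absurd h hm) _ t fun h => absurd h hl

/-- the mean of record is the mean of the datum on the good usable samples -/
theorem pvjt_ke_eq (H : PvjtWf 𝔓 𝔈 𝔯 L b0) (m : ℕ) (ε : ℝ) (z : ℂ) (t : τ) {ω : PVSample} (hU : ω ∈ pvxU 𝔓 m z t) (hG : pvConf ω ∈ pvjtGd 𝔓 𝔈 𝔯 wt q q' m ε z t) :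
    pvilKeW 𝔓 𝔈 wt m ε z t ω = (pvjtDat 𝔓 𝔈 𝔯 wt L q q').ke m ε z t ω := by
  have hi := pvjt_beta_some (z := z) hG.1 (exit_pvjt_U 𝔓 m z t hU)
  have e := pvjt_enl (wt := wt) H ε hi
  show _ = pvdyHat ε (pvjtC 𝔓 𝔈 𝔯 m z t) (fun _ => pvjtY 𝔈 𝔯 m z t (pvjtBeta 𝔓 m z t (pvConf ω))) (pvjtW 𝔓 𝔈 wt m ε z t (pvjtBeta 𝔓 m z t (pvConf ω)))
    (pvjtX 𝔓 𝔈 wt m ε z t (pvjtBeta 𝔓 m z t (pvConf ω))) (pvConf ω)
  rw [hi, e]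
  rfl

/-- **THE FIELD `thick` FOR THE MEAN OF RECORD `pvilKeW 𝔓 𝔈 wt`** over `pvxU ∩ Gd`, for every good set inside `pvjtGd q q'` -/
theorem pvjt_thick (H : PvjtWf 𝔓 𝔈 𝔯 L b0) (hR : PvjtRecog 𝔓 𝔈 𝔯 wt W L) {CB : ℝ≥0∞} (hB : PvbeIn W CB) (hCB : CB ≠ ∞) (hq : q ≠ 0) (hq0 : q' ≠ 0) (hqt : q' ≠ ∞)
    {Gd : ℕ → ℝ → ℂ → τ → Set PVSample} (hG : ∀ m ε z t, Gd m ε z t ⊆ pvConf ⁻¹' pvjtGd 𝔓 𝔈 𝔯 wt q q' m ε z t) :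
    ∀ (m : ℕ) (p : ℤ × ℤ) (t : τ), ∀ᶠ ε in 𝓝[>] (0 : ℝ),
    (pvhbUp ε).E ((pvMerge ⁻¹' pvxU 𝔓 m (l9Pt (pvlmH m) p) t ∩ pvMerge ⁻¹' Gd m ε (l9Pt (pvlmH m) p) t).indicator fun x => ‖pvilKeW 𝔓 𝔈 wt m ε (l9Pt (pvlmH m) p) t (pvMerge x)‖ₑ ^ 2)
      ≤ ENNReal.ofReal (pvktCe (b0 * q) q' CB L * pvlmH m ^ 2) :=
  pvek_thick_of hB hCB (pvjt_ok H hR hq hq0 hqt) hG fun m ε z t _ hω => pvjt_ke_eq H m ε z t hω.1 (hG m ε z t hω.2)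

/-- **`thick`** (`Q` alone): shape of `PvnaThick` at `ke := pvilKe 𝔓 𝔈` -/
theorem pvjt_thick_Q (H : PvjtWf 𝔓 𝔈 𝔯 L b0) (hR : PvjtRecog 𝔓 𝔈 𝔯 pvilQ pvqWQ L) (hq : q ≠ 0) (hq0 : q' ≠ 0) (hqt : q' ≠ ∞)
    {Gd : ℕ → ℝ → ℂ → τ → Set PVSample} (hG : ∀ m ε z t, Gd m ε z t ⊆ pvConf ⁻¹' pvjtGd 𝔓 𝔈 𝔯 pvilQ q q' m ε z t) :
    ∀ (m : ℕ) (p : ℤ × ℤ) (t : τ), ∀ᶠ ε in 𝓝[>] (0 : ℝ),
    (pvhbUp ε).E ((pvMerge ⁻¹' pvxU 𝔓 m (l9Pt (pvlmH m) p) t ∩ pvMerge ⁻¹' Gd m ε (l9Pt (pvlmH m) p) t).indicator fun x => ‖pvilKe 𝔓 𝔈 m ε (l9Pt (pvlmH m) p) t (pvMerge x)‖ₑ ^ 2)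
      ≤ ENNReal.ofReal (pvktCe (b0 * q) q' pvbeCB L * pvlmH m ^ 2) :=
  pvjt_thick H hR pvbe_in_Q' pvbe_CB_ne_top hq hq0 hqt hG

/-- the same for the weight `side` (`cV_L2`) -/
theorem pvjt_thick_V (H : PvjtWf 𝔓 𝔈 𝔯 L b0) (hR : PvjtRecog 𝔓 𝔈 𝔯 pvilV pvbeWV L) (hq : q ≠ 0) (hq0 : q' ≠ 0) (hqt : q' ≠ ∞)
    {Gd : ℕ → ℝ → ℂ → τ → Set PVSample} (hG : ∀ m ε z t, Gd m ε z t ⊆ pvConf ⁻¹' pvjtGd 𝔓 𝔈 𝔯 pvilV q q' m ε z t) :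
    ∀ (m : ℕ) (p : ℤ × ℤ) (t : τ), ∀ᶠ ε in 𝓝[>] (0 : ℝ),
    (pvhbUp ε).E ((pvMerge ⁻¹' pvxU 𝔓 m (l9Pt (pvlmH m) p) t ∩ pvMerge ⁻¹' Gd m ε (l9Pt (pvlmH m) p) t).indicator fun x => ‖pvilKeW 𝔓 𝔈 pvilV m ε (l9Pt (pvlmH m) p) t (pvMerge x)‖ₑ ^ 2)
      ≤ ENNReal.ofReal (pvktCe (b0 * q) q' pvbeCB L * pvlmH m ^ 2) :=
  pvjt_thick H hR pvbe_in_V pvbe_CB_ne_top hq hq0 hqt hG

end glue

end Claimed.Agent.R289
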