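-- KEEP
import Claimed.Agent.R289.Exit.ThickLT
import Claimed.Agent.R289.Exit.ThickGd
import Claimed.Agent.R289.Exit.GdRec

/-!
# Row 289 (S0537), THE WALL, ROAD E, file Exit/ThickLX : THE GOOD PART OF RECORD LIES IN THE GOOD SET OF `thick`;   `exit_pvie_thick` FROM TWO CONTRACTS      (helper223, second of helper7; prefix `pvjt`)

* sec. 1  the mirrors `pvjt_d3 pvjt_d4` (the window of the RETURN misses the atom of the thick link), readers of `pvjtAf`, `pvjtGu`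
* sec. 2  **`pvjt_gd_of`** : the two thick links FORCED IN THEIR OWN EXPERIMENTS (`pvrgEnd` of 256) `⟹ pvjtGd` (the two lines of (K5) along the enlarged experiment): instance of `pvek_gd_two` of 7 (`Exit/ThickGd`);   `pvjt_gd_anti`
* sec. 3  **`pvjt_gd_rec`** : `(pvguGd 𝔓 𝔈 q qe qf).all ⊆ pvConf ⁻¹' pvjtGd 𝔓 𝔈 (pvjtRetE 𝔈 Mk) pvilQ qe qf` (good part of record of 238, `Exit/GdRec`, T14 of 24)
* sec. 4  **`pvjt_thick_rec`** : `(∀ t, pviwTyOk 𝔓 t)` + `PvjtWf` + `PvjtRecog` + `PvguRec 𝔓 𝔈 𝔊` `⟹ ∃ Ce, PvnaThick 𝔓 (pvnaDatE 𝔓 𝔈) 𝔊 𝔓.m0 Ce` = THE BODY OF `exit_pvie_thick` (`Exit/Ana` (6)).      0 sorry.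
-/

set_option autoImplicit false

namespace Claimed.Agent.R289

open Set MeasureTheory Filter Topology Claims.C0465
open scoped ENNReal

section transfer

variable {τ : Type} {c : ℝ} {𝔓 : PvxPar τ c} {𝔈 : PvieEng τ} {𝔯 : PvjtRet τ} {wt : ∀ η : Conf PvPt, (delbPl (pvieY η)).Dart → ℂ} {L : ℝ} {b0 q q' : ℝ≥0∞}
  {m : ℕ} {ε : ℝ} {z : ℂ} {t : τ}

/-! ## 1. mirrors, readers -/

/-- **(GEO 3)** the window of the thick return misses the tile of the thick link, ANY hull -/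
theorem pvjt_d3 (H : PvjtWf 𝔓 𝔈 𝔯 L b0) (hl : pvjtLv 𝔓 m t) (z : ℂ) (Z : Set (ℤ × ℤ)) : Disjoint (pvjtWnf 𝔓 𝔈 𝔯 m z t Z) (pvieSh z (𝔈.eK m t)) := by
  have hd := H.disj m t hl
  simp only [List.pairwise_cons, List.mem_cons, List.not_mem_nil, or_false, forall_eq_or_imp, forall_eq] at hd
  unfold pvjtWnf
  rw [pvkt_jt_Ro]
  refine ((Disjoint.union_left ?_ (pvkt_sh_disjoint z hd.2.1.1.symm)).union_left (pvkt_sh_disjoint z hd.2.1.2.1.symm)).union_left (pvkt_sh_disjoint z hd.2.1.2.2.symm)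
  exact (pvjf_box_off (H.eK_off m t hl) z).mono_left inter_subset_right

/-- **(GEO 4)** the window of the thick return misses the recoloured mouth of the thick link, AT THE BASE DATA OF A FULL STATE -/
theorem pvjt_d4 (H : PvjtWf 𝔓 𝔈 𝔯 L b0) {ω : Conf PvPt} {i : PvjtIx} (hi : pvjtBeta 𝔓 m z t ω = some i) : Disjoint (pvjtWnf 𝔓 𝔈 𝔯 m z t i.2.1) (pvjtYe 𝔈 m z t i) := by
  obtain ⟨hl, hU, ei⟩ := pvjt_beta_inv hi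
  have eZ : i.2.1 = pvilZo 𝔓 m z t ω := by rw [ei]
  have hd := H.disj m t hl
  simp only [List.pairwise_cons, List.mem_cons, List.not_mem_nil, or_false, forall_eq_or_imp, forall_eq] at hd
  have h58 : 𝔓.num.rho * pvlmH m / 2 ≤ 5 * 𝔓.num.rho * pvlmH m / 8 := by
    have := H.del_le m hl.1
    linarith [this.1, this.2]
  refine Disjoint.mono_right (show pvjtYe 𝔈 m z t i ⊆ pvieSh z (𝔈.eM m t) from sdiff_subset) ?_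
  unfold pvjtWnf
  rw [pvkt_jt_Ro]
  refine ((Disjoint.union_left ?_ (pvkt_sh_disjoint z hd.1.2.1.symm)).union_left (pvkt_sh_disjoint z hd.1.2.2.1.symm)).union_left (pvkt_sh_disjoint z hd.1.2.2.2.symm)
  rw [eZ]
  exact ((pvjf_Zo_far H hl hU).mono_right (Set.image_mono ((H.eM_cen m t hl).trans (Metric.closedBall_subset_closedBall h58)))).mono_left inter_subset_left

/-- the soft success of the return is read in its window -/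
theorem pvjt_Af_reads (𝔓 : PvxPar τ c) (𝔈 : PvieEng τ) (𝔯 : PvjtRet τ) (m : ℕ) (ε : ℝ) (z : ℂ) (t : τ) (Z : Set (ℤ × ℤ)) :
    Conf.ReadsSet (pvjtWnf 𝔓 𝔈 𝔯 m z t Z ×ˢ univ) (pvjtAf 𝔓 𝔈 𝔯 m ε z t Z) :=
  pvks_fin_reads Z (Conf.readsSet_iff_reads.2 (pvsu_sure_reads _ _ _))

/-- `the reference plug is usable` is read in the window of the return -/
theorem pvjt_Gu_reads_f (H : PvjtWf 𝔓 𝔈 𝔯 L b0) (m : ℕ) (ε : ℝ) (z : ℂ) (t : τ) (Z : Set (ℤ × ℤ)) : Conf.ReadsSet (pvjtWnf 𝔓 𝔈 𝔯 m z t Z ×ˢ univ) (pvjtGu 𝔓 𝔈 m ε z t) :=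
  Conf.readsSet_iff_reads.2 ((pvkt_Gs_reads (H.rG_reads m ε) (pvieZu 𝔓 m z t) (𝔓.col t)).mono (Set.prod_mono subset_union_right le_rfl))

/-- `the reference plug is usable` is read in the window of the thick link -/
theorem pvjt_Gu_reads_e (H : PvjtWf 𝔓 𝔈 𝔯 L b0) (m : ℕ) (ε : ℝ) (z : ℂ) (t : τ) (Z : Set (ℤ × ℤ)) : Conf.ReadsSet (pvilWne 𝔓 𝔈 m z t Z ×ˢ univ) (pvjtGu 𝔓 𝔈 m ε z t) :=
  pvks_Gs_reads 𝔓 z t Z (H.rG_reads m ε)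

/-! ## 2. the transfer -/

/-- **THE TWO THICK LINKS FORCED IN THEIR OWN EXPERIMENTS `⟹` THE GOOD SET OF `thick`** -/
theorem pvjt_gd_of (H : PvjtWf 𝔓 𝔈 𝔯 L b0) (hl : pvjtLv 𝔓 m t) {η : Conf PvPt}
    (h1 : η ∈ pvrgEnd ε (pvilEeAt 𝔓 𝔈 m ε wt z t η) (pvieSh (pvieZu 𝔓 m z t) (𝔈.rO m)) (pvrgGr 𝔈 m ε (𝔓.col t) (pvieZu 𝔓 m z t)) q)
    (h2 : η ∈ pvrgEnd ε (pvjtEfAt 𝔓 𝔈 𝔯 m ε z t η) (pvieSh (pvieZu 𝔓 m z t) (𝔈.rO m)) (pvrgGr 𝔈 m ε (𝔓.col t) (pvieZu 𝔓 m z t)) q') :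
    η ∈ pvjtGd 𝔓 𝔈 𝔯 wt q q' m ε z t := by
  refine ⟨hl, fun i hi => ?_⟩
  have d2 := pvjt_d2 H hi
  have d4 := pvjt_d4 H hi
  obtain ⟨-, -, rfl⟩ := pvjt_beta_inv hi
  exact pvek_gd_two (e := pvilEeAt 𝔓 𝔈 m ε wt z t η) (f := pvjtEfAt 𝔓 𝔈 𝔯 m ε z t η) rfl rfl (pvks_Ee_A_reads 𝔓 𝔈 m ε wt z t _ _) (pvjt_Af_reads 𝔓 𝔈 𝔯 m ε z t _)
    (pvjt_Gu_reads_e H m ε z t _) (pvjt_Gu_reads_f H m ε z t _) (pvjt_d1 H hl z _) d2 (pvjt_d3 H hl z _) d4 h1 h2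

/-- the good set decreases with the two constants -/
theorem pvjt_gd_anti {q₁ q₁' : ℝ≥0∞} (h : q₁ ≤ q) (h' : q₁' ≤ q') : pvjtGd 𝔓 𝔈 𝔯 wt q q' m ε z t ⊆ pvjtGd 𝔓 𝔈 𝔯 wt q₁ q₁' m ε z t :=
  fun _ hη => ⟨hη.1, fun i hi => (hη.2 i hi).mono fun _ hp hG => ⟨h.trans (hp hG).1, h'.trans (hp hG).2⟩⟩

end transfer

/-! ## 3. the good part of record -/

section record

variable {τ : Type} {c : ℝ} {𝔓 : PvxPar τ c} {𝔈 : PvieEng τ} {Mk : ℕ → τ → Set ℂ} {L : ℝ} {b0 : ℝ≥0∞}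

/-- **THE GOOD PART OF RECORD (238) LIES IN THE GOOD SET OF `thick`** -/
theorem pvjt_gd_rec (H : PvjtWf 𝔓 𝔈 (pvjtRetE 𝔈 Mk) L b0) {q : ℕ → ℝ≥0∞} {qe qf : ℝ≥0∞} {m : ℕ} {t : τ} (hl : pvjtLv 𝔓 m t) (ε : ℝ) (z : ℂ) :
    (pvguGd 𝔓 𝔈 q qe qf).all m ε z t ⊆ pvConf ⁻¹' pvjtGd 𝔓 𝔈 (pvjtRetE 𝔈 Mk) pvilQ qe qf m ε z t :=
  fun _ hω => pvjt_gd_of H hl (pvgu_mem_Fe.1 (pvgu_all_Fe hω)) (pvgu_mem_Ff.1 (pvgu_all_Ff hω))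

/-! ## 4. the body of `exit_pvie_thick` -/

/-- **`exit_pvie_thick` FROM THE TWO CONTRACTS** `PvjtWf` (regions + reference plug: 13 182 168 31 84) and `PvjtRecog` ((K4): 132 290 118 55 288), at the good part of record -/
theorem pvjt_thick_rec (hT : ∀ t, pviwTyOk 𝔓 t) (H : PvjtWf 𝔓 𝔈 (pvjtRetE 𝔈 Mk) L b0) (hR : PvjtRecog 𝔓 𝔈 (pvjtRetE 𝔈 Mk) pvilQ pvqWQ L) {𝔊 : PvnaGd τ} (hG : PvguRec 𝔓 𝔈 𝔊) :
    ∃ Ce : ℝ, PvnaThick 𝔓 (pvnaDatE 𝔓 𝔈) 𝔊 𝔓.m0 Ce := by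
  obtain ⟨q, qe, qf, -, he, hf, rfl⟩ := hG
  refine ⟨pvktCe (b0 * qe) (min qf 1) pvbeCB L, fun m hm p t => ?_⟩
  have hl : pvjtLv 𝔓 m t := ⟨hm, hT t⟩
  have key := pvjt_thick_Q H hR he (q' := min qf 1) (by simp [hf]) (ne_top_of_le_ne_top ENNReal.one_ne_top (min_le_right _ _))
    (Gd := fun m' ε z t' => {ω | pvjtLv 𝔓 m' t' ∧ ω ∈ (pvguGd 𝔓 𝔈 q qe qf).all m' ε z t'})
    (fun m' ε z t' ω hω => pvjt_gd_anti le_rfl (min_le_left _ _) (pvjt_gd_rec H hω.1 ε z hω.2)) m p t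
  filter_upwards [key] with ε hε
  have e : {ω | pvjtLv 𝔓 m t ∧ ω ∈ (pvguGd 𝔓 𝔈 q qe qf).all m ε (l9Pt (pvlmH m) p) t} = (pvguGd 𝔓 𝔈 q qe qf).all m ε (l9Pt (pvlmH m) p) t := by
    ext ω
    exact ⟨fun h => h.2, fun h => ⟨hl, h⟩⟩
  simp only [e] at hε
  exact hε

end record

end Claimed.Agent.R289
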