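-- KEEP
import Claimed.Agent.R289.Exit.ThickL
import Claimed.Agent.R289.Tr.InstEKR
import Claimed.Agent.R289.Tr.MeasL

/-!
# Row 289 (S0537), THE WALL, ROAD E, file Exit/ThickLR : THE LEAF (K4) `exit_pvjt_recog` OF `thick` AT THE DATUM `pvjtDat`, CUT INTO ITS THREE NAMED INPUTS      (helper132, owner of the leaf by order of 223; second 88; prefix `pvjk_`, `Pvjk`)

`Tr/InstEKR` (132) = the bridge, generic in windows and plain events.      HERE: the bridge AT THE NAMES of `Defs/GdThick`, `Exit/ThickL` (223).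
* `pvjk_ret_L`    the thick return `pvjtLf` IS a return of the thick link `pvilLe` (`PvjkRet`: ends exchanged with their kinds: `u` = door, `t` = marked)
* `pvjk_wt_raw`   `PvjtRaw wt W` (223) ⟹ `PvjkWt W wt` (132)
* **`PvjkRc`**    = THE THREE INPUTS, one candidate, one mesh:
      `cl`  THE DETERMINISTIC CLOSING, a.s. on (plain link, hull `Z`) ∩ (plain return, hull `Z'`), for the finite hulls which pass the guard `G`      [118 `Tr/ThickC3`, 290 `Tr/ThickI`, 55 `Exit/ThickS`]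
      `nE`  [MEAS] of `plain link ∩ {plain value = soft value}`,   `nF`  [MEAS] of the plain return      [247 `Tr/MeasGM`, 231, 289 `Tr/MeasL`]
* **`pvjk_recog_L`**   `PvjtWf` + `PvjkRc` ⟹ the statement of `exit_pvjt_recog`, for all the base data which pass the guard.      `pvjk_recog_L0` : the guard `True` = the statement of `Exit/ThickLT` VERBATIM.
* [MEAS] PAID (289 `Tr/MeasL`): `pvjk_Lf_B`, `pvjk_Mf_null`, **`pvjk_rc_of_cl`** (`PvjkRc` from `cl` alone), **`pvjk_recog_of_cl`** : THE CONTRACT `PvjtRecog` OF `Exit/ThickL` FROM THE DETERMINISTIC CLOSING ALONE (+ Borel data: `𝔓.WfB`, `PvmlEngB 𝔈`, `fY` Borel, `PvmlWm wt`).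
-/

set_option autoImplicit false

namespace Claimed.Agent.R289

open Set MeasureTheory Filter Topology Claims.C0465
open scoped ENNReal

section recog

variable {τ : Type} {c : ℝ} {𝔓 : PvxPar τ c} {𝔈 : PvieEng τ} {𝔯 : PvjtRet τ} {wt : ∀ η : Conf PvPt, (delbPl (pvieY η)).Dart → ℂ} {L : ℝ} {b0 : ℝ≥0∞} {ε : ℝ}

/-- the thick return is a return of the thick link -/
theorem pvjk_ret_L (𝔓 : PvxPar τ c) (𝔈 : PvieEng τ) (𝔯 : PvjtRet τ) (m : ℕ) (z : ℂ) (t : τ) : PvjkRet (pvilLe 𝔓 𝔈 m z t) (pvjtLf 𝔓 𝔈 𝔯 m z t) :=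
  ⟨rfl, rfl, rfl, rfl, one_ne_zero, one_ne_zero⟩

/-- the two forms of "the dart weight is the raw summand" -/
theorem pvjk_wt_raw {W : Set ℂ → ℂ × ℂ → ℂ} (hW : PvjtRaw wt W) : PvjkWt W wt := fun η h d => (hW η h.del d).symm

theorem pvjk_sq_meas (z : ℂ) (r : ℝ) : MeasurableSet (pvwSq z r) := by
  have h1 : IsClosed {w : ℂ | |(w - z).re| ≤ r} := isClosed_le (by fun_prop) continuous_const
  have h2 : IsClosed {w : ℂ | |(w - z).im| ≤ r} := isClosed_le (by fun_prop) continuous_const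
  exact (h1.inter h2).measurableSet

theorem pvjk_fat_meas (δ : ℝ) (Z : Set (ℤ × ℤ)) : MeasurableSet (pvilFat δ Z) :=
  MeasurableSet.biUnion (Set.to_countable _) fun _ _ => pvt_sq_closed.measurableSet

/-- the window of the thick link is Borel -/
theorem pvjk_mWne (H : PvjtWf 𝔓 𝔈 𝔯 L b0) (m : ℕ) (z : ℂ) (t : τ) (Z : Set (ℤ × ℤ)) : MeasurableSet (pvilWne 𝔓 𝔈 m z t Z) :=
  ((((pvjk_fat_meas _ Z).inter (pvjk_sq_meas _ _)).union (pvjt_sh_meas z (H.m_eM m t))).union (pvjt_sh_meas z (H.m_eK m t))).union (pvjt_sh_meas _ (H.m_rO m))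

/-- the window of the thick return is Borel -/
theorem pvjk_mWnf (H : PvjtWf 𝔓 𝔈 𝔯 L b0) (m : ℕ) (z : ℂ) (t : τ) (Z : Set (ℤ × ℤ)) : MeasurableSet (pvjtWnf 𝔓 𝔈 𝔯 m z t Z) :=
  ((((pvjk_fat_meas _ Z).inter (pvjk_sq_meas _ _)).union (pvjt_sh_meas z (H.m_fM m t))).union (pvjt_sh_meas z (H.m_fK m t))).union (pvjt_sh_meas _ (H.m_rO m))

/-- **THE THREE INPUTS OF (K4)** at one candidate, one mesh;   `M` = the mask, `G` = the deterministic guard on the two hulls -/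
structure PvjkRc (𝔓 : PvxPar τ c) (𝔈 : PvieEng τ) (𝔯 : PvjtRet τ) (wt : ∀ η : Conf PvPt, (delbPl (pvieY η)).Dart → ℂ) (M : Set ℂ) (G : Set (ℤ × ℤ) → Set (ℤ × ℤ) → Prop)
    (m : ℕ) (ε : ℝ) (z : ℂ) (t : τ) : Prop where
  /-- the deterministic closing -/
  cl : ∀ Z Z' : Set (ℤ × ℤ), Z.Finite → Z'.Finite → G Z Z' → ∀ᵐ η ∂pvP ε, η ∈ pvilMe 𝔓 𝔈 m z t Z → η ∈ pvjtMf 𝔓 𝔈 𝔯 m z t Z' →
    PvjkCl (pvilLe 𝔓 𝔈 m z t) (pvjtLf 𝔓 𝔈 𝔯 m z t) 𝔓.num (𝔓.col t) M η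
  /-- [MEAS] of the event under `pvilSA` -/
  nE : ∀ Z : Set (ℤ × ℤ), Z.Finite → NullMeasurableSet (pvilMe 𝔓 𝔈 m z t Z ∩
    {η | (pvilLe 𝔓 𝔈 m z t).X 𝔓.num (𝔓.col t) wt η = pvilLoc ε (pvilWne 𝔓 𝔈 m z t Z) (pvilMe 𝔓 𝔈 m z t Z) ((pvilLe 𝔓 𝔈 m z t).X 𝔓.num (𝔓.col t) wt) η}) (pvP ε)
  /-- [MEAS] of the plain return -/
  nF : ∀ Z : Set (ℤ × ℤ), Z.Finite → NullMeasurableSet (pvjtMf 𝔓 𝔈 𝔯 m z t Z) (pvP ε)

/-- **(K4) RECOGNITION AT THE DATUM**, for all the base data which pass the guard -/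
theorem pvjk_recog_L (H : PvjtWf 𝔓 𝔈 𝔯 L b0) {W : Set ℂ → ℂ × ℂ → ℂ} (hW : PvjtRaw wt W) (hε : 0 < ε) {M : Set ℂ} {G : Set (ℤ × ℤ) → Set (ℤ × ℤ) → Prop} {m : ℕ} {z : ℂ} {t : τ}
    (C : PvjkRc 𝔓 𝔈 𝔯 wt M G m ε z t) :
    ∀ᵐ η ∂pvP ε, ∀ i : PvjtIx, G i.1.1 i.2.1 → η ∈ pvjtA 𝔓 𝔈 wt m ε z t (some i) → η ∈ pvjtA' 𝔓 𝔈 𝔯 m ε z t (some i) → ∃ x, pvbeTag (pvktFl (𝔓.col t) η) x ∧
      pvjtX 𝔓 𝔈 wt m ε z t (some i) η = pvbeLab W (M.indicator 1) (pvktFl (𝔓.col t) η) x := by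
  have key := pvjk_recog_fin hε (pvjk_ret_L 𝔓 𝔈 𝔯 m z t) (N := 𝔓.num) (b := 𝔓.col t) (M := M) (pvjk_wt_raw hW)
    (Wn := pvilWne 𝔓 𝔈 m z t) (Wn' := pvjtWnf 𝔓 𝔈 𝔯 m z t) (Me := pvilMe 𝔓 𝔈 m z t) (Mf := pvjtMf 𝔓 𝔈 𝔯 m z t) G
    (fun Z _ => pvjk_mWne H m z t Z) (fun Z _ => pvjk_mWnf H m z t Z)
    (fun _ _ h => h.1.1) (fun _ _ h => h.1.1) C.cl C.nE C.nF
  filter_upwards [key] with η h1 i hG hA hA'
  exact h1 i.1.1 i.2.1 hG hA.2.2 hA'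

/-- the statement of `exit_pvjt_recog` (`Exit/ThickLT`) VERBATIM, from the three inputs without a guard -/
theorem pvjk_recog_L0 (H : PvjtWf 𝔓 𝔈 𝔯 L b0) {W : Set ℂ → ℂ × ℂ → ℂ} (hW : PvjtRaw wt W) (hε : 0 < ε) (m : ℕ) (z : ℂ) (t : τ)
    (C : PvjkRc 𝔓 𝔈 𝔯 wt (pvieSh z (𝔯.Mk m t ∩ Metric.closedBall 0 (L * pvlmH m))) (fun _ _ => True) m ε z t) :
    ∀ᵐ η ∂pvP ε, ∀ i : PvjtIx, η ∈ pvjtA 𝔓 𝔈 wt m ε z t (some i) → η ∈ pvjtA' 𝔓 𝔈 𝔯 m ε z t (some i) → ∃ x, pvbeTag (pvktFl (𝔓.col t) η) x ∧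
      pvjtX 𝔓 𝔈 wt m ε z t (some i) η = pvbeLab W ((pvieSh z (𝔯.Mk m t ∩ Metric.closedBall 0 (L * pvlmH m))).indicator 1) (pvktFl (𝔓.col t) η) x := by
  filter_upwards [pvjk_recog_L H hW hε C] with η h1 i
  exact h1 i trivial

/-- **the contract `PvjtRecAt` of `Exit/ThickL`** (223: (K4) is a hypothesis of the glue `pvjt_thick`) from the three inputs UNDER THE GUARD (G) of 290 (`pvjtGi`, inside `pvjtA`) -/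
theorem pvjk_recog_LG (H : PvjtWf 𝔓 𝔈 𝔯 L b0) {W : Set ℂ → ℂ × ℂ → ℂ} (hW : PvjtRaw wt W) (hε : 0 < ε) (m : ℕ) (z : ℂ) (t : τ)
    (C : PvjkRc 𝔓 𝔈 𝔯 wt (pvieSh z (𝔯.Mk m t ∩ Metric.closedBall 0 (L * pvlmH m))) (fun Z Z' => pvjtGi 𝔓 m z t ((Z, ∅), (Z', ∅))) m ε z t) :
    PvjtRecAt 𝔓 𝔈 𝔯 wt W L m ε z t := by
  filter_upwards [pvjk_recog_L H hW hε C] with η h1 i hA
  exact h1 i hA.1.2 hA

/-! ### [MEAS] PAID (289 `Tr/MeasL`, 247, 231): only the closing is left -/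

/-- Borel data of the thick return -/
theorem pvjk_Lf_B (h𝔓 : 𝔓.WfB) {m : ℕ} {t : τ} (mY : MeasurableSet (𝔯.fY m t)) (z : ℂ) : PvmlLkB (pvjtLf 𝔓 𝔈 𝔯 m z t) :=
  ⟨fun _ => norm_one, fun h => absurd h (by simp [pvjtLf]), pvml_pin_meas h𝔓 m z t, pvzj_plug_meas _ _ _, pvml_sh_meas z mY, MeasurableSet.univ⟩

/-- [MEAS] the plain event of the thick return -/
theorem pvjk_Mf_null (h𝔓 : 𝔓.WfB) {m : ℕ} {t : τ} (mY : MeasurableSet (𝔯.fY m t)) (hε : 0 < ε) (z : ℂ) (Z : Set (ℤ × ℤ)) : NullMeasurableSet (pvjtMf 𝔓 𝔈 𝔯 m z t Z) (pvP ε) :=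
  (((pvjk_Lf_B h𝔓 mY z).A_null 𝔓.num (𝔓.col t) hε).inter (pvml_Zo_null h𝔓 hε m z t Z)).inter (pvml_Ms_null 𝔓 m _ ε)

/-- **THE THREE INPUTS FROM THE CLOSING ALONE** -/
theorem pvjk_rc_of_cl (H : PvjtWf 𝔓 𝔈 𝔯 L b0) (h𝔓 : 𝔓.WfB) (HE : PvmlEngB 𝔈) (hw : PvmlWm wt) (hε : 0 < ε) {m : ℕ} {t : τ} (mY : MeasurableSet (𝔯.fY m t)) {z : ℂ} {M : Set ℂ}
    {G : Set (ℤ × ℤ) → Set (ℤ × ℤ) → Prop}
    (cl : ∀ Z Z' : Set (ℤ × ℤ), Z.Finite → Z'.Finite → G Z Z' → ∀ᵐ η ∂pvP ε, η ∈ pvilMe 𝔓 𝔈 m z t Z → η ∈ pvjtMf 𝔓 𝔈 𝔯 m z t Z' →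
      PvjkCl (pvilLe 𝔓 𝔈 m z t) (pvjtLf 𝔓 𝔈 𝔯 m z t) 𝔓.num (𝔓.col t) M η) : PvjkRc 𝔓 𝔈 𝔯 wt M G m ε z t :=
  ⟨cl, fun Z _ => pvml_SAe_null h𝔓 HE hε hw m z t Z (pvjk_mWne H m z t Z), fun Z _ => pvjk_Mf_null h𝔓 mY hε z Z⟩

/-- **THE CONTRACT (K4) `PvjtRecog` OF `Exit/ThickL` FROM THE DETERMINISTIC CLOSING ALONE**: for the levels of the engine, the non degenerate types, the candidates of the grid, eventually in the mesh, for the finite hulls which pass the guard `pvjtGi`,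
a.s. on (plain link, hull `Z`) ∩ (plain return, hull `Z'`) the closed pair closes in the mask of record -/
theorem pvjk_recog_of_cl (H : PvjtWf 𝔓 𝔈 𝔯 L b0) (h𝔓 : 𝔓.WfB) (HE : PvmlEngB 𝔈) (hw : PvmlWm wt) {W : Set ℂ → ℂ × ℂ → ℂ} (hW : PvjtRaw wt W) (mY : ∀ m t, MeasurableSet (𝔯.fY m t))
    (cl : ∀ (m : ℕ) (p : ℤ × ℤ) (t : τ), pvjtLv 𝔓 m t → ∀ᶠ ε in 𝓝[>] (0 : ℝ), ∀ Z Z' : Set (ℤ × ℤ), Z.Finite → Z'.Finite → pvjtGi 𝔓 m (l9Pt (pvlmH m) p) t ((Z, ∅), (Z', ∅)) →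
      ∀ᵐ η ∂pvP ε, η ∈ pvilMe 𝔓 𝔈 m (l9Pt (pvlmH m) p) t Z → η ∈ pvjtMf 𝔓 𝔈 𝔯 m (l9Pt (pvlmH m) p) t Z' →
        PvjkCl (pvilLe 𝔓 𝔈 m (l9Pt (pvlmH m) p) t) (pvjtLf 𝔓 𝔈 𝔯 m (l9Pt (pvlmH m) p) t) 𝔓.num (𝔓.col t) (pvieSh (l9Pt (pvlmH m) p) (𝔯.Mk m t ∩ Metric.closedBall 0 (L * pvlmH m))) η) :
    PvjtRecog 𝔓 𝔈 𝔯 wt W L := by
  intro m p t hl
  filter_upwards [cl m p t hl, self_mem_nhdsWithin] with ε h1 hε
  exact pvjk_recog_LG H hW hε m _ t (pvjk_rc_of_cl H h𝔓 HE hw hε (mY m t) h1)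

end recog

end Claimed.Agent.R289
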