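-- KEEP
import Claimed.Agent.R289.Exit.ThickLR
import Claimed.Agent.R289.Tr.ThickI
import Claimed.Agent.R289.Tr.MeasL

/-!
# Row 289 (S0537, Cardy for Poisson-Voronoi), THE WALL, ROAD E, field `thick`, file Exit/ThickLI : THE CONTRACT (K4) `PvjtRecog` FROM ONE RECORD OF REGION LINES AT THE CENTRE `0`      (helper290; prefix `pvuy`, `Pvuy`: second file of the prefix, after `Tr/ThickI`)

`Exit/ThickLX` (223): `exit_pvie_thick` = `PvjtWf` + `PvjtRecog 𝔓 𝔈 (pvjtRetE 𝔈 Mk) pvilQ pvqWQ L` + `PvguRec`.      `Exit/ThickLR` (132): `PvjtRecAt` from `PvjkRc` (`cl nE nF`) under the guard `pvjtGi`.      `Tr/ThickI` (290): `pvuy_cl` = `cl` pointwise from the set lines `PvuyS`, `ce`, `cf`.      `Tr/MeasL` (289): [MEAS].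
HERE: the glue.
* sec. 1  `PvuyCov S` : the family `z ↦ S z` MOVES WITH THE CENTRE (`x ∈ S z ↔ x - z ∈ S 0`);   calculus (shift, placed regions of the door `u`, balls, squares, half planes, `∪ ∩ \ ᶜ`, thickening, core)
* sec. 2  all the regions of the closing move with the centre;   **`pvuy_S_cov`** : `PvuyS` at the centre `0` ⟹ at every centre;   `pvuy_ce_cov`, `pvuy_cf_cov`
* sec. 3  **`pvuyMk 𝔓 𝔈 μ m t`** = THE MASK OF RECORD of the thick link (relative to the centre; field `Mk` of `PvjtRet`);   `pvuy_Mk_meas`, **`pvuy_Mk_sh`** : `pvieSh z (Mk ∩ closedBall 0 (L h)) =` the mask `pvuyM` of `Tr/ThickI` at the centre `z`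
* sec. 4  **`PvuyRg 𝔓 𝔈 𝔯 μ L m t`** = THE REGION LINES (centre `0`, one level, one type: sets and numbers only);   `pvuy_gi` (guard of 223 = the two guards of `Tr/ThickI`), **`pvuy_rc`** : `PvuyRg` + Borel data ⟹ `PvjkRc` at every centre, every mesh
* sec. 5  **`pvuy_recog_top`** : `PvjtWf` + `𝔓.WfB` + `PvmlEngB 𝔈` + (`∀ m t, pvjtLv → PvuyRg`) ⟹ `PvjtRecog 𝔓 𝔈 𝔯 wt W L` (any weight which is a raw summand: `Q`, `V`)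
-/

set_option autoImplicit false
set_option linter.unusedSectionVars false
set_option linter.unusedVariables false

namespace Claimed.Agent.R289

open Set Metric MeasureTheory Filter Topology Claims.C0465
open scoped ENNReal

/-! ## 1. families of sets which move with the centre -/

/-- the family `z ↦ S z` moves with the centre -/
def PvuyCov (S : ℂ → Set ℂ) : Prop := ∀ z x, x ∈ S z ↔ x - z ∈ S 0

theorem pvuy_eqns_cite3 : True := by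
  have := @PvuyCov.eq_1
  trivial

theorem pvuy_sh_mem {z x : ℂ} {S : Set ℂ} : x ∈ pvieSh z S ↔ x - z ∈ S := by
  constructor
  · rintro ⟨w, hw, rfl⟩
    simpa using hw
  · intro h
    exact ⟨x - z, h, by ring⟩

namespace PvuyCov

variable {S S' : ℂ → Set ℂ}

theorem eq_sh (h : PvuyCov S) (z : ℂ) : S z = pvieSh z (S 0) := by
  ext x
  rw [h z x, pvuy_sh_mem]

theorem union (h : PvuyCov S) (h' : PvuyCov S') : PvuyCov (fun z => S z ∪ S' z) := fun z x => or_congr (h z x) (h' z x)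

theorem inter (h : PvuyCov S) (h' : PvuyCov S') : PvuyCov (fun z => S z ∩ S' z) := fun z x => and_congr (h z x) (h' z x)

theorem compl (h : PvuyCov S) : PvuyCov (fun z => (S z)ᶜ) := fun z x => not_congr (h z x)

theorem diff (h : PvuyCov S) (h' : PvuyCov S') : PvuyCov (fun z => S z \ S' z) := fun z x => and_congr (h z x) (not_congr (h' z x))

theorem thick (h : PvuyCov S) (δ : ℝ) : PvuyCov (fun z => thickening δ (S z)) := by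
  intro z x
  simp only [mem_thickening_iff]
  constructor
  · rintro ⟨a, ha, hd⟩
    exact ⟨a - z, (h z a).1 ha, by rwa [dist_sub_right]⟩
  · rintro ⟨a, ha, hd⟩
    refine ⟨a + z, (h z _).2 (by simpa using ha), ?_⟩
    have : dist (x - z) a = dist x (a + z) := by
      rw [dist_eq_norm, dist_eq_norm]
      congr 1
      ring
    rwa [← this]

theorem core (h : PvuyCov S) (r : ℝ) : PvuyCov (fun z => pvtrCore r (S z)) := by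
  intro z x
  constructor
  · intro hx y hy
    have : y + z ∈ S z := hx (by
      rw [mem_closedBall, dist_eq_norm] at hy ⊢
      have e : y + z - x = y - (x - z) := by ring
      rwa [e])
    simpa using (h z _).1 this
  · intro hx y hy
    exact (h z y).2 (hx (by
      rw [mem_closedBall] at hy ⊢
      rwa [dist_sub_right]))

theorem sub (h : PvuyCov S) (h' : PvuyCov S') (h0 : S 0 ⊆ S' 0) (z : ℂ) : S z ⊆ S' z := fun x hx => (h' z x).2 (h0 ((h z x).1 hx))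

end PvuyCov

theorem pvuy_cov_sh (A : Set ℂ) : PvuyCov (fun z => pvieSh z A) := fun z x => by
  rw [pvuy_sh_mem, pvuy_sh_mem, sub_zero]

theorem pvuy_cov_shu (u : ℂ) (A : Set ℂ) : PvuyCov (fun z => pvieSh (z + u) A) := fun z x => by
  rw [pvuy_sh_mem, pvuy_sh_mem, zero_add, sub_sub]

theorem pvuy_at_mem {u x : ℂ} {A : Set ℂ} : x ∈ pvkdAt u 1 A ↔ x - u ∈ A := by
  constructor
  · rintro ⟨w, hw, rfl⟩
    simpa [pvthSim] using hw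
  · intro h
    exact ⟨x - u, h, by simp [pvthSim]⟩

theorem pvuy_cov_at (u : ℂ) (A : Set ℂ) : PvuyCov (fun z => pvkdAt (z + u) 1 A) := fun z x => by
  rw [pvuy_at_mem, pvuy_at_mem, zero_add, sub_sub]

theorem pvuy_cov_cball (u : ℂ) (r : ℝ) : PvuyCov (fun z => closedBall (z + u) r) := fun z x => by
  rw [mem_closedBall, mem_closedBall, dist_eq_norm, dist_eq_norm, zero_add, sub_sub]

theorem pvuy_cov_ball (u : ℂ) (r : ℝ) : PvuyCov (fun z => ball (z + u) r) := fun z x => by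
  rw [mem_ball, mem_ball, dist_eq_norm, dist_eq_norm, zero_add, sub_sub]

theorem pvuy_cov_sq (r : ℝ) : PvuyCov (fun z => pvwSq z r) := fun z x => by
  unfold pvwSq
  simp only [mem_ofPred_eq, sub_zero]

theorem pvuy_cov_hp (u : ℂ) : PvuyCov (fun z => pvilHp (z + u) 1) := fun z x => by
  unfold pvilHp
  simp only [mem_ofPred_eq, zero_add, sub_sub]

theorem pvuy_cov_pl (h : ℝ) (A : Set ℂ) : PvuyCov (fun z => pvxPl z h A) := by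
  intro z x
  constructor
  · rintro ⟨w, hw, rfl⟩
    exact ⟨w, hw, by ring⟩
  · rintro ⟨w, hw, e⟩
    refine ⟨w, hw, ?_⟩
    have e' : (0 : ℂ) + (h : ℂ) * w = x - z := e
    show z + (h : ℂ) * w = x
    linear_combination e'

/-! ## 2. the regions of the closing move with the centre -/

section cov

variable {τ : Type} {c : ℝ} (𝔓 : PvxPar τ c) (𝔈 : PvieEng τ) (𝔯 : PvjtRet τ) (m : ℕ) (t : τ) (r1 μ : ℝ)

theorem pvuy_cov_Tb : PvuyCov (fun z => pvuyTb (pvilLe 𝔓 𝔈 m z t)) := pvuy_cov_at ((𝔓.Γ m).zu t) (pvkdP (pvilRu 𝔈 m)).Tb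
theorem pvuy_cov_Zp : PvuyCov (fun z => pvuyZp (pvilLe 𝔓 𝔈 m z t)) := pvuy_cov_at ((𝔓.Γ m).zu t) (pvkdP (pvilRu 𝔈 m)).Zp
theorem pvuy_cov_Zm : PvuyCov (fun z => pvuyZm (pvilLe 𝔓 𝔈 m z t)) := pvuy_cov_at ((𝔓.Γ m).zu t) (pvkdP (pvilRu 𝔈 m)).Zm
theorem pvuy_cov_eY : PvuyCov (fun z => (pvilLe 𝔓 𝔈 m z t).Yin) := pvuy_cov_sh _
theorem pvuy_cov_fY : PvuyCov (fun z => (pvjtLf 𝔓 𝔈 𝔯 m z t).Yin) := pvuy_cov_sh _
theorem pvuy_cov_LMk : PvuyCov (fun z => (pvilLe 𝔓 𝔈 m z t).Mk) := ((pvuy_cov_shu ((𝔓.Γ m).zu t) _).diff (pvuy_cov_hp _)).compl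

theorem pvuy_cov_Mp : PvuyCov (fun z => pvuyMp 𝔓 m z t r1) := ((pvuy_cov_pl _ _).inter (pvuy_cov_sq _)).diff (pvuy_cov_cball _ _)
theorem pvuy_cov_Mm : PvuyCov (fun z => pvuyMm 𝔓 m z t r1) := ((pvuy_cov_pl _ _).inter (pvuy_cov_sq _)).diff (pvuy_cov_cball _ _)

theorem pvuy_cov_A : PvuyCov (fun z => pvuyA (pvilLe 𝔓 𝔈 m z t) (pvuyMm 𝔓 m z t r1)) :=
  (pvuy_cov_Tb 𝔓 𝔈 m t).union (((pvuy_cov_Zp 𝔓 𝔈 m t).union (pvuy_cov_eY 𝔓 𝔈 m t)).union (pvuy_cov_Mm 𝔓 m t r1))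

/-- **the mask of `Tr/ThickI` moves with the centre** -/
theorem pvuy_cov_M : PvuyCov (fun z => pvuyM (pvilLe 𝔓 𝔈 m z t) 𝔓.num μ (pvuyMm 𝔓 m z t r1)) := by
  have h := (((pvuy_cov_LMk 𝔓 𝔈 m t).inter ((pvuy_cov_A 𝔓 𝔈 m t r1).thick (2 * μ))).diff (pvuy_cov_cball 0 (𝔓.num.m * pvlmH m)))
  intro z x
  have := h z x
  simp only [add_zero] at this
  exact this

theorem pvuy_cov_We : PvuyCov (fun z => pvuyWe 𝔓 𝔈 m z t) := ((pvuy_cov_sh _).union (pvuy_cov_sh _)).union (pvuy_cov_shu ((𝔓.Γ m).zu t) _)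

/-- the hull free part of the window of the thick return -/
def pvuyWf (z : ℂ) : Set ℂ := pvieSh z (𝔯.fM m t) ∪ pvieSh z (𝔯.fK m t) ∪ pvieSh (pvieZu 𝔓 m z t) (𝔈.rO m)

theorem pvuy_eqns_cite4 : True := by
  have := @pvuyWf.eq_1
  trivial

theorem pvuy_cov_Wf : PvuyCov (fun z => pvuyWf 𝔓 𝔈 𝔯 m t z) := ((pvuy_cov_sh _).union (pvuy_cov_sh _)).union (pvuy_cov_shu ((𝔓.Γ m).zu t) _)

variable {𝔓 𝔈 𝔯 m t r1 μ}

theorem pvuy_Wf_sub (z : ℂ) (Z : Set (ℤ × ℤ)) : pvuyWf 𝔓 𝔈 𝔯 m t z ⊆ pvjtWnf 𝔓 𝔈 𝔯 m z t Z := by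
  rintro x ((hx | hx) | hx)
  · exact Or.inl (Or.inl (Or.inr hx))
  · exact Or.inl (Or.inr hx)
  · exact Or.inr hx

/-- **THE SET LINES AT THE CENTRE `0` GIVE THE SET LINES AT EVERY CENTRE** -/
theorem pvuy_S_cov (S : PvuyS (pvilLe 𝔓 𝔈 m 0 t) (pvjtLf 𝔓 𝔈 𝔯 m 0 t) 𝔓.num μ (pvuyMp 𝔓 m 0 t r1) (pvuyMm 𝔓 m 0 t r1)) (z : ℂ) :
    PvuyS (pvilLe 𝔓 𝔈 m z t) (pvjtLf 𝔓 𝔈 𝔯 m z t) 𝔓.num μ (pvuyMp 𝔓 m z t r1) (pvuyMm 𝔓 m z t r1) := by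
  have cKO : PvuyCov (fun z => ball (pvilLe 𝔓 𝔈 m z t).p.z (pvkdP (pvilLe 𝔓 𝔈 m z t).p.h).b) := pvuy_cov_ball ((𝔓.Γ m).zu t) (pvkdP (pvilRu 𝔈 m)).b
  have cBx : PvuyCov (fun z => pvwSq (pvilLe 𝔓 𝔈 m z t).p'.z (pvwRad 𝔓.num (pvilLe 𝔓 𝔈 m z t).p'.h (pvilLe 𝔓 𝔈 m z t).p'.ty (pvilLe 𝔓 𝔈 m z t).p'.ty.k)) := pvuy_cov_sq (pviwRad 𝔓 m t)
  have cZm := pvuy_cov_Zm 𝔓 𝔈 m t
  have cZp := pvuy_cov_Zp 𝔓 𝔈 m t
  have ceY := pvuy_cov_eY 𝔓 𝔈 m t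
  have cfY := pvuy_cov_fY 𝔓 𝔈 𝔯 m t
  have cMp := pvuy_cov_Mp 𝔓 m t r1
  have cMm := pvuy_cov_Mm 𝔓 m t r1
  have cA := pvuy_cov_A 𝔓 𝔈 m t r1
  have cMk := pvuy_cov_LMk 𝔓 𝔈 m t
  have cL := (cZp.union ceY).union cMm
  have cR := (cMp.union cfY).union cZm
  have n0 : ∀ p : ℂ, ‖p - z - (pvilLe 𝔓 𝔈 m 0 t).p'.z‖ = ‖p - z‖ := fun p => by
    show ‖p - z - 0‖ = _
    rw [sub_zero]
  refine ⟨⟨rfl, rfl, rfl, rfl, rfl, rfl, rfl⟩, S.mu0, S.mu_h, ⟨?_, ?_, ?_, ?_, ?_⟩, ?_⟩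
  · intro p hp
    have := S.des.ko _ ((cKO z p).1 hp)
    rwa [n0] at this
  · intro p hp
    have := S.des.ye _ ((ceY z p).1 hp)
    rwa [n0] at this
  · intro p hp
    have := S.des.yc _ ((cfY z p).1 hp)
    rwa [n0] at this
  · intro p hp hq
    exact S.des.bx _ ((cBx z p).1 hp) ((cKO z p).1 hq)
  · intro a ha b hb e
    exact S.des.sep _ ((cL z a).1 ha) _ ((cR z b).1 hb) (by rw [e])
  · intro b hb
    rcases S.sep _ ((cR z b).1 hb) with h | h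
    · refine Or.inl fun a ha => ?_
      have := h _ ((cA z a).1 ha)
      rwa [sub_sub_sub_cancel_right] at this
    · refine Or.inr fun x hx => ?_
      exact (cMk.compl z x).2 (h (by
        rw [mem_closedBall] at hx ⊢
        rwa [dist_sub_right]))

theorem pvuy_ce_cov {ρ : ℝ} (h : pvuyTb (pvilLe 𝔓 𝔈 m 0 t) ∪ (pvuyZp (pvilLe 𝔓 𝔈 m 0 t) ∪ pvieSh 0 (𝔈.eY m t)) ⊆ pvtrCore ρ (pvuyWe 𝔓 𝔈 m 0 t)) (z : ℂ) :
    pvuyTb (pvilLe 𝔓 𝔈 m z t) ∪ (pvuyZp (pvilLe 𝔓 𝔈 m z t) ∪ pvieSh z (𝔈.eY m t)) ⊆ pvtrCore ρ (pvuyWe 𝔓 𝔈 m z t) :=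
  PvuyCov.sub ((pvuy_cov_Tb 𝔓 𝔈 m t).union ((pvuy_cov_Zp 𝔓 𝔈 m t).union (pvuy_cov_sh _))) ((pvuy_cov_We 𝔓 𝔈 m t).core ρ) h z

theorem pvuy_cf_cov {ρ : ℝ} (h : pvieSh 0 (𝔯.fY m t) ∪ pvuyZm (pvilLe 𝔓 𝔈 m 0 t) ⊆ pvtrCore ρ (pvuyWf 𝔓 𝔈 𝔯 m t 0)) (z : ℂ) :
    pvieSh z (𝔯.fY m t) ∪ pvuyZm (pvilLe 𝔓 𝔈 m z t) ⊆ pvtrCore ρ (pvuyWf 𝔓 𝔈 𝔯 m t z) :=
  PvuyCov.sub ((pvuy_cov_sh _).union (pvuy_cov_Zm 𝔓 𝔈 m t)) ((pvuy_cov_Wf 𝔓 𝔈 𝔯 m t).core ρ) h z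

end cov

/-! ## 3. the mask of record -/

section mask

variable {τ : Type} {c : ℝ} (𝔓 : PvxPar τ c) (𝔈 : PvieEng τ)

/-- the radius of the far guard of record (`pvjtGi` of 223) -/
noncomputable def pvuyR1 (m : ℕ) : ℝ := 5 * 𝔓.num.rho * pvlmH m / 8

/-- **THE MASK OF RECORD OF THE THICK LINK** `u ⇒ t`, relative to the centre of the pin;   `μ m` = the distance tag / vertex which is paid by the mesh (`4 pvilMu / 3 ≤ μ m`) -/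
noncomputable def pvuyMk (μ : ℕ → ℝ) (m : ℕ) (t : τ) : Set ℂ := pvuyM (pvilLe 𝔓 𝔈 m 0 t) 𝔓.num (μ m) (pvuyMm 𝔓 m 0 t (pvuyR1 𝔓 m))

theorem pvuy_eqns_cite5 : True := by
  have := @pvuyR1.eq_1; have := @pvuyMk.eq_1
  trivial

variable {𝔓 𝔈}

theorem pvuy_Mk_meas (hO : ∀ m, MeasurableSet (𝔈.rO m)) (μ : ℕ → ℝ) (m : ℕ) (t : τ) : MeasurableSet (pvuyMk 𝔓 𝔈 μ m t) :=
  pvuy_M_meas (((pvml_sh_meas _ (hO m)).diff (pvml_hp_meas _ _)).compl) _ _ _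

/-- **the mask of the datum `pvjtDat` at the centre `z` IS the mask of `Tr/ThickI` at the centre `z`** -/
theorem pvuy_Mk_sh {μ : ℕ → ℝ} {m : ℕ} {t : τ} {R : ℝ} (bd : ∀ a ∈ pvuyA (pvilLe 𝔓 𝔈 m 0 t) (pvuyMm 𝔓 m 0 t (pvuyR1 𝔓 m)), ‖a‖ + 2 * μ m ≤ R) (z : ℂ) :
    pvieSh z (pvuyMk 𝔓 𝔈 μ m t ∩ closedBall 0 R) = pvuyM (pvilLe 𝔓 𝔈 m z t) 𝔓.num (μ m) (pvuyMm 𝔓 m z t (pvuyR1 𝔓 m)) := by
  have h : pvuyMk 𝔓 𝔈 μ m t ⊆ closedBall 0 R := pvuy_M_sub fun a ha => by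
    rw [sub_zero]
    exact bd a ha
  rw [inter_eq_left.2 h]
  exact ((pvuy_cov_M 𝔓 𝔈 m t (pvuyR1 𝔓 m) (μ m)).eq_sh z).symm

end mask

/-! ## 4. the region lines; the three inputs of (K4) -/

section rc

variable {τ : Type} {c : ℝ} (𝔓 : PvxPar τ c) (𝔈 : PvieEng τ) (𝔯 : PvjtRet τ)

/-- **THE REGION LINES OF (K4)**: centre `0`, one level, one type;   sets and numbers only.      `μ` = distance tag / vertex, `L` = size of the mask in units of `h`. -/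
structure PvuyRg (μ : ℕ → ℝ) (L : ℝ) (m : ℕ) (t : τ) : Prop where
  /-- the set lines of the closing at the restricted masks -/
  S : PvuyS (pvilLe 𝔓 𝔈 m 0 t) (pvjtLf 𝔓 𝔈 𝔯 m 0 t) 𝔓.num (μ m) (pvuyMp 𝔓 m 0 t (pvuyR1 𝔓 m)) (pvuyMm 𝔓 m 0 t (pvuyR1 𝔓 m))
  /-- numbers -/
  hb : (𝔓.ty t).b * pvlmH m ≤ pviwRad 𝔓 m t
  hδ : 0 < pvlmDel c m
  h3 : 0 < 𝔓.num.rho3
  hμ : 4 * pvilMu 𝔓 m / 3 ≤ μ m
  /-- tube and exit room of the reference plug, room of the thick link: in the core of the hull free part of the window of the link -/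
  ce : pvuyTb (pvilLe 𝔓 𝔈 m 0 t) ∪ (pvuyZp (pvilLe 𝔓 𝔈 m 0 t) ∪ pvieSh 0 (𝔈.eY m t)) ⊆ pvtrCore (3 * pvilMu 𝔓 m) (pvuyWe 𝔓 𝔈 m 0 t)
  /-- room of the thick return, entrance room of the reference plug: in the core of the hull free part of the window of the return -/
  cf : pvieSh 0 (𝔯.fY m t) ∪ pvuyZm (pvilLe 𝔓 𝔈 m 0 t) ⊆ pvtrCore (3 * pvilMu 𝔓 m) (pvuyWf 𝔓 𝔈 𝔯 m t 0)
  /-- the mask is bounded -/
  bd : ∀ a ∈ pvuyA (pvilLe 𝔓 𝔈 m 0 t) (pvuyMm 𝔓 m 0 t (pvuyR1 𝔓 m)), ‖a‖ + 2 * μ m ≤ L * pvlmH m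

variable {𝔓 𝔈 𝔯}

/-- the guard (G) of `Defs/GdThick` = the two far guards of `Tr/ThickI` at the radius of record -/
theorem pvuy_gi {m : ℕ} {z : ℂ} {t : τ} {i : PvjtIx} (h : pvjtGi 𝔓 m z t i) : PvuyFi 𝔓 m z t (pvuyR1 𝔓 m) i.1.1 ∧ PvuyFo 𝔓 m z t (pvuyR1 𝔓 m) i.2.1 := ⟨h.2, h.1⟩

/-- the thick return has Borel data -/
theorem pvuy_Lf_B (h𝔓 : 𝔓.WfB) (hY : ∀ m t, MeasurableSet (𝔯.fY m t)) (m : ℕ) (z : ℂ) (t : τ) : PvmlLkB (pvjtLf 𝔓 𝔈 𝔯 m z t) :=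
  ⟨fun _ => pvml_pin_fr 𝔓 m z t, fun h => absurd h (by simp [pvjtLf]), pvml_pin_meas h𝔓 m z t, pvzj_plug_meas _ _ _, pvml_sh_meas z (hY m t), MeasurableSet.univ⟩

/-- [MEAS] of the plain return -/
theorem pvuy_Mf_null (h𝔓 : 𝔓.WfB) (hY : ∀ m t, MeasurableSet (𝔯.fY m t)) {ε : ℝ} (hε : 0 < ε) (m : ℕ) (z : ℂ) (t : τ) (Z : Set (ℤ × ℤ)) : NullMeasurableSet (pvjtMf 𝔓 𝔈 𝔯 m z t Z) (pvP ε) :=
  (((pvuy_Lf_B h𝔓 hY m z t).A_null 𝔓.num (𝔓.col t) hε).inter (pvml_Zo_null h𝔓 hε m z t Z)).inter (pvml_Ms_null 𝔓 m _ ε)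

/-- **THE THREE INPUTS OF (K4) FROM THE REGION LINES**, every centre, every mesh, mask of the datum, guard of record -/
theorem pvuy_rc {μ : ℕ → ℝ} {L : ℝ} {b0 : ℝ≥0∞} {m : ℕ} {t : τ} (hMk : 𝔯.Mk m t = pvuyMk 𝔓 𝔈 μ m t) (R : PvuyRg 𝔓 𝔈 𝔯 μ L m t) (H : PvjtWf 𝔓 𝔈 𝔯 L b0) (h𝔓 : 𝔓.WfB) (hE : PvmlEngB 𝔈)
    (hY : ∀ m t, MeasurableSet (𝔯.fY m t)) {wt : ∀ η : Conf PvPt, (delbPl (pvieY η)).Dart → ℂ} (hw : PvmlWm wt) {ε : ℝ} (hε : 0 < ε) (z : ℂ) :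
    PvjkRc 𝔓 𝔈 𝔯 wt (pvieSh z (𝔯.Mk m t ∩ closedBall 0 (L * pvlmH m))) (fun Z Z' => pvjtGi 𝔓 m z t ((Z, ∅), (Z', ∅))) m ε z t := by
  rw [hMk, pvuy_Mk_sh R.bd z]
  refine ⟨fun Z Z' _ _ hG => Eventually.of_forall fun η a a' => ?_, fun Z _ => pvml_SAe_null h𝔓 hE hε hw m z t Z (pvjk_mWne H m z t Z), fun Z _ => pvuy_Mf_null h𝔓 hY hε m z t Z⟩
  have G := pvuy_gi hG
  exact pvuy_cl (pvuy_S_cov R.S z) R.hb R.hδ R.h3 R.hμ (Wf := pvjtWnf 𝔓 𝔈 𝔯 m z t Z') (subset_union_left.trans (subset_union_left.trans subset_union_left))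
    (pvuy_ce_cov R.ce z) ((pvuy_cf_cov R.cf z).trans (pvtr_core_mono (pvuy_Wf_sub z Z'))) G.1 G.2 a.1.2 a'.1.2 a.2 a'.2

/-! ## 5. the contract -/

/-- **(K4) THE RECOGNITION CONTRACT OF `thick` FROM THE REGION LINES** -/
theorem pvuy_recog_top {μ : ℕ → ℝ} {L : ℝ} {b0 : ℝ≥0∞} (hMk : ∀ m t, 𝔯.Mk m t = pvuyMk 𝔓 𝔈 μ m t) (H : PvjtWf 𝔓 𝔈 𝔯 L b0) (h𝔓 : 𝔓.WfB) (hE : PvmlEngB 𝔈) (hY : ∀ m t, MeasurableSet (𝔯.fY m t))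
    (R : ∀ m t, pvjtLv 𝔓 m t → PvuyRg 𝔓 𝔈 𝔯 μ L m t) {wt : ∀ η : Conf PvPt, (delbPl (pvieY η)).Dart → ℂ} {W : Set ℂ → ℂ × ℂ → ℂ} (hw : PvmlWm wt) (hW : PvjtRaw wt W) :
    PvjtRecog 𝔓 𝔈 𝔯 wt W L := by
  intro m p t hl
  filter_upwards [self_mem_nhdsWithin] with ε hε
  exact pvjk_recog_LG H hW hε m _ t (pvuy_rc (hMk m t) (R m t hl) H h𝔓 hE hY hw hε _)

/-- `Q`, at the return of record -/
theorem pvuy_recog_Q {μ : ℕ → ℝ} {L : ℝ} {b0 : ℝ≥0∞} (H : PvjtWf 𝔓 𝔈 (pvjtRetE 𝔈 (pvuyMk 𝔓 𝔈 μ)) L b0) (h𝔓 : 𝔓.WfB) (hE : PvmlEngB 𝔈) (hY : ∀ m t, MeasurableSet (𝔈.fY m t))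
    (R : ∀ m t, pvjtLv 𝔓 m t → PvuyRg 𝔓 𝔈 (pvjtRetE 𝔈 (pvuyMk 𝔓 𝔈 μ)) μ L m t) : PvjtRecog 𝔓 𝔈 (pvjtRetE 𝔈 (pvuyMk 𝔓 𝔈 μ)) pvilQ pvqWQ L :=
  pvuy_recog_top (fun _ _ => rfl) H h𝔓 hE hY R pvml_wm_Q pvjt_raw_Q

/-- `V`, at the return of record -/
theorem pvuy_recog_V {μ : ℕ → ℝ} {L : ℝ} {b0 : ℝ≥0∞} (H : PvjtWf 𝔓 𝔈 (pvjtRetE 𝔈 (pvuyMk 𝔓 𝔈 μ)) L b0) (h𝔓 : 𝔓.WfB) (hE : PvmlEngB 𝔈) (hY : ∀ m t, MeasurableSet (𝔈.fY m t))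
    (R : ∀ m t, pvjtLv 𝔓 m t → PvuyRg 𝔓 𝔈 (pvjtRetE 𝔈 (pvuyMk 𝔓 𝔈 μ)) μ L m t) : PvjtRecog 𝔓 𝔈 (pvjtRetE 𝔈 (pvuyMk 𝔓 𝔈 μ)) pvilV pvbeWV L :=
  pvuy_recog_top (fun _ _ => rfl) H h𝔓 hE hY R pvml_wm_V pvjt_raw_V

end rc

end Claimed.Agent.R289
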