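-- KEEP
import Claimed.Agent.R289.Exit.ParEngC

/-!
# Row 289 (S0537), THE WALL, ROAD E, roof (S0) PAR, file Exit/RoomRE : THE ROOMS `rY`, `eY` OF RECORD      (helper166; RULING 22 (2) of 234 = ONE PATCH PER AUTHOR; prefix `pver`, `Pver`)

`Exit/ParEngR`, `Exit/ParEngC` DO NOT MOVE (the rooms `pvehrY`, `pveheY` of v2 stay there, no longer of record).      0 sorry.      UNITS: `r = pverRd c m = δ/40` (door plugs of the thin chain: 34; the proofs use only `δ/40 ≤ r ≤ δ/16`), `u = pverRu 𝔓 m = Δ/20` (reference plug: 31), `Δ = pvehDl 𝔓 m`.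
**`rY := pverrY 𝔓 O0 m`** `= pverRY r u Δ` = NECK `{r/4 ≤ re + Δ/2 ≤ 2r, |im| ≤ 7r/4}` ∪ LANE `{3r/2 ≤ re + Δ/2, re ≤ -u/4, -Δ/10 ≤ im ≤ 4Δ/10}`      (two closed rectangles)
**`eY := pvereY 𝔓 m t`** `= pverEY u Δ zu (pverLy b) (pverMi 𝔓 m t)` = `{u/4 ≤ re - zu.re ≤ Δ/2, -Δ/10 ≤ im - zu.im ≤ 4Δ/10}` ∪ lanes `[-1/10, 4/10]` of the blocks of **`pverLy b = pvxrLe b ++ [S, S]`** (two more straight blocks, THROUGH the funnel of 124)
      ∪ INNER MOUTH **`pverMi 𝔓 m t = closedBall (h y⁻) (5ρh/16 - 3δ/100)`**.      [the funnel `iK` is no longer part of the room: a room which contains a tile up to its edge has no collar]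
**`pverG 𝔓 m t`** = `pvehBody Δ zu (pvxrLe b) ∪ pvegRc .. ∪ iM` = the closed set of the thick link (`G` of 64).
WHAT THE ROOMS OWE (R22 (2) of 234), hypotheses `hf : 1000 δ ≤ ρ h`, `hT : pviwTyOk 𝔓 t`, `Z : PvehGeo 𝔓 m t`, `hΓ : 𝔓.Γ m = pvxrGam 𝔓 m`, `h : 8 δ ≤ Δ` (`pver_Dl_8 hf`):
* fields of `PvieEng.Wf`: `pver_m_rY`, `pver_m_eY`, **`pver_rY_sub`**, **`pver_eY_sub`**
* (Rb) W-7: **`pver_rY_front`** (`r/4 ≤ re ((v - pin0) conj din0)`), **`pver_rY_back`** (`v.re ≤ -u/4`), **`pver_eY_front`** (in `zu + rO`: `u/4 ≤ re (v - zu)`), `pver_eY_front_blk` (the same in the OPEN BLOCK of the plug);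
  cut lines of 85: **`pver_rY_cut`** (`|a - v| ≤ s ≤ 3δ/100 → a.re < 0`), **`pver_eY_cut`** (.. `a ∈ zu + rO → zu.re < a.re`)      [with them the collars survive U4 of R23: the ball meets `rO` only on the near side]
* (Rc) COLLAR, any `s ≤ 3δ/100`: **`pver_rY_collar`** (`hO : pvwSq 0 (3 r) ⊆ O0 m` = `dp_win`) `: closedBall v s ⊆ rK ∪ rO ∪ Dr`,   **`pver_eY_collar`** `: closedBall v s ⊆ iM ∪ (eK ∪ iK) ∪ (zu + rO)`,   `pver_eY_collar_G : closedBall v s ⊆ pverG`, `pver_eY_G`, `pver_G_win`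
* (Rd) for 39: `pver_rY_star` (star convex about `-Δ/2 + 7r/4`), `pver_rY_bdd`, `pver_rY_closed`, `pver_eY_bdd` (no hypothesis), `pver_W_ly`, `pver_tail_front`, `pver_tail_rc` (the three blocks after the last one: straight inwards, in the rectangle of the funnel)
* (Re) **`pver_rY_door`** (`[r/4, 8r] × [-7r/4, 7r/4]` in front of the last door), **`pver_rY_plug`** (`[-8u, -u/4] × [-2u, 2u]`), **`pver_eY_plug`** (`zu + [u/4, 10u] × [-2u, 2u]`), `pver_eY_tip` (`pverMi ⊆ eY`)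
GENERIC TOOLS: **`pver_lane_collar0`**, **`pver_lane_collar`** (the sup-norm `Δ/10`-neighbourhood of a lane `[-1/10, 4/10]` lies in the block behind its door, its block, the next block), `pver_EY_collar`, `pver_B_append`, `pver_body_append`.
-/

set_option autoImplicit false

namespace Claimed.Agent.R289

open Complex Set Metric

/-! ## 1. the room `rY`, centre of the reference plug `0` -/

/-- `rY` (v3, RULING 22 of 234): the room of the strand of the last link;   `r` = unit of the door plug at `-Δ/2`, `u` = unit of the reference plug at `0`.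
NARROW piece (inside the door square): `r/4 ≤ re + Δ/2 ≤ 2r`, `|im| ≤ 7r/4`;   WIDE piece: the lane of offsets `[-Δ/10, 4Δ/10]` of the west half of the block, from `3r/2` in front of the door plane to `u/4` behind the plane of the reference plug
(W-7 of 208: cut at a quarter of the unit of ITS plug;   COLLAR of 74 / 22: `pver_RY_collar`) -/
def pverRY (r u Δ : ℝ) : Set ℂ :=
  {w | -(Δ / 2) + r / 4 ≤ w.re ∧ w.re ≤ -(Δ / 2) + 2 * r ∧ -(7 * r / 4) ≤ w.im ∧ w.im ≤ 7 * r / 4} ∪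
    {w | -(Δ / 2) + 3 * r / 2 ≤ w.re ∧ w.re ≤ -(u / 4) ∧ -(Δ / 10) ≤ w.im ∧ w.im ≤ 4 * Δ / 10}

theorem pver_rect_closed (x0 x1 y0 y1 : ℝ) : IsClosed {w : ℂ | x0 ≤ w.re ∧ w.re ≤ x1 ∧ y0 ≤ w.im ∧ w.im ≤ y1} :=
  (isClosed_le continuous_const continuous_re).inter ((isClosed_le continuous_re continuous_const).inter
    ((isClosed_le continuous_const continuous_im).inter (isClosed_le continuous_im continuous_const)))

theorem pver_rect_convex (x0 x1 y0 y1 : ℝ) : Convex ℝ {w : ℂ | x0 ≤ w.re ∧ w.re ≤ x1 ∧ y0 ≤ w.im ∧ w.im ≤ y1} :=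
  (convex_halfSpace_re_ge x0).inter ((convex_halfSpace_re_le x1).inter ((convex_halfSpace_im_ge y0).inter (convex_halfSpace_im_le y1)))

theorem pver_RY_closed (r u Δ : ℝ) : IsClosed (pverRY r u Δ) := (pver_rect_closed _ _ _ _).union (pver_rect_closed _ _ _ _)

theorem pver_RY_meas (r u Δ : ℝ) : MeasurableSet (pverRY r u Δ) := (pver_RY_closed r u Δ).measurableSet

theorem pver_rect_bdd (x0 x1 y0 y1 : ℝ) : Bornology.IsBounded {w : ℂ | x0 ≤ w.re ∧ w.re ≤ x1 ∧ y0 ≤ w.im ∧ w.im ≤ y1} := by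
  refine (Metric.isBounded_closedBall (x := (0 : ℂ)) (r := max |x0| |x1| + max |y0| |y1|)).subset ?_
  rintro w ⟨h1, h2, h3, h4⟩
  rw [mem_closedBall_zero_iff]
  exact (Complex.norm_le_abs_re_add_abs_im w).trans (add_le_add (abs_le_max_abs_abs h1 h2) (abs_le_max_abs_abs h3 h4))

/-- (Rd) bounded, no hypothesis -/
theorem pver_RY_bdd (r u Δ : ℝ) : Bornology.IsBounded (pverRY r u Δ) := (pver_rect_bdd _ _ _ _).union (pver_rect_bdd _ _ _ _)

/-- the west half of the closed block lies in the window of the last link -/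
theorem pver_west_sub (Dr : Set ℂ) {Δ : ℝ} {w : ℂ} (h1 : -(Δ / 2) ≤ w.re) (h2 : w.re < 0) (h3 : -(Δ / 2) ≤ w.im) (h4 : w.im ≤ Δ / 2) : w ∈ pvehRK Dr Δ ∪ pvehO Δ ∪ Dr := by
  by_cases hO : w ∈ pvehO Δ
  · exact Or.inl (Or.inr hO)
  by_cases hD : w ∈ Dr
  · exact Or.inr hD
  refine Or.inl (Or.inl ⟨?_, h2, hO, hD⟩)
  rw [pveh_mem_sq]
  simp only [zero_re, zero_im]
  exact ⟨⟨by linarith, by linarith⟩, by linarith, by linarith⟩

/-- the room of the last link lies in the west half of the closed block -/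
theorem pver_RY_west {r u Δ : ℝ} (hr : 0 ≤ r) (hu : 0 < u) (h : 4 * r < Δ) {w : ℂ} (hw : w ∈ pverRY r u Δ) : -(Δ / 2) ≤ w.re ∧ w.re < 0 ∧ -(Δ / 2) ≤ w.im ∧ w.im ≤ Δ / 2 := by
  rcases hw with ⟨h1, h2, h3, h4⟩ | ⟨h1, h2, h3, h4⟩
  · exact ⟨by linarith, by linarith, by linarith, by linarith⟩
  · exact ⟨by linarith, by linarith, by linarith, by linarith⟩

/-- the room of the last link lies in its window -/
theorem pver_RY_sub (Dr : Set ℂ) {r u Δ : ℝ} (hr : 0 ≤ r) (hu : 0 < u) (h : 4 * r < Δ) : pverRY r u Δ ⊆ pvehRK Dr Δ ∪ pvehO Δ ∪ Dr := by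
  intro w hw
  obtain ⟨h1, h2, h3, h4⟩ := pver_RY_west hr hu h hw
  exact pver_west_sub Dr h1 h2 h3 h4

/-- **W-7**: the room starts `r/4` in front of the door plane -/
theorem pver_RY_front {r u Δ : ℝ} (hr : 0 ≤ r) {w : ℂ} (hw : w ∈ pverRY r u Δ) : -(Δ / 2) + r / 4 ≤ w.re := by
  rcases hw with ⟨h1, -, -, -⟩ | ⟨h1, -, -, -⟩ <;> linarith

/-- **W-7**: the room ends `u/4` behind the plane of the reference plug -/
theorem pver_RY_back {r u Δ : ℝ} (h : 2 * r + u / 4 ≤ Δ / 2) {w : ℂ} (hw : w ∈ pverRY r u Δ) : w.re ≤ -(u / 4) := by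
  rcases hw with ⟨-, h2, -, -⟩ | ⟨-, h2, -, -⟩ <;> linarith

/-- **COLLAR** ((Rc) of RULING 22): the closed `s`-neighbourhood of the room, `s ≤ 6r/5`, lies in the window `rK ∪ rO ∪ Dr`;   `hD` = the door plug contains the closed square of half side `3r` -/
theorem pver_RY_collar {Dr : Set ℂ} {r u Δ s : ℝ} (hr : 0 < r) (hs : s ≤ 6 * r / 5) (hu : 6 * r / 5 < u / 4) (hΔ : 12 * r ≤ Δ)
    (hD : ∀ x : ℂ, |x.re + Δ / 2| ≤ 3 * r → |x.im| ≤ 3 * r → x ∈ Dr) {v x : ℂ} (hv : v ∈ pverRY r u Δ) (hx : ‖x - v‖ ≤ s) : x ∈ pvehRK Dr Δ ∪ pvehO Δ ∪ Dr := by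
  have a1 := abs_le.1 ((abs_re_le_norm (x - v)).trans hx)
  have a2 := abs_le.1 ((abs_im_le_norm (x - v)).trans hx)
  rw [sub_re] at a1
  rw [sub_im] at a2
  rcases hv with ⟨h1, h2, h3, h4⟩ | ⟨h1, h2, h3, h4⟩
  · by_cases hc : -(Δ / 2) ≤ x.re
    · exact pver_west_sub Dr hc (by linarith [a1.2]) (by linarith [a2.1]) (by linarith [a2.2])
    · exact Or.inr (hD x (abs_le.2 ⟨by linarith [a1.1], by linarith [not_le.1 hc]⟩) (abs_le.2 ⟨by linarith [a2.1], by linarith [a2.2]⟩))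
  · exact pver_west_sub Dr (by linarith [a1.1]) (by linarith [a1.2]) (by linarith [a2.1]) (by linarith [a2.2])

/-- the room of the last link is star convex about the point `7r/4` in front of the door (for (Rd): no hole) -/
theorem pver_RY_star {r u Δ : ℝ} (hr : 0 ≤ r) (hΔ : 0 ≤ Δ) (h : 2 * r + u / 4 ≤ Δ / 2) : StarConvex ℝ (((-(Δ / 2) + 7 * r / 4 : ℝ) : ℂ)) (pverRY r u Δ) := by
  refine StarConvex.union ((pver_rect_convex _ _ _ _).starConvex ?_) ((pver_rect_convex _ _ _ _).starConvex ?_)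
  · simp only [Set.mem_ofPred_eq, ofReal_re, ofReal_im]
    exact ⟨by linarith, by linarith, by linarith, by linarith⟩
  · simp only [Set.mem_ofPred_eq, ofReal_re, ofReal_im]
    exact ⟨by linarith, by linarith, by linarith, by linarith⟩

/-- (Re) the near side of the door plug: `r/4 ≤ re + Δ/2 ≤ 8r`, `|im| ≤ 7r/4` -/
theorem pver_RY_door {r u Δ : ℝ} (h : 8 * r + u / 4 ≤ Δ / 2) (h' : 7 * r / 4 ≤ Δ / 10) {w : ℂ} (h1 : -(Δ / 2) + r / 4 ≤ w.re) (h2 : w.re ≤ -(Δ / 2) + 8 * r) (h3 : |w.im| ≤ 7 * r / 4) :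
    w ∈ pverRY r u Δ := by
  rw [abs_le] at h3
  by_cases hc : w.re ≤ -(Δ / 2) + 2 * r
  · exact Or.inl ⟨h1, hc, h3.1, h3.2⟩
  · exact Or.inr ⟨by linarith [not_le.1 hc], by linarith, by linarith [h3.1], by linarith [h3.2]⟩

/-- (Re) the near side of the reference plug: `-8u ≤ re ≤ -u/4`, `|im| ≤ 2u` -/
theorem pver_RY_plug {r u Δ : ℝ} (h : 3 * r / 2 + 8 * u ≤ Δ / 2) (h' : 2 * u ≤ Δ / 10) {w : ℂ} (h1 : -(8 * u) ≤ w.re) (h2 : w.re ≤ -(u / 4)) (h3 : |w.im| ≤ 2 * u) : w ∈ pverRY r u Δ := by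
  rw [abs_le] at h3
  exact Or.inr ⟨by linarith, h2, by linarith [h3.1], by linarith [h3.2]⟩

/-! ## 2. the room `eY`: `cu` = centre of the reference plug, `lb` = word of the room -/

/-- `eY`: the room of the strand of the thick short link = the lane of offsets `[-Δ/10, 4Δ/10]` of the east half of the block of the plug (FROM `u/4` IN FRONT OF THE PLANE OF THE PLUG, `u` = unit of the plug: W-7 of 208, RULING 22 of 234),
the lanes of the blocks of the word `lb`, and the inner mouth `Mi` -/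
noncomputable def pverEY (u Δ : ℝ) (cu : ℂ) (lb : List PvtTurn) (Mi : Set ℂ) : Set ℂ :=
  {w | cu.re + u / 4 ≤ w.re ∧ w.re ≤ cu.re + Δ / 2 ∧ cu.im - Δ / 10 ≤ w.im ∧ w.im ≤ cu.im + 4 * Δ / 10} ∪ pvfeLanes (-(1 / 10)) (4 / 10) (pvehZ Δ cu) (Δ : ℂ) lb ∪ Mi

/-- the blocks lie in the window of the thick link -/
theorem pver_body_sub (Δ : ℝ) (cu : ℂ) (lb : List PvtTurn) (Mo : Set ℂ) : pvehBody Δ cu lb ⊆ pvehEK Δ cu lb Mo ∪ pvccSq cu (Δ / 4) ∪ Mo := by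
  intro w hw
  by_cases h1 : w ∈ pvccSq cu (Δ / 4)
  · exact Or.inl (Or.inr h1)
  by_cases h2 : w ∈ Mo
  · exact Or.inr h2
  exact Or.inl (Or.inl ⟨hw, fun h => h.elim h1 h2⟩)

/-- the room of the thick link lies in the blocks of its word and the inner mouth -/
theorem pver_EY_body {u Δ : ℝ} (hu : 0 ≤ u) (hΔ : 0 < Δ) (cu : ℂ) (lb : List PvtTurn) (Mi : Set ℂ) : pverEY u Δ cu lb Mi ⊆ pvehBody Δ cu lb ∪ Mi := by
  rintro w ((⟨h1, h2, h3, h4⟩ | h) | h)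
  · refine Or.inl (Or.inl ⟨?_, by linarith⟩)
    rw [pveh_mem_sq]
    exact ⟨⟨by linarith, by linarith⟩, by linarith, by linarith⟩
  · unfold pvfeLanes at h
    simp only [mem_iUnion, exists_prop] at h
    obtain ⟨j, hj, hw⟩ := h
    refine Or.inl (Or.inr ?_)
    simp only [mem_iUnion, exists_prop]
    exact ⟨j, hj, pveh_lane_sub hΔ cu lb j (by norm_num) (by norm_num) hw⟩
  · exact Or.inr h

/-- the room of the thick link lies in its window -/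
theorem pver_EY_sub {u Δ : ℝ} (hu : 0 ≤ u) (hΔ : 0 < Δ) (cu : ℂ) (lb : List PvtTurn) {Mi Mo : Set ℂ} (hM : Mi ⊆ Mo) :
    pverEY u Δ cu lb Mi ⊆ pvehEK Δ cu lb Mo ∪ pvccSq cu (Δ / 4) ∪ Mo := by
  intro w hw
  rcases pver_EY_body hu hΔ cu lb Mi hw with h | h
  · exact pver_body_sub Δ cu lb Mo h
  · exact Or.inr (hM h)

theorem pver_EY_mono (u Δ : ℝ) (cu : ℂ) (lb : List PvtTurn) {Mi Mi' : Set ℂ} (h : Mi ⊆ Mi') : pverEY u Δ cu lb Mi ⊆ pverEY u Δ cu lb Mi' := Set.union_subset_union_right _ h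

theorem pver_pl_bdd (z d : ℂ) {S : Set ℂ} (h : Bornology.IsBounded S) : Bornology.IsBounded (pvccPl z d S) := by
  obtain ⟨R, hR⟩ := h.subset_closedBall (0 : ℂ)
  refine (Metric.isBounded_closedBall (x := z) (r := ‖d‖ * R)).subset ?_
  rintro _ ⟨w, hw, rfl⟩
  have h1 := hR hw
  rw [mem_closedBall_zero_iff] at h1
  rw [mem_closedBall_iff_norm, add_sub_cancel_left, norm_mul]
  exact mul_le_mul_of_nonneg_left h1 (norm_nonneg _)

theorem pver_lanes_bdd (z d : ℂ) (l : List PvtTurn) : Bornology.IsBounded (pvfeLanes (-(1 / 10)) (4 / 10) z d l) := by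
  unfold pvfeLanes
  refine (Bornology.isBounded_biUnion (Finset.finite_toSet _)).2 fun j _ => pver_pl_bdd _ _ ((pver_rect_bdd 0 1 (-(1 / 2)) (1 / 2)).subset ?_)
  intro w hw
  exact pvfe_lane_cell (by norm_num) (by norm_num) _ hw

/-- (Rd) bounded, no hypothesis -/
theorem pver_EY_bdd (u Δ : ℝ) (cu : ℂ) (lb : List PvtTurn) {Mi : Set ℂ} (hM : Bornology.IsBounded Mi) : Bornology.IsBounded (pverEY u Δ cu lb Mi) :=
  ((pver_rect_bdd _ _ _ _).union (pver_lanes_bdd _ _ _)).union hM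

/-- (Re) the near side of the reference plug: `u/4 ≤ re - cu.re ≤ Δ/2`, `|im - cu.im| ≤ Δ/10` -/
theorem pver_EY_plug {u Δ : ℝ} (hΔ : 0 ≤ Δ) (cu : ℂ) (lb : List PvtTurn) (Mi : Set ℂ) {w : ℂ} (h1 : cu.re + u / 4 ≤ w.re) (h2 : w.re ≤ cu.re + Δ / 2) (h3 : |w.im - cu.im| ≤ Δ / 10) : w ∈ pverEY u Δ cu lb Mi := by
  rw [abs_le] at h3
  exact Or.inl (Or.inl ⟨h1, h2, by linarith [h3.1], by linarith [h3.2]⟩)

/-- **the collar of a lane, in the reference cell**: the sup-norm `1/10`-neighbourhood of the lane of offsets `[-1/10, 4/10]` lies in the previous cell, the cell and the next cell -/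
theorem pver_lane_collar0 (τ : PvtTurn) {w x : ℂ} {μ : ℝ} (hμ : μ ≤ 1 / 10) (hw : w ∈ pvfeLane (-(1 / 10)) (4 / 10) τ) (hx : pvccN (x - w) ≤ μ) :
    x ∈ pvehSq (-(1 / 2)) (1 / 2) ∪ pvehSq (1 / 2) (1 / 2) ∪ pvehSq (1 / 2 + τ.rot) (1 / 2) := by
  have a1 := abs_le.1 ((le_max_left _ _).trans hx)
  have a2 := abs_le.1 ((le_max_right _ _).trans hx)
  rw [sub_re] at a1
  rw [sub_im] at a2
  obtain ⟨a11, a12⟩ := a1
  obtain ⟨a21, a22⟩ := a2
  have e1 : ((-(1 / 2) : ℂ)).re = -(1 / 2) := by norm_num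
  have e2 : ((-(1 / 2) : ℂ)).im = 0 := by norm_num
  have e3 : ((1 / 2 : ℂ)).re = 1 / 2 := by norm_num
  have e4 : ((1 / 2 : ℂ)).im = 0 := by norm_num
  simp only [mem_union, pveh_mem_sq, add_re, add_im, e1, e2, e3, e4]
  cases τ with
  | S =>
    obtain ⟨h1, h2, h3, h4⟩ := hw
    simp only [PvtTurn.rot, one_re, one_im]
    by_cases c1 : x.re ≤ 0
    · exact Or.inl (Or.inl ⟨⟨by linarith, by linarith⟩, by linarith, by linarith⟩)
    by_cases c2 : x.re ≤ 1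
    · exact Or.inl (Or.inr ⟨⟨by linarith, by linarith⟩, by linarith, by linarith⟩)
    · exact Or.inr ⟨⟨by linarith, by linarith⟩, by linarith, by linarith⟩
  | L =>
    simp only [PvtTurn.rot, I_re, I_im]
    rcases hw with ⟨h1, h2, h3, h4⟩ | ⟨h1, h2, h3, h4⟩
    · by_cases c1 : x.re ≤ 0
      · exact Or.inl (Or.inl ⟨⟨by linarith, by linarith⟩, by linarith, by linarith⟩)
      · exact Or.inl (Or.inr ⟨⟨by linarith, by linarith⟩, by linarith, by linarith⟩)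
    · by_cases c1 : x.im ≤ 1 / 2
      · exact Or.inl (Or.inr ⟨⟨by linarith, by linarith⟩, by linarith, by linarith⟩)
      · exact Or.inr ⟨⟨by linarith, by linarith⟩, by linarith, by linarith⟩
  | R =>
    simp only [PvtTurn.rot, neg_re, neg_im, I_re, I_im]
    rcases hw with ⟨h1, h2, h3, h4⟩ | ⟨h1, h2, h3, h4⟩
    · by_cases c1 : x.re ≤ 0
      · exact Or.inl (Or.inl ⟨⟨by linarith, by linarith⟩, by linarith, by linarith⟩)
      · exact Or.inl (Or.inr ⟨⟨by linarith, by linarith⟩, by linarith, by linarith⟩)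
    · by_cases c1 : -(1 / 2) ≤ x.im
      · exact Or.inl (Or.inr ⟨⟨by linarith, by linarith⟩, by linarith, by linarith⟩)
      · exact Or.inr ⟨⟨by linarith, by linarith⟩, by linarith, by linarith⟩

/-- **the collar of a placed lane**: the sup-norm `Δ/10`-neighbourhood of the lane number `j` lies in the block behind its door, its block and the next block -/
theorem pver_lane_collar {Δ : ℝ} (hΔ : 0 < Δ) (cu : ℂ) (lb : List PvtTurn) {j : ℕ} (hj : j < lb.length) {μ : ℝ} (hμ : μ ≤ Δ / 10) {v x : ℂ}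
    (hv : v ∈ pvccK (pvfeLane (-(1 / 10)) (4 / 10)) (pvehZ Δ cu) (Δ : ℂ) lb j) (hx : pvccN (x - v) ≤ μ) :
    x ∈ pvehSq (pvccZ (pvehZ Δ cu) (Δ : ℂ) lb j - pvccD (Δ : ℂ) lb j / 2) (Δ / 2) ∪ pvehB Δ cu lb j ∪ pvehB Δ cu lb (j + 1) := by
  have hu : pvccD 1 lb j ^ 4 = 1 := pvccD_pow_four (by norm_num) lb j
  have hD : pvccD (Δ : ℂ) lb j = (Δ : ℂ) * pvccD 1 lb j := pvccD_cov _ _ _
  have hU0 : pvccD 1 lb j ≠ 0 := by
    intro h
    rw [h] at hu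
    norm_num at hu
  have hΔ' : (Δ : ℂ) ≠ 0 := by exact_mod_cast hΔ.ne'
  obtain ⟨w, hw, rfl⟩ := hv
  simp only at hx
  obtain ⟨x', ex⟩ : ∃ x' : ℂ, x = pvccZ (pvehZ Δ cu) (Δ : ℂ) lb j + (Δ : ℂ) * pvccD 1 lb j * x' :=
    ⟨(x - pvccZ (pvehZ Δ cu) (Δ : ℂ) lb j) / ((Δ : ℂ) * pvccD 1 lb j), by field_simp; ring⟩
  have hN : pvccN (x' - w) ≤ μ / Δ := by
    have e : x - (pvccZ (pvehZ Δ cu) (Δ : ℂ) lb j + pvccD (Δ : ℂ) lb j * w) = (Δ : ℂ) * (pvccD 1 lb j * (x' - w)) := by rw [ex, hD]; ring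
    rw [e, pvccN_real_mul hΔ.le, pvccN_unit_mul hu] at hx
    rw [le_div_iff₀ hΔ]
    linarith
  have h10 : μ / Δ ≤ 1 / 10 := by
    rw [div_le_iff₀ hΔ]
    linarith
  have tr : ∀ c : ℂ, x' ∈ pvehSq c (1 / 2) → x ∈ pvehSq (pvccZ (pvehZ Δ cu) (Δ : ℂ) lb j + (Δ : ℂ) * pvccD 1 lb j * c) (Δ / 2) := by
    intro c hc
    have hx2 : x ∈ pvccPl (pvccZ (pvehZ Δ cu) (Δ : ℂ) lb j) ((Δ : ℂ) * pvccD 1 lb j) (pvehSq c (1 / 2)) := ⟨x', hc, ex.symm⟩
    rw [pveh_pl_sq hΔ _ hu] at hx2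
    rwa [show Δ * (1 / 2) = Δ / 2 by ring] at hx2
  rcases pver_lane_collar0 _ h10 hw hN with (h | h) | h
  · refine Or.inl (Or.inl ?_)
    have := tr _ h
    rwa [show pvccZ (pvehZ Δ cu) (Δ : ℂ) lb j + (Δ : ℂ) * pvccD 1 lb j * -(1 / 2) = pvccZ (pvehZ Δ cu) (Δ : ℂ) lb j - pvccD (Δ : ℂ) lb j / 2 by rw [hD]; ring] at this
  · refine Or.inl (Or.inr ?_)
    have := tr _ h
    unfold pvehB pvccC
    rwa [show pvccZ (pvehZ Δ cu) (Δ : ℂ) lb j + (Δ : ℂ) * pvccD 1 lb j * (1 / 2) = pvccZ (pvehZ Δ cu) (Δ : ℂ) lb j + pvccD (Δ : ℂ) lb j / 2 by rw [hD]; ring] at this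
  · refine Or.inr ?_
    have := tr _ h
    unfold pvehB pvccC
    rw [pvccZ_succ _ _ _ hj, pvccD_succ _ _ hj, pvt_mid_eq]
    rwa [show pvccZ (pvehZ Δ cu) (Δ : ℂ) lb j + (Δ : ℂ) * pvccD 1 lb j * (1 / 2 + (pvccT lb j).rot) =
      pvccZ (pvehZ Δ cu) (Δ : ℂ) lb j + pvccD (Δ : ℂ) lb j * ((1 + (pvccT lb j).rot) / 2) + pvccD (Δ : ℂ) lb j * (pvccT lb j).rot / 2 by rw [hD]; ring] at this

theorem pver_V_append (l e : List PvtTurn) {j : ℕ} (hj : j ≤ l.length) : pvehV (l ++ e) j = pvehV l j := by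
  unfold pvehV
  rw [List.take_append_of_le_length hj]

/-- the blocks of a word do not depend on what follows -/
theorem pver_B_append (Δ : ℝ) (cu : ℂ) (l e : List PvtTurn) {j : ℕ} (hj : j ≤ l.length) : pvehB Δ cu (l ++ e) j = pvehB Δ cu l j := by
  unfold pvehB
  rw [pveh_C_eq, pveh_C_eq, pver_V_append l e hj]

theorem pver_body_append (Δ : ℝ) (cu : ℂ) (l e : List PvtTurn) : pvehBody Δ cu l ⊆ pvehBody Δ cu (l ++ e) := by
  rintro w (h | h)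
  · exact Or.inl h
  · simp only [mem_iUnion, exists_prop, Finset.mem_range] at h
    obtain ⟨j, hj, hw⟩ := h
    refine Or.inr ?_
    simp only [mem_iUnion, exists_prop, Finset.mem_range]
    exact ⟨j, by rw [List.length_append]; omega, by rw [pver_B_append Δ cu l e hj.le]; exact hw⟩

theorem pver_B_mem_body (Δ : ℝ) (cu : ℂ) (l : List PvtTurn) {j : ℕ} (hj : j ≤ l.length) {x : ℂ} (hx : x ∈ pvehB Δ cu l j) : x ∈ pvehBody Δ cu (l ++ [PvtTurn.S]) := by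
  refine Or.inr ?_
  simp only [mem_iUnion, exists_prop, Finset.mem_range]
  exact ⟨j, by rw [List.length_append, List.length_singleton]; omega, by rw [pver_B_append Δ cu l _ hj]; exact hx⟩

/-- **COLLAR** ((Rc) of RULING 22): off the inner mouth, the sup-norm `μ`-neighbourhood of the room of the thick link, `μ ≤ u/4`, `μ ≤ Δ/10`, lies in the east half of the block of the plug and the blocks of the word FOLLOWED BY ONE STRAIGHT BLOCK -/
theorem pver_EY_collar {u Δ μ : ℝ} (hΔ : 0 < Δ) (hμu : μ ≤ u / 4) (hμ : μ ≤ Δ / 10) (cu : ℂ) (lb : List PvtTurn) {Mi : Set ℂ} {v x : ℂ} (hv : v ∈ pverEY u Δ cu lb Mi) (hM : v ∉ Mi)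
    (hx : pvccN (x - v) ≤ μ) : x ∈ pvehBody Δ cu (lb ++ [PvtTurn.S]) := by
  have a1 := abs_le.1 ((le_max_left _ _).trans hx)
  have a2 := abs_le.1 ((le_max_right _ _).trans hx)
  rw [sub_re] at a1
  rw [sub_im] at a2
  obtain ⟨a11, a12⟩ := a1
  obtain ⟨a21, a22⟩ := a2
  have hB0 : ∀ y : ℂ, y ∈ pvehB Δ cu lb 0 ↔ (cu.re + Δ / 2 ≤ y.re ∧ y.re ≤ cu.re + 3 * Δ / 2) ∧ (cu.im - Δ / 2 ≤ y.im ∧ y.im ≤ cu.im + Δ / 2) := by
    intro y
    unfold pvehB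
    rw [pveh_C_eq, pveh_mem_sq]
    have e1 : (cu + (Δ : ℂ) * pvtZ (pvehV lb 0)).re = cu.re + Δ := by simp [pvtZ, pvehV, pvccAccI]
    have e2 : (cu + (Δ : ℂ) * pvtZ (pvehV lb 0)).im = cu.im := by simp [pvtZ, pvehV, pvccAccI]
    rw [e1, e2]
    constructor
    · rintro ⟨⟨b1, b2⟩, b3, b4⟩
      exact ⟨⟨by linarith, by linarith⟩, b3, b4⟩
    · rintro ⟨⟨b1, b2⟩, b3, b4⟩
      exact ⟨⟨by linarith, by linarith⟩, b3, b4⟩
  rcases hv with (⟨h1, h2, h3, h4⟩ | h) | h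
  · by_cases hc : x.re ≤ cu.re + Δ / 2
    · refine Or.inl ⟨?_, by linarith⟩
      rw [pveh_mem_sq]
      exact ⟨⟨by linarith, by linarith⟩, by linarith, by linarith⟩
    · exact pver_B_mem_body Δ cu lb (Nat.zero_le _) ((hB0 x).2 ⟨⟨by linarith [not_le.1 hc], by linarith⟩, by linarith, by linarith⟩)
  · unfold pvfeLanes at h
    simp only [mem_iUnion, exists_prop, Finset.mem_range] at h
    obtain ⟨j, hj, hw⟩ := h
    rcases pver_lane_collar hΔ cu lb hj hμ hw hx with (h | h) | h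
    · cases j with
      | zero =>
        have hv0 := (hB0 v).1 (pveh_lane_sub hΔ cu lb 0 (by norm_num) (by norm_num) hw)
        rw [pvccZ_zero, pvccD_zero, pvehZ, show cu + ((Δ / 2 : ℝ) : ℂ) - (Δ : ℂ) / 2 = cu by push_cast; ring] at h
        exact Or.inl ⟨h, by linarith [hv0.1.1]⟩
      | succ k =>
        rw [pvccC_prev _ _ _ (by omega : k < lb.length)] at h
        exact pver_B_mem_body Δ cu lb (by omega) h
    · exact pver_B_mem_body Δ cu lb hj.le h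
    · exact pver_B_mem_body Δ cu lb hj h
  · exact absurd h hM

/-- **the word of the ROOM of the thick link**: the word of the blocks followed by two straight blocks, which lead through the funnel `iK` of 124 into the mouth -/
def pverLy (b : ℕ) : List PvtTurn := pvxrLe b ++ [PvtTurn.S, PvtTurn.S]

theorem pver_W_ly (b : ℕ) : PvehW (pverLy b) := by
  unfold pverLy
  rcases pveh_le_cases b with h | h | h | h <;> (rw [h]; decide)

/-- **W-7**: inside the OPEN BLOCK of the reference plug, the room of the thick link lies `u/4` in front of the plane of the plug -/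
theorem pver_EY_front {u Δ : ℝ} (hΔ : 0 < Δ) (cu : ℂ) {lb : List PvtTurn} (hW : PvehW lb) {Mi : Set ℂ} {w : ℂ} (hw : w ∈ pverEY u Δ cu lb Mi) (hO : w ∈ pvccSq cu (Δ / 2)) (hM : w ∉ Mi) :
    cu.re + u / 4 ≤ w.re := by
  rw [pvccm_mem_sq] at hO
  obtain ⟨⟨a1, a2⟩, a3, a4⟩ := hO
  rcases hw with (h | h) | h
  · exact h.1
  · unfold pvfeLanes at h
    simp only [mem_iUnion, exists_prop] at h
    obtain ⟨j, hj, hw⟩ := h
    have hj' : j < lb.length := Finset.mem_range.1 hj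
    have hb := pveh_lane_sub hΔ cu lb j (by norm_num) (by norm_num) hw
    unfold pvehB at hb
    rw [pveh_C_eq, pveh_mem_sq] at hb
    have e1 : (cu + (Δ : ℂ) * pvtZ (pvehV lb j)).re = cu.re + Δ * ((pvehV lb j).1 : ℝ) := by simp [pvtZ]
    have e2 : (cu + (Δ : ℂ) * pvtZ (pvehV lb j)).im = cu.im + Δ * ((pvehV lb j).2 : ℝ) := by simp [pvtZ]
    rw [e1, e2] at hb
    obtain ⟨⟨b1, b2⟩, b3, b4⟩ := hb
    rcases hW j hj' with hv | hv | hv
    · rw [hv] at b1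
      push_cast at b1
      linarith
    · rcases le_abs'.1 hv with hv | hv
      · have : ((pvehV lb j).1 : ℝ) ≤ -2 := by exact_mod_cast hv
        nlinarith
      · have : (2 : ℝ) ≤ ((pvehV lb j).1 : ℝ) := by exact_mod_cast hv
        nlinarith
    · rcases le_abs'.1 hv with hv | hv
      · have : ((pvehV lb j).2 : ℝ) ≤ -2 := by exact_mod_cast hv
        nlinarith
      · have : (2 : ℝ) ≤ ((pvehV lb j).2 : ℝ) := by exact_mod_cast hv
        nlinarith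
  · exact absurd h hM

/-! ## 3. AT THE MODEL, in blocks -/

section model

variable {τ : Type} {c : ℝ} (𝔓 : PvxPar τ c)

/-- **unit of the door plugs of the thin chain** (`δ/40`: 34, 12:12Z; the proofs below use only `δ/40 ≤ r ≤ δ/16`) -/
noncomputable def pverRd (c : ℝ) (m : ℕ) : ℝ := pvlmDel c m / 40

/-- **unit of the reference plug** (`Δ/20`: 31, `Exit/RefPlug`, `pvurRu`) -/
noncomputable def pverRu (m : ℕ) : ℝ := pvehDl 𝔓 m / 20

/-- **`rY m`** -/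
noncomputable def pverrY (_O0 : ℕ → Set ℂ) (m : ℕ) : Set ℂ := pverRY (pverRd c m) (pverRu 𝔓 m) (pvehDl 𝔓 m)

/-- **`eY m t`**; `Mi m t ⊆ eM m t` = the part of the mouth where the new strand may run (of record: `pverMi`, `Exit/ParEngC`);   the word is `pverLy` = the word of the blocks + two straight blocks through the funnel -/
noncomputable def pvereY0 (Mi : ℕ → τ → Set ℂ) (m : ℕ) (t : τ) : Set ℂ := pverEY (pverRu 𝔓 m) (pvehDl 𝔓 m) ((pvxrGam 𝔓 m).zu t) (pverLy (pvxrB 𝔓 t)) (Mi m t)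

variable {𝔓}

theorem pver_m_rY {O0 : ℕ → Set ℂ} (_hO : ∀ m, MeasurableSet (O0 m)) (m : ℕ) : MeasurableSet (pverrY 𝔓 O0 m) := pver_RY_meas _ _ _

theorem pver_m_eY0 {Mi : ℕ → τ → Set ℂ} (hM : ∀ m t, MeasurableSet (Mi m t)) {m : ℕ} (hn : 0 ≤ pvxrNw 𝔓 m) (t : τ) : MeasurableSet (pvereY0 𝔓 Mi m t) :=
  MeasurableSet.union (MeasurableSet.union (pver_rect_closed _ _ _ _).measurableSet (pveh_lanes_meas _ _ _ (by exact_mod_cast (pveh_Dl_pos hn).ne') _)) (hM m t)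

theorem pver_Rd_pos (c : ℝ) (m : ℕ) : 0 < pverRd c m := by
  have := pvlm_Del_pos c m
  unfold pverRd
  positivity

theorem pver_Rd_lo (c : ℝ) (m : ℕ) : pvlmDel c m / 40 ≤ pverRd c m := le_of_eq rfl

theorem pver_Rd_hi (c : ℝ) (m : ℕ) : pverRd c m ≤ pvlmDel c m / 16 := by
  have := pvlm_Del_pos c m
  unfold pverRd
  linarith

theorem pver_pin0_re (m : ℕ) : ((pvxrGam 𝔓 m).pin0).re = -(pvehDl 𝔓 m / 2) ∧ ((pvxrGam 𝔓 m).pin0).im = 0 := by
  have : (pvxrGam 𝔓 m).pin0 = ((-(pvehDl 𝔓 m / 2) : ℝ) : ℂ) := by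
    rw [pvxr_gam_pin0]; unfold pvehDl; push_cast; ring
  rw [this]
  exact ⟨ofReal_re _, ofReal_im _⟩

/-- **field `rY_sub`** -/
theorem pver_rY_sub (O0 : ℕ → Set ℂ) {m : ℕ} (h : 8 * pvlmDel c m ≤ pvehDl 𝔓 m) : pverrY 𝔓 O0 m ⊆ pvehrK 𝔓 O0 m ∪ pvehrO 𝔓 m ∪ pvehDr 𝔓 O0 m := by
  have hδ := pvlm_Del_pos c m
  refine pver_RY_sub _ (pver_Rd_pos c m).le ?_ (by linarith [pver_Rd_hi c m])
  unfold pverRu
  linarith

/-- **W-7, `rY_front`**: the room of the last link of the thin chain lies `r/4` in front of the plane of the last door, `r = pverRd c m` = unit of the door plug -/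
theorem pver_rY_front (O0 : ℕ → Set ℂ) (m : ℕ) {v : ℂ} (hv : v ∈ pverrY 𝔓 O0 m) :
    pverRd c m / 4 ≤ ((v - (pvxrGam 𝔓 m).pin0) * (starRingEnd ℂ) (pvxrGam 𝔓 m).din0).re := by
  have h1 := pver_RY_front (pver_Rd_pos c m).le hv
  rw [pvxr_gam_din0, map_one, mul_one, sub_re, (pver_pin0_re m).1]
  linarith

/-- **W-7, `rY_back`**: the room of the last link of the thin chain lies `u/4` behind the plane of the reference plug, `u = pverRu 𝔓 m` = unit of the reference plug -/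
theorem pver_rY_back (O0 : ℕ → Set ℂ) {m : ℕ} (h : 8 * pvlmDel c m ≤ pvehDl 𝔓 m) {v : ℂ} (hv : v ∈ pverrY 𝔓 O0 m) : v.re ≤ -(pverRu 𝔓 m / 4) := by
  have hδ := pvlm_Del_pos c m
  refine pver_RY_back ?_ hv
  unfold pverRu
  linarith [pver_Rd_hi c m]

/-- **(Rc) COLLAR of `rY`**: `hO` = `dp_win` at the unit `pverRd c m` -/
theorem pver_rY_collar {O0 : ℕ → Set ℂ} {m : ℕ} (hO : pvwSq 0 (3 * pverRd c m) ⊆ O0 m) (h : 8 * pvlmDel c m ≤ pvehDl 𝔓 m) {s : ℝ} (hs : s ≤ 3 * pvlmDel c m / 100) {v : ℂ} (hv : v ∈ pverrY 𝔓 O0 m) :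
    closedBall v s ⊆ pvehrK 𝔓 O0 m ∪ pvehrO 𝔓 m ∪ pvehDr 𝔓 O0 m := by
  have hδ := pvlm_Del_pos c m
  intro x hx
  rw [mem_closedBall_iff_norm] at hx
  refine pver_RY_collar (pver_Rd_pos c m) (by linarith [pver_Rd_lo c m]) ?_ (by linarith [pver_Rd_hi c m]) ?_ hv hx
  · unfold pverRu
    linarith [pver_Rd_hi c m]
  · intro y h1 h2
    refine ⟨y - (pvxrGam 𝔓 m).pin0, hO ⟨?_, ?_⟩, ?_⟩
    · rw [sub_zero, sub_re, (pver_pin0_re m).1]
      rwa [show y.re - -(pvehDl 𝔓 m / 2) = y.re + pvehDl 𝔓 m / 2 by ring]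
    · rw [sub_zero, sub_im, (pver_pin0_re m).2, sub_zero]
      exact h2
    · unfold pvthSim
      rw [pvxr_gam_din0]
      ring

/-- **cut line of the reference plug** (85): a point within `s ≤ 3δ/100` of `rY` lies strictly behind the plane of the plug -/
theorem pver_rY_cut (O0 : ℕ → Set ℂ) {m : ℕ} (h : 8 * pvlmDel c m ≤ pvehDl 𝔓 m) {s : ℝ} (hs : s ≤ 3 * pvlmDel c m / 100) {v a : ℂ} (hv : v ∈ pverrY 𝔓 O0 m) (ha : ‖a - v‖ ≤ s) : a.re < 0 := by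
  have hδ := pvlm_Del_pos c m
  have h1 := pver_rY_back O0 h hv
  have h2 := (abs_le.1 ((abs_re_le_norm (a - v)).trans ha)).2
  rw [sub_re] at h2
  unfold pverRu at h1
  linarith

/-- (Rd) `rY` is star convex about the point `7r/4` in front of the last door -/
theorem pver_rY_star (O0 : ℕ → Set ℂ) {m : ℕ} (h : 8 * pvlmDel c m ≤ pvehDl 𝔓 m) : StarConvex ℝ (((-(pvehDl 𝔓 m / 2) + 7 * pverRd c m / 4 : ℝ) : ℂ)) (pverrY 𝔓 O0 m) := by
  have hδ := pvlm_Del_pos c m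
  refine pver_RY_star (pver_Rd_pos c m).le (by linarith) ?_
  unfold pverRu
  linarith [pver_Rd_hi c m]

/-- (Rd) `rY` is bounded, all levels -/
theorem pver_rY_bdd (O0 : ℕ → Set ℂ) (m : ℕ) : Bornology.IsBounded (pverrY 𝔓 O0 m) := pver_RY_bdd _ _ _

/-- `rY` is closed -/
theorem pver_rY_closed (O0 : ℕ → Set ℂ) (m : ℕ) : IsClosed (pverrY 𝔓 O0 m) := pver_RY_closed _ _ _

/-- (Re) the near side of the last door plug lies in `rY`: `r/4 ≤ re (w - pin0) ≤ 8r`, `|im| ≤ 7r/4`      [half lanes of `pvkdP r` with their banks: `[7r/16, 7r + r/16] × [-27r/16, 27r/16]`] -/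
theorem pver_rY_door (O0 : ℕ → Set ℂ) {m : ℕ} (h : 8 * pvlmDel c m ≤ pvehDl 𝔓 m) {w : ℂ} (h1 : pverRd c m / 4 ≤ (w - (pvxrGam 𝔓 m).pin0).re) (h2 : (w - (pvxrGam 𝔓 m).pin0).re ≤ 8 * pverRd c m)
    (h3 : |w.im| ≤ 7 * pverRd c m / 4) : w ∈ pverrY 𝔓 O0 m := by
  have hδ := pvlm_Del_pos c m
  rw [sub_re, (pver_pin0_re m).1] at h1 h2
  refine pver_RY_door ?_ (by linarith [pver_Rd_hi c m]) (by linarith) (by linarith) h3
  unfold pverRu
  linarith [pver_Rd_hi c m]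

/-- (Re) the near side of the reference plug lies in `rY`: `-8u ≤ re ≤ -u/4`, `|im| ≤ 2u`      [half lanes of `pvkdP u` with their banks: `[-7u - u/16, -7u/16] × [-27u/16, 27u/16]`] -/
theorem pver_rY_plug (O0 : ℕ → Set ℂ) {m : ℕ} (h : 8 * pvlmDel c m ≤ pvehDl 𝔓 m) {w : ℂ} (h1 : -(8 * pverRu 𝔓 m) ≤ w.re) (h2 : w.re ≤ -(pverRu 𝔓 m / 4)) (h3 : |w.im| ≤ 2 * pverRu 𝔓 m) : w ∈ pverrY 𝔓 O0 m := by
  have hδ := pvlm_Del_pos c m
  refine pver_RY_plug ?_ ?_ h1 h2 h3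
  · unfold pverRu
    linarith [pver_Rd_hi c m]
  · unfold pverRu
    linarith

/-- the room of the thick link lies in the blocks of ITS word `pverLy` and the inner mouth      (field `eY_sub`: `pver_eY_sub`, `Exit/ParEngC`) -/
theorem pver_eY_body (Mi : ℕ → τ → Set ℂ) {m : ℕ} (hn : 0 ≤ pvxrNw 𝔓 m) (t : τ) : pvereY0 𝔓 Mi m t ⊆ pvehBody (pvehDl 𝔓 m) ((pvxrGam 𝔓 m).zu t) (pverLy (pvxrB 𝔓 t)) ∪ Mi m t :=
  pver_EY_body (by have := pveh_Dl_pos hn; unfold pverRu; positivity) (pveh_Dl_pos hn) _ _ _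

theorem pver_eY_mono {Mi Mi' : ℕ → τ → Set ℂ} (m : ℕ) (t : τ) (h : Mi m t ⊆ Mi' m t) : pvereY0 𝔓 Mi m t ⊆ pvereY0 𝔓 Mi' m t := pver_EY_mono _ _ _ _ h

/-- **W-7, `eY_front`**: inside the OPEN BLOCK of the reference plug, off the mouth, the room of the thick link lies `u/4` in front of the plane of the plug, `u = pverRu 𝔓 m` -/
theorem pver_eY_front0 {Mi : ℕ → τ → Set ℂ} {m : ℕ} (hn : 0 ≤ pvxrNw 𝔓 m) (t : τ) {v : ℂ} (hv : v ∈ pvereY0 𝔓 Mi m t) (hO : v ∈ pvccSq ((pvxrGam 𝔓 m).zu t) (pvehDl 𝔓 m / 2)) (hM : v ∉ Mi m t) :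
    pverRu 𝔓 m / 4 ≤ (v - (pvxrGam 𝔓 m).zu t).re := by
  have hΔ := pveh_Dl_pos hn
  have := pver_EY_front hΔ _ (pver_W_ly _) hv hO hM
  rw [sub_re]
  linarith

/-- **(Rc) COLLAR of `eY`, off the inner mouth**, in blocks -/
theorem pver_eY_collar0 {Mi : ℕ → τ → Set ℂ} {m : ℕ} (h : 8 * pvlmDel c m ≤ pvehDl 𝔓 m) {s : ℝ} (hs : s ≤ 3 * pvlmDel c m / 100) (t : τ) {v x : ℂ} (hv : v ∈ pvereY0 𝔓 Mi m t) (hM : v ∉ Mi m t) (hx : ‖x - v‖ ≤ s) :
    x ∈ pvehBody (pvehDl 𝔓 m) ((pvxrGam 𝔓 m).zu t) (pverLy (pvxrB 𝔓 t) ++ [PvtTurn.S]) := by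
  have hδ := pvlm_Del_pos c m
  refine pver_EY_collar (μ := s) (by linarith) ?_ (by linarith) _ _ hv hM ((max_le (abs_re_le_norm _) (abs_im_le_norm _)).trans hx)
  unfold pverRu
  linarith

/-- (Re) the near side of the reference plug lies in `eY`: `u/4 ≤ re (w - zu) ≤ 10u`, `|im (w - zu)| ≤ 2u`      [half lanes of `pvkdP u` with their banks: `[7u/16, 7u + u/16] × [-27u/16, 27u/16]`] -/
theorem pver_eY_plug0 (Mi : ℕ → τ → Set ℂ) {m : ℕ} (hn : 0 ≤ pvxrNw 𝔓 m) (t : τ) {w : ℂ} (h1 : pverRu 𝔓 m / 4 ≤ (w - (pvxrGam 𝔓 m).zu t).re) (h2 : (w - (pvxrGam 𝔓 m).zu t).re ≤ 10 * pverRu 𝔓 m)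
    (h3 : |(w - (pvxrGam 𝔓 m).zu t).im| ≤ 2 * pverRu 𝔓 m) : w ∈ pvereY0 𝔓 Mi m t := by
  rw [sub_re] at h1 h2
  rw [sub_im] at h3
  refine pver_EY_plug (pveh_Dl_pos hn).le _ _ _ (by linarith) ?_ ?_
  · unfold pverRu at h2
    linarith
  · unfold pverRu at h3
    linarith

end model

/-! ## 4. the three blocks which follow the last block of the thick link -/

/-- the frame of 124, lateral coordinate -/
theorem pver_L_eq (Y v : ℂ) (a : ℕ) : pvegL Y (I ^ a) v = pvehFront (a + 1) (v - Y) := by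
  have e : (I : ℂ) ^ a = I ^ (a % 4) := by
    conv_lhs => rw [← Nat.div_add_mod a 4, pow_add, pow_mul, I_pow_four, one_pow, one_mul]
  unfold pvegL
  rw [e]
  rcases pvej_mod a with ⟨h, h'⟩ | ⟨h, h'⟩ | ⟨h, h'⟩ | ⟨h, h'⟩ <;> simp only [pvehFront, h, h'] <;> simp [pow_succ]

theorem pver_F_Z (b : ℕ) (q : ℤ × ℤ) : pvehFront b (pvtZ q) = (pvrwF b q : ℝ) := by
  rcases pvej_mod b with ⟨h, -⟩ | ⟨h, -⟩ | ⟨h, -⟩ | ⟨h, -⟩ <;> simp [pvehFront, pvrwF, pvxrE, h, pvtZ]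

theorem pver_F_door_lat (δ : ℝ) (e : ℤ × ℤ) (a : ℕ) : pvehFront (a + 1) (pvxrDoor δ e a) = pvehFront (a + 1) (pvtCtr δ e) := by
  rw [pvej_door_eq, pvej_F_sub, pvej_F_smul, (pvej_F_pow a).2, mul_zero, sub_zero]

theorem pver_ly_append (b : ℕ) : pverLy b ++ [PvtTurn.S] = pvxrLe b ++ [PvtTurn.S, PvtTurn.S, PvtTurn.S] := by
  simp [pverLy]

/-- the three blocks which follow the last block of the thick link, in blocks, relative to the base cell `e⁻`: straight inwards -/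
theorem pver_tail_int (b : ℕ) : ∀ j < (pvxrLe b).length + 3, (pvxrLe b).length ≤ j →
    -3 ≤ pvrwF b (pvxrUo b 1 + pvehV (pvxrLe b ++ [PvtTurn.S, PvtTurn.S, PvtTurn.S]) j) ∧ pvrwF b (pvxrUo b 1 + pvehV (pvxrLe b ++ [PvtTurn.S, PvtTurn.S, PvtTurn.S]) j) ≤ -1 ∧
      pvrwF (b + 1) (pvxrUo b 1 + pvehV (pvxrLe b ++ [PvtTurn.S, PvtTurn.S, PvtTurn.S]) j) = 0 := by
  rcases pvej_mod b with ⟨h, h'⟩ | ⟨h, h'⟩ | ⟨h, h'⟩ | ⟨h, h'⟩ <;> simp only [pvxrLe, pvxrUo, pvrwF, pvxrE, h, h'] <;> decide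

/-- the same in the plane (`ce` = centre of the base cell `e⁻`) -/
theorem pver_tail_front {Δ : ℝ} (hΔ : 0 < Δ) (ce : ℂ) (b : ℕ) {j : ℕ} (h1 : (pvxrLe b).length ≤ j) (h2 : j < (pvxrLe b).length + 3) {w : ℂ}
    (hw : w ∈ pvehB Δ (ce + (Δ : ℂ) * pvtZ (pvxrUo b 1)) (pvxrLe b ++ [PvtTurn.S, PvtTurn.S, PvtTurn.S]) j) :
    pvehFront b ce - 7 / 2 * Δ ≤ pvehFront b w ∧ pvehFront b w ≤ pvehFront b ce - Δ / 2 ∧ |pvehFront (b + 1) w - pvehFront (b + 1) ce| ≤ Δ / 2 := by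
  obtain ⟨i1, i2, i3⟩ := pver_tail_int b j h2 h1
  unfold pvehB at hw
  rw [pveh_C_eq, show ce + (Δ : ℂ) * pvtZ (pvxrUo b 1) + (Δ : ℂ) * pvtZ (pvehV (pvxrLe b ++ [PvtTurn.S, PvtTurn.S, PvtTurn.S]) j) =
    ce + (Δ : ℂ) * pvtZ (pvxrUo b 1 + pvehV (pvxrLe b ++ [PvtTurn.S, PvtTurn.S, PvtTurn.S]) j) by rw [pvtZ_add]; ring] at hw
  have hw' : pvccN (w - (ce + (Δ : ℂ) * pvtZ (pvxrUo b 1 + pvehV (pvxrLe b ++ [PvtTurn.S, PvtTurn.S, PvtTurn.S]) j))) ≤ Δ / 2 := hw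
  have f1 := abs_le.1 ((pvej_F_abs_le_N b _).trans hw')
  have f2 := abs_le.1 ((pvej_F_abs_le_N (b + 1) _).trans hw')
  rw [pvej_F_sub, pvej_F_add, pvej_F_smul, pver_F_Z] at f1 f2
  rw [i3] at f2
  have g1 : (-3 : ℝ) ≤ (pvrwF b (pvxrUo b 1 + pvehV (pvxrLe b ++ [PvtTurn.S, PvtTurn.S, PvtTurn.S]) j) : ℝ) := by exact_mod_cast i1
  have g2 : (pvrwF b (pvxrUo b 1 + pvehV (pvxrLe b ++ [PvtTurn.S, PvtTurn.S, PvtTurn.S]) j) : ℝ) ≤ -1 := by exact_mod_cast i2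
  push_cast at f2
  refine ⟨by nlinarith [f1.1], by nlinarith [f1.2], abs_le.2 ⟨by linarith [f2.1], by linarith [f2.2]⟩⟩

section tail

variable {δ r Rk : ℝ} {Yp Ym : ℂ} {a b : ℕ} {ep em : ℤ × ℤ} {n : ℤ}

/-- **the three blocks which follow the last block of the thick link lie in the closed rectangle of the funnel of 124** -/
theorem pver_tail_rc (J : PvejGeo δ r Rk Yp Ym a b ep em n) {j : ℕ} (h1 : (pvxrLe b).length ≤ j) (h2 : j < (pvxrLe b).length + 3) {w : ℂ}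
    (hw : w ∈ pvehB ((2 * (n : ℝ) + 1) * δ) (pvtCtr δ em + (((2 * (n : ℝ) + 1) * δ : ℝ) : ℂ) * pvtZ (pvxrUo b 1)) (pvxrLe b ++ [PvtTurn.S, PvtTurn.S, PvtTurn.S]) j) :
    w ∈ pvegRc Ym (I ^ b) (pvxrDoor δ em b) (r / 10) δ (r / 5) := by
  obtain ⟨d1, d2⟩ := J.Dl
  have hδ := J.δ0
  have hf := J.fine
  have hΔ : 0 < (2 * (n : ℝ) + 1) * δ := by linarith [J.r0]
  obtain ⟨t1, t2, t3⟩ := pver_tail_front hΔ _ _ h1 h2 hw
  have t3' := abs_le.1 t3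
  have f1 := abs_le.1 J.em_f
  rw [pvej_F_sub] at f1
  have k1 : r / 10 + 2 * δ ≤ pvegS Ym (I ^ b) w := by
    rw [pvej_S_eq, pvej_F_sub]
    linarith [f1.1]
  have k2 : pvegS Ym (I ^ b) w ≤ pvegS Ym (I ^ b) (pvxrDoor δ em b) - δ / 4 := by
    rw [pvej_S_eq, pvej_S_eq, pvej_F_sub, pvej_F_sub, pvej_F_door]
    linarith
  have k3 : |pvegL Ym (I ^ b) w - pvegL Ym (I ^ b) (pvxrDoor δ em b)| ≤ r / 5 := by
    rw [pver_L_eq, pver_L_eq, pvej_F_sub, pvej_F_sub, pver_F_door_lat, abs_le]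
    constructor <;> linarith [t3'.1, t3'.2]
  exact ⟨k1, k2, k3⟩

end tail

/-! ## 5. THE ROOMS OF RECORD AT THE MODEL -/

section room

variable {τ : Type} {c : ℝ}

/-- **the inner mouth of the room of the thick link**: the recoloured mouth `iM` shrunk by `3δ/100 ≥ 3 μ` -/
noncomputable def pverMi (𝔓 : PvxPar τ c) (m : ℕ) (t : τ) : Set ℂ := closedBall (pvegYm 𝔓 m t) (5 * pvegR 𝔓 m / 16 - 3 * pvlmDel c m / 100)

/-- **`eY m t` OF RECORD**: east half lane of the block of the plug from `u/4` on, lanes of the blocks of `pverLy` (word of the thick link + two straight blocks through the funnel), inner mouth -/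
noncomputable def pvereY (𝔓 : PvxPar τ c) (m : ℕ) (t : τ) : Set ℂ := pvereY0 𝔓 (pverMi 𝔓) m t

/-- **THE CLOSED SET OF THE THICK LINK** (`G` of 64): east half of the block of the plug, blocks of the word `pvxrLe`, closed rectangle of the funnel of 124, recoloured mouth.
`G \ (zu + rO ∪ iM) ⊆ eK ⊆ G \ iM`;   everything the rooms owe is proved INSIDE `G`, so that a change of the partition of `G` into mouth / tile / plug (U4 of R23, `pvegIKa` of 124) costs `pver_G_win` only -/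
noncomputable def pverG (𝔓 : PvxPar τ c) (m : ℕ) (t : τ) : Set ℂ :=
  pvehBody (pvehDl 𝔓 m) ((pvxrGam 𝔓 m).zu t) (pvxrLe (pvxrB 𝔓 t)) ∪
    pvegRc (pvegYm 𝔓 m t) (I ^ pvxrB 𝔓 t) ((pvxrGam 𝔓 m).pin t) (pvegR 𝔓 m / 10) (pvlmDel c m) (pvegR 𝔓 m / 5) ∪ pvegIM 𝔓 m t

variable {𝔓 : PvxPar τ c}

/-- side of the blocks, no type needed -/
theorem pver_Dl_lo {m : ℕ} (hf : 1000 * pvlmDel c m ≤ 𝔓.num.rho * pvlmH m) : 63 * pvlmDel c m ≤ pvehDl 𝔓 m := by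
  have hδ := pvlm_Del_pos c m
  have hN := pvlm_N_mul_Del c m
  have k2 : (pvlmN c m : ℝ) * (𝔓.num.rho / 32) ≤ ((pvxrNw 𝔓 m : ℤ) : ℝ) := Int.le_ceil _
  have k3 : (pvlmN c m : ℝ) * (𝔓.num.rho / 32) * pvlmDel c m = 𝔓.num.rho * pvlmH m / 32 := by rw [← hN]; ring
  have k4 := mul_le_mul_of_nonneg_right k2 hδ.le
  rw [k3] at k4
  unfold pvehDl
  nlinarith

theorem pver_Dl_8 {m : ℕ} (hf : 1000 * pvlmDel c m ≤ 𝔓.num.rho * pvlmH m) : 8 * pvlmDel c m ≤ pvehDl 𝔓 m := by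
  have := pver_Dl_lo (𝔓 := 𝔓) hf
  have := pvlm_Del_pos c m
  linarith

theorem pver_m_Mi (m : ℕ) (t : τ) : MeasurableSet (pverMi 𝔓 m t) := isClosed_closedBall.measurableSet

/-- **field `m_eY`** -/
theorem pver_m_eY {m : ℕ} (hn : 0 ≤ pvxrNw 𝔓 m) (t : τ) : MeasurableSet (pvereY 𝔓 m t) := pver_m_eY0 pver_m_Mi hn t

theorem pver_Mi_sub (m : ℕ) (t : τ) : pverMi 𝔓 m t ⊆ pvegIM 𝔓 m t :=
  closedBall_subset_closedBall (by have := pvlm_Del_pos c m; linarith)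

/-- (Re) the arms at the tip: the inner mouth lies in the room -/
theorem pver_eY_tip (m : ℕ) (t : τ) : pverMi 𝔓 m t ⊆ pvereY 𝔓 m t := Set.subset_union_right

/-- (Rd) `eY` is bounded, all levels, all types -/
theorem pver_eY_bdd (m : ℕ) (t : τ) : Bornology.IsBounded (pvereY 𝔓 m t) := pver_EY_bdd _ _ _ _ Metric.isBounded_closedBall

/-- **`G` lies in the window `iM ∪ (eK ∪ iK) ∪ (zu + rO)` of the thick link** (engine of record before U4) -/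
theorem pver_G_win {m : ℕ} {t : τ} (hΓ : 𝔓.Γ m = pvxrGam 𝔓 m) :
    pverG 𝔓 m t ⊆ pvegIM 𝔓 m t ∪ (pveheK 𝔓 (pvegIM 𝔓) m t ∪ pvegIK 𝔓 m t) ∪ pvieSh ((pvxrGam 𝔓 m).zu t) (pvehrO 𝔓 m) := by
  rintro w ((hw | hw) | hw)
  · rw [pveh_sh_rO]
    rcases pver_body_sub _ _ _ (pvegIM 𝔓 m t) hw with (h | h) | h
    · exact Or.inl (Or.inr (Or.inl h))
    · exact Or.inr h
    · exact Or.inl (Or.inl h)
  · by_cases hM : w ∈ pvegIM 𝔓 m t
    · exact Or.inl (Or.inl hM)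
    · refine Or.inl (Or.inr (Or.inr ?_))
      unfold pvegIK
      rw [hΓ, pvxr_gam_din, neg_neg]
      exact ⟨hw, hM⟩
  · exact Or.inl (Or.inl hw)

/-- **the blocks of the word of the room, followed by one more straight block, lie in `G`** -/
theorem pver_body3 {m : ℕ} {t : τ} (hρ : 0 < 𝔓.num.rho) (hf : 1000 * pvlmDel c m ≤ 𝔓.num.rho * pvlmH m) (hT : pviwTyOk 𝔓 t) (Z : PvehGeo 𝔓 m t) :
    pvehBody (pvehDl 𝔓 m) ((pvxrGam 𝔓 m).zu t) (pverLy (pvxrB 𝔓 t) ++ [PvtTurn.S]) ⊆ pverG 𝔓 m t := by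
  have J := pvej_geo_at (m := m) hρ hf hT
  rw [pver_ly_append]
  rintro w (h | h)
  · exact Or.inl (Or.inl (Or.inl h))
  · simp only [mem_iUnion, exists_prop, Finset.mem_range, List.length_append, List.length_cons, List.length_nil] at h
    obtain ⟨j, hj, hw⟩ := h
    by_cases hc : j < (pvxrLe (pvxrB 𝔓 t)).length
    · rw [pver_B_append _ _ _ _ hc.le] at hw
      refine Or.inl (Or.inl (Or.inr ?_))
      simp only [mem_iUnion, exists_prop, Finset.mem_range]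
      exact ⟨j, hc, hw⟩
    · rw [Z.zu'] at hw
      exact Or.inl (Or.inr (pver_tail_rc J (not_lt.1 hc) (by omega) hw))

/-- the room lies in `G` -/
theorem pver_eY_G {m : ℕ} {t : τ} (hρ : 0 < 𝔓.num.rho) (hf : 1000 * pvlmDel c m ≤ 𝔓.num.rho * pvlmH m) (hT : pviwTyOk 𝔓 t) (Z : PvehGeo 𝔓 m t) : pvereY 𝔓 m t ⊆ pverG 𝔓 m t := by
  intro w hw
  rcases pver_eY_body _ Z.n0 t hw with h | h
  · exact pver_body3 hρ hf hT Z (pver_body_append _ _ _ _ h)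
  · exact Or.inr (pver_Mi_sub m t h)

/-- **(Rc) COLLAR of `eY`, in `G`**: the closed `s`-neighbourhood of the room, `s ≤ 3δ/100`, lies in `G` -/
theorem pver_eY_collar_G {m : ℕ} {t : τ} (hρ : 0 < 𝔓.num.rho) (hf : 1000 * pvlmDel c m ≤ 𝔓.num.rho * pvlmH m) (hT : pviwTyOk 𝔓 t) (Z : PvehGeo 𝔓 m t)
    {s : ℝ} (hs : s ≤ 3 * pvlmDel c m / 100) {v : ℂ} (hv : v ∈ pvereY 𝔓 m t) : closedBall v s ⊆ pverG 𝔓 m t := by
  intro x hx
  rw [mem_closedBall_iff_norm] at hx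
  by_cases hM : v ∈ pverMi 𝔓 m t
  · refine Or.inr ?_
    unfold pverMi at hM
    unfold pvegIM
    rw [mem_closedBall_iff_norm] at hM ⊢
    have := norm_add_le (x - v) (v - pvegYm 𝔓 m t)
    rw [sub_add_sub_cancel] at this
    linarith
  · exact pver_body3 hρ hf hT Z (pver_eY_collar0 (pver_Dl_8 hf) hs t hv hM hx)

/-- **field `eY_sub`** -/
theorem pver_eY_sub {m : ℕ} {t : τ} (hΓ : 𝔓.Γ m = pvxrGam 𝔓 m) (hρ : 0 < 𝔓.num.rho) (hf : 1000 * pvlmDel c m ≤ 𝔓.num.rho * pvlmH m) (hT : pviwTyOk 𝔓 t) (Z : PvehGeo 𝔓 m t) :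
    pvereY 𝔓 m t ⊆ pvegIM 𝔓 m t ∪ (pveheK 𝔓 (pvegIM 𝔓) m t ∪ pvegIK 𝔓 m t) ∪ pvieSh ((pvxrGam 𝔓 m).zu t) (pvehrO 𝔓 m) :=
  (pver_eY_G hρ hf hT Z).trans (pver_G_win hΓ)

/-- **(Rc) COLLAR of `eY`**: the closed `s`-neighbourhood of the room, `s ≤ 3δ/100` (`3 μ ≤ 3δ/1000`), lies in the window `iM ∪ (eK ∪ iK) ∪ (zu + rO)` -/
theorem pver_eY_collar {m : ℕ} {t : τ} (hΓ : 𝔓.Γ m = pvxrGam 𝔓 m) (hρ : 0 < 𝔓.num.rho) (hf : 1000 * pvlmDel c m ≤ 𝔓.num.rho * pvlmH m) (hT : pviwTyOk 𝔓 t) (Z : PvehGeo 𝔓 m t)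
    {s : ℝ} (hs : s ≤ 3 * pvlmDel c m / 100) {v : ℂ} (hv : v ∈ pvereY 𝔓 m t) :
    closedBall v s ⊆ pvegIM 𝔓 m t ∪ (pveheK 𝔓 (pvegIM 𝔓) m t ∪ pvegIK 𝔓 m t) ∪ pvieSh ((pvxrGam 𝔓 m).zu t) (pvehrO 𝔓 m) :=
  (pver_eY_collar_G hρ hf hT Z hs hv).trans (pver_G_win hΓ)

/-- the closed block of the plug misses the inner mouth -/
theorem pver_plug_off_Mi {m : ℕ} {t : τ} (hρ : 0 < 𝔓.num.rho) (hf : 1000 * pvlmDel c m ≤ 𝔓.num.rho * pvlmH m) (hT : pviwTyOk 𝔓 t) (Z : PvehGeo 𝔓 m t) {v : ℂ}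
    (hv : v ∈ pvehSq ((pvxrGam 𝔓 m).zu t) (pvehDl 𝔓 m / 2)) : v ∉ pverMi 𝔓 m t := by
  have J := pvej_geo_at (m := m) hρ hf hT
  rw [Z.zu'] at hv
  exact fun h => pvej_plug_off J hv (pver_Mi_sub m t h)

/-- **W-7, `eY_front` at the engine of record**: inside the OPEN BLOCK of the reference plug the room of the thick link lies `u/4` in front of the plane of the plug, `u = pverRu 𝔓 m = Δ/20` -/
theorem pver_eY_front_blk {m : ℕ} {t : τ} (hρ : 0 < 𝔓.num.rho) (hf : 1000 * pvlmDel c m ≤ 𝔓.num.rho * pvlmH m) (hT : pviwTyOk 𝔓 t) (Z : PvehGeo 𝔓 m t) {v : ℂ}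
    (hv : v ∈ pvereY 𝔓 m t) (hO : v ∈ pvccSq ((pvxrGam 𝔓 m).zu t) (pvehDl 𝔓 m / 2)) : pverRu 𝔓 m / 4 ≤ (v - (pvxrGam 𝔓 m).zu t).re :=
  pver_eY_front0 Z.n0 t hv hO (pver_plug_off_Mi hρ hf hT Z (pveh_open_sub _ _ hO))

/-- **W-7, `eY_front`**, inside the region of the reference plug -/
theorem pver_eY_front {m : ℕ} {t : τ} (hρ : 0 < 𝔓.num.rho) (hf : 1000 * pvlmDel c m ≤ 𝔓.num.rho * pvlmH m) (hT : pviwTyOk 𝔓 t) (Z : PvehGeo 𝔓 m t) {v : ℂ}
    (hv : v ∈ pvereY 𝔓 m t) (hO : v ∈ pvieSh ((pvxrGam 𝔓 m).zu t) (pvehrO 𝔓 m)) : pverRu 𝔓 m / 4 ≤ (v - (pvxrGam 𝔓 m).zu t).re := by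
  rw [pveh_sh_rO] at hO
  exact pver_eY_front_blk hρ hf hT Z hv (pvcc_sq_mono _ (by have := pveh_Dl_pos Z.n0; linarith) hO)

/-- **cut line of the reference plug** (85): a point of the region of the plug within `s ≤ 3δ/100` of `eY` lies in front of the plane of the plug -/
theorem pver_eY_cut {m : ℕ} {t : τ} (hρ : 0 < 𝔓.num.rho) (hf : 1000 * pvlmDel c m ≤ 𝔓.num.rho * pvlmH m) (hT : pviwTyOk 𝔓 t) (Z : PvehGeo 𝔓 m t)
    {s : ℝ} (hs : s ≤ 3 * pvlmDel c m / 100) {v a : ℂ} (hv : v ∈ pvereY 𝔓 m t) (ha : ‖a - v‖ ≤ s) (hO : a ∈ pvieSh ((pvxrGam 𝔓 m).zu t) (pvehrO 𝔓 m)) : ((pvxrGam 𝔓 m).zu t).re < a.re := by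
  have hδ := pvlm_Del_pos c m
  have h8 := pver_Dl_8 (𝔓 := 𝔓) hf
  rw [pveh_sh_rO] at hO
  have hO' : pvccN (a - (pvxrGam 𝔓 m).zu t) < pvehDl 𝔓 m / 4 := hO
  have h1 : pvccN (v - (pvxrGam 𝔓 m).zu t) < pvehDl 𝔓 m / 2 := by
    have h2 := pvccN_add_le (v - a) (a - (pvxrGam 𝔓 m).zu t)
    rw [sub_add_sub_cancel] at h2
    have h3 : pvccN (v - a) ≤ s := by
      rw [← pvccN_neg, neg_sub]
      exact (pvej_N_le_norm _).trans ha
    linarith
  have h4 := pver_eY_front_blk hρ hf hT Z hv h1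
  have h5 := (abs_le.1 ((abs_re_le_norm (a - v)).trans ha)).1
  rw [sub_re] at h4 h5
  unfold pverRu at h4
  linarith

/-- (Re) the near side of the reference plug lies in `eY` -/
theorem pver_eY_plug {m : ℕ} (hn : 0 ≤ pvxrNw 𝔓 m) (t : τ) {w : ℂ} (h1 : pverRu 𝔓 m / 4 ≤ (w - (pvxrGam 𝔓 m).zu t).re) (h2 : (w - (pvxrGam 𝔓 m).zu t).re ≤ 10 * pverRu 𝔓 m)
    (h3 : |(w - (pvxrGam 𝔓 m).zu t).im| ≤ 2 * pverRu 𝔓 m) : w ∈ pvereY 𝔓 m t := pver_eY_plug0 _ hn t h1 h2 h3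

end room

/-- **SEAM WITH THE ROOM OF RECORD OF L2** (`rY := pvnuRY 𝔓 m = pvehRY (2 δ / 5) Δ` of 84, R27 of 234): the two-piece room at the cut `u ≥ Δ / 16` lies in the closed rectangle of `Exit/ParEngR` which starts at `r / 4`.
At the record: `r = δ / 40` (`16 r = 2 δ / 5`), `u := Δ / 16`;   for 262 (`KE := pverRY (8 s) u₁ (2 M s)`, field `hKE` of `Pvr2Fit`) -/
theorem pver_RY_sub_old {r u Δ : ℝ} (hr : 0 ≤ r) (hu : Δ / 16 ≤ u) (hΔ : 35 * r ≤ 2 * Δ) : pverRY r u Δ ⊆ pvehRY (16 * r) Δ := by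
  rintro w (⟨h1, h2, h3, h4⟩ | ⟨h1, h2, h3, h4⟩)
  · exact ⟨by linarith, by linarith, by linarith, by linarith⟩
  · exact ⟨by linarith, by linarith, h3, h4⟩

theorem pver_eqns_cite : True := by
  have := @pverRY.eq_1; have := @pverEY.eq_1; have := @pverLy.eq_1; have := @pverRd.eq_1; have := @pverRu.eq_1; have := @pverrY.eq_1; have := @pvereY0.eq_1; have := @pverMi.eq_1; have := @pvereY.eq_1; have := @pverG.eq_1
  trivial

end Claimed.Agent.R289
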