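-- KEEP
import Claimed.Agent.R289.Exit.EngRec
import Claimed.Agent.R289.Exit.ParEngF
import Claimed.Agent.R289.Exit.RoomRE
import Claimed.Agent.R289.Tr.ThickRec
import Claimed.Agent.R289.Tr.InstL
import Claimed.Agent.R289.Tr.ThickI

/-!
# Row 289 (S0537), THE WALL, ROAD E, field `thick`, (K4) = `recog`, file Exit/ThickS : (S) = THE SET LINES OF THE CLOSING (`PvudDes` of 288, `PvuyS` of 290) AT THE REGIONS OF RECORD      (helper55, order of 7, board v3; prefix `pvmd_`, `Pvmd`, `pvmd`)      0 sorry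

WHAT.   `pvud_main` (288, `Tr/ThickRec`), `pvtk4_core` (118, `Tr/ThickCl`), `pvuy_cl` (290, `Tr/ThickI`) close the ring `u =e=> t =f=> u` (`u` = the reference plug, a DOOR; `t` = the marked pin) from deterministic records on numbers and regions.
THIS FILE PRODUCES THESE RECORDS at `z_u = pvieZu`, plug `pvkdP r_u`, rooms `z + eY`, `z + fY`, cut `(pvilLe ..).Mk`, own-level box of `t`, thresholds `m h`, `(m - 1) h`, any mesh `μ ≤ 4 pvilMu`.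
ADV (55 12:40Z, 290 12:30Z): with the masks `Mp(t)`, `Mm(t)` of the menu as SETS the line `sep` is FALSE (arbitrary unions of cells).      THE MASKS OF RECORD ARE THE REDUCED ONES:
  **`pvmdMp 𝔓 m z t`** := placed `Mp(t)` ∩ closed own-level box ∩ `{ρ h / 2 < |· - y⁻|}`,      **`pvmdMm`** := mirror (`Mm(t)`, `y⁺`);      every `Mp' ⊆ pvmdMp`, `Mm' ⊆ pvmdMm` is allowed (`pvuyMp pvuyMm` of 290 at any `r1 ≥ ρ h / 2`: `pvmd_uyMp_sub`, `pvmd_uyMm_sub`).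
v4: NOTHING HERE UNFOLDS A FIELD OF THE ENGINE.   What may still move (patch (Rc) of the rooms, (A) `fK fY`, U4 `rO := s O₀`) enters through HYPOTHESES: `eY ⊆` room of 166 / 124, `L'.Yin ⊆ z +` room of 182, `rO ⊇` open square of half side `s`, unit `r_u`.
* sec. 1  four gaps (`pvmd_gap_sq _ball _re _N`), the rooms of the plug of record (`pvmd_mem_Zp`, `pvmd_mem_Zm`, `pvmd_Zp_N`, `pvmd_Zm_N`)
* sec. 2  **`PvmdGeo R δ Δ κ ϱ Yp Ym zu eY fY`** = the ten region lines which are used (relative to the centre of the pin; antitone in the rooms: `PvmdGeo.mono`), `pvmd_cut`, **`pvmd_des`** : `PvmdGeo → PvudDes`,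
          **`pvmd_or`** : SEP in OR-form against the vertex mask WITH THE TUBE of the door, `pvmd_des3` : `PvudDes → Pvtk3Des`      (all regions and numbers are arguments)
* sec. 3  **`pvmdE`** := room of v2 (`pveheY ∪ pvegIK`) ∪ room of R22 (`pvereY` of 166, `Exit/RoomRE`), **`pvmd_sepG`** (`pveffY0` of 182 is `Δ / 64` away from the whole closed set `pverG` of 166),
          **`pvmd_geo`** : `PvmdGeo` at `pvmdE`, `pveffY0`, margin of W-7 `Δ / 80`, from `PveaPar`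
* sec. 4  `pvmdMp`, `pvmdMm`, **`pvmd_core`** (model, everything which may move is an argument), `pvmdJ`, `pvmd_Mk_le`, **`pvmd_S_eng`** (`PvuyS`, any engine), `pvmd_ru`, `pvmd_rO_sub`,
          **`pvmd_S_rec`**, **`pvmd_des_rec`** (AT THE PARAMETERS OF RECORD, all numbers discharged, three hypotheses `hrp hrO heY` on the engine: SIGNATURES OF v4, FROZEN),
          **`pvmd_S_rec2`**, **`pvmd_des_rec2`** (v5, FOR THE ENGINE v2 OF T22: unit of `u` in `[Δ/20, Δ/12]`, `hrO` = the line `rp_win` of `PvieEng.Wf`, `eY ⊆ pvmdE`, room of the return `⊆ pveffY0`)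
-/

set_option autoImplicit false

namespace Claimed.Agent.R289

open Set Metric Complex

/-! ## 1. gaps -/

/-- outside the square with its collar / inside the square -/
theorem pvmd_gap_sq {v b : ℂ} {R δ : ℝ} (hv : R + δ < pvccN v) (hb : pvccN b ≤ R) : δ < ‖v - b‖ := by
  have h1 := pvccN_add_le (v - b) b
  rw [sub_add_cancel] at h1
  have h2 := pvej_N_le_norm (v - b)
  linarith

/-- inside a ball / off a larger ball -/
theorem pvmd_gap_ball {v b Y : ℂ} {s t : ℝ} (hv : ‖v - Y‖ ≤ s) (hb : t < ‖b - Y‖) : t - s < ‖v - b‖ := by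
  have h1 := norm_add_le (b - v) (v - Y)
  rw [sub_add_sub_cancel, norm_sub_rev b v] at h1
  linarith

theorem pvmd_gap_re {a c : ℂ} {x : ℝ} (h : x ≤ (a - c).re) : x ≤ ‖a - c‖ := h.trans ((le_abs_self _).trans (abs_re_le_norm _))

/-- off an open square / inside a smaller closed one, same centre -/
theorem pvmd_gap_N {a c w : ℂ} {s t : ℝ} (ha : t ≤ pvccN (a - w)) (hc : pvccN (c - w) ≤ s) : t - s ≤ ‖a - c‖ := by
  have h1 := pvccN_add_le (a - c) (c - w)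
  rw [sub_add_sub_cancel] at h1
  have h2 := pvej_N_le_norm (a - c)
  linarith

theorem pvmd_mem_Zp {Z c : ℂ} {r : ℝ} (h : c ∈ pvkdAt Z 1 (pvkdP r).Zp) : r / 2 ≤ (c - Z).re ∧ (c - Z).re ≤ 2 * r ∧ -(r / 2) ≤ (c - Z).im ∧ (c - Z).im ≤ r / 2 := by
  obtain ⟨w, hw, rfl⟩ := h
  have e : pvthSim Z 1 w - Z = w := by unfold pvthSim; ring
  rw [e]
  exact hw

theorem pvmd_mem_Zm {Z c : ℂ} {r : ℝ} (h : c ∈ pvkdAt Z 1 (pvkdP r).Zm) : -(2 * r) ≤ (c - Z).re ∧ (c - Z).re ≤ -(r / 2) ∧ -(r / 2) ≤ (c - Z).im ∧ (c - Z).im ≤ r / 2 := by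
  obtain ⟨w, hw, rfl⟩ := h
  have e : pvthSim Z 1 w - Z = w := by unfold pvthSim; ring
  rw [e]
  exact hw

theorem pvmd_Zp_N {Z c : ℂ} {r : ℝ} (r0 : 0 ≤ r) (h : c ∈ pvkdAt Z 1 (pvkdP r).Zp) : pvccN (c - Z) ≤ 2 * r := by
  obtain ⟨h1, h2, h3, h4⟩ := pvmd_mem_Zp h
  exact max_le (abs_le.2 ⟨by linarith, h2⟩) (abs_le.2 ⟨by linarith, by linarith⟩)

theorem pvmd_Zm_N {Z c : ℂ} {r : ℝ} (r0 : 0 ≤ r) (h : c ∈ pvkdAt Z 1 (pvkdP r).Zm) : pvccN (c - Z) ≤ 2 * r := by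
  obtain ⟨h1, h2, h3, h4⟩ := pvmd_mem_Zm h
  exact max_le (abs_le.2 ⟨h1, by linarith⟩) (abs_le.2 ⟨by linarith, by linarith⟩)

/-! ## 2. the region lines, the design record -/

/-- **THE REGION LINES OF (S)**, relative to the centre of the pin `t`: `R` = half side of the own-level box, `δ` = its collar, `Δ` = side of the block of the reference plug `u` (the lines on `u` are read in the open square of half side `Δ / 4`), `κ` = margin of W-7,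
`ϱ = ρ h`, `Yp Ym` = centres of the two tip cells (mouths = closed balls of radius `5 ϱ / 16`), `zu` = centre of `u`, `eY` / `fY` = rooms of the thick link / of the thick return -/
structure PvmdGeo (R δ Δ κ ϱ : ℝ) (Yp Ym zu : ℂ) (eY fY : Set ℂ) : Prop where
  del0 : 0 < δ
  del_le : δ ≤ Δ
  /-- a point of the room of `e` lies in the entrance mouth or off the box with its collar -/
  e_sub : ∀ v ∈ eY, ‖v - Ym‖ ≤ 5 * ϱ / 16 ∨ R + δ < pvccN v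
  /-- a point of the room of `f` lies in the exit mouth or off the box with its collar -/
  f_sub : ∀ v ∈ fY, ‖v - Yp‖ ≤ 5 * ϱ / 16 ∨ R + δ < pvccN v
  ef : ∀ w ∈ fY, ∀ v ∈ eY, δ ≤ ‖w - v‖
  /-- W-7 -/
  e_front : ∀ v ∈ eY, pvccN (v - zu) < Δ / 4 → κ ≤ (v - zu).re
  f_back : ∀ v ∈ fY, pvccN (v - zu) < Δ / 4 → (v - zu).re ≤ -κ
  /-- the region of `u` is off the box with its collar -/
  u_off : ∀ v : ℂ, pvccN (v - zu) < Δ / 4 → R + δ < pvccN v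
  nd_p : R - ϱ / 10 ≤ pvccN Yp
  nd_m : R - ϱ / 10 ≤ pvccN Ym

/-- `μ`-deep behind the cut of the reference plug, sup norm form -/
theorem pvmd_cut {Z c : ℂ} {s μ : ℝ} {Mk : Set ℂ} (hMk : pvccSq Z s \ pvilHp Z 1 ⊆ Mkᶜ) (h1 : pvccN (c - Z) < s - μ) (h2 : (c - Z).re < -μ) : closedBall c μ ⊆ Mkᶜ := by
  intro x hx
  rw [mem_closedBall, dist_eq_norm] at hx
  have h3 : x - Z = (x - c) + (c - Z) := by ring
  refine hMk ⟨?_, ?_⟩
  · show pvccN (x - Z) < s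
    have h4 := pvej_N_le_norm (x - c)
    have h5 := pvccN_add_le (x - c) (c - Z)
    rw [← h3] at h5
    linarith
  · show ¬ (0 ≤ ((x - Z) * (starRingEnd ℂ) 1).re)
    rw [map_one, mul_one, h3, add_re, not_le]
    have h4 := (le_abs_self _).trans (abs_re_le_norm (x - c))
    linarith

/-- **(S): THE DESIGN RECORD OF 288 FROM THE REGION LINES.**      `r` = ANY unit of the reference plug, `Mk` = ANY cut whose complement contains the west half of the open square of half side `s`, `2 r + 4 μ ≤ s ≤ Δ / 4`;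
`Mp'`, `Mm'` = any vertex masks inside the closed own-level box, `ϱ / 2` off the OTHER tip, `3 μ` apart -/
theorem pvmd_des {R δ Δ κ ϱ : ℝ} {Yp Ym zu : ℂ} {eY fY : Set ℂ} (G : PvmdGeo R δ Δ κ ϱ Yp Ym zu eY fY) (z : ℂ) {h M μ r s : ℝ} {ty : PvwTy} {Mp' Mm' Mk : Set ℂ}
    (μ0 : 0 < μ) (μδ : 100 * μ ≤ δ) (μκ : μ < κ) (μϱ : 16 * μ ≤ ϱ) (μh : μ ≤ h) (hr : 6 * μ ≤ r) (hrs : 2 * r + 4 * μ ≤ s) (hs : s ≤ Δ / 4) (hMk : pvccSq (z + zu) s \ pvilHp (z + zu) 1 ⊆ Mkᶜ)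
    (hMa : (M + 1) * h < ty.a * h) (hbR : ty.b * h + ϱ / 2 ≤ R)
    (p_box : ∀ a ∈ Mp', pvccN (a - z) ≤ R) (p_far : ∀ a ∈ Mp', ϱ / 2 < ‖a - z - Ym‖) (m_box : ∀ a ∈ Mm', pvccN (a - z) ≤ R) (m_far : ∀ a ∈ Mm', ϱ / 2 < ‖a - z - Yp‖)
    (pm : ∀ a ∈ Mm', ∀ b ∈ Mp', 3 * μ ≤ ‖a - b‖) :
    PvudDes (z + zu) (pvkdP r).b (pvkdAt (z + zu) 1 (pvkdP r).Zm) (pvkdAt (z + zu) 1 (pvkdP r).Zp) h z ty (pvwSq z R) Mp' Mm' (M * h) ((M - 1) * h) (pvieSh z eY) (pvieSh z fY) Mk μ := by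
  have hδ := G.del0
  have hΔ := G.del_le
  have e1 : ∀ a : ℂ, a - (z + zu) = a - z - zu := fun a => by ring
  have e2 : ∀ a c : ℂ, a - c = (a - z) - (c - z) := fun a c => by ring
  have hb : (pvkdP r).b = 2 * r := rfl
  -- a point of the region of `u` against a point of the box
  have uB : ∀ a c : ℂ, pvccN (a - (z + zu)) < Δ / 4 → pvccN (c - z) ≤ R → δ < ‖a - c‖ := fun a c ha hc => by
    rw [e2 a c]
    exact pvmd_gap_sq (G.u_off _ (by rw [← e1]; exact ha)) hc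
  have zpN : ∀ a ∈ pvkdAt (z + zu) 1 (pvkdP r).Zp, pvccN (a - (z + zu)) ≤ 2 * r := fun a ha => pvmd_Zp_N (by linarith) ha
  have zmN : ∀ a ∈ pvkdAt (z + zu) 1 (pvkdP r).Zm, pvccN (a - (z + zu)) ≤ 2 * r := fun a ha => pvmd_Zm_N (by linarith) ha
  refine ⟨μ0, ?_, ?_, by linarith, by linarith, ?_, ?_, ?_, ?_⟩
  · -- sep
    rintro a ((ha | ha) | ha) c ((hc | hc) | hc)
    · exact (by linarith : 3 * μ ≤ δ).trans (uB a c (lt_of_le_of_lt (zpN a ha) (by linarith)) (p_box c hc)).le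
    · rw [pveh_mem_sh] at hc
      rcases lt_or_ge (pvccN (c - (z + zu))) (Δ / 4) with h1 | h1
      · have h2 := G.f_back _ hc (by rw [← e1]; exact h1)
        have h3 := (pvmd_mem_Zp ha).1
        refine pvmd_gap_re ?_
        have : (a - c).re = (a - (z + zu)).re - (c - z - zu).re := by simp only [sub_re, add_re]; ring
        rw [this]
        linarith
      · have := pvmd_gap_N h1 (zpN a ha)
        rw [norm_sub_rev] at this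
        linarith
    · have h3 := (pvmd_mem_Zp ha).1
      have h4 := (pvmd_mem_Zm hc).2.1
      refine pvmd_gap_re ?_
      have : (a - c).re = (a - (z + zu)).re - (c - (z + zu)).re := by simp only [sub_re, add_re]; ring
      rw [this]
      linarith
    · rw [pveh_mem_sh] at ha
      rw [e2 a c]
      rcases G.e_sub _ ha with h1 | h1
      · have := pvmd_gap_ball h1 (p_far c hc)
        linarith
      · have := pvmd_gap_sq h1 (p_box c hc)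
        linarith
    · rw [pveh_mem_sh] at ha hc
      have := G.ef _ hc _ ha
      rw [e2 a c, norm_sub_rev]
      linarith
    · rw [pveh_mem_sh] at ha
      rcases lt_or_ge (pvccN (a - (z + zu))) (Δ / 4) with h1 | h1
      · have h2 := G.e_front _ ha (by rw [← e1]; exact h1)
        have h4 := (pvmd_mem_Zm hc).2.1
        refine pvmd_gap_re ?_
        have : (a - c).re = (a - z - zu).re - (c - (z + zu)).re := by simp only [sub_re, add_re]; ring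
        rw [this]
        linarith
      · have := pvmd_gap_N h1 (zmN c hc)
        linarith
    · exact pm a ha c hc
    · rw [pveh_mem_sh] at hc
      rw [e2 a c, norm_sub_rev]
      rcases G.f_sub _ hc with h1 | h1
      · have := pvmd_gap_ball h1 (m_far a ha)
        linarith
      · have := pvmd_gap_sq h1 (m_box a ha)
        linarith
    · have := uB c a (lt_of_le_of_lt (zmN c hc) (by linarith)) (m_box a ha)
      rw [norm_sub_rev] at this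
      linarith
  · -- west
    rw [hb]
    rintro c ((hc | hc) | hc) hn
    · exfalso
      have h1 : pvccN (c - (z + zu)) < Δ / 4 := lt_of_le_of_lt (pvej_N_le_norm _) (by linarith)
      have h2 := uB c c h1 (p_box c hc)
      rw [sub_self, norm_zero] at h2
      linarith
    · rw [pveh_mem_sh] at hc
      have h1 : pvccN (c - (z + zu)) < s - μ := lt_of_le_of_lt (pvej_N_le_norm _) (by linarith)
      have h2 := G.f_back _ hc (by rw [← e1]; linarith)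
      exact pvmd_cut hMk h1 (by rw [e1]; linarith)
    · exact pvmd_cut hMk (by have := zmN c hc; linarith) (by have := (pvmd_mem_Zm hc).2.1; linarith)
  · -- box'
    rw [hb]
    intro p hp
    rw [pvxo_mem_sq] at hp
    by_contra hc
    rw [not_le] at hc
    have h1 : pvccN (p - (z + zu)) < Δ / 4 := lt_of_le_of_lt (pvej_N_le_norm _) (by linarith)
    have h2 := uB p p h1 hp
    rw [sub_self, norm_zero] at h2
    linarith
  · -- ye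
    intro p hp
    rw [pveh_mem_sh] at hp
    rcases G.e_sub _ hp with h1 | h1
    · have h2 := norm_add_le (Ym - (p - z)) (p - z)
      rw [sub_add_cancel, norm_sub_rev] at h2
      have h3 := pvej_N_le_norm Ym
      have := G.nd_m
      linarith
    · have := pvej_N_le_norm (p - z)
      linarith
  · -- yc
    intro p hp
    rw [pveh_mem_sh] at hp
    rcases G.f_sub _ hp with h1 | h1
    · have h2 := norm_add_le (Yp - (p - z)) (p - z)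
      rw [sub_add_cancel, norm_sub_rev] at h2
      have h3 := pvej_N_le_norm Yp
      have := G.nd_p
      linarith
    · have := pvej_N_le_norm (p - z)
      linarith
  · -- disc
    rw [hb]
    intro p hp
    have h1 : pvccN (p - (z + zu)) < Δ / 4 := lt_of_le_of_lt (pvej_N_le_norm _) (by linarith)
    have h2 := G.u_off (p - z) (by rw [← e1]; exact h1)
    have := pvej_N_le_norm (p - z)
    linarith

theorem pvmd_Tb_N {Z c : ℂ} {r : ℝ} (r0 : 0 ≤ r) (h : c ∈ pvkdAt Z 1 (pvkdP r).Tb) : pvccN (c - Z) ≤ 2 * r := by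
  obtain ⟨w, ⟨h1, h2, h3, h4⟩, rfl⟩ := h
  have e : pvthSim Z 1 w - Z = w := by unfold pvthSim; ring
  rw [e]
  exact max_le (abs_le.2 ⟨h1, h2⟩) (abs_le.2 ⟨by linarith, by linarith⟩)

/-- **SEP IN OR-FORM, AGAINST THE VERTEX MASK WITH THE TUBE OF THE DOOR** -/
theorem pvmd_or {R δ Δ κ ϱ : ℝ} {Yp Ym zu : ℂ} {eY fY : Set ℂ} (G : PvmdGeo R δ Δ κ ϱ Yp Ym zu eY fY) (z : ℂ) {h M μ r s : ℝ} {ty : PvwTy} {Mp' Mm' Mk : Set ℂ}
    (μ0 : 0 < μ) (μδ : 100 * μ ≤ δ) (μκ : μ < κ) (μϱ : 16 * μ ≤ ϱ) (μh : μ ≤ h) (hr : 6 * μ ≤ r) (hrs : 2 * r + 4 * μ ≤ s) (hs : s ≤ Δ / 4) (hMk : pvccSq (z + zu) s \ pvilHp (z + zu) 1 ⊆ Mkᶜ)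
    (hMa : (M + 1) * h < ty.a * h) (hbR : ty.b * h + ϱ / 2 ≤ R)
    (p_box : ∀ a ∈ Mp', pvccN (a - z) ≤ R) (p_far : ∀ a ∈ Mp', ϱ / 2 < ‖a - z - Ym‖) (m_box : ∀ a ∈ Mm', pvccN (a - z) ≤ R) (m_far : ∀ a ∈ Mm', ϱ / 2 < ‖a - z - Yp‖)
    (pm : ∀ a ∈ Mm', ∀ b ∈ Mp', 3 * μ ≤ ‖a - b‖) :
    ∀ b ∈ Mp' ∪ pvieSh z fY ∪ pvkdAt (z + zu) 1 (pvkdP r).Zm,
      (∀ a ∈ pvkdAt (z + zu) 1 (pvkdP r).Tb ∪ (pvkdAt (z + zu) 1 (pvkdP r).Zp ∪ pvieSh z eY ∪ Mm'), 3 * μ ≤ ‖a - b‖) ∨ closedBall b μ ⊆ Mkᶜ := by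
  have D := pvmd_des G z μ0 μδ μκ μϱ μh hr hrs hs hMk hMa hbR p_box p_far m_box m_far pm
  have hδ := G.del0
  have hΔ := G.del_le
  have e1 : ∀ a : ℂ, a - (z + zu) = a - z - zu := fun a => by ring
  have tbN : ∀ a ∈ pvkdAt (z + zu) 1 (pvkdP r).Tb, pvccN (a - (z + zu)) ≤ 2 * r := fun a ha => pvmd_Tb_N (by linarith) ha
  rintro b ((hb | hb) | hb)
  · left
    rintro a (ha | ha)
    · have h1 : R + δ < pvccN (a - z) := G.u_off _ (by rw [← e1]; exact lt_of_le_of_lt (tbN a ha) (by linarith))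
      have h2 := pvmd_gap_sq h1 (p_box b hb)
      rw [sub_sub_sub_cancel_right] at h2
      linarith
    · exact D.sep a ha b (Or.inl (Or.inl hb))
  · rcases lt_or_ge (pvccN (b - (z + zu))) (s - μ) with h1 | h1
    · right
      have hb' := hb
      rw [pveh_mem_sh] at hb'
      have h2 := G.f_back _ hb' (by rw [← e1]; linarith)
      exact pvmd_cut hMk h1 (by rw [e1]; linarith)
    · left
      rintro a (ha | ha)
      · have := pvmd_gap_N h1 (tbN a ha)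
        rw [norm_sub_rev] at this
        linarith
      · exact D.sep a ha b (Or.inl (Or.inr hb))
  · right
    have h1 := pvmd_Zm_N (r := r) (by linarith) hb
    have h2 := (pvmd_mem_Zm hb).2.1
    exact pvmd_cut hMk (by linarith) (by linarith)

/-- the region lines survive any shrinking of the two rooms -/
theorem PvmdGeo.mono {R δ Δ κ ϱ : ℝ} {Yp Ym zu : ℂ} {eY fY eY' fY' : Set ℂ} (G : PvmdGeo R δ Δ κ ϱ Yp Ym zu eY fY) (he : eY' ⊆ eY) (hf : fY' ⊆ fY) : PvmdGeo R δ Δ κ ϱ Yp Ym zu eY' fY' :=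
  ⟨G.del0, G.del_le, fun v hv => G.e_sub v (he hv), fun v hv => G.f_sub v (hf hv), fun w hw v hv => G.ef w (hf hw) v (he hv), fun v hv => G.e_front v (he hv), fun v hv => G.f_back v (hf hv),
    G.u_off, G.nd_p, G.nd_m⟩

/-- the ring design of 118 from the design record of 288 -/
theorem pvmd_des3 {z : ℂ} {b : ℝ} {Zm Zp : Set ℂ} {h' : ℝ} {z' : ℂ} {τ' : PvwTy} {Bx' Mp' Mm' : Set ℂ} {r' r0' : ℝ} {Ye Yc Mk : Set ℂ} {μ : ℝ}
    (D : PvudDes z b Zm Zp h' z' τ' Bx' Mp' Mm' r' r0' Ye Yc Mk μ) : Pvtk3Des (ball z b) Zm Zp h' z' τ' Bx' Mp' Mm' Ye Yc where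
  ko := fun p hp => D.disc p (by rwa [mem_ball, dist_eq_norm] at hp)
  ye := D.ye
  yc := D.yc
  bx := fun p hp h => by
    rw [mem_ball, dist_eq_norm] at h
    exact absurd (D.box' p hp) (not_le.2 h)
  sep := fun a ha c hc e => by
    have := D.sep a ha c hc
    rw [e, sub_self, norm_zero] at this
    linarith [D.mu0]

theorem pvmd_sh_pre (z : ℂ) (Y : Set ℂ) : pvieSh z ((fun w : ℂ => z + w) ⁻¹' Y) = Y :=
  Set.image_preimage_eq Y fun w => ⟨w - z, by ring⟩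

/-! ## 3. the region lines at the regions of record -/

section model

variable {τ : Type} {c : ℝ} {𝔓 : PvxPar τ c} {m0 m : ℕ} {t : τ}

theorem pvmd_not_box {v : ℂ} (h : v ∉ pviwBox 𝔓 m t) : pviwRad 𝔓 m t + pvlmDel c m < pvccN v := by
  unfold pviwBox at h
  rw [pvxo_mem_sq, sub_zero, not_le] at h
  exact h

theorem pvmd_mem_rO {v w : ℂ} : v ∈ pvieSh w (pvehrO 𝔓 m) ↔ pvccN (v - w) < pvehDl 𝔓 m / 4 := by
  rw [pveh_sh_rO]
  rfl

/-- the centre of a tip cell sits on the boundary of the own-level box -/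
theorem pvmd_nd {y : ℂ} (h : |pvccN y - (2 * (𝔓.ty t).b2 + (𝔓.ty t).k * 𝔓.num.rho1)| ≤ 𝔓.num.rho / 10) : pviwRad 𝔓 m t - pvegR 𝔓 m / 10 ≤ pvccN ((pvlmH m : ℂ) * y) := by
  have hh := pvlm_H_pos m
  rw [pvccN_real_mul hh.le]
  unfold pviwRad pvwRad pvegR
  have h1 := (abs_le.1 h).1
  nlinarith

/-- **THE LARGEST ROOM OF THE THICK LINK FOR WHICH (S) IS PROVED**: the room of v2 (166, with the funnel of 124) ∪ the room of record of R22 (166, `Exit/RoomRE`: it starts `Δ / 80` in front of the plane of the plug) -/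
noncomputable def pvmdE (𝔓 : PvxPar τ c) (m : ℕ) (t : τ) : Set ℂ := pveheY 𝔓 (pvegIM 𝔓) m t ∪ pvegIK 𝔓 m t ∪ pvereY 𝔓 m t

/-- **the outer room of the thick return (182) is `Δ / 64` away from THE WHOLE CLOSED SET `pverG` OF THE THICK LINK** (166)      [proof of `pvef_sep0` of 182, which reads of `v` nothing but `v ∈ pverG`] -/
theorem pvmd_sepG (h : PvefNdg 𝔓 m t) : ∀ w ∈ pveffY0 𝔓 m t, ∀ v ∈ pverG 𝔓 m t, pvehDl 𝔓 m / 64 ≤ ‖w - v‖ := by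
  have hn := pvef_n0 h
  have hΔ := pveh_Dl_pos hn
  have hδ := pvlm_Del_pos c m
  have hfine := pvef_q296_fine h
  obtain ⟨-, hD2, -⟩ := pvef_Dl_bounds h
  have hYY := pvef_q296_YY (m := m) h.far
  intro w hw v hv
  have hv' : v ∈ pvehBody (pvehDl 𝔓 m) ((pvxrGam 𝔓 m).zu t) (pvxrLe (pvxrB 𝔓 t)) ∨
      v ∈ pvegIM 𝔓 m t ∪ pvegRc (pvegYm 𝔓 m t) (I ^ pvxrB 𝔓 t) ((pvxrGam 𝔓 m).pin t) (pvegR 𝔓 m / 10) (pvlmDel c m) (pvegR 𝔓 m / 5) := by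
    rcases hv with (hv | hv) | hv
    · exact Or.inl hv
    · exact Or.inr (Or.inr hv)
    · exact Or.inr (Or.inl hv)
  have hvi : v ∈ pvegIM 𝔓 m t ∪ pvegRc (pvegYm 𝔓 m t) (I ^ pvxrB 𝔓 t) ((pvxrGam 𝔓 m).pin t) (pvegR 𝔓 m / 10) (pvlmDel c m) (pvegR 𝔓 m / 5) → ‖v - pvegYm 𝔓 m t‖ ≤ pvegR 𝔓 m / 2 := by
    rintro (h1 | h1)
    · have := mem_closedBall_iff_norm.1 h1
      linarith
    · exact mem_closedBall_iff_norm.1 (pvef_q296_Rc_ball h h1)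
  have near : ‖w - pvegYp 𝔓 m t‖ ≤ pvegR 𝔓 m / 2 → pvehDl 𝔓 m / 64 ≤ ‖w - v‖ := by
    intro hwY
    rcases hv' with h1 | h1
    · have h2 := pvef_e_far h (Or.inr h1)
      have h3 : ‖v - pvegYp 𝔓 m t‖ ≤ ‖w - v‖ + ‖w - pvegYp 𝔓 m t‖ := by
        have := norm_sub_le (w - pvegYp 𝔓 m t) (w - v)
        rw [show w - pvegYp 𝔓 m t - (w - v) = v - pvegYp 𝔓 m t by ring] at this
        linarith
      linarith
    · have h2 := hvi h1
      have h3 : ‖pvegYp 𝔓 m t - pvegYm 𝔓 m t‖ ≤ ‖w - pvegYp 𝔓 m t‖ + ‖w - v‖ + ‖v - pvegYm 𝔓 m t‖ := by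
        have a1 := norm_add_le (pvegYp 𝔓 m t - w) (w - pvegYm 𝔓 m t)
        have a2 := norm_add_le (w - v) (v - pvegYm 𝔓 m t)
        rw [show pvegYp 𝔓 m t - w + (w - pvegYm 𝔓 m t) = pvegYp 𝔓 m t - pvegYm 𝔓 m t by ring, norm_sub_rev (pvegYp 𝔓 m t) w] at a1
        rw [show w - v + (v - pvegYm 𝔓 m t) = w - pvegYm 𝔓 m t by ring] at a2
        linarith
      linarith
  have blk : w ∈ pvefBlocks (pvehDl 𝔓 m) (pvefZ 𝔓 m t) (pvefD 𝔓 m t) (pvefW 𝔓 m t) ∪ pvefWest (pvehDl 𝔓 m) ((pvxrGam 𝔓 m).zu t) →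
      (w ∈ pvefWest (pvehDl 𝔓 m) ((pvxrGam 𝔓 m).zu t) → w.re ≤ ((pvxrGam 𝔓 m).zu t).re - pvehDl 𝔓 m / 64) → pvehDl 𝔓 m / 64 ≤ ‖w - v‖ := by
    intro hwB hwW
    rcases hv' with h1 | h1
    · rcases pvef_blocks_e h hwB h1 with h2 | ⟨h2, h3⟩
      · have := pvef_q296_N_le (w - v)
        linarith
      · have h4 := hwW h2
        have h5 : |(w - v).re| ≤ ‖w - v‖ := Complex.abs_re_le_norm _
        rw [sub_re] at h5
        have := neg_abs_le (w.re - v.re)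
        linarith
    · have hwB' : w ∈ pvefBlocks (pvehDl 𝔓 m) (pvefZ 𝔓 m t) (pvefD 𝔓 m t) (pvefW 𝔓 m t) ∪ pvehSq ((pvxrGam 𝔓 m).zu t) (pvehDl 𝔓 m / 2) :=
        hwB.imp id fun h => h.1
      have h2 := pvef_blocks_i h hwB' h1
      have := pvef_q296_N_le (w - v)
      linarith
  rcases hw with ((hw | hw) | hw) | hw
  · exact near (mem_closedBall_iff_norm.1 (pvef_F_ball h hw))
  · have hwB := pvef_q296_lanes_blocks hn t hw
    refine blk (Or.inl hwB) fun hW => ?_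
    rcases pvef_q296_block_u h hwB with h1 | h1
    · have := h1 w hW.1
      rw [sub_self] at this
      simp only [pvccN, zero_re, zero_im, abs_zero, max_self] at this
      linarith
    · linarith
  · exact blk (Or.inr (pvef_WL_sub hΔ _ hw)) fun _ => hw.2.1
  · refine near ?_
    have := mem_closedBall_iff_norm.1 hw
    linarith

/-- **THE REGION LINES OF (S) AT THE REGIONS OF RECORD**: room `pvmdE` (v2 of 166 / 124 ∪ room of R22 of 166), OUTER room `pveffY0` of 182 (`⊇ pveffY`), margin of W-7 `Δ / 80` -/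
theorem pvmd_geo (J : PveaIn) (H : PveaPar 𝔓 m0) (hm : m0 ≤ m) (hT : pviwTyOk 𝔓 t) :
    PvmdGeo (pviwRad 𝔓 m t) (pvlmDel c m) (pvehDl 𝔓 m) (pvehDl 𝔓 m / 80) (pvegR 𝔓 m) (pvegYp 𝔓 m t) (pvegYm 𝔓 m t) ((pvxrGam 𝔓 m).zu t) (pvmdE 𝔓 m t) (pveffY0 𝔓 m t) := by
  have G := H.geo m hm t hT
  have F := pvef_ndg_of (H.ndg m hm t hT) hT
  have hΔ := pveh_Dl_pos G.n0
  have hδ := pvlm_Del_pos c m
  have hf : 1000 * pvlmDel c m ≤ 𝔓.num.rho * pvlmH m := by linarith [H.fine m hm]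
  have off := Set.disjoint_left.1 (pveh_res_off J.O0 (pvegIM 𝔓) G)
  have ip := Set.disjoint_left.1 (pvea_i_plug (J := J) H hm hT)
  have iK := Set.disjoint_left.1 (pveg_iK_off (H.lev hm) hT)
  refine ⟨hδ, pveh_Del_le_Dl G.n0, ?_, ?_, ?_, ?_, ?_, ?_, pvmd_nd hT.1, pvmd_nd hT.2.1⟩
  · rintro v ((hv | hv) | hv)
    · rcases pveh_eY_sub (𝔓 := 𝔓) (Mi := pvegIM 𝔓) (Mo := pvegIM 𝔓) (fun _ _ => Subset.rfl) G.n0 t hv with (h | h) | h
      · left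
        rw [← dist_eq_norm]
        exact h
      · exact Or.inr (pvmd_not_box (off (Or.inl (Or.inl h))))
      · exact Or.inr (pvmd_not_box (off (Or.inr h)))
    · exact Or.inr (pvmd_not_box (iK hv))
    · rcases pver_eY_sub (H.gam m) H.rho0 hf hT G hv with (h | (h | h)) | h
      · left
        rw [← dist_eq_norm]
        exact h
      · exact Or.inr (pvmd_not_box (off (Or.inl (Or.inl h))))
      · exact Or.inr (pvmd_not_box (iK h))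
      · exact Or.inr (pvmd_not_box (off (Or.inr h)))
  · intro v hv
    rcases pvef_fY0_sub (𝔓 := 𝔓) G.n0 t hv with (h | h) | h
    · left
      rw [← dist_eq_norm]
      exact h
    · exact Or.inr (pvmd_not_box (Set.disjoint_left.1 (pvef_fK_box F) h))
    · exact Or.inr (pvmd_not_box (off (Or.inr h)))
  · intro w hw v hv
    obtain ⟨d1, -, d3⟩ := pvef_Dl_bounds F
    have hG : v ∈ pverG 𝔓 m t := by
      rcases hv with (hv | hv) | hv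
      · rcases pvef_q296_EY_body hΔ _ _ _ hv with h1 | h1
        · exact Or.inl (Or.inl h1)
        · exact Or.inr h1
      · refine Or.inl (Or.inr ?_)
        have := hv.1
        rwa [H.gam m, pvxr_gam_din, neg_neg] at this
      · exact pver_eY_G H.rho0 hf hT G hv
    have := pvmd_sepG F w hw v hG
    linarith
  · rintro v hv hO
    rw [← pvmd_mem_rO] at hO
    rcases hv with (hv | hv) | hv
    · by_cases hM : v ∈ pvegIM 𝔓 m t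
      · exact absurd (Or.inr hO) (ip (Or.inl hM))
      · have := pveh_eY_front G.n0 t hv hO hM
        linarith
    · exact absurd (Or.inr hO) (ip (Or.inr hv))
    · have := pver_eY_front H.rho0 hf hT G hv hO
      unfold pverRu at this
      linarith
  · intro v hv hO
    rw [← pvmd_mem_rO] at hO
    have := pvef_fY0_back F v hv hO
    linarith
  · intro v hO
    rw [← pvmd_mem_rO] at hO
    exact pvmd_not_box (off (Or.inr hO))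

/-! ## 4. the masks of record, the design record at the model -/

/-- **THE EXIT MASK OF RECORD OF (S)**: the placed mask `Mp(t)` of the menu, cut by the closed own-level box, `ρ h / 2` off the centre `y⁻` of the ENTRANCE tip cell -/
noncomputable def pvmdMp (𝔓 : PvxPar τ c) (m : ℕ) (z : ℂ) (t : τ) : Set ℂ :=
  pvxPl z (pvlmH m) (𝔓.Mp t) ∩ pvwSq z (pviwRad 𝔓 m t) ∩ {w | 𝔓.num.rho * pvlmH m / 2 < ‖w - (𝔓.ty t).cm (pvlmH m) z‖}

/-- **THE ENTRANCE MASK OF RECORD OF (S)**: the placed mask `Mm(t)`, cut by the closed own-level box, `ρ h / 2` off the centre `y⁺` of the EXIT tip cell -/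
noncomputable def pvmdMm (𝔓 : PvxPar τ c) (m : ℕ) (z : ℂ) (t : τ) : Set ℂ :=
  pvxPl z (pvlmH m) (𝔓.Mm t) ∩ pvwSq z (pviwRad 𝔓 m t) ∩ {w | 𝔓.num.rho * pvlmH m / 2 < ‖w - (𝔓.ty t).cp (pvlmH m) z‖}

theorem pvmd_mu_del (𝔓 : PvxPar τ c) (m : ℕ) : pvilMu 𝔓 m ≤ pvlmDel c m / 1000 := by
  unfold pvilMu
  have := min_le_left (pvlmDel c m) (𝔓.num.rho3 * pvlmH m)
  linarith

theorem pvmd_mu_rho3 (𝔓 : PvxPar τ c) (m : ℕ) : pvilMu 𝔓 m ≤ 𝔓.num.rho3 * pvlmH m / 1000 := by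
  unfold pvilMu
  have := min_le_right (pvlmDel c m) (𝔓.num.rho3 * pvlmH m)
  linarith

theorem pvmd_uyMp_sub {z : ℂ} {r1 : ℝ} (hr1 : 𝔓.num.rho * pvlmH m / 2 ≤ r1) : pvuyMp 𝔓 m z t r1 ⊆ pvmdMp 𝔓 m z t := by
  rintro w ⟨⟨h1, h2⟩, h3⟩
  refine ⟨⟨h1, h2⟩, ?_⟩
  rw [mem_closedBall, dist_eq_norm, not_le] at h3
  exact lt_of_le_of_lt hr1 h3

theorem pvmd_uyMm_sub {z : ℂ} {r1 : ℝ} (hr1 : 𝔓.num.rho * pvlmH m / 2 ≤ r1) : pvuyMm 𝔓 m z t r1 ⊆ pvmdMm 𝔓 m z t := by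
  rintro w ⟨⟨h1, h2⟩, h3⟩
  refine ⟨⟨h1, h2⟩, ?_⟩
  rw [mem_closedBall, dist_eq_norm, not_le] at h3
  exact lt_of_le_of_lt hr1 h3

/-- **(S) AT THE MODEL** (`PveaPar`), EVERYTHING WHICH MAY STILL MOVE IS AN ARGUMENT: sub-rooms `eY' ⊆ pvmdE`, `fY' ⊆ pveffY0` of the rooms of 166 / 124 / 182, sub-masks `Mp' Mm'` of `pvmdMp pvmdMm`, unit `r` of the reference plug, cut `Mk` (its complement contains the
west half of the open square of half side `s` round `zu`, `2 r + 4 μ ≤ s ≤ Δ / 4`):   the design record of 288 AND the OR-form of SEP against the vertex mask with the tube -/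
theorem pvmd_core (J : PveaIn) (H : PveaPar 𝔓 m0) (hm : m0 ≤ m) (hT : pviwTyOk 𝔓 t) (z : ℂ) {μ r s : ℝ} {Mp' Mm' eY' fY' Mk : Set ℂ} (μ0 : 0 < μ) (hμ : μ ≤ 4 * pvilMu 𝔓 m)
    (hr : 6 * μ ≤ r) (hrs : 2 * r + 4 * μ ≤ s) (hs : s ≤ pvehDl 𝔓 m / 4) (hMk : pvccSq (pvieZu 𝔓 m z t) s \ pvilHp (pvieZu 𝔓 m z t) 1 ⊆ Mkᶜ)
    (hMa : 𝔓.num.m + 1 < (𝔓.ty t).a) (hb : (𝔓.ty t).b + 𝔓.num.rho / 2 ≤ 2 * (𝔓.ty t).b2)
    (hpm : ∀ a ∈ pvxPl z (pvlmH m) (𝔓.Mm t), ∀ b ∈ pvxPl z (pvlmH m) (𝔓.Mp t), 3 * μ ≤ ‖a - b‖) (hp : Mp' ⊆ pvmdMp 𝔓 m z t) (hm' : Mm' ⊆ pvmdMm 𝔓 m z t)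
    (he : eY' ⊆ pvmdE 𝔓 m t) (hf : fY' ⊆ pveffY0 𝔓 m t) :
    μ ≤ pvlmH m ∧
    PvudDes (pvieZu 𝔓 m z t) (pvkdP r).b (pvkdAt (pvieZu 𝔓 m z t) 1 (pvkdP r).Zm) (pvkdAt (pvieZu 𝔓 m z t) 1 (pvkdP r).Zp) (pvlmH m) z (𝔓.ty t)
      (pvwSq z (pvwRad 𝔓.num (pvlmH m) (𝔓.ty t) (𝔓.ty t).k)) Mp' Mm' (𝔓.num.m * pvlmH m) ((𝔓.num.m - 1) * pvlmH m) (pvieSh z eY') (pvieSh z fY') Mk μ ∧
    ∀ b ∈ Mp' ∪ pvieSh z fY' ∪ pvkdAt (pvieZu 𝔓 m z t) 1 (pvkdP r).Zm,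
      (∀ a ∈ pvkdAt (pvieZu 𝔓 m z t) 1 (pvkdP r).Tb ∪ (pvkdAt (pvieZu 𝔓 m z t) 1 (pvkdP r).Zp ∪ pvieSh z eY' ∪ Mm'), 3 * μ ≤ ‖a - b‖) ∨ closedBall b μ ⊆ Mkᶜ := by
  have hh := pvlm_H_pos m
  have hδ := pvlm_Del_pos c m
  have h1 := pvmd_mu_del 𝔓 m
  have h2 := H.fine m hm
  have N := H.ndg m hm t hT
  have h3 : 𝔓.num.rho * pvlmH m ≤ pvlmH m := by nlinarith [N.rho8, N.rho0]
  have hk : 0 ≤ ((𝔓.ty t).k : ℝ) * 𝔓.num.rho1 := mul_nonneg (Nat.cast_nonneg _) N.rho1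
  have ez : pvieZu 𝔓 m z t = z + (pvxrGam 𝔓 m).zu t := by unfold pvieZu; rw [H.gam]
  have ec : ∀ (w y : ℂ), w - (z + (pvlmH m : ℂ) * y) = w - z - (pvlmH m : ℂ) * y := fun w y => by ring
  have G := (pvmd_geo J H hm hT).mono he hf
  have a1 : 100 * μ ≤ pvlmDel c m := by linarith
  have a0 : μ < pvehDl 𝔓 m / 80 := by linarith [G.del_le]
  have a2 : 16 * μ ≤ pvegR 𝔓 m := by unfold pvegR; linarith
  have a3 : μ ≤ pvlmH m := by linarith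
  have a4 : (𝔓.num.m + 1) * pvlmH m < (𝔓.ty t).a * pvlmH m := mul_lt_mul_of_pos_right hMa hh
  have a5 : (𝔓.ty t).b * pvlmH m + pvegR 𝔓 m / 2 ≤ pviwRad 𝔓 m t := by
    unfold pviwRad pvwRad pvegR
    nlinarith
  have b1 : ∀ a ∈ Mp', pvccN (a - z) ≤ pviwRad 𝔓 m t := fun a ha => pvxo_mem_sq.1 (hp ha).1.2
  have b2 : ∀ a ∈ Mp', pvegR 𝔓 m / 2 < ‖a - z - pvegYm 𝔓 m t‖ := by
    intro a ha
    have := (hp ha).2
    rw [mem_ofPred_eq, PvwTy.cm, ec] at this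
    exact this
  have b3 : ∀ a ∈ Mm', pvccN (a - z) ≤ pviwRad 𝔓 m t := fun a ha => pvxo_mem_sq.1 (hm' ha).1.2
  have b4 : ∀ a ∈ Mm', pvegR 𝔓 m / 2 < ‖a - z - pvegYp 𝔓 m t‖ := by
    intro a ha
    have := (hm' ha).2
    rw [mem_ofPred_eq, PvwTy.cp, ec] at this
    exact this
  have b5 : ∀ a ∈ Mm', ∀ b ∈ Mp', 3 * μ ≤ ‖a - b‖ := fun a ha b hb => hpm a (hm' ha).1.1 b (hp hb).1.1
  rw [ez] at hMk ⊢
  exact ⟨a3, pvmd_des G z μ0 a1 a0 a2 a3 hr hrs hs hMk a4 a5 b1 b2 b3 b4 b5, pvmd_or G z μ0 a1 a0 a2 a3 hr hrs hs hMk a4 a5 b1 b2 b3 b4 b5⟩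

/-- the data of an engine which are not regions -/
def pvmdJ (𝔈 : PvieEng τ) : PveaIn := ⟨𝔈.kit, 𝔈.XQ, 𝔈.XV, 𝔈.sp, 𝔈.rp, 𝔈.rG⟩

/-- the complement of the cut of the thick link contains the west half of every open square which lies in the region of the reference plug -/
theorem pvmd_Mk_le {𝔈 : PvieEng τ} {s : ℝ} (hrO : pvccSq 0 s ⊆ 𝔈.rO m) (z : ℂ) : pvccSq (pvieZu 𝔓 m z t) s \ pvilHp (pvieZu 𝔓 m z t) 1 ⊆ ((pvilLe 𝔓 𝔈 m z t).Mk)ᶜ := by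
  rintro x ⟨h1, h2⟩
  show x ∈ ((pvieSh (pvieZu 𝔓 m z t) (𝔈.rO m) \ pvilHp (pvieZu 𝔓 m z t) 1)ᶜ)ᶜ
  rw [compl_compl]
  refine ⟨pveh_mem_sh.2 (hrO ?_), h2⟩
  show pvccN (x - pvieZu 𝔓 m z t - 0) < s
  rw [sub_zero]
  exact h1

/-- **THE SET LINES OF 290 AT THE MODEL**: any parameters with `PveaPar`, ANY ENGINE `𝔈` whose region `rO` contains the open square of half side `s`, `2 r_u + 4 μ ≤ s ≤ Δ / 4`, `6 μ ≤ r_u = (𝔈.rp m).h`, whose room `eY` lies in `pvmdE` (room of v2 ∪ room of R22 of 166);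
any return `L'` whose room lies in the outer room `pveffY0` of 182 -/
theorem pvmd_S_eng (H : PveaPar 𝔓 m0) (hm : m0 ≤ m) (hT : pviwTyOk 𝔓 t) {𝔈 : PvieEng τ} {s : ℝ} (hs : s ≤ pvehDl 𝔓 m / 4) (hrO : pvccSq 0 s ⊆ 𝔈.rO m)
    (heY : 𝔈.eY m t ⊆ pvmdE 𝔓 m t) (z : ℂ) {μ r1 : ℝ} (μ0 : 0 < μ) (hμ : μ ≤ 4 * pvilMu 𝔓 m) (hr : 6 * μ ≤ (𝔈.rp m).h) (hrs : 2 * (𝔈.rp m).h + 4 * μ ≤ s)
    (hMa : 𝔓.num.m + 1 < (𝔓.ty t).a) (hb : (𝔓.ty t).b + 𝔓.num.rho / 2 ≤ 2 * (𝔓.ty t).b2)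
    (hpm : ∀ a ∈ pvxPl z (pvlmH m) (𝔓.Mm t), ∀ b ∈ pvxPl z (pvlmH m) (𝔓.Mp t), 3 * μ ≤ ‖a - b‖) (hr1 : 𝔓.num.rho * pvlmH m / 2 ≤ r1)
    {L' : PvilLk} (fl : Pvtk4Fl (pvilLe 𝔓 𝔈 m z t) L') (hY : L'.Yin ⊆ pvieSh z (pveffY0 𝔓 m t)) :
    PvuyS (pvilLe 𝔓 𝔈 m z t) L' 𝔓.num μ (pvuyMp 𝔓 m z t r1) (pvuyMm 𝔓 m z t r1) := by
  obtain ⟨a3, D, O⟩ := pvmd_core (pvmdJ 𝔈) H hm hT z μ0 hμ hr hrs hs (pvmd_Mk_le hrO z) hMa hb hpm (pvmd_uyMp_sub (𝔓 := 𝔓) (m := m) (t := t) (z := z) hr1)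
    (pvmd_uyMm_sub (𝔓 := 𝔓) (m := m) (t := t) (z := z) hr1) heY
    (show (fun w : ℂ => z + w) ⁻¹' L'.Yin ⊆ pveffY0 𝔓 m t from fun w hw => by
      have := hY hw
      rw [pveh_mem_sh, add_sub_cancel_left] at this
      exact this)
  have D3 := pvmd_des3 D
  rw [pvmd_sh_pre] at D3 O
  exact ⟨fl, μ0, a3, D3, O⟩

/-- the numbers of the reference plug of record: unit `Δ / 16`, square of half side `13 Δ / 64` (`= (5 Δ / 2) O₀` of U4; it lies in `pvehrO`) -/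
theorem pvmd_ru (hn : 0 ≤ pvxrNw 𝔓 m) {μ : ℝ} (hμ : μ ≤ 4 * pvilMu 𝔓 m) : 6 * μ ≤ pvehDl 𝔓 m / 16 ∧ 2 * (pvehDl 𝔓 m / 16) + 4 * μ ≤ 13 * pvehDl 𝔓 m / 64 ∧ 13 * pvehDl 𝔓 m / 64 ≤ pvehDl 𝔓 m / 4 := by
  have h1 := pvmd_mu_del 𝔓 m
  have h2 := pveh_Del_le_Dl (𝔓 := 𝔓) hn
  have h3 := pvlm_Del_pos c m
  exact ⟨by linarith, by linarith, by linarith⟩

theorem pvmd_rO_sub (hn : 0 ≤ pvxrNw 𝔓 m) : pvccSq 0 (13 * pvehDl 𝔓 m / 64) ⊆ pvehrO 𝔓 m := by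
  intro x hx
  have h1 := pveh_Dl_pos (𝔓 := 𝔓) hn
  show pvccN (x - 0) < pvehDl 𝔓 m / 4
  have : pvccN (x - 0) < 13 * pvehDl 𝔓 m / 64 := hx
  linarith

end model

section rec

variable {N : PvxNums} (hN : N.Ok) {c : ℝ}

theorem pvmd_rec_Ma (t : pvxTau N) : (pvxParOf N hN c).num.m + 1 < ((pvxParOf N hN c).ty t).a := by
  show N.m + 1 < N.a1
  linarith [hN.m_gt, hN.m_lt, hN.B_lt]

theorem pvmd_rec_b (t : pvxTau N) : ((pvxParOf N hN c).ty t).b + (pvxParOf N hN c).num.rho / 2 ≤ 2 * ((pvxParOf N hN c).ty t).b2 := by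
  show N.b1 + N.rho / 2 ≤ 2 * N.b2
  linarith [hN.gap, hN.ab2, hN.rho_lt_one, hN.b2_pos]

/-- the two masks of a type of the menu of record are `3 μ` apart -/
theorem pvmd_rec_pm (m : ℕ) (z : ℂ) (t : pvxTau N) {μ : ℝ} (hμ : μ ≤ 4 * pvilMu (pvxParOf N hN c) m) :
    ∀ a ∈ pvxPl z (pvlmH m) ((pvxParOf N hN c).Mm t), ∀ b ∈ pvxPl z (pvlmH m) ((pvxParOf N hN c).Mp t), 3 * μ ≤ ‖a - b‖ := by
  intro a ha b hb
  have hh := pvlm_H_pos m
  have h1 := pvxo_mask_far N hN c t hh hb ha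
  have h2 := pvmd_mu_rho3 (pvxParOf N hN c) m
  have h3 : (pvxParOf N hN c).num.rho3 = N.rho3 := rfl
  rw [h3] at h2
  have h4 : (2 : ℝ) ≤ N.g := by exact_mod_cast hN.g2
  have h5 : 0 < N.rho3 * pvlmH m := mul_pos hN.msk0 hh
  rw [norm_sub_rev]
  nlinarith

/-- the numbers of a reference plug of unit `Δ / 20 ≤ r ≤ Δ / 12` -/
theorem pvmd_ru2 {𝔓 : PvxPar (pvxTau N) c} {m : ℕ} (hn : 0 ≤ pvxrNw 𝔓 m) {μ r : ℝ} (hμ : μ ≤ 4 * pvilMu 𝔓 m) (h1 : pvehDl 𝔓 m / 20 ≤ r) (h2 : r ≤ pvehDl 𝔓 m / 12) :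
    6 * μ ≤ r ∧ 2 * r + 4 * μ ≤ 3 * r ∧ 3 * r ≤ pvehDl 𝔓 m / 4 := by
  have a1 := pvmd_mu_del 𝔓 m
  have a2 := pveh_Del_le_Dl (𝔓 := 𝔓) hn
  have a3 := pvlm_Del_pos c m
  exact ⟨by linarith, by linarith, by linarith⟩

theorem pvmd_sq_sub {r : ℝ} {O : Set ℂ} (h : pvwSq 0 r ⊆ O) : pvccSq 0 r ⊆ O := fun _ hx => h (pvxo_mem_sq.2 (le_of_lt hx))

/-- **THE SET LINES OF 290 AT THE PARAMETERS OF RECORD, GENERAL FORM** (v5: for the engine v2 of T22), all numbers discharged, ANY ENGINE `𝔈` with: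
`hru hru'` the unit of the reference plug lies in `[Δ / 20, Δ / 12]` (`Δ / 16` today, `Δ / 20` after U4),   `hrO` = THE LINE `rp_win` OF `PvieEng.Wf` VERBATIM,   `heY` the room of the thick link lies in `pvmdE` = room of v2 ∪ room `pvereY` of R22 (166),
`hY` the room of the return lies in the OUTER room `pveffY0` of 182 (`pvef_fY_sub0`) -/
theorem pvmd_S_rec2 (c0 : 0 < c) {𝔈 : PvieEng (pvxTau N)} {m : ℕ} (hm : N.m0 ≤ m) (z : ℂ) (t : pvxTau N) {μ r1 : ℝ} (μ0 : 0 < μ)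
    (hμ : μ ≤ 4 * pvilMu (pvxParOf N hN c) m) (hr1 : N.rho * pvlmH m / 2 ≤ r1) (hru : pvehDl (pvxParOf N hN c) m / 20 ≤ (𝔈.rp m).h) (hru' : (𝔈.rp m).h ≤ pvehDl (pvxParOf N hN c) m / 12)
    (hrO : pvwSq 0 (3 * (𝔈.rp m).h) ⊆ 𝔈.rO m) (heY : 𝔈.eY m t ⊆ pvmdE (pvxParOf N hN c) m t)
    {L' : PvilLk} (fl : Pvtk4Fl (pvilLe (pvxParOf N hN c) 𝔈 m z t) L') (hY : L'.Yin ⊆ pvieSh z (pveffY0 (pvxParOf N hN c) m t)) :
    PvuyS (pvilLe (pvxParOf N hN c) 𝔈 m z t) L' (pvxParOf N hN c).num μ (pvuyMp (pvxParOf N hN c) m z t r1) (pvuyMm (pvxParOf N hN c) m z t r1) := by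
  obtain ⟨n1, n2, n3⟩ := pvmd_ru2 (𝔓 := pvxParOf N hN c) (m := m) ((pvea_par hN c0).geo m hm t (pvea_tyOk hN t)).n0 hμ hru hru'
  exact pvmd_S_eng (pvea_par hN c0) hm (pvea_tyOk hN t) n3 (pvmd_sq_sub hrO) heY z μ0 hμ n1 n2 (pvmd_rec_Ma hN t) (pvmd_rec_b hN t) (pvmd_rec_pm hN m z t hμ) hr1 fl hY

/-- **(S) AT THE PARAMETERS OF RECORD, GENERAL FORM**: the design record of `pvud_main` (288), binders of `pvmd_S_rec2` -/
theorem pvmd_des_rec2 (c0 : 0 < c) {𝔈 : PvieEng (pvxTau N)} {m : ℕ} (hm : N.m0 ≤ m) (z : ℂ) (t : pvxTau N) {μ : ℝ} {Mp' Mm' fY' : Set ℂ} (μ0 : 0 < μ)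
    (hμ : μ ≤ 4 * pvilMu (pvxParOf N hN c) m) (hp : Mp' ⊆ pvmdMp (pvxParOf N hN c) m z t) (hm' : Mm' ⊆ pvmdMm (pvxParOf N hN c) m z t)
    (hru : pvehDl (pvxParOf N hN c) m / 20 ≤ (𝔈.rp m).h) (hru' : (𝔈.rp m).h ≤ pvehDl (pvxParOf N hN c) m / 12) (hrO : pvwSq 0 (3 * (𝔈.rp m).h) ⊆ 𝔈.rO m)
    (heY : 𝔈.eY m t ⊆ pvmdE (pvxParOf N hN c) m t) (hf : fY' ⊆ pveffY0 (pvxParOf N hN c) m t) :
    PvudDes (pvilLe (pvxParOf N hN c) 𝔈 m z t).p.z (pvkdP (pvilLe (pvxParOf N hN c) 𝔈 m z t).p.h).b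
      (pvkdAt (pvilLe (pvxParOf N hN c) 𝔈 m z t).p.z 1 (pvkdP (pvilLe (pvxParOf N hN c) 𝔈 m z t).p.h).Zm) (pvkdAt (pvilLe (pvxParOf N hN c) 𝔈 m z t).p.z 1 (pvkdP (pvilLe (pvxParOf N hN c) 𝔈 m z t).p.h).Zp)
      (pvlmH m) z ((pvxParOf N hN c).ty t) (pvwSq z (pvwRad (pvxParOf N hN c).num (pvlmH m) ((pvxParOf N hN c).ty t) ((pvxParOf N hN c).ty t).k)) Mp' Mm'
      ((pvxParOf N hN c).num.m * pvlmH m) (((pvxParOf N hN c).num.m - 1) * pvlmH m) (pvilLe (pvxParOf N hN c) 𝔈 m z t).Yin (pvieSh z fY') (pvilLe (pvxParOf N hN c) 𝔈 m z t).Mk μ := by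
  obtain ⟨n1, n2, n3⟩ := pvmd_ru2 (𝔓 := pvxParOf N hN c) (m := m) ((pvea_par hN c0).geo m hm t (pvea_tyOk hN t)).n0 hμ hru hru'
  exact (pvmd_core (pvmdJ 𝔈) (pvea_par hN c0) hm (pvea_tyOk hN t) z μ0 hμ (r := (𝔈.rp m).h) n1 n2 n3 (pvmd_Mk_le (pvmd_sq_sub hrO) z) (pvmd_rec_Ma hN t) (pvmd_rec_b hN t)
    (pvmd_rec_pm hN m z t hμ) hp hm' heY hf).2.1

/-- **THE SET LINES OF 290 AT THE PARAMETERS OF RECORD** (signature of v4, FROZEN: cited by 132 `Exit/ThickRR`, 290 `Exit/ThickLJ`), all numbers discharged, ANY ENGINE `𝔈` with:   `hrp` the unit `Δ / 16` of the reference plug,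
`hrO` its region contains the open square of half side `13 Δ / 64` (`pvmd_rO_sub` at `rO = pvehrO`),   `heY` the room of the thick link lies in the room of v2 of 166 / 124.      FOR THE ENGINE v2 OF T22 (unit `Δ / 20`, room `pvereY`): `pvmd_S_rec2` -/
theorem pvmd_S_rec (c0 : 0 < c) {𝔈 : PvieEng (pvxTau N)} {m : ℕ} (hm : N.m0 ≤ m) (z : ℂ) (t : pvxTau N) {μ r1 : ℝ} (μ0 : 0 < μ)
    (hμ : μ ≤ 4 * pvilMu (pvxParOf N hN c) m) (hr1 : N.rho * pvlmH m / 2 ≤ r1) (hrp : (𝔈.rp m).h = pvehDl (pvxParOf N hN c) m / 16)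
    (hrO : pvccSq 0 (13 * pvehDl (pvxParOf N hN c) m / 64) ⊆ 𝔈.rO m)
    (heY : 𝔈.eY m t ⊆ pveheY (pvxParOf N hN c) (pvegIM (pvxParOf N hN c)) m t ∪ pvegIK (pvxParOf N hN c) m t)
    {L' : PvilLk} (fl : Pvtk4Fl (pvilLe (pvxParOf N hN c) 𝔈 m z t) L') (hY : L'.Yin ⊆ pvieSh z (pveffY (pvxParOf N hN c) m t)) :
    PvuyS (pvilLe (pvxParOf N hN c) 𝔈 m z t) L' (pvxParOf N hN c).num μ (pvuyMp (pvxParOf N hN c) m z t r1) (pvuyMm (pvxParOf N hN c) m z t r1) := by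
  obtain ⟨n1, n2, n3⟩ := pvmd_ru (𝔓 := pvxParOf N hN c) (m := m) ((pvea_par hN c0).geo m hm t (pvea_tyOk hN t)).n0 hμ
  exact pvmd_S_eng (pvea_par hN c0) hm (pvea_tyOk hN t) n3 hrO (heY.trans subset_union_left) z μ0 hμ (by rw [hrp]; exact n1) (by rw [hrp]; exact n2) (pvmd_rec_Ma hN t) (pvmd_rec_b hN t)
    (pvmd_rec_pm hN m z t hμ) hr1 fl (hY.trans (Set.image_mono (pvef_fY_sub0 m t)))

/-- **(S) AT THE PARAMETERS OF RECORD**: the design record of `pvud_main` (288), binders of `pvmd_S_rec` (signature of v4, FROZEN) -/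
theorem pvmd_des_rec (c0 : 0 < c) {𝔈 : PvieEng (pvxTau N)} {m : ℕ} (hm : N.m0 ≤ m) (z : ℂ) (t : pvxTau N) {μ : ℝ} {Mp' Mm' fY' : Set ℂ} (μ0 : 0 < μ)
    (hμ : μ ≤ 4 * pvilMu (pvxParOf N hN c) m) (hp : Mp' ⊆ pvmdMp (pvxParOf N hN c) m z t) (hm' : Mm' ⊆ pvmdMm (pvxParOf N hN c) m z t)
    (hrp : (𝔈.rp m).h = pvehDl (pvxParOf N hN c) m / 16) (hrO : pvccSq 0 (13 * pvehDl (pvxParOf N hN c) m / 64) ⊆ 𝔈.rO m)
    (heY : 𝔈.eY m t ⊆ pveheY (pvxParOf N hN c) (pvegIM (pvxParOf N hN c)) m t ∪ pvegIK (pvxParOf N hN c) m t) (hf : fY' ⊆ pveffY (pvxParOf N hN c) m t) :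
    PvudDes (pvilLe (pvxParOf N hN c) 𝔈 m z t).p.z (pvkdP (pvilLe (pvxParOf N hN c) 𝔈 m z t).p.h).b
      (pvkdAt (pvilLe (pvxParOf N hN c) 𝔈 m z t).p.z 1 (pvkdP (pvilLe (pvxParOf N hN c) 𝔈 m z t).p.h).Zm) (pvkdAt (pvilLe (pvxParOf N hN c) 𝔈 m z t).p.z 1 (pvkdP (pvilLe (pvxParOf N hN c) 𝔈 m z t).p.h).Zp)
      (pvlmH m) z ((pvxParOf N hN c).ty t) (pvwSq z (pvwRad (pvxParOf N hN c).num (pvlmH m) ((pvxParOf N hN c).ty t) ((pvxParOf N hN c).ty t).k)) Mp' Mm'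
      ((pvxParOf N hN c).num.m * pvlmH m) (((pvxParOf N hN c).num.m - 1) * pvlmH m) (pvilLe (pvxParOf N hN c) 𝔈 m z t).Yin (pvieSh z fY') (pvilLe (pvxParOf N hN c) 𝔈 m z t).Mk μ := by
  obtain ⟨n1, n2, n3⟩ := pvmd_ru (𝔓 := pvxParOf N hN c) (m := m) ((pvea_par hN c0).geo m hm t (pvea_tyOk hN t)).n0 hμ
  exact (pvmd_core (pvmdJ 𝔈) (pvea_par hN c0) hm (pvea_tyOk hN t) z μ0 hμ (r := (𝔈.rp m).h) (by rw [hrp]; exact n1) (by rw [hrp]; exact n2) n3 (pvmd_Mk_le hrO z) (pvmd_rec_Ma hN t) (pvmd_rec_b hN t)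
    (pvmd_rec_pm hN m z t hμ) hp hm' (heY.trans subset_union_left) (hf.trans (pvef_fY_sub0 m t))).2.1

end rec

theorem pvmd_eqns_cite : True := by
  have := @pvmdMp.eq_1; have := @pvmdMm.eq_1; have := @pvmdJ.eq_1; have := @pvmdE.eq_1
  trivial

end Claimed.Agent.R289
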