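-- KEEP
import Claimed.Agent.R289.Exit.ThickLI
import Claimed.Agent.R289.Exit.ThickS
import Claimed.Agent.R289.Exit.EngU4
import Claimed.Agent.R289.Exit.EngYc

/-!
# Row 289 (S0537, Cardy for Poisson-Voronoi), THE WALL, ROAD E, field `thick`, file Exit/ThickRR : THE LEAF [R] `exit_pvww_recog` OF `Exit/AnaW`      (helper132; prefix `pvjk`, `Pvjk`: third file of the prefix, after `Tr/InstEKR`, `Exit/ThickLR`)

`Exit/AnaW` (2): (6) `thick` = [W] `exit_pvww_jtwf` (13) + [R] `exit_pvww_recog` (132).      HERE: [R].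
* sec. 1  ANY ENGINE WITH `PvieEng.Wf`: **`PvjkRg 𝔓 𝔈 m t`** = THE LINES OF (K4) WHICH ARE NOT IN `PvieEng.Wf` (set lines `S` of 290 / 55, `hb`, `ru`, collars `ce cf` = (Rc) of R22 at the rooms `eY fY` ALONE),
          `pvjk_tb_core` (tube and rooms of the reference plug: in the core of its region, from `rp_win`), `pvjk_rg_bd` (the mask is bounded, from `e_bdd`), **`pvjk_rg`** : `PvieEng.Wf` + `PvjkRg` ⟹ `PvuyRg` of 290,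
          **`pvjk_recog_wf`** : `𝔓.WfB` + `PvnaWf` + [W] + `∀ m t, pvjtLv → PvjkRg` ⟹ the statement of [R] (mask of record `pvuyMk` of 290 at the distance `pvjkMuR = 4 pvilMu / 3`).      NOTHING HERE READS A FIELD OF THE ENGINE OF RECORD: a swap of a region costs only sec. 2.
* sec. 1' THE TWO COLLARS AFTER U4 (L2 of T24 / R27): `pvjk_eY_u4`, **`pvjk_ce_u4`** (room of `e` inside the open core of 118 of the room v2; tile `pvnuEK`, window `pvnuRO` of 84), **`pvjk_cf_u4`** (room of `f` inside `pveffY` of 182; tile `pvnuFK`): ANY engine, fields by inclusions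
* sec. 2  AT THE PARAMETERS OF RECORD, ANY ENGINE: **`PvjkEn hN c 𝔈 m t`** = THE SIX LINES ON THE ENGINE (`ru ru' eY fY ce cf`), `pvjk_par_rg` (55 `pvmd_S_rec2`), **`pvjk_recog_par`**;   AT THE ENGINE OF RECORD: `pvjk_rec_en`, **`pvjk_recog_rec`** = [R] VERBATIM (+ the hypothesis [W]).
-/

set_option autoImplicit false
set_option linter.unusedSectionVars false
set_option linter.unusedVariables false
set_option linter.unreachableTactic false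
set_option linter.unusedTactic false

namespace Claimed.Agent.R289

open Set Metric MeasureTheory Filter Topology Claims.C0465
open scoped ENNReal

/-! ## 1. any engine with `PvieEng.Wf` -/

section gen

variable {τ : Type} {c : ℝ}

/-- **the distance tag / vertex of record** of the mask of the thick link -/
noncomputable def pvjkMuR (𝔓 : PvxPar τ c) (m : ℕ) : ℝ := 4 * pvilMu 𝔓 m / 3

/-- **THE LINES OF (K4) WHICH ARE NOT IN `PvieEng.Wf`**: centre `0`, one level, one type -/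
structure PvjkRg (𝔓 : PvxPar τ c) (𝔈 : PvieEng τ) (m : ℕ) (t : τ) : Prop where
  /-- the set lines of the closing at the restricted masks (290 `Tr/ThickI`; producer 55 `Exit/ThickS`) -/
  S : PvuyS (pvilLe 𝔓 𝔈 m 0 t) (pvjtLf 𝔓 𝔈 (pvjtRetE 𝔈 fun _ _ => ∅) m 0 t) 𝔓.num (pvjkMuR 𝔓 m) (pvuyMp 𝔓 m 0 t (pvuyR1 𝔓 m)) (pvuyMm 𝔓 m 0 t (pvuyR1 𝔓 m))
  hb : (𝔓.ty t).b * pvlmH m ≤ pviwRad 𝔓 m t
  /-- the mesh is small against the unit of the reference plug -/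
  ru : 3 * pvilMu 𝔓 m ≤ (𝔈.rp m).h
  /-- (Rc) the room of the thick link has a collar in mouth, tile, region of the reference plug -/
  ce : 𝔈.eY m t ⊆ pvtrCore (3 * pvilMu 𝔓 m) (𝔈.eM m t ∪ 𝔈.eK m t ∪ pviwRo 𝔓 𝔈 m t)
  /-- (Rc) the room of the thick return has a collar in mouth, tile, region of the reference plug -/
  cf : 𝔈.fY m t ⊆ pvtrCore (3 * pvilMu 𝔓 m) (𝔈.fM m t ∪ 𝔈.fK m t ∪ pviwRo 𝔓 𝔈 m t)

theorem pvjkRR_eqns_cite : True := by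
  have := @pvjkMuR.eq_1
  trivial

/-- the tube of a door of unit `r` lies in the square `2 r` -/
theorem pvjk_tb_sq {r : ℝ} (r0 : 0 ≤ r) {u x : ℂ} (hx : x ∈ pvkdAt u 1 (pvkdP r).Tb) : x - u ∈ pvwSq 0 (2 * r) := by
  rw [pvuy_at_mem] at hx
  obtain ⟨h1, h2, h3, h4⟩ := hx
  refine ⟨?_, ?_⟩
  · rw [sub_zero]; exact abs_le.2 ⟨h1, h2⟩
  · rw [sub_zero]; exact abs_le.2 ⟨by linarith, by linarith⟩

theorem pvjk_zp_tb {r : ℝ} (r0 : 0 ≤ r) {u x : ℂ} (hx : x ∈ pvkdAt u 1 (pvkdP r).Zp) : x ∈ pvkdAt u 1 (pvkdP r).Tb := by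
  rw [pvuy_at_mem] at hx ⊢
  obtain ⟨h1, h2, h3, h4⟩ := hx
  exact ⟨by linarith, h2, h3, h4⟩

theorem pvjk_zm_tb {r : ℝ} (r0 : 0 ≤ r) {u x : ℂ} (hx : x ∈ pvkdAt u 1 (pvkdP r).Zm) : x ∈ pvkdAt u 1 (pvkdP r).Tb := by
  rw [pvuy_at_mem] at hx ⊢
  obtain ⟨h1, h2, h3, h4⟩ := hx
  exact ⟨h1, by linarith, h3, h4⟩

/-- **the tube of a door of unit `r` lies in the `ρ`-core of the placed region**, `ρ ≤ r`, as soon as the region contains the mesh window `pvwSq 0 (3 r)` -/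
theorem pvjk_tb_core {r ρ : ℝ} (r0 : 0 ≤ r) (hρ : ρ ≤ r) {O : Set ℂ} (hO : pvwSq 0 (3 * r) ⊆ O) {u x : ℂ} (hx : x ∈ pvkdAt u 1 (pvkdP r).Tb) : x ∈ pvtrCore ρ (pvieSh u O) := by
  intro y hy
  rw [pvuy_sh_mem]
  apply hO
  obtain ⟨h1, h2⟩ := pvjk_tb_sq r0 hx
  rw [sub_zero] at h1 h2
  rw [mem_closedBall, dist_eq_norm] at hy
  have e : y - u = (y - x) + (x - u) := by ring
  have a1 := (Complex.abs_re_le_norm (y - x)).trans hy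
  have a2 := (Complex.abs_im_le_norm (y - x)).trans hy
  refine ⟨?_, ?_⟩
  · rw [sub_zero, e, Complex.add_re]
    exact (abs_add_le _ _).trans (by linarith)
  · rw [sub_zero, e, Complex.add_im]
    exact (abs_add_le _ _).trans (by linarith)

theorem pvjk_sq_norm {R : ℝ} {x : ℂ} (hx : x ∈ pvwSq 0 R) : ‖x‖ ≤ 2 * R := by
  obtain ⟨h1, h2⟩ := hx
  rw [sub_zero] at h1 h2
  have := Complex.norm_le_abs_re_add_abs_im x
  linarith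

theorem pvjk_sh0 (S : Set ℂ) : pvieSh 0 S = S := by
  ext x
  rw [pvuy_sh_mem, sub_zero]

variable {𝔓 : PvxPar τ c} {𝔈 : PvieEng τ}

theorem pvjk_zu0 (m : ℕ) (t : τ) : pvieZu 𝔓 m 0 t = (𝔓.Γ m).zu t := by
  unfold pvieZu
  rw [zero_add]

theorem pvjk_We0 (m : ℕ) (t : τ) : pvuyWe 𝔓 𝔈 m 0 t = 𝔈.eM m t ∪ 𝔈.eK m t ∪ pviwRo 𝔓 𝔈 m t := by
  unfold pvuyWe pviwRo
  rw [pvjk_sh0, pvjk_sh0, pvjk_zu0]

theorem pvjk_Wf0 (𝔯 : PvjtRet τ) (m : ℕ) (t : τ) : pvuyWf 𝔓 𝔈 𝔯 m t 0 = 𝔯.fM m t ∪ 𝔯.fK m t ∪ pviwRo 𝔓 𝔈 m t := by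
  unfold pvuyWf pviwRo
  rw [pvjk_sh0, pvjk_sh0, pvjk_zu0]

/-- the tube of the reference plug, centre `0`: in the core of the placed region -/
theorem pvjk_Tb_core {m0 : ℕ} {Cth : ℝ} {r κs : ℕ → ℝ} (H : PvieEng.Wf 𝔓 𝔈 m0 Cth r κs) {m : ℕ} (hm : m0 ≤ m) (t : τ) {ρ : ℝ} (hρ : ρ ≤ (𝔈.rp m).h) :
    pvuyTb (pvilLe 𝔓 𝔈 m 0 t) ⊆ pvtrCore ρ (pviwRo 𝔓 𝔈 m t) := by
  intro x hx
  have h1 : x ∈ pvkdAt (pvieZu 𝔓 m 0 t) 1 (pvkdP (𝔈.rp m).h).Tb := hx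
  rw [pvjk_zu0] at h1
  exact pvjk_tb_core (H.rp_h m hm).le hρ (H.rp_win m hm) h1

theorem pvjk_Zp_Tb {m0 : ℕ} {Cth : ℝ} {r κs : ℕ → ℝ} (H : PvieEng.Wf 𝔓 𝔈 m0 Cth r κs) {m : ℕ} (hm : m0 ≤ m) (z : ℂ) (t : τ) : pvuyZp (pvilLe 𝔓 𝔈 m z t) ⊆ pvuyTb (pvilLe 𝔓 𝔈 m z t) :=
  fun _ hx => pvjk_zp_tb (H.rp_h m hm).le hx

theorem pvjk_Zm_Tb {m0 : ℕ} {Cth : ℝ} {r κs : ℕ → ℝ} (H : PvieEng.Wf 𝔓 𝔈 m0 Cth r κs) {m : ℕ} (hm : m0 ≤ m) (z : ℂ) (t : τ) : pvuyZm (pvilLe 𝔓 𝔈 m z t) ⊆ pvuyTb (pvilLe 𝔓 𝔈 m z t) :=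
  fun _ hx => pvjk_zm_tb (H.rp_h m hm).le hx

theorem pvjk_core_self {ρ : ℝ} (hρ : 0 ≤ ρ) (E : Set ℂ) : pvtrCore ρ E ⊆ E := fun x hx => hx (mem_closedBall_self hρ)

theorem pvjk_mu_nonneg (h3 : 0 ≤ 𝔓.num.rho3) (m : ℕ) : 0 ≤ pvilMu 𝔓 m := by
  unfold pvilMu
  have := le_min (pvlm_Del_pos c m).le (mul_nonneg h3 (pvlm_H_pos m).le)
  linarith

/-- **the vertex mask of the thick link is bounded** -/
theorem pvjk_rg_bd {m0 : ℕ} {Cth : ℝ} {r κs : ℕ → ℝ} (H : PvieEng.Wf 𝔓 𝔈 m0 Cth r κs) (h3 : 0 ≤ 𝔓.num.rho3) {m : ℕ} (hm : m0 ≤ m) {t : τ} (hT : pviwTyOk 𝔓 t) {C r1 : ℝ} (hC : 2 * (𝔓.ty t).b2 + (𝔓.ty t).k * 𝔓.num.rho1 ≤ C) :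
    ∀ a ∈ pvuyA (pvilLe 𝔓 𝔈 m 0 t) (pvuyMm 𝔓 m 0 t r1), ‖a‖ + 2 * pvjkMuR 𝔓 m ≤ (|Cth| + 2 * |C| + 𝔓.num.rho3) * pvlmH m := by
  have hh := pvlm_H_pos m
  have hμ : 2 * pvjkMuR 𝔓 m ≤ 𝔓.num.rho3 * pvlmH m := by
    have := pvmd_mu_rho3 𝔓 m
    have h0 := mul_nonneg h3 hh.le
    unfold pvjkMuR
    linarith
  have hb := H.e_bdd m hm t hT
  have k1 : ∀ a ∈ 𝔈.eM m t ∪ 𝔈.eK m t ∪ pviwRo 𝔓 𝔈 m t, ‖a‖ ≤ |Cth| * pvlmH m := fun a ha => by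
    have := hb ha
    rw [mem_closedBall, dist_zero_right] at this
    exact this.trans (mul_le_mul_of_nonneg_right (le_abs_self _) hh.le)
  have k2 : 0 ≤ |C| * pvlmH m := mul_nonneg (abs_nonneg _) hh.le
  have k3 : 0 ≤ |Cth| * pvlmH m := mul_nonneg (abs_nonneg _) hh.le
  have tb : ∀ a ∈ pvuyTb (pvilLe 𝔓 𝔈 m 0 t), ‖a‖ ≤ |Cth| * pvlmH m := fun a ha =>
    k1 a (Or.inr (pvjk_core_self le_rfl _ (pvjk_Tb_core H hm t (H.rp_h m hm).le ha)))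
  rintro a (ha | (ha | ha) | ha)
  · have := tb a ha
    nlinarith
  · have := tb a (pvjk_Zp_Tb H hm 0 t ha)
    nlinarith
  · have h1 : a ∈ pvieSh 0 (𝔈.eY m t) := ha
    rw [pvjk_sh0] at h1
    have := k1 a (H.eY_sub m hm t hT h1)
    nlinarith
  · have h1 := pvjk_sq_norm ha.1.2
    have h2 : pviwRad 𝔓 m t ≤ |C| * pvlmH m := by
      unfold pviwRad pvwRad
      exact mul_le_mul_of_nonneg_right (hC.trans (le_abs_self _)) hh.le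
    nlinarith

/-- **THE REGION LINES OF 290 FROM `PvieEng.Wf` AND THE LINES WHICH ARE NOT IN IT** -/
theorem pvjk_rg {m0 : ℕ} {Cth : ℝ} {r κs : ℕ → ℝ} (H : PvieEng.Wf 𝔓 𝔈 m0 Cth r κs) (h3 : 0 < 𝔓.num.rho3) {m : ℕ} (hm : m0 ≤ m) {t : τ} (hT : pviwTyOk 𝔓 t) {C : ℝ} (hC : 2 * (𝔓.ty t).b2 + (𝔓.ty t).k * 𝔓.num.rho1 ≤ C)
    (G : PvjkRg 𝔓 𝔈 m t) (Mk : ℕ → τ → Set ℂ) : PvuyRg 𝔓 𝔈 (pvjtRetE 𝔈 Mk) (pvjkMuR 𝔓) (|Cth| + 2 * |C| + 𝔓.num.rho3) m t where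
  S := G.S
  hb := G.hb
  hδ := pvlm_Del_pos c m
  h3 := h3
  hμ := le_rfl
  ce := by
    rw [pvjk_We0, pvjk_sh0]
    have tb := (pvjk_Tb_core H hm t G.ru).trans (pvtr_core_mono (subset_union_right (s := 𝔈.eM m t ∪ 𝔈.eK m t)))
    exact union_subset tb (union_subset ((pvjk_Zp_Tb H hm 0 t).trans tb) G.ce)
  cf := by
    rw [pvjk_Wf0, pvjk_sh0]
    have tb := (pvjk_Tb_core H hm t G.ru).trans (pvtr_core_mono (subset_union_right (s := 𝔈.fM m t ∪ 𝔈.fK m t)))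
    exact union_subset G.cf ((pvjk_Zm_Tb H hm 0 t).trans tb)
  bd := pvjk_rg_bd H h3.le hm hT hC

/-- **[R] FOR ANY ENGINE WITH `PvnaWf`**: the statement of `exit_pvww_recog` from [W] and the lines `PvjkRg` -/
theorem pvjk_recog_wf [Finite τ] (h𝔓 : 𝔓.WfB) (hE : PvnaWf 𝔓 𝔈) (h3 : 0 < 𝔓.num.rho3)
    (hW : ∃ b0 : ℝ≥0∞, ∀ (Mk : ℕ → τ → Set ℂ) (L : ℝ), (∀ m t, MeasurableSet (Mk m t)) → PvjtWf 𝔓 𝔈 (pvjtRetE 𝔈 Mk) L b0)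
    (G : ∀ m t, pvjtLv 𝔓 m t → PvjkRg 𝔓 𝔈 m t) :
    ∃ (Mk : ℕ → τ → Set ℂ) (L : ℝ), (∀ m t, MeasurableSet (Mk m t)) ∧ PvjtRecog 𝔓 𝔈 (pvjtRetE 𝔈 Mk) pvilQ pvqWQ L ∧ PvjtRecog 𝔓 𝔈 (pvjtRetE 𝔈 Mk) pvilV pvbeWV L := by
  obtain ⟨Cth, r, κs, H⟩ := hE.wf
  obtain ⟨b0, hW⟩ := hW
  obtain ⟨C, hC⟩ : ∃ C : ℝ, ∀ t : τ, 2 * (𝔓.ty t).b2 + (𝔓.ty t).k * 𝔓.num.rho1 ≤ C := by
    obtain ⟨C, hC⟩ := (Set.finite_range fun t : τ => 2 * (𝔓.ty t).b2 + (𝔓.ty t).k * 𝔓.num.rho1).bddAbove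
    exact ⟨C, fun t => hC ⟨t, rfl⟩⟩
  have hB := pvml_engB H
  have mM : ∀ m t, MeasurableSet (pvuyMk 𝔓 𝔈 (pvjkMuR 𝔓) m t) := pvuy_Mk_meas hB.rO _
  have R : ∀ m t, pvjtLv 𝔓 m t → PvuyRg 𝔓 𝔈 (pvjtRetE 𝔈 (pvuyMk 𝔓 𝔈 (pvjkMuR 𝔓))) (pvjkMuR 𝔓) (|Cth| + 2 * |C| + 𝔓.num.rho3) m t :=
    fun m t hl => pvjk_rg H h3 hl.1 hl.2 (hC t) (G m t hl) _
  exact ⟨pvuyMk 𝔓 𝔈 (pvjkMuR 𝔓), |Cth| + 2 * |C| + 𝔓.num.rho3, mM, pvuy_recog_Q (hW _ _ mM) h𝔓 hB hB.fY R, pvuy_recog_V (hW _ _ mM) h𝔓 hB hB.fY R⟩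

end gen

/-! ## 1'. the two collars (Rc) after U4 (84 `Exit/EngU4`), room of `e` = open core (118 `Exit/EngYc`), room of `f` = core of 182: ANY engine whose fields contain / lie in the named regions -/

section u4

variable {τ : Type} {c : ℝ} {𝔓 : PvxPar τ c} {m0 m : ℕ} {t : τ}

/-- the room v2 of the thick link (166 + funnel of 124) lies in mouth, tile AFTER U4, window AFTER U4 -/
theorem pvjk_eY_u4 (J : PveaIn) (H : PveaPar 𝔓 m0) (hm : m0 ≤ m) (hT : pviwTyOk 𝔓 t) :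
    pveheY 𝔓 (pvegIM 𝔓) m t ∪ pvegIK 𝔓 m t ⊆ pvegIM 𝔓 m t ∪ pvnuEK 𝔓 m t ∪ pvieSh ((𝔓.Γ m).zu t) (pvnuRO 𝔓 m) := by
  have hn := pvea_Nw_nonneg H m
  have ip := pvea_i_plug (J := J) H hm hT
  have hM : Disjoint (pvegIM 𝔓 m t) (pvieSh ((pvxrGam 𝔓 m).zu t) (pvehrO 𝔓 m)) := ip.mono subset_union_left subset_union_right
  have hK : Disjoint (pvegIK 𝔓 m t) (pvieSh ((pvxrGam 𝔓 m).zu t) (pvehrO 𝔓 m)) := ip.mono subset_union_right subset_union_right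
  have h1 : pveheY 𝔓 (pvegIM 𝔓) m t ∪ pvegIK 𝔓 m t ⊆ (pvegIM 𝔓 m t ∪ (pveheK 𝔓 (pvegIM 𝔓) m t ∪ pvegIK 𝔓 m t)) ∪ pvieSh ((pvxrGam 𝔓 m).zu t) (pvehrO 𝔓 m) := by
    rintro v (hv | hv)
    · rcases pveh_eY_sub (𝔓 := 𝔓) (Mi := pvegIM 𝔓) (Mo := pvegIM 𝔓) (fun _ _ => Subset.rfl) hn t hv with (h | h) | h
      · exact Or.inl (Or.inl h)
      · exact Or.inl (Or.inr (Or.inl h))
      · exact Or.inr h
    · exact Or.inl (Or.inr (Or.inr hv))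
  have h2 := pvnu4_room_W _ h1 (pvnu4_eY_W hn t Subset.rfl hM hK (pvnuRO 𝔓 m))
  unfold pvnuEK
  rw [H.gam]
  rintro v hv
  rcases h2 hv with ((h | h) | h) | h
  · exact Or.inl (Or.inl h)
  · exact Or.inl (Or.inr (Or.inl h))
  · exact Or.inl (Or.inr (Or.inr h))
  · exact Or.inr h

/-- **(Rc) OF THE THICK LINK AFTER U4**, room inside the open core of the room v2 -/
theorem pvjk_ce_u4 (J : PveaIn) (H : PveaPar 𝔓 m0) (hm : m0 ≤ m) (hT : pviwTyOk 𝔓 t) {𝔈 : PvieEng τ} (hM : pvegIM 𝔓 m t ⊆ 𝔈.eM m t) (hK : pvnuEK 𝔓 m t ⊆ 𝔈.eK m t) (hO : pvnuRO 𝔓 m ⊆ 𝔈.rO m)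
    (hY : 𝔈.eY m t ⊆ pvvzCo (3 * pvilMu 𝔓 m) (pveheY 𝔓 (pvegIM 𝔓) m t ∪ pvegIK 𝔓 m t)) :
    ∀ v ∈ 𝔈.eY m t, closedBall v (3 * pvilMu 𝔓 m) ⊆ 𝔈.eM m t ∪ 𝔈.eK m t ∪ pviwRo 𝔓 𝔈 m t := fun v hv =>
  (pvvz_collar (pvjk_eY_u4 J H hm hT) v (hY hv)).trans (union_subset_union (union_subset_union hM hK) (Set.image_mono hO))

/-- **(Rc) OF THE THICK RETURN AFTER U4**, room inside the core of 182 -/
theorem pvjk_cf_u4 (H : PveaPar 𝔓 m0) (hm : m0 ≤ m) (hT : pviwTyOk 𝔓 t) {𝔈 : PvieEng τ} (hM : pvegOM 𝔓 m t ⊆ 𝔈.fM m t) (hK : pvnuFK 𝔓 m t ⊆ 𝔈.fK m t) (hO : pvnuRO 𝔓 m ⊆ 𝔈.rO m)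
    (hY : 𝔈.fY m t ⊆ pveffY 𝔓 m t) :
    ∀ v ∈ 𝔈.fY m t, closedBall v (3 * pvilMu 𝔓 m) ⊆ 𝔈.fM m t ∪ 𝔈.fK m t ∪ pviwRo 𝔓 𝔈 m t := by
  intro v hv w hw
  have F := pvea_ndgF H hm hT
  have hΔ := pveh_Dl_pos (pvef_n0 F)
  have h1 := pvef_fY_col F v (hY hv) (closedBall_subset_closedBall (pvef_Mu_le (𝔓 := 𝔓) m) hw)
  rcases h1 with (h | h) | ⟨h, h'⟩
  · exact Or.inl (Or.inl (hM h))
  · exact Or.inl (Or.inr (hK (Or.inl h)))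
  · have h0 : (w - (pvxrGam 𝔓 m).zu t).re ≤ -(pvehDl 𝔓 m / 64) := h'
    rw [pveh_mem_sh] at h
    by_cases hO' : w - (pvxrGam 𝔓 m).zu t ∈ pvnuRO 𝔓 m
    · refine Or.inr ?_
      unfold pviwRo
      rw [H.gam, pveh_mem_sh]
      exact hO hO'
    · refine Or.inl (Or.inr (hK (Or.inr ?_)))
      rw [H.gam, pveh_mem_sh]
      exact ⟨⟨h, hO'⟩, by show (w - (pvxrGam 𝔓 m).zu t).re < 0; linarith⟩

end u4

/-! ## 2. at the parameters of record, any engine; at the engine of record -/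

section rec

variable {N : PvxNums} (hN : N.Ok) {c : ℝ}

theorem pvjk_rec_mu_pos (m : ℕ) : 0 < pvilMu (pvxParOf N hN c) m := by
  unfold pvilMu
  have : 0 < min (pvlmDel c m) ((pvxParOf N hN c).num.rho3 * pvlmH m) := lt_min (pvlm_Del_pos c m) (mul_pos hN.msk0 (pvlm_H_pos m))
  linarith

/-- **THE SIX LINES OF [R] ON THE ENGINE**, parameters of record, one level, one type: unit of the reference plug, the two rooms from above (55: `pvmd_S_rec2`), the two collars (Rc) -/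
structure PvjkEn (c : ℝ) (𝔈 : PvieEng (pvxTau N)) (m : ℕ) (t : pvxTau N) : Prop where
  ru : pvehDl (pvxParOf N hN c) m / 20 ≤ (𝔈.rp m).h
  ru' : (𝔈.rp m).h ≤ pvehDl (pvxParOf N hN c) m / 12
  eY : 𝔈.eY m t ⊆ pvmdE (pvxParOf N hN c) m t
  fY : 𝔈.fY m t ⊆ pveffY0 (pvxParOf N hN c) m t
  ce : ∀ v ∈ 𝔈.eY m t, closedBall v (3 * pvilMu (pvxParOf N hN c) m) ⊆ 𝔈.eM m t ∪ 𝔈.eK m t ∪ pviwRo (pvxParOf N hN c) 𝔈 m t
  cf : ∀ v ∈ 𝔈.fY m t, closedBall v (3 * pvilMu (pvxParOf N hN c) m) ⊆ 𝔈.fM m t ∪ 𝔈.fK m t ∪ pviwRo (pvxParOf N hN c) 𝔈 m t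

theorem pvjk_rec_hb (m : ℕ) (t : pvxTau N) : ((pvxParOf N hN c).ty t).b * pvlmH m ≤ pviwRad (pvxParOf N hN c) m t := by
  have hh := pvlm_H_pos m
  have h1 : ((pvxParOf N hN c).ty t).b ≤ 2 * ((pvxParOf N hN c).ty t).b2 := by
    show N.b1 ≤ 2 * N.b2
    linarith [hN.gap, hN.ab2, hN.rho_lt_one, hN.b2_pos, hN.rho0]
  have hk : 0 ≤ (((pvxParOf N hN c).ty t).k : ℝ) * (pvxParOf N hN c).num.rho1 := mul_nonneg (Nat.cast_nonneg _) hN.rho1_pos.le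
  unfold pviwRad pvwRad
  nlinarith

/-- the lines of (K4) which are not in `PvieEng.Wf`, from the six lines -/
theorem pvjk_par_rg (c0 : 0 < c) {𝔈 : PvieEng (pvxTau N)} {m0 : ℕ} {Cth : ℝ} {r κs : ℕ → ℝ} (H : PvieEng.Wf (pvxParOf N hN c) 𝔈 m0 Cth r κs) {m : ℕ} (hm0 : m0 ≤ m) (hm : N.m0 ≤ m) {t : pvxTau N}
    (E : PvjkEn hN c 𝔈 m t) : PvjkRg (pvxParOf N hN c) 𝔈 m t where
  S := by
    have h0 := pvjk_rec_mu_pos hN (c := c) m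
    refine pvmd_S_rec2 hN c0 hm 0 t (by unfold pvjkMuR; linarith) (by unfold pvjkMuR; linarith) ?_ E.ru E.ru' (H.rp_win m hm0) E.eY ⟨rfl, rfl, rfl, rfl, rfl, rfl, rfl⟩ (Set.image_mono E.fY)
    have h1 : 0 < N.rho * pvlmH m := mul_pos hN.rho0 (pvlm_H_pos m)
    show N.rho * pvlmH m / 2 ≤ 5 * N.rho * pvlmH m / 8
    linarith
  hb := pvjk_rec_hb hN m t
  ru := by
    have h1 := pvmd_mu_del (pvxParOf N hN c) m
    have h2 := pveh_Del_le_Dl (pvea_Nw_nonneg (pvea_par hN c0) m)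
    have h3 := pvlm_Del_pos c m
    have h4 := E.ru
    linarith
  ce := E.ce
  cf := E.cf

/-- **[R] AT THE PARAMETERS OF RECORD, ANY ENGINE WITH `PvnaWf`**, from [W] and the six lines -/
theorem pvjk_recog_par (c0 : 0 < c) {𝔈 : PvieEng (pvxTau N)} (hE : PvnaWf (pvxParOf N hN c) 𝔈)
    (hW : ∃ b0 : ℝ≥0∞, ∀ (Mk : ℕ → pvxTau N → Set ℂ) (L : ℝ), (∀ m t, MeasurableSet (Mk m t)) → PvjtWf (pvxParOf N hN c) 𝔈 (pvjtRetE 𝔈 Mk) L b0)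
    (E : ∀ m, N.m0 ≤ m → ∀ t, PvjkEn hN c 𝔈 m t) :
    ∃ (Mk : ℕ → pvxTau N → Set ℂ) (L : ℝ), (∀ m t, MeasurableSet (Mk m t)) ∧ PvjtRecog (pvxParOf N hN c) 𝔈 (pvjtRetE 𝔈 Mk) pvilQ pvqWQ L ∧
      PvjtRecog (pvxParOf N hN c) 𝔈 (pvjtRetE 𝔈 Mk) pvilV pvbeWV L := by
  obtain ⟨Cth, r, κs, H⟩ := hE.wf
  exact pvjk_recog_wf (pvxo_wf N hN c).toWfB hE hN.msk0 hW fun m t hl => pvjk_par_rg hN c0 H hl.1 hl.1 (E m hl.1 t)

/-! ### the six lines at the engine of record -/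

theorem pvjk_rec_ru (c0 : 0 < c) (nb : PvnaNb N) (m : ℕ) :
    pvehDl (pvxParOf N hN c) m / 20 ≤ ((pvnaEngRec N hN c nb).rp m).h ∧ ((pvnaEngRec N hN c nb).rp m).h ≤ pvehDl (pvxParOf N hN c) m / 12 := by
  have h2 := pveh_Dl_pos (𝔓 := pvxParOf N hN c) (pvea_Nw_nonneg (pvea_par hN c0) m)
  first
    | (have e : ((pvnaEngRec N hN c nb).rp m).h = pvehDl (pvxParOf N hN c) m / 20 := rfl
       rw [e]
       constructor <;> linarith)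
    | (have e : ((pvnaEngRec N hN c nb).rp m).h = pvehDl (pvxParOf N hN c) m / 16 := rfl
       rw [e]
       constructor <;> linarith)

/-- the room of the thick link of record lies in the largest room of 55 -/
theorem pvjk_rec_eY (nb : PvnaNb N) (m : ℕ) (t : pvxTau N) : (pvnaEngRec N hN c nb).eY m t ⊆ pvmdE (pvxParOf N hN c) m t := by
  first
    | exact subset_union_left
    | exact (pvvz_sub (by have := pvjk_rec_mu_pos hN (c := c) m; linarith) _).trans subset_union_left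
    | exact (pvvz_eY_old (by have h := pvjk_rec_mu_pos hN (c := c) m; have e : pviwMu (pvxParOf N hN c) m = pvilMu (pvxParOf N hN c) m := rfl; rw [e]; linarith) t).trans subset_union_left
    | exact subset_union_right

/-- the room of the thick return of record lies in the outer room of 182 -/
theorem pvjk_rec_fY (nb : PvnaNb N) (m : ℕ) (t : pvxTau N) : (pvnaEngRec N hN c nb).fY m t ⊆ pveffY0 (pvxParOf N hN c) m t := by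
  first
    | exact pvef_fY_sub0 m t
    | exact fun x hx => hx.elim

/-- **(Rc) AT THE ROOM OF THE THICK LINK OF RECORD**      PROVED AFTER L2 (`eY := pvvzEY` = open core of 118): `pvjk_ce_u4` of 132 -/
theorem exit_pvjk_ce (c0 : 0 < c) (nb : PvnaNb N) {m : ℕ} (hm : N.m0 ≤ m) (t : pvxTau N) : ∀ v ∈ (pvnaEngRec N hN c nb).eY m t,
    closedBall v (3 * pvilMu (pvxParOf N hN c) m) ⊆ (pvnaEngRec N hN c nb).eM m t ∪ (pvnaEngRec N hN c nb).eK m t ∪ pviwRo (pvxParOf N hN c) (pvnaEngRec N hN c nb) m t := by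
  exact pvjk_ce_u4 (pvnaInRec N hN c nb) (pvea_par hN c0) hm (pvea_tyOk hN t) Subset.rfl Subset.rfl Subset.rfl Subset.rfl

/-- **(Rc) AT THE ROOM OF THE THICK RETURN OF RECORD**      [after L1 (A) of 13 `fY := pveffY`: `pvef_fY_colMu` of 182] -/
theorem exit_pvjk_cf (c0 : 0 < c) (nb : PvnaNb N) {m : ℕ} (hm : N.m0 ≤ m) (t : pvxTau N) : ∀ v ∈ (pvnaEngRec N hN c nb).fY m t,
    closedBall v (3 * pvilMu (pvxParOf N hN c) m) ⊆ (pvnaEngRec N hN c nb).fM m t ∪ (pvnaEngRec N hN c nb).fK m t ∪ pviwRo (pvxParOf N hN c) (pvnaEngRec N hN c nb) m t := by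
  first
    | exact pvef_fY_colMu (pvef_ndg_of ((pvea_par hN c0).ndg m hm t (pvea_tyOk hN t)) (pvea_tyOk hN t))
    | exact pvjk_cf_u4 (pvea_par hN c0) hm (pvea_tyOk hN t) Subset.rfl Subset.rfl Subset.rfl Subset.rfl

theorem pvjk_rec_en (c0 : 0 < c) (nb : PvnaNb N) {m : ℕ} (hm : N.m0 ≤ m) (t : pvxTau N) : PvjkEn hN c (pvnaEngRec N hN c nb) m t :=
  ⟨(pvjk_rec_ru hN c0 nb m).1, (pvjk_rec_ru hN c0 nb m).2, pvjk_rec_eY hN nb m t, pvjk_rec_fY hN nb m t, exit_pvjk_ce hN c0 nb hm t, exit_pvjk_cf hN c0 nb hm t⟩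

/-- **[R] = `exit_pvww_recog` OF `Exit/AnaW` VERBATIM**, + the hypothesis [W] (`exit_pvww_jtwf c0 N hN 𝔈 hE hR`; only its six Borel lines are read) -/
theorem pvjk_recog_rec (c0 : 0 < c) (N : PvxNums) (hN : N.Ok) (𝔈 : PvieEng (pvxTau N)) (hE : PvnaWf (pvxParOf N hN c) 𝔈) (hR : PvnaRec N hN c 𝔈)
    (hW : ∃ b0 : ℝ≥0∞, ∀ (Mk : ℕ → pvxTau N → Set ℂ) (L : ℝ), (∀ m t, MeasurableSet (Mk m t)) → PvjtWf (pvxParOf N hN c) 𝔈 (pvjtRetE 𝔈 Mk) L b0) :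
    ∃ (Mk : ℕ → pvxTau N → Set ℂ) (L : ℝ), (∀ m t, MeasurableSet (Mk m t)) ∧ PvjtRecog (pvxParOf N hN c) 𝔈 (pvjtRetE 𝔈 Mk) pvilQ pvqWQ L ∧
      PvjtRecog (pvxParOf N hN c) 𝔈 (pvjtRetE 𝔈 Mk) pvilV pvbeWV L := by
  obtain ⟨nb, rfl⟩ := hR
  exact pvjk_recog_par hN c0 hE hW fun m hm t => pvjk_rec_en hN c0 nb hm t

end rec

end Claimed.Agent.R289
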