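-- KEEP
import Claimed.Agent.R289.Exit.ParEngR
import Claimed.Agent.R289.Exit.ParEng

/-!
# Row 289 (S0537), THE WALL, ROAD E, roof (S0) PAR, file Exit/ParOK : THE PRODUCER OF `PvxrOK`      (helper285; orphan board of 82 / 162, order of 24; head of (S0) helper73; prefix `pvzh`, `Pvzh`)

`Exit/TrPar.lean` (helper1) proves everything about the reference word, the ring road, the reference plug and the thick short link under ONE integer hypothesis `PvxrOK B M a b e⁺ e⁻ n` ("the type is not degenerate").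
HERE: `PvxrOK` AT THE DOORS OF RECORD from the three lines of the NON DEGENERATE MENU of 73 (RULING S0-N, 10:58Z):
      `|pvccN y⁺ - r_k| ≤ ρ / 10`,      `|pvccN y⁻ - r_k| ≤ ρ / 10`,      `4 ρ / 5 ≤ ‖y⁺ - y⁻‖` (a fortiori `7/4 ρ`)      (`r_k = 2 b₂ + k ρ₁`, units of `h`)      and `1000 ≤ N_m ρ` (levels `m ≥ m0`).
* sec. 1  the frame of a side: normal and lateral coordinate `pvzhNor a`, `pvzhLat a` (an isometry of the plane), the side faced by `y` sees `pvccN y` as normal coordinate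
* sec. 2  floors: the integer coordinates of the base cell `pvxrCell N (y + κ I ^ a)` in the frame of its side
* sec. 3  **`pvzh_ok`** (model free: reals), with `B := ⌈N (r_k + ρ / 10)⌉` (the own box FATTENED by the tolerance of the menu: corners are no exception)
* sec. 4  **`pvzh_ok_at`** at `PvxPar` (`pvxrA pvxrB pvxrEp pvxrEm pvxrM pvxrNw` of helper1), `pvzh_B_box` (the square of `B` cells contains the own box), `pvzh_zu`, **`pvzh_geo`** (`PvehGeo` of 166), **`pvzh_doors`** (`PvfeDoors` of 209 at `pvxrGam`)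
-/

set_option autoImplicit false

namespace Claimed.Agent.R289

open Set Complex

/-! ## 1. the frame of a side -/

/-- normal coordinate in the frame of the side `a` (`= Re (y conj (I ^ a))`) -/
def pvzhNor (a : ℕ) (y : ℂ) : ℝ :=
  match a % 4 with
  | 0 => y.re
  | 1 => y.im
  | 2 => - y.re
  | _ => - y.im

/-- lateral coordinate in the frame of the side `a` (`= Im (y conj (I ^ a))` = normal coordinate of the side `a + 1`) -/
def pvzhLat (a : ℕ) (y : ℂ) : ℝ :=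
  match a % 4 with
  | 0 => y.im
  | 1 => - y.re
  | 2 => - y.im
  | _ => y.re

theorem pvzh_eqns_cite : True := by
  have := @pvzhNor.eq_1; have := @pvzhLat.eq_1
  trivial

/-- the frame is an isometry -/
theorem pvzh_frame_sq {a : ℕ} (ha : a < 4) (y y' : ℂ) : ‖y - y'‖ ^ 2 = (pvzhNor a y - pvzhNor a y') ^ 2 + (pvzhLat a y - pvzhLat a y') ^ 2 := by
  rw [Complex.sq_norm, Complex.normSq_apply]
  interval_cases a <;> simp only [pvzhNor, pvzhLat, Complex.sub_re, Complex.sub_im] <;> ring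

/-- the side faced by `y` sees the sup norm as normal coordinate -/
theorem pvzh_nor_side (y : ℂ) : pvzhNor (pvxrSide y) y = pvccN y := by
  unfold pvxrSide pvccN
  split_ifs with h1 h2 h2
  · simp only [pvzhNor]; rw [max_eq_left h1, abs_of_nonneg h2]
  · simp only [pvzhNor]; rw [max_eq_left h1, abs_of_neg (not_le.1 h2)]
  · simp only [pvzhNor]; rw [max_eq_right (not_le.1 h1).le, abs_of_nonneg h2]
  · simp only [pvzhNor]; rw [max_eq_right (not_le.1 h1).le, abs_of_neg (not_le.1 h2)]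

theorem pvzh_lat_le {a : ℕ} (ha : a < 4) (y : ℂ) : |pvzhLat a y| ≤ pvccN y := by
  unfold pvccN
  interval_cases a <;> simp only [pvzhLat, abs_neg]
  · exact le_max_right _ _
  · exact le_max_left _ _
  · exact le_max_right _ _
  · exact le_max_left _ _

/-- moving along the normal -/
theorem pvzh_nor_add {a : ℕ} (ha : a < 4) (y : ℂ) (κ : ℝ) : pvzhNor a (y + (κ : ℂ) * I ^ a) = pvzhNor a y + κ := by
  interval_cases a <;> simp [pvzhNor, pow_succ] <;> ring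

theorem pvzh_lat_add {a : ℕ} (ha : a < 4) (y : ℂ) (κ : ℝ) : pvzhLat a (y + (κ : ℂ) * I ^ a) = pvzhLat a y := by
  interval_cases a <;> simp [pvzhLat, pow_succ]

/-! ## 2. floors -/

theorem pvzh_floor_abs {t T : ℝ} (h : |t| ≤ T) : |⌊t⌋| ≤ ⌈T⌉ := by
  obtain ⟨h1, h2⟩ := abs_le.1 h
  rw [abs_le]
  constructor
  · rw [← Int.floor_neg]
    exact Int.floor_le_floor h1
  · exact (Int.floor_le_floor h2).trans (Int.floor_le_ceil T)

/-- the normal integer coordinate of a cell: within `1` of the real one -/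
theorem pvzh_dot_nor {a : ℕ} (ha : a < 4) (N : ℕ) (w : ℂ) :
    (N : ℝ) * pvzhNor a w - 1 ≤ (pvxrDot (pvxrCell N w) (pvxrE a) : ℝ) ∧ (pvxrDot (pvxrCell N w) (pvxrE a) : ℝ) ≤ (N : ℝ) * pvzhNor a w + 1 := by
  have h1 := Int.floor_le ((N : ℝ) * w.re)
  have h2 := Int.lt_floor_add_one ((N : ℝ) * w.re)
  have h3 := Int.floor_le ((N : ℝ) * w.im)
  have h4 := Int.lt_floor_add_one ((N : ℝ) * w.im)
  interval_cases a <;> simp only [pvxrDot, pvxrCell, pvxrE, pvzhNor] <;> push_cast <;> constructor <;> nlinarith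

/-- the lateral integer coordinate of a cell: within `1` of the real one -/
theorem pvzh_dot_lat {a : ℕ} (ha : a < 4) (N : ℕ) (w : ℂ) :
    (N : ℝ) * pvzhLat a w - 1 ≤ (pvxrDot (pvxrCell N w) (pvxrE (a + 1)) : ℝ) ∧ (pvxrDot (pvxrCell N w) (pvxrE (a + 1)) : ℝ) ≤ (N : ℝ) * pvzhLat a w + 1 := by
  have h1 := Int.floor_le ((N : ℝ) * w.re)
  have h2 := Int.lt_floor_add_one ((N : ℝ) * w.re)
  have h3 := Int.floor_le ((N : ℝ) * w.im)
  have h4 := Int.lt_floor_add_one ((N : ℝ) * w.im)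
  interval_cases a <;> simp only [pvxrDot, pvxrCell, pvxrE, pvzhLat] <;> push_cast <;> constructor <;> nlinarith

/-- the lateral integer coordinate of a cell: SHARP bound -/
theorem pvzh_dot_lat_abs {a : ℕ} (ha : a < 4) (N : ℕ) (w : ℂ) {T : ℝ} (h : (N : ℝ) * |pvzhLat a w| ≤ T) : |pvxrDot (pvxrCell N w) (pvxrE (a + 1))| ≤ ⌈T⌉ := by
  have hN : (0 : ℝ) ≤ N := Nat.cast_nonneg N
  interval_cases a <;> simp only [pvxrDot, pvxrCell, pvxrE, pvzhLat, abs_neg] at h ⊢ <;> simp only [mul_zero, mul_one, zero_add, add_zero, mul_neg, abs_neg] <;>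
    exact pvzh_floor_abs (by rw [abs_mul, abs_of_nonneg hN]; exact h)

/-! ## 3. `PvxrOK`, model free -/

section core

variable {N : ℕ} {ρ rad radK : ℝ} {yp ym : ℂ}

/-- **THE TYPE IS NOT DEGENERATE** from the three lines of the menu.      `B` = the own box fattened by the tolerance `ρ / 10` of the menu. -/
theorem pvzh_ok (hρ0 : 0 < ρ) (hρ : ρ ≤ 1 / 2) (hN : 1000 ≤ (N : ℝ) * ρ) (hr0 : 0 ≤ rad) (hrK : rad ≤ radK)
    (hp : |pvccN yp - rad| ≤ ρ / 10) (hm : |pvccN ym - rad| ≤ ρ / 10) (hfar : 4 * ρ / 5 ≤ ‖yp - ym‖) :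
    PvxrOK ⌈(N : ℝ) * (rad + ρ / 10)⌉ ⌈(N : ℝ) * (radK + 1)⌉ (pvxrSide yp) (pvxrSide ym)
      (pvxrCell N (yp + ((3 * ρ / 8 : ℝ) : ℂ) * I ^ pvxrSide yp)) (pvxrCell N (ym + ((3 * ρ / 8 : ℝ) : ℂ) * I ^ pvxrSide ym)) ⌈(N : ℝ) * (ρ / 32)⌉ := by
  have ha := pvxr_side_lt yp
  have hb := pvxr_side_lt ym
  have hN0 : (0 : ℝ) ≤ N := Nat.cast_nonneg N
  obtain ⟨p1, p2⟩ := abs_le.1 hp
  obtain ⟨m1, m2⟩ := abs_le.1 hm
  -- the three ceilings
  have B1 := Int.le_ceil ((N : ℝ) * (rad + ρ / 10))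
  have B2 := Int.ceil_lt_add_one ((N : ℝ) * (rad + ρ / 10))
  have M1 := Int.le_ceil ((N : ℝ) * (radK + 1))
  have n2 := Int.ceil_lt_add_one ((N : ℝ) * (ρ / 32))
  -- the coordinates of the two base cells
  obtain ⟨ep1, ep2⟩ := pvzh_dot_nor ha N (yp + ((3 * ρ / 8 : ℝ) : ℂ) * I ^ pvxrSide yp)
  obtain ⟨em1, em2⟩ := pvzh_dot_nor hb N (ym + ((3 * ρ / 8 : ℝ) : ℂ) * I ^ pvxrSide ym)
  rw [pvzh_nor_add ha, pvzh_nor_side] at ep1 ep2
  rw [pvzh_nor_add hb, pvzh_nor_side] at em1 em2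
  have q2' : (N : ℝ) * pvccN yp ≤ (N : ℝ) * (rad + ρ / 10) := mul_le_mul_of_nonneg_left (by linarith) hN0
  have q4' : (N : ℝ) * pvccN ym ≤ (N : ℝ) * (rad + ρ / 10) := mul_le_mul_of_nonneg_left (by linarith) hN0
  have hepl : |pvxrDot (pvxrCell N (yp + ((3 * ρ / 8 : ℝ) : ℂ) * I ^ pvxrSide yp)) (pvxrE (pvxrSide yp + 1))| ≤ ⌈(N : ℝ) * (rad + ρ / 10)⌉ := by
    refine pvzh_dot_lat_abs ha N _ ?_
    rw [pvzh_lat_add ha]
    exact (mul_le_mul_of_nonneg_left (pvzh_lat_le ha yp) hN0).trans q2'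
  have heml : |pvxrDot (pvxrCell N (ym + ((3 * ρ / 8 : ℝ) : ℂ) * I ^ pvxrSide ym)) (pvxrE (pvxrSide ym + 1))| ≤ ⌈(N : ℝ) * (rad + ρ / 10)⌉ := by
    refine pvzh_dot_lat_abs hb N _ ?_
    rw [pvzh_lat_add hb]
    exact (mul_le_mul_of_nonneg_left (pvzh_lat_le hb ym) hN0).trans q4'
  have B0 : 0 ≤ ⌈(N : ℝ) * (rad + ρ / 10)⌉ := Int.ceil_nonneg (by positivity)
  have n0 : 0 ≤ ⌈(N : ℝ) * (ρ / 32)⌉ := Int.ceil_nonneg (by positivity)
  generalize ⌈(N : ℝ) * (rad + ρ / 10)⌉ = Bz at B1 B2 B0 hepl heml ⊢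
  generalize ⌈(N : ℝ) * (radK + 1)⌉ = Mz at M1 ⊢
  generalize ⌈(N : ℝ) * (ρ / 32)⌉ = nz at n2 n0 ⊢
  -- everything linear in the atoms `X = N ρ`, `N rad`, `N radK`, `N |y⁺|`, `N |y⁻|`, `N`
  have hX2 : (N : ℝ) * ρ ≤ (N : ℝ) * (1 / 2) := mul_le_mul_of_nonneg_left hρ hN0
  have hrr : (N : ℝ) * rad ≤ (N : ℝ) * radK := mul_le_mul_of_nonneg_left hrK hN0
  have q1 : (N : ℝ) * (rad - ρ / 10) ≤ (N : ℝ) * pvccN yp := mul_le_mul_of_nonneg_left (by linarith) hN0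
  have q3 : (N : ℝ) * (rad - ρ / 10) ≤ (N : ℝ) * pvccN ym := mul_le_mul_of_nonneg_left (by linarith) hN0
  have q2 := q2'
  have q4 := q4'
  simp only [mul_add, mul_sub, mul_one] at B1 B2 M1 ep1 ep2 em1 em2 q1 q2 q3 q4
  have x1 : (N : ℝ) * (ρ / 10) = (N : ℝ) * ρ / 10 := by ring
  have x2 : (N : ℝ) * (ρ / 32) = (N : ℝ) * ρ / 32 := by ring
  have x3 : (N : ℝ) * (3 * ρ / 8) = 3 * ((N : ℝ) * ρ) / 8 := by ring
  have x4 : (N : ℝ) * (1 / 2) = (N : ℝ) / 2 := by ring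
  rw [x1] at B1 B2 q1 q2 q3 q4
  rw [x2] at n2
  rw [x3] at ep1 ep2 em1 em2
  rw [x4] at hX2
  refine ⟨ha, hb, n0, B0, ?_, hepl, ?_, heml, ?_, ?_, ?_⟩
  · -- ep_n
    have : (Bz : ℝ) < (pvxrDot (pvxrCell N (yp + ((3 * ρ / 8 : ℝ) : ℂ) * I ^ pvxrSide yp)) (pvxrE (pvxrSide yp)) : ℝ) := by linarith
    exact_mod_cast this
  · -- em_n
    have : (Bz : ℝ) + 2 * (nz : ℝ) < (pvxrDot (pvxrCell N (ym + ((3 * ρ / 8 : ℝ) : ℂ) * I ^ pvxrSide ym)) (pvxrE (pvxrSide ym)) : ℝ) := by linarith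
    exact_mod_cast this
  · -- ep_M
    have : (pvxrDot (pvxrCell N (yp + ((3 * ρ / 8 : ℝ) : ℂ) * I ^ pvxrSide yp)) (pvxrE (pvxrSide yp)) : ℝ) < (Mz : ℝ) := by linarith
    exact_mod_cast this
  · -- em_M
    have : (pvxrDot (pvxrCell N (ym + ((3 * ρ / 8 : ℝ) : ℂ) * I ^ pvxrSide ym)) (pvxrE (pvxrSide ym)) : ℝ) + 9 * (2 * (nz : ℝ) + 1) < (Mz : ℝ) := by linarith
    exact_mod_cast this
  · -- sep
    intro hab
    obtain ⟨lp1, lp2⟩ := pvzh_dot_lat ha N (yp + ((3 * ρ / 8 : ℝ) : ℂ) * I ^ pvxrSide yp)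
    obtain ⟨lm1, lm2⟩ := pvzh_dot_lat hb N (ym + ((3 * ρ / 8 : ℝ) : ℂ) * I ^ pvxrSide ym)
    rw [pvzh_lat_add ha] at lp1 lp2
    have hlat : pvzhLat (pvxrSide ym) ym = pvzhLat (pvxrSide yp) ym := by rw [hab]
    have hE : pvxrE (pvxrSide ym + 1) = pvxrE (pvxrSide yp + 1) := by rw [hab]
    rw [pvzh_lat_add hb, hlat, hE] at lm1 lm2
    have hsq := pvzh_frame_sq ha yp ym
    have hn2 : pvzhNor (pvxrSide yp) ym = pvccN ym := by rw [hab, pvzh_nor_side]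
    rw [pvzh_nor_side, hn2] at hsq
    have h1 : (4 * ρ / 5) ^ 2 ≤ ‖yp - ym‖ ^ 2 := pow_le_pow_left₀ (by positivity) hfar 2
    have h2 : (pvccN yp - pvccN ym) ^ 2 ≤ (ρ / 5) ^ 2 := sq_le_sq' (by linarith) (by linarith)
    have h3 : (3 / 4 * ρ) ^ 2 ≤ (pvzhLat (pvxrSide yp) yp - pvzhLat (pvxrSide yp) ym) ^ 2 := by
      have e1 : (4 * ρ / 5) ^ 2 - (ρ / 5) ^ 2 - (3 / 4 * ρ) ^ 2 = 3 / 80 * ρ ^ 2 := by ring
      have e2 : 0 ≤ 3 / 80 * ρ ^ 2 := by positivity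
      linarith
    have h4 : 3 / 4 * ρ ≤ |pvzhLat (pvxrSide yp) yp - pvzhLat (pvxrSide yp) ym| := by
      have := sq_le_sq.1 h3
      rwa [abs_of_pos (by positivity : (0 : ℝ) < 3 / 4 * ρ)] at this
    have h5 : (6 * (2 * (nz : ℝ) + 1)) <
        |(pvxrDot (pvxrCell N (yp + ((3 * ρ / 8 : ℝ) : ℂ) * I ^ pvxrSide yp)) (pvxrE (pvxrSide yp + 1)) : ℝ) - (pvxrDot (pvxrCell N (ym + ((3 * ρ / 8 : ℝ) : ℂ) * I ^ pvxrSide ym)) (pvxrE (pvxrSide yp + 1)) : ℝ)| := by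
      rcases le_abs'.1 h4 with h6 | h6
      · rw [lt_abs]; right
        have h7 : (N : ℝ) * (pvzhLat (pvxrSide yp) yp - pvzhLat (pvxrSide yp) ym) ≤ (N : ℝ) * (-(3 / 4 * ρ)) := mul_le_mul_of_nonneg_left h6 hN0
        have e : (N : ℝ) * (-(3 / 4 * ρ)) = - (3 / 4 * ((N : ℝ) * ρ)) := by ring
        rw [mul_sub, e] at h7
        linarith
      · rw [lt_abs]; left
        have h7 : (N : ℝ) * (3 / 4 * ρ) ≤ (N : ℝ) * (pvzhLat (pvxrSide yp) yp - pvzhLat (pvxrSide yp) ym) := mul_le_mul_of_nonneg_left h6 hN0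
        have e : (N : ℝ) * (3 / 4 * ρ) = 3 / 4 * ((N : ℝ) * ρ) := by ring
        rw [mul_sub, e] at h7
        linarith
    exact_mod_cast h5

end core

/-! ## 4. at the doors of record -/

section model

variable {τ : Type} {c : ℝ} (𝔓 : PvxPar τ c)

/-- the half side (in cells) of the own-level box of the type `t`, fattened by the tolerance `ρ / 10` of the menu -/
noncomputable def pvzhB (m : ℕ) (t : τ) : ℤ := ⌈(pvlmN c m : ℝ) * (2 * (𝔓.ty t).b2 + (𝔓.ty t).k * 𝔓.num.rho1 + 𝔓.num.rho / 10)⌉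

theorem pvzh_eqns_cite2 : True := by
  have := @pvzhB.eq_1
  trivial

/-- what the producer needs from the numbers, at the level `m`, for the type `t` -/
structure PvzhNum (m : ℕ) (t : τ) : Prop where
  rho0 : 0 < 𝔓.num.rho
  rho_le : 𝔓.num.rho ≤ 1 / 2
  rho1 : 0 ≤ 𝔓.num.rho1
  b2 : 0 ≤ (𝔓.ty t).b2
  lev : (𝔓.ty t).k ≤ 𝔓.num.K
  /-- the level is fine: `1000 δ_m ≤ ρ h_m` -/
  fine : 1000 ≤ (pvlmN c m : ℝ) * 𝔓.num.rho

variable {𝔓}

/-- **`PvxrOK` AT THE DOORS OF RECORD** for the non degenerate types (`pviwTyOk` of 168 = the three lines of the menu of 73) -/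
theorem pvzh_ok_at {m : ℕ} {t : τ} (hn : PvzhNum 𝔓 m t) (ht : pviwTyOk 𝔓 t) :
    PvxrOK (pvzhB 𝔓 m t) (pvxrM 𝔓 m t) (pvxrA 𝔓 t) (pvxrB 𝔓 t) (pvxrEp 𝔓 m t) (pvxrEm 𝔓 m t) (pvxrNw 𝔓 m) := by
  have hk : ((𝔓.ty t).k : ℝ) * 𝔓.num.rho1 ≤ (𝔓.num.K : ℝ) * 𝔓.num.rho1 := mul_le_mul_of_nonneg_right (by exact_mod_cast hn.lev) hn.rho1
  have hk0 : 0 ≤ ((𝔓.ty t).k : ℝ) * 𝔓.num.rho1 := mul_nonneg (Nat.cast_nonneg _) hn.rho1
  have h := pvzh_ok (N := pvlmN c m) (rad := 2 * (𝔓.ty t).b2 + (𝔓.ty t).k * 𝔓.num.rho1) (radK := 2 * (𝔓.ty t).b2 + 𝔓.num.K * 𝔓.num.rho1)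
    hn.rho0 hn.rho_le hn.fine (by linarith [hn.b2]) (by linarith) ht.1 ht.2.1 (by linarith [ht.2.2, hn.rho0])
  exact h

/-! ### the record `PvehGeo` of 166 -/

theorem pvzh_Z_E {a : ℕ} (ha : a < 4) : pvtZ (pvxrE a) = I ^ a := by
  interval_cases a <;> simp [pvtZ, pvxrE, pow_succ]

/-- the last cell of a polyline is `pvxrEnd` -/
theorem pvzh_cells_last (c u : ℤ × ℤ) (r : List ((ℤ × ℤ) × PvtTurn)) : (pvxrCells c u r).getLast? = some (pvxrEnd c u r) := by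
  induction r generalizing c u with
  | nil => simp [pvxrCells, pvxrEnd]
  | cons x r ih =>
    obtain ⟨C, τ'⟩ := x
    simp only [pvxrCells, pvxrEnd]
    rw [List.getLast?_append, ih]
    rfl

/-- the centre of the cell which follows the word of a consistent polyline -/
theorem pvzh_poly_end {u : ℤ × ℤ} (hu : PvxrUnit u) (c : ℤ × ℤ) (r : List ((ℤ × ℤ) × PvtTurn)) (h : PvxrCons c u r) :
    pvtEnd (pvtZ (c + u)) (pvtZ u) (pvxrPoly c r) = pvtZ (pvxrEnd c u r) := by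
  have h1 := pvtCentres_getLast (pvtZ (c + u)) (pvtZ u) (pvxrPoly c r)
  have h2 : (pvtCentres (pvtZ (c + u)) (pvtZ u) (pvxrPoly c r)).getLast? = some (pvtZ (pvxrEnd c u r)) := by
    rw [pvxr_poly_centres hu c r h, List.getLast?_map, pvzh_cells_last]
    rfl
  rw [List.getLast?_eq_getLast_of_ne_nil (pvtCentres_ne_nil _ _ _), h1] at h2
  exact Option.some.inj h2

/-- **the reference plug sits where helper1 says**: `zu t` is the centre of the cell `e⁻ + pvxrUo b g` -/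
theorem pvzh_zu {B : ℤ} {m : ℕ} {t : τ} (h : PvxrOK B (pvxrM 𝔓 m t) (pvxrA 𝔓 t) (pvxrB 𝔓 t) (pvxrEp 𝔓 m t) (pvxrEm 𝔓 m t) (pvxrNw 𝔓 m)) :
    (pvxrGam 𝔓 m).zu t = pvtCtr (pvlmDel c m) (pvxrEm 𝔓 m t + pvxrUo (pvxrB 𝔓 t) (2 * pvxrNw 𝔓 m + 1)) := by
  have e0 : (pvxrGam 𝔓 m).zu t = pvxrDoor (pvlmDel c m) (pvxrEp 𝔓 m t) (pvxrA 𝔓 t) +
      (pvlmDel c m : ℂ) * pvtDisp (I ^ pvxrA 𝔓 t) (pvxrWord (pvxrM 𝔓 m t) (pvxrA 𝔓 t) (pvxrB 𝔓 t) (pvxrEp 𝔓 m t) (pvxrEm 𝔓 m t) (pvxrNw 𝔓 m)) - - (pvlmDel c m : ℂ) * ((pvxrNw 𝔓 m : ℂ) + 1 / 2) := rfl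
  have e1 := pvzh_poly_end (pvxr_unit_E (pvxrA 𝔓 t)) _ _ (pvxr_cons h)
  rw [pvxr_end h, sub_add_cancel, pvzh_Z_E h.a4] at e1
  rw [e0, pvt_disp_eq_end (pvtZ (pvxrEp 𝔓 m t)), pvxr_word_dir _ h.a4 h.b4]
  unfold pvxrWord
  rw [e1]
  unfold pvxrDoor pvtCtr pvtZ
  apply Complex.ext <;> simp <;> ring

/-- the coordinate of the centre of a cell in the direction `I ^ b` -/
theorem pvzh_front_ctr {b : ℕ} (hb : b < 4) {δ : ℝ} (hδ : 0 < δ) (e : ℤ × ℤ) : ((pvxrDot e (pvxrE b) : ℝ) - 1 / 2) * δ ≤ pvehFront b (pvtCtr δ e) := by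
  interval_cases b <;> simp only [pvehFront, pvtCtr, pvxrDot, pvxrE] <;> push_cast <;> nlinarith

/-- the square of `B` cells contains the own-level box fattened by `ρ h / 10` -/
theorem pvzh_B_box (m : ℕ) (t : τ) : pviwRad 𝔓 m t + 𝔓.num.rho * pvlmH m / 10 ≤ (pvzhB 𝔓 m t : ℝ) * pvlmDel c m := by
  have h1 := Int.le_ceil ((pvlmN c m : ℝ) * (2 * (𝔓.ty t).b2 + (𝔓.ty t).k * 𝔓.num.rho1 + 𝔓.num.rho / 10))
  have h2 := mul_le_mul_of_nonneg_right h1 (pvlm_Del_pos c m).le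
  have h3 : (pvlmN c m : ℝ) * (2 * (𝔓.ty t).b2 + (𝔓.ty t).k * 𝔓.num.rho1 + 𝔓.num.rho / 10) * pvlmDel c m =
      ((pvlmN c m : ℝ) * pvlmDel c m) * (2 * (𝔓.ty t).b2 + (𝔓.ty t).k * 𝔓.num.rho1 + 𝔓.num.rho / 10) := by ring
  rw [h3, pvlm_N_mul_Del] at h2
  unfold pviwRad pvwRad pvzhB
  linarith

/-- **THE RECORD OF 166** (`Exit/ParEngR.lean`) for the non degenerate types at the fine levels -/
theorem pvzh_geo {m : ℕ} {t : τ} (hn : PvzhNum 𝔓 m t) (ht : pviwTyOk 𝔓 t) : PvehGeo 𝔓 m t := by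
  have hOK := pvzh_ok_at hn ht
  have hδ := pvlm_Del_pos c m
  refine ⟨hOK.n0, pvzh_zu hOK, ?_⟩
  have h1 := pvzh_front_ctr hOK.b4 hδ (pvxrEm 𝔓 m t)
  have h2 := pvzh_B_box (𝔓 := 𝔓) m t
  have h3 : (pvzhB 𝔓 m t : ℝ) + 2 * (pvxrNw 𝔓 m : ℝ) + 1 ≤ (pvxrDot (pvxrEm 𝔓 m t) (pvxrE (pvxrB 𝔓 t)) : ℝ) := by
    have := hOK.em_n
    exact_mod_cast this
  have h4 : (0 : ℝ) ≤ (pvxrNw 𝔓 m : ℝ) := by exact_mod_cast hOK.n0
  have h5 : 1000 * pvlmDel c m ≤ 𝔓.num.rho * pvlmH m := by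
    have := mul_le_mul_of_nonneg_right hn.fine hδ.le
    rw [← pvlm_N_mul_Del c m]
    nlinarith
  have h6 := mul_le_mul_of_nonneg_right h3 hδ.le
  unfold pvehDl
  nlinarith

/-! ### the doors in cell form: the record `PvfeDoors` of 209 -/

theorem pvzh_dir_E (a : ℕ) : PvfeDir (pvxrE a) := by
  unfold PvfeDir pvxrE
  split <;> simp

/-- the door of helper1 is the midpoint of the centres of the base cell and of the cell behind it -/
theorem pvzh_door_mid {a : ℕ} (ha : a < 4) (δ : ℝ) (e : ℤ × ℤ) : pvxrDoor δ e a = (pvtCtr δ (e - pvxrE a) + pvtCtr δ e) / 2 := by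
  rw [pveg_ctr_sub, pvccm_ctr, pvzh_Z_E ha]
  unfold pvxrDoor
  ring

/-- the centre of the cell of the point `h w`, `h = N δ`, is within `δ` of this point -/
theorem pvzh_cell_near {N : ℕ} {δ h : ℝ} (hδ : 0 < δ) (hh : (N : ℝ) * δ = h) (w : ℂ) : ‖pvtCtr δ (pvxrCell N w) - (h : ℂ) * w‖ ≤ δ := by
  have h1 := Int.floor_le ((N : ℝ) * w.re)
  have h2 := Int.lt_floor_add_one ((N : ℝ) * w.re)
  have h3 := Int.floor_le ((N : ℝ) * w.im)
  have h4 := Int.lt_floor_add_one ((N : ℝ) * w.im)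
  have h5 := Complex.norm_le_abs_re_add_abs_im (pvtCtr δ (pvxrCell N w) - (h : ℂ) * w)
  have e1 : (pvtCtr δ (pvxrCell N w) - (h : ℂ) * w).re = ((⌊(N : ℝ) * w.re⌋ : ℝ) + 1 / 2 - (N : ℝ) * w.re) * δ := by
    simp only [pvtCtr, pvxrCell, Complex.sub_re, Complex.re_ofReal_mul, ← hh]; ring
  have e2 : (pvtCtr δ (pvxrCell N w) - (h : ℂ) * w).im = ((⌊(N : ℝ) * w.im⌋ : ℝ) + 1 / 2 - (N : ℝ) * w.im) * δ := by
    simp only [pvtCtr, pvxrCell, Complex.sub_im, Complex.im_ofReal_mul, ← hh]; ring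
  have a1 : |(pvtCtr δ (pvxrCell N w) - (h : ℂ) * w).re| ≤ δ / 2 := by
    rw [e1, abs_mul, abs_of_pos hδ]
    have : |(⌊(N : ℝ) * w.re⌋ : ℝ) + 1 / 2 - (N : ℝ) * w.re| ≤ 1 / 2 := by rw [abs_le]; constructor <;> linarith
    nlinarith
  have a2 : |(pvtCtr δ (pvxrCell N w) - (h : ℂ) * w).im| ≤ δ / 2 := by
    rw [e2, abs_mul, abs_of_pos hδ]
    have : |(⌊(N : ℝ) * w.im⌋ : ℝ) + 1 / 2 - (N : ℝ) * w.im| ≤ 1 / 2 := by rw [abs_le]; constructor <;> linarith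
    nlinarith
  linarith

/-- the normal coordinate, in complex form -/
theorem pvzh_nor_conj {a : ℕ} (ha : a < 4) (y : ℂ) : (y * (starRingEnd ℂ) (pvtZ (pvxrE a))).re = pvzhNor a y := by
  interval_cases a <;> simp [pvtZ, pvxrE, pvzhNor]

/-- **THE DOORS OF RECORD IN CELL FORM** (record of 209, `Defs/FitReg.lean`; hypothesis `doors` of `PvegLev` of 124, of `PvfhWf` of 209) -/
theorem pvzh_doors (m : ℕ)
    (hp : ∀ t, |pvccN (𝔓.ty t).yp - (2 * (𝔓.ty t).b2 + (𝔓.ty t).k * 𝔓.num.rho1)| ≤ 𝔓.num.rho / 4)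
    (hm : ∀ t, |pvccN (𝔓.ty t).ym - (2 * (𝔓.ty t).b2 + (𝔓.ty t).k * 𝔓.num.rho1)| ≤ 𝔓.num.rho / 4) :
    PvfeDoors (pvxrGam 𝔓 m) 𝔓.ty 𝔓.num (pvlmH m) where
  out := fun t => by
    have ha : pvxrA 𝔓 t < 4 := pvxr_side_lt _
    refine ⟨pvxrEp 𝔓 m t, pvxrE (pvxrA 𝔓 t), pvzh_dir_E _, ?_, ?_, ?_, ?_⟩
    · rw [pvxr_gam_pout, pvxr_gam_del]; exact pvzh_door_mid ha _ _
    · rw [pvxr_gam_dout, pvzh_Z_E ha]
    · rw [pvxr_gam_del, pvzh_Z_E ha]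
      exact pvzh_cell_near (pvlm_Del_pos c m) (pvlm_N_mul_Del c m) _
    · rw [pvzh_nor_conj ha]; exact pvzh_nor_side _
  inn := fun t => by
    have hb : pvxrB 𝔓 t < 4 := pvxr_side_lt _
    refine ⟨pvxrEm 𝔓 m t, pvxrE (pvxrB 𝔓 t), pvzh_dir_E _, ?_, ?_, ?_, ?_⟩
    · rw [pvxr_gam_pin, pvxr_gam_del, add_comm]; exact pvzh_door_mid hb _ _
    · rw [pvxr_gam_din, pvzh_Z_E hb]
    · rw [pvxr_gam_del, pvzh_Z_E hb]
      exact pvzh_cell_near (pvlm_Del_pos c m) (pvlm_N_mul_Del c m) _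
    · rw [pvzh_nor_conj hb]; exact pvzh_nor_side _
  nd_p := hp
  nd_m := hm

end model

end Claimed.Agent.R289
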