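-- KEEP
import Claimed.Agent.R289.Exit.ParGeo
import Claimed.Agent.R289.Exit.EngAll
import Claimed.Agent.R289.Exit.ParOK

/-!
# Row 289 (S0537), THE WALL, ROAD E, roof (S0) PAR, file Exit/ParGr : THE RECORDS OF THE ENGINE, GROUNDED AT THE PARAMETERS OF RECORD      (helper9, post of 82; prefix `pvqh`)

Everything here is "at `pvxParOf N hN c`, for the levels `N.m0 ≤ m`, for ALL types":
* `pvqh_tyOk`   every type of the menu is non degenerate (`pviwTyOk` of 168)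
* `pvqh_num`    `PvzhNum` of 285
* `pvqh_lev`    `PvegLev` of 124
* the fields of `PveaPar` of 124, one by one (`pvqh_gam pvqh_reg pvqh_doors pvqh_fine pvqh_cp pvqh_cm pvqh_far pvqh_geo pvqh_ok`), and **`pvqh_par`**
-/

set_option autoImplicit false

namespace Claimed.Agent.R289

open Set Complex Claims.C0465

section par

variable {N : PvxNums} (hN : N.Ok) {c : ℝ}

/-- every type of the menu is non degenerate -/
theorem pvqh_tyOk (c : ℝ) (t : pvxTau N) : pviwTyOk (pvxParOf N hN c) t := by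
  refine ⟨pvxo_nd_p t, pvxo_nd_m t, ?_⟩
  have := pvxo_nd_far t
  show 7 * N.rho / 4 ≤ ‖pvxoYp t - pvxoYm t‖
  linarith [hN.rho0]

theorem pvqh_gam (c : ℝ) (m : ℕ) : (pvxParOf N hN c).Γ m = pvxrGam (pvxParOf N hN c) m := rfl

theorem pvqh_reg (c : ℝ) (m : ℕ) (π : PvxIx (pvxTau N)) :
    (pvxParOf N hN c).reg m π = pvfeRegAt ((pvxParOf N hN c).Γ m) (pvxParOf N hN c).ty (pvxParOf N hN c).cp (pvxParOf N hN c).cm (pvxParOf N hN c).num (pvlmH m) π.p := rfl

theorem pvqh_fine (c0 : 0 < c) {m : ℕ} (hm : N.m0 ≤ m) : 1024 * pvlmDel c m ≤ (pvxParOf N hN c).num.rho * pvlmH m := by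
  have h1 := pvxo_fine hN c0 hm
  have h2 := pvlm_Del_pos c m
  show 1024 * pvlmDel c m ≤ N.rho * pvlmH m
  linarith

theorem pvqh_cp (c : ℝ) (t : pvxTau N) : ∀ w ∈ (pvxParOf N hN c).cp t, ‖w - ((pvxParOf N hN c).ty t).yp‖ ≤ (pvxParOf N hN c).num.rho / 10 :=
  fun _ hw => (pvxoG t).cp_near hw

theorem pvqh_cm (c : ℝ) (t : pvxTau N) : ∀ w ∈ (pvxParOf N hN c).cm t, ‖w - ((pvxParOf N hN c).ty t).ym‖ ≤ (pvxParOf N hN c).num.rho / 10 :=
  fun _ hw => (pvxoG t).cm_near hw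

theorem pvqh_far (c : ℝ) (t : pvxTau N) : 7 * (pvxParOf N hN c).num.rho / 4 ≤ ‖((pvxParOf N hN c).ty t).yp - ((pvxParOf N hN c).ty t).ym‖ := by
  have := pvxo_nd_far t
  show 7 * N.rho / 4 ≤ ‖pvxoYp t - pvxoYm t‖
  linarith

/-- `PvzhNum` of 285 -/
theorem pvqh_num (c0 : 0 < c) {m : ℕ} (hm : N.m0 ≤ m) (t : pvxTau N) : PvzhNum (pvxParOf N hN c) m t where
  rho0 := hN.rho0
  rho_le := by
    show N.rho ≤ 1 / 2
    linarith [hN.rho1, hN.rho2, hN.rho3, hN.rho0, hN.rho1_pos, hN.rho2_pos]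
  rho1 := hN.rho1_pos.le
  b2 := hN.b2_pos.le
  lev := pvxo_K_le hN t
  fine := by
    have := (pvxr_ndg_par hN c0 hm t).fine
    linarith

/-- `PvegLev` of 124 -/
theorem pvqh_lev (c0 : 0 < c) {m : ℕ} (hm : N.m0 ≤ m) : PvegLev (pvxParOf N hN c) m where
  rho0 := hN.rho0
  del := rfl
  doors := pvxr_doors_par hN m
  fine := by
    have := pvqh_fine hN c0 hm
    have := pvlm_Del_pos c m
    linarith

end par

end Claimed.Agent.R289
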