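-- KEEP
import Claimed.Agent.R289.Exit.EngAll
import Claimed.Agent.R289.Exit.NumQ

/-!
# Row 289 (S0537), THE WALL, ROAD E, node (1) `exit_pvie_eng`, file Exit/EngIn : THE DATA OF THE ENGINE AT THE MODEL      (helper84; prefix `pveu`, `Pveu`)

`Exit/EngAll.lean` (124): `pveaEng 𝔓 J`, `pveaInOf U c sp rp rG : PveaIn`, `PveaUnitOk 𝔓 U rp` (5 lines on the reference family), `pvea_exit_par`.      `Exit/NumQ.lean` (258): `PvkuOk 𝔊 b q β' CB r`, `H.unit : PvkmUnit`.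
HERE: the three free arguments `sp rp rG` become DEFINITIONS, the five lines are PAID at `U = H.unit`, and the contract of the REFERENCE PLUG (consumers: `PvjtWf` of 223, `pvieGr`, `pvjtGu`) is PROVED.
* `pveuSp` (dead datum), **`pveuRp 𝔓 m`** (`h := Δ_m / 16`, `Δ_m = pvehDl 𝔓 m` = side of the block of 166),
  **`pveuBk U D ε := (U.kit (ε / D)).sc D`** = the kit of the reference family at the scale `D`,      **`pveuRG U 𝔓 m ε := (pveuBk U Δ_m ε).G₀`** = usable states of the plug `pvkdP (Δ_m / 16)` (door type: 163, 168, 234)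
* **`pveuEng 𝔓 U : PvieEng τ`** = THE ENGINE OF RECORD, no free argument left but the reference family
* `pveu_unit_ok` : `PvkuOk 𝔊 .. → pvwSq 0 (3/40) ⊆ 𝔊.O₀ → PveaUnitOk 𝔓 H.unit (pveuRp 𝔓)`
* **`PveuRef 𝔓 𝔈 b0`** = the four lines `rG_meas rG_reads b00 adm` of `PvjtWf`, VERBATIM;      **`pveu_ref`** : they hold at `pveuEng 𝔓 H.unit` with `b0 = β'` (ALL meshes for the first two; admission UNIFORM in the level)
* `pveu_rG_dict` : a.e. a usable state of the reference plug carries the plain event `𝔊.C` of the datum, seen at the scale `Δ_m`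
* **`pveu_exit`** : `PvkuOk 𝔊 .. → window → PvnaWf (pvxParOf N hN c) (pveuEng (pvxParOf N hN c) H.unit)`;      `pveu_exit_K` : the same from the list `PvkuK 𝔤 Hf r` at `Tr/PlugK.lean`, WITH the equalities of data (kit, `XQ`, `XV`, `rG`) and `PveuRef`
-/

set_option autoImplicit false

namespace Claimed.Agent.R289

open Set MeasureTheory Filter Topology Claims.C0465
open scoped ENNReal

/-! ## 1. the data -/

/-- a type, never read -/
def pveuTy : PvwTy := ⟨1, 2, 0, 0, 0, true, 0, 0⟩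

/-- the door plug in exploration form is DEAD (InstWf v4) -/
def pveuSp : ℕ → PviePl := fun _ => ⟨0, 0, pveuTy, ∅, ∅, ∅, ∅, True⟩

/-- the kit of the reference family at the scale `D`, mesh `ε` -/
noncomputable def pveuBk (U : PvkmUnit) (D ε : ℝ) : PvthKit := (U.kit (ε / D)).sc D

section defs

variable {τ : Type} {c : ℝ} (𝔓 : PvxPar τ c) (U : PvkmUnit)

/-- of the reference plug only the unit `h` is read: `Δ_m / 16` -/
noncomputable def pveuRp (m : ℕ) : PviePl := ⟨0, pvehDl 𝔓 m / 16, pveuTy, ∅, ∅, ∅, ∅, True⟩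

/-- **the usable states of the reference plug** = those of the door plug of the reference family at the scale of the block of 166 -/
noncomputable def pveuRG (m : ℕ) (ε : ℝ) : Set (Conf PvPt) := (pveuBk U (pvehDl 𝔓 m) ε).G₀

/-- the data of record -/
noncomputable def pveuIn : PveaIn := pveaInOf U c pveuSp (pveuRp 𝔓) (pveuRG 𝔓 U)

/-- **THE ENGINE OF RECORD** -/
noncomputable def pveuEng : PvieEng τ := pveaEng 𝔓 (pveuIn 𝔓 U)

/-- **THE CONTRACT OF THE REFERENCE PLUG** (= the last four lines of `PvjtWf` of 223) -/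
structure PveuRef (𝔈 : PvieEng τ) (b0 : ℝ≥0∞) : Prop where
  rG_meas : ∀ m ε, MeasurableSet (𝔈.rG m ε)
  rG_reads : ∀ m ε, Conf.Reads (𝔈.rO m ×ˢ univ) (fun η => η ∈ 𝔈.rG m ε)
  b00 : b0 ≠ 0
  adm : ∀ m, 𝔓.m0 ≤ m → ∀ᶠ ε in 𝓝[>] (0 : ℝ), b0 ≤ pvP ε (𝔈.rG m ε)

end defs

theorem pveu_eqns_cite : True := by
  have := @pveuTy.eq_1; have := @pveuSp.eq_1; have := @pveuBk.eq_1; have := @pveuRp.eq_1; have := @pveuRG.eq_1; have := @pveuIn.eq_1; have := @pveuEng.eq_1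
  trivial

/-! ## 2. reading the engine -/

section read

variable {τ : Type} {c : ℝ} (𝔓 : PvxPar τ c) (U : PvkmUnit)

theorem pveu_kit : (pveuEng 𝔓 U).kit = pvkmEngKit U c := rfl
theorem pveu_XQ : (pveuEng 𝔓 U).XQ = pvkmEngXQ U c := rfl
theorem pveu_XV : (pveuEng 𝔓 U).XV = pvkmEngXV U c := rfl
theorem pveu_rO : (pveuEng 𝔓 U).rO = pvehrO 𝔓 := rfl
theorem pveu_rG : (pveuEng 𝔓 U).rG = pveuRG 𝔓 U := rfl
theorem pveu_rp_h (m : ℕ) : ((pveuEng 𝔓 U).rp m).h = pvehDl 𝔓 m / 16 := rfl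

/-- (NUM) of 258, by definition -/
theorem pveu_num : PvkmEng (pveuEng 𝔓 U) c U := ⟨rfl, rfl, rfl⟩

/-- the usable states of the reference plug are the pull-backs of the reference usable states -/
theorem pveu_rG_iff (m : ℕ) (ε : ℝ) (η : Conf PvPt) : η ∈ (pveuEng 𝔓 U).rG m ε ↔ cfMap (pvthInv 0 (pvehDl 𝔓 m)) η ∈ (U.kit (ε / pvehDl 𝔓 m)).G₀ := Iff.rfl

/-- the kit of level `m` is the kit of the reference family at the scale `δ_m` -/
theorem pveu_kit_bk (m : ℕ) (ε : ℝ) : (pveuEng 𝔓 U).kit m ε = pveuBk U (pvlmDel c m) ε := rfl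

end read

/-! ## 3. the reference family of 258 -/

section unit

variable {𝔊 : PvpgGlob} {b q β' : ℝ≥0∞} {CB r : ℝ}

theorem pveu_mO (H : PvkuOk 𝔊 b q β' CB r) : MeasurableSet 𝔊.O₀ := by
  obtain ⟨ε, hε⟩ := H.ok.exists
  exact hε.mO

theorem pveu_ref0 (H : PvkuOk 𝔊 b q β' CB r) : PvccKitRef 𝔊.pre r := by
  obtain ⟨ε, hε⟩ := H.ok.exists
  exact hε.ref

theorem pveu_beta0 (H : PvkuOk 𝔊 b q β' CB r) : β' ≠ 0 := by
  obtain ⟨ε, hε⟩ := H.ok.exists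
  exact hε.β0

/-- the usable states of the datum are Borel at EVERY mesh -/
theorem pveu_mG0 (H : PvkuOk 𝔊 b q β' CB r) (e : ℝ) : MeasurableSet (𝔊.G₀ (pvP e) b) := by
  obtain ⟨ε, hε⟩ := H.ok.exists
  have hO := pvpg_mO hε 0 1 one_ne_zero
  exact (pvpg_sure_meas hO hε.mC).inter (MeasurableSet.iInter fun i => pvpg_thr_meas hO (hε.mH i) b)

theorem pveu_unit_O (H : PvkuOk 𝔊 b q β' CB r) (e : ℝ) : (H.unit.kit e).O₀ = 𝔊.O₀ := rfl
theorem pveu_unit_K (H : PvkuOk 𝔊 b q β' CB r) (e : ℝ) : (H.unit.kit e).K₀ = 𝔊.K₀ := rfl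
theorem pveu_unit_G (H : PvkuOk 𝔊 b q β' CB r) (e : ℝ) : (H.unit.kit e).G₀ = 𝔊.G₀ (pvP e) b := rfl

/-- **the five lines of 124 at the reference family of 258** -/
theorem pveu_unit_ok {τ : Type} {c : ℝ} (𝔓 : PvxPar τ c) (H : PvkuOk 𝔊 b q β' CB r) (hw : pvwSq 0 (3 / 40) ⊆ 𝔊.O₀) : PveaUnitOk 𝔓 H.unit (pveuRp 𝔓) where
  mO := fun e => by rw [pveu_unit_O]; exact pveu_mO H
  hO := fun e e' => (pveu_unit_O H e).trans (pveu_unit_O H e').symm
  hK := fun e e' => (pveu_unit_K H e).trans (pveu_unit_K H e').symm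
  win := fun e => by rw [pveu_unit_O]; exact hw
  rp_h := fun _ => rfl

end unit

/-! ## 4. the contract of the reference plug -/

section refplug

variable {τ : Type} {c : ℝ} {𝔓 : PvxPar τ c} {𝔊 : PvpgGlob} {b q β' : ℝ≥0∞} {CB r : ℝ}

/-- the side of the block of 166 is positive at EVERY level -/
theorem pveu_Dl_pos (hρ : 0 < 𝔓.num.rho) (m : ℕ) : 0 < pvehDl 𝔓 m := by
  refine pveh_Dl_pos ?_
  unfold pvxrNw
  refine Int.ceil_nonneg ?_
  positivity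

theorem pveu_rG_def (U : PvkmUnit) (m : ℕ) (ε : ℝ) : pveuRG 𝔓 U m ε = cfMap (pvthInv 0 (pvehDl 𝔓 m)) ⁻¹' (U.kit (ε / pvehDl 𝔓 m)).G₀ := rfl

/-- Borel, at every level and every mesh -/
theorem pveu_rG_meas (H : PvkuOk 𝔊 b q β' CB r) (m : ℕ) (ε : ℝ) : MeasurableSet (pveuRG 𝔓 H.unit m ε) := by
  rw [pveu_rG_def, pveu_unit_G]
  exact measurable_cfMap (pvth_measurable_inv _ _) (pveu_mG0 H _)

/-- the scaled region of the plug lies in the region of 166 -/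
theorem pveu_reg_sub (H : PvkuOk 𝔊 b q β' CB r) {D : ℝ} (hD : 0 < D) : Prod.map (pvthInv 0 (D : ℂ)) id ⁻¹' 𝔊.pre.O 0 1 ⊆ pvehO D ×ˢ (univ : Set Bool) := by
  rintro ⟨w, σ⟩ hw
  have R := pveu_ref0 H
  have h1 : pvthInv 0 (D : ℂ) w ∈ pvthSim 0 1 '' 𝔊.pre.O₀ := hw.1
  rw [pvth_sim_id, Set.image_id] at h1
  have h2 : pvccN (pvthInv 0 (D : ℂ) w - 0) < r := R.O_sub h1
  have h3 : r ≤ 1 / 4 := by
    have := R.r_le
    have e : 𝔊.pre.δ = 1 := H.δ1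
    rw [e] at this
    exact this
  refine ⟨?_, mem_univ _⟩
  show pvccN (w - 0) < D / 4
  unfold pvccN pvthInv at h2
  simp only [sub_zero, Complex.div_ofReal_re, Complex.div_ofReal_im, abs_div, abs_of_pos hD] at h2
  unfold pvccN
  simp only [sub_zero]
  have h4 := (max_lt_iff.1 h2)
  rw [div_lt_iff₀ hD, div_lt_iff₀ hD] at h4
  have h5 : r * D ≤ D / 4 := by nlinarith
  exact max_lt (by linarith [h4.1]) (by linarith [h4.2])

/-- read in the region of 166, at every level and every mesh -/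
theorem pveu_rG_reads (hρ : 0 < 𝔓.num.rho) (H : PvkuOk 𝔊 b q β' CB r) (m : ℕ) (ε : ℝ) : Conf.Reads (pvehrO 𝔓 m ×ˢ univ) (fun η => η ∈ pveuRG 𝔓 H.unit m ε) := by
  have h1 := pvth_reads_map (g := pvthInv 0 (pvehDl 𝔓 m)) (pvpg_rG0 (𝔊 := 𝔊) (b := b) (pvP (ε / pvehDl 𝔓 m)))
  exact h1.mono (pveu_reg_sub H (pveu_Dl_pos hρ m))

/-- the law of the configuration seen at the scale `D` -/
theorem pveu_law {D : ℝ} (hD : 0 < D) (ε : ℝ) : (pvP ε).map (cfMap (pvthInv 0 (D : ℂ))) = pvP (ε / D) := by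
  have h := pvbe_law_sc hD (ε / D)
  rwa [mul_div_cancel₀ _ hD.ne'] at h

/-- the mass of the usable states does not see the scale -/
theorem pveu_rG_mass (hρ : 0 < 𝔓.num.rho) (H : PvkuOk 𝔊 b q β' CB r) (m : ℕ) (ε : ℝ) :
    pvP ε (pveuRG 𝔓 H.unit m ε) = pvP (ε / pvehDl 𝔓 m) (𝔊.G₀ (pvP (ε / pvehDl 𝔓 m)) b) := by
  rw [pveu_rG_def, pveu_unit_G, ← Measure.map_apply (measurable_cfMap (pvth_measurable_inv _ _)) (pveu_mG0 H _), pveu_law (pveu_Dl_pos hρ m)]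

/-- **ADMISSION**, with the constant of the reference family: UNIFORM in the level -/
theorem pveu_rG_adm (hρ : 0 < 𝔓.num.rho) (H : PvkuOk 𝔊 b q β' CB r) (m : ℕ) : ∀ᶠ ε in 𝓝[>] (0 : ℝ), β' ≤ pvP ε (pveuRG 𝔓 H.unit m ε) := by
  filter_upwards [(pvkm_tendsto_div (pveu_Dl_pos hρ m)).eventually H.ok] with ε hε
  rw [pveu_rG_mass hρ H]
  exact pvpg_adm hε

/-- **DICTIONARY**: a.e. usable state of the reference plug carries the plain event `𝔊.C` of the datum, seen at the scale of the block -/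
theorem pveu_rG_dict (hρ : 0 < 𝔓.num.rho) (H : PvkuOk 𝔊 b q β' CB r) (m : ℕ) (ε : ℝ) :
    ∀ᵐ η ∂(pvP ε), η ∈ pveuRG 𝔓 H.unit m ε → cfMap (pvthInv 0 (pvehDl 𝔓 m)) η ∈ 𝔊.C := by
  obtain ⟨ε0, h0⟩ := H.ok.exists
  have h1 := pvpg_sure_ae (pv_isPpp (ε / pvehDl 𝔓 m)) (pvpg_mO h0 0 1 one_ne_zero) h0.mC
  rw [← pveu_law (pveu_Dl_pos hρ m) ε] at h1
  have h2 := ae_of_ae_map (measurable_cfMap (pvth_measurable_inv 0 (pvehDl 𝔓 m : ℂ))).aemeasurable h1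
  filter_upwards [h2] with η hη hG
  rw [pveu_law (pveu_Dl_pos hρ m) ε] at hη
  exact hη hG.1

/-- **THE CONTRACT OF THE REFERENCE PLUG HOLDS AT THE ENGINE OF RECORD** -/
theorem pveu_ref (hρ : 0 < 𝔓.num.rho) (H : PvkuOk 𝔊 b q β' CB r) : PveuRef 𝔓 (pveuEng 𝔓 H.unit) β' where
  rG_meas := fun m ε => pveu_rG_meas H m ε
  rG_reads := fun m ε => pveu_rG_reads hρ H m ε
  b00 := pveu_beta0 H
  adm := fun m _ => pveu_rG_adm hρ H m

/-- `rG` in the words of 168: the `G₀` of the same datum at the unit `(rp m).h` -/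
theorem pveu_rG_eq (U : PvkmUnit) (m : ℕ) (ε : ℝ) :
    (pveuEng 𝔓 U).rG m ε = ((U.kit (ε / (16 * ((pveuEng 𝔓 U).rp m).h))).sc (16 * ((pveuEng 𝔓 U).rp m).h)).G₀ := by
  have e : 16 * ((pveuEng 𝔓 U).rp m).h = pvehDl 𝔓 m := by
    rw [pveu_rp_h]; ring
  rw [e]
  rfl

end refplug

/-! ## 5. node (1) -/

section final

variable {N : PvxNums} (hN : N.Ok) {c : ℝ} (c0 : 0 < c)

include c0 in
/-- **NODE (1) AT THE PARAMETERS OF RECORD**, from what `Tr/Plug.lean` consumes and the mesh window of the door plug -/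
theorem pveu_exit {𝔊 : PvpgGlob} {b q β' : ℝ≥0∞} {CB r : ℝ} (H : PvkuOk 𝔊 b q β' CB r) (hw : pvwSq 0 (3 / 40) ⊆ 𝔊.O₀) :
    PvnaWf (pvxParOf N hN c) (pveuEng (pvxParOf N hN c) H.unit) :=
  pvea_exit_par hN c0 (pveu_unit_ok _ H hw)

/-- **WHAT NODE (1) DELIVERS**: the contract of record, the EQUALITIES OF DATA with the datum of 34 (form of 227, 168) and the contract of the reference plug -/
structure PveuOut {τ : Type} {c : ℝ} (𝔓 : PvxPar τ c) (𝔈 : PvieEng τ) (𝔤 : PvkdGeo) : Prop where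
  wf : PvnaWf 𝔓 𝔈
  dat : ∃ (Hf : Fin 4 → Set (Conf PvPt)) (b q β' : ℝ≥0∞) (CB r : ℝ) (H : PvkuOk (𝔤.glob Hf) b q β' CB r), PvkmEng 𝔈 c H.unit ∧
    (∀ m ε, 𝔈.rG m ε = ((H.unit.kit (ε / (16 * (𝔈.rp m).h))).sc (16 * (𝔈.rp m).h)).G₀) ∧ (∀ m, (𝔈.rp m).h = pvehDl 𝔓 m / 16) ∧ 𝔈.rO = pvehrO 𝔓 ∧ PveuRef 𝔓 𝔈 β'

include c0 in
/-- **NODE (1) FROM THE LIST AT `Tr/PlugK.lean`** -/
theorem pveu_exit_K {𝔤 : PvkdGeo} {Hf : Fin 4 → Set (Conf PvPt)} {r : ℝ} (HK : PvkuK 𝔤 Hf r) (hw : pvwSq 0 (3 / 40) ⊆ 𝔤.O₀) :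
    ∃ 𝔈 : PvieEng (pvxTau N), PveuOut (pvxParOf N hN c) 𝔈 𝔤 := by
  obtain ⟨b, q, β', CB, H⟩ := pvku_ok (pvku_in_of HK)
  exact ⟨pveuEng (pvxParOf N hN c) H.unit, pveu_exit hN c0 H hw, Hf, b, q, β', CB, r, H, pveu_num _ _, pveu_rG_eq _, fun _ => rfl, rfl, pveu_ref hN.rho0 H⟩

end final

end Claimed.Agent.R289
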