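-- KEEP
import Claimed.Agent.R289.Exit.RefPlug
import Claimed.Agent.R289.Exit.EngRec
import Claimed.Agent.R289.Exit.EngIn

/-!
# Row 289 (S0537), THE WALL, ROAD E, file Exit/RefRec : THE CONTRACT OF THE REFERENCE PLUG AT THE ENGINE OF RECORD      (helper31, post of RULING 20 of 234; prefix `pvur_`)      **v4 = AFTER U4 (84, `Exit/EngU4`)**

`Exit/EngRec.lean` (124, 84): `pvnaEngRec N hN c nb`, `rG := pvnuRG 𝔓 nb.glob nb.b` (`= pvurGM`: usable states AND mesh `pvilMu / 8` of the window), `rO := pvnuRO 𝔓` `= s • O₀`, `(rp m).h = pvurRu 𝔓 m = Δ / 20`.      `Exit/RefPlug.lean` (31): `pvurG pvurGM`, `pvur_normU`.      `Exit/EngIn.lean` (84): the interface `PveuRef 𝔓 𝔈 b0` (= the four `rG` lines of `PvjtWf` of 223).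
* `pvurSr 𝔓 m` = THE SCALE OF THE REFERENCE PLUG OF RECORD `= pvurS 𝔓 m = 2 Δ_m` (`pvur_Sr_eq`, `rfl`);   `pvur_rec_eq` : `pvnuRG 𝔓 𝔊 b m ε = pvurGM 𝔊 b (pvurSr 𝔓 m) (pvnuRO 𝔓 m) (pvilMu 𝔓 m / 8) ε` (`rfl`);   `pvur_rec_sub` : `rG ⊆ pvurG ..`
* **`pvur_rec_ref`** : `PveuRef (pvxParOf N hN c) (pvnaEngRec N hN c nb) (nb.β' / 2)`      (Borel, read from `rO`: ALL `m ε`;   admission UNIFORM in the level;   THE CONSTANT IS NOW `β' / 2`: the mesh costs a half)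
* **`pvur_rec_C`** (G1 of 233) : a.e. `η`, the reference plug placed at `(z,1)` usable `→ η ∈ (pvkdP (rp m).h).C z 1`;   `pvur_rec_door` : `→ ∃ 𝔖, PvkdDoor (pvkdP (rp m).h) η z 1 𝔖`
* **`pvur_rec_thr`** (G2 of 233) : ON `rG`, pointwise: `nb.b ≤ pvtiP (pvP ε) (rO m ×ˢ univ) (pvurSc (pvurSr 𝔓 m) (nb.Hf i)) η`;   `pvur_rec_thrM` (the same with the mesh of the window inside the event);   `pvur_rec_one`
* **`pvur_rec_mesh`** : ON `rG`, pointwise: `PvtrMesh (pvilMu 𝔓 m / 8) (rO m) (cfSites η)`;   `pvur_rec_fin`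
-/

set_option autoImplicit false

namespace Claimed.Agent.R289

open MeasureTheory Set Filter Topology Claims.C0465
open scoped ENNReal

/-- a dilated subset of a square -/
theorem pvur_sq_sub {s a R : ℝ} (hs : 0 < s) (h : s * a ≤ R) {O : Set ℂ} (hO : O ⊆ pvccSq 0 a) : pvthSim 0 s '' O ⊆ pvccSq 0 R := by
  rintro _ ⟨w, hw, rfl⟩
  have h1 : pvccN (w - 0) < a := hO hw
  show pvccN (pvthSim 0 s w - 0) < R
  unfold pvccN at h1 ⊢
  simp only [sub_zero] at h1 ⊢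
  obtain ⟨h2, h3⟩ := max_lt_iff.1 h1
  have e1 : (pvthSim 0 s w).re = s * w.re := by simp [pvthSim]
  have e2 : (pvthSim 0 s w).im = s * w.im := by simp [pvthSim]
  rw [e1, e2, abs_mul, abs_mul, abs_of_pos hs]
  exact max_lt (by nlinarith) (by nlinarith)

section rec

variable {τ : Type} {c : ℝ} (𝔓 : PvxPar τ c)

/-- **the scale of the reference plug of record** -/
noncomputable def pvurSr (m : ℕ) : ℝ := 2 * pvehDl 𝔓 m

theorem pvur_eqns_cite4 : True := by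
  have := @pvurSr.eq_1
  trivial

theorem pvur_Sr_eq (m : ℕ) : pvurSr 𝔓 m = pvurS 𝔓 m := rfl

theorem pvur_rec_eq (𝔊 : PvpgGlob) (b : ℝ≥0∞) (m : ℕ) (ε : ℝ) : pvnuRG 𝔓 𝔊 b m ε = pvurGM 𝔊 b (pvurSr 𝔓 m) (pvnuRO 𝔓 m) (pvilMu 𝔓 m / 8) ε := rfl

/-- the window of record is the dilated region of the unit plug -/
theorem pvur_rec_reg_eq (m : ℕ) : pvnuRO 𝔓 m = pvthSim 0 (pvurSr 𝔓 m) '' pvkgG.O₀ := rfl

variable {𝔓}

theorem pvur_Sr_pos (hρ : 0 < 𝔓.num.rho) (m : ℕ) : 0 < pvurSr 𝔓 m := mul_pos (by norm_num) (pvur_Dl_pos hρ m)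

/-- the dilated region of the unit plug lies in the window of record (it IS the window) -/
theorem pvur_rec_reg (m : ℕ) : pvthSim 0 (pvurSr 𝔓 m) '' pvkgG.O₀ ⊆ pvnuRO 𝔓 m := Subset.rfl

/-- the unit of the dilated plug is the unit of record -/
theorem pvur_rec_unit (m : ℕ) : pvkgG.toPvkdPlug.sc (pvurSr 𝔓 m) = pvkdP ((pvnuRp 𝔓 m).h) ∨ pvurSr 𝔓 m ≤ 0 := by
  by_cases h : 0 < pvurSr 𝔓 m
  · left
    have e : pvkgG.toPvkdPlug = pvkdP (1 / 40) := rfl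
    rw [e, pvdil_P h]
    congr 1
    show 2 * pvehDl 𝔓 m * (1 / 40) = pvehDl 𝔓 m / 20
    ring
  · exact Or.inr (not_lt.1 h)

theorem pvur_O_bdd : Bornology.IsBounded pvkgG.O₀ := by
  refine (Metric.isBounded_closedBall (x := (0 : ℂ)) (r := 1)).subset ?_
  intro w hw
  have h1 : w ∈ pvccSq 0 (13 / 160) := pvkgg_O_sq ▸ hw
  obtain ⟨⟨a1, a2⟩, a3, a4⟩ := pvccm_mem_sq.1 h1
  simp only [Complex.zero_re, Complex.zero_im] at a1 a2 a3 a4
  rw [mem_closedBall_zero_iff]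
  calc ‖w‖ ≤ |w.re| + |w.im| := Complex.norm_le_abs_re_add_abs_im w
    _ ≤ 1 := by
      have b1 : |w.re| ≤ 1 / 2 := abs_le.2 ⟨by linarith, by linarith⟩
      have b2 : |w.im| ≤ 1 / 2 := abs_le.2 ⟨by linarith, by linarith⟩
      linarith

end rec

section engine

variable {N : PvxNums} (hN : N.Ok) (c : ℝ) (nb : PvnaNb N)

/-- the usable states of record are usable states at the window of record -/
theorem pvur_rec_sub (m : ℕ) (ε : ℝ) : (pvnaEngRec N hN c nb).rG m ε ⊆ pvurG nb.glob nb.b (pvurSr (pvxParOf N hN c) m) ((pvnaEngRec N hN c nb).rO m) ε := fun _ h => h.1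

/-- **THE CONTRACT OF THE REFERENCE PLUG AT THE ENGINE OF RECORD** -/
theorem pvur_rec_ref : PveuRef (pvxParOf N hN c) (pvnaEngRec N hN c nb) (nb.β' / 2) := by
  have h := pvur_normU (𝔊 := nb.glob) nb.H.ok pvur_O_bdd (pvur_Sr_pos (𝔓 := pvxParOf N hN c) hN.rho0) (pvur_Mu_pos (𝔓 := pvxParOf N hN c) hN.msk0)
  exact ⟨h.meas, h.reads, h.b00, fun m _ => h.adm m⟩

include nb in
theorem pvur_rec_mC : MeasurableSet (pvkgG.C 0 1) := by
  obtain ⟨ε, hε⟩ := nb.H.ok.exists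
  exact hε.mC

theorem pvur_rec_mO (m : ℕ) : MeasurableSet ((pvnaEngRec N hN c nb).rO m) := pvnu4_RO_meas (𝔓 := pvxParOf N hN c) hN.rho0 m

/-- **(G1)** a.e.: a usable reference plug placed at `(z, 1)` carries the door state of the kit plug of unit `(rp m).h` -/
theorem pvur_rec_door (m : ℕ) (ε : ℝ) (z : ℂ) :
    ∀ᵐ η ∂(pvP ε), cfMap (pvthInv z 1) η ∈ (pvnaEngRec N hN c nb).rG m ε → ∃ 𝔖, PvkdDoor (pvkdP ((pvnaEngRec N hN c nb).rp m).h) η z 1 𝔖 := by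
  have hs := pvur_Sr_pos (𝔓 := pvxParOf N hN c) hN.rho0 m
  have h := pvur_G_door_at pvkgG nb.Hf (pvur_rec_mC nb) hs (pvur_rec_mO hN c nb m) nb.b ε z
  rcases pvur_rec_unit (𝔓 := pvxParOf N hN c) m with e | e
  · rw [e] at h
    filter_upwards [h] with η h1 h2
    exact h1 (pvur_rec_sub hN c nb m ε h2)
  · exact absurd hs (not_lt.2 e)

/-- **(G1)**, event form -/
theorem pvur_rec_C (m : ℕ) (ε : ℝ) (z : ℂ) :
    ∀ᵐ η ∂(pvP ε), cfMap (pvthInv z 1) η ∈ (pvnaEngRec N hN c nb).rG m ε → η ∈ (pvkdP ((pvnaEngRec N hN c nb).rp m).h).C z 1 := by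
  filter_upwards [pvur_rec_door hN c nb m ε z] with η h1 h2
  obtain ⟨𝔖, hN', g, hg, -⟩ := h1 h2
  exact ⟨hN', g, hg⟩

/-- **(G2)** on the usable states, POINTWISE: the propensities of the four half lanes given the state on ALL of `rO` -/
theorem pvur_rec_thr {m : ℕ} {ε : ℝ} {η : Conf PvPt} (h : η ∈ (pvnaEngRec N hN c nb).rG m ε) (i : Fin 4) :
    nb.b ≤ pvtiP (pvP ε) ((pvnaEngRec N hN c nb).rO m ×ˢ univ) (pvurSc (pvurSr (pvxParOf N hN c) m) (nb.Hf i)) η :=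
  pvur_G_thr (𝔊 := nb.glob) (pvur_rec_sub hN c nb m ε h) i

/-- **(G2) with the mesh of the window inside the event** -/
theorem pvur_rec_thrM {m : ℕ} {ε : ℝ} {η : Conf PvPt} (h : η ∈ (pvnaEngRec N hN c nb).rG m ε) (i : Fin 4) :
    nb.b ≤ pvtiP (pvP ε) ((pvnaEngRec N hN c nb).rO m ×ˢ univ) (pvurSc (pvurSr (pvxParOf N hN c) m) (nb.Hf i) ∩ pvurMs (pvilMu (pvxParOf N hN c) m / 8) ((pvnaEngRec N hN c nb).rO m)) η :=
  pvur_GM_thr (𝔊 := nb.glob) h i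

/-- on the usable states, POINTWISE: the plain plug is sure given the state on `rO` -/
theorem pvur_rec_one {m : ℕ} {ε : ℝ} {η : Conf PvPt} (h : η ∈ (pvnaEngRec N hN c nb).rG m ε) :
    pvtiP (pvP ε) ((pvnaEngRec N hN c nb).rO m ×ˢ univ) (pvurSc (pvurSr (pvxParOf N hN c) m) (pvkgG.C 0 1)) η = 1 :=
  pvur_G_one (𝔊 := nb.glob) (pvur_rec_sub hN c nb m ε h)

/-- **on the usable states, POINTWISE: the fine mesh of the whole window** -/
theorem pvur_rec_mesh {m : ℕ} {ε : ℝ} {η : Conf PvPt} (h : η ∈ (pvnaEngRec N hN c nb).rG m ε) :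
    PvtrMesh (pvilMu (pvxParOf N hN c) m / 8) ((pvnaEngRec N hN c nb).rO m) (cfSites η) := h.2.2

theorem pvur_rec_fin {m : ℕ} {ε : ℝ} {η : Conf PvPt} (h : η ∈ (pvnaEngRec N hN c nb).rG m ε) : PvtnFin ((pvnaEngRec N hN c nb).rO m) η := h.2.1

end engine

end Claimed.Agent.R289
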