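-- KEEP
import Claimed.Agent.R289.Exit.ThickL
import Claimed.Agent.R289.Exit.AnaDefs
import Claimed.Agent.R289.Exit.RefRec
import Claimed.Agent.R289.Exit.ParGr

/-!
# Row 289 (S0537), THE WALL, ROAD E, file Exit/ThickWE : PRODUCER [W] OF `exit_pvie_thick`, FREE OF THE TEXT OF THE ENGINE      (helper99; prefix `pvks_`)

`PvjtWf` v3 of 223 (`Exit/ThickL`: mouths in `ρh/2`, collar = `pviwBox`, no `*_far`) asks of the regions NOTHING which is not a field of `PvieEng.Wf` v5.1 of 168 (`Defs/InstWf`): `m_eM m_eK m_rO m_fM m_fK th_disj eM_half fM_half res_off fK_off`.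
So [W] AT THE RETURN `pvjtRetE 𝔈 Mk` (= the fields `fM fK fY` OF THE ENGINE: the return of `pvjt_thick_rec`, `pvguRet`) follows from the binder `hE : PvnaWf 𝔓 𝔈` of `Exit/Ana`: IT DOES NOT MOVE WHEN `pveaEng` IS PATCHED (GAP, U4, rooms of `f`).
* **`pvks_jt_wf`**        `PvnaWf 𝔓 𝔈` + `PveuRef 𝔓 𝔈 b0` (84: the four `rG` lines) + `del_le` + Borel mask  ⟹  `PvjtWf 𝔓 𝔈 (pvjtRetE 𝔈 Mk) L b0`, ANY `L`
* `pvks_jt_lv`, `pvks_jt_del`   at the parameters of record: `pvjtLv` = the level condition (`pvqh_tyOk` of 9), `del_le` (`pvqh_fine` of 9)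
* **`pvks_jt_wf_par`**    the same at `pvxParOf N hN c`, ANY engine with `PvnaWf`, `PveuRef`
* **`pvks_ww_jtwf`**      = THE LEAF [W] `exit_pvww_jtwf` OF `Exit/AnaW.lean` (2) VERBATIM      (`pvur_rec_ref` of 31 at the engine of record)
-/

set_option autoImplicit false

namespace Claimed.Agent.R289

open Set MeasureTheory Filter Topology Claims.C0465
open scoped ENNReal

section gen

variable {τ : Type} {c : ℝ} {𝔓 : PvxPar τ c} {𝔈 : PvieEng τ} {b0 : ℝ≥0∞}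

/-- **[W] THE CONTRACT OF `thick` FROM THE CONTRACT OF THE ENGINE** -/
theorem pvks_jt_wf (hE : PvnaWf 𝔓 𝔈) (hRef : PveuRef 𝔓 𝔈 b0) (hd : ∀ m, 𝔓.m0 ≤ m → 0 < pvlmDel c m ∧ 64 * pvlmDel c m ≤ 𝔓.num.rho * pvlmH m)
    {Mk : ℕ → τ → Set ℂ} (mMk : ∀ m t, MeasurableSet (Mk m t)) (L : ℝ) : PvjtWf 𝔓 𝔈 (pvjtRetE 𝔈 Mk) L b0 := by
  obtain ⟨Cth, r, κs, H⟩ := hE.wf
  exact
    { m_eM := H.m_eM
      m_eK := H.m_eK
      m_rO := H.m_rO
      m_fM := H.m_fM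
      m_fK := H.m_fK
      m_Mk := mMk
      disj := fun m t hl => H.th_disj m hl.1 t hl.2
      eM_cen := fun m t hl => H.eM_half m hl.1 t hl.2
      fM_cen := fun m t hl => H.fM_half m hl.1 t hl.2
      eK_off := fun m t hl => H.res_off m hl.1 0 t hl.2 _ (by simp [pviwRes])
      fK_off := fun m t hl => H.fK_off m hl.1 t hl.2
      rO_off := fun m t hl => H.res_off m hl.1 0 t hl.2 _ (by simp [pviwRes])
      del_le := hd
      rG_meas := hRef.rG_meas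
      rG_reads := hRef.rG_reads
      b00 := hRef.b00
      adm := hRef.adm }

end gen

section par

variable {N : PvxNums} (hN : N.Ok) {c : ℝ}

/-- at the parameters of record every type is non degenerate: `pvjtLv` is the level condition -/
theorem pvks_jt_lv {m : ℕ} (hm : N.m0 ≤ m) (t : pvxTau N) : pvjtLv (pvxParOf N hN c) m t := ⟨hm, pvqh_tyOk hN c t⟩

theorem pvks_jt_del (c0 : 0 < c) (m : ℕ) (hm : (pvxParOf N hN c).m0 ≤ m) : 0 < pvlmDel c m ∧ 64 * pvlmDel c m ≤ (pvxParOf N hN c).num.rho * pvlmH m := by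
  have h1 := pvqh_fine hN c0 (m := m) hm
  have h2 := pvlm_Del_pos c m
  exact ⟨h2, by linarith⟩

/-- **[W] AT THE PARAMETERS OF RECORD**, any engine -/
theorem pvks_jt_wf_par (c0 : 0 < c) {𝔈 : PvieEng (pvxTau N)} {b0 : ℝ≥0∞} (hE : PvnaWf (pvxParOf N hN c) 𝔈) (hRef : PveuRef (pvxParOf N hN c) 𝔈 b0)
    {Mk : ℕ → pvxTau N → Set ℂ} (mMk : ∀ m t, MeasurableSet (Mk m t)) (L : ℝ) : PvjtWf (pvxParOf N hN c) 𝔈 (pvjtRetE 𝔈 Mk) L b0 :=
  pvks_jt_wf hE hRef (pvks_jt_del hN c0) mMk L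

end par

/-- **THE LEAF [W] `exit_pvww_jtwf` OF `Exit/AnaW.lean` (2), VERBATIM** -/
theorem pvks_ww_jtwf {c : ℝ} (c0 : 0 < c) (N : PvxNums) (hN : N.Ok) (𝔈 : PvieEng (pvxTau N)) (hE : PvnaWf (pvxParOf N hN c) 𝔈) (hR : PvnaRec N hN c 𝔈) :
    ∃ b0 : ℝ≥0∞, ∀ (Mk : ℕ → pvxTau N → Set ℂ) (L : ℝ), (∀ m t, MeasurableSet (Mk m t)) → PvjtWf (pvxParOf N hN c) 𝔈 (pvjtRetE 𝔈 Mk) L b0 := by
  obtain ⟨nb, rfl⟩ := hR
  exact ⟨_, fun _ L hM => pvks_jt_wf_par hN c0 hE (pvur_rec_ref hN c nb) hM L⟩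

end Claimed.Agent.R289
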