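-- KEEP
import Claimed.Agent.R289.Exit.AnaDefs
import Claimed.Agent.R289.Exit.Par
import Claimed.Agent.R289.Exit.EngRec
import Claimed.Agent.R289.Exit.GdRec
import Claimed.Agent.R289.Exit.ThickLX
import Claimed.Agent.R289.Exit.ThickWE
import Claimed.Agent.R289.Exit.ThickRR

/-!
# Row 289 (S0537), THE WALL, ROAD E, file Exit/AnaW : THE SEAM (6) `thick` OF `Exit/Ana` v4      (helper2, second integrator of `Exit/Ana`, post of 24 13:14Z; prefix `pvww_`)

COMPILED GLUE from the level-1 cut on main to the statement (6) of `Exit/Ana.lean` v4.1 VERBATIM (binders `hR hGR` of T12, T14).      `Exit/Ana` imports this file and cites `pvww_thick`.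
* **`pvww_thick`**  = (6) `exit_pvie_thick` VERBATIM := `pvjt_thick_rec` of 223 (`Exit/ThickLX`) at `pvea_tyOk` of 124      PROVED over TWO LEAVES, typed here because no file typed them:
  * **`exit_pvww_jtwf`**   [W]  `∃ b0, ∀ Mk L, Mk Borel → PvjtWf 𝔓 𝔈 (pvjtRetE 𝔈 Mk) L b0`  AT THE ENGINE OF RECORD      (`PvjtWf` reads `Mk` through `m_Mk` only and does not read `L`)      [13; regions 182 168 166 124, reference plug 31 84]
  * **`exit_pvww_recog`**  [R]  `∃ Mk L, Mk Borel ∧ PvjtRecog .. pvilQ pvqWQ L ∧ PvjtRecog .. pvilV pvbeWV L`  AT THE ENGINE OF RECORD      (ONE mask, ONE size for the two weights: `exit_pvyq_pair` of 283 needs the second one with the same datum)      [132; 290 118 55 288 88]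
A pen proves HIS leaf under HIS name in HIS file (imports: `Exit/EngRec` + `Exit/ThickL`), tells 2 / 271 / 243: the sorry here becomes a citation.
-/

set_option autoImplicit false

namespace Claimed.Agent.R289

open Set MeasureTheory Filter Topology Claims.C0465
open scoped ENNReal

section exits

variable {c : ℝ}

/-! ## (6) `thick` -/

/-- **[W] THE CONTRACT OF 223 ON THE REGIONS OF THE TWO THICK LINKS AND ON THE REFERENCE PLUG, AT THE ENGINE OF RECORD**: any Borel mask, any size      **CLOSED (99, 13:50Z)** := `pvks_ww_jtwf` of `Exit/ThickWE.lean` (from `hE : PvnaWf` + `pvur_rec_ref` of 31: does not move when `pveaEng` is patched)      [13;  regions 182 168 166 124;  reference plug 31 84] -/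
theorem exit_pvww_jtwf (c0 : 0 < c) (N : PvxNums) (hN : N.Ok) (𝔈 : PvieEng (pvxTau N)) (hE : PvnaWf (pvxParOf N hN c) 𝔈) (hR : PvnaRec N hN c 𝔈) :
    ∃ b0 : ℝ≥0∞, ∀ (Mk : ℕ → pvxTau N → Set ℂ) (L : ℝ), (∀ m t, MeasurableSet (Mk m t)) → PvjtWf (pvxParOf N hN c) 𝔈 (pvjtRetE 𝔈 Mk) L b0 :=
  pvks_ww_jtwf c0 N hN 𝔈 hE hR

/-- **[R] (K4) RECOGNITION AT THE ENGINE OF RECORD**: the mask, its size, the two weights      **WIRED (99, 14:15Z)** := `pvjk_recog_rec` of 132 (`Exit/ThickRR.lean`) over TWO leaves THERE: `exit_pvjk_ce`, `exit_pvjk_cf` = (Rc) at the rooms `eY fY` of record (124 118 13)      [132;  290 118 55 288 88] -/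
theorem exit_pvww_recog (c0 : 0 < c) (N : PvxNums) (hN : N.Ok) (𝔈 : PvieEng (pvxTau N)) (hE : PvnaWf (pvxParOf N hN c) 𝔈) (hR : PvnaRec N hN c 𝔈) :
    ∃ (Mk : ℕ → pvxTau N → Set ℂ) (L : ℝ), (∀ m t, MeasurableSet (Mk m t)) ∧ PvjtRecog (pvxParOf N hN c) 𝔈 (pvjtRetE 𝔈 Mk) pvilQ pvqWQ L ∧
      PvjtRecog (pvxParOf N hN c) 𝔈 (pvjtRetE 𝔈 Mk) pvilV pvbeWV L :=
  pvjk_recog_rec c0 N hN 𝔈 hE hR (exit_pvww_jtwf c0 N hN 𝔈 hE hR)

/-- **(6) THICK** = the statement `exit_pvie_thick` of `Exit/Ana.lean` v4.1, VERBATIM -/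
theorem pvww_thick (c0 : 0 < c) (N : PvxNums) (hN : N.Ok) (𝔈 : PvieEng (pvxTau N)) (hE : PvnaWf (pvxParOf N hN c) 𝔈) (hR : PvnaRec N hN c 𝔈)
    (𝔊 : PvnaGd (pvxTau N)) (_hG : 𝔊.Wf (pvxParOf N hN c) 𝔈) (hGR : PvguRec (pvxParOf N hN c) 𝔈 𝔊) :
    ∃ Ce : ℝ, PvnaThick (pvxParOf N hN c) (pvnaDatE (pvxParOf N hN c) 𝔈) 𝔊 (pvxParOf N hN c).m0 Ce := by
  obtain ⟨b0, H⟩ := exit_pvww_jtwf c0 N hN 𝔈 hE hR
  obtain ⟨Mk, L, hM, hQ, -⟩ := exit_pvww_recog c0 N hN 𝔈 hE hR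
  exact pvjt_thick_rec (fun t => pvea_tyOk hN t) (H Mk L hM) hQ hGR

end exits

end Claimed.Agent.R289
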