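import Claimed.Agent.R289.Tr.LinkLocE
import Claimed.Agent.R289.Tr.MeasL
import Claimed.Agent.R289.Tr.LinkMeas
import Claimed.Agent.R289.Exit.EngRec

/-!
# Row 289 (S0537, Cardy for Poisson-Voronoi), THE WALL, ROAD E, file Exit/LocRec : [LOC] FROM THE CONTRACTS OF RECORD, AND AT THE PARAMETERS / THE ENGINE OF RECORD      (owner helper74; prefix `pvll_`, `pvll`)

`Tr/LinkLocE` proves [LOC] of the five special links `o i e f r` of `Tr/InstL` v2.2.1.      HERE every hypothesis but THE COLLAR (Rc) of RULING 22 is paid: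
* sec. 1  FROM `𝔓.WfB` + `PvieEng.Wf` ([MEAS] of 289 `Tr/MeasL`, Borel windows of 282 `Tr/LinkMeas`, `dp_win`, `rp_win`): **`pvll_wf_o pvll_wf_i pvll_wf_e pvll_wf_f pvll_wf_r`**, `pvll_wf_Af`:
          a.s., for ALL base data `(Z, F)`: success of the end of record `=` plain event, value of the end of record `=` plain value on it.      `pvll_mWnf` (Borel window of `f`).
* sec. 2  THE NUMBERS OF RECORD: **`pvll_rec_pin`** (`PvllPin (pvxParOf N hN c) m t`, all `m t`), `pvll_rec_dout pvll_rec_din pvll_rec_din0` (`‖d‖ = 1`), `pvll_rec_ru` (`3 μ ≤ r_u`), `pvll_rec_dp pvll_rec_rp` (`dp_win rp_win`), `pvll_rec_mO`.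
* sec. 3  DETERMINISTIC, AT THE ENGINE OF RECORD: **`pvll_rec_tr_o _i _e _f _r`** : `η ∈ M`, `η'` nice, same restriction to the window ⟹ `η' ∈ M`, same plain value (any local weight), same frozen positions.      = field `val` of `PvjeDet`, once `ev` is paid.
* sec. 4  a.s., AT THE ENGINE OF RECORD: **`pvll_rec_o _i _e _f _r`**.
THE COLLAR is asked in the RELATIVE form of R22 (Rc): `∀ v ∈ room, closedBall v (3 * pvilMu 𝔓 m) ⊆ mouth ∪ tile ∪ plug region` (245 `pvey_oYc_collar pvey_iYc_collar`, 285 166: `e f r`).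
-/

set_option autoImplicit false

namespace Claimed.Agent.R289

open Set Metric MeasureTheory Claims.C0465

/-! ## 1. from the contracts -/

section wf

variable {τ : Type} {c : ℝ} {𝔓 : PvxPar τ c} {𝔈 : PvieEng τ} {m0 : ℕ} {Cth : ℝ} {r κs : ℕ → ℝ} {m : ℕ} {ε : ℝ} {t : τ} {w : ∀ η : Conf PvPt, (delbPl (pvieY η)).Dart → ℂ}

/-- the window of the thick return is Borel -/
theorem pvll_mWnf (H : PvieEng.Wf 𝔓 𝔈 m0 Cth r κs) (m : ℕ) (z : ℂ) (t : τ) (Z : Set (ℤ × ℤ)) : MeasurableSet (pvilWnf 𝔓 𝔈 m z t Z) :=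
  ((((pvzi2_fat _ Z).inter (pvzk_sq_meas _ _)).union (pvzi2_sh z (H.m_fM m t))).union (pvzi2_sh z (H.m_fK m t))).union (pvzi2_sh _ (H.m_rO m))

/-- **[LOC] OF THE FIRST LINK FROM THE CONTRACTS** -/
theorem pvll_wf_o (hP : 𝔓.WfB) (H : PvieEng.Wf 𝔓 𝔈 m0 Cth r κs) (hm : m0 ≤ m) (hε : 0 < ε) (hO : MeasurableSet (𝔈.kit m ε).O₀) (hp : PvllPin 𝔓 m t) (hd : ‖(𝔓.Γ m).dout t‖ = 1)
    (hY : ∀ v ∈ 𝔈.oY m t, closedBall v (3 * pvilMu 𝔓 m) ⊆ 𝔈.oM m t ∪ 𝔈.oK m t ∪ pviwDo 𝔓 𝔈 m ε t) (hw : PvllWt w) (hwm : PvmlWm w) (z : ℂ) :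
    ∀ᵐ σ ∂(pvP ε), ∀ (Z : Set (ℤ × ℤ)) (F : Set ℂ), (σ ∈ (pvilEo 𝔓 𝔈 m ε w z t Z F).A ↔ σ ∈ pvilMo 𝔓 𝔈 m ε z t Z) ∧
      (σ ∈ pvilMo 𝔓 𝔈 m ε z t Z → (pvilEo 𝔓 𝔈 m ε w z t Z F).X σ = (pvilLo 𝔓 𝔈 m z t).X 𝔓.num (𝔓.col t) w σ) :=
  pvll_iff_o hε.ne' hp hd (H.dp_win m hm ε) (pvll_col_o hY z) hw (fun Z _ => pvzi2_mWno H hO z t Z) (fun Z _ => pvml_Mo_null hP (pvml_engB H) hε m z t Z) (fun Z _ => pvml_IXo_aem hP (pvml_engB H) hε hwm m z t Z)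

/-- **[LOC] OF THE LAST LINK FROM THE CONTRACTS** -/
theorem pvll_wf_i (hP : 𝔓.WfB) (H : PvieEng.Wf 𝔓 𝔈 m0 Cth r κs) (hm : m0 ≤ m) (hε : 0 < ε) (hO : MeasurableSet (𝔈.kit m ε).O₀) (hp : PvllPin 𝔓 m t) (hd : ‖(𝔓.Γ m).din t‖ = 1)
    (hY : ∀ v ∈ 𝔈.iY m t, closedBall v (3 * pvilMu 𝔓 m) ⊆ 𝔈.iM m t ∪ 𝔈.iK m t ∪ pviwDi 𝔓 𝔈 m ε t) (hw : PvllWt w) (hwm : PvmlWm w) (z : ℂ) :
    ∀ᵐ σ ∂(pvP ε), ∀ (Z : Set (ℤ × ℤ)) (F : Set ℂ), (σ ∈ (pvilEi 𝔓 𝔈 m ε w z t Z F).A ↔ σ ∈ pvilMi 𝔓 𝔈 m ε z t Z) ∧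
      (σ ∈ pvilMi 𝔓 𝔈 m ε z t Z → (pvilEi 𝔓 𝔈 m ε w z t Z F).X σ = (pvilLi 𝔓 𝔈 m z t).X 𝔓.num (𝔓.col t) w σ) :=
  pvll_iff_i hε.ne' hp hd (H.dp_win m hm ε) (pvll_col_i hY z) hw (fun Z _ => pvzi2_mWni H hO z t Z) (fun Z _ => pvml_Mi_null hP (pvml_engB H) hε m z t Z) (fun Z _ => pvml_IXi_aem hP (pvml_engB H) hε hwm m z t Z)

/-- **[LOC] OF THE THICK LINK FROM THE CONTRACTS** -/
theorem pvll_wf_e (hP : 𝔓.WfB) (H : PvieEng.Wf 𝔓 𝔈 m0 Cth r κs) (hm : m0 ≤ m) (hε : 0 < ε) (hp : PvllPin 𝔓 m t) (hr : 3 * pvilMu 𝔓 m ≤ pvilRu 𝔈 m)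
    (hY : ∀ v ∈ 𝔈.eY m t, closedBall v (3 * pvilMu 𝔓 m) ⊆ 𝔈.eM m t ∪ 𝔈.eK m t ∪ pviwRo 𝔓 𝔈 m t) (hw : PvllWt w) (hwm : PvmlWm w) (z : ℂ) :
    ∀ᵐ σ ∂(pvP ε), ∀ (Z : Set (ℤ × ℤ)) (F : Set ℂ), (σ ∈ (pvilEe 𝔓 𝔈 m ε w z t Z F).A ↔ σ ∈ pvilMe 𝔓 𝔈 m z t Z) ∧
      (σ ∈ pvilMe 𝔓 𝔈 m z t Z → (pvilEe 𝔓 𝔈 m ε w z t Z F).X σ = (pvilLe 𝔓 𝔈 m z t).X 𝔓.num (𝔓.col t) w σ) :=
  pvll_iff_e hε.ne' hp hr (H.rp_win m hm) (pvll_col_e hY z) hw (fun Z _ => pvzi2_mWne H z t Z) (fun Z _ => pvml_Me_null hP (pvml_engB H) hε m z t Z) (fun Z _ => pvml_IXe_aem hP (pvml_engB H) hε hwm m z t Z)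

/-- **[LOC] OF THE THICK RETURN FROM THE CONTRACTS** -/
theorem pvll_wf_f (hP : 𝔓.WfB) (H : PvieEng.Wf 𝔓 𝔈 m0 Cth r κs) (hm : m0 ≤ m) (hε : 0 < ε) (hp : PvllPin 𝔓 m t) (hr : 3 * pvilMu 𝔓 m ≤ pvilRu 𝔈 m)
    (hY : ∀ v ∈ 𝔈.fY m t, closedBall v (3 * pvilMu 𝔓 m) ⊆ 𝔈.fM m t ∪ 𝔈.fK m t ∪ pviwRo 𝔓 𝔈 m t) (hw : PvllWt w) (hwm : PvmlWm w) (z : ℂ) :
    ∀ᵐ σ ∂(pvP ε), ∀ (Z : Set (ℤ × ℤ)) (F : Set ℂ), (σ ∈ (pvilEf 𝔓 𝔈 m ε w z t Z F).A ↔ σ ∈ pvilMf 𝔓 𝔈 m z t Z) ∧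
      (σ ∈ pvilMf 𝔓 𝔈 m z t Z → (pvilEf 𝔓 𝔈 m ε w z t Z F).X σ = (pvilLf 𝔓 𝔈 m z t).X 𝔓.num (𝔓.col t) w σ) :=
  pvll_iff_f hε.ne' hp hr (H.rp_win m hm) (pvll_col_f hY z) hw (fun Z _ => pvll_mWnf H m z t Z) (fun Z _ => pvml_Mf_null hP (pvml_engB H) hε m z t Z) (fun Z _ => pvml_IXf_aem hP (pvml_engB H) hε hwm m z t Z)

/-- the soft success of the thick return without the value -/
theorem pvll_wf_Af (hP : 𝔓.WfB) (H : PvieEng.Wf 𝔓 𝔈 m0 Cth r κs) (hm : m0 ≤ m) (hε : 0 < ε) (hp : PvllPin 𝔓 m t) (hr : 3 * pvilMu 𝔓 m ≤ pvilRu 𝔈 m)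
    (hY : ∀ v ∈ 𝔈.fY m t, closedBall v (3 * pvilMu 𝔓 m) ⊆ 𝔈.fM m t ∪ 𝔈.fK m t ∪ pviwRo 𝔓 𝔈 m t) (z : ℂ) :
    ∀ᵐ σ ∂(pvP ε), ∀ Z : Set (ℤ × ℤ), σ ∈ pvilAf 𝔓 𝔈 m ε z t Z ↔ σ ∈ pvilMf 𝔓 𝔈 m z t Z :=
  pvll_iff_Af hε.ne' hp hr (H.rp_win m hm) (pvll_col_f hY z) (fun Z _ => pvll_mWnf H m z t Z) (fun Z _ => pvml_Mf_null hP (pvml_engB H) hε m z t Z)

/-- **[LOC] OF THE LINK INTO THE REFERENCE PLUG FROM THE CONTRACTS** -/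
theorem pvll_wf_r (H : PvieEng.Wf 𝔓 𝔈 m0 Cth r κs) (hm : m0 ≤ m) (hε : 0 < ε) (hO : MeasurableSet (𝔈.kit m ε).O₀) (h3 : 0 < 𝔓.num.rho3) (hd : ‖(𝔓.Γ m).din0‖ = 1) (hr : 3 * pvilMu 𝔓 m ≤ pvilRu 𝔈 m)
    (hY : ∀ v ∈ 𝔈.rY m, closedBall v (3 * pvilMu 𝔓 m) ⊆ 𝔈.rK m ∪ 𝔈.rO m ∪ pvieDoor 𝔈 m ε (𝔓.Γ m).pin0 (𝔓.Γ m).din0) (hw : PvllWt w) (hwm : PvmlWm w) :
    ∀ᵐ σ ∂(pvP ε), (σ ∈ pvilAr 𝔓 𝔈 m ε w ↔ σ ∈ pvilMr 𝔓 𝔈 m ε) ∧ (σ ∈ pvilMr 𝔓 𝔈 m ε → pvilXr 𝔓 𝔈 m ε w σ = (pvilLr 𝔓 𝔈 m).X 𝔓.num true w σ) :=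
  pvll_iff_r hε.ne' h3 hd (H.dp_win m hm ε) hr (H.rp_win m hm) hY hw (pvzi2_mWnr H hO) (pvml_Mr_null 𝔓 (pvml_engB H) hε m) (pvml_IXr_aem 𝔓 (pvml_engB H) hε hwm m)

end wf

/-! ## 2. the numbers of record -/

section nums

variable (N : PvxNums) (hN : N.Ok) (c : ℝ)

/-- **the types of record satisfy what [LOC] asks**, at all levels -/
theorem pvll_rec_pin (m : ℕ) (t : pvxTau N) : PvllPin (pvxParOf N hN c) m t := by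
  have h0 := hN.msk0
  have h1 : N.rho3 ≤ 1 := by
    have a1 := hN.msk
    have a2 := hN.rho_lt_one
    have a3 : (0 : ℝ) ≤ N.g := Nat.cast_nonneg _
    nlinarith
  refine pvll_pin_mk (𝔓 := pvxParOf N hN c) h0 ?_ ?_ m
  · show 1 + N.rho3 / 500 ≤ N.b1
    linarith [hN.m_gt, hN.m_lt, hN.B_lt, hN.ab1]
  · show N.b1 ≤ 2 * N.b2 + (pvxoK t : ℝ) * N.rho1
    have a1 : (0 : ℝ) ≤ (pvxoK t : ℝ) * N.rho1 := mul_nonneg (Nat.cast_nonneg _) hN.rho1_pos.le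
    linarith [hN.gap, hN.ab2, hN.b2_pos]

variable {c}

theorem pvll_rec_dout (c0 : 0 < c) {m : ℕ} (hm : N.m0 ≤ m) (t : pvxTau N) : ‖((pvxParOf N hN c).Γ m).dout t‖ = 1 := pveg_norm_unit (pveg_dout4 ((pvea_par hN c0).lev hm) t)

theorem pvll_rec_din (c0 : 0 < c) {m : ℕ} (hm : N.m0 ≤ m) (t : pvxTau N) : ‖((pvxParOf N hN c).Γ m).din t‖ = 1 := pveg_norm_unit (pveg_din4 ((pvea_par hN c0).lev hm) t)

theorem pvll_rec_din0 (m : ℕ) : ‖((pvxParOf N hN c).Γ m).din0‖ = 1 := by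
  show ‖(1 : ℂ)‖ = 1
  exact norm_one

/-- the unit of the reference plug of record -/
theorem pvll_rec_ru (c0 : 0 < c) (nb : PvnaNb N) (m : ℕ) : 3 * pvilMu (pvxParOf N hN c) m ≤ pvilRu (pvnaEngRec N hN c nb) m := by
  have h1 := pvll_mu_del (pvxParOf N hN c) m
  have h2 := pvlm_Del_pos c m
  have h3 : pvlmDel c m ≤ pvehDl (pvxParOf N hN c) m := by
    unfold pvehDl
    have : (0 : ℝ) ≤ (pvxrNw (pvxParOf N hN c) m : ℝ) := by exact_mod_cast pvea_Nw_nonneg (pvea_par hN c0) m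
    nlinarith
  -- robust to the swap U4 of 84 (`Δ / 16` before L2, `pvurRu = Δ / 20` after)
  have h4 : pvehDl (pvxParOf N hN c) m / 20 ≤ pvilRu (pvnaEngRec N hN c nb) m := by
    first
      | (show pvehDl (pvxParOf N hN c) m / 20 ≤ pvehDl (pvxParOf N hN c) m / 20; exact le_rfl)
      | (show pvehDl (pvxParOf N hN c) m / 20 ≤ pvehDl (pvxParOf N hN c) m / 16; linarith)
  linarith

theorem pvll_rec_dp (c0 : 0 < c) (nb : PvnaNb N) {m : ℕ} (hm : N.m0 ≤ m) (ε : ℝ) : pvwSq 0 (3 * pvilRd (pvxParOf N hN c) m) ⊆ ((pvnaEngRec N hN c nb).kit m ε).O₀ := by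
  obtain ⟨Cth, r, κs, H⟩ := (pvnr_wf hN c0 nb).wf
  exact H.dp_win m hm ε

theorem pvll_rec_rp (c0 : 0 < c) (nb : PvnaNb N) {m : ℕ} (hm : N.m0 ≤ m) : pvwSq 0 (3 * pvilRu (pvnaEngRec N hN c nb) m) ⊆ (pvnaEngRec N hN c nb).rO m := by
  obtain ⟨Cth, r, κs, H⟩ := (pvnr_wf hN c0 nb).wf
  exact H.rp_win m hm

theorem pvll_rec_mO (nb : PvnaNb N) (m : ℕ) (ε : ℝ) : MeasurableSet ((pvnaEngRec N hN c nb).kit m ε).O₀ := by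
  rw [pvnr_kit_O]
  exact pvzi2_sim _ _ pvkgg_ze.mO

end nums

/-! ## 3. deterministic, at the engine of record -/

section rectr

variable {c : ℝ} (c0 : 0 < c) (N : PvxNums) (hN : N.Ok) (nb : PvnaNb N) {m : ℕ} (hm : N.m0 ≤ m) {ε : ℝ} {z : ℂ} {t : pvxTau N} {Z : Set (ℤ × ℤ)} {η η' : Conf PvPt} {w : ∀ η : Conf PvPt, (delbPl (pvieY η)).Dart → ℂ}

include c0 hm in
theorem pvll_rec_tr_o (hY : ∀ v ∈ (pvnaEngRec N hN c nb).oY m t, closedBall v (3 * pvilMu (pvxParOf N hN c) m) ⊆ (pvnaEngRec N hN c nb).oM m t ∪ (pvnaEngRec N hN c nb).oK m t ∪ pviwDo (pvxParOf N hN c) (pvnaEngRec N hN c nb) m ε t)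
    (hw : PvllWt w) (hn' : PvatNice (cfSites η'))
    (hηη : Conf.restr (pvilWno (pvxParOf N hN c) (pvnaEngRec N hN c nb) m ε z t Z ×ˢ univ) η = Conf.restr (pvilWno (pvxParOf N hN c) (pvnaEngRec N hN c nb) m ε z t Z ×ˢ univ) η')
    (h : η ∈ pvilMo (pvxParOf N hN c) (pvnaEngRec N hN c nb) m ε z t Z) :
    η' ∈ pvilMo (pvxParOf N hN c) (pvnaEngRec N hN c nb) m ε z t Z ∧
      (pvilLo (pvxParOf N hN c) (pvnaEngRec N hN c nb) m z t).X (pvxParOf N hN c).num ((pvxParOf N hN c).col t) w η' = (pvilLo (pvxParOf N hN c) (pvnaEngRec N hN c nb) m z t).X (pvxParOf N hN c).num ((pvxParOf N hN c).col t) w η ∧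
      pvilFo (pvxParOf N hN c) m z t η' = pvilFo (pvxParOf N hN c) m z t η :=
  pvll_tr_o (pvll_rec_pin N hN c m t) (pvll_rec_dout N hN c0 hm t) (pvll_rec_dp N hN c0 nb hm ε) (pvll_col_o hY z) hw hn' hηη h

include c0 hm in
theorem pvll_rec_tr_i (hY : ∀ v ∈ (pvnaEngRec N hN c nb).iY m t, closedBall v (3 * pvilMu (pvxParOf N hN c) m) ⊆ (pvnaEngRec N hN c nb).iM m t ∪ (pvnaEngRec N hN c nb).iK m t ∪ pviwDi (pvxParOf N hN c) (pvnaEngRec N hN c nb) m ε t)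
    (hw : PvllWt w) (hn' : PvatNice (cfSites η'))
    (hηη : Conf.restr (pvilWni (pvxParOf N hN c) (pvnaEngRec N hN c nb) m ε z t Z ×ˢ univ) η = Conf.restr (pvilWni (pvxParOf N hN c) (pvnaEngRec N hN c nb) m ε z t Z ×ˢ univ) η')
    (h : η ∈ pvilMi (pvxParOf N hN c) (pvnaEngRec N hN c nb) m ε z t Z) :
    η' ∈ pvilMi (pvxParOf N hN c) (pvnaEngRec N hN c nb) m ε z t Z ∧
      (pvilLi (pvxParOf N hN c) (pvnaEngRec N hN c nb) m z t).X (pvxParOf N hN c).num ((pvxParOf N hN c).col t) w η' = (pvilLi (pvxParOf N hN c) (pvnaEngRec N hN c nb) m z t).X (pvxParOf N hN c).num ((pvxParOf N hN c).col t) w η ∧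
      pvilFi (pvxParOf N hN c) m z t η' = pvilFi (pvxParOf N hN c) m z t η :=
  pvll_tr_i (pvll_rec_pin N hN c m t) (pvll_rec_din N hN c0 hm t) (pvll_rec_dp N hN c0 nb hm ε) (pvll_col_i hY z) hw hn' hηη h

include c0 hm in
theorem pvll_rec_tr_e (hY : ∀ v ∈ (pvnaEngRec N hN c nb).eY m t, closedBall v (3 * pvilMu (pvxParOf N hN c) m) ⊆ (pvnaEngRec N hN c nb).eM m t ∪ (pvnaEngRec N hN c nb).eK m t ∪ pviwRo (pvxParOf N hN c) (pvnaEngRec N hN c nb) m t)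
    (hw : PvllWt w) (hn' : PvatNice (cfSites η'))
    (hηη : Conf.restr (pvilWne (pvxParOf N hN c) (pvnaEngRec N hN c nb) m z t Z ×ˢ univ) η = Conf.restr (pvilWne (pvxParOf N hN c) (pvnaEngRec N hN c nb) m z t Z ×ˢ univ) η')
    (h : η ∈ pvilMe (pvxParOf N hN c) (pvnaEngRec N hN c nb) m z t Z) :
    η' ∈ pvilMe (pvxParOf N hN c) (pvnaEngRec N hN c nb) m z t Z ∧
      (pvilLe (pvxParOf N hN c) (pvnaEngRec N hN c nb) m z t).X (pvxParOf N hN c).num ((pvxParOf N hN c).col t) w η' = (pvilLe (pvxParOf N hN c) (pvnaEngRec N hN c nb) m z t).X (pvxParOf N hN c).num ((pvxParOf N hN c).col t) w η ∧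
      pvilFi (pvxParOf N hN c) m z t η' = pvilFi (pvxParOf N hN c) m z t η :=
  pvll_tr_e (pvll_rec_pin N hN c m t) (pvll_rec_ru N hN c0 nb m) (pvll_rec_rp N hN c0 nb hm) (pvll_col_e hY z) hw hn' hηη h

include c0 hm in
theorem pvll_rec_tr_f (hY : ∀ v ∈ (pvnaEngRec N hN c nb).fY m t, closedBall v (3 * pvilMu (pvxParOf N hN c) m) ⊆ (pvnaEngRec N hN c nb).fM m t ∪ (pvnaEngRec N hN c nb).fK m t ∪ pviwRo (pvxParOf N hN c) (pvnaEngRec N hN c nb) m t)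
    (hw : PvllWt w) (hn' : PvatNice (cfSites η'))
    (hηη : Conf.restr (pvilWnf (pvxParOf N hN c) (pvnaEngRec N hN c nb) m z t Z ×ˢ univ) η = Conf.restr (pvilWnf (pvxParOf N hN c) (pvnaEngRec N hN c nb) m z t Z ×ˢ univ) η')
    (h : η ∈ pvilMf (pvxParOf N hN c) (pvnaEngRec N hN c nb) m z t Z) :
    η' ∈ pvilMf (pvxParOf N hN c) (pvnaEngRec N hN c nb) m z t Z ∧
      (pvilLf (pvxParOf N hN c) (pvnaEngRec N hN c nb) m z t).X (pvxParOf N hN c).num ((pvxParOf N hN c).col t) w η' = (pvilLf (pvxParOf N hN c) (pvnaEngRec N hN c nb) m z t).X (pvxParOf N hN c).num ((pvxParOf N hN c).col t) w η ∧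
      pvilFo (pvxParOf N hN c) m z t η' = pvilFo (pvxParOf N hN c) m z t η :=
  pvll_tr_f (pvll_rec_pin N hN c m t) (pvll_rec_ru N hN c0 nb m) (pvll_rec_rp N hN c0 nb hm) (pvll_col_f hY z) hw hn' hηη h

include c0 hm in
theorem pvll_rec_tr_r (hY : ∀ v ∈ (pvnaEngRec N hN c nb).rY m, closedBall v (3 * pvilMu (pvxParOf N hN c) m) ⊆
      (pvnaEngRec N hN c nb).rK m ∪ (pvnaEngRec N hN c nb).rO m ∪ pvieDoor (pvnaEngRec N hN c nb) m ε ((pvxParOf N hN c).Γ m).pin0 ((pvxParOf N hN c).Γ m).din0)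
    (hw : PvllWt w) (hn' : PvatNice (cfSites η'))
    (hηη : Conf.restr (pvilWnr (pvxParOf N hN c) (pvnaEngRec N hN c nb) m ε ×ˢ univ) η = Conf.restr (pvilWnr (pvxParOf N hN c) (pvnaEngRec N hN c nb) m ε ×ˢ univ) η')
    (h : η ∈ pvilMr (pvxParOf N hN c) (pvnaEngRec N hN c nb) m ε) :
    η' ∈ pvilMr (pvxParOf N hN c) (pvnaEngRec N hN c nb) m ε ∧
      (pvilLr (pvxParOf N hN c) (pvnaEngRec N hN c nb) m).X (pvxParOf N hN c).num true w η' = (pvilLr (pvxParOf N hN c) (pvnaEngRec N hN c nb) m).X (pvxParOf N hN c).num true w η :=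
  pvll_tr_r hN.msk0 (pvll_rec_din0 N hN m) (pvll_rec_dp N hN c0 nb hm ε) (pvll_rec_ru N hN c0 nb m) (pvll_rec_rp N hN c0 nb hm) hY hw hn' hηη h

end rectr

/-! ## 4. a.s., at the engine of record -/

section recas

variable {c : ℝ} (c0 : 0 < c) (N : PvxNums) (hN : N.Ok) (nb : PvnaNb N) {m : ℕ} (hm : N.m0 ≤ m) {ε : ℝ} (hε : 0 < ε) {t : pvxTau N} {w : ∀ η : Conf PvPt, (delbPl (pvieY η)).Dart → ℂ}

include c0 hm hε in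
theorem pvll_rec_o (hY : ∀ v ∈ (pvnaEngRec N hN c nb).oY m t, closedBall v (3 * pvilMu (pvxParOf N hN c) m) ⊆ (pvnaEngRec N hN c nb).oM m t ∪ (pvnaEngRec N hN c nb).oK m t ∪ pviwDo (pvxParOf N hN c) (pvnaEngRec N hN c nb) m ε t)
    (hw : PvllWt w) (hwm : PvmlWm w) (z : ℂ) :
    ∀ᵐ σ ∂(pvP ε), ∀ (Z : Set (ℤ × ℤ)) (F : Set ℂ), (σ ∈ (pvilEo (pvxParOf N hN c) (pvnaEngRec N hN c nb) m ε w z t Z F).A ↔ σ ∈ pvilMo (pvxParOf N hN c) (pvnaEngRec N hN c nb) m ε z t Z) ∧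
      (σ ∈ pvilMo (pvxParOf N hN c) (pvnaEngRec N hN c nb) m ε z t Z →
        (pvilEo (pvxParOf N hN c) (pvnaEngRec N hN c nb) m ε w z t Z F).X σ = (pvilLo (pvxParOf N hN c) (pvnaEngRec N hN c nb) m z t).X (pvxParOf N hN c).num ((pvxParOf N hN c).col t) w σ) := by
  obtain ⟨Cth, r, κs, H⟩ := (pvnr_wf hN c0 nb).wf
  exact pvll_wf_o (pvxo_wf N hN c).toWfB H hm hε (pvll_rec_mO N hN nb m ε) (pvll_rec_pin N hN c m t) (pvll_rec_dout N hN c0 hm t) hY hw hwm z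

include c0 hm hε in
theorem pvll_rec_i (hY : ∀ v ∈ (pvnaEngRec N hN c nb).iY m t, closedBall v (3 * pvilMu (pvxParOf N hN c) m) ⊆ (pvnaEngRec N hN c nb).iM m t ∪ (pvnaEngRec N hN c nb).iK m t ∪ pviwDi (pvxParOf N hN c) (pvnaEngRec N hN c nb) m ε t)
    (hw : PvllWt w) (hwm : PvmlWm w) (z : ℂ) :
    ∀ᵐ σ ∂(pvP ε), ∀ (Z : Set (ℤ × ℤ)) (F : Set ℂ), (σ ∈ (pvilEi (pvxParOf N hN c) (pvnaEngRec N hN c nb) m ε w z t Z F).A ↔ σ ∈ pvilMi (pvxParOf N hN c) (pvnaEngRec N hN c nb) m ε z t Z) ∧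
      (σ ∈ pvilMi (pvxParOf N hN c) (pvnaEngRec N hN c nb) m ε z t Z →
        (pvilEi (pvxParOf N hN c) (pvnaEngRec N hN c nb) m ε w z t Z F).X σ = (pvilLi (pvxParOf N hN c) (pvnaEngRec N hN c nb) m z t).X (pvxParOf N hN c).num ((pvxParOf N hN c).col t) w σ) := by
  obtain ⟨Cth, r, κs, H⟩ := (pvnr_wf hN c0 nb).wf
  exact pvll_wf_i (pvxo_wf N hN c).toWfB H hm hε (pvll_rec_mO N hN nb m ε) (pvll_rec_pin N hN c m t) (pvll_rec_din N hN c0 hm t) hY hw hwm z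

include c0 hm hε in
theorem pvll_rec_e (hY : ∀ v ∈ (pvnaEngRec N hN c nb).eY m t, closedBall v (3 * pvilMu (pvxParOf N hN c) m) ⊆ (pvnaEngRec N hN c nb).eM m t ∪ (pvnaEngRec N hN c nb).eK m t ∪ pviwRo (pvxParOf N hN c) (pvnaEngRec N hN c nb) m t)
    (hw : PvllWt w) (hwm : PvmlWm w) (z : ℂ) :
    ∀ᵐ σ ∂(pvP ε), ∀ (Z : Set (ℤ × ℤ)) (F : Set ℂ), (σ ∈ (pvilEe (pvxParOf N hN c) (pvnaEngRec N hN c nb) m ε w z t Z F).A ↔ σ ∈ pvilMe (pvxParOf N hN c) (pvnaEngRec N hN c nb) m z t Z) ∧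
      (σ ∈ pvilMe (pvxParOf N hN c) (pvnaEngRec N hN c nb) m z t Z →
        (pvilEe (pvxParOf N hN c) (pvnaEngRec N hN c nb) m ε w z t Z F).X σ = (pvilLe (pvxParOf N hN c) (pvnaEngRec N hN c nb) m z t).X (pvxParOf N hN c).num ((pvxParOf N hN c).col t) w σ) := by
  obtain ⟨Cth, r, κs, H⟩ := (pvnr_wf hN c0 nb).wf
  exact pvll_wf_e (pvxo_wf N hN c).toWfB H hm hε (pvll_rec_pin N hN c m t) (pvll_rec_ru N hN c0 nb m) hY hw hwm z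

include c0 hm hε in
theorem pvll_rec_f (hY : ∀ v ∈ (pvnaEngRec N hN c nb).fY m t, closedBall v (3 * pvilMu (pvxParOf N hN c) m) ⊆ (pvnaEngRec N hN c nb).fM m t ∪ (pvnaEngRec N hN c nb).fK m t ∪ pviwRo (pvxParOf N hN c) (pvnaEngRec N hN c nb) m t)
    (hw : PvllWt w) (hwm : PvmlWm w) (z : ℂ) :
    ∀ᵐ σ ∂(pvP ε), ∀ (Z : Set (ℤ × ℤ)) (F : Set ℂ), (σ ∈ (pvilEf (pvxParOf N hN c) (pvnaEngRec N hN c nb) m ε w z t Z F).A ↔ σ ∈ pvilMf (pvxParOf N hN c) (pvnaEngRec N hN c nb) m z t Z) ∧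
      (σ ∈ pvilMf (pvxParOf N hN c) (pvnaEngRec N hN c nb) m z t Z →
        (pvilEf (pvxParOf N hN c) (pvnaEngRec N hN c nb) m ε w z t Z F).X σ = (pvilLf (pvxParOf N hN c) (pvnaEngRec N hN c nb) m z t).X (pvxParOf N hN c).num ((pvxParOf N hN c).col t) w σ) := by
  obtain ⟨Cth, r, κs, H⟩ := (pvnr_wf hN c0 nb).wf
  exact pvll_wf_f (pvxo_wf N hN c).toWfB H hm hε (pvll_rec_pin N hN c m t) (pvll_rec_ru N hN c0 nb m) hY hw hwm z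

include c0 hm hε in
theorem pvll_rec_r (hY : ∀ v ∈ (pvnaEngRec N hN c nb).rY m, closedBall v (3 * pvilMu (pvxParOf N hN c) m) ⊆
      (pvnaEngRec N hN c nb).rK m ∪ (pvnaEngRec N hN c nb).rO m ∪ pvieDoor (pvnaEngRec N hN c nb) m ε ((pvxParOf N hN c).Γ m).pin0 ((pvxParOf N hN c).Γ m).din0)
    (hw : PvllWt w) (hwm : PvmlWm w) :
    ∀ᵐ σ ∂(pvP ε), (σ ∈ pvilAr (pvxParOf N hN c) (pvnaEngRec N hN c nb) m ε w ↔ σ ∈ pvilMr (pvxParOf N hN c) (pvnaEngRec N hN c nb) m ε) ∧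
      (σ ∈ pvilMr (pvxParOf N hN c) (pvnaEngRec N hN c nb) m ε → pvilXr (pvxParOf N hN c) (pvnaEngRec N hN c nb) m ε w σ = (pvilLr (pvxParOf N hN c) (pvnaEngRec N hN c nb) m).X (pvxParOf N hN c).num true w σ) := by
  obtain ⟨Cth, r, κs, H⟩ := (pvnr_wf hN c0 nb).wf
  exact pvll_wf_r H hm hε (pvll_rec_mO N hN nb m ε) hN.msk0 (pvll_rec_din0 N hN m) (pvll_rec_ru N hN c0 nb m) hY hw hwm

end recas

end Claimed.Agent.R289
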