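-- KEEP
import Claimed.Agent.R289.Tr.InstL

/-!
# Row 289 (S0537), THE WALL, ROAD E, file Exit/ThickLF : (FIN) THE HULLS OF THE HALF STATES ARE FINITE      (helper265; prefix `pvjtf_`)

At the names of `Tr/InstL` v2.2 (base datum `Z` = the `δ`-cells of the frozen positions and of the mouth ball round the grid centre).      NO hypothesis on the configuration, on the state, on the level: the frozen positions of ANY half state of a placed plug in the standard frame lie in ONE ball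
(`pvjtf_in_bdd`, `pvjtf_out_bdd`), so the union over all the records which carry the half state is finite: **`pvjtf_hull_fin`**, `pvjtf_Z_fin` (at `pvilZi`, `pvilZo`) = `exit_pvjt_fin` of 223 (`Exit/ThickLT`) from `0 < δ_m`.
-/

set_option autoImplicit false

namespace Claimed.Agent.R289

open Set Claims.C0465

/-- a point of a square is near the centre -/
theorem pvjtf_sq_norm {z w : ℂ} {r : ℝ} (hw : w ∈ pvwSq z r) : ‖w - z‖ ≤ 2 * r :=
  (Complex.norm_le_abs_re_add_abs_im _).trans (by linarith [hw.1, hw.2])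

theorem pvjtf_std_pos (p : PviePl) (η : Conf PvPt) : p.std.pos η = pviePos η := by
  funext v
  simp [PvilPl.pos, PviePl.std]

theorem pvjtf_std_zf (p : PviePl) : p.std.zf = p.z := by
  simp [PvilPl.zf, PviePl.std]

/-- the half state in the standard frame, without the frame -/
theorem pvjtf_in_st {N : PvwNum} {b : Bool} {p : PviePl} {η : Conf PvPt} {𝔖 : PvwSt (pvieT η)} (h : PvilIn N b p.std η 𝔖) : 𝔖.AtIn (pviePos η) N p.h p.z p.ty (pvieCol η b) := by
  have hst := h.st
  rw [pvjtf_std_pos, pvjtf_std_zf] at hst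
  exact hst

theorem pvjtf_out_st {N : PvwNum} {b : Bool} {p : PviePl} {η : Conf PvPt} {𝔖 : PvwSt (pvieT η)} (h : PvilOut N b p.std η 𝔖) : 𝔖.AtOut (pviePos η) N p.h p.z p.ty (pvieCol η b) := by
  have hst := h.st
  rw [pvjtf_std_pos, pvjtf_std_zf] at hst
  exact hst

/-- the frozen positions of an entrance half state lie in a ball which does not depend on the state -/
theorem pvjtf_in_bdd {N : PvwNum} {b : Bool} {p : PviePl} {η : Conf PvPt} {𝔖 : PvwSt (pvieT η)} (h : PvilIn N b p.std η 𝔖) :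
    pviePos η '' 𝔖.fzIn ⊆ Metric.closedBall p.z (|p.ty.b * p.h| + 2 * |pvwRad N p.h p.ty p.ty.k|) := by
  have hst := pvjtf_in_st h
  have a1 := abs_nonneg (p.ty.b * p.h)
  have a2 := le_abs_self (p.ty.b * p.h)
  have a3 := abs_nonneg (pvwRad N p.h p.ty p.ty.k)
  have a4 := le_abs_self (pvwRad N p.h p.ty p.ty.k)
  rintro w ⟨v, hv, rfl⟩
  rw [mem_closedBall_iff_norm]
  rcases hv with (hv | ⟨i, hi, rfl⟩) | ⟨i, hi, rfl⟩
  · have : v ∈ 𝔖.dsc := hv
    rw [hst.gate.dsc_eq] at this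
    have h1 : ‖pviePos η v - p.z‖ < p.ty.b * p.h := this
    linarith
  · have := pvjtf_sq_norm (hst.stub.em_in i hi).1
    linarith
  · have := pvjtf_sq_norm (hst.stub.em_in i hi).2
    linarith

/-- the frozen positions of an exit half state lie in the same ball -/
theorem pvjtf_out_bdd {N : PvwNum} {b : Bool} {p : PviePl} {η : Conf PvPt} {𝔖 : PvwSt (pvieT η)} (h : PvilOut N b p.std η 𝔖) :
    pviePos η '' 𝔖.fzOut ⊆ Metric.closedBall p.z (|p.ty.b * p.h| + 2 * |pvwRad N p.h p.ty p.ty.k|) := by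
  have hst := pvjtf_out_st h
  have a1 := abs_nonneg (p.ty.b * p.h)
  have a2 := le_abs_self (p.ty.b * p.h)
  have a3 := abs_nonneg (pvwRad N p.h p.ty p.ty.k)
  have a4 := le_abs_self (pvwRad N p.h p.ty p.ty.k)
  rintro w ⟨v, hv, rfl⟩
  rw [mem_closedBall_iff_norm]
  rcases hv with (hv | ⟨i, hi, rfl⟩) | ⟨i, hi, rfl⟩
  · have : v ∈ 𝔖.dsc := hv
    rw [hst.gate.dsc_eq] at this
    have h1 : ‖pviePos η v - p.z‖ < p.ty.b * p.h := this
    linarith
  · have := pvjtf_sq_norm (hst.stub.ep_in i hi).1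
    linarith
  · have := pvjtf_sq_norm (hst.stub.ep_in i hi).2
    linarith

/-- the frozen positions (base datum `F`) are bounded -/
theorem pvjtf_F_bdd (N : PvwNum) (b : Bool) (p : PviePl) (η : Conf PvPt) :
    pvilFzI N b p.std η ⊆ Metric.closedBall p.z (|p.ty.b * p.h| + 2 * |pvwRad N p.h p.ty p.ty.k|) ∧ pvilFzO N b p.std η ⊆ Metric.closedBall p.z (|p.ty.b * p.h| + 2 * |pvwRad N p.h p.ty p.ty.k|) :=
  ⟨fun _ ⟨_, h, u, hu, e⟩ => pvjtf_in_bdd h ⟨u, hu, e⟩, fun _ ⟨_, h, u, hu, e⟩ => pvjtf_out_bdd h ⟨u, hu, e⟩⟩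

/-- **(FIN)** the hulls of record (InstL v2.2: frozen positions + mouth ball round the grid centre) are finite (no hypothesis on the configuration) -/
theorem pvjtf_hull_fin {δ : ℝ} (hδ : 0 < δ) (r : ℝ) (N : PvwNum) (b : Bool) (p : PviePl) (η : Conf PvPt) : (pvilHuI δ r N b p.std η).Finite ∧ (pvilHuO δ r N b p.std η).Finite := by
  have hb : ∀ y : ℂ, Bornology.IsBounded (Metric.closedBall p.z (|p.ty.b * p.h| + 2 * |pvwRad N p.h p.ty p.ty.k|) ∪ Metric.closedBall y r) := fun y =>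
    Metric.isBounded_closedBall.union Metric.isBounded_closedBall
  exact ⟨(pvt_cells_finite hδ (hb _)).subset fun q ⟨𝔖, h, hq⟩ => pvt_cells_mono (union_subset_union_left _ (pvjtf_in_bdd h)) hq,
    (pvt_cells_finite hδ (hb _)).subset fun q ⟨𝔖, h, hq⟩ => pvt_cells_mono (union_subset_union_left _ (pvjtf_out_bdd h)) hq⟩

/-- **(FIN) at the candidates of record** -/
theorem pvjtf_Z_fin {τ : Type} {c : ℝ} (𝔓 : PvxPar τ c) {m : ℕ} (hδ : 0 < pvlmDel c m) (z : ℂ) (t : τ) (η : Conf PvPt) : (pvilZi 𝔓 m z t η).Finite ∧ (pvilZo 𝔓 m z t η).Finite :=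
  pvjtf_hull_fin hδ _ _ _ _ _

end Claimed.Agent.R289
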