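-- KEEP
import Claimed.Agent.R289.Defs.InstWf
import Claimed.Agent.R289.Exit.ThickLF
import Claimed.Agent.R289.Tr.AtUniq

/-!
# Row 289 (S0537), THE WALL, ROAD E, file Exit/ThickLW : THE WINDOW LINES (a window misses the atoms of the other links), AT THE NAMES OF `Tr/InstL` v2.2      (helper265; prefix `pvjtw_`)

GEOMETRY ONLY, NO RECORD: every statement is typed over ABSTRACT sets `K` (a resampled tile), `M` (a recoloured mouth), relative to the centre of the pin, with the explicit lines it needs: a port of `Exit/ThickL`, `Exit/Cyc1*` costs nothing here.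
What `pvks_Ke_ins`, `pvks_Ke_enl` of 99 (`Tr/InstEKL`) owe (`Disjoint Wn cK`, `Disjoint Wn yc`), the same for the windows of the first and the last link.
* sec. 1  `pvjtw_fat` : a point of `Z⁺ = pvilFat δ Z` is within `2 δ` (sup norm) of every point of a cell of `Z`
* sec. 2  **`pvjtw_Wz_tile`** : `pvilWz 𝔓 m z t Z` (ANY `Z`) misses `z + K` as soon as `K` misses the own-level box with the collar `δ`      (v2.2: the window is cut by that box)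
* sec. 3  **`pvjtw_Wzi_mouth`** : at a full state, `pvilWz .. (pvilZi .. η)` misses `z + M`, `M ⊆ clB(h y⁺, ρ h / 2)` (the mouths of record have the radius `5 ρ h / 16`: 1, 13, 245)      [(g3) `far_p` for the frozen positions (uniqueness of the half state: 150); `7 ρ / 4 ≤ |y⁺ - y⁻|` for the mouth ball `clB(y⁻, ρ h)`; `16 δ < ρ h`];
          **`pvjtw_Wzo_mouth`** : the mirror
* sec. 5  **`pvjtw_far_Zi`, `pvjtw_far_Zo`** = the two halves of the far guard `PvjtFar` of 7 (id 93500) at the base data of a full state (radius `9 ρ h / 16`; `16 δ ≤ ρ h`)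
* sec. 4  the windows of record: `pvjtw_Wne_tile`, `pvjtw_Wne_mouth` (thick link), `pvjtw_Wno_tile`, `pvjtw_Wno_mouth`, `pvjtw_Wni_tile`, `pvjtw_Wni_mouth` (first, last link)
-/

set_option autoImplicit false

namespace Claimed.Agent.R289

open Set Claims.C0465

/-! ## 1. the fattened hull -/

/-- a point of the fattened hull is within `2 δ` (sup norm) of every point of some cell of the hull -/
theorem pvjtw_fat {δ : ℝ} {Z : Set (ℤ × ℤ)} {w : ℂ} (hw : w ∈ pvilFat δ Z) : ∃ q ∈ Z, ∀ s ∈ pvtSq δ q, |(w - s).re| ≤ 2 * δ ∧ |(w - s).im| ≤ 2 * δ := by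
  unfold pvilFat pvtU at hw
  simp only [mem_iUnion, exists_prop] at hw
  obtain ⟨q', ⟨q, hq, hqq⟩, hw⟩ := hw
  refine ⟨q, hq, fun s hs => ?_⟩
  obtain ⟨w1, w2, w3, w4⟩ := hw
  obtain ⟨s1, s2, s3, s4⟩ := hs
  have hadj : (q'.1 : ℝ) ≤ q.1 + 1 ∧ (q.1 : ℝ) ≤ q'.1 + 1 ∧ (q'.2 : ℝ) ≤ q.2 + 1 ∧ (q.2 : ℝ) ≤ q'.2 + 1 := by
    rcases hqq with rfl | h
    · exact ⟨by linarith, by linarith, by linarith, by linarith⟩
    · obtain ⟨-, a1, a2, a3, a4⟩ := h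
      exact ⟨by exact_mod_cast a1, by exact_mod_cast a2, by exact_mod_cast a3, by exact_mod_cast a4⟩
  obtain ⟨a1, a2, a3, a4⟩ := hadj
  have hδ : 0 ≤ δ := by nlinarith
  rw [Complex.sub_re, Complex.sub_im, abs_le, abs_le]
  refine ⟨⟨?_, ?_⟩, ?_, ?_⟩ <;> nlinarith

theorem pvjtw_norm_le {u : ℂ} {a : ℝ} (h1 : |u.re| ≤ a) (h2 : |u.im| ≤ a) : ‖u‖ ≤ 2 * a :=
  (Complex.norm_le_abs_re_add_abs_im _).trans (by linarith)

/-! ## shifts -/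

theorem pvjtw_sh_disj (z : ℂ) {A B : Set ℂ} (h : Disjoint A B) : Disjoint (pvieSh z A) (pvieSh z B) := by
  rw [Set.disjoint_left] at h ⊢
  rintro _ ⟨a, ha, rfl⟩ ⟨b, hb, e⟩
  have : b = a := add_left_cancel e
  exact h ha (this ▸ hb)

theorem pvjtw_sh_sh (z u : ℂ) (A : Set ℂ) : pvieSh (z + u) A = pvieSh z (pvieSh u A) := by
  ext w
  constructor
  · rintro ⟨a, ha, rfl⟩
    exact ⟨u + a, ⟨a, ha, rfl⟩, by ring⟩
  · rintro ⟨_, ⟨a, ha, rfl⟩, rfl⟩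
    exact ⟨a, ha, by ring⟩

theorem pvjtw_sh_sq (z : ℂ) (r : ℝ) : pvieSh z (pvwSq 0 r) = pvwSq z r := by
  ext w
  constructor
  · rintro ⟨a, ha, rfl⟩
    have e : z + a - z = a - 0 := by ring
    exact ⟨by rw [e]; exact ha.1, by rw [e]; exact ha.2⟩
  · intro hw
    refine ⟨w - z, ⟨by rw [sub_zero]; exact hw.1, by rw [sub_zero]; exact hw.2⟩, by ring⟩

/-! ## 2. the state part of a window against a tile -/

section tile

variable {τ : Type} {c : ℝ} (𝔓 : PvxPar τ c) (m : ℕ) (z : ℂ) (t : τ)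

/-- **the state part of a window misses every tile which is off the own-level box with the collar `δ`** (any `Z`) -/
theorem pvjtw_Wz_tile (Z : Set (ℤ × ℤ)) {K : Set ℂ} (hK : Disjoint K (pviwBox 𝔓 m t)) : Disjoint (pvilWz 𝔓 m z t Z) (pvieSh z K) := by
  have h1 : pvilWz 𝔓 m z t Z ⊆ pvieSh z (pviwBox 𝔓 m t) := by
    unfold pviwBox
    rw [pvjtw_sh_sq]
    exact inter_subset_right
  exact (pvjtw_sh_disj z hK.symm).mono_left h1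

/-- the same with a larger collar -/
theorem pvjtw_Wz_tile' (Z : Set (ℤ × ℤ)) {K : Set ℂ} {a : ℝ} (ha : pvlmDel c m ≤ a) (hK : Disjoint K (pvwSq 0 (pviwRad 𝔓 m t + a))) : Disjoint (pvilWz 𝔓 m z t Z) (pvieSh z K) :=
  pvjtw_Wz_tile 𝔓 m z t Z (hK.mono_right (by
    intro w hw
    unfold pviwBox at hw
    exact ⟨hw.1.trans (by linarith), hw.2.trans (by linarith)⟩))

end tile

/-! ## 3. the state part of a window against the other mouth -/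

section hull

variable {N : PvwNum} {b : Bool} {p : PviePl} {η : Conf PvPt} {δ r : ℝ}

/-- (g3) in the standard frame -/
theorem pvjtw_far {𝔖₀ : PvwSt (pvieT η)} (h0 : PvilAt N b p.std η 𝔖₀) :
    (∀ v ∈ 𝔖₀.fzIn, 2 * N.rho * p.h < ‖pviePos η v - (p.z + (p.h : ℂ) * p.ty.yp)‖) ∧ ∀ v ∈ 𝔖₀.fzOut, 2 * N.rho * p.h < ‖pviePos η v - (p.z + (p.h : ℂ) * p.ty.ym)‖ := by
  have h1 := h0.far_p
  have h2 := h0.far_m
  rw [pvjtf_std_pos, pvjtf_std_zf] at h1 h2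
  exact ⟨h1, h2⟩

/-- a point of `Z_in⁺` is within `2 δ` of a position frozen by `Σ_in` of THE full state, or of the mouth ball round `y⁻` -/
theorem pvjtw_Zi_near {𝔖₀ : PvwSt (pvieT η)} (h0 : PvilAt N b p.std η 𝔖₀) {w : ℂ} (hw : w ∈ pvilFat δ (pvilHuI δ r N b p.std η)) :
    (∃ v ∈ 𝔖₀.fzIn, ‖w - pviePos η v‖ ≤ 4 * δ) ∨ ∃ s ∈ Metric.closedBall (p.z + (p.h : ℂ) * p.ty.ym) r, ‖w - s‖ ≤ 4 * δ := by
  obtain ⟨q, ⟨𝔖, h, s, hs, hs'⟩, hq⟩ := pvjtw_fat hw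
  have hn : ‖w - s‖ ≤ 4 * δ := (pvjtw_norm_le (hq s hs).1 (hq s hs).2).trans (by linarith)
  rcases hs' with ⟨v, hv, rfl⟩ | hs'
  · have e := pvuq_del_in h.good (pvjtf_in_st h) (pvjtf_in_st h0.inn)
    exact Or.inl ⟨v, (e.1.fzIn e.2) ▸ hv, hn⟩
  · exact Or.inr ⟨s, hs', hn⟩

/-- a point of `Z_out⁺` is within `2 δ` of a position frozen by `Σ_out` of THE full state, or of the mouth ball round `y⁺` -/
theorem pvjtw_Zo_near {𝔖₀ : PvwSt (pvieT η)} (h0 : PvilAt N b p.std η 𝔖₀) {w : ℂ} (hw : w ∈ pvilFat δ (pvilHuO δ r N b p.std η)) :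
    (∃ v ∈ 𝔖₀.fzOut, ‖w - pviePos η v‖ ≤ 4 * δ) ∨ ∃ s ∈ Metric.closedBall (p.z + (p.h : ℂ) * p.ty.yp) r, ‖w - s‖ ≤ 4 * δ := by
  obtain ⟨q, ⟨𝔖, h, s, hs, hs'⟩, hq⟩ := pvjtw_fat hw
  have hn : ‖w - s‖ ≤ 4 * δ := (pvjtw_norm_le (hq s hs).1 (hq s hs).2).trans (by linarith)
  rcases hs' with ⟨v, hv, rfl⟩ | hs'
  · have e := pvuq_del_out h.good (pvjtf_out_st h) (pvjtf_out_st h0.out)
    exact Or.inl ⟨v, (e.1.fzOut e.2) ▸ hv, hn⟩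
  · exact Or.inr ⟨s, hs', hn⟩

/-- the mesh is nonnegative as soon as a fattened hull is inhabited -/
theorem pvjtw_fat_nonneg {δ : ℝ} {Z : Set (ℤ × ℤ)} {w : ℂ} (hw : w ∈ pvilFat δ Z) : 0 ≤ δ := by
  unfold pvilFat pvtU at hw
  simp only [mem_iUnion, exists_prop] at hw
  obtain ⟨q', -, w1, w2, -, -⟩ := hw
  nlinarith

/-- `Z_in⁺` stays `ρ h / 2` away from `y⁺` -/
theorem pvjtw_Zi_off {𝔖₀ : PvwSt (pvieT η)} (h0 : PvilAt N b p.std η 𝔖₀) (hδ : 16 * δ < N.rho * p.h) (hh : 0 ≤ p.h) (hy : 7 * N.rho / 4 ≤ ‖p.ty.yp - p.ty.ym‖)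
    {w : ℂ} (hw : w ∈ pvilFat δ (pvilHuI δ (N.rho * p.h) N b p.std η)) : N.rho * p.h / 2 < ‖w - (p.z + (p.h : ℂ) * p.ty.yp)‖ := by
  have hδ0 := pvjtw_fat_nonneg hw
  rcases pvjtw_Zi_near h0 hw with ⟨v, hv, hn⟩ | ⟨s, hs, hn⟩
  · have hfar := (pvjtw_far h0).1 v hv
    have e : pviePos η v - (p.z + (p.h : ℂ) * p.ty.yp) = -(w - pviePos η v) + (w - (p.z + (p.h : ℂ) * p.ty.yp)) := by ring
    rw [e, show 2 * N.rho * p.h = 2 * (N.rho * p.h) by ring] at hfar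
    have h3 := norm_add_le (-(w - pviePos η v)) (w - (p.z + (p.h : ℂ) * p.ty.yp))
    rw [norm_neg] at h3
    linarith
  · have h2 := mem_closedBall_iff_norm.1 hs
    have e : (p.h : ℂ) * (p.ty.yp - p.ty.ym) = -(w - (p.z + (p.h : ℂ) * p.ty.yp)) + ((w - s) + (s - (p.z + (p.h : ℂ) * p.ty.ym))) := by ring
    have h4 : ‖(p.h : ℂ) * (p.ty.yp - p.ty.ym)‖ = p.h * ‖p.ty.yp - p.ty.ym‖ := by rw [norm_mul, Complex.norm_real, Real.norm_of_nonneg hh]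
    have h5 := norm_add_le (-(w - (p.z + (p.h : ℂ) * p.ty.yp))) ((w - s) + (s - (p.z + (p.h : ℂ) * p.ty.ym)))
    have h6 := norm_add_le (w - s) (s - (p.z + (p.h : ℂ) * p.ty.ym))
    rw [norm_neg, ← e, h4] at h5
    have h7 : p.h * (7 * N.rho / 4) ≤ p.h * ‖p.ty.yp - p.ty.ym‖ := mul_le_mul_of_nonneg_left hy hh
    rw [show p.h * (7 * N.rho / 4) = 7 * (N.rho * p.h) / 4 by ring] at h7
    linarith

/-- `Z_out⁺` stays `ρ h / 2` away from `y⁻` -/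
theorem pvjtw_Zo_off {𝔖₀ : PvwSt (pvieT η)} (h0 : PvilAt N b p.std η 𝔖₀) (hδ : 16 * δ < N.rho * p.h) (hh : 0 ≤ p.h) (hy : 7 * N.rho / 4 ≤ ‖p.ty.yp - p.ty.ym‖)
    {w : ℂ} (hw : w ∈ pvilFat δ (pvilHuO δ (N.rho * p.h) N b p.std η)) : N.rho * p.h / 2 < ‖w - (p.z + (p.h : ℂ) * p.ty.ym)‖ := by
  have hδ0 := pvjtw_fat_nonneg hw
  rcases pvjtw_Zo_near h0 hw with ⟨v, hv, hn⟩ | ⟨s, hs, hn⟩
  · have hfar := (pvjtw_far h0).2 v hv
    have e : pviePos η v - (p.z + (p.h : ℂ) * p.ty.ym) = -(w - pviePos η v) + (w - (p.z + (p.h : ℂ) * p.ty.ym)) := by ring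
    rw [e, show 2 * N.rho * p.h = 2 * (N.rho * p.h) by ring] at hfar
    have h3 := norm_add_le (-(w - pviePos η v)) (w - (p.z + (p.h : ℂ) * p.ty.ym))
    rw [norm_neg] at h3
    linarith
  · have h2 := mem_closedBall_iff_norm.1 hs
    have e : (p.h : ℂ) * (p.ty.yp - p.ty.ym) = (w - (p.z + (p.h : ℂ) * p.ty.ym)) + (-(w - s) + -(s - (p.z + (p.h : ℂ) * p.ty.yp))) := by ring
    have h4 : ‖(p.h : ℂ) * (p.ty.yp - p.ty.ym)‖ = p.h * ‖p.ty.yp - p.ty.ym‖ := by rw [norm_mul, Complex.norm_real, Real.norm_of_nonneg hh]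
    have h5 := norm_add_le (w - (p.z + (p.h : ℂ) * p.ty.ym)) (-(w - s) + -(s - (p.z + (p.h : ℂ) * p.ty.yp)))
    have h6 := norm_add_le (-(w - s)) (-(s - (p.z + (p.h : ℂ) * p.ty.yp)))
    rw [norm_neg, norm_neg] at h6
    rw [← e, h4] at h5
    have h7 : p.h * (7 * N.rho / 4) ≤ p.h * ‖p.ty.yp - p.ty.ym‖ := mul_le_mul_of_nonneg_left hy hh
    rw [show p.h * (7 * N.rho / 4) = 7 * (N.rho * p.h) / 4 by ring] at h7
    linarith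

end hull

section mouth

variable {τ : Type} {c : ℝ} {𝔓 : PvxPar τ c} {m : ℕ} {z : ℂ} {t : τ} {η : Conf PvPt}

/-- **at a full state the state part of a window of `Σ_in` misses the exit mouth** -/
theorem pvjtw_Wzi_mouth (hδ : 16 * pvlmDel c m < 𝔓.num.rho * pvlmH m) (hy : 7 * 𝔓.num.rho / 4 ≤ ‖(𝔓.ty t).yp - (𝔓.ty t).ym‖) (hU : η ∈ pvilU 𝔓.num (𝔓.col t) (pvilPin 𝔓 m z t))
    {M : Set ℂ} (hM : M ⊆ Metric.closedBall ((pvlmH m : ℂ) * (𝔓.ty t).yp) (𝔓.num.rho * pvlmH m / 2)) : Disjoint (pvilWz 𝔓 m z t (pvilZi 𝔓 m z t η)) (pvieSh z M) := by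
  obtain ⟨𝔖₀, h0⟩ := hU
  rw [Set.disjoint_left]
  rintro _ hw ⟨k, hk, rfl⟩
  have h1 : 𝔓.num.rho * pvlmH m / 2 < ‖z + k - (z + (pvlmH m : ℂ) * (𝔓.ty t).yp)‖ := pvjtw_Zi_off h0 hδ (pvlm_H_pos m).le hy hw.1
  have h2 := mem_closedBall_iff_norm.1 (hM hk)
  rw [show z + k - (z + (pvlmH m : ℂ) * (𝔓.ty t).yp) = k - (pvlmH m : ℂ) * (𝔓.ty t).yp by ring] at h1
  linarith

/-- **at a full state the state part of a window of `Σ_out` misses the entrance mouth** -/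
theorem pvjtw_Wzo_mouth (hδ : 16 * pvlmDel c m < 𝔓.num.rho * pvlmH m) (hy : 7 * 𝔓.num.rho / 4 ≤ ‖(𝔓.ty t).yp - (𝔓.ty t).ym‖) (hU : η ∈ pvilU 𝔓.num (𝔓.col t) (pvilPin 𝔓 m z t))
    {M : Set ℂ} (hM : M ⊆ Metric.closedBall ((pvlmH m : ℂ) * (𝔓.ty t).ym) (𝔓.num.rho * pvlmH m / 2)) : Disjoint (pvilWz 𝔓 m z t (pvilZo 𝔓 m z t η)) (pvieSh z M) := by
  obtain ⟨𝔖₀, h0⟩ := hU
  rw [Set.disjoint_left]
  rintro _ hw ⟨k, hk, rfl⟩
  have h1 : 𝔓.num.rho * pvlmH m / 2 < ‖z + k - (z + (pvlmH m : ℂ) * (𝔓.ty t).ym)‖ := pvjtw_Zo_off h0 hδ (pvlm_H_pos m).le hy hw.1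
  have h2 := mem_closedBall_iff_norm.1 (hM hk)
  rw [show z + k - (z + (pvlmH m : ℂ) * (𝔓.ty t).ym) = k - (pvlmH m : ℂ) * (𝔓.ty t).ym by ring] at h1
  linarith

end mouth

/-! ## 4. the windows of record -/

section windows

variable {τ : Type} {c : ℝ} {𝔓 : PvxPar τ c} {𝔈 : PvieEng τ} {m : ℕ} {ε : ℝ} {z : ℂ} {t : τ} {η : Conf PvPt}

theorem pvjtw_ro (𝔓 : PvxPar τ c) (𝔈 : PvieEng τ) (m : ℕ) (z : ℂ) (t : τ) : pvieSh (pvieZu 𝔓 m z t) (𝔈.rO m) = pvieSh z (pviwRo 𝔓 𝔈 m t) :=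
  pvjtw_sh_sh z _ _

/-- **the window of the thick link misses a foreign tile** (any `Z`) -/
theorem pvjtw_Wne_tile (Z : Set (ℤ × ℤ)) {K : Set ℂ} (h0 : Disjoint K (pviwBox 𝔓 m t)) (h1 : Disjoint (𝔈.eM m t) K) (h2 : Disjoint (𝔈.eK m t) K) (h3 : Disjoint (pviwRo 𝔓 𝔈 m t) K) :
    Disjoint (pvilWne 𝔓 𝔈 m z t Z) (pvieSh z K) := by
  unfold pvilWne
  rw [pvjtw_ro]
  exact (((pvjtw_Wz_tile 𝔓 m z t Z h0).union_left (pvjtw_sh_disj z h1)).union_left (pvjtw_sh_disj z h2)).union_left (pvjtw_sh_disj z h3)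

/-- **the window of the thick link at the hull of a full state misses the exit mouth** (so every set of recoloured sites `z + M \ F`) -/
theorem pvjtw_Wne_mouth (hδ : 16 * pvlmDel c m < 𝔓.num.rho * pvlmH m) (hy : 7 * 𝔓.num.rho / 4 ≤ ‖(𝔓.ty t).yp - (𝔓.ty t).ym‖) (hU : η ∈ pvilU 𝔓.num (𝔓.col t) (pvilPin 𝔓 m z t))
    {M : Set ℂ} (hM : M ⊆ Metric.closedBall ((pvlmH m : ℂ) * (𝔓.ty t).yp) (𝔓.num.rho * pvlmH m / 2)) (h1 : Disjoint (𝔈.eM m t) M) (h2 : Disjoint (𝔈.eK m t) M) (h3 : Disjoint (pviwRo 𝔓 𝔈 m t) M) :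
    Disjoint (pvilWne 𝔓 𝔈 m z t (pvilZi 𝔓 m z t η)) (pvieSh z M) := by
  unfold pvilWne
  rw [pvjtw_ro]
  exact (((pvjtw_Wzi_mouth hδ hy hU hM).union_left (pvjtw_sh_disj z h1)).union_left (pvjtw_sh_disj z h2)).union_left (pvjtw_sh_disj z h3)

/-- the window of the first link misses a foreign tile (any `Z`);   `D` = the region of the first door, absolute -/
theorem pvjtw_Wno_tile (Z : Set (ℤ × ℤ)) {K : Set ℂ} (h0 : Disjoint K (pviwBox 𝔓 m t)) (h1 : Disjoint (𝔈.oM m t) K) (h2 : Disjoint (𝔈.oK m t) K)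
    (h3 : Disjoint (pvieDoor 𝔈 m ε (pvieZo 𝔓 m z t) ((𝔓.Γ m).dout t)) (pvieSh z K)) : Disjoint (pvilWno 𝔓 𝔈 m ε z t Z) (pvieSh z K) := by
  unfold pvilWno
  exact (((pvjtw_Wz_tile 𝔓 m z t Z h0).union_left (pvjtw_sh_disj z h1)).union_left (pvjtw_sh_disj z h2)).union_left h3

/-- the window of the first link at the hull of a full state misses the entrance mouth -/
theorem pvjtw_Wno_mouth (hδ : 16 * pvlmDel c m < 𝔓.num.rho * pvlmH m) (hy : 7 * 𝔓.num.rho / 4 ≤ ‖(𝔓.ty t).yp - (𝔓.ty t).ym‖) (hU : η ∈ pvilU 𝔓.num (𝔓.col t) (pvilPin 𝔓 m z t))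
    {M : Set ℂ} (hM : M ⊆ Metric.closedBall ((pvlmH m : ℂ) * (𝔓.ty t).ym) (𝔓.num.rho * pvlmH m / 2)) (h1 : Disjoint (𝔈.oM m t) M) (h2 : Disjoint (𝔈.oK m t) M)
    (h3 : Disjoint (pvieDoor 𝔈 m ε (pvieZo 𝔓 m z t) ((𝔓.Γ m).dout t)) (pvieSh z M)) : Disjoint (pvilWno 𝔓 𝔈 m ε z t (pvilZo 𝔓 m z t η)) (pvieSh z M) := by
  unfold pvilWno
  exact (((pvjtw_Wzo_mouth hδ hy hU hM).union_left (pvjtw_sh_disj z h1)).union_left (pvjtw_sh_disj z h2)).union_left h3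

/-- the window of the last link misses a foreign tile (any `Z`) -/
theorem pvjtw_Wni_tile (Z : Set (ℤ × ℤ)) {K : Set ℂ} (h0 : Disjoint K (pviwBox 𝔓 m t)) (h1 : Disjoint (𝔈.iM m t) K) (h2 : Disjoint (𝔈.iK m t) K)
    (h3 : Disjoint (pvieDoor 𝔈 m ε (pvieZi 𝔓 m z t) ((𝔓.Γ m).din t)) (pvieSh z K)) : Disjoint (pvilWni 𝔓 𝔈 m ε z t Z) (pvieSh z K) := by
  unfold pvilWni
  exact (((pvjtw_Wz_tile 𝔓 m z t Z h0).union_left (pvjtw_sh_disj z h1)).union_left (pvjtw_sh_disj z h2)).union_left h3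

/-- the window of the last link at the hull of a full state misses the exit mouth -/
theorem pvjtw_Wni_mouth (hδ : 16 * pvlmDel c m < 𝔓.num.rho * pvlmH m) (hy : 7 * 𝔓.num.rho / 4 ≤ ‖(𝔓.ty t).yp - (𝔓.ty t).ym‖) (hU : η ∈ pvilU 𝔓.num (𝔓.col t) (pvilPin 𝔓 m z t))
    {M : Set ℂ} (hM : M ⊆ Metric.closedBall ((pvlmH m : ℂ) * (𝔓.ty t).yp) (𝔓.num.rho * pvlmH m / 2)) (h1 : Disjoint (𝔈.iM m t) M) (h2 : Disjoint (𝔈.iK m t) M)
    (h3 : Disjoint (pvieDoor 𝔈 m ε (pvieZi 𝔓 m z t) ((𝔓.Γ m).din t)) (pvieSh z M)) : Disjoint (pvilWni 𝔓 𝔈 m ε z t (pvilZi 𝔓 m z t η)) (pvieSh z M) := by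
  unfold pvilWni
  exact (((pvjtw_Wzi_mouth hδ hy hU hM).union_left (pvjtw_sh_disj z h1)).union_left (pvjtw_sh_disj z h2)).union_left h3

end windows

/-! ## 5. the far guard of 7 (id 93500) at the base data of a full state: the CELLS of `Z_in` miss `clB(y⁺, 9 ρ h / 16)`, the cells of `Z_out` miss `clB(y⁻, 9 ρ h / 16)` -/

section far

/-- a point of the cells of a hull is within `δ` (sup norm) of every point of its cell -/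
theorem pvjtw_cell {δ : ℝ} {Z : Set (ℤ × ℤ)} {w : ℂ} (hw : w ∈ pvtU δ Z) : ∃ q ∈ Z, ∀ s ∈ pvtSq δ q, |(w - s).re| ≤ δ ∧ |(w - s).im| ≤ δ := by
  unfold pvtU at hw
  simp only [mem_iUnion, exists_prop] at hw
  obtain ⟨q, hq, w1, w2, w3, w4⟩ := hw
  refine ⟨q, hq, fun s hs => ?_⟩
  obtain ⟨s1, s2, s3, s4⟩ := hs
  rw [Complex.sub_re, Complex.sub_im, abs_le, abs_le]
  refine ⟨⟨?_, ?_⟩, ?_, ?_⟩ <;> nlinarith

variable {N : PvwNum} {b : Bool} {p : PviePl} {η : Conf PvPt} {δ r : ℝ}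

/-- generic frame: the cells of `Z_in` stay `5 ρ h / 8` away from `y⁺` -/
theorem pvjtw_Zi_cell_off {𝔖₀ : PvwSt (pvieT η)} (h0 : PvilAt N b p.std η 𝔖₀) (hδ0 : 0 < δ) (hδ : 16 * δ ≤ N.rho * p.h) (hh : 0 ≤ p.h) (hy : 7 * N.rho / 4 ≤ ‖p.ty.yp - p.ty.ym‖)
    {w : ℂ} (hw : w ∈ pvtU δ (pvilHuI δ (N.rho * p.h) N b p.std η)) : 5 * (N.rho * p.h) / 8 ≤ ‖w - (p.z + (p.h : ℂ) * p.ty.yp)‖ := by
  obtain ⟨q, ⟨𝔖, h, s, hs, hs'⟩, hq⟩ := pvjtw_cell hw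
  have hn : ‖w - s‖ ≤ 2 * δ := pvjtw_norm_le (hq s hs).1 (hq s hs).2
  rcases hs' with ⟨v, hv, rfl⟩ | hs'
  · have e0 := pvuq_del_in h.good (pvjtf_in_st h) (pvjtf_in_st h0.inn)
    have hfar := (pvjtw_far h0).1 v ((e0.1.fzIn e0.2) ▸ hv)
    have e : pviePos η v - (p.z + (p.h : ℂ) * p.ty.yp) = -(w - pviePos η v) + (w - (p.z + (p.h : ℂ) * p.ty.yp)) := by ring
    rw [e, show 2 * N.rho * p.h = 2 * (N.rho * p.h) by ring] at hfar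
    have h3 := norm_add_le (-(w - pviePos η v)) (w - (p.z + (p.h : ℂ) * p.ty.yp))
    rw [norm_neg] at h3
    have hn' : ‖w - pviePos η v‖ ≤ 2 * δ := hn
    linarith
  · have h2 : ‖s - (p.z + (p.h : ℂ) * p.ty.ym)‖ ≤ N.rho * p.h := mem_closedBall_iff_norm.1 hs'
    have e : (p.h : ℂ) * (p.ty.yp - p.ty.ym) = -(w - (p.z + (p.h : ℂ) * p.ty.yp)) + ((w - s) + (s - (p.z + (p.h : ℂ) * p.ty.ym))) := by ring
    have h4 : ‖(p.h : ℂ) * (p.ty.yp - p.ty.ym)‖ = p.h * ‖p.ty.yp - p.ty.ym‖ := by rw [norm_mul, Complex.norm_real, Real.norm_of_nonneg hh]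
    have h5 := norm_add_le (-(w - (p.z + (p.h : ℂ) * p.ty.yp))) ((w - s) + (s - (p.z + (p.h : ℂ) * p.ty.ym)))
    have h6 := norm_add_le (w - s) (s - (p.z + (p.h : ℂ) * p.ty.ym))
    rw [norm_neg, ← e, h4] at h5
    have h7 : p.h * (7 * N.rho / 4) ≤ p.h * ‖p.ty.yp - p.ty.ym‖ := mul_le_mul_of_nonneg_left hy hh
    rw [show p.h * (7 * N.rho / 4) = 7 * (N.rho * p.h) / 4 by ring] at h7
    linarith

/-- generic frame: the cells of `Z_out` stay `5 ρ h / 8` away from `y⁻` -/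
theorem pvjtw_Zo_cell_off {𝔖₀ : PvwSt (pvieT η)} (h0 : PvilAt N b p.std η 𝔖₀) (hδ0 : 0 < δ) (hδ : 16 * δ ≤ N.rho * p.h) (hh : 0 ≤ p.h) (hy : 7 * N.rho / 4 ≤ ‖p.ty.yp - p.ty.ym‖)
    {w : ℂ} (hw : w ∈ pvtU δ (pvilHuO δ (N.rho * p.h) N b p.std η)) : 5 * (N.rho * p.h) / 8 ≤ ‖w - (p.z + (p.h : ℂ) * p.ty.ym)‖ := by
  obtain ⟨q, ⟨𝔖, h, s, hs, hs'⟩, hq⟩ := pvjtw_cell hw
  have hn : ‖w - s‖ ≤ 2 * δ := pvjtw_norm_le (hq s hs).1 (hq s hs).2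
  rcases hs' with ⟨v, hv, rfl⟩ | hs'
  · have e0 := pvuq_del_out h.good (pvjtf_out_st h) (pvjtf_out_st h0.out)
    have hfar := (pvjtw_far h0).2 v ((e0.1.fzOut e0.2) ▸ hv)
    have e : pviePos η v - (p.z + (p.h : ℂ) * p.ty.ym) = -(w - pviePos η v) + (w - (p.z + (p.h : ℂ) * p.ty.ym)) := by ring
    rw [e, show 2 * N.rho * p.h = 2 * (N.rho * p.h) by ring] at hfar
    have h3 := norm_add_le (-(w - pviePos η v)) (w - (p.z + (p.h : ℂ) * p.ty.ym))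
    rw [norm_neg] at h3
    have hn' : ‖w - pviePos η v‖ ≤ 2 * δ := hn
    linarith
  · have h2 : ‖s - (p.z + (p.h : ℂ) * p.ty.yp)‖ ≤ N.rho * p.h := mem_closedBall_iff_norm.1 hs'
    have e : (p.h : ℂ) * (p.ty.yp - p.ty.ym) = (w - (p.z + (p.h : ℂ) * p.ty.ym)) + (-(w - s) + -(s - (p.z + (p.h : ℂ) * p.ty.yp))) := by ring
    have h4 : ‖(p.h : ℂ) * (p.ty.yp - p.ty.ym)‖ = p.h * ‖p.ty.yp - p.ty.ym‖ := by rw [norm_mul, Complex.norm_real, Real.norm_of_nonneg hh]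
    have h5 := norm_add_le (w - (p.z + (p.h : ℂ) * p.ty.ym)) (-(w - s) + -(s - (p.z + (p.h : ℂ) * p.ty.yp)))
    have h6 := norm_add_le (-(w - s)) (-(s - (p.z + (p.h : ℂ) * p.ty.yp)))
    rw [norm_neg, norm_neg] at h6
    rw [← e, h4] at h5
    have h7 : p.h * (7 * N.rho / 4) ≤ p.h * ‖p.ty.yp - p.ty.ym‖ := mul_le_mul_of_nonneg_left hy hh
    rw [show p.h * (7 * N.rho / 4) = 7 * (N.rho * p.h) / 4 by ring] at h7
    linarith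

variable {τ : Type} {c : ℝ} {𝔓 : PvxPar τ c} {m : ℕ} {z : ℂ} {t : τ}

/-- **first half of the far guard at the base data of a full state**, any radius `a < 5 ρ h / 8`: the cells of `Z_in` miss the ball round the EXIT centre -/
theorem pvjtw_far_Zi' (hδ0 : 0 < pvlmDel c m) (hδ : 16 * pvlmDel c m ≤ 𝔓.num.rho * pvlmH m) (hy : 7 * 𝔓.num.rho / 4 ≤ ‖(𝔓.ty t).yp - (𝔓.ty t).ym‖) (hU : η ∈ pvilU 𝔓.num (𝔓.col t) (pvilPin 𝔓 m z t))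
    {a : ℝ} (ha : a < 5 * (𝔓.num.rho * pvlmH m) / 8) : Disjoint (pvtU (pvlmDel c m) (pvilZi 𝔓 m z t η)) (Metric.closedBall ((𝔓.ty t).cp (pvlmH m) z) a) := by
  obtain ⟨𝔖₀, h0⟩ := hU
  rw [Set.disjoint_left]
  intro w hw hb
  have h1 : 5 * (𝔓.num.rho * pvlmH m) / 8 ≤ ‖w - (z + (pvlmH m : ℂ) * (𝔓.ty t).yp)‖ := pvjtw_Zi_cell_off h0 hδ0 hδ (pvlm_H_pos m).le hy hw
  have h2 : ‖w - (z + (pvlmH m : ℂ) * (𝔓.ty t).yp)‖ ≤ a := mem_closedBall_iff_norm.1 hb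
  linarith

/-- **second half of the far guard**, any radius `a < 5 ρ h / 8`: the cells of `Z_out` miss the ball round the ENTRANCE centre -/
theorem pvjtw_far_Zo' (hδ0 : 0 < pvlmDel c m) (hδ : 16 * pvlmDel c m ≤ 𝔓.num.rho * pvlmH m) (hy : 7 * 𝔓.num.rho / 4 ≤ ‖(𝔓.ty t).yp - (𝔓.ty t).ym‖) (hU : η ∈ pvilU 𝔓.num (𝔓.col t) (pvilPin 𝔓 m z t))
    {a : ℝ} (ha : a < 5 * (𝔓.num.rho * pvlmH m) / 8) : Disjoint (pvtU (pvlmDel c m) (pvilZo 𝔓 m z t η)) (Metric.closedBall ((𝔓.ty t).cm (pvlmH m) z) a) := by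
  obtain ⟨𝔖₀, h0⟩ := hU
  rw [Set.disjoint_left]
  intro w hw hb
  have h1 : 5 * (𝔓.num.rho * pvlmH m) / 8 ≤ ‖w - (z + (pvlmH m : ℂ) * (𝔓.ty t).ym)‖ := pvjtw_Zo_cell_off h0 hδ0 hδ (pvlm_H_pos m).le hy hw
  have h2 : ‖w - (z + (pvlmH m : ℂ) * (𝔓.ty t).ym)‖ ≤ a := mem_closedBall_iff_norm.1 hb
  linarith

/-- radius `9 ρ h / 16` -/
theorem pvjtw_far_Zi (hδ0 : 0 < pvlmDel c m) (hδ : 16 * pvlmDel c m ≤ 𝔓.num.rho * pvlmH m) (hy : 7 * 𝔓.num.rho / 4 ≤ ‖(𝔓.ty t).yp - (𝔓.ty t).ym‖) (hU : η ∈ pvilU 𝔓.num (𝔓.col t) (pvilPin 𝔓 m z t)) :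
    Disjoint (pvtU (pvlmDel c m) (pvilZi 𝔓 m z t η)) (Metric.closedBall ((𝔓.ty t).cp (pvlmH m) z) (9 * 𝔓.num.rho * pvlmH m / 16)) :=
  pvjtw_far_Zi' hδ0 hδ hy hU (by nlinarith)

/-- radius `9 ρ h / 16` -/
theorem pvjtw_far_Zo (hδ0 : 0 < pvlmDel c m) (hδ : 16 * pvlmDel c m ≤ 𝔓.num.rho * pvlmH m) (hy : 7 * 𝔓.num.rho / 4 ≤ ‖(𝔓.ty t).yp - (𝔓.ty t).ym‖) (hU : η ∈ pvilU 𝔓.num (𝔓.col t) (pvilPin 𝔓 m z t)) :
    Disjoint (pvtU (pvlmDel c m) (pvilZo 𝔓 m z t η)) (Metric.closedBall ((𝔓.ty t).cm (pvlmH m) z) (9 * 𝔓.num.rho * pvlmH m / 16)) :=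
  pvjtw_far_Zo' hδ0 hδ hy hU (by nlinarith)

end far

end Claimed.Agent.R289
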