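-- KEEP
import Claimed.Agent.R289.Exit.AnaDefs
import Claimed.Agent.R289.Exit.Par
import Claimed.Agent.R289.Exit.Thick
import Claimed.Agent.R289.Tr.Dict
import Claimed.Agent.R289.Tr.AtUniq
import Claimed.Agent.R289.Tr.InstE
import Claimed.Agent.R289.Exit.EngRec
import Claimed.Agent.R289.Exit.GdRec

/-!
# Row 289 (S0537, Cardy for Poisson-Voronoi), THE WALL, ROAD E, Exit/TrV : ROOF (7) `V` = THE PRODUCER OF `PvnaVL 𝔓 m0 Gd`      (helper283; prefix `pvyq`, `Pvyq`; RULING 12 of 234, H2 of 73; v2 = on `Exit/AnaDefs` v3.1 of 271, `Exit/Thick` v3 of 7)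

TARGET (271, `Exit/Ana.lean` (7)): `Nonempty (PvnaVL 𝔓 𝔓.m0 𝔊.all)`, `PvnaVL` = `kV cV tel CV cV_L2`.      HERE: `cV := pvdcCVm` (195), `tel` = `pvdc_tel_prob_b` (195) VERBATIM, `kV` CHOSEN BY THE ANCHOR LEMMA, `cV_L2` PROVED FROM INEQUALITIES ONLY.
* sec. 1  `pvyqC N b pl η` = the cut point of a placed plug in a CONFIGURATION (`pvdcCV` of 195 at THE state; uniqueness `pvuq_del` of 150), `pvyqCV`, `pvyq_C_eq`, `pvyq_CV_eq`, **`pvyq_CVm`** (`pvdcCVm = pvyqCV` at a usable candidate), `pvyqX` (relative cut point)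
* sec. 2  **`pvyq_anchor`** = THE ANCHOR LEMMA (model free, PROVED, OUTER MEASURE FORM).      WHY.   `cV(t) - z` is NOT a mask sum (HALF mass of the cut-off disc: E-O1 of 125), only DIFFERENCES `cV(t) - cV(u)` along a link are (I.BES).
          The text takes the mean over the reference plug `u` under the normalised weight: that needs the weight of mass EXACTLY one, the weighted law of the plug EXACTLY independent of `t`, measurability and integrability of `cV(u)`.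
          NONE OF THIS IS NEEDED: if `|a_i - F(x)|² ≤ f_i(x)` for all `x` in ONE set `G` of OUTER mass `≥ p3` (`F` ANY function), then `p3 |a_i - a_j|² ≤ 2 ∫ f_i + 2 ∫ f_j`, and `κ := a_{i₀}` with `∫ f_{i₀}` almost minimal serves ALL `i`.
* sec. 3  `pvyqEmb` (the plug is drawn separately: `pvyq_emb_lintegral`, `pvyq_emb_ae`), `pvyq_major` (I.BES for `V`: ONE measurable majorant, EVERYWHERE, all the indices), `pvyq_cand` (one candidate against the plug; Markov, outer measure)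
* sec. 4  `PvyqPlug τ` = `O θ G F` (the reference plug, next to the record `PvekDat τ` of 7), **THE LEAVES** `PvyqPlug.At` (`mC stop recog` = three fields of `PvekDat.At` at `W := pvbeWV`: `PvyqPlug.At.of`;   `mO mθ law`;   **`frc`**), `PvyqPlug.Ok` (+ ADMISSION), `PvyqPlug.kV`, **`PvyqPlug.Ok.L2`** (PROVED)
* sec. 5  **`PvyqPlug.Ok.toVL : PvnaVL 𝔓 m0 Gd`** (PROVED), `pvyq_hb`;   THE LEAF `exit_pvyq_pair` AND THE ROOF (7) MOVED to `Exit/AnaV.lean` (142): `pvyu_pair_at`, `pvyu_V_at`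
NOT NEEDED FOR `V`: weights `1_A / P(A | states)`, mass one, Fubini for hybrid atoms, means, Jensen, measurability / integrability of any function of a state, cells, kits, `κ_out κ_in`, N1', TR3', fields `norm bd ins` of `PvekDat.At`.
NEEDED (all of it is needed for `thick` / `cyc1` of `Q` as well): (FRC) given (base, plug) the two thick links succeed together with OUTER conditional probability `≥ q` and then the `V`-value of the link is `cV(t) - cV(u)` (`pvdc_val_side` of 195; the two cut points are not moved by the experiment);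
(RECOG) the closed pair is one rim, mask `M_e`;   (STOP);   (ADM).
-/

set_option autoImplicit false

namespace Claimed.Agent.R289

open MeasureTheory Filter Topology Set Claims.C0465
open scoped ENNReal

section cut

variable {τ : Type} {c : ℝ}

/-! ## 1. the cut point of record, on configurations -/

open Classical in
/-- **THE CUT POINT OF A PLACED PLUG** in the configuration `η`: `pvdcCV` (195) of THE state (`0` if there is none) -/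
noncomputable def pvyqC (N : PvwNum) (b : Bool) (pl : PviePl) (η : Conf PvPt) : ℂ :=
  if h : ∃ 𝔖 : PvwSt (pvieT η), PvieAt N b pl η 𝔖 then pvdcCV h.choose (pviePos η) pl.z (N.m * pl.h) else 0

/-- **THE CUT POINT OF THE CANDIDATE `(z,t)`** at level `m` in the sample `ω` -/
noncomputable def pvyqCV (𝔓 : PvxPar τ c) (m : ℕ) (z : ℂ) (t : τ) (ω : PVSample) : ℂ := pvyqC 𝔓.num (𝔓.col t) (𝔓.pl m z t) (pvConf ω)

/-- two states with the same gate part have the same cut point -/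
theorem pvyq_CV_same {V D : Type} {T : PvMap V D} {𝔖 𝔖' : PvwSt T} (h : PvuqG 𝔖 𝔖') (hip : 𝔖.ip ≤ 𝔖.inn.n) (pos : V → ℂ) (z : ℂ) (ρ : ℝ) : pvdcCV 𝔖 pos z ρ = pvdcCV 𝔖' pos z ρ := by
  unfold pvdcCV
  rw [h.mark hip, h.mass pos _ _ hip, h.ip]

/-- the cut point is read on ANY state of the plug (uniqueness: 150) -/
theorem pvyq_C_eq {N : PvwNum} {b : Bool} {pl : PviePl} {η : Conf PvPt} {𝔖 : PvwSt (pvieT η)} (h : PvieAt N b pl η 𝔖) : pvyqC N b pl η = pvdcCV 𝔖 (pviePos η) pl.z (N.m * pl.h) := by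
  have hex : ∃ 𝔖 : PvwSt (pvieT η), PvieAt N b pl η 𝔖 := ⟨𝔖, h⟩
  unfold pvyqC
  rw [dif_pos hex]
  exact pvyq_CV_same (pvuq_del h.good hex.choose_spec.st h.st).g hex.choose_spec.st.out.gate.ip_le _ _ _

theorem pvyq_CV_eq (𝔓 : PvxPar τ c) {m : ℕ} {ω : PVSample} {z : ℂ} {t : τ} {𝔖 : PvwSt (pvxT ω)} (h : PvxAt 𝔓 m ω z t 𝔖) :
    pvyqCV 𝔓 m z t ω = pvdcCV 𝔖 (pvxPos ω) z (𝔓.num.m * pvlmH m) :=
  pvyq_C_eq ((pvie_at_iff 𝔓 m ω z t 𝔖).1 h)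

/-- the cut point of record (195) is a function of the configuration -/
theorem pvyq_CVm (𝔓 : PvxPar τ c) {m : ℕ} {ω : PVSample} {z : ℂ} {t : τ} (h : ω ∈ pvxU 𝔓 m z t) : pvdcCVm 𝔓 m z t ω = pvyqCV 𝔓 m z t ω := by
  obtain ⟨𝔖, hA⟩ := h
  rw [pvdc_CVm_eq hA, pvyq_CV_eq 𝔓 hA]

/-- **the cut point of the candidate relative to the centre of its reference plug**, on configurations -/
noncomputable def pvyqX (𝔓 : PvxPar τ c) (m : ℕ) (z : ℂ) (t : τ) (η : Conf PvPt) : ℂ := pvyqC 𝔓.num (𝔓.col t) (𝔓.pl m z t) η - z - (𝔓.Γ m).zu t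

end cut

/-! ## 2. the anchor lemma -/

section anchor

variable {X : Type*} [MeasurableSpace X]

/-- two numbers which are both close to ONE function on a set of positive OUTER mass are close to each other;   NO measurability of `F`, `G` -/
theorem pvyq_anchor_pair (μ : Measure X) (G : Set X) (F : X → ℂ) {p3 : ℝ≥0∞} (hG : p3 ≤ μ G) {a b : ℂ} {f g : X → ℝ≥0∞}
    (mf : AEMeasurable f μ) (mg : AEMeasurable g μ) (hf : ∀ᵐ x ∂μ, x ∈ G → ‖a - F x‖ₑ ^ 2 ≤ f x) (hg : ∀ᵐ x ∂μ, x ∈ G → ‖b - F x‖ₑ ^ 2 ≤ g x) :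
    p3 * ‖a - b‖ₑ ^ 2 ≤ 2 * ∫⁻ x, f x ∂μ + 2 * ∫⁻ x, g x ∂μ := by
  have hsub : G ≤ᵐ[μ] {x | ‖a - b‖ₑ ^ 2 ≤ 2 * f x + 2 * g x} := by
    filter_upwards [hf, hg] with x h1 h2 hx
    have e : a - b = (a - F x) - (b - F x) := by ring
    have h3 : ‖a - b‖ₑ ≤ ‖a - F x‖ₑ + ‖b - F x‖ₑ := by rw [e]; exact enorm_sub_le
    calc ‖a - b‖ₑ ^ 2 ≤ (‖a - F x‖ₑ + ‖b - F x‖ₑ) ^ 2 := by gcongr
      _ ≤ 2 * ‖a - F x‖ₑ ^ 2 + 2 * ‖b - F x‖ₑ ^ 2 := pvty_add_sq _ _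
      _ ≤ 2 * f x + 2 * g x := add_le_add (mul_le_mul_right (h1 hx) 2) (mul_le_mul_right (h2 hx) 2)
  have m2 : AEMeasurable (fun x => 2 * f x + 2 * g x) μ := (mf.const_mul 2).add (mg.const_mul 2)
  calc p3 * ‖a - b‖ₑ ^ 2 ≤ μ {x | ‖a - b‖ₑ ^ 2 ≤ 2 * f x + 2 * g x} * ‖a - b‖ₑ ^ 2 := mul_le_mul_left (hG.trans (measure_mono_ae hsub)) _
    _ = ‖a - b‖ₑ ^ 2 * μ {x | ‖a - b‖ₑ ^ 2 ≤ 2 * f x + 2 * g x} := mul_comm _ _
    _ ≤ ∫⁻ x, (2 * f x + 2 * g x) ∂μ := mul_meas_ge_le_lintegral₀ m2 _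
    _ = ∫⁻ x, 2 * f x ∂μ + ∫⁻ x, 2 * g x ∂μ := lintegral_add_left' (mf.const_mul 2) _
    _ = 2 * ∫⁻ x, f x ∂μ + 2 * ∫⁻ x, g x ∂μ := by
        rw [lintegral_const_mul' 2 f (by norm_num), lintegral_const_mul' 2 g (by norm_num)]

/-- **THE ANCHOR LEMMA**.      `F` = ANY function on a measure space (the cut point of the reference plug), `G` = ANY set of outer mass `≥ p3`.      A family of numbers `a i` (cut points of the candidates, all positions, types, samples),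
each within `f_i` of `F` on `G`, `∫ f_i ≤ J i`.      Then ONE constant `κ` serves all of them: `p3 |a i - κ|² ≤ 4 J i + 2 s`.      No mean of `F`, no measurability, no integrability, no normalised weight. -/
theorem pvyq_anchor (μ : Measure X) (G : Set X) (F : X → ℂ) {p3 : ℝ≥0∞} (hG : p3 ≤ μ G) {I : Type*} (a : I → ℂ) (J : I → ℝ≥0∞)
    (h : ∀ i, ∃ f : X → ℝ≥0∞, AEMeasurable f μ ∧ (∀ᵐ x ∂μ, x ∈ G → ‖a i - F x‖ₑ ^ 2 ≤ f x) ∧ ∫⁻ x, f x ∂μ ≤ J i) {s : ℝ≥0∞} (hs : s ≠ 0) :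
    ∃ κ : ℂ, ∀ i, p3 * ‖a i - κ‖ₑ ^ 2 ≤ 4 * J i + 2 * s := by
  by_cases htop : (⨅ i, J i) = ∞
  · refine ⟨0, fun i => ?_⟩
    have : J i = ∞ := top_le_iff.1 (htop ▸ iInf_le J i)
    rw [this, ENNReal.mul_top (by norm_num), top_add]
    exact le_top
  · obtain ⟨i₀, hi₀⟩ := iInf_lt_iff.1 (ENNReal.lt_add_right htop hs)
    refine ⟨a i₀, fun i => ?_⟩
    obtain ⟨f, mf, hf, hfJ⟩ := h i
    obtain ⟨g, mg, hg, hgJ⟩ := h i₀
    have h1 : J i₀ ≤ J i + s := hi₀.le.trans (add_le_add (iInf_le J i) le_rfl)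
    calc p3 * ‖a i - a i₀‖ₑ ^ 2 ≤ 2 * ∫⁻ x, f x ∂μ + 2 * ∫⁻ x, g x ∂μ := pvyq_anchor_pair μ G F hG mf mg hf hg
      _ ≤ 2 * J i + 2 * (J i + s) := add_le_add (mul_le_mul_right hfJ 2) (mul_le_mul_right (hgJ.trans h1) 2)
      _ = 4 * J i + 2 * s := by ring

end anchor

/-! ## 3. the plug is drawn separately;   I.BES for `V`;   one candidate against the plug -/

section emb

/-- **the seed whose configuration carries the placed plug `θ x` in the region `O`**, everything else from the seed `p` -/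
noncomputable def pvyqEmb (O : Set ℂ) (θ : Conf PvPt → Conf PvPt) (x : Conf PvPt) (p : (ℂ → Bool) × Conf PvPt) : (ℂ → Bool) × Conf PvPt :=
  (p.1, Conf.spl (O ×ˢ univ) (θ x, p.2))

theorem pvyq_emb_measurable {O : Set ℂ} (hO : MeasurableSet O) {θ : Conf PvPt → Conf PvPt} (mθ : Measurable θ) :
    Measurable fun y : Conf PvPt × ((ℂ → Bool) × Conf PvPt) => pvyqEmb O θ y.1 y.2 :=
  (measurable_fst.comp measurable_snd).prodMk
    ((Conf.measurable_spl (hO.prod MeasurableSet.univ)).comp ((mθ.comp measurable_fst).prodMk (measurable_snd.comp measurable_snd)))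

/-- the law of the seeds is not changed when the plug is drawn separately -/
theorem pvyq_emb_lintegral (ε : ℝ) {O : Set ℂ} (hO : MeasurableSet O) {θ : Conf PvPt → Conf PvPt} (mθ : Measurable θ) (hθ : (pvP ε).map θ = pvP ε)
    {Φ : (ℂ → Bool) × Conf PvPt → ℝ≥0∞} (mΦ : Measurable Φ) :
    ∫⁻ x, ∫⁻ p, Φ (pvyqEmb O θ x p) ∂pvdyNu ε ∂pvP ε = ∫⁻ p, Φ p ∂pvdyNu ε := by
  have hP := pv_isPpp ε
  have := hP.prob
  have hO' : MeasurableSet (O ×ˢ (univ : Set Bool)) := hO.prod MeasurableSet.univ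
  have m1 : Measurable fun y : Conf PvPt × ((ℂ → Bool) × Conf PvPt) => Φ (pvyqEmb O θ y.1 y.2) := mΦ.comp (pvyq_emb_measurable hO mθ)
  have eA : ∀ x, ∫⁻ p, Φ (pvyqEmb O θ x p) ∂pvdyNu ε = ∫⁻ κ, ∫⁻ ω₂, Φ (κ, Conf.spl (O ×ˢ univ) (θ x, ω₂)) ∂pvP ε ∂colLaw ℂ := by
    intro x
    unfold pvdyNu
    exact lintegral_prod (fun p => Φ (pvyqEmb O θ x p)) (m1.comp (measurable_const.prodMk measurable_id)).aemeasurable
  simp_rw [eA]
  have m2 : Measurable fun y : (Conf PvPt × (ℂ → Bool)) × Conf PvPt => Φ (y.1.2, Conf.spl (O ×ˢ univ) (θ y.1.1, y.2)) :=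
    mΦ.comp ((measurable_snd.comp measurable_fst).prodMk ((Conf.measurable_spl hO').comp ((mθ.comp (measurable_fst.comp measurable_fst)).prodMk measurable_snd)))
  rw [lintegral_lintegral_swap m2.lintegral_prod_right'.aemeasurable]
  have eC : ∀ κ : ℂ → Bool, ∫⁻ x, ∫⁻ ω₂, Φ (κ, Conf.spl (O ×ˢ univ) (θ x, ω₂)) ∂pvP ε ∂pvP ε = ∫⁻ η, Φ (κ, η) ∂pvP ε := by
    intro κ
    have mκ : Measurable fun η : Conf PvPt => Φ (κ, η) := mΦ.comp (measurable_const.prodMk measurable_id)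
    have mg : Measurable fun y : Conf PvPt => ∫⁻ ω₂, Φ (κ, Conf.spl (O ×ˢ univ) (y, ω₂)) ∂pvP ε := (mκ.comp (Conf.measurable_spl hO')).lintegral_prod_right'
    rw [hP.lintegral_spl hO' mκ]
    have e1 : ∫⁻ σ, ∫⁻ η, Φ (κ, Conf.spl (O ×ˢ univ) (σ, η)) ∂pvP ε ∂pvP ε = ∫⁻ σ, ∫⁻ η, Φ (κ, Conf.spl (O ×ˢ univ) (σ, η)) ∂pvP ε ∂((pvP ε).map θ) := by rw [hθ]
    rw [e1, lintegral_map mg mθ]
  simp_rw [eC]
  unfold pvdyNu
  exact (lintegral_prod Φ mΦ.aemeasurable).symm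

/-- an almost sure property of the seeds holds for a.e. plug and a.e. seed which carries it -/
theorem pvyq_emb_ae (ε : ℝ) {O : Set ℂ} (hO : MeasurableSet O) {θ : Conf PvPt → Conf PvPt} (mθ : Measurable θ) (hθ : (pvP ε).map θ = pvP ε)
    {Φ : (ℂ → Bool) × Conf PvPt → Prop} (h : ∀ᵐ p ∂pvdyNu ε, Φ p) : ∀ᵐ x ∂pvP ε, ∀ᵐ p ∂pvdyNu ε, Φ (pvyqEmb O θ x p) := by
  have := (pv_isPpp ε).prob
  obtain ⟨N, hN, mN, h0⟩ := exists_measurable_superset_of_null h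
  have mI : Measurable (N.indicator (1 : (ℂ → Bool) × Conf PvPt → ℝ≥0∞)) := measurable_one.indicator mN
  have e := pvyq_emb_lintegral ε hO mθ hθ mI
  rw [lintegral_indicator_one mN, h0] at e
  have m1 : Measurable fun y : Conf PvPt × ((ℂ → Bool) × Conf PvPt) => N.indicator (1 : (ℂ → Bool) × Conf PvPt → ℝ≥0∞) (pvyqEmb O θ y.1 y.2) := mI.comp (pvyq_emb_measurable hO mθ)
  have m2 : Measurable fun x : Conf PvPt => ∫⁻ p, N.indicator (1 : (ℂ → Bool) × Conf PvPt → ℝ≥0∞) (pvyqEmb O θ x p) ∂pvdyNu ε := by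
    unfold pvdyNu
    exact m1.lintegral_prod_right'
  have h1 := (lintegral_eq_zero_iff m2).1 e
  filter_upwards [h1] with x hx
  have m3 : Measurable fun p => N.indicator (1 : (ℂ → Bool) × Conf PvPt → ℝ≥0∞) (pvyqEmb O θ x p) := m1.comp (measurable_const.prodMk measurable_id)
  have h2 := (lintegral_eq_zero_iff m3).1 hx
  filter_upwards [h2] with p hp
  by_contra hh
  have : pvyqEmb O θ x p ∈ N := hN hh
  rw [indicator_of_mem this] at hp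
  exact one_ne_zero hp

/-- **I.BES FOR `V`, EVERYWHERE, ALL THE INDICES**: ONE MEASURABLE majorant of `|Y i|²` at EVERY point of the recognition events -/
theorem pvyq_major {ι : Type} {ε : ℝ} (hε : 0 < ε) (b : Bool) {M : Set ℂ} (hM : MeasurableSet M) (hb : Bornology.IsBounded M) {A A' : ι → Set (Conf PvPt)} {Y : ι → Conf PvPt → ℂ}
    (hrec : ∀ᵐ η ∂pvP ε, ∀ i, η ∈ A i → η ∈ A' i → ∃ x, pvbeTag (pvktFl b η) x ∧ Y i η = pvbeLab pvbeWV (M.indicator 1) (pvktFl b η) x) :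
    ∃ H : Conf PvPt → ℝ≥0∞, Measurable H ∧ ∫⁻ η, H η ∂pvP ε ≤ pvbeCB * volume M ∧ ∀ i, ∀ η ∈ A i, η ∈ A' i → ‖Y i η‖ₑ ^ 2 ≤ H η := by
  obtain ⟨H, hH, h1, h2⟩ := pvbe_in_V ε hε _ (pvbe_test_ind hM hb)
  rw [pvbe_ind_sq hM] at h2
  have mp := pvkt_fl_mp ε b
  have hH' : AEMeasurable (fun η => H (pvktFl b η)) (pvP ε) := by
    refine AEMeasurable.comp_measurable ?_ mp.measurable
    rw [mp.map_eq]; exact hH
  have eH : ∫⁻ η, H (pvktFl b η) ∂pvP ε = ∫⁻ η, H η ∂pvP ε := by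
    conv_rhs => rw [← mp.map_eq]
    rw [lintegral_map' (by rw [mp.map_eq]; exact hH) mp.measurable.aemeasurable]
  have h1' : ∀ᵐ η ∂pvP ε, ∀ x, pvbeTag (pvktFl b η) x → ‖pvbeLab pvbeWV (M.indicator 1) (pvktFl b η) x‖ₑ ^ 2 ≤ H (pvktFl b η) := mp.quasiMeasurePreserving.ae h1
  have hdom : ∀ᵐ η ∂pvP ε, ∀ i, η ∈ A i → η ∈ A' i → ‖Y i η‖ₑ ^ 2 ≤ hH'.mk _ η := by
    filter_upwards [h1', hrec, hH'.ae_eq_mk] with η a1 a2 a3 i hA hA'
    obtain ⟨x, hx, e⟩ := a2 i hA hA'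
    rw [e, ← a3]
    exact a1 x hx
  obtain ⟨N, hN, mN, h0⟩ := exists_measurable_superset_of_null hdom
  refine ⟨fun η => hH'.mk _ η + N.indicator (fun _ => ∞) η, hH'.measurable_mk.add (measurable_const.indicator mN), ?_, fun i η hA hA' => ?_⟩
  · rw [lintegral_add_left hH'.measurable_mk, lintegral_indicator mN, setLIntegral_measure_zero _ _ h0, add_zero, ← lintegral_congr_ae hH'.ae_eq_mk, eH]
    exact h2
  · show ‖Y i η‖ₑ ^ 2 ≤ hH'.mk _ η + N.indicator (fun _ => ∞) η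
    by_cases hη : η ∈ N
    · rw [indicator_of_mem hη, add_top]; exact le_top
    · rw [indicator_of_notMem hη, add_zero]
      by_contra hh
      exact hη (hN fun h => hh (h i hA hA'))

/-- **ONE CANDIDATE AGAINST THE PLUG**: for a.e. usable plug `x` the closed thick pair succeeds with OUTER conditional probability `≥ q` and then its `V`-value is `a - F x`;   so `a` is within `f` of `F`, `∫ f = q⁻¹ ∫ H(R ω ·)`      [Markov] -/
theorem pvyq_cand (ε : ℝ) {C O : Set ℂ} (hC : MeasurableSet C) (hO : MeasurableSet O) {θ : Conf PvPt → Conf PvPt} (mθ : Measurable θ) (hθ : (pvP ε).map θ = pvP ε)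
    (yf : Conf PvPt → Set ℂ) {ω : Conf PvPt} (hc : (cfSites ω).Countable) {A A' G : Set (Conf PvPt)} {Y F : Conf PvPt → ℂ} {H : Conf PvPt → ℝ≥0∞} (mH : Measurable H)
    (hH : ∀ η ∈ A, η ∈ A' → ‖Y η‖ₑ ^ 2 ≤ H η) {q : ℝ≥0∞} (hq0 : q ≠ 0) (hqt : q ≠ ∞) {a : ℂ}
    (hfrc : ∀ᵐ x ∂pvP ε, x ∈ G → q ≤ pvdyNu ε {p | pvdyR C yf ω (pvyqEmb O θ x p) ∈ A ∧ pvdyR C yf ω (pvyqEmb O θ x p) ∈ A' ∧ Y (pvdyR C yf ω (pvyqEmb O θ x p)) = a - F x}) :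
    ∃ f : Conf PvPt → ℝ≥0∞, AEMeasurable f (pvP ε) ∧ (∀ᵐ x ∂pvP ε, x ∈ G → ‖a - F x‖ₑ ^ 2 ≤ f x) ∧ ∫⁻ x, f x ∂pvP ε ≤ q⁻¹ * ∫⁻ p, H (pvdyR C yf ω p) ∂pvdyNu ε := by
  have := (pv_isPpp ε).prob
  have mR : Measurable fun p => H (pvdyR C yf ω p) := mH.comp (pvdy_measurable_R hC yf hc)
  have m1 : Measurable fun y : Conf PvPt × ((ℂ → Bool) × Conf PvPt) => H (pvdyR C yf ω (pvyqEmb O θ y.1 y.2)) := mR.comp (pvyq_emb_measurable hO mθ)
  have m2 : Measurable fun x : Conf PvPt => ∫⁻ p, H (pvdyR C yf ω (pvyqEmb O θ x p)) ∂pvdyNu ε := by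
    unfold pvdyNu
    exact m1.lintegral_prod_right'
  refine ⟨fun x => q⁻¹ * ∫⁻ p, H (pvdyR C yf ω (pvyqEmb O θ x p)) ∂pvdyNu ε, (m2.const_mul _).aemeasurable, ?_, ?_⟩
  · filter_upwards [hfrc] with x hx hG
    have m3 : Measurable fun p => H (pvdyR C yf ω (pvyqEmb O θ x p)) := mR.comp ((pvyq_emb_measurable hO mθ).comp (measurable_prodMk_left (x := x)))
    rw [← ENNReal.div_eq_inv_mul, ENNReal.le_div_iff_mul_le (Or.inl hq0) (Or.inl hqt)]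
    have hsub : {p | pvdyR C yf ω (pvyqEmb O θ x p) ∈ A ∧ pvdyR C yf ω (pvyqEmb O θ x p) ∈ A' ∧ Y (pvdyR C yf ω (pvyqEmb O θ x p)) = a - F x}
        ⊆ {p | ‖a - F x‖ₑ ^ 2 ≤ H (pvdyR C yf ω (pvyqEmb O θ x p))} := fun p hp => by
      show ‖a - F x‖ₑ ^ 2 ≤ H (pvdyR C yf ω (pvyqEmb O θ x p))
      rw [← hp.2.2]
      exact hH _ hp.1 hp.2.1
    calc ‖a - F x‖ₑ ^ 2 * q ≤ ‖a - F x‖ₑ ^ 2 * pvdyNu ε {p | ‖a - F x‖ₑ ^ 2 ≤ H (pvdyR C yf ω (pvyqEmb O θ x p))} := mul_le_mul_right ((hx hG).trans (measure_mono hsub)) _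
      _ ≤ ∫⁻ p, H (pvdyR C yf ω (pvyqEmb O θ x p)) ∂pvdyNu ε := mul_meas_ge_le_lintegral m3 _
  · rw [lintegral_const_mul _ m2, pvyq_emb_lintegral ε hO mθ hθ mR]

end emb

/-! ## 4. the reference plug next to the record of 7, the leaves, the field `cV_L2` -/

section dat

variable {τ : Type} {c : ℝ}

/-- **THE REFERENCE PLUG**, next to the record `D : PvekDat τ` of the thick short link (7, `Exit/Thick.lean`; for `V` alone: `D.Y` = the `V`-value of the thick link `u → t`, `D.A` = plug usable + thick link, `D.A'` = thick return, `D.M` = the mask).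
`O ⊆ D.C` = the box of the plug;   `θ` = the placement of a plug drawn in the reference frame (translation, exchange of the colours for white rims);
`G` = the usable plugs, `F` = the cut point of a usable plug, BOTH IN THE REFERENCE FRAME (no index `z`, `t`). -/
structure PvyqPlug (τ : Type) where
  O : ℕ → ℝ → ℂ → τ → Set ℂ
  θ : ℕ → ℝ → ℂ → τ → Conf PvPt → Conf PvPt
  G : ℕ → ℝ → Set (Conf PvPt)
  F : ℕ → ℝ → Conf PvPt → ℂ

namespace PvyqPlug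

variable (𝔲 : PvyqPlug τ) (D : PvekDat τ) (𝔓 : PvxPar τ c)

/-- the experiment of 7 at the base `ω` with the plug `x` and the seed `p` -/
noncomputable def ex (m : ℕ) (ε : ℝ) (z : ℂ) (t : τ) (ω x : Conf PvPt) (p : (ℂ → Bool) × Conf PvPt) : Conf PvPt :=
  D.R m ε z t ω (pvyqEmb (𝔲.O m ε z t) (𝔲.θ m ε z t) x p)

/-- **(FRC)** at the base `ω`, `i = β ω`: for a.e. usable plug `x`, with OUTER conditional probability `≥ q` the pair closes and the `V`-value of the thick link is (cut point of `t` in `ω`) − (cut point of `x`)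
[(K5) for the two thick links, disjoint resources;   locality of the two states;   `pvdc_val_side` of 195] -/
def Frc (q : ℝ≥0∞) (m : ℕ) (ε : ℝ) (z : ℂ) (t : τ) (ω : Conf PvPt) : Prop :=
  ∀ᵐ x ∂pvP ε, x ∈ 𝔲.G m ε → q ≤ pvdyNu ε {p | 𝔲.ex D m ε z t ω x p ∈ D.A m ε z t (D.β m ε z t ω) ∧ 𝔲.ex D m ε z t ω x p ∈ D.A' m ε z t (D.β m ε z t ω) ∧
    D.Y m ε z t (D.β m ε z t ω) (𝔲.ex D m ε z t ω x p) = pvyqX 𝔓 m z t ω - 𝔲.F m ε x}

/-- **THE LEAVES AT ONE CANDIDATE, ONE MESH** -/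
structure At (q : ℝ≥0∞) (m : ℕ) (ε : ℝ) (z : ℂ) (t : τ) : Prop where
  mC : MeasurableSet (D.C m ε z t)
  /-- (K1), as in `PvekDat.At` -/
  stop : ∃ Ok : Set ℂ → Prop, (∀ᵐ ω ∂pvP ε, Ok (cfSites ω)) ∧ PvktStop Ok (fun η => D.y m ε z t (D.β m ε z t η))
  /-- (K4), as in `PvekDat.At` at `W := pvbeWV` -/
  recog : ∀ᵐ η ∂pvP ε, ∀ i, η ∈ D.A m ε z t i → η ∈ D.A' m ε z t i → ∃ x, pvbeTag (pvktFl (𝔓.col t) η) x ∧
    D.Y m ε z t i η = pvbeLab pvbeWV ((D.M m z t).indicator 1) (pvktFl (𝔓.col t) η) x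
  mO : MeasurableSet (𝔲.O m ε z t)
  mθ : Measurable (𝔲.θ m ε z t)
  /-- I.INV -/
  law : (pvP ε).map (𝔲.θ m ε z t) = pvP ε
  frc : ∀ᵐ ω ∂pvP ε, ω ∈ D.B 𝔓 m ε z t → 𝔲.Frc D 𝔓 q m ε z t ω

/-- **THE LEAVES OF `cV_L2`**, levels `m0 ≤ m` -/
structure Ok (q p3 : ℝ≥0∞) (L : ℝ) (m0 : ℕ) : Prop where
  q0 : q ≠ 0
  qt : q ≠ ∞
  p0 : p3 ≠ 0
  mM : ∀ m, m0 ≤ m → ∀ z t, MeasurableSet (D.M m z t)
  sub : ∀ m, m0 ≤ m → ∀ z t, D.M m z t ⊆ Metric.closedBall z (L * pvlmH m)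
  /-- ADMISSION of the reference plug, uniform in `ε` (outer measure) -/
  adm : ∀ m : ℕ, m0 ≤ m → ∀ᶠ ε in 𝓝[>] (0 : ℝ), p3 ≤ pvP ε (𝔲.G m ε)
  ev : ∀ (m : ℕ), m0 ≤ m → ∀ (p : ℤ × ℤ) (t : τ), ∀ᶠ ε in 𝓝[>] (0 : ℝ), 𝔲.At D 𝔓 q m ε (l9Pt (pvlmH m) p) t

variable {𝔲 D 𝔓}

/-- three of the leaves are fields of the leaves of `thick` at the weight `V` -/
theorem At.of {q q1 q2 : ℝ≥0∞} {m : ℕ} {ε : ℝ} {z : ℂ} {t : τ} (h : D.At 𝔓 pvbeWV q1 q2 m ε z t) (mO : MeasurableSet (𝔲.O m ε z t)) (mθ : Measurable (𝔲.θ m ε z t))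
    (law : (pvP ε).map (𝔲.θ m ε z t) = pvP ε) (frc : ∀ᵐ ω ∂pvP ε, ω ∈ D.B 𝔓 m ε z t → 𝔲.Frc D 𝔓 q m ε z t ω) : 𝔲.At D 𝔓 q m ε z t :=
  ⟨h.mC, h.stop, h.recog, mO, mθ, law, frc⟩

variable (D)

open Classical in
/-- the chosen Bessel majorant (one for all the indices) -/
noncomputable def Hm (_𝔲 : PvyqPlug τ) (m : ℕ) (ε : ℝ) (z : ℂ) (t : τ) : Conf PvPt → ℝ≥0∞ :=
  if h : ∃ H : Conf PvPt → ℝ≥0∞, Measurable H ∧ ∫⁻ η, H η ∂pvP ε ≤ pvbeCB * volume (D.M m z t) ∧ ∀ i, ∀ η ∈ D.A m ε z t i, η ∈ D.A' m ε z t i → ‖D.Y m ε z t i η‖ₑ ^ 2 ≤ H η then h.choose else fun _ => 0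

variable {D}

theorem Hm_spec {q p3 : ℝ≥0∞} {L : ℝ} {m0 : ℕ} (hOk : 𝔲.Ok D 𝔓 q p3 L m0) {m : ℕ} (hm : m0 ≤ m) {ε : ℝ} (hε : 0 < ε) {z : ℂ} {t : τ} (hA : 𝔲.At D 𝔓 q m ε z t) :
    Measurable (𝔲.Hm D m ε z t) ∧ ∫⁻ η, 𝔲.Hm D m ε z t η ∂pvP ε ≤ pvbeCB * volume (D.M m z t) ∧ ∀ i, ∀ η ∈ D.A m ε z t i, η ∈ D.A' m ε z t i → ‖D.Y m ε z t i η‖ₑ ^ 2 ≤ 𝔲.Hm D m ε z t η := by
  have hex := pvyq_major hε (𝔓.col t) (hOk.mM m hm z t) (Metric.isBounded_closedBall.subset (hOk.sub m hm z t)) hA.recog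
  unfold Hm
  rw [dif_pos hex]
  exact hex.choose_spec

variable (𝔲 D 𝔓)

/-- what the constant has to do at `(m, ε)` -/
def IsK (q p3 : ℝ≥0∞) (m : ℕ) (ε : ℝ) (κ : ℂ) : Prop :=
  ∀ (p : ℤ × ℤ) (t : τ) (ω : Conf PvPt), 𝔲.At D 𝔓 q m ε (l9Pt (pvlmH m) p) t → (cfSites ω).Countable → 𝔲.Frc D 𝔓 q m ε (l9Pt (pvlmH m) p) t ω →
    p3 * ‖pvyqX 𝔓 m (l9Pt (pvlmH m) p) t ω - κ‖ₑ ^ 2
      ≤ 4 * (q⁻¹ * ∫⁻ x, 𝔲.Hm D m ε (l9Pt (pvlmH m) p) t (D.R m ε (l9Pt (pvlmH m) p) t ω x) ∂pvdyNu ε) + 2 * ENNReal.ofReal (pvlmH m ^ 2)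

open Classical in
/-- **THE FREE CONSTANT**, chosen by the anchor lemma -/
noncomputable def kV (q p3 : ℝ≥0∞) (m : ℕ) (ε : ℝ) : ℂ := if h : ∃ κ, 𝔲.IsK D 𝔓 q p3 m ε κ then h.choose else 0

variable {𝔲 D 𝔓}

theorem exists_K {q p3 : ℝ≥0∞} {L : ℝ} {m0 : ℕ} (hOk : 𝔲.Ok D 𝔓 q p3 L m0) {m : ℕ} (hm : m0 ≤ m) {ε : ℝ} (hε : 0 < ε) (hadm : p3 ≤ pvP ε (𝔲.G m ε)) : ∃ κ, 𝔲.IsK D 𝔓 q p3 m ε κ := by
  let I := {i : (ℤ × ℤ) × τ × Conf PvPt // 𝔲.At D 𝔓 q m ε (l9Pt (pvlmH m) i.1) i.2.1 ∧ (cfSites i.2.2).Countable ∧ 𝔲.Frc D 𝔓 q m ε (l9Pt (pvlmH m) i.1) i.2.1 i.2.2}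
  have hs : ENNReal.ofReal (pvlmH m ^ 2) ≠ 0 := by
    rw [Ne, ENNReal.ofReal_eq_zero, not_le]
    exact pow_pos (pvlm_H_pos m) 2
  obtain ⟨κ, hκ⟩ := pvyq_anchor (pvP ε) (𝔲.G m ε) (𝔲.F m ε) hadm (I := I) (fun i => pvyqX 𝔓 m (l9Pt (pvlmH m) i.1.1) i.1.2.1 i.1.2.2)
    (fun i => q⁻¹ * ∫⁻ x, 𝔲.Hm D m ε (l9Pt (pvlmH m) i.1.1) i.1.2.1 (D.R m ε (l9Pt (pvlmH m) i.1.1) i.1.2.1 i.1.2.2 x) ∂pvdyNu ε)
    (fun i => by
      obtain ⟨⟨p, t, ω⟩, hA, hc, hF⟩ := i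
      obtain ⟨mH, -, hH⟩ := Hm_spec hOk hm hε hA
      exact pvyq_cand ε hA.mC hA.mO hA.mθ hA.law _ hc mH (hH (D.β m ε (l9Pt (pvlmH m) p) t ω)) hOk.q0 hOk.qt hF) hs
  exact ⟨κ, fun p t ω hA hc hF => hκ ⟨(p, t, ω), hA, hc, hF⟩⟩

theorem kV_spec {q p3 : ℝ≥0∞} {L : ℝ} {m0 : ℕ} (hOk : 𝔲.Ok D 𝔓 q p3 L m0) {m : ℕ} (hm : m0 ≤ m) {ε : ℝ} (hε : 0 < ε) (hadm : p3 ≤ pvP ε (𝔲.G m ε)) : 𝔲.IsK D 𝔓 q p3 m ε (𝔲.kV D 𝔓 q p3 m ε) := by
  have hex := exists_K hOk hm hε hadm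
  unfold kV
  rw [dif_pos hex]
  exact hex.choose_spec

end PvyqPlug

theorem pvyq_lint_affine {α : Type*} [MeasurableSpace α] (ν : Measure α) [IsProbabilityMeasure ν] {f : α → ℝ≥0∞} (mf : Measurable f) (a b d e : ℝ≥0∞) :
    ∫⁻ x, a * (b * (d * f x) + e) ∂ν = a * (b * (d * ∫⁻ x, f x ∂ν) + e) := by
  have m1 : Measurable fun x => d * f x := mf.const_mul d
  have m2 : Measurable fun x => b * (d * f x) := m1.const_mul b
  have m3 : Measurable fun x => b * (d * f x) + e := m2.add measurable_const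
  rw [lintegral_const_mul a m3, lintegral_add_right _ measurable_const, lintegral_const_mul b m1, lintegral_const_mul d mf, lintegral_const, measure_univ, mul_one]

/-- the constant `CV` -/
noncomputable def pvyqCe (q p3 : ℝ≥0∞) (L : ℝ) : ℝ := (p3⁻¹ * (4 * (q⁻¹ * (pvbeCB * ENNReal.ofReal (Real.pi * L ^ 2))) + 2)).toReal

/-- **THE FIELD `cV_L2` ON CONFIGURATIONS**: anchor lemma + invariance under the hybrid resampling (103) + I.BES for `V` (223 244) -/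
theorem PvyqPlug.Ok.L2 {𝔲 : PvyqPlug τ} {D : PvekDat τ} {𝔓 : PvxPar τ c} {q p3 : ℝ≥0∞} {L : ℝ} {m0 : ℕ} (hOk : 𝔲.Ok D 𝔓 q p3 L m0) (m : ℕ) (hm : m0 ≤ m) (p : ℤ × ℤ) (t : τ) : ∀ᶠ ε in 𝓝[>] (0 : ℝ),
    (pvhbUp ε).E (fun x => (D.B 𝔓 m ε (l9Pt (pvlmH m) p) t).indicator (fun ω => ‖pvyqX 𝔓 m (l9Pt (pvlmH m) p) t ω - 𝔲.kV D 𝔓 q p3 m ε‖ₑ ^ 2) (pvConf (pvMerge x)))
      ≤ ENNReal.ofReal (pvyqCe q p3 L * pvlmH m ^ 2) := by
  filter_upwards [hOk.ev m hm p t, hOk.adm m hm, self_mem_nhdsWithin] with ε hA hadm hε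
  have := (pv_isPpp ε).prob
  have hK := PvyqPlug.kV_spec hOk hm hε hadm
  obtain ⟨mH, hHint, -⟩ := PvyqPlug.Hm_spec hOk hm hε hA
  obtain ⟨Okk, hok, hS⟩ := hA.stop
  set z := l9Pt (pvlmH m) p with hz
  set s : ℝ≥0∞ := ENNReal.ofReal (pvlmH m ^ 2) with hs
  have hpt : p3 ≠ ∞ := ne_top_of_le_ne_top ENNReal.one_ne_top (hadm.trans prob_le_one)
  have mH1 : Measurable fun η => 4 * (q⁻¹ * 𝔲.Hm D m ε z t η) := (mH.const_mul _).const_mul _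
  have mH2 : Measurable fun η => p3⁻¹ * (4 * (q⁻¹ * 𝔲.Hm D m ε z t η) + 2 * s) := (mH1.add measurable_const).const_mul _
  refine (pvkt_inv_gen ε hA.mC hok hS mH2 ?_).trans ?_
  · filter_upwards [hA.frc, pvcn_LF_ae ε] with ω h1 h2
    by_cases hω : ω ∈ D.B 𝔓 m ε z t
    · rw [indicator_of_mem hω]
      have hc := pvdy_countable_of_LF h2
      have mR : Measurable fun x => 𝔲.Hm D m ε z t (pvdyR (D.C m ε z t) (fun η => D.y m ε z t (D.β m ε z t η)) ω x) := mH.comp (pvdy_measurable_R hA.mC _ hc)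
      rw [pvyq_lint_affine (pvdyNu ε) mR, ← ENNReal.div_eq_inv_mul, ENNReal.le_div_iff_mul_le (Or.inl hOk.p0) (Or.inl hpt), mul_comm]
      exact hK p t ω hA hc (h1 hω)
    · rw [indicator_of_notMem hω]; exact zero_le
  · rw [pvyq_lint_affine (pvP ε) mH]
    have hv : volume (D.M m z t) ≤ ENNReal.ofReal (Real.pi * L ^ 2) * s := (measure_mono (hOk.sub m hm z t)).trans (pvbe_vol_ball z L (pvlmH m))
    have hfin : p3⁻¹ * (4 * (q⁻¹ * (pvbeCB * ENNReal.ofReal (Real.pi * L ^ 2))) + 2) ≠ ∞ := by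
      refine ENNReal.mul_ne_top (ENNReal.inv_ne_top.2 hOk.p0) (ENNReal.add_ne_top.2 ⟨?_, by norm_num⟩)
      exact ENNReal.mul_ne_top (by norm_num) (ENNReal.mul_ne_top (ENNReal.inv_ne_top.2 hOk.q0) (ENNReal.mul_ne_top pvbe_CB_ne_top ENNReal.ofReal_ne_top))
    rw [pvyqCe, ENNReal.ofReal_mul ENNReal.toReal_nonneg, ENNReal.ofReal_toReal hfin]
    calc p3⁻¹ * (4 * (q⁻¹ * ∫⁻ η, 𝔲.Hm D m ε z t η ∂pvP ε) + 2 * s)
        ≤ p3⁻¹ * (4 * (q⁻¹ * (pvbeCB * (ENNReal.ofReal (Real.pi * L ^ 2) * s))) + 2 * s) := by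
          gcongr
          exact hHint.trans (mul_le_mul_right hv _)
      _ = _ := by ring

end dat

/-! ## 5. the record -/

section rec

variable {τ : Type} {c : ℝ}

/-- **ROOF `V`**: the record `PvnaVL 𝔓 m0 Gd` of 271 from the leaves of the closed thick pair, for ANY good part inside the good configurations of the datum -/
noncomputable def PvyqPlug.Ok.toVL {𝔲 : PvyqPlug τ} {D : PvekDat τ} {𝔓 : PvxPar τ c} {q p3 : ℝ≥0∞} {L : ℝ} {m0 : ℕ} (hOk : 𝔲.Ok D 𝔓 q p3 L m0) (hW : 𝔓.Wf) (hb : ∀ t, (𝔓.ty t).b ≤ (𝔓.ty t).b2)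
    {Gd : ℕ → ℝ → ℂ → τ → Set PVSample} (hG : ∀ m ε z t, Gd m ε z t ⊆ pvConf ⁻¹' D.Gd m ε z t) : PvnaVL 𝔓 m0 Gd where
  kV := 𝔲.kV D 𝔓 q p3
  cV := fun m _ => pvdcCVm 𝔓 m
  tel := fun x R hR m _ π hπ u hu => pvdc_tel_prob_b 𝔓 hW hb Gd x R hR m π hπ u hu
  CV := pvyqCe q p3 L
  cV_L2 := fun m hm p t => by
    filter_upwards [hOk.L2 m hm p t] with ε h
    refine ((pvhbUp ε).mono fun x => ?_).trans h
    by_cases hx : x ∈ pvMerge ⁻¹' pvxU 𝔓 m (l9Pt (pvlmH m) p) t ∩ pvMerge ⁻¹' Gd m ε (l9Pt (pvlmH m) p) t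
    · have hx' : pvConf (pvMerge x) ∈ D.B 𝔓 m ε (l9Pt (pvlmH m) p) t := ⟨⟨pvMerge x, hx.1, rfl⟩, hG _ _ _ _ hx.2⟩
      rw [indicator_of_mem hx, indicator_of_mem hx', pvyq_CVm 𝔓 hx.1]
      exact le_rfl
    · rw [indicator_of_notMem hx]; exact zero_le

/-- the inner gate annulus lies inside the outer one, at the parameters of record -/
theorem pvyq_hb (N : PvxNums) (hN : N.Ok) (c : ℝ) (t : pvxTau N) : ((pvxParOf N hN c).ty t).b ≤ ((pvxParOf N hN c).ty t).b2 := by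
  show N.b1 ≤ N.b2
  linarith [hN.gap, hN.ab2]

/-! **(PAIR)** the leaves of the closed thick pair at the model and **ROOF (7)**: `pvyu_pair_at`, `pvyu_V_at` of `Exit/AnaV.lean` (142: the former leaf `exit_pvyq_pair` of this file, CUT; `D` := the datum of 223 at the weight `pvilV`, `𝔲` := the plug of 61). -/

end rec

theorem pvyq_eqns_cite2 : True := by
  have := @pvyqC.eq_1; have := @pvyqCV.eq_1; have := @pvyqX.eq_1; have := @pvyqEmb.eq_1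
  have := @PvyqPlug.ex.eq_1; have := @PvyqPlug.Frc.eq_1; have := @PvyqPlug.Hm.eq_1; have := @PvyqPlug.IsK.eq_1; have := @PvyqPlug.kV.eq_1
  have := @pvyqCe.eq_1; have := @PvyqPlug.Ok.toVL.eq_1
  trivial

end Claimed.Agent.R289
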