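-- KEEP
import Claimed.Agent.R289.Exit.AnaDefs
import Claimed.Agent.R289.Tr.BuThick
import Claimed.Agent.R289.Tr.StopM
import Claimed.Agent.R289.S1.Closed
import Claimed.Agent.R289.Tr.CycE

/-!
# Row 289 (S0537), THE WALL, ROAD E, Exit/Cyc1B : SECOND ROPE OF THE FIELD `cyc1`, DIRECTLY ON THE NAMES OF `Tr/InstL`      (helper188, second cutter, ruling T9 of 24; prefix `pvcy1_`, `pvcy1`, `Pvcy1`)

WHY A SECOND ROPE.   The first rope (115 `Exit/Cyc1`, 129 `Tr/Top`) goes through the abstract record `Pvl3Exp` and needs an adapter `PvieEng → Pvl3Exp` + the identification of `koutD keD` with the data of record.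
Here NOTHING is adapted: the `Σ₁` cycle is ONE experiment of the calculus of 193 (`pvdyR pvdyHat`), typed by 168 in `Tr/InstL` sec. 7 (`pvilCcyc pvilYfcyc pvilWcyc pvilYcyc pvilHatCyc`), and the probability is: [EQ] + Jensen (no measurability, 103) + `W ≤ D 1_Ev` + (C2) + hybrid invariance in the upper form (103) + I.TAIL.
* sec. 1  **`pvcy1_dom`**   ABSTRACT, BASE-INDEXED weight / value / event: `E^up 1_B ‖K‖² ≤ D ∫ H`                                                                PROVED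
* sec. 2  the numbers of the Hub as functions of the CONFIGURATION (`pvcy1Num`, `pvcy1Hat`; `rfl` with the data of record), THE CONTRACT AT ONE MESH `Pvcy1At`, `pvcy1_at`                 PROVED
* sec. 3  **`pvcy1_cyc1`**  `PvnaCyc1 𝔓 (pvnaDatE 𝔓 𝔈) 𝔊 m0`, VERBATIM, from `Pvcy1All`                                                                     PROVED
* sec. 4  LEAVES CLOSED HERE: bases of record `pvcy1B` (`= pvieU ∩ O ∩ I ∩ B`), **`pvcy1_stop`** (STOP of the cycle from `pvsm_stop_F0` of 96 + (DICT) `Pvcy1Dict` of 38 + `oM_cen eM_cen`), majorant of record `pvclSum · B₀ a₀` (`pvcl_sum_aem`, `pvcl_closed` of 104);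
          **`pvcy1_of_core`** : `PvieEng.Wf` + `pviwTyOk` + (DICT) + Borel `pvilCcyc` + `Pvcy1CoreAll` (= [EQ] + TR1 + (C2) only) ⟹ `PvnaCyc1`                       PROVED
* sec. 5  [EQ] + TR1 := THE RECORD OF 102 (`PvjgCycL`, `Tr/CycE`, 0 sorry) at almost every base: `Pvcy1Rec`, `Pvcy1C2` (event of record `pvjgEvL`), **`pvcy1_of_rec`**                          PROVED
-/

set_option autoImplicit false

namespace Claimed.Agent.R289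

open MeasureTheory Filter Topology Set Claims.C0465
open scoped ENNReal

/-! ## 1. abstract domination for a base-indexed experiment -/

section abs

variable {Ok : Set ℂ → Prop} {C : Set ℂ} {yf yb : Conf PvPt → Set ℂ} {H : Conf PvPt → ℝ≥0∞} {B : Set (Conf PvPt)} {D : ℝ≥0∞}
  {w : Conf PvPt → Conf PvPt → ℝ≥0∞} {Y : Conf PvPt → Conf PvPt → ℂ} {Ev : Conf PvPt → Set (Conf PvPt)} {K : Conf PvPt → ℂ}

/-- **[DOM] FOR A BASE-INDEXED EXPERIMENT, UPPER FORM**.      `B` = the bases (ANY set);   `yb ω` = the sites recoloured at the base `ω` (a CONSTANT of the experiment), `yf` = ANY stopping choice which agrees with it on `B` (guard of 96);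
`w ω`, `Y ω`, `Ev ω` = weight, value, success AT THE BASE DATA OF `ω`;   `hK` = [EQ];   `hnorm`, `hle` = TR1;   `hdom` = (C2): ONE null set of configurations `η` for all the bases.      No measurability of `B K w Y Ev yb yf`. -/
theorem pvcy1_dom (ε : ℝ) (hC : MeasurableSet C) (hok : ∀ᵐ ω ∂pvP ε, Ok (cfSites ω)) (hS : PvktStop Ok yf) (mH : AEMeasurable H (pvP ε))
    (hy : ∀ᵐ ω ∂pvP ε, ω ∈ B → yf ω = yb ω)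
    (hK : ∀ᵐ ω ∂pvP ε, ω ∈ B → K ω = pvdyHat ε C (fun _ => yb ω) (w ω) (Y ω) ω)
    (hnorm : ∀ᵐ ω ∂pvP ε, ω ∈ B → ∫⁻ p, w ω (pvdyR C (fun _ => yb ω) ω p) ∂pvdyNu ε ≤ 1)
    (hle : ∀ᵐ ω ∂pvP ε, ω ∈ B → ∀ᵐ p ∂pvdyNu ε, w ω (pvdyR C (fun _ => yb ω) ω p) ≤ D * (Ev ω).indicator 1 (pvdyR C (fun _ => yb ω) ω p))
    (hdom : ∀ᵐ η ∂pvP ε, ∀ ω ∈ B, (∃ p, η = pvdyR C (fun _ => yb ω) ω p) → η ∈ Ev ω → ‖Y ω η‖ₑ ^ 2 ≤ H η) :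
    (pvhbUp ε).E (fun x => B.indicator (fun ω => ‖K ω‖ₑ ^ 2) (pvConf (pvMerge x))) ≤ D * ∫⁻ ω, H ω ∂pvP ε := by
  have hdom' : ∀ᵐ η ∂pvP ε, ∀ ω ∈ B, (∃ p, η = pvdyR C (fun _ => yb ω) ω p) → η ∈ Ev ω → ‖Y ω η‖ₑ ^ 2 ≤ mH.mk H η := by
    filter_upwards [hdom, mH.ae_eq_mk] with η h1 h2
    rw [← h2]; exact h1
  obtain ⟨N, hN, mN, h0⟩ := exists_measurable_superset_of_null hdom'
  let H' : Conf PvPt → ℝ≥0∞ := fun ω => D * (mH.mk H ω + N.indicator (fun _ => ∞) ω)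
  have mH' : Measurable H' := (mH.measurable_mk.add (measurable_const.indicator mN)).const_mul _
  have eH' : ∫⁻ ω, H' ω ∂pvP ε = D * ∫⁻ ω, H ω ∂pvP ε := by
    have e1 : ∫⁻ ω, H' ω ∂pvP ε = D * ∫⁻ ω, (mH.mk H ω + N.indicator (fun _ => ∞) ω) ∂pvP ε :=
      lintegral_const_mul _ (mH.measurable_mk.add (measurable_const.indicator mN))
    rw [e1, lintegral_add_left mH.measurable_mk, lintegral_indicator mN, setLIntegral_measure_zero _ _ h0, add_zero, lintegral_congr_ae mH.ae_eq_mk]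
  have hall : ∀ ω ∈ B, ∀ p, (Ev ω).indicator 1 (pvdyR C (fun _ => yb ω) ω p) * ‖Y ω (pvdyR C (fun _ => yb ω) ω p)‖ₑ ^ 2
      ≤ mH.mk H (pvdyR C (fun _ => yb ω) ω p) + N.indicator (fun _ => ∞) (pvdyR C (fun _ => yb ω) ω p) := by
    intro ω hω p
    by_cases hA : pvdyR C (fun _ => yb ω) ω p ∈ Ev ω
    · rw [indicator_of_mem hA, Pi.one_apply, one_mul]
      by_cases hη : pvdyR C (fun _ => yb ω) ω p ∈ N
      · rw [indicator_of_mem hη, add_top]; exact le_top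
      · rw [indicator_of_notMem hη, add_zero]
        by_contra hh
        exact hη (hN fun h => hh (h ω hω ⟨p, rfl⟩ hA))
    · rw [indicator_of_notMem hA, zero_mul]; exact zero_le
  rw [← eH']
  refine pvkt_inv_gen ε hC hok hS mH' ?_
  filter_upwards [hy, hK, hnorm, hle] with ω h1 h2 h3 h4
  by_cases hω : ω ∈ B
  · rw [indicator_of_mem hω, h2 hω]
    have eR : pvdyR C yf ω = pvdyR C (fun _ => yb ω) ω := pvsm_R_congr C (h1 hω)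
    rw [eR]
    refine (pvkt_jensen0 ε C (fun _ => yb ω) (w ω) (Y ω) (h3 hω)).trans ?_
    refine lintegral_mono_ae ?_
    filter_upwards [h4 hω] with p hp
    calc w ω (pvdyR C (fun _ => yb ω) ω p) * ‖Y ω (pvdyR C (fun _ => yb ω) ω p)‖ₑ ^ 2
        ≤ D * (Ev ω).indicator 1 (pvdyR C (fun _ => yb ω) ω p) * ‖Y ω (pvdyR C (fun _ => yb ω) ω p)‖ₑ ^ 2 := by gcongr
      _ = D * ((Ev ω).indicator 1 (pvdyR C (fun _ => yb ω) ω p) * ‖Y ω (pvdyR C (fun _ => yb ω) ω p)‖ₑ ^ 2) := mul_assoc _ _ _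
      _ ≤ H' (pvdyR C (fun _ => yb ω) ω p) := by
        show _ ≤ D * _
        gcongr
        exact hall ω hω p
  · rw [indicator_of_notMem hω]; exact zero_le

end abs

/-! ## 2. the numbers of the Hub as functions of the configuration; the contract at one mesh -/

section inst

variable {τ : Type} {c : ℝ} (𝔓 : PvxPar τ c) (𝔈 : PvieEng τ)

/-- the number `kout + pvtSum W (dout t) (l1 t) + kin0 + ke` of the Hub, read on the CONFIGURATION -/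
noncomputable def pvcy1Num (m : ℕ) (ε : ℝ) (z : ℂ) (t : τ) (η : Conf PvPt) : ℂ :=
  pvkyK (𝔈.kit m ε) ε (𝔓.col t) (pvilEoAt 𝔓 𝔈 m ε pvilQ z t η) (pvieZo 𝔓 m z t) ((𝔓.Γ m).dout t) η + pvtSum (pvilW 𝔈 m ε) ((𝔓.Γ m).dout t) ((𝔓.Γ m).l1 t) + pvilKin0 𝔓 𝔈 m ε +
    pvdyHat ε ((pvilEeAt 𝔓 𝔈 m ε pvilQ z t η).K ∪ pvieSh (pvieZu 𝔓 m z t) (𝔈.rO m)) (pvilEeAt 𝔓 𝔈 m ε pvilQ z t η).y (pvilW1e 𝔓 𝔈 m ε z t (pvilEeAt 𝔓 𝔈 m ε pvilQ z t η)) (pvilEeAt 𝔓 𝔈 m ε pvilQ z t η).X η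

/-- the resampling of the cycle at the base `ω` -/
noncomputable def pvcy1R (m : ℕ) (ε : ℝ) (z : ℂ) (t : τ) (ω : Conf PvPt) : (ℂ → Bool) × Conf PvPt → Conf PvPt :=
  pvdyR (pvilCcyc 𝔓 𝔈 m ε z t) (fun _ => pvilYfcyc 𝔓 𝔈 m z t ω) ω

/-- the mean of the whole cycle, read on the configuration -/
noncomputable def pvcy1Hat (m : ℕ) (ε : ℝ) (z : ℂ) (t : τ) (η : Conf PvPt) : ℂ :=
  pvdyHat ε (pvilCcyc 𝔓 𝔈 m ε z t) (fun _ => pvilYfcyc 𝔓 𝔈 m z t η) (pvilWcyc 𝔓 𝔈 m ε z t η) (pvilYcyc 𝔓 𝔈 m ε z t η) η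

theorem pvcy1_num_eq (m : ℕ) (ε : ℝ) (z : ℂ) (t : τ) (ω : PVSample) :
    (pvnaDatE 𝔓 𝔈).kout m ε z t ω + pvtSum ((pvnaDatE 𝔓 𝔈).W m ε) ((𝔓.Γ m).dout t) ((𝔓.Γ m).l1 t) + (pvnaDatE 𝔓 𝔈).kin0 m ε + (pvnaDatE 𝔓 𝔈).ke m ε z t ω = pvcy1Num 𝔓 𝔈 m ε z t (pvConf ω) := rfl

theorem pvcy1_hat_eq (m : ℕ) (ε : ℝ) (z : ℂ) (t : τ) (ω : PVSample) : pvilHatCyc 𝔓 𝔈 m ε z t ω = pvcy1Hat 𝔓 𝔈 m ε z t (pvConf ω) := rfl

/-- **THE CONTRACT OF `cyc1` AT ONE MESH, ON THE NAMES OF `Tr/InstL`**;   `B` = the bases (configurations of the good usable samples), `D` = the constant of TR1, `H` = the majorant of (C2).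
* `mC`     the resampled region is measurable                                             [`PvieEng.Wf`]
* `stop`   STOP: a stopping choice which is `pvilYfcyc` on `B` (guard by the full state)  [96 `Tr/StopM`]
* `mH`     measurability of the majorant                                                  [`pvcl_sum_aem`]
* `eq`     [EQ] = TR2 for the cycle                                                       [102 `Tr/CycE`: `PvjgCyc.hat_eq`]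
* `mass`   TR1                                                                            [102: `PvjgCyc.mass`]
* `Ev le`  TR1: `W ≤ D 1_Ev` along the experiment                                         [102: `PvjgCyc.le_ae`]
* `c2`     (C2): on the success of the whole cycle its value is the increment of ONE closed rim; ONE null set for all the bases      [48 `Tr/CycC2` + soft localisation 141 251] -/
structure Pvcy1At (m : ℕ) (ε : ℝ) (z : ℂ) (t : τ) (B : Set (Conf PvPt)) (D : ℝ≥0∞) (H : Conf PvPt → ℝ≥0∞) : Prop where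
  mC : MeasurableSet (pvilCcyc 𝔓 𝔈 m ε z t)
  stop : ∃ (Ok : Set ℂ → Prop) (yf : Conf PvPt → Set ℂ), (∀ᵐ ω ∂pvP ε, Ok (cfSites ω)) ∧ PvktStop Ok yf ∧ ∀ᵐ ω ∂pvP ε, ω ∈ B → yf ω = pvilYfcyc 𝔓 𝔈 m z t ω
  mH : AEMeasurable H (pvP ε)
  eq : ∀ᵐ ω ∂pvP ε, ω ∈ B → pvcy1Num 𝔓 𝔈 m ε z t ω = pvcy1Hat 𝔓 𝔈 m ε z t ω
  mass : ∀ᵐ ω ∂pvP ε, ω ∈ B → ∫⁻ p, pvilWcyc 𝔓 𝔈 m ε z t ω (pvcy1R 𝔓 𝔈 m ε z t ω p) ∂pvdyNu ε ≤ 1
  le_c2 : ∃ Ev : Conf PvPt → Set (Conf PvPt),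
    (∀ᵐ ω ∂pvP ε, ω ∈ B → ∀ᵐ p ∂pvdyNu ε, pvilWcyc 𝔓 𝔈 m ε z t ω (pvcy1R 𝔓 𝔈 m ε z t ω p) ≤ D * (Ev ω).indicator 1 (pvcy1R 𝔓 𝔈 m ε z t ω p)) ∧
    ∀ᵐ η ∂pvP ε, ∀ ω ∈ B, (∃ p, η = pvcy1R 𝔓 𝔈 m ε z t ω p) → η ∈ Ev ω → ‖pvilYcyc 𝔓 𝔈 m ε z t ω η‖ₑ ^ 2 ≤ H η

variable {𝔓 𝔈}

/-- `cyc1` at one mesh -/
theorem pvcy1_at {m : ℕ} {ε : ℝ} {z : ℂ} {t : τ} {B : Set (Conf PvPt)} {D : ℝ≥0∞} {H : Conf PvPt → ℝ≥0∞} (h : Pvcy1At 𝔓 𝔈 m ε z t B D H) :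
    (pvhbUp ε).E (fun x => B.indicator (fun ω => ‖pvcy1Num 𝔓 𝔈 m ε z t ω‖ₑ ^ 2) (pvConf (pvMerge x))) ≤ D * ∫⁻ ω, H ω ∂pvP ε := by
  obtain ⟨Ok, yf, hok, hS, hy⟩ := h.stop
  obtain ⟨Ev, hle, hc2⟩ := h.le_c2
  exact pvcy1_dom ε h.mC hok hS h.mH hy h.eq h.mass hle hc2

/-! ## 3. the roof -/

/-- **(CYC1.B)** the contract at every candidate of a level `m0 ≤ m`: bases, ONE constant `D` for all the meshes, a majorant whose mean tends to `0` (I.TAIL at fixed level) -/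
def Pvcy1All (𝔓 : PvxPar τ c) (𝔈 : PvieEng τ) (𝔊 : PvnaGd τ) (m0 : ℕ) : Prop :=
  ∀ (m : ℕ), m0 ≤ m → ∀ (p : ℤ × ℤ) (t : τ), ∃ (B : ℝ → Set (Conf PvPt)) (D : ℝ≥0∞) (H : ℝ → Conf PvPt → ℝ≥0∞), D ≠ ∞ ∧
    (∀ᶠ ε in 𝓝[>] (0 : ℝ), Pvcy1At 𝔓 𝔈 m ε (l9Pt (pvlmH m) p) t (B ε) D (H ε)) ∧
    (∀ᶠ ε in 𝓝[>] (0 : ℝ), ∀ ω ∈ pvxU 𝔓 m (l9Pt (pvlmH m) p) t ∩ 𝔊.all m ε (l9Pt (pvlmH m) p) t, pvConf ω ∈ B ε) ∧
    Tendsto (fun ε => ∫⁻ ω, H ε ω ∂pvP ε) (𝓝[>] (0 : ℝ)) (𝓝 0)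

/-- **`PvnaCyc1` AT THE DATA OF RECORD, VERBATIM** -/
theorem pvcy1_cyc1 {𝔊 : PvnaGd τ} {m0 : ℕ} (h : Pvcy1All 𝔓 𝔈 𝔊 m0) : PvnaCyc1 𝔓 (pvnaDatE 𝔓 𝔈) 𝔊 m0 := by
  intro m hm p t
  obtain ⟨B, D, H, hD, hat, hact, htail⟩ := h m hm p t
  have h0 : Tendsto (fun ε => D * ∫⁻ ω, H ε ω ∂pvP ε) (𝓝[>] (0 : ℝ)) (𝓝 0) := by
    have := ENNReal.Tendsto.const_mul htail (Or.inr hD)
    rwa [mul_zero] at this
  refine tendsto_of_tendsto_of_tendsto_of_le_of_le' tendsto_const_nhds h0 (Eventually.of_forall fun _ => zero_le) ?_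
  filter_upwards [hat, hact] with ε h1 h2
  refine le_trans ((pvhbUp ε).mono fun q => ?_) (pvcy1_at h1)
  by_cases hq : q ∈ pvMerge ⁻¹' pvxU 𝔓 m (l9Pt (pvlmH m) p) t ∩ pvMerge ⁻¹' 𝔊.all m ε (l9Pt (pvlmH m) p) t
  · rw [indicator_of_mem hq, indicator_of_mem (h2 (pvMerge q) hq), pvcy1_num_eq]
  · rw [indicator_of_notMem hq]; exact zero_le

end inst

/-! ## 4. the leaves which are closed here: bases of record, STOP, measurability and tail of the majorant -/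

section leaves

variable {τ : Type} {c : ℝ} (𝔓 : PvxPar τ c) (𝔈 : PvieEng τ)

/-- **THE BASES OF RECORD**: the configurations with a full state of the candidate, in the good part -/
def pvcy1B (𝔊 : PvnaGd τ) (m : ℕ) (ε : ℝ) (z : ℂ) (t : τ) : Set (Conf PvPt) :=
  pvieU 𝔓.num (𝔓.col t) (𝔓.pl m z t) ∩ (𝔊.O m ε z t ∩ 𝔊.I m ε z t ∩ 𝔊.B m ε z t)

theorem pvcy1_act (𝔊 : PvnaGd τ) (m : ℕ) (ε : ℝ) (z : ℂ) (t : τ) : ∀ ω ∈ pvxU 𝔓 m z t ∩ 𝔊.all m ε z t, pvConf ω ∈ pvcy1B 𝔓 𝔊 m ε z t := by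
  rintro ω ⟨h1, h2⟩
  rw [pvie_U_conf] at h1
  exact ⟨h1, h2⟩

/-- **(DICT)** the base data `F` of a usable candidate = the positions frozen by the two halves of THE full state      [38 `Tr/InstLB` (b), after the patch v2.1 of `Tr/InstL`; uniqueness of the half states: 150 `pvuq_del_out`, `pvuq_del_in`] -/
def Pvcy1Dict (m : ℕ) (z : ℂ) (t : τ) : Prop :=
  ∀ (η : Conf PvPt) (𝔖 : PvwSt (pvieT η)), PvieAt 𝔓.num (𝔓.col t) (𝔓.pl m z t) η 𝔖 → pvilFo 𝔓 m z t η = pviePos η '' 𝔖.fzOut ∧ pvilFi 𝔓 m z t η = pviePos η '' 𝔖.fzIn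

variable {𝔓 𝔈}

/-- **STOP FOR THE CYCLE**: `(both mouths) \ (frozen positions of the full state)` is a stopping choice (96) and it IS `pvilYfcyc` at every base with a full state -/
theorem pvcy1_stop {m : ℕ} {z : ℂ} {t : τ} (hd : Pvcy1Dict 𝔓 m z t)
    (ho : pvieSh z (𝔈.oM m t) ⊆ Metric.closedBall ((𝔓.ty t).cp (pvlmH m) z) (2 * 𝔓.num.rho * pvlmH m))
    (he : pvieSh z (𝔈.eM m t) ⊆ Metric.closedBall ((𝔓.ty t).cm (pvlmH m) z) (2 * 𝔓.num.rho * pvlmH m)) :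
    ∃ yf : Conf PvPt → Set ℂ, PvdyStop yf ∧ ∀ η ∈ pvieU 𝔓.num (𝔓.col t) (𝔓.pl m z t), yf η = pvilYfcyc 𝔓 𝔈 m z t η := by
  refine ⟨_, pvsm_stop_F0 𝔓.num (𝔓.col t) (𝔓.pl m z t) (pvieSh z (𝔈.oM m t) ∪ pvieSh z (𝔈.eM m t)), ?_⟩
  rintro η ⟨𝔖, h⟩
  obtain ⟨e1, e2⟩ := hd η 𝔖 h
  have e0 : pvsmF0 𝔓.num (𝔓.col t) (𝔓.pl m z t) η = pviePos η '' 𝔖.fzOut ∪ pviePos η '' 𝔖.fzIn := by
    rw [pvsm_F0_of h, ← image_union]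
    rfl
  show (pvieSh z (𝔈.oM m t) ∪ pvieSh z (𝔈.eM m t)) \ pvsmF0 𝔓.num (𝔓.col t) (𝔓.pl m z t) η = (pvieSh z (𝔈.oM m t) \ pvilFo 𝔓 m z t η) ∪ (pvieSh z (𝔈.eM m t) \ pvilFi 𝔓 m z t η)
  rw [e0, e1, e2]
  have k1 : ∀ v ∈ pvieSh z (𝔈.oM m t), v ∉ pviePos η '' 𝔖.fzIn := by
    rintro v hv ⟨u, hu, rfl⟩
    have h1 := h.st.far_p u hu
    have h2 := ho hv
    rw [Metric.mem_closedBall, dist_eq_norm] at h2
    exact absurd h2 (not_le.2 h1)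
  have k2 : ∀ v ∈ pvieSh z (𝔈.eM m t), v ∉ pviePos η '' 𝔖.fzOut := by
    rintro v hv ⟨u, hu, rfl⟩
    have h1 := h.st.far_m u hu
    have h2 := he hv
    rw [Metric.mem_closedBall, dist_eq_norm] at h2
    exact absurd h2 (not_le.2 h1)
  ext v
  simp only [Set.mem_sdiff, mem_union, not_or]
  constructor
  · rintro ⟨hv | hv, h1, h2⟩
    · exact Or.inl ⟨hv, h1⟩
    · exact Or.inr ⟨hv, h2⟩
  · rintro (⟨hv, h1⟩ | ⟨hv, h2⟩)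
    · exact ⟨Or.inl hv, h1, k1 v hv⟩
    · exact ⟨Or.inr hv, k2 v hv, h2⟩

/-- a relative set inside a ball, placed at `z` -/
theorem pvcy1_sh_ball {S : Set ℂ} {w : ℂ} {r : ℝ} (h : S ⊆ Metric.closedBall w r) (z : ℂ) : pvieSh z S ⊆ Metric.closedBall (z + w) r := by
  rintro _ ⟨v, hv, rfl⟩
  have := h hv
  rw [Metric.mem_closedBall, dist_eq_norm] at this ⊢
  rwa [add_sub_add_left_eq_sub]

/-- **WHAT IS LEFT OF THE CONTRACT AT ONE MESH**: [EQ], TR1, (C2) -/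
structure Pvcy1Core (𝔓 : PvxPar τ c) (𝔈 : PvieEng τ) (m : ℕ) (ε : ℝ) (z : ℂ) (t : τ) (B : Set (Conf PvPt)) (D : ℝ≥0∞) (H : Conf PvPt → ℝ≥0∞) : Prop where
  eq : ∀ᵐ ω ∂pvP ε, ω ∈ B → pvcy1Num 𝔓 𝔈 m ε z t ω = pvcy1Hat 𝔓 𝔈 m ε z t ω
  mass : ∀ᵐ ω ∂pvP ε, ω ∈ B → ∫⁻ p, pvilWcyc 𝔓 𝔈 m ε z t ω (pvcy1R 𝔓 𝔈 m ε z t ω p) ∂pvdyNu ε ≤ 1
  le_c2 : ∃ Ev : Conf PvPt → Set (Conf PvPt),
    (∀ᵐ ω ∂pvP ε, ω ∈ B → ∀ᵐ p ∂pvdyNu ε, pvilWcyc 𝔓 𝔈 m ε z t ω (pvcy1R 𝔓 𝔈 m ε z t ω p) ≤ D * (Ev ω).indicator 1 (pvcy1R 𝔓 𝔈 m ε z t ω p)) ∧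
    ∀ᵐ η ∂pvP ε, ∀ ω ∈ B, (∃ p, η = pvcy1R 𝔓 𝔈 m ε z t ω p) → η ∈ Ev ω → ‖pvilYcyc 𝔓 𝔈 m ε z t ω η‖ₑ ^ 2 ≤ H η

/-- **(CYC1.C)** the core at every candidate, bases of record, majorant of record `pvclSum · B₀ a₀` (104) -/
def Pvcy1CoreAll (𝔓 : PvxPar τ c) (𝔈 : PvieEng τ) (𝔊 : PvnaGd τ) (m0 : ℕ) : Prop :=
  ∀ (m : ℕ), m0 ≤ m → ∀ (p : ℤ × ℤ) (t : τ), ∃ (D : ℝ≥0∞) (B₀ : Set ℂ) (a₀ : ℝ), D ≠ ∞ ∧ Bornology.IsBounded B₀ ∧ MeasurableSet B₀ ∧ 0 < a₀ ∧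
    ∀ᶠ ε in 𝓝[>] (0 : ℝ), Pvcy1Core 𝔓 𝔈 m ε (l9Pt (pvlmH m) p) t (pvcy1B 𝔓 𝔊 m ε (l9Pt (pvlmH m) p) t) D fun η => pvclSum η B₀ a₀

/-- **THE ROOF OVER THE CORE**: `PvieEng.Wf` + non degenerate types + (DICT) + Borel region + the core ⟹ `PvnaCyc1` at the data of record -/
theorem pvcy1_of_core {𝔊 : PvnaGd τ} {m0 : ℕ} {Cth : ℝ} {r κs : ℕ → ℝ} (hW : PvieEng.Wf 𝔓 𝔈 m0 Cth r κs) (hT : ∀ t, pviwTyOk 𝔓 t)
    (hd : ∀ m, m0 ≤ m → ∀ z t, Pvcy1Dict 𝔓 m z t) (hC : ∀ m, m0 ≤ m → ∀ ε z t, MeasurableSet (pvilCcyc 𝔓 𝔈 m ε z t)) (h : Pvcy1CoreAll 𝔓 𝔈 𝔊 m0) :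
    PvnaCyc1 𝔓 (pvnaDatE 𝔓 𝔈) 𝔊 m0 := by
  refine pvcy1_cyc1 fun m hm p t => ?_
  obtain ⟨D, B₀, a₀, hD, hb, mB, ha, hcore⟩ := h m hm p t
  refine ⟨fun ε => pvcy1B 𝔓 𝔊 m ε (l9Pt (pvlmH m) p) t, D, fun _ η => pvclSum η B₀ a₀, hD, ?_, Eventually.of_forall fun ε => pvcy1_act 𝔓 𝔊 m ε _ t, pvcl_closed hb ha⟩
  obtain ⟨yf, hS, hy⟩ := pvcy1_stop (𝔈 := 𝔈) (hd m hm (l9Pt (pvlmH m) p) t) (pvcy1_sh_ball (hW.oM_cen m hm t (hT t)) _) (pvcy1_sh_ball (hW.eM_cen m hm t (hT t)) _)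
  filter_upwards [hcore] with ε hε
  exact ⟨hC m hm ε _ t, ⟨fun _ => True, yf, Eventually.of_forall fun _ => trivial, hS.kt, Eventually.of_forall fun ω hω => hy ω hω.1⟩, pvcl_sum_aem ε mB a₀, hε.eq, hε.mass, hε.le_c2⟩

end leaves

/-! ## 5. [EQ] + TR1 = the record of 102 at almost every base -/

section rec

variable {τ : Type} {c : ℝ} {𝔓 : PvxPar τ c} {𝔈 : PvieEng τ}

/-- [EQ] on configurations -/
theorem pvcy1_eq_of_rec {m : ℕ} {ε : ℝ} {z : ℂ} {t : τ} {ω : Conf PvPt} {fo fe : PvkeFun ℂ} {β' q qr qo qe : ℝ≥0∞} (H : PvjgCycL 𝔓 𝔈 m ε z t ω fo fe β' q qr qo qe) :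
    pvcy1Num 𝔓 𝔈 m ε z t ω = pvcy1Hat 𝔓 𝔈 m ε z t ω := by
  unfold PvjgCycL at H
  unfold pvcy1Hat
  rw [pvjg_Wcyc_eq, pvjg_Ycyc_eq, H.hat_eq]
  rfl

/-- **(REC)** at one mesh: almost every base carries the record of 102, with ONE bound `D` of the constant of TR1 -/
def Pvcy1Rec (𝔓 : PvxPar τ c) (𝔈 : PvieEng τ) (m : ℕ) (ε : ℝ) (z : ℂ) (t : τ) (B : Set (Conf PvPt)) (D : ℝ≥0∞) : Prop :=
  ∀ᵐ ω ∂pvP ε, ω ∈ B → ∃ (fo fe : PvkeFun ℂ) (β' q qr qo qe : ℝ≥0∞), PvjgCycL 𝔓 𝔈 m ε z t ω fo fe β' q qr qo qe ∧ pvjgDL 𝔓 𝔈 m ε t q qr qo qe ≤ D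

/-- **(C2)** at one mesh, event of record `pvjgEvL` (102): ONE null set of configurations for all the bases -/
def Pvcy1C2 (𝔓 : PvxPar τ c) (𝔈 : PvieEng τ) (m : ℕ) (ε : ℝ) (z : ℂ) (t : τ) (B : Set (Conf PvPt)) (H : Conf PvPt → ℝ≥0∞) : Prop :=
  ∀ᵐ η ∂pvP ε, ∀ ω ∈ B, (∃ p, η = pvcy1R 𝔓 𝔈 m ε z t ω p) → η ∈ pvjgEvL 𝔓 𝔈 m ε z t ω → ‖pvilYcyc 𝔓 𝔈 m ε z t ω η‖ₑ ^ 2 ≤ H η

/-- (REC) + (C2) ⟹ the core -/
theorem pvcy1_core_of_rec {m : ℕ} {ε : ℝ} {z : ℂ} {t : τ} {B : Set (Conf PvPt)} {D : ℝ≥0∞} {H : Conf PvPt → ℝ≥0∞} (h1 : Pvcy1Rec 𝔓 𝔈 m ε z t B D) (h2 : Pvcy1C2 𝔓 𝔈 m ε z t B H) :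
    Pvcy1Core 𝔓 𝔈 m ε z t B D H where
  eq := by
    filter_upwards [h1] with ω h hω
    obtain ⟨fo, fe, β', q, qr, qo, qe, hr, -⟩ := h hω
    exact pvcy1_eq_of_rec hr
  mass := by
    filter_upwards [h1] with ω h hω
    obtain ⟨fo, fe, β', q, qr, qo, qe, hr, -⟩ := h hω
    exact (pvjg_mass_cyc hr).le
  le_c2 := by
    refine ⟨pvjgEvL 𝔓 𝔈 m ε z t, ?_, h2⟩
    filter_upwards [h1] with ω h hω
    obtain ⟨fo, fe, β', q, qr, qo, qe, hr, hD⟩ := h hω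
    filter_upwards [pvjg_le_cyc hr] with p hp
    exact hp.trans (mul_le_mul_left hD _)

/-- **(CYC1.R)** (REC) + (C2) at every candidate, bases and majorant of record -/
def Pvcy1RecAll (𝔓 : PvxPar τ c) (𝔈 : PvieEng τ) (𝔊 : PvnaGd τ) (m0 : ℕ) : Prop :=
  ∀ (m : ℕ), m0 ≤ m → ∀ (p : ℤ × ℤ) (t : τ), ∃ (D : ℝ≥0∞) (B₀ : Set ℂ) (a₀ : ℝ), D ≠ ∞ ∧ Bornology.IsBounded B₀ ∧ MeasurableSet B₀ ∧ 0 < a₀ ∧
    ∀ᶠ ε in 𝓝[>] (0 : ℝ), Pvcy1Rec 𝔓 𝔈 m ε (l9Pt (pvlmH m) p) t (pvcy1B 𝔓 𝔊 m ε (l9Pt (pvlmH m) p) t) D ∧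
      Pvcy1C2 𝔓 𝔈 m ε (l9Pt (pvlmH m) p) t (pvcy1B 𝔓 𝔊 m ε (l9Pt (pvlmH m) p) t) fun η => pvclSum η B₀ a₀

theorem pvcy1_core_all {𝔊 : PvnaGd τ} {m0 : ℕ} (h : Pvcy1RecAll 𝔓 𝔈 𝔊 m0) : Pvcy1CoreAll 𝔓 𝔈 𝔊 m0 := by
  intro m hm p t
  obtain ⟨D, B₀, a₀, hD, hb, mB, ha, hh⟩ := h m hm p t
  exact ⟨D, B₀, a₀, hD, hb, mB, ha, hh.mono fun ε hε => pvcy1_core_of_rec hε.1 hε.2⟩

/-- **THE ROOF OVER (REC) + (C2)** -/
theorem pvcy1_of_rec {𝔊 : PvnaGd τ} {m0 : ℕ} {Cth : ℝ} {r κs : ℕ → ℝ} (hW : PvieEng.Wf 𝔓 𝔈 m0 Cth r κs) (hT : ∀ t, pviwTyOk 𝔓 t)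
    (hd : ∀ m, m0 ≤ m → ∀ z t, Pvcy1Dict 𝔓 m z t) (hC : ∀ m, m0 ≤ m → ∀ ε z t, MeasurableSet (pvilCcyc 𝔓 𝔈 m ε z t)) (h : Pvcy1RecAll 𝔓 𝔈 𝔊 m0) :
    PvnaCyc1 𝔓 (pvnaDatE 𝔓 𝔈) 𝔊 m0 :=
  pvcy1_of_core hW hT hd hC (pvcy1_core_all h)

end rec

theorem pvcy1_eqns_cite : True := by
  have := @Pvcy1Rec.eq_1; have := @Pvcy1C2.eq_1; have := @Pvcy1RecAll.eq_1
  have := @pvcy1Num.eq_1; have := @pvcy1R.eq_1; have := @pvcy1Hat.eq_1; have := @Pvcy1All.eq_1; have := @pvcy1B.eq_1; have := @Pvcy1Dict.eq_1; have := @Pvcy1CoreAll.eq_1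
  trivial

end Claimed.Agent.R289
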