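-- KEEP
import Claimed.Agent.R289.Exit.Cyc1B

/-!
# Row 289 (S0537), THE WALL, ROAD E, Exit/Cyc1C : LEAF (C2) OF `cyc1` AT `Tr/InstL` v2.2 = SOFT → PLAIN (PROVED) + THREE NAMED LEAVES      (helper188; prefix `pvcy1c_`, `pvcy1c`, `Pvcy1c`)

TARGET.   `Pvcy1C2 𝔓 𝔈 m ε z t B (pvclSum · B₀ a₀)` (`Exit/Cyc1B` sec. 5): for almost every configuration `η`, for ALL the bases `ω` at once: on the success `pvjgEvL .. ω` (102) of the whole `Σ₁` cycle at the base data of `ω`, `‖pvilYcyc .. ω η‖² ≤ pvclSum η B₀ a₀`.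
The same statement is the field `dom` of `Pvl3CycOkF` (129) for the first rope.
HOW.   v2.1, v2.2 (7 D1, D2): success of a special link `= pvilFin Z (pvilSA ε Wn M F)`, `pvilSA = Sure (M ∩ {F = Loc})`: a.s. on it the PLAIN event holds and the PLAIN value is the soft value (`pvsu_sure_sub`: only null measurability), the indices `Z` are finite sets of cells: a countable family, ONE null set.
* sec. 1  `pvcy1c_sa` (one soft event), `pvcy1c_sa_fin` (all finite hulls at once), `pvcy1c_ae_fl`, `pvcy1c_ae_ref` (a.e. properties seen from the reference plug)                                        PROVED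
* sec. 2  THE THREE LEAVES:   **`Pvcy1cMeas`** [MEAS: 247 289 231 74; windows: 282]   **`Pvcy1cCell`** [the kit: a.s. on the kit events the plain cell links hold, placed soft field = plain mass: ENG 124 258 34 251 `pvsu_cell_place`]
          **`Pvcy1cDet`** [DETERMINISTIC CLOSING at a nice configuration, plain events, plain values: 48 `Tr/CycC2`]
* sec. 3  **`pvcy1c_c2`** : the three leaves ⟹ `Pvcy1C2`                                                                                                                                             PROVED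
-/

set_option autoImplicit false

namespace Claimed.Agent.R289

open MeasureTheory Filter Topology Set Claims.C0465
open scoped ENNReal

/-! ## 1. soft → plain -/

/-- a.s. on `pvilSA` the plain event holds and the plain value is the soft value -/
theorem pvcy1c_sa (ε : ℝ) {Wn : Set ℂ} {M : Set (Conf PvPt)} {F : Conf PvPt → ℂ} (mW : MeasurableSet Wn) (nM : NullMeasurableSet (M ∩ {η | F η = pvilLoc ε Wn M F η}) (pvP ε)) :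
    ∀ᵐ η ∂pvP ε, η ∈ pvilSA ε Wn M F → η ∈ M ∧ F η = pvilLoc ε Wn M F η :=
  pvsu_sure_sub (pv_isPpp ε) (mW.prod MeasurableSet.univ) nM

/-- the same for all the finite hulls at once -/
theorem pvcy1c_sa_fin (ε : ℝ) {Wn : Set (ℤ × ℤ) → Set ℂ} {M : Set (ℤ × ℤ) → Set (Conf PvPt)} {F : Conf PvPt → ℂ} (mW : ∀ Z, MeasurableSet (Wn Z))
    (nM : ∀ Z : Set (ℤ × ℤ), Z.Finite → NullMeasurableSet (M Z ∩ {η | F η = pvilLoc ε (Wn Z) (M Z) F η}) (pvP ε)) :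
    ∀ᵐ η ∂pvP ε, ∀ Z : Set (ℤ × ℤ), η ∈ pvilFin Z (pvilSA ε (Wn Z) (M Z) F) → η ∈ M Z ∧ F η = pvilLoc ε (Wn Z) (M Z) F η := by
  have hc : {Z : Set (ℤ × ℤ) | Z.Finite}.Countable := Set.Countable.ofPred_finite
  have h1 : ∀ᵐ η ∂pvP ε, ∀ Z ∈ {Z : Set (ℤ × ℤ) | Z.Finite}, η ∈ pvilSA ε (Wn Z) (M Z) F → η ∈ M Z ∧ F η = pvilLoc ε (Wn Z) (M Z) F η :=
    (ae_ball_iff hc).2 fun Z hZ => pvcy1c_sa ε (mW Z) (nM Z hZ)
  filter_upwards [h1] with η h Z hη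
  unfold pvilFin at hη
  by_cases hZ : Z.Finite
  · rw [if_pos hZ] at hη
    exact h Z hZ hη
  · rw [if_neg hZ] at hη
    exact absurd hη (notMem_empty _)

/-- an a.e. property is seen through the exchange of the colours -/
theorem pvcy1c_ae_fl (b : Bool) (ε : ℝ) {p : Conf PvPt → Prop} (h : ∀ᵐ η ∂pvP ε, p η) : ∀ᵐ η ∂pvP ε, p (pvkyFl b η) := by
  have hq : Measure.QuasiMeasurePreserving (pvkyFl b) (pvP ε) (pvP ε) := ⟨measurable_pvkyFl b, by rw [pvky_fl_map]⟩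
  exact hq.ae h

/-- an a.e. property is seen from the reference plug -/
theorem pvcy1c_ae_ref {τ : Type} {c : ℝ} (𝔓 : PvxPar τ c) (m : ℕ) (z : ℂ) (t : τ) (ε : ℝ) {p : Conf PvPt → Prop} (h : ∀ᵐ η ∂pvP ε, p η) : ∀ᵐ η ∂pvP ε, p (pvilRef 𝔓 m z t η) :=
  pvcy1c_ae_fl (𝔓.col t) ε (pvsu_ae_place ε (pvieZu 𝔓 m z t) 1 norm_one h)

/-! ## 2. the three leaves -/

section leaves

variable {τ : Type} {c : ℝ} (𝔓 : PvxPar τ c) (𝔈 : PvieEng τ)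

/-- plain value of the first link -/
noncomputable def pvcy1cXo (m : ℕ) (z : ℂ) (t : τ) : Conf PvPt → ℂ := (pvilLo 𝔓 𝔈 m z t).X 𝔓.num (𝔓.col t) pvilQ
/-- plain value of the thick link -/
noncomputable def pvcy1cXe (m : ℕ) (z : ℂ) (t : τ) : Conf PvPt → ℂ := (pvilLe 𝔓 𝔈 m z t).X 𝔓.num (𝔓.col t) pvilQ
/-- plain value of the link into the reference plug (centre `0`, black form) -/
noncomputable def pvcy1cXr (m : ℕ) : Conf PvPt → ℂ := (pvilLr 𝔓 𝔈 m).X 𝔓.num true pvilQ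

/-- **[MEAS]** Borel windows; null measurability of `plain event ∩ {plain value = soft value}` for the three special links of the cycle -/
structure Pvcy1cMeas (m : ℕ) (ε : ℝ) (z : ℂ) (t : τ) : Prop where
  wo : ∀ Z, MeasurableSet (pvilWno 𝔓 𝔈 m ε z t Z)
  we : ∀ Z, MeasurableSet (pvilWne 𝔓 𝔈 m z t Z)
  wr : MeasurableSet (pvilWnr 𝔓 𝔈 m ε)
  no : ∀ Z : Set (ℤ × ℤ), Z.Finite → NullMeasurableSet (pvilMo 𝔓 𝔈 m ε z t Z ∩ {η | pvcy1cXo 𝔓 𝔈 m z t η = pvilLoc ε (pvilWno 𝔓 𝔈 m ε z t Z) (pvilMo 𝔓 𝔈 m ε z t Z) (pvcy1cXo 𝔓 𝔈 m z t) η}) (pvP ε)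
  ne : ∀ Z : Set (ℤ × ℤ), Z.Finite → NullMeasurableSet (pvilMe 𝔓 𝔈 m z t Z ∩ {η | pvcy1cXe 𝔓 𝔈 m z t η = pvilLoc ε (pvilWne 𝔓 𝔈 m z t Z) (pvilMe 𝔓 𝔈 m z t Z) (pvcy1cXe 𝔓 𝔈 m z t) η}) (pvP ε)
  nr : NullMeasurableSet (pvilMr 𝔓 𝔈 m ε ∩ {η | pvcy1cXr 𝔓 𝔈 m η = pvilLoc ε (pvilWnr 𝔓 𝔈 m ε) (pvilMr 𝔓 𝔈 m ε) (pvcy1cXr 𝔓 𝔈 m) η}) (pvP ε)

/-- **[CELL]** black form: a.s. on the kit events of the thin chain `l1 t`, the PLAIN link `Ac j` of every cell holds and its placed soft field is the plain mass `Xc j` -/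
def Pvcy1cCell (m : ℕ) (ε : ℝ) (z : ℂ) (t : τ) (Ac : ℕ → Set (Conf PvPt)) (Xc : ℕ → Conf PvPt → ℂ) : Prop :=
  ∀ᵐ η ∂pvP ε, (∀ j ≤ ((𝔓.Γ m).l1 t).length, η ∈ (𝔈.kit m ε).G (pvthZ (𝔈.kit m ε).δ (pvieZo 𝔓 m z t) ((𝔓.Γ m).dout t) ((𝔓.Γ m).l1 t) j) (pvthD ((𝔓.Γ m).dout t) ((𝔓.Γ m).l1 t) j)) →
    (∀ j < ((𝔓.Γ m).l1 t).length, η ∈ (𝔈.kit m ε).A (pvthZ (𝔈.kit m ε).δ (pvieZo 𝔓 m z t) ((𝔓.Γ m).dout t) ((𝔓.Γ m).l1 t) j) (pvthD ((𝔓.Γ m).dout t) ((𝔓.Γ m).l1 t) j) (pvthL ((𝔓.Γ m).l1 t) j)) →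
    ∀ j < ((𝔓.Γ m).l1 t).length, η ∈ Ac j ∧ (𝔈.kit m ε).Xj (𝔈.XQ m ε) (pvieZo 𝔓 m z t) ((𝔓.Γ m).dout t) ((𝔓.Γ m).l1 t) j η = Xc j η

/-- **[DET] THE DETERMINISTIC CLOSING OF THE `Σ₁` CYCLE**, plain events, plain values, at a NICE configuration `η` in the orbit of a base `ω`:
first link (hull of `Σ_out` = that of the base) + the plain links of the cells of `l1 t` (black form) + the plain link into the reference plug (seen from it, black form) + thick link (hull of `Σ_in` = that of the base)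
⟹ the four kinds of values add up to `Q_{P'}(1)` of ONE rim `P'` inside `B₀`, of diameter `≥ a₀` -/
def Pvcy1cDet (m : ℕ) (ε : ℝ) (z : ℂ) (t : τ) (Ac : ℕ → Set (Conf PvPt)) (Xc : ℕ → Conf PvPt → ℂ) (Nice B : Set (Conf PvPt)) (B₀ : Set ℂ) (a₀ : ℝ) : Prop :=
  ∀ η ∈ Nice, ∀ ω ∈ B, (∃ p, η = pvcy1R 𝔓 𝔈 m ε z t ω p) → η ∈ pvilMo 𝔓 𝔈 m ε z t (pvilZo 𝔓 m z t ω) → (∀ j < ((𝔓.Γ m).l1 t).length, pvkyFl (𝔓.col t) η ∈ Ac j) →
    pvilRef 𝔓 m z t η ∈ pvilMr 𝔓 𝔈 m ε → η ∈ pvilMe 𝔓 𝔈 m z t (pvilZi 𝔓 m z t ω) →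
    ‖pvcy1cXo 𝔓 𝔈 m z t η + ∑ j ∈ Finset.range ((𝔓.Γ m).l1 t).length, Xc j (pvkyFl (𝔓.col t) η) + pvcy1cXr 𝔓 𝔈 m (pvilRef 𝔓 m z t η) + pvcy1cXe 𝔓 𝔈 m z t η‖ₑ ^ 2 ≤ pvclSum η B₀ a₀

/-! ## 3. the glue -/

variable {𝔓 𝔈}

/-- **(C2) FROM [MEAS] + [CELL] + [DET]** -/
theorem pvcy1c_c2 {m : ℕ} {ε : ℝ} {z : ℂ} {t : τ} {Ac : ℕ → Set (Conf PvPt)} {Xc : ℕ → Conf PvPt → ℂ} {Nice B : Set (Conf PvPt)} {B₀ : Set ℂ} {a₀ : ℝ}
    (hM : Pvcy1cMeas 𝔓 𝔈 m ε z t) (hN : ∀ᵐ η ∂pvP ε, η ∈ Nice) (hcell : Pvcy1cCell 𝔓 𝔈 m ε z t Ac Xc) (hdet : Pvcy1cDet 𝔓 𝔈 m ε z t Ac Xc Nice B B₀ a₀) :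
    Pvcy1C2 𝔓 𝔈 m ε z t B fun η => pvclSum η B₀ a₀ := by
  have ho := pvcy1c_sa_fin ε (Wn := pvilWno 𝔓 𝔈 m ε z t) (M := pvilMo 𝔓 𝔈 m ε z t) (F := pvcy1cXo 𝔓 𝔈 m z t) hM.wo hM.no
  have he := pvcy1c_sa_fin ε (Wn := pvilWne 𝔓 𝔈 m z t) (M := pvilMe 𝔓 𝔈 m z t) (F := pvcy1cXe 𝔓 𝔈 m z t) hM.we hM.ne
  have hr := pvcy1c_ae_ref 𝔓 m z t ε (pvcy1c_sa ε hM.wr hM.nr)
  have hc := pvcy1c_ae_fl (𝔓.col t) ε hcell
  filter_upwards [ho, he, hr, hc, hN] with η h1 h2 h3 h4 h5 ω hω horb hEv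
  obtain ⟨hG, hA, -, hrA, heA, hoA⟩ := hEv
  obtain ⟨o1, o2⟩ := h1 _ hoA
  obtain ⟨e1, e2⟩ := h2 _ heA
  obtain ⟨r1, r2⟩ := h3 hrA
  have c1 := h4 hG hA
  have key := hdet η h5 ω hω horb o1 (fun j hj => (c1 j hj).1) r1 e1
  refine le_trans (le_of_eq ?_) key
  congr 2
  have eY : (𝔈.kit m ε).Y (𝔈.XQ m ε) (pvieZo 𝔓 m z t) ((𝔓.Γ m).dout t) ((𝔓.Γ m).l1 t) (pvkyFl (𝔓.col t) η) = ∑ j ∈ Finset.range ((𝔓.Γ m).l1 t).length, Xc j (pvkyFl (𝔓.col t) η) :=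
    Finset.sum_congr rfl fun j hj => (c1 j (Finset.mem_range.1 hj)).2
  unfold pvilYcyc
  rw [eY, o2, e2, r2]
  rfl

end leaves

theorem pvcy1c_eqns_cite : True := by
  have := @pvcy1cXo.eq_1; have := @pvcy1cXe.eq_1; have := @pvcy1cXr.eq_1; have := @Pvcy1cCell.eq_1; have := @Pvcy1cDet.eq_1
  trivial

end Claimed.Agent.R289
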