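-- KEEP
import Claimed.Agent.R289.Exit.Cyc1C
import Claimed.Agent.R289.Tr.KitDict
import Claimed.Agent.R289.Tr.CycC2T
import Claimed.Agent.R289.Tr.CycC2M
import Claimed.Agent.R289.Tr.InvE

/-!
# Row 289 (S0537), THE WALL, ROAD E, Exit/Cyc1K : THE LEAVES [CELL], [DET] OF (C2) OF `cyc1` (188, `Exit/Cyc1C`) AT EXPLICIT `Ac`, `Xc`      (helper133; prefix `pvc1k_`, `pvc1k`, `Pvc1k`)

* sec. 1, 2   `Ac j`, `Xc j` OF RECORD (`pvc1kA`, `pvc1kX`): nice + mesh of the door and of the link of the cell `j` (KDICT v2 of 244: `doorN`, `linkN`) + THE link between THE gates + THE mass.   **`pvc1k_cell_at`** : [CELL] of 188 from `PvukDict`      PROVED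
* sec. 3      `pvc1k_word` : the plain links of the cells ARE one family of gates (deterministic word form).
              **`Pvc1kRest`** = WHAT IS LEFT OF [DET]: `PvdwRest` of 42 (heads 264, ownership 48, box, two far gates) for every normal form `PvdwArcs` of 42, AT THE EVENTS OF RECORD (hulls of the base, meshes of the four kinds of windows).
              **`pvc1k_det`** : `Pvc1kRest` ⟹ `Pvcy1cDet` of 188 VERBATIM at `Ac`, `Xc` of record                                                                                                 PROVED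
              **`pvc1k_c2`**  : [MEAS] + [KDICT] + `Pvc1kRest` ⟹ `Pvcy1C2` (leaf (C2) of `cyc1`)                                                                                                    PROVED
-/

set_option autoImplicit false

namespace Claimed.Agent.R289

open MeasureTheory Filter Topology Set Claims.C0465
open scoped ENNReal

/-! ## 1. the plain link and the plain mass of the cell `j` of a word, colour `b`, in the plane map of `η` itself -/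

section cell

variable (𝔤 : PvkdGeo) (b : Bool) (z d : ℂ) (l : List PvtTurn)

/-- **the plain link of the cell `j` of the word** (KDICT of 244) -/
def Pvc1kLk (j : ℕ) (η : Conf PvPt) : Prop :=
  ∃ (g g' : (pvkiT η).Gate (pvukS b η)) (N : ℕ), PvukLink 𝔤 b η (pvthZ 𝔤.δ z d l j) (pvthD d l j) (pvthL l j) g g' N

/-- nice + mesh of the door `j` and of the link of the cell `j` (KDICT v2 of 244) -/
def Pvc1kMs (j : ℕ) (η : Conf PvPt) : Prop := η ∈ 𝔤.N (pvthZ 𝔤.δ z d l j) (pvthD d l j) ∧ η ∈ 𝔤.NA (pvthZ 𝔤.δ z d l j) (pvthD d l j) (pvthL l j)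

open Classical in
/-- **the plain mass of the cell `j` of the word**: the mass of the rim arc `g⁻ → g'⁺` between THE two gates in the placed mask of the cell -/
noncomputable def pvc1kMs (j : ℕ) (η : Conf PvPt) : ℂ :=
  if h : Pvc1kLk 𝔤 b z d l j η then pvukMass b η (pvkdAt (pvthZ 𝔤.δ z d l j) (pvthD d l j) (𝔤.Mk (pvthL l j))) h.choose h.choose_spec.choose else 0

/-- the event `Ac j` of 188, BLACK FORM (read at `pvkyFl b η`) -/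
def pvc1kAc (j : ℕ) : Set (Conf PvPt) := {ζ | Pvc1kLk 𝔤 b z d l j (pvkyFl b ζ) ∧ Pvc1kMs 𝔤 z d l j (pvkyFl b ζ)}

/-- the value `Xc j` of 188, BLACK FORM -/
noncomputable def pvc1kXc (j : ℕ) (ζ : Conf PvPt) : ℂ := pvc1kMs 𝔤 b z d l j (pvkyFl b ζ)

theorem pvc1k_eqns_cite : True := by
  have := @Pvc1kLk.eq_1; have := @Pvc1kMs.eq_1; have := @pvc1kMs.eq_1; have := @pvc1kAc.eq_1; have := @pvc1kXc.eq_1
  trivial

variable {𝔤 b z d l}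

/-- the plain mass, at ANY pair of gates of the link -/
theorem pvc1k_ms_eq {j : ℕ} {η : Conf PvPt} (hG : DelGood (cfSites η)) (hZ : Disjoint 𝔤.Zm 𝔤.Zp) {g g' : (pvkiT η).Gate (pvukS b η)} {N : ℕ}
    (h : PvukLink 𝔤 b η (pvthZ 𝔤.δ z d l j) (pvthD d l j) (pvthL l j) g g' N) :
    pvc1kMs 𝔤 b z d l j η = pvukMass b η (pvkdAt (pvthZ 𝔤.δ z d l j) (pvthD d l j) (𝔤.Mk (pvthL l j))) g g' := by
  have hex : Pvc1kLk 𝔤 b z d l j η := ⟨g, g', N, h⟩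
  unfold pvc1kMs
  rw [dif_pos hex]
  obtain ⟨N', h'⟩ := hex.choose_spec.choose_spec
  exact congrArg₂ _ (pvuk_uniq hG hZ h'.1 h.1) (pvuk_uniq hG hZ h'.2.1 h.2.1)

/-- **[CELL] FROM [KDICT]**, any kit, any word -/
theorem pvc1k_cell {kit : PvthKit} {XQ : PvtTurn → Conf PvPt → ℂ} {ε : ℝ} (D : PvukDict kit XQ 𝔤 ε) (hd : d ^ 4 = 1) :
    ∀ᵐ η ∂pvP ε, (∀ j ≤ l.length, η ∈ kit.G (pvthZ kit.δ z d l j) (pvthD d l j)) → (∀ j < l.length, η ∈ kit.A (pvthZ kit.δ z d l j) (pvthD d l j) (pvthL l j)) →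
      ∀ j < l.length, η ∈ pvc1kAc 𝔤 b z d l j ∧ kit.Xj XQ z d l j η = pvc1kXc 𝔤 b z d l j η := by
  have hD : ∀ j, pvthD d l j ^ 4 = 1 := fun j => pvtDir_pow_four d hd _
  have h1 : ∀ᵐ η ∂(pvP ε), ∀ j : ℕ, pvkyFl b η ∈ kit.G (pvthZ 𝔤.δ z d l j) (pvthD d l j) → DelGood (cfSites η) ∧ ∃ g, PvukGate 𝔤.toPvkdPlug b η (pvthZ 𝔤.δ z d l j) (pvthD d l j) g :=
    ae_all_iff.2 fun j => D.door b _ _ (hD j)
  have h2 : ∀ᵐ η ∂(pvP ε), ∀ j : ℕ, pvkyFl b η ∈ kit.G (pvthZ 𝔤.δ z d l j) (pvthD d l j) → pvkyFl b η ∈ kit.A (pvthZ 𝔤.δ z d l j) (pvthD d l j) (pvthL l j) →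
      ∃ g g' N, PvukLink 𝔤 b η (pvthZ 𝔤.δ z d l j) (pvthD d l j) (pvthL l j) g g' N ∧
        pvthX XQ (pvthZ 𝔤.δ z d l j) (pvthD d l j) (pvthL l j) (pvkyFl b η) = pvukMass b η (pvkdAt (pvthZ 𝔤.δ z d l j) (pvthD d l j) (𝔤.Mk (pvthL l j))) g g' :=
    ae_all_iff.2 fun j => D.link b _ _ _ (hD j)
  have h3 : ∀ᵐ η ∂(pvP ε), ∀ j : ℕ, pvkyFl b η ∈ kit.G (pvthZ 𝔤.δ z d l j) (pvthD d l j) → η ∈ 𝔤.N (pvthZ 𝔤.δ z d l j) (pvthD d l j) :=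
    ae_all_iff.2 fun j => D.doorN b _ _ (hD j)
  have h4 : ∀ᵐ η ∂(pvP ε), ∀ j : ℕ, pvkyFl b η ∈ kit.G (pvthZ 𝔤.δ z d l j) (pvthD d l j) → pvkyFl b η ∈ kit.A (pvthZ 𝔤.δ z d l j) (pvthD d l j) (pvthL l j) →
      η ∈ 𝔤.NA (pvthZ 𝔤.δ z d l j) (pvthD d l j) (pvthL l j) :=
    ae_all_iff.2 fun j => D.linkN b _ _ _ (hD j)
  filter_upwards [pvcy1c_ae_fl b ε h1, pvcy1c_ae_fl b ε h2, pvcy1c_ae_fl b ε h3, pvcy1c_ae_fl b ε h4] with η a1 a2 a3 a4 hG hA j hj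
  rw [pvky_fl_fl] at a1 a2 a3 a4
  rw [D.δ] at hG hA
  obtain ⟨g, g', N, hl, hX⟩ := a2 j (hG j hj.le) (hA j hj)
  refine ⟨⟨⟨g, g', N, hl⟩, a3 j (hG j hj.le), a4 j (hG j hj.le) (hA j hj)⟩, ?_⟩
  show pvthX XQ (pvthZ kit.δ z d l j) (pvthD d l j) (pvthL l j) η = pvc1kMs 𝔤 b z d l j (pvkyFl b η)
  rw [D.δ, hX, pvc1k_ms_eq (a1 j (hG j hj.le)).1 D.zz hl]

end cell

/-! ## 2. [CELL] at the names of `Tr/InstL` -/

section inst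

variable {τ : Type} {c : ℝ} (𝔓 : PvxPar τ c) (𝔤 : PvkdGeo)

/-- **`Ac` OF RECORD** for the thin chain `l1 t` of the candidate `(z,t)` -/
def pvc1kA (m : ℕ) (z : ℂ) (t : τ) : ℕ → Set (Conf PvPt) := pvc1kAc 𝔤 (𝔓.col t) (pvieZo 𝔓 m z t) ((𝔓.Γ m).dout t) ((𝔓.Γ m).l1 t)

/-- **`Xc` OF RECORD** -/
noncomputable def pvc1kX (m : ℕ) (z : ℂ) (t : τ) : ℕ → Conf PvPt → ℂ := pvc1kXc 𝔤 (𝔓.col t) (pvieZo 𝔓 m z t) ((𝔓.Γ m).dout t) ((𝔓.Γ m).l1 t)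

theorem pvc1k_eqns_cite2 : True := by
  have := @pvc1kA.eq_1; have := @pvc1kX.eq_1
  trivial

variable {𝔓 𝔤} {𝔈 : PvieEng τ}

/-- **[CELL] OF 188 AT `Ac`, `Xc` OF RECORD**, from [KDICT] of 244 at the engine (`pvuk_eng`) -/
theorem pvc1k_cell_at {m : ℕ} {ε : ℝ} (D : PvukDict (𝔈.kit m ε) (𝔈.XQ m ε) 𝔤 ε) (z : ℂ) {t : τ} (hd : (𝔓.Γ m).dout t ^ 4 = 1) :
    Pvcy1cCell 𝔓 𝔈 m ε z t (pvc1kA 𝔓 𝔤 m z t) (pvc1kX 𝔓 𝔤 m z t) :=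
  pvc1k_cell D hd

/-- what `Ac` says at the configuration itself -/
theorem pvc1k_A_iff {m : ℕ} {z : ℂ} {t : τ} {j : ℕ} {η : Conf PvPt} :
    pvkyFl (𝔓.col t) η ∈ pvc1kA 𝔓 𝔤 m z t j ↔ Pvc1kLk 𝔤 (𝔓.col t) (pvieZo 𝔓 m z t) ((𝔓.Γ m).dout t) ((𝔓.Γ m).l1 t) j η ∧ Pvc1kMs 𝔤 (pvieZo 𝔓 m z t) ((𝔓.Γ m).dout t) ((𝔓.Γ m).l1 t) j η := by
  show Pvc1kLk _ _ _ _ _ _ (pvkyFl (𝔓.col t) (pvkyFl (𝔓.col t) η)) ∧ Pvc1kMs _ _ _ _ _ (pvkyFl (𝔓.col t) (pvkyFl (𝔓.col t) η)) ↔ _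
  rw [pvky_fl_fl]

/-- what `Xc` says at the configuration itself -/
theorem pvc1k_X_eq {m : ℕ} {z : ℂ} {t : τ} {j : ℕ} {η : Conf PvPt} :
    pvc1kX 𝔓 𝔤 m z t j (pvkyFl (𝔓.col t) η) = pvc1kMs 𝔤 (𝔓.col t) (pvieZo 𝔓 m z t) ((𝔓.Γ m).dout t) ((𝔓.Γ m).l1 t) j η := by
  show pvc1kMs _ _ _ _ _ _ (pvkyFl (𝔓.col t) (pvkyFl (𝔓.col t) η)) = _
  rw [pvky_fl_fl]

end inst

/-! ## 3. [DET] : the top glue -/

/-- **THE WORD FORM, DETERMINISTIC**: the plain links of the cells of a word ARE one family of gates `g 0 .. g n`; the plain mass of the cell `j` is the mass of the link `g j → g (j + 1)` -/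
theorem pvc1k_word {𝔤 : PvkdGeo} {b : Bool} {z d : ℂ} {l : List PvtTurn} {η : Conf PvPt} (hG : DelGood (cfSites η)) (hZ : Disjoint 𝔤.Zm 𝔤.Zp) (g₀ : (pvkiT η).Gate (pvukS b η))
    (h : ∀ j < l.length, Pvc1kLk 𝔤 b z d l j η) :
    ∃ (g : ℕ → (pvkiT η).Gate (pvukS b η)) (N : ℕ → ℕ), ∀ j < l.length, PvukLink 𝔤 b η (pvthZ 𝔤.δ z d l j) (pvthD d l j) (pvthL l j) (g j) (g (j + 1)) (N j) ∧
      pvc1kMs 𝔤 b z d l j η = pvukMass b η (pvkdAt (pvthZ 𝔤.δ z d l j) (pvthD d l j) (𝔤.Mk (pvthL l j))) (g j) (g (j + 1)) := by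
  have : Nonempty ((pvkiT η).Gate (pvukS b η)) := ⟨g₀⟩
  choose! g0 g1 N hl' using h
  set g : ℕ → (pvkiT η).Gate (pvukS b η) := fun j => if j < l.length then g0 j else g1 (l.length - 1) with hgdef
  have hg : ∀ j, j < l.length → g j = g0 j := fun j hj => if_pos hj
  have hnext : ∀ j, j < l.length → g1 j = g (j + 1) := by
    intro j hj
    by_cases hj' : j + 1 < l.length
    · rw [hg _ hj']
      obtain ⟨e1, e2⟩ := pvuk_exit 𝔤 z d l hj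
      have h3 := (hl' j hj).2.1
      rw [e1, e2] at h3
      exact pvuk_uniq hG hZ h3 (hl' _ hj').1
    · have e : j = l.length - 1 := by omega
      show g1 j = if j + 1 < l.length then g0 (j + 1) else g1 (l.length - 1)
      rw [if_neg hj', ← e]
  refine ⟨g, N, fun j hj => ?_⟩
  rw [hg j hj, ← hnext j hj]
  exact ⟨hl' j hj, pvc1k_ms_eq hG hZ (hl' j hj)⟩

section det

variable {τ : Type} {c : ℝ} (𝔓 : PvxPar τ c) (𝔈 : PvieEng τ) (𝔤 : PvkdGeo)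

/-- the centre of the door `j` of the thin chain `l1 t` of the candidate `(z,t)` -/
noncomputable def pvc1kZ (m : ℕ) (z : ℂ) (t : τ) : ℕ → ℂ := pvthZ (𝔓.Γ m).δ (pvieZo 𝔓 m z t) ((𝔓.Γ m).dout t) ((𝔓.Γ m).l1 t)
/-- its direction -/
noncomputable def pvc1kD (m : ℕ) (t : τ) : ℕ → ℂ := pvthD ((𝔓.Γ m).dout t) ((𝔓.Γ m).l1 t)
/-- the room of the run of the cell `j` -/
noncomputable def pvc1kCo (m : ℕ) (z : ℂ) (t : τ) (j : ℕ) : Set ℂ := pvkdAt (pvc1kZ 𝔓 m z t j) (pvc1kD 𝔓 m t j) (𝔤.Co (pvthL ((𝔓.Γ m).l1 t) j))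
/-- the mask of the cell `j` -/
noncomputable def pvc1kMk (m : ℕ) (z : ℂ) (t : τ) (j : ℕ) : Set ℂ := pvkdAt (pvc1kZ 𝔓 m z t j) (pvc1kD 𝔓 m t j) (𝔤.Mk (pvthL ((𝔓.Γ m).l1 t) j))

/-- **THE EVENTS OF RECORD OF THE `Σ₁` CYCLE AT `η`, base `ω`**, all read in `η` itself: hulls of the two half states = those of the base, meshes of the four kinds of windows -/
structure Pvc1kEv (m : ℕ) (ε : ℝ) (z : ℂ) (t : τ) (ω η : Conf PvPt) : Prop where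
  one : PviqOne η
  orb : ∃ p, η = pvcy1R 𝔓 𝔈 m ε z t ω p
  mo : η ∈ pvilMo 𝔓 𝔈 m ε z t (pvilZo 𝔓 m z t ω)
  me : η ∈ pvilMe 𝔓 𝔈 m z t (pvilZi 𝔓 m z t ω)
  /-- the moved link into the reference plug succeeds IN `η` (246) -/
  ar : η ∈ (pviqLr 𝔓 𝔈 m z t).A 𝔓.num (𝔓.col t)
  /-- the mesh of its moved window -/
  mr : η ∈ pvilMs 𝔓 m (pvieSh (pvieZu 𝔓 m z t) (pvilWnr 𝔓 𝔈 m ε))
  /-- nice + mesh of the doors and of the links of the cells -/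
  mc : ∀ j < ((𝔓.Γ m).l1 t).length, Pvc1kMs 𝔤 (pvieZo 𝔓 m z t) ((𝔓.Γ m).dout t) ((𝔓.Γ m).l1 t) j η

/-- **WHAT IS LEFT OF [DET]**: at the events of record, EVERY normal form of 42 (`PvdwArcs`: ONE family of gates, the two half states of the candidate, the gate of the reference plug, the four kinds of runs with their arcs)
has its heads pairwise different (264), every tag owned once (48), lies in `B₀`, has two gates `a₀` apart      (`PvdwRest` of 42) -/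
def Pvc1kRest (m : ℕ) (ε : ℝ) (z : ℂ) (t : τ) (Nice B : Set (Conf PvPt)) (B₀ : Set ℂ) (a₀ : ℝ) : Prop :=
  ∀ η ∈ Nice, ∀ ω ∈ B, Pvc1kEv 𝔓 𝔈 𝔤 m ε z t ω η →
    ∀ (P P' : PvwSt (pvieT η)) (g : ℕ → (pvkiT η).Gate (pvukS (𝔓.col t) η)) (gu : (pvkiT η).Gate (pvukS (𝔓.col t) η)) (y0 yr ye : (pvieT η).Pth),
      PvdwArcs 𝔓.num (𝔓.col t) η (pvilLo 𝔓 𝔈 m z t) (pviqLr 𝔓 𝔈 m z t) (pvilLe 𝔓 𝔈 m z t) (pvkdP (pvilRd 𝔓 m)) (pvkdP (pvilRu 𝔈 m)) ((𝔓.Γ m).l1 t).length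
        (pvc1kZ 𝔓 m z t) (pvc1kD 𝔓 m t) (pvc1kCo 𝔓 𝔤 m z t) (pvieZu 𝔓 m z t) 1 P P' g gu y0 yr ye →
      PvdwRest (𝔓.col t) η ((𝔓.Γ m).l1 t).length P (pvdwDd (pvkdP (pvilRd 𝔓 m)) (𝔓.col t) η (pvc1kZ 𝔓 m z t) g)
        (pvilStS (pvkdP (pvilRu 𝔈 m)) η (pvieCol η (𝔓.col t)) (pvieZu 𝔓 m z t) gu) y0 (pvdwYc (𝔓.col t) η g) yr ye ((pvilLo 𝔓 𝔈 m z t).msk 𝔓.num)
        (pvc1kMk 𝔓 𝔤 m z t) ((pviqLr 𝔓 𝔈 m z t).msk 𝔓.num) ((pvilLe 𝔓 𝔈 m z t).msk 𝔓.num) ((pvilLo 𝔓 𝔈 m z t).ball 𝔓.num) B₀ a₀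

theorem pvc1k_eqns_cite3 : True := by
  have := @pvc1kZ.eq_1; have := @pvc1kD.eq_1; have := @pvc1kCo.eq_1; have := @pvc1kMk.eq_1; have := @Pvc1kRest.eq_1
  trivial

/-- the numerals and the identities of the geometry of the cells which the glue reads -/
structure Pvc1kNum (m : ℕ) : Prop where
  /-- the plug of the cells of level `m` is the door plug of record -/
  pl : 𝔤.toPvkdPlug = pvkdP (pvilRd 𝔓 m)
  /-- side of the cells -/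
  δ : 𝔤.δ = (𝔓.Γ m).δ
  d0 : 0 < pvlmDel c m
  ru : 0 < (𝔈.rp m).h
  din0 : (𝔓.Γ m).din0 ≠ 0

variable {𝔓 𝔈 𝔤}

theorem Pvc1kNum.zz {m : ℕ} (H : Pvc1kNum 𝔓 𝔈 𝔤 m) : Disjoint 𝔤.Zm 𝔤.Zp := by
  have h := pvdw_P_zz (pviq_Rd_pos 𝔓 H.d0)
  rw [← H.pl] at h
  exact h

/-- **[DET] OF 188 AT `Ac`, `Xc` OF RECORD, FROM WHAT IS LEFT** -/
theorem pvc1k_det {m : ℕ} {ε : ℝ} {z : ℂ} {t : τ} {Nice B : Set (Conf PvPt)} {B₀ : Set ℂ} {a₀ : ℝ} (H : Pvc1kNum 𝔓 𝔈 𝔤 m) (hN : ∀ η ∈ Nice, PviqOne η) (hB : Bornology.IsBounded B₀)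
    (hR : Pvc1kRest 𝔓 𝔈 𝔤 m ε z t Nice B B₀ a₀) : Pvcy1cDet 𝔓 𝔈 m ε z t (pvc1kA 𝔓 𝔤 m z t) (pvc1kX 𝔓 𝔤 m z t) Nice B B₀ a₀ := by
  intro η hη ω hω horb hMo hAc hMr hMe
  have h1 : PviqOne η := hN η hη
  have hLo : η ∈ (pvilLo 𝔓 𝔈 m z t).A 𝔓.num (𝔓.col t) := hMo.1.1
  have hLe : η ∈ (pvilLe 𝔓 𝔈 m z t).A 𝔓.num (𝔓.col t) := hMe.1.1
  have hLr : η ∈ (pviqLr 𝔓 𝔈 m z t).A 𝔓.num (𝔓.col t) := (pviq_Ar_iff 𝔓 𝔈 m z t h1).1 hMr.1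
  have hmr : η ∈ pvilMs 𝔓 m (pvieSh (pvieZu 𝔓 m z t) (pvilWnr 𝔓 𝔈 m ε)) := by
    rw [← pviq_sh]
    exact pviq_mesh (pviq_ref_mor' 𝔓 m z t h1) (one_pow 4) hMr.2
  have hc := fun j hj => pvc1k_A_iff.1 (hAc j hj)
  have hE : Pvc1kEv 𝔓 𝔈 𝔤 m ε z t ω η := ⟨h1, horb, hMo, hMe, hLr, hmr, fun j hj => (hc j hj).2⟩
  -- a gate, the good configuration
  obtain ⟨P, S1, y0, a1⟩ := hLo
  have hG : DelGood (cfSites η) := ((PvilLk.atP_pin (L := pvilLo 𝔓 𝔈 m z t) rfl 𝔓.num (𝔓.col t) η P).1 a1.at_p).good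
  obtain ⟨-, g₀, -, -⟩ := (PvilLk.atP'_door (L := pvilLo 𝔓 𝔈 m z t) rfl 𝔓.num (𝔓.col t) η S1).1 a1.at_p'
  obtain ⟨g, Nn, hW⟩ := pvc1k_word hG H.zz g₀ fun j hj => (hc j hj).1
  have e1 := pviq_Lr_eq 𝔓 𝔈 m z t
  have key := pvdw_rec 𝔓 𝔈 m z t (Lr := pviqLr 𝔓 𝔈 m z t) (by rw [← e1]; rfl) (by rw [← e1]; rfl) rfl rfl (pviq_Rd_pos 𝔓 H.d0) H.ru H.pl H.δ ⟨P, S1, y0, a1⟩ hLr hLe
    (Xc := fun j => pvc1kX 𝔓 𝔤 m z t j (pvkyFl (𝔓.col t) η)) (fun j hj => ⟨(hW j hj).1, by rw [pvc1k_X_eq]; exact (hW j hj).2⟩) (hR η hη ω hω hE)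
  have := key.le hB
  rw [← pviq_XrQ 𝔓 𝔈 m z t h1 (pviq_Lr_ok 𝔓 𝔈 H.din0 H.d0 H.ru)] at this
  exact this

/-- **LEAF (C2) OF `cyc1`** from [MEAS] (188) + [KDICT] (244) + what is left of [DET] -/
theorem pvc1k_c2 {m : ℕ} {ε : ℝ} {z : ℂ} {t : τ} {Nice B : Set (Conf PvPt)} {B₀ : Set ℂ} {a₀ : ℝ} (hM : Pvcy1cMeas 𝔓 𝔈 m ε z t) (D : PvukDict (𝔈.kit m ε) (𝔈.XQ m ε) 𝔤 ε)
    (hd : (𝔓.Γ m).dout t ^ 4 = 1) (H : Pvc1kNum 𝔓 𝔈 𝔤 m) (hae : ∀ᵐ η ∂pvP ε, η ∈ Nice) (hN : ∀ η ∈ Nice, PviqOne η) (hB : Bornology.IsBounded B₀)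
    (hR : Pvc1kRest 𝔓 𝔈 𝔤 m ε z t Nice B B₀ a₀) : Pvcy1C2 𝔓 𝔈 m ε z t B fun η => pvclSum η B₀ a₀ :=
  pvcy1c_c2 hM hae (pvc1k_cell_at D z hd) (pvc1k_det H hN hB hR)

end det

end Claimed.Agent.R289
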