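-- KEEP
import Claimed.Agent.R289.Exit.Cyc1K
import Claimed.Agent.R289.Exit.EngRec
import Claimed.Agent.R289.Exit.EngU4
import Claimed.Agent.R289.Exit.ParEngY
import Claimed.Agent.R289.Exit.EngYc
import Claimed.Agent.R289.Exit.EngYe
import Claimed.Agent.R289.Tr.CycC2H

/-!
# Row 289 (S0537), THE WALL, ROAD E, Exit/Cyc1O : (O) = `PvdwOw` OF 42 (`Tr/CycC2M` sec. 9) AT THE ENGINE OF RECORD      (helper179; prefix `pvio_`, `Pvio`)

`exit_pvcy1c_rest` (188, `Exit/Cyc1CM`)  ⟸  `PvdwArcs.restM` (42)  ⟸  REGIONS `PvdwHd` + `PvdwBx` (75 92), **`PvdwOw` (HERE)**, stubs (264 `pvc2h_hMp pvc2h_hMm`), mesh events + rooms in the cores of the windows.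

* sec. 1-3  tools: coordinates in the frame of a door; `pvio_Qf pvio_Qb` = the mask of a cell at its two doors in the discs of radius `δ / 4` (the tube is NOT in `B(door, b)`); `pvio_cut_seq` (all the index cases of `d_cut` at once);
            the three masks `msk` explicit (`pvio_msk_o pvio_msk_r pvio_msk_e`), first / last door of the chain (`pvio_Z0 pvio_D0 pvio_Zn pvio_Dn`)
* sec. 4-5  geometry from `PveaPar` ALONE (no kit, no `Wf`): box + collar `δ/4` behind the exit door, `oY` `δ/160` behind it, `B(door, δ/4)` off the box, `pin0 = -Δ/2`, `din0 = 1`, `zu + rO` off the box,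
            `pvio_end_i` = (E6) WITH ITS MARGIN `3 Δ`, `pvio_EY_cut` = W-7 `eY_front` WITH A NEIGHBOURHOOD `Δ / 64`
* sec. 6    **v2: `PvioEng 𝔓 𝔈 m t`** = what (O) reads of the engine, INEQUALITIES ONLY: `rO ⊆ pvehrO`, window `pvwSq 0 (3 ru) ⊆ rO`, `δ / 20 ≤ ru`, `oY ⊆ pvegOYa`, `rY` in the strip `-Δ/2 + δ/160 ≤ re ≤ -δ/160`, `eY ⊆ pveheY ∪ pvegIK`
            (true at EngAll v4 AND after L2 = U4 + rooms with collars);   the fields `c_in c_cv d_cut u_cut y_o y_r y_e p_o p_e`, one theorem each;   **`pvio_ow`** : `PveaPar` + `PvioEng` + `PvioNum` (three numerals)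
            + `MpP MmP` in the closed own box, off `B(z, a h)` + four radii `< δ / 160`  ⟹  `PvdwOw`
* sec. 7    `pvio_eng_of` (any engine with `Wf`), **`pvio_eng_rec`** (the engine of record, before and after L2), **`pvio_ow_free`** : `PvdwOw` AT `pvnaEngRec`, FREE masks and radii;   **`pvio_ow_rec`** : masks `pvc2hMp pvc2hMm` of 264 at ANY hulls,
            radii `2 * pvilMu` (the form of `PvdwArcs.restM`);   **`pvio_oc_rec`** : the cuts `PvdwOc` at the record (the form of `PvdwArcs.restT` / `ownT`).      0 sorry.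
-/

set_option autoImplicit false

namespace Claimed.Agent.R289

open Set Metric
open scoped ComplexConjugate

/-! ## 1. tools: coordinates in the frame of a door -/

/-- the coordinate along a unit direction is bounded by the norm -/
theorem pvio_re_le {d : ℂ} (hd : ‖d‖ = 1) (a : ℂ) : |(a * conj d).re| ≤ ‖a‖ := by
  have := Complex.abs_re_le_norm (a * conj d)
  rwa [norm_mul, RCLike.norm_conj, hd, mul_one] at this

/-- the coordinate along a unit direction is `1`-Lipschitz -/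
theorem pvio_X_lip {d : ℂ} (hd : ‖d‖ = 1) (z w x : ℂ) : |((w - z) * conj d).re - ((x - z) * conj d).re| ≤ ‖w - x‖ := by
  have e : ((w - z) * conj d).re - ((x - z) * conj d).re = ((w - x) * conj d).re := by
    rw [← Complex.sub_re]; congr 1; ring
  rw [e]
  exact pvio_re_le hd _

/-- the coordinates of a placed point in the frame of the door -/
theorem pvio_at_coord {z d : ℂ} (hd : ‖d‖ = 1) {S : Set ℂ} {w : ℂ} (hw : w ∈ pvkdAt z d S) : (w - z) * conj d ∈ S := by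
  have := (pvkx_mem_at (pvth_ne_zero hd) S w).1 hw
  rwa [pvuk_div_unit hd] at this

theorem pvio_coord_norm {d : ℂ} (hd : ‖d‖ = 1) (a : ℂ) : ‖a * conj d‖ = ‖a‖ := by
  rw [norm_mul, RCLike.norm_conj, hd, mul_one]

/-- a point of the placed tube of the plug of record is within `5 r / 2` of the door -/
theorem pvio_tb_near {z d : ℂ} (hd : ‖d‖ = 1) {r : ℝ} {w : ℂ} (hw : w ∈ pvkdAt z d (pvkdP r).Tb) : ‖w - z‖ ≤ 5 * r / 2 := by
  obtain ⟨h1, h2, h3, h4⟩ := pvio_at_coord hd hw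
  rw [← pvio_coord_norm hd (w - z)]
  have := Complex.norm_le_abs_re_add_abs_im ((w - z) * conj d)
  have a1 : |((w - z) * conj d).re| ≤ 2 * r := abs_le.2 ⟨by linarith, h2⟩
  have a2 : |((w - z) * conj d).im| ≤ r / 2 := abs_le.2 ⟨by linarith, h4⟩
  linarith

theorem pvio_Zm_tb (r : ℝ) (hr : 0 ≤ r) : (pvkdP r).Zm ⊆ (pvkdP r).Tb := fun _ h => ⟨h.1, by linarith [h.2.1], h.2.2.1, h.2.2.2⟩

theorem pvio_Zp_tb (r : ℝ) (hr : 0 ≤ r) : (pvkdP r).Zp ⊆ (pvkdP r).Tb := fun _ h => ⟨by linarith [h.1], h.2.1, h.2.2.1, h.2.2.2⟩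

/-- a point of norm `≤ R` lies in the centred closed square -/
theorem pvio_sq_of_norm {v : ℂ} {R : ℝ} (h : ‖v‖ ≤ R) : v ∈ pvwSq 0 R := by
  refine ⟨?_, ?_⟩
  · rw [sub_zero]; exact (Complex.abs_re_le_norm v).trans h
  · rw [sub_zero]; exact (Complex.abs_im_le_norm v).trans h

/-- a point off the centred closed square has a large norm -/
theorem pvio_norm_of_not_sq {v : ℂ} {R : ℝ} (h : v ∉ pvwSq 0 R) : R < ‖v‖ := by
  by_contra hc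
  exact h (pvio_sq_of_norm (not_lt.1 hc))

/-- a neighbour of a point of a centred closed square -/
theorem pvio_sq_nbr {v w : ℂ} {R μ : ℝ} (hv : v ∈ pvwSq 0 R) (h : ‖w - v‖ ≤ μ) : w ∈ pvwSq 0 (R + μ) := by
  obtain ⟨h1, h2⟩ := hv
  rw [sub_zero] at h1 h2
  have a1 := (Complex.abs_re_le_norm (w - v)).trans h
  have a2 := (Complex.abs_im_le_norm (w - v)).trans h
  rw [Complex.sub_re] at a1
  rw [Complex.sub_im] at a2
  refine ⟨?_, ?_⟩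
  · rw [sub_zero, abs_le]; rw [abs_le] at h1 a1; constructor <;> linarith [h1.1, h1.2, a1.1, a1.2]
  · rw [sub_zero, abs_le]; rw [abs_le] at h2 a2; constructor <;> linarith [h2.1, h2.2, a2.1, a2.2]

/-! ## 2. the masks of the cells at their two doors, in the discs of radius `δ / 4` -/

section word

variable {𝔤 : PvkdGeo} (R : PvkxRef 𝔤) (z : ℂ) {d : ℂ} (hd : d ^ 4 = 1) (l : List PvtTurn)

include R hd

/-- in the disc `B(door j, δ/4)` the placed mask of the cell `j` is the half plane in front of the door -/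
theorem pvio_Qf (j : ℕ) {p : ℂ} (hp : p ∈ ball (pvthZ 𝔤.δ z d l j) (𝔤.δ / 4)) :
    p ∈ pvkdAt (pvthZ 𝔤.δ z d l j) (pvthD d l j) (𝔤.Mk (pvthL l j)) ↔ p ∈ pvilHp (pvthZ 𝔤.δ z d l j) (pvthD d l j) := by
  rw [R.Mk]
  exact pvuk_mask_front (pvth_norm_of_pow (pvtDir_pow_four d hd _)) hp

/-- in the disc `B(door j + 1, δ/4)` the placed mask of the cell `j` is the complement of the half plane in front of the door -/
theorem pvio_Qb {j : ℕ} (hj : j < l.length) {p : ℂ} (hp : p ∈ ball (pvthZ 𝔤.δ z d l (j + 1)) (𝔤.δ / 4)) :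
    p ∈ pvkdAt (pvthZ 𝔤.δ z d l j) (pvthD d l j) (𝔤.Mk (pvthL l j)) ↔ p ∉ pvilHp (pvthZ 𝔤.δ z d l (j + 1)) (pvthD d l (j + 1)) := by
  obtain ⟨e1, e2⟩ := pvuk_exit 𝔤 z d l hj
  rw [← e1] at hp ⊢
  rw [R.Mk, ← e2]
  exact pvuk_mask_back (pvth_norm_of_pow (pvtDir_pow_four d hd _)) _ hp

end word

/-- **THE CUTS AT THE DOORS, ABSTRACT**: `Hf j` = what is in front of the door `j`, `T j` = where the tags of the door `j` live -/
theorem pvio_cut_seq {n : ℕ} {M0 Mr Me : Set ℂ} {Mc T Hf : ℕ → Set ℂ}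
    (h0 : ∀ w ∈ T 0, (w ∈ M0 ↔ w ∉ Hf 0)) (hf : ∀ j, j < n → ∀ w ∈ T j, (w ∈ Mc j ↔ w ∈ Hf j))
    (hb : ∀ j, j < n → ∀ w ∈ T (j + 1), (w ∈ Mc j ↔ w ∉ Hf (j + 1))) (hr : ∀ w ∈ T n, (w ∈ Mr ↔ w ∈ Hf n)) :
    ∀ j, j ≤ n → ∀ w ∈ T j, (w ∈ pvdwM n M0 Mc Mr Me j ↔ w ∉ pvdwM n M0 Mc Mr Me (j + 1)) := by
  intro j hj w hw
  have hL : w ∈ pvdwM n M0 Mc Mr Me j ↔ w ∉ Hf j := by
    rcases Nat.eq_zero_or_pos j with rfl | h
    · rw [pvdw_m_zero]; exact h0 w hw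
    · obtain ⟨i, rfl⟩ : ∃ i, j = i + 1 := ⟨j - 1, by omega⟩
      rw [pvdw_m_cell (by omega)]; exact hb i (by omega) w hw
  have hR : w ∈ pvdwM n M0 Mc Mr Me (j + 1) ↔ w ∈ Hf j := by
    rcases Nat.lt_or_ge j n with h | h
    · rw [pvdw_m_cell h]; exact hf j h w hw
    · have : j = n := by omega
      subst this
      rw [pvdw_m_r]; exact hr w hw
  rw [hL, hR]

/-! ## 3. the masks of the three special links, explicit -/

section masks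

variable {τ : Type} {c : ℝ} (𝔓 : PvxPar τ c) (𝔈 : PvieEng τ) (m : ℕ) (z : ℂ) (t : τ)

theorem pvio_msk_o : (pvilLo 𝔓 𝔈 m z t).msk 𝔓.num = (pvilHp (pvieZo 𝔓 m z t) ((𝔓.Γ m).dout t))ᶜ \ closedBall z (𝔓.num.m * pvlmH m) := by
  show _ \ ((if false = true then ∅ else _) ∪ (if true = true then ∅ else _)) = _
  rw [if_neg Bool.false_ne_true, if_pos rfl, union_empty]
  rfl

theorem pvio_msk_e : (pvilLe 𝔓 𝔈 m z t).msk 𝔓.num = (pvieSh (pvieZu 𝔓 m z t) (𝔈.rO m) \ pvilHp (pvieZu 𝔓 m z t) 1)ᶜ \ closedBall z (𝔓.num.m * pvlmH m) := by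
  show _ \ ((if true = true then ∅ else _) ∪ (if false = true then ∅ else _)) = _
  rw [if_neg Bool.false_ne_true, if_pos rfl, empty_union]
  rfl

theorem pvio_msk_r : (pviqLr 𝔓 𝔈 m z t).msk 𝔓.num =
    pvilHp (pvieZu 𝔓 m z t + (𝔓.Γ m).pin0) (𝔓.Γ m).din0 \ (pvieSh (pvieZu 𝔓 m z t) (𝔈.rO m) ∩ pvilHp (pvieZu 𝔓 m z t) 1) := by
  show _ \ ((if true = true then ∅ else _) ∪ (if true = true then ∅ else _)) = _
  rw [if_pos rfl, if_pos rfl, union_empty, sdiff_empty]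
  rfl

/-- the last door of the thin chain is the west door of the reference plug -/
theorem pvio_Zn : pvc1kZ 𝔓 m z t ((𝔓.Γ m).l1 t).length = pvieZu 𝔓 m z t + (𝔓.Γ m).pin0 := by
  show pvieZo 𝔓 m z t + (𝔓.Γ m).δ * pvtDisp ((𝔓.Γ m).dout t) (((𝔓.Γ m).l1 t).take ((𝔓.Γ m).l1 t).length) = _
  rw [List.take_length, (𝔓.Γ m).l1_disp t]
  unfold pvieZu pvieZo
  ring

theorem pvio_Dn : pvc1kD 𝔓 m t ((𝔓.Γ m).l1 t).length = (𝔓.Γ m).din0 := by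
  show pvtDir ((𝔓.Γ m).dout t) (((𝔓.Γ m).l1 t).take ((𝔓.Γ m).l1 t).length) = _
  rw [List.take_length, (𝔓.Γ m).l1_dir t]

theorem pvio_Z0 : pvc1kZ 𝔓 m z t 0 = pvieZo 𝔓 m z t := by
  show pvieZo 𝔓 m z t + (𝔓.Γ m).δ * pvtDisp ((𝔓.Γ m).dout t) (((𝔓.Γ m).l1 t).take 0) = _
  rw [List.take_zero]
  simp [pvtDisp, pvtAcc]

theorem pvio_D0 : pvc1kD 𝔓 m t 0 = (𝔓.Γ m).dout t := by
  show pvtDir ((𝔓.Γ m).dout t) (((𝔓.Γ m).l1 t).take 0) = _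
  rw [List.take_zero]
  rfl

end masks

/-! ## 4. the exit door -/

section geo

variable {τ : Type} {c : ℝ} {𝔓 : PvxPar τ c} {m0 : ℕ}

theorem pvio_sq_shift {x z : ℂ} {R : ℝ} : x ∈ pvwSq z R ↔ x - z ∈ pvwSq 0 R := by
  simp only [pvwSq, mem_ofPred_eq, sub_zero]

theorem pvio_tri (w x z : ℂ) : ‖x - z‖ ≤ ‖w - z‖ + ‖w - x‖ := by
  have := norm_sub_le (w - z) (w - x)
  have e : w - z - (w - x) = x - z := by ring
  rwa [e] at this

/-- the coordinate in the frame of the exit door, seen from the centre of the pin -/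
theorem pvio_o_coord (m : ℕ) (z : ℂ) (t : τ) (Y x : ℂ) :
    ((x - pvieZo 𝔓 m z t) * conj ((𝔓.Γ m).dout t)).re = pvegS Y ((𝔓.Γ m).dout t) (x - z) - pvegS Y ((𝔓.Γ m).dout t) ((𝔓.Γ m).pout t) := by
  rw [← pveg_S_door Y]
  have : x - pvieZo 𝔓 m z t = x - z - (𝔓.Γ m).pout t := by unfold pvieZo; ring
  rw [this]

/-- **the own-level box with its collar lies `δ / 4` behind the exit door** -/
theorem pvio_box_back (H : PveaPar 𝔓 m0) {m : ℕ} (hm : m0 ≤ m) {t : τ} (hT : pviwTyOk 𝔓 t) {z x : ℂ} (hx : x - z ∈ pvwSq 0 (pviwRad 𝔓 m t + pvlmDel c m)) :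
    ((x - pvieZo 𝔓 m z t) * conj ((𝔓.Γ m).dout t)).re ≤ -(pvlmDel c m / 4) := by
  rw [pvio_o_coord m z t (pvegYp 𝔓 m t)]
  have := pveg_box_back (pveg_door_o (H.lev hm) hT) (a := pvlmDel c m / 4) le_rfl hx
  linarith

/-- **the room of the first link lies `δ / 160` behind the exit door, in the inner mouth** -/
theorem pvio_oY_back (H : PveaPar 𝔓 m0) {m : ℕ} (hm : m0 ≤ m) {t : τ} (hT : pviwTyOk 𝔓 t) {z x : ℂ} (hx : x - z ∈ pvegOYa 𝔓 m t) :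
    ((x - pvieZo 𝔓 m z t) * conj ((𝔓.Γ m).dout t)).re ≤ -(pvlmDel c m / 160) ∧ ‖x - z - pvegYp 𝔓 m t‖ ≤ pvegR 𝔓 m / 2 := by
  rw [pvio_o_coord m z t (pvegYp 𝔓 m t)]
  obtain ⟨h1, h2⟩ := pveg_Ya_back (pveg_door_o (H.lev hm) hT) (pveg_A_pos c m).le (pveg_A_le c m) hx
  rw [mem_closedBall_iff_norm] at h1
  unfold pvegA at h2
  exact ⟨by linarith, h1⟩

/-- the centres of the two tip cells are near the boundary of the own-level box -/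
theorem pvio_Yp_norm (H : PveaPar 𝔓 m0) {m : ℕ} (hm : m0 ≤ m) {t : τ} (hT : pviwTyOk 𝔓 t) : pviwRad 𝔓 m t - pvegR 𝔓 m / 10 ≤ ‖pvegYp 𝔓 m t‖ := by
  have D := pveg_door_o (H.lev hm) hT
  exact D.out.trans ((le_abs_self _).trans (pvio_re_le (pveg_norm_unit D.u4) _))

theorem pvio_Ym_norm (H : PveaPar 𝔓 m0) {m : ℕ} (hm : m0 ≤ m) {t : τ} (hT : pviwTyOk 𝔓 t) : pviwRad 𝔓 m t - pvegR 𝔓 m / 10 ≤ ‖pvegYm 𝔓 m t‖ := by
  have D := pveg_door_i (H.lev hm) hT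
  exact D.out.trans ((le_abs_self _).trans (pvio_re_le (pveg_norm_unit D.u4) _))

/-- the disc `B(exit door, δ/4)` is off the own-level box with its collar -/
theorem pvio_door_off (H : PveaPar 𝔓 m0) {m : ℕ} (hm : m0 ≤ m) {t : τ} (hT : pviwTyOk 𝔓 t) {z w : ℂ} (hw : ‖w - pvieZo 𝔓 m z t‖ < pvlmDel c m / 4) :
    w - z ∉ pvwSq 0 (pviwRad 𝔓 m t + pvlmDel c m) := by
  have e : w - pvieZo 𝔓 m z t = w - z - (𝔓.Γ m).pout t := by unfold pvieZo; ring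
  rw [e] at hw
  have h1 : w - z ∈ pvccSq ((𝔓.Γ m).pout t) (pvlmDel c m / 4) :=
    max_lt (lt_of_le_of_lt (Complex.abs_re_le_norm _) hw) (lt_of_le_of_lt (Complex.abs_im_le_norm _) hw)
  exact Set.disjoint_left.1 (pveg_D_off (pveg_door_o (H.lev hm) hT)) h1

/-! ## 5. the reference plug -/

theorem pvio_din0 (H : PveaPar 𝔓 m0) (m : ℕ) : (𝔓.Γ m).din0 = 1 := by rw [H.gam]; rfl

theorem pvio_pin0 (H : PveaPar 𝔓 m0) (m : ℕ) : (𝔓.Γ m).pin0 = ((-(pvehDl 𝔓 m / 2) : ℝ) : ℂ) := by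
  rw [H.gam, pvxr_gam_pin0]
  unfold pvehDl
  push_cast
  ring

theorem pvio_hp_one (z w : ℂ) : w ∈ pvilHp z 1 ↔ 0 ≤ (w - z).re := by
  show 0 ≤ ((w - z) * conj (1 : ℂ)).re ↔ _
  rw [map_one, mul_one]

/-- the half plane in front of the last door of the thin chain -/
theorem pvio_hpN (H : PveaPar 𝔓 m0) (m : ℕ) (zu w : ℂ) : w ∈ pvilHp (zu + (𝔓.Γ m).pin0) (𝔓.Γ m).din0 ↔ -(pvehDl 𝔓 m / 2) ≤ (w - zu).re := by
  rw [pvio_pin0 H, pvio_din0 H, pvio_hp_one]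
  simp only [Complex.sub_re, Complex.add_re, Complex.ofReal_re]
  constructor <;> intro h <;> linarith

theorem pvio_Dl (H : PveaPar 𝔓 m0) (m : ℕ) : 0 < pvlmDel c m ∧ pvlmDel c m ≤ pvehDl 𝔓 m :=
  ⟨pvlm_Del_pos c m, pveh_Del_le_Dl (pvea_Nw_nonneg H m)⟩

/-- the region of the reference plug, placed -/
theorem pvio_Ro_mem (m : ℕ) (zu w : ℂ) : w ∈ pvieSh zu (pvehrO 𝔓 m) ↔ (|(w - zu).re| < pvehDl 𝔓 m / 4 ∧ |(w - zu).im| < pvehDl 𝔓 m / 4) := by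
  rw [pveh_sh_rO]
  show max |(w - zu).re| |(w - zu).im| < pvehDl 𝔓 m / 4 ↔ _
  exact max_lt_iff

/-- the region of the reference plug is off the own-level box with its collar -/
theorem pvio_Ro_off (H : PveaPar 𝔓 m0) {m : ℕ} (hm : m0 ≤ m) {t : τ} (hT : pviwTyOk 𝔓 t) {z w : ℂ} (hw : w ∈ pvieSh (pvieZu 𝔓 m z t) (pvehrO 𝔓 m)) :
    w - z ∉ pvwSq 0 (pviwRad 𝔓 m t + pvlmDel c m) := by
  have h1 : w - z ∈ pvieSh ((pvxrGam 𝔓 m).zu t) (pvehrO 𝔓 m) := by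
    rw [pveh_mem_sh] at hw ⊢
    have e : w - z - (pvxrGam 𝔓 m).zu t = w - pvieZu 𝔓 m z t := by unfold pvieZu; rw [H.gam]; ring
    rw [e]; exact hw
  exact Set.disjoint_left.1 (pveh_res_off (fun _ => ∅) (fun _ _ => ∅) (H.geo m hm t hT)) (Or.inr h1)

/-- **(E6) with its margin**: the region of the reference plug lies three blocks in front of the entrance door -/
theorem pvio_end_i (H : PveaPar 𝔓 m0) {m : ℕ} (hm : m0 ≤ m) {t : τ} (hT : pviwTyOk 𝔓 t) : ∀ v ∈ pvieSh ((pvxrGam 𝔓 m).zu t) (pvehrO 𝔓 m),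
    pvegS (pvegYm 𝔓 m t) (-(𝔓.Γ m).din t) ((𝔓.Γ m).pin t) + 3 * pvehDl 𝔓 m ≤ pvegS (pvegYm 𝔓 m t) (-(𝔓.Γ m).din t) v := by
  intro v hv
  have G := H.geo m hm t hT
  have hΔ := pveh_Dl_pos G.n0
  have hδ := pvlm_Del_pos c m
  have hsq : pvieSh ((pvxrGam 𝔓 m).zu t) (pvehSq 0 (pvehDl 𝔓 m / 2)) = pvehSq ((pvxrGam 𝔓 m).zu t) (pvehDl 𝔓 m / 2) := by rw [pveh_sh_sqc, add_zero]
  have h1 : v ∈ pvehSq ((pvxrGam 𝔓 m).zu t) (pvehDl 𝔓 m / 2) := by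
    rw [← hsq]; exact Set.image_mono (pveh_O_sub hΔ.le) hv
  rw [G.zu'] at h1
  have h2 := pvea_front_plug hΔ _ _ h1
  rw [H.gam, pvxr_gam_din, pvxr_gam_pin, neg_neg, pvea_S_front, pvea_S_front, pvea_front_door]
  linarith

/-- **the room of the thick link near the region of the reference plug**: a point within `Δ / 64` of the room (off the mouth) which lies in the region of the plug lies in front of the plane of the plug -/
theorem pvio_EY_cut {Δ : ℝ} (hΔ : 0 < Δ) (cu : ℂ) {lb : List PvtTurn} (hW : PvehW lb) {Mi : Set ℂ} {x w : ℂ} (hx : x ∈ pvehEY Δ cu lb Mi) (hM : x ∉ Mi)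
    (hw : ‖w - x‖ ≤ Δ / 64) (hO : w ∈ pvccSq cu (Δ / 4)) : cu.re ≤ w.re := by
  rw [pvccm_mem_sq] at hO
  obtain ⟨⟨a1, a2⟩, a3, a4⟩ := hO
  have l1 := abs_le.1 ((Complex.abs_re_le_norm (w - x)).trans hw)
  have l2 := abs_le.1 ((Complex.abs_im_le_norm (w - x)).trans hw)
  rw [Complex.sub_re] at l1
  rw [Complex.sub_im] at l2
  rcases hx with (h | h) | h
  · linarith [h.1, l1.1]
  · unfold pvfeLanes at h
    simp only [mem_iUnion, exists_prop] at h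
    obtain ⟨j, hj, hx⟩ := h
    have hj' : j < lb.length := Finset.mem_range.1 hj
    have hb := pveh_lane_sub hΔ cu lb j (by norm_num) (by norm_num) hx
    unfold pvehB at hb
    rw [pveh_C_eq, pveh_mem_sq] at hb
    have e1 : (cu + (Δ : ℂ) * pvtZ (pvehV lb j)).re = cu.re + Δ * ((pvehV lb j).1 : ℝ) := by simp [pvtZ]
    have e2 : (cu + (Δ : ℂ) * pvtZ (pvehV lb j)).im = cu.im + Δ * ((pvehV lb j).2 : ℝ) := by simp [pvtZ]
    rw [e1, e2] at hb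
    obtain ⟨⟨b1, b2⟩, b3, b4⟩ := hb
    rcases hW j hj' with hv | hv | hv
    · rw [hv] at b1
      push_cast at b1
      linarith [l1.1]
    · rcases le_abs'.1 hv with hv | hv
      · have : ((pvehV lb j).1 : ℝ) ≤ -2 := by exact_mod_cast hv
        nlinarith [l1.1, l1.2]
      · have : (2 : ℝ) ≤ ((pvehV lb j).1 : ℝ) := by exact_mod_cast hv
        nlinarith [l1.1, l1.2]
    · rcases le_abs'.1 hv with hv | hv
      · have : ((pvehV lb j).2 : ℝ) ≤ -2 := by exact_mod_cast hv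
        nlinarith [l2.1, l2.2]
      · have : (2 : ℝ) ≤ ((pvehV lb j).2 : ℝ) := by exact_mod_cast hv
        nlinarith [l2.1, l2.2]
  · exact absurd h hM

end geo

/-! ## 6. the fields of `PvdwOw`, one by one;   ANY engine whose region of the reference plug is the region of record and whose rooms lie in the rooms of record -/

section fields

variable {τ : Type} {c : ℝ} {𝔓 : PvxPar τ c} {m0 : ℕ} {𝔈 : PvieEng τ}

theorem pvio_S_lip {u : ℂ} (hu : ‖u‖ = 1) (Y a b : ℂ) : |pvegS Y u a - pvegS Y u b| ≤ ‖a - b‖ := by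
  rw [pveg_S_sub]
  exact pvio_re_le hu _

/-- **what (O) reads of the engine at the level `m`, type `t`**: the region of the reference plug INSIDE the block region of 166, its mesh window inside the region (`rp_win` of `Wf`), its unit `≥ δ / 20`,
ROOMS INSIDE THE ROOMS OF 124 166 (robust to the patches (Rc), L2 = U4: smaller rooms, smaller region, `rY` from `pin0 + δ / 160`) -/
structure PvioEng (𝔓 : PvxPar τ c) (𝔈 : PvieEng τ) (m : ℕ) (t : τ) : Prop where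
  rO_sub : 𝔈.rO m ⊆ pvehrO 𝔓 m
  rO_win : pvwSq 0 (3 * (𝔈.rp m).h) ⊆ 𝔈.rO m
  ru_lo : pvlmDel c m / 20 ≤ (𝔈.rp m).h
  oY : 𝔈.oY m t ⊆ pvegOYa 𝔓 m t
  rY : ∀ v ∈ 𝔈.rY m, -(pvehDl 𝔓 m / 2) + pvlmDel c m / 160 ≤ v.re ∧ v.re ≤ -(pvlmDel c m / 160)
  eY : 𝔈.eY m t ⊆ pveheY 𝔓 (pvegIM 𝔓) m t ∪ pvegIK 𝔓 m t

/-- the unit of the reference plug is small -/
theorem PvioEng.ru_hi {m : ℕ} {t : τ} (E : PvioEng 𝔓 𝔈 m t) : 3 * (𝔈.rp m).h < pvehDl 𝔓 m / 4 := by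
  have h0 : 0 ≤ 3 * (𝔈.rp m).h := by linarith [E.ru_lo, pvlm_Del_pos c m]
  have h1 : ((3 * (𝔈.rp m).h : ℝ) : ℂ) ∈ pvwSq 0 (3 * (𝔈.rp m).h) := by
    refine ⟨?_, ?_⟩
    · rw [sub_zero, Complex.ofReal_re, abs_of_nonneg h0]
    · rw [sub_zero, Complex.ofReal_im, abs_zero]; exact h0
  have h2 : ((3 * (𝔈.rp m).h : ℝ) : ℂ) ∈ pvccSq 0 (pvehDl 𝔓 m / 4) := E.rO_sub (E.rO_win h1)
  have h3 := (pvccm_mem_sq.1 h2).1.2
  rw [Complex.ofReal_re, Complex.zero_re] at h3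
  linarith

/-- the placed tube of the reference plug lies in its region -/
theorem PvioEng.tb {m : ℕ} {t : τ} (E : PvioEng 𝔓 𝔈 m t) {zu w : ℂ} (hw : w ∈ pvkdAt zu 1 (pvkdP (pvilRu 𝔈 m)).Tb) : w ∈ pvieSh zu (𝔈.rO m) := by
  obtain ⟨b1, b2, b3, b4⟩ := pvio_at_coord norm_one hw
  rw [map_one, mul_one] at b1 b2 b3 b4
  have hru : pvilRu 𝔈 m = (𝔈.rp m).h := rfl
  rw [hru] at b1 b2 b3 b4
  have h0 : 0 ≤ (𝔈.rp m).h := by linarith [E.ru_lo, pvlm_Del_pos c m]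
  rw [pveh_mem_sh]
  refine E.rO_win ⟨?_, ?_⟩
  · rw [sub_zero, abs_le]; constructor <;> linarith
  · rw [sub_zero, abs_le]; constructor <;> linarith

theorem PvioEng.old {m : ℕ} {t : τ} (E : PvioEng 𝔓 𝔈 m t) {zu w : ℂ} (hw : w ∈ pvieSh zu (𝔈.rO m)) : w ∈ pvieSh zu (pvehrO 𝔓 m) := Set.image_mono E.rO_sub hw

/-- **`c_in`** -/
theorem pvio_c_in (𝔓 : PvxPar τ c) (m : ℕ) (z : ℂ) (t : τ) (j : ℕ) : pvc1kCo 𝔓 (pvkgG.sc (pvlmDel c m)) m z t j ⊆ pvc1kMk 𝔓 (pvkgG.sc (pvlmDel c m)) m z t j := by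
  unfold pvc1kCo pvc1kMk
  rw [(pvuk_rec_ref c m).Mk]
  exact pvkx_at_mono _ _ ((pvuk_rec_ref c m).Co _)

/-- **`c_cv`** -/
theorem pvio_c_cv (𝔓 : PvxPar τ c) (m : ℕ) (z : ℂ) (t : τ) (j : ℕ) : Convex ℝ (pvc1kMk 𝔓 (pvkgG.sc (pvlmDel c m)) m z t j) := by
  unfold pvc1kMk
  rw [(pvuk_rec_ref c m).Mk]
  exact pvkx_at_convex _ _ (pvkx_M_convex _)

/-- **`d_cut`**: in the tube of the door `j` exactly one of the masks of the links `j`, `j + 1` (all the cases: `n = 0`, first door, inner doors, last door) -/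
theorem pvio_d_cut (H : PveaPar 𝔓 m0) {m : ℕ} (hm : m0 ≤ m) {t : τ} (hT : pviwTyOk 𝔓 t) (E : PvioEng 𝔓 𝔈 m t) (z : ℂ)
    (hr : 𝔓.num.m * pvlmH m ≤ pviwRad 𝔓 m t + pvlmDel c m) :
    ∀ j, j ≤ ((𝔓.Γ m).l1 t).length → ∀ w ∈ pvkdAt (pvc1kZ 𝔓 m z t j) (pvc1kD 𝔓 m t j) (pvkdP (pvilRd 𝔓 m)).Tb,
      (w ∈ pvdwM ((𝔓.Γ m).l1 t).length ((pvilLo 𝔓 𝔈 m z t).msk 𝔓.num) (pvc1kMk 𝔓 (pvkgG.sc (pvlmDel c m)) m z t) ((pviqLr 𝔓 𝔈 m z t).msk 𝔓.num) ((pvilLe 𝔓 𝔈 m z t).msk 𝔓.num) j ↔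
        w ∉ pvdwM ((𝔓.Γ m).l1 t).length ((pvilLo 𝔓 𝔈 m z t).msk 𝔓.num) (pvc1kMk 𝔓 (pvkgG.sc (pvlmDel c m)) m z t) ((pviqLr 𝔓 𝔈 m z t).msk 𝔓.num) ((pvilLe 𝔓 𝔈 m z t).msk 𝔓.num) (j + 1)) := by
  have hL := H.lev hm
  have hd4 := pveg_dout4 hL t
  obtain ⟨hδ, hΔ⟩ := pvio_Dl H m
  have hD : ∀ j, ‖pvc1kD 𝔓 m t j‖ = 1 := fun j => pvth_norm_of_pow (pvtDir_pow_four _ hd4 _)
  have R := pvuk_rec_ref c m
  have eδ : (pvkgG.sc (pvlmDel c m)).δ = (𝔓.Γ m).δ := by rw [pvuk_rec_del, hL.del]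
  have hT4 : ∀ j, ∀ w ∈ pvkdAt (pvc1kZ 𝔓 m z t j) (pvc1kD 𝔓 m t j) (pvkdP (pvilRd 𝔓 m)).Tb, ‖w - pvc1kZ 𝔓 m z t j‖ ≤ pvlmDel c m / 16 := by
    intro j w hw
    have := pvio_tb_near (hD j) hw
    unfold pvilRd at this
    linarith
  have hB4 : ∀ j, ∀ w ∈ pvkdAt (pvc1kZ 𝔓 m z t j) (pvc1kD 𝔓 m t j) (pvkdP (pvilRd 𝔓 m)).Tb,
      w ∈ ball (pvthZ (pvkgG.sc (pvlmDel c m)).δ (pvieZo 𝔓 m z t) ((𝔓.Γ m).dout t) ((𝔓.Γ m).l1 t) j) ((pvkgG.sc (pvlmDel c m)).δ / 4) := by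
    intro j w hw
    have h1 := hT4 j w hw
    rw [mem_ball, dist_eq_norm, eδ, hL.del]
    rw [← hL.del] at h1 ⊢
    have : ‖w - pvthZ (𝔓.Γ m).δ (pvieZo 𝔓 m z t) ((𝔓.Γ m).dout t) ((𝔓.Γ m).l1 t) j‖ ≤ (𝔓.Γ m).δ / 16 := h1
    rw [hL.del] at this ⊢
    linarith
  refine pvio_cut_seq (T := fun j => pvkdAt (pvc1kZ 𝔓 m z t j) (pvc1kD 𝔓 m t j) (pvkdP (pvilRd 𝔓 m)).Tb) (Hf := fun j => pvilHp (pvc1kZ 𝔓 m z t j) (pvc1kD 𝔓 m t j)) ?_ ?_ ?_ ?_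
  · intro w hw
    have h1 := hT4 0 w hw
    rw [pvio_Z0] at h1
    show _ ↔ w ∉ pvilHp (pvc1kZ 𝔓 m z t 0) (pvc1kD 𝔓 m t 0)
    rw [pvio_msk_o, pvio_Z0, pvio_D0]
    constructor
    · exact fun h => h.1
    · intro h
      refine ⟨h, fun hc => ?_⟩
      rw [mem_closedBall, dist_eq_norm] at hc
      exact pvio_door_off H hm hT (by linarith) (pvio_sq_of_norm (hc.trans hr))
  · intro j _ w hw
    have := pvio_Qf R (pvieZo 𝔓 m z t) hd4 ((𝔓.Γ m).l1 t) j (hB4 j w hw)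
    rw [eδ] at this
    exact this
  · intro j hj w hw
    have := pvio_Qb R (pvieZo 𝔓 m z t) hd4 ((𝔓.Γ m).l1 t) hj (hB4 (j + 1) w hw)
    rw [eδ] at this
    exact this
  · intro w hw
    have h1 := hT4 _ w hw
    rw [pvio_Zn] at h1
    show _ ↔ w ∈ pvilHp (pvc1kZ 𝔓 m z t ((𝔓.Γ m).l1 t).length) (pvc1kD 𝔓 m t ((𝔓.Γ m).l1 t).length)
    rw [pvio_msk_r, pvio_Zn, pvio_Dn]
    constructor
    · exact fun h => h.1
    · intro h
      refine ⟨h, fun hc => ?_⟩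
      have h2 := ((pvio_Ro_mem m _ w).1 (E.old hc.1)).1
      rw [pvio_pin0 H] at h1
      have h3 := abs_le.1 ((Complex.abs_re_le_norm _).trans h1)
      simp only [Complex.sub_re, Complex.add_re, Complex.ofReal_re] at h3
      rw [abs_lt, Complex.sub_re] at h2
      linarith [h3.2, h2.1]

/-- **`u_cut`**: in the tube of the reference plug exactly one of the masks of the thin link and of the thick link -/
theorem pvio_u_cut (H : PveaPar 𝔓 m0) {m : ℕ} (hm : m0 ≤ m) {t : τ} (hT : pviwTyOk 𝔓 t) (E : PvioEng 𝔓 𝔈 m t) (z : ℂ)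
    (hr : 𝔓.num.m * pvlmH m ≤ pviwRad 𝔓 m t + pvlmDel c m) :
    ∀ w ∈ pvkdAt (pvieZu 𝔓 m z t) 1 (pvkdP (pvilRu 𝔈 m)).Tb, (w ∈ (pviqLr 𝔓 𝔈 m z t).msk 𝔓.num ↔ w ∉ (pvilLe 𝔓 𝔈 m z t).msk 𝔓.num) := by
  intro w hw
  obtain ⟨hδ, hΔ⟩ := pvio_Dl H m
  have hRo : w ∈ pvieSh (pvieZu 𝔓 m z t) (𝔈.rO m) := E.tb hw
  have hN : w ∈ pvilHp (pvieZu 𝔓 m z t + (𝔓.Γ m).pin0) (𝔓.Γ m).din0 := by
    rw [pvio_hpN H]
    have := abs_lt.1 ((pvio_Ro_mem m _ w).1 (E.old hRo)).1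
    linarith [this.1]
  have hB : w ∉ closedBall z (𝔓.num.m * pvlmH m) := by
    intro hc
    rw [mem_closedBall, dist_eq_norm] at hc
    exact pvio_Ro_off H hm hT (E.old hRo) (pvio_sq_of_norm (hc.trans hr))
  rw [pvio_msk_r, pvio_msk_e]
  constructor
  · rintro ⟨-, h2⟩ ⟨h3, -⟩
    exact h3 ⟨hRo, fun h => h2 ⟨hRo, h⟩⟩
  · intro h
    exact ⟨hN, fun h2 => h ⟨fun h3 => h3.2 h2.2, hB⟩⟩

/-- **`y_o`**: the tags of the arc of the first link -/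
theorem pvio_y_o (H : PveaPar 𝔓 m0) {m : ℕ} (hm : m0 ≤ m) {t : τ} (hT : pviwTyOk 𝔓 t) (hoY : 𝔈.oY m t ⊆ pvegOYa 𝔓 m t) (z : ℂ)
    (ha : 𝔓.num.m * pvlmH m + pvlmDel c m ≤ (𝔓.ty t).a * pvlmH m) (hr : 𝔓.num.m * pvlmH m + pvlmDel c m + pvegR 𝔓 m ≤ pviwRad 𝔓 m t)
    {MpP : Set ℂ} (hB : MpP ⊆ pvcaBx 𝔓.num (pvilPin 𝔓 m z t)) (hA : ∀ w ∈ MpP, (𝔓.ty t).a * pvlmH m ≤ ‖w - z‖) {μ : ℝ} (hμ : μ < pvlmDel c m / 160) :
    pvcy2Nr μ (MpP ∪ (pvilLo 𝔓 𝔈 m z t).Yin ∪ pvkdAt (pvc1kZ 𝔓 m z t 0) (pvc1kD 𝔓 m t 0) (pvkdP (pvilRd 𝔓 m)).Zm) ⊆ (pvilLo 𝔓 𝔈 m z t).msk 𝔓.num := by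
  rintro w ⟨x, hx, hwx⟩
  have hL := H.lev hm
  have hδ := pvlm_Del_pos c m
  have hR := pveg_R_pos hL
  have hu : ‖(𝔓.Γ m).dout t‖ = 1 := pvth_norm_of_pow (pveg_dout4 hL t)
  have lip := abs_le.1 (pvio_X_lip hu (pvieZo 𝔓 m z t) w x)
  rw [pvio_msk_o]
  suffices h : ((x - pvieZo 𝔓 m z t) * conj ((𝔓.Γ m).dout t)).re ≤ -(pvlmDel c m / 160) ∧ 𝔓.num.m * pvlmH m + pvlmDel c m / 160 ≤ ‖x - z‖ by
    refine ⟨fun hc => ?_, fun hc => ?_⟩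
    · have : 0 ≤ ((w - pvieZo 𝔓 m z t) * conj ((𝔓.Γ m).dout t)).re := hc
      linarith [lip.2, h.1]
    · rw [mem_closedBall, dist_eq_norm] at hc
      have := pvio_tri w x z
      linarith [h.2]
  rcases hx with (hx | hx) | hx
  · have h1 : x - z ∈ pvwSq 0 (pviwRad 𝔓 m t) := pvio_sq_shift.1 (hB hx)
    have h2 := pvio_box_back H hm hT (pvxo_sq_mono 0 (by linarith) h1)
    exact ⟨by linarith, by linarith [hA x hx]⟩
  · have h1 : x - z ∈ pvegOYa 𝔓 m t := hoY (pveh_mem_sh.1 hx)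
    obtain ⟨h2, h3⟩ := pvio_oY_back H hm hT h1
    refine ⟨h2, ?_⟩
    have h4 := pvio_Yp_norm H hm hT
    have h6 : ‖pvegYp 𝔓 m t‖ ≤ ‖x - z‖ + ‖x - z - pvegYp 𝔓 m t‖ := by
      have := norm_sub_le (x - z) (x - z - pvegYp 𝔓 m t)
      simpa using this
    linarith
  · rw [pvio_Z0, pvio_D0] at hx
    obtain ⟨b1, b2, -, -⟩ := pvio_at_coord hu hx
    have hrd : pvilRd 𝔓 m = pvlmDel c m / 40 := rfl
    rw [hrd] at b1 b2
    have h1 := pvio_tb_near hu (pvkx_at_mono _ _ (pvio_Zm_tb _ (by rw [hrd]; linarith)) hx)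
    rw [hrd] at h1
    have h2 := pvio_norm_of_not_sq (pvio_door_off H hm hT (z := z) (w := x) (by linarith))
    exact ⟨by linarith, by linarith⟩

/-- **`y_r`**: the tags of the arc of the link into the reference plug -/
theorem pvio_y_r (H : PveaPar 𝔓 m0) {m : ℕ} {t : τ} (E : PvioEng 𝔓 𝔈 m t) (z : ℂ)
    {μ : ℝ} (hμ : μ < pvlmDel c m / 160) :
    pvcy2Nr μ (pvkdAt (pvc1kZ 𝔓 m z t ((𝔓.Γ m).l1 t).length) (pvc1kD 𝔓 m t ((𝔓.Γ m).l1 t).length) (pvkdP (pvilRd 𝔓 m)).Zp ∪ (pviqLr 𝔓 𝔈 m z t).Yin ∪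
      pvkdAt (pvieZu 𝔓 m z t) 1 (pvkdP (pvilRu 𝔈 m)).Zm) ⊆ (pviqLr 𝔓 𝔈 m z t).msk 𝔓.num := by
  rintro w ⟨x, hx, hwx⟩
  obtain ⟨hδ, hΔ⟩ := pvio_Dl H m
  have l1 := abs_le.1 ((Complex.abs_re_le_norm (w - x)).trans hwx)
  have e : (w - pvieZu 𝔓 m z t).re = (w - x).re + (x - pvieZu 𝔓 m z t).re := by simp only [Complex.sub_re]; ring
  rw [pvio_msk_r]
  suffices h : -(pvehDl 𝔓 m / 2) + pvlmDel c m / 160 ≤ (x - pvieZu 𝔓 m z t).re ∧ (x - pvieZu 𝔓 m z t).re ≤ -(pvlmDel c m / 160) by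
    refine ⟨(pvio_hpN H m _ w).2 (by linarith [l1.1, h.1]), fun hc => ?_⟩
    have := (pvio_hp_one _ _).1 hc.2
    linarith [l1.2, h.2]
  rcases hx with (hx | hx) | hx
  · rw [pvio_Zn, pvio_Dn, pvio_din0 H, pvio_pin0 H] at hx
    obtain ⟨b1, b2, -, -⟩ := pvio_at_coord norm_one hx
    rw [map_one, mul_one] at b1 b2
    have hrd : pvilRd 𝔓 m = pvlmDel c m / 40 := rfl
    rw [hrd] at b1 b2
    simp only [Complex.sub_re, Complex.add_re, Complex.ofReal_re] at b1 b2 ⊢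
    exact ⟨by linarith, by linarith⟩
  · exact E.rY _ (pveh_mem_sh.1 hx)
  · obtain ⟨b1, b2, -, -⟩ := pvio_at_coord norm_one hx
    rw [map_one, mul_one] at b1 b2
    have hru : pvilRu 𝔈 m = (𝔈.rp m).h := rfl
    rw [hru] at b1 b2
    have h1 := E.ru_hi
    have h2 := E.ru_lo
    exact ⟨by linarith, by linarith⟩

/-- mouth and tile of the entrance: far from the region of the reference plug, far from the cut-off ball -/
theorem pvio_iMK (H : PveaPar 𝔓 m0) {m : ℕ} (hm : m0 ≤ m) {t : τ} (hT : pviwTyOk 𝔓 t) {v w : ℂ} (hv : v ∈ pvegIM 𝔓 m t ∪ pvegIK 𝔓 m t) (hw : ‖w - v‖ ≤ pvlmDel c m / 4) :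
    w ∉ pvieSh ((pvxrGam 𝔓 m).zu t) (pvehrO 𝔓 m) ∧ pviwRad 𝔓 m t - pvegR 𝔓 m / 10 - pvegR 𝔓 m / 2 ≤ ‖v‖ := by
  have D := pveg_door_i (H.lev hm) hT
  obtain ⟨hδ, hΔ⟩ := pvio_Dl H m
  obtain ⟨h1, h2⟩ := pveg_MK_back D hv
  rw [mem_closedBall_iff_norm] at h1
  refine ⟨fun hc => ?_, ?_⟩
  · have h3 := pvio_end_i H hm hT w hc
    have h4 := abs_le.1 ((pvio_S_lip (pveg_norm_unit D.u4) (pvegYm 𝔓 m t) w v).trans hw)
    linarith [h4.2]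
  · have h4 := pvio_Ym_norm H hm hT
    have h6 : ‖pvegYm 𝔓 m t‖ ≤ ‖v‖ + ‖v - pvegYm 𝔓 m t‖ := by
      have := norm_sub_le v (v - pvegYm 𝔓 m t)
      simpa using this
    linarith

/-- **`y_e`**: the tags of the arc of the thick link -/
theorem pvio_y_e (H : PveaPar 𝔓 m0) {m : ℕ} (hm : m0 ≤ m) {t : τ} (hT : pviwTyOk 𝔓 t) (E : PvioEng 𝔓 𝔈 m t) (z : ℂ)
    (ha : 𝔓.num.m * pvlmH m + pvlmDel c m ≤ (𝔓.ty t).a * pvlmH m) (hr : 𝔓.num.m * pvlmH m + pvlmDel c m + pvegR 𝔓 m ≤ pviwRad 𝔓 m t)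
    {MmP : Set ℂ} (hB : MmP ⊆ pvcaBx 𝔓.num (pvilPin 𝔓 m z t)) (hA : ∀ w ∈ MmP, (𝔓.ty t).a * pvlmH m ≤ ‖w - z‖) {μ : ℝ} (hμ : μ < pvlmDel c m / 160) :
    pvcy2Nr μ (pvkdAt (pvieZu 𝔓 m z t) 1 (pvkdP (pvilRu 𝔈 m)).Zp ∪ (pvilLe 𝔓 𝔈 m z t).Yin ∪ MmP) ⊆ (pvilLe 𝔓 𝔈 m z t).msk 𝔓.num := by
  rintro w ⟨x, hx, hwx⟩
  have hL := H.lev hm
  obtain ⟨hδ, hΔ⟩ := pvio_Dl H m
  have hR := pveg_R_pos hL
  have hsh : ∀ v : ℂ, v ∈ pvieSh (pvieZu 𝔓 m z t) (pvehrO 𝔓 m) ↔ v - z ∈ pvieSh ((pvxrGam 𝔓 m).zu t) (pvehrO 𝔓 m) := by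
    intro v
    rw [pveh_mem_sh, pveh_mem_sh]
    have e : v - z - (pvxrGam 𝔓 m).zu t = v - pvieZu 𝔓 m z t := by unfold pvieZu; rw [H.gam]; ring
    rw [e]
  have ewx : w - z - (x - z) = w - x := by ring
  rw [pvio_msk_e]
  suffices h : (w ∈ pvieSh (pvieZu 𝔓 m z t) (pvehrO 𝔓 m) → 0 ≤ (w - pvieZu 𝔓 m z t).re) ∧ 𝔓.num.m * pvlmH m + pvlmDel c m / 160 ≤ ‖x - z‖ by
    refine ⟨fun hc => hc.2 ((pvio_hp_one _ _).2 (h.1 (E.old hc.1))), fun hc => ?_⟩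
    rw [mem_closedBall, dist_eq_norm] at hc
    have := pvio_tri w x z
    linarith [h.2]
  rcases hx with (hx | hx) | hx
  · -- the room of `g⁺` of the reference plug
    have hru : pvilRu 𝔈 m = (𝔈.rp m).h := rfl
    have hlo := E.ru_lo
    obtain ⟨b1, -, -, -⟩ := pvio_at_coord norm_one hx
    rw [map_one, mul_one, hru] at b1
    refine ⟨fun _ => ?_, ?_⟩
    · have l1 := abs_le.1 ((Complex.abs_re_le_norm (w - x)).trans hwx)
      have e : (w - pvieZu 𝔓 m z t).re = (w - x).re + (x - pvieZu 𝔓 m z t).re := by simp only [Complex.sub_re]; ring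
      rw [e]
      linarith [l1.1]
    · have hRo : x ∈ pvieSh (pvieZu 𝔓 m z t) (pvehrO 𝔓 m) := E.old (E.tb (pvkx_at_mono _ _ (pvio_Zp_tb _ (by rw [hru]; linarith)) hx))
      have := pvio_norm_of_not_sq (pvio_Ro_off H hm hT hRo)
      linarith
  · -- the room of the new part
    have hx1 : x - z ∈ 𝔈.eY m t := pveh_mem_sh.1 hx
    have key : x - z ∈ pvegIM 𝔓 m t ∪ pvegIK 𝔓 m t ∨ (x - z ∈ pveheY 𝔓 (pvegIM 𝔓) m t ∧ x - z ∉ pvegIM 𝔓 m t) := by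
      rcases E.eY hx1 with h | h
      · by_cases hM : x - z ∈ pvegIM 𝔓 m t
        · exact Or.inl (Or.inl hM)
        · exact Or.inr ⟨h, hM⟩
      · exact Or.inl (Or.inr h)
    rcases key with h | ⟨h, hM⟩
    · obtain ⟨h1, h2⟩ := pvio_iMK H hm hT h (w := w - z) (by rw [ewx]; linarith)
      exact ⟨fun hc => absurd ((hsh w).1 hc) h1, by linarith⟩
    · refine ⟨fun hc => ?_, ?_⟩
      · have hc' := (hsh w).1 hc
        rw [pveh_sh_rO] at hc'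
        have := pvio_EY_cut (lt_of_lt_of_le hδ hΔ) _ (pveh_W_le _) h hM (w := w - z) (by rw [ewx]; linarith) hc'
        have e : (w - pvieZu 𝔓 m z t).re = (w - z).re - ((pvxrGam 𝔓 m).zu t).re := by
          unfold pvieZu; rw [H.gam]; simp only [Complex.sub_re, Complex.add_re]; ring
        rw [e]
        linarith
      · have h1 := pveh_eY_sub (𝔓 := 𝔓) (Mi := pvegIM 𝔓) (Mo := pvegIM 𝔓) (fun _ _ => Subset.rfl) (pvea_Nw_nonneg H m) t h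
        have h2 : x - z ∉ pvwSq 0 (pviwRad 𝔓 m t + pvlmDel c m) := by
          have hd := Set.disjoint_left.1 (pveh_res_off (fun _ => ∅) (pvegIM 𝔓) (H.geo m hm t hT))
          rcases h1 with (h1 | h1) | h1
          · exact absurd h1 hM
          · exact hd (Or.inl (Or.inl h1))
          · exact hd (Or.inr h1)
        have := pvio_norm_of_not_sq h2
        linarith
  · -- the reduced mask of the entrance stub
    have h1 : x - z ∈ pvwSq 0 (pviwRad 𝔓 m t) := pvio_sq_shift.1 (hB hx)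
    refine ⟨fun hc => ?_, by linarith [hA x hx]⟩
    have h2 : w - z ∈ pvwSq 0 (pviwRad 𝔓 m t + μ) := pvio_sq_nbr h1 (by rw [ewx]; exact hwx)
    exact absurd (pvxo_sq_mono 0 (by linarith) h2) (pvio_Ro_off H hm hT hc)

/-- a neighbour of the disc of the candidate lies in the own-level box with its collar -/
theorem pvio_disc_box {m : ℕ} {t : τ} {z : ℂ} (hb : (𝔓.ty t).b * pvlmH m ≤ pviwRad 𝔓 m t) {μ : ℝ} (hμ : μ ≤ pvlmDel c m) {w : ℂ}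
    (hw : w ∈ pvcy2Nr μ (ball z ((𝔓.ty t).b * pvlmH m))) : w - z ∈ pvwSq 0 (pviwRad 𝔓 m t + pvlmDel c m) := by
  obtain ⟨x, hx, hwx⟩ := hw
  rw [mem_ball, dist_eq_norm] at hx
  have h1 : x - z ∈ pvwSq 0 (pviwRad 𝔓 m t) := pvio_sq_of_norm (by linarith)
  have ewx : w - z - (x - z) = w - x := by ring
  have h2 : w - z ∈ pvwSq 0 (pviwRad 𝔓 m t + μ) := pvio_sq_nbr h1 (by rw [ewx]; exact hwx)
  exact pvxo_sq_mono 0 (by linarith) h2

/-- **`p_o`**: the disc of the candidate lies deep behind the exit door -/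
theorem pvio_p_o (H : PveaPar 𝔓 m0) {m : ℕ} (hm : m0 ≤ m) {t : τ} (hT : pviwTyOk 𝔓 t) (z : ℂ) (hb : (𝔓.ty t).b * pvlmH m ≤ pviwRad 𝔓 m t) {μ : ℝ} (hμ : μ ≤ pvlmDel c m) :
    pvcy2Nr μ (ball (pvilLo 𝔓 𝔈 m z t).p.z ((pvilLo 𝔓 𝔈 m z t).p.ty.b * (pvilLo 𝔓 𝔈 m z t).p.h)) ⊆ (pvilLo 𝔓 𝔈 m z t).Mk := by
  intro w hw hc
  have h1 := pvio_box_back H hm hT (z := z) (pvio_disc_box hb hμ hw)
  have h2 : 0 ≤ ((w - pvieZo 𝔓 m z t) * conj ((𝔓.Γ m).dout t)).re := hc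
  linarith [pvlm_Del_pos c m]

/-- **`p_e`**: the disc of the candidate is far from the region of the reference plug -/
theorem pvio_p_e (H : PveaPar 𝔓 m0) {m : ℕ} (hm : m0 ≤ m) {t : τ} (hT : pviwTyOk 𝔓 t) (E : PvioEng 𝔓 𝔈 m t) (z : ℂ) (hb : (𝔓.ty t).b * pvlmH m ≤ pviwRad 𝔓 m t)
    {μ : ℝ} (hμ : μ ≤ pvlmDel c m) :
    pvcy2Nr μ (ball (pvilLo 𝔓 𝔈 m z t).p.z ((pvilLo 𝔓 𝔈 m z t).p.ty.b * (pvilLo 𝔓 𝔈 m z t).p.h)) ⊆ (pvilLe 𝔓 𝔈 m z t).Mk := by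
  intro w hw hc
  have h1 : w ∈ pvieSh (pvieZu 𝔓 m z t) (𝔈.rO m) := hc.1
  exact pvio_Ro_off H hm hT (E.old h1) (pvio_disc_box hb hμ hw)

/-- the numerals which (O) reads at the level `m`, type `t` -/
structure PvioNum (𝔓 : PvxPar τ c) (m : ℕ) (t : τ) : Prop where
  /-- the gate annulus begins beyond the cut-off ball -/
  ma : 𝔓.num.m * pvlmH m + pvlmDel c m ≤ (𝔓.ty t).a * pvlmH m
  /-- the mouths are beyond the cut-off ball -/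
  mr : 𝔓.num.m * pvlmH m + pvlmDel c m + pvegR 𝔓 m ≤ pviwRad 𝔓 m t
  /-- the disc of the candidate lies in its own-level box -/
  br : (𝔓.ty t).b * pvlmH m ≤ pviwRad 𝔓 m t

/-- **(O) = `PvdwOw` OF 42**, any parameters with `PveaPar`, any engine with `PvioEng`;   `MpP MmP` = ANY sets in the closed own-level box, off `B(z, a h)`;   the four radii `< δ / 160` -/
theorem pvio_ow (H : PveaPar 𝔓 m0) {m : ℕ} (hm : m0 ≤ m) {t : τ} (hT : pviwTyOk 𝔓 t) (E : PvioEng 𝔓 𝔈 m t) (hN : PvioNum 𝔓 m t) (z : ℂ) {MpP MmP : Set ℂ}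
    (hpB : MpP ⊆ pvcaBx 𝔓.num (pvilPin 𝔓 m z t)) (hpA : ∀ w ∈ MpP, (𝔓.ty t).a * pvlmH m ≤ ‖w - z‖)
    (hmB : MmP ⊆ pvcaBx 𝔓.num (pvilPin 𝔓 m z t)) (hmA : ∀ w ∈ MmP, (𝔓.ty t).a * pvlmH m ≤ ‖w - z‖)
    {μo μr μe μP : ℝ} (ho : μo < pvlmDel c m / 160) (hr : μr < pvlmDel c m / 160) (he : μe < pvlmDel c m / 160) (hP : μP < pvlmDel c m / 160) :
    PvdwOw 𝔓.num (pvilLo 𝔓 𝔈 m z t) (pviqLr 𝔓 𝔈 m z t) (pvilLe 𝔓 𝔈 m z t) (pvkdP (pvilRd 𝔓 m)) (pvkdP (pvilRu 𝔈 m)) ((𝔓.Γ m).l1 t).length (pvc1kZ 𝔓 m z t) (pvc1kD 𝔓 m t)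
      (pvc1kCo 𝔓 (pvkgG.sc (pvlmDel c m)) m z t) (pvc1kMk 𝔓 (pvkgG.sc (pvlmDel c m)) m z t) (pvieZu 𝔓 m z t) 1 MpP MmP μo μr μe μP where
  c_in j _ := pvio_c_in 𝔓 m z t j
  c_cv j _ := pvio_c_cv 𝔓 m z t j
  t_cv := pvdw_P_tb_convex _
  tu_cv := pvdw_P_tb_convex _
  d_cut := pvio_d_cut H hm hT E z (by linarith [hN.mr, pveg_R_pos (H.lev hm), pvlm_Del_pos c m])
  u_cut := pvio_u_cut H hm hT E z (by linarith [hN.mr, pveg_R_pos (H.lev hm), pvlm_Del_pos c m])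
  y_o := pvio_y_o H hm hT E.oY z hN.ma hN.mr hpB hpA ho
  y_r := pvio_y_r H E z hr
  y_e := pvio_y_e H hm hT E z hN.ma hN.mr hmB hmA he
  p_o := pvio_p_o H hm hT z hN.br (by linarith [pvlm_Del_pos c m])
  p_e := pvio_p_e H hm hT E z hN.br (by linarith [pvlm_Del_pos c m])

end fields

/-! ## 7. at the engines: `pveaEng` of 124, the wrapper U4 of 84, the engine of record -/

section engines

variable {τ : Type} {c : ℝ} {𝔓 : PvxPar τ c} {m0 : ℕ}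

/-- the rooms `pvehRY δ' Δ` of 166 (`δ' = δ`: EngAll v4; `δ' = 2 δ / 5`: U4) -/
theorem pvio_RY (H : PveaPar 𝔓 m0) (m : ℕ) {δ' : ℝ} (h : 2 * pvlmDel c m / 5 ≤ δ') : ∀ v ∈ pvehRY δ' (pvehDl 𝔓 m), -(pvehDl 𝔓 m / 2) + pvlmDel c m / 160 ≤ v.re ∧ v.re ≤ -(pvlmDel c m / 160) := by
  rintro v ⟨b1, b2, -, -⟩
  obtain ⟨hδ, hΔ⟩ := pvio_Dl H m
  exact ⟨by linarith, by linarith⟩

/-- **ANY engine with the lines (P) of `Wf`** whose region of the reference plug, unit and rooms are bounded as in `PvioEng` -/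
theorem pvio_eng_of {𝔈 : PvieEng τ} {Cth : ℝ} {r κs : ℕ → ℝ} (W : PvieEng.Wf 𝔓 𝔈 m0 Cth r κs) {m : ℕ} (hm : m0 ≤ m) {t : τ} (h1 : 𝔈.rO m ⊆ pvehrO 𝔓 m) (h2 : pvlmDel c m / 20 ≤ (𝔈.rp m).h)
    (h3 : 𝔈.oY m t ⊆ pvegOYa 𝔓 m t) (h4 : ∀ v ∈ 𝔈.rY m, -(pvehDl 𝔓 m / 2) + pvlmDel c m / 160 ≤ v.re ∧ v.re ≤ -(pvlmDel c m / 160))
    (h5 : 𝔈.eY m t ⊆ pveheY 𝔓 (pvegIM 𝔓) m t ∪ pvegIK 𝔓 m t) : PvioEng 𝔓 𝔈 m t := ⟨h1, W.rp_win m hm, h2, h3, h4, h5⟩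

end engines

section record

variable {c : ℝ} (N : PvxNums) (hN : N.Ok) (nb : PvnaNb N)

set_option linter.unreachableTactic false in
set_option linter.unusedTactic false in
/-- **the engine of record has what (O) reads**      [every field is proved at the engine of the day AND at L2 = U4 + `pvegOYc` + `pvvzCo` (R27 of 234): the swap does not redden this file] -/
theorem pvio_eng_rec (c0 : 0 < c) {m : ℕ} (hm : N.m0 ≤ m) (t : pvxTau N) : PvioEng (pvxParOf N hN c) (pvnaEngRec N hN c nb) m t := by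
  obtain ⟨Cth, r, κs, hW⟩ := (pvnr_wf hN c0 nb).wf
  have H := pvea_par hN c0 (c := c)
  obtain ⟨hδ, hΔ⟩ := pvio_Dl H m
  have hμ : 0 ≤ pvilMu (pvxParOf N hN c) m := pvey_mu_nonneg (𝔓 := pvxParOf N hN c) hN.msk0.le m
  refine pvio_eng_of hW hm ?_ ?_ ?_ ?_ ?_
  · first
      | exact Subset.rfl
      | exact pvnu4_RO_sub (𝔓 := pvxParOf N hN c) hN.rho0 m
  · first
      | (show pvlmDel c m / 20 ≤ pvehDl (pvxParOf N hN c) m / 16; linarith)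
      | (show pvlmDel c m / 20 ≤ pvehDl (pvxParOf N hN c) m / 20; linarith)
  · first
      | exact Subset.rfl
      | exact pvey_oYc_sub_oYa (H.lev hm) hμ t
  · first
      | exact pvio_RY H m (δ' := pvlmDel c m) (by linarith)
      | exact pvio_RY H m (δ' := 2 * pvlmDel c m / 5) le_rfl
  · first
      | exact Subset.rfl
      | exact pvvz_eY_old (H.mu3 m) t
      | exact pvvz_eY_old (by linarith) t
      | exact pvvz_sub (by linarith) _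
      | exact pvvz_sub (pvvz_mu0 (pvxParOf N hN c) (fun m => (pvlm_Del_pos c m).le) hN.msk0.le m) _

/-- the numerals of record -/
theorem pvio_num_rec (c0 : 0 < c) {m : ℕ} (hm : N.m0 ≤ m) (t : pvxTau N) : PvioNum (pvxParOf N hN c) m t := by
  have hh := pvlm_H_pos m
  have hδ := pvlm_Del_pos c m
  have hf := pvxo_fine hN c0 hm
  have hρ := hN.rho0
  have hρ1 := hN.rho_lt_one
  have hδh : pvlmDel c m ≤ pvlmH m := by nlinarith
  have hrad : 2 * N.b2 * pvlmH m ≤ pviwRad (pvxParOf N hN c) m t := by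
    show 2 * N.b2 * pvlmH m ≤ N.rad (pvxoK t) * pvlmH m
    exact mul_le_mul_of_nonneg_right (hN.le_rad _) hh.le
  have h1 := hN.m_gt
  have h2 := hN.m_lt
  have h3 := hN.B_lt
  have h4 := hN.ab1
  have h5 := hN.gap
  have h6 := hN.ab2
  refine ⟨?_, ?_, ?_⟩
  · show N.m * pvlmH m + pvlmDel c m ≤ N.a1 * pvlmH m
    nlinarith
  · have e : pvegR (pvxParOf N hN c) m = N.rho * pvlmH m := rfl
    rw [e]
    show N.m * pvlmH m + pvlmDel c m + N.rho * pvlmH m ≤ _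
    nlinarith
  · show N.b1 * pvlmH m ≤ _
    nlinarith

/-- twice the mesh of the windows of level `m` is below the margin `δ / 160` of W-7 -/
theorem pvio_mu {τ : Type} (𝔓 : PvxPar τ c) (m : ℕ) : 2 * pvilMu 𝔓 m < pvlmDel c m / 160 := by
  have hδ := pvlm_Del_pos c m
  have : pvilMu 𝔓 m ≤ pvlmDel c m / 1000 := by
    unfold pvilMu
    have := min_le_left (pvlmDel c m) (𝔓.num.rho3 * pvlmH m)
    linarith
  linarith

/-- **(O) AT THE ENGINE OF RECORD, FREE MASKS, FREE RADII** -/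
theorem pvio_ow_free (c0 : 0 < c) {m : ℕ} (hm : N.m0 ≤ m) (z : ℂ) (t : pvxTau N) {MpP MmP : Set ℂ}
    (hpB : MpP ⊆ pvcaBx (pvxParOf N hN c).num (pvilPin (pvxParOf N hN c) m z t)) (hpA : ∀ w ∈ MpP, ((pvxParOf N hN c).ty t).a * pvlmH m ≤ ‖w - z‖)
    (hmB : MmP ⊆ pvcaBx (pvxParOf N hN c).num (pvilPin (pvxParOf N hN c) m z t)) (hmA : ∀ w ∈ MmP, ((pvxParOf N hN c).ty t).a * pvlmH m ≤ ‖w - z‖)
    {μo μr μe μP : ℝ} (ho : μo < pvlmDel c m / 160) (hr : μr < pvlmDel c m / 160) (he : μe < pvlmDel c m / 160) (hP : μP < pvlmDel c m / 160) :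
    PvdwOw (pvxParOf N hN c).num (pvilLo (pvxParOf N hN c) (pvnaEngRec N hN c nb) m z t) (pviqLr (pvxParOf N hN c) (pvnaEngRec N hN c nb) m z t) (pvilLe (pvxParOf N hN c) (pvnaEngRec N hN c nb) m z t)
      (pvkdP (pvilRd (pvxParOf N hN c) m)) (pvkdP (pvilRu (pvnaEngRec N hN c nb) m)) (((pvxParOf N hN c).Γ m).l1 t).length (pvc1kZ (pvxParOf N hN c) m z t) (pvc1kD (pvxParOf N hN c) m t)
      (pvc1kCo (pvxParOf N hN c) (pvkgG.sc (pvlmDel c m)) m z t) (pvc1kMk (pvxParOf N hN c) (pvkgG.sc (pvlmDel c m)) m z t) (pvieZu (pvxParOf N hN c) m z t) 1 MpP MmP μo μr μe μP :=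
  pvio_ow (pvea_par hN c0) hm (pvea_tyOk hN t) (pvio_eng_rec N hN nb c0 hm t) (pvio_num_rec N hN c0 hm t) z hpB hpA hmB hmA ho hr he hP

/-- **(O) AT THE ENGINE OF RECORD**: `PvdwOw` of 42 at the reduced masks of record of 264 (ANY hulls `Zo Zi`), radii `2 μ_m` (`μ_m = pvilMu` = the mesh of the four kinds of windows): the form read by `PvdwArcs.restM` -/
theorem pvio_ow_rec (c0 : 0 < c) {m : ℕ} (hm : N.m0 ≤ m) (z : ℂ) (t : pvxTau N) (Zo Zi : Set (ℤ × ℤ)) :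
    PvdwOw (pvxParOf N hN c).num (pvilLo (pvxParOf N hN c) (pvnaEngRec N hN c nb) m z t) (pviqLr (pvxParOf N hN c) (pvnaEngRec N hN c nb) m z t) (pvilLe (pvxParOf N hN c) (pvnaEngRec N hN c nb) m z t)
      (pvkdP (pvilRd (pvxParOf N hN c) m)) (pvkdP (pvilRu (pvnaEngRec N hN c nb) m)) (((pvxParOf N hN c).Γ m).l1 t).length (pvc1kZ (pvxParOf N hN c) m z t) (pvc1kD (pvxParOf N hN c) m t)
      (pvc1kCo (pvxParOf N hN c) (pvkgG.sc (pvlmDel c m)) m z t) (pvc1kMk (pvxParOf N hN c) (pvkgG.sc (pvlmDel c m)) m z t) (pvieZu (pvxParOf N hN c) m z t) 1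
      (pvc2hMp (pvxParOf N hN c) m z t Zo) (pvc2hMm (pvxParOf N hN c) m z t Zi)
      (2 * pvilMu (pvxParOf N hN c) m) (2 * pvilMu (pvxParOf N hN c) m) (2 * pvilMu (pvxParOf N hN c) m) (2 * pvilMu (pvxParOf N hN c) m) :=
  pvio_ow_free N hN nb c0 hm z t (pvc2h_Mp_box _ m z t Zo) (fun _ h => pvc2h_Mp_ann _ m z t Zo h) (pvc2h_Mm_box _ m z t Zi) (fun _ h => pvc2h_Mm_ann _ m z t Zi h)
    (pvio_mu _ m) (pvio_mu _ m) (pvio_mu _ m) (pvio_mu _ m)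

/-- **THE CUTS `PvdwOc` OF 42 AT THE ENGINE OF RECORD** (no mesh, no margin, no mask: read by `PvdwArcs.restT`, `pvcy3_rest_geo` of 48) -/
theorem pvio_oc_rec (c0 : 0 < c) {m : ℕ} (hm : N.m0 ≤ m) (z : ℂ) (t : pvxTau N) :
    PvdwOc (pvxParOf N hN c).num (pvilLo (pvxParOf N hN c) (pvnaEngRec N hN c nb) m z t) (pviqLr (pvxParOf N hN c) (pvnaEngRec N hN c nb) m z t) (pvilLe (pvxParOf N hN c) (pvnaEngRec N hN c nb) m z t)
      (pvkdP (pvilRd (pvxParOf N hN c) m)) (pvkdP (pvilRu (pvnaEngRec N hN c nb) m)) (((pvxParOf N hN c).Γ m).l1 t).length (pvc1kZ (pvxParOf N hN c) m z t) (pvc1kD (pvxParOf N hN c) m t)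
      (pvc1kCo (pvxParOf N hN c) (pvkgG.sc (pvlmDel c m)) m z t) (pvc1kMk (pvxParOf N hN c) (pvkgG.sc (pvlmDel c m)) m z t) (pvieZu (pvxParOf N hN c) m z t) 1 := by
  have h0 : (0 : ℝ) < pvlmDel c m / 160 := by have := pvlm_Del_pos c m; positivity
  exact (pvio_ow_free N hN nb c0 hm z t (MpP := ∅) (MmP := ∅) (empty_subset _) (fun _ h => h.elim) (empty_subset _) (fun _ h => h.elim) h0 h0 h0 h0).oc le_rfl

end record

end Claimed.Agent.R289
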