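-- KEEP
import Claimed.Agent.R289.Tr.CycC3G
import Claimed.Agent.R289.Exit.EngRec
import Claimed.Agent.R289.Exit.Cyc1K
import Claimed.Agent.R289.Exit.RoomRE
import Claimed.Agent.R289.Exit.EngU4
import Claimed.Agent.R289.Exit.EngYe

/-!
# Row 289 (S0537), THE WALL, ROAD E, under `exit_pvcy1d_own` (219, `Exit/Cyc1CD`), file Exit/Cyc1Y : THE RECORD `Pvcy3Lk` OF 48 (`Tr/CycC3`, form (T)) FOR THE THICK LINK `e`, WITHOUT THE COLLAR (Rc) OF THE ROOM      (owner helper92; prefix `pvvi_`, `pvvi`, `Pvvi`)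

WHY.   the room `eY = rect ∪ lanes ∪ iM ∪ iK` contains the mouth ball and the funnel up to their rims: a vertex on the rim, outside the own-level box, is NOT in the `3μ`-core of the window `pvilWne`, so its faces may be big.
CURE.  `R1 = C1 := closedBall (z + h y⁻) (ρ h / 2)` : convex, contains `z + (iM ∪ iK)`, misses the CLOSED BLOCK of the reference plug and the cut-off ball: a face with its three vertices there has its barycentre there (NO MESH).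
       `R2 := Zp(u) ∪ z + (rect ∪ lanes) ∪ reduced frozen positions of Σ_in` : every point is in the `3μ`-core of `pvilWne` and its `2μ`-ball lies in the mask: a face with one vertex there is small.
READS of the engine (`PvviEng`): `G ⊆ eM ∪ eK ∪ Ro` (`G = pverG` of 166: ANY partition), `rO ⊆` open square `Δ / 4`, `Δ / 20 ≤ rp.h`, `eY ⊆` the room of 166 / 124: it survives L2 (smaller `rO`, `ru = Δ / 20`) and every SHRINKING of the room.      No debt left.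
* sec. 1  plane lemmas
* sec. 2  W-7 in the open block of the plug `pvvi_EY_front`, `pvvi_eY_front`;   `PvviEng` (what is read of the engine), `PvviNum` (numerals);   `pvvi_old_far`;   **`pvvi_nr`** : the `μ`-neighbourhood (`μ ≤ δ / 80`) of `Zp(u) ∪ z + (old room) ∪ (own box off B(z, a h))` lies in `Le.msk`
* sec. 3  the collar of `rect ∪ lanes` and of `Zp(u)` in the window: `pvvi_lane_core`, `pvvi_Zp_core`
* sec. 4  `pvviE1`, `pvviE2`, **`pvvi_Ge`** : `Pvcy3Lk η E1 E2 E1 (Le.msk N)`;   **`pvvi_eF pvvi_eY pvvi_eZ`** = the three inclusions of `pvcy3_rest` of 48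
* sec. 5  AT THE ENGINE OF RECORD, at the events `Pvc1kEv` of 133: **`pvvi_Ge_rec`**, `pvvi_eng_rec`, `pvvi_num_rec`
-/

set_option autoImplicit false

namespace Claimed.Agent.R289

open Set Metric Complex
open scoped ComplexConjugate

/-! ## 1. plane lemmas -/

theorem pvvi_re_near {w x : ℂ} {μ : ℝ} (h : ‖w - x‖ ≤ μ) : |w.re - x.re| ≤ μ := by
  have := Complex.abs_re_le_norm (w - x)
  rw [sub_re] at this
  linarith

theorem pvvi_im_near {w x : ℂ} {μ : ℝ} (h : ‖w - x‖ ≤ μ) : |w.im - x.im| ≤ μ := by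
  have := Complex.abs_im_le_norm (w - x)
  rw [sub_im] at this
  linarith

/-- the sup norm moves by at most `μ` -/
theorem pvvi_N_near {w x : ℂ} {μ : ℝ} (h : ‖w - x‖ ≤ μ) (a : ℂ) : pvccN (x - a) ≤ pvccN (w - a) + μ := by
  have h1 := abs_le.1 (pvvi_re_near h)
  have h2 := abs_le.1 (pvvi_im_near h)
  unfold pvccN
  rw [sub_re, sub_im, sub_re, sub_im]
  refine max_le ?_ ?_
  · have h3 : |w.re - a.re| ≤ max |w.re - a.re| |w.im - a.im| := le_max_left _ _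
    have h4 := abs_le.1 h3
    rw [abs_le]
    constructor <;> linarith [h1.1, h1.2, h4.1, h4.2]
  · have h3 : |w.im - a.im| ≤ max |w.re - a.re| |w.im - a.im| := le_max_right _ _
    have h4 := abs_le.1 h3
    rw [abs_le]
    constructor <;> linarith [h2.1, h2.2, h4.1, h4.2]

/-- the sup norm is at most the norm -/
theorem pvvi_N_le_norm (w : ℂ) : pvccN w ≤ ‖w‖ := max_le (Complex.abs_re_le_norm w) (Complex.abs_im_le_norm w)

/-- membership in a closed square through the sup norm -/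
theorem pvvi_mem_wSq {z w : ℂ} {r : ℝ} : w ∈ pvwSq z r ↔ pvccN (w - z) ≤ r := by
  unfold pvwSq pvccN
  exact (max_le_iff).symm

/-! ## 2. the mask of the thick link round its rooms -/

/-- **W-7 in the OPEN BLOCK of the plug** (half side `Δ / 2`; `pveh_EY_front` of 166 reads the region `Δ / 4` only) -/
theorem pvvi_EY_front {Δ : ℝ} (hΔ : 0 < Δ) (cu : ℂ) {lb : List PvtTurn} (hW : PvehW lb) {Mi : Set ℂ} {w : ℂ} (hw : w ∈ pvehEY Δ cu lb Mi) (hO : w ∈ pvccSq cu (Δ / 2)) (hM : w ∉ Mi) :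
    cu.re + Δ / 64 ≤ w.re := by
  rw [pvccm_mem_sq] at hO
  obtain ⟨⟨a1, a2⟩, a3, a4⟩ := hO
  rcases hw with (h | h) | h
  · exact h.1
  · unfold pvfeLanes at h
    simp only [mem_iUnion, exists_prop] at h
    obtain ⟨j, hj, hw⟩ := h
    have hj' : j < lb.length := Finset.mem_range.1 hj
    have hb := pveh_lane_sub hΔ cu lb j (by norm_num) (by norm_num) hw
    unfold pvehB at hb
    rw [pveh_C_eq, pveh_mem_sq] at hb
    have e1 : (cu + (Δ : ℂ) * pvtZ (pvehV lb j)).re = cu.re + Δ * ((pvehV lb j).1 : ℝ) := by simp [pvtZ]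
    have e2 : (cu + (Δ : ℂ) * pvtZ (pvehV lb j)).im = cu.im + Δ * ((pvehV lb j).2 : ℝ) := by simp [pvtZ]
    rw [e1, e2] at hb
    obtain ⟨⟨b1, b2⟩, b3, b4⟩ := hb
    rcases hW j hj' with hv | hv | hv
    · rw [hv] at b1
      push_cast at b1
      linarith
    · rcases le_abs'.1 hv with hv | hv
      · have : ((pvehV lb j).1 : ℝ) ≤ -2 := by exact_mod_cast hv
        nlinarith
      · have : (2 : ℝ) ≤ ((pvehV lb j).1 : ℝ) := by exact_mod_cast hv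
        nlinarith
    · rcases le_abs'.1 hv with hv | hv
      · have : ((pvehV lb j).2 : ℝ) ≤ -2 := by exact_mod_cast hv
        nlinarith
      · have : (2 : ℝ) ≤ ((pvehV lb j).2 : ℝ) := by exact_mod_cast hv
        nlinarith
  · exact absurd h hM

section ye

variable {τ : Type} {c : ℝ} {𝔓 : PvxPar τ c} {m : ℕ} {t : τ}

/-- **W-7 at the room of record, in the OPEN BLOCK of the plug** -/
theorem pvvi_eY_front (hL : PvegLev 𝔓 m) (hf : 1000 * pvlmDel c m ≤ 𝔓.num.rho * pvlmH m) (hT : pviwTyOk 𝔓 t) (Z : PvehGeo 𝔓 m t) {v : ℂ}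
    (hv : v ∈ pveheY 𝔓 (pvegIM 𝔓) m t ∪ pvegIK 𝔓 m t) (hO : v ∈ pvccSq ((pvxrGam 𝔓 m).zu t) (pvehDl 𝔓 m / 2)) : pvehDl 𝔓 m / 64 ≤ (v - (pvxrGam 𝔓 m).zu t).re := by
  have J := pvej_geo_at (m := m) hL.rho0 hf hT
  have hb : v ∈ pvehSq ((pvxrGam 𝔓 m).zu t) (pvehDl 𝔓 m / 2) := pveh_open_sub _ _ hO
  rw [Z.zu'] at hb
  have hoff := pvej_plug_off2 J hb
  rcases hv with hv | hv
  · have := pvvi_EY_front (pveh_Dl_pos Z.n0) _ (pveh_W_le _) hv hO (fun h => hoff (pveg_M_ball (pveg_door_i hL hT) h))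
    rw [sub_re]
    linarith
  · exact absurd (pveg_K_ball (pveg_door_i hL hT) hv) hoff

variable {𝔈 : PvieEng τ} {m0 : ℕ} {Cth : ℝ} {r κs : ℕ → ℝ}

/-- **what is read of the engine** at the level `m`, for the type `t`: the closed set `G` of the thick link (166) lies in the atoms of the window (ANY partition into mouth / tile / plug), the region of the reference plug lies in the open square of half side `Δ / 4`,
its unit is `≥ Δ / 20`;   of the ROOM only an upper bound -/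
structure PvviEng (𝔓 : PvxPar τ c) (𝔈 : PvieEng τ) (m : ℕ) (t : τ) : Prop where
  gam : 𝔓.Γ m = pvxrGam 𝔓 m
  win : pverG 𝔓 m t ⊆ 𝔈.eM m t ∪ 𝔈.eK m t ∪ pviwRo 𝔓 𝔈 m t
  rO : 𝔈.rO m ⊆ pvccSq 0 (pvehDl 𝔓 m / 4)
  ru : pvehDl 𝔓 m / 20 ≤ (𝔈.rp m).h
  eY : 𝔈.eY m t ⊆ pveheY 𝔓 (pvegIM 𝔓) m t ∪ pvegIK 𝔓 m t

/-- the numerals which the mask of the thick link reads -/
structure PvviNum (𝔓 : PvxPar τ c) (t : τ) : Prop where
  m0 : 0 ≤ 𝔓.num.m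
  ma : 𝔓.num.m + 1 ≤ (𝔓.ty t).a
  ab : (𝔓.ty t).a ≤ (𝔓.ty t).b2
  r1 : 0 ≤ 𝔓.num.rho1
  r0 : 𝔓.num.rho ≤ 1

/-- the placed region of the reference plug lies in the open square of half side `Δ / 4` -/
theorem PvviEng.sq (E : PvviEng 𝔓 𝔈 m t) {a w : ℂ} (hw : w ∈ pvieSh a (𝔈.rO m)) : pvccN (w - a) < pvehDl 𝔓 m / 4 := by
  obtain ⟨u, hu, rfl⟩ := hw
  have h : pvccN (u - 0) < pvehDl 𝔓 m / 4 := E.rO hu
  rw [sub_zero] at h
  simpa using h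

/-- the room of 166 / 124 lies in the closed set `G` of the thick link -/
theorem pvvi_old_G (hΓ : 𝔓.Γ m = pvxrGam 𝔓 m) (hn : 0 ≤ pvxrNw 𝔓 m) : pveheY 𝔓 (pvegIM 𝔓) m t ∪ pvegIK 𝔓 m t ⊆ pverG 𝔓 m t := by
  have hΔ := pveh_Dl_pos hn
  rintro v (hv | hv)
  · have hv' : v ∈ pverEY (pvehDl 𝔓 m / 16) (pvehDl 𝔓 m) ((pvxrGam 𝔓 m).zu t) (pvxrLe (pvxrB 𝔓 t)) (pvegIM 𝔓 m t) := by
      rcases hv with (⟨h1, h2, h3, h4⟩ | h) | h
      · exact Or.inl (Or.inl ⟨by linarith, h2, h3, h4⟩)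
      · exact Or.inl (Or.inr h)
      · exact Or.inr h
    rcases pver_EY_body (by positivity) hΔ _ _ _ hv' with h | h
    · exact Or.inl (Or.inl h)
    · exact Or.inr h
  · refine Or.inl (Or.inr ?_)
    unfold pvegIK at hv
    rw [hΓ, pvxr_gam_din, neg_neg] at hv
    exact hv.1

/-- the ball of the mouth and of the funnel lies beyond the own-level box, up to `ρ h` (sup norm, relative to the centre of the pin) -/
theorem pvvi_ball_far (hT : pviwTyOk 𝔓 t) (hρ : 0 < 𝔓.num.rho) {v : ℂ} (hv : v ∈ closedBall (pvegYm 𝔓 m t) (pvegR 𝔓 m / 2)) : pviwRad 𝔓 m t - 𝔓.num.rho * pvlmH m ≤ pvccN v := by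
  have hh := pvlm_H_pos m
  rw [mem_closedBall_iff_norm] at hv
  have h2 := pvvi_N_near (w := v) (x := pvegYm 𝔓 m t) (μ := pvegR 𝔓 m / 2) hv 0
  unfold pvegYm pvegR at h2
  rw [sub_zero, sub_zero, pvccN_real_mul hh.le] at h2
  have h3 := (abs_le.1 hT.2.1).1
  have h4 : pviwRad 𝔓 m t = (2 * (𝔓.ty t).b2 + (𝔓.ty t).k * 𝔓.num.rho1) * pvlmH m := rfl
  rw [h4]
  have h5 : (2 * (𝔓.ty t).b2 + (𝔓.ty t).k * 𝔓.num.rho1 - 𝔓.num.rho / 10) * pvlmH m ≤ pvlmH m * pvccN (𝔓.ty t).ym := by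
    rw [mul_comm]
    exact mul_le_mul_of_nonneg_left (by linarith) hh.le
  have h6 : 0 < 𝔓.num.rho * pvlmH m := mul_pos hρ hh
  nlinarith

/-- the room of 166 / 124 and the region of the reference plug lie beyond the own-level box, up to `ρ h` -/
theorem pvvi_old_far (W : PvieEng.Wf 𝔓 𝔈 m0 Cth r κs) (hm : m0 ≤ m) (hT : pviwTyOk 𝔓 t) (hL : PvegLev 𝔓 m) (Z : PvehGeo 𝔓 m t) (E : PvviEng 𝔓 𝔈 m t) {v : ℂ}
    (hv : v ∈ (pveheY 𝔓 (pvegIM 𝔓) m t ∪ pvegIK 𝔓 m t) ∪ pviwRo 𝔓 𝔈 m t) : pviwRad 𝔓 m t - 𝔓.num.rho * pvlmH m ≤ pvccN v := by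
  have hh := pvlm_H_pos m
  have hδ := pvlm_Del_pos c m
  have hρ := hL.rho0
  have off : ∀ S ∈ pviwRes 𝔓 𝔈 m 1 t, v ∈ S → pviwRad 𝔓 m t - 𝔓.num.rho * pvlmH m ≤ pvccN v := by
    intro S hS hvS
    have h1 : v ∉ pviwBox 𝔓 m t := fun h => Set.disjoint_left.1 (W.res_off m hm 1 t hT S hS) hvS h
    unfold pviwBox at h1
    rw [pvvi_mem_wSq, sub_zero, not_le] at h1
    nlinarith
  have hK : 𝔈.eK m t ∈ pviwRes 𝔓 𝔈 m 1 t := by unfold pviwRes; simp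
  have hR : pviwRo 𝔓 𝔈 m t ∈ pviwRes 𝔓 𝔈 m 1 t := by unfold pviwRes; simp
  have hv' : v ∈ 𝔈.eM m t ∪ 𝔈.eK m t ∪ pviwRo 𝔓 𝔈 m t := hv.elim (fun h => E.win (pvvi_old_G E.gam Z.n0 h)) Or.inr
  rcases hv' with (h | h) | h
  · exact pvvi_ball_far hT hρ (W.eM_half m hm t hT h)
  · exact off _ hK h
  · exact off _ hR h

/-- the mask of the thick link -/
theorem pvvi_Le_msk (𝔓 : PvxPar τ c) (𝔈 : PvieEng τ) (m : ℕ) (z : ℂ) (t : τ) {w : ℂ} (h1 : w ∈ pvieSh (pvieZu 𝔓 m z t) (𝔈.rO m) → 0 ≤ (w - pvieZu 𝔓 m z t).re) (h2 : 𝔓.num.m * pvlmH m < ‖w - z‖) :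
    w ∈ (pvilLe 𝔓 𝔈 m z t).msk 𝔓.num := by
  have e : (pvilLe 𝔓 𝔈 m z t).msk 𝔓.num = (pvieSh (pvieZu 𝔓 m z t) (𝔈.rO m) \ pvilHp (pvieZu 𝔓 m z t) 1)ᶜ \ (∅ ∪ closedBall z (𝔓.num.m * pvlmH m)) := rfl
  rw [e, Set.empty_union]
  refine ⟨fun h => h.2 ?_, fun h => ?_⟩
  · show 0 ≤ ((w - pvieZu 𝔓 m z t) * conj (1 : ℂ)).re
    rw [map_one, mul_one]
    exact h1 h.1
  · rw [mem_closedBall_iff_norm] at h
    linarith

/-- the half side of the own-level box against the cut-off radius -/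
theorem PvviNum.rad (Nu : PvviNum 𝔓 t) (m : ℕ) : 2 * (𝔓.num.m + 1) * pvlmH m ≤ pviwRad 𝔓 m t := by
  have hh := pvlm_H_pos m
  have h4 : pviwRad 𝔓 m t = (2 * (𝔓.ty t).b2 + (𝔓.ty t).k * 𝔓.num.rho1) * pvlmH m := rfl
  rw [h4]
  refine mul_le_mul_of_nonneg_right ?_ hh.le
  have : 0 ≤ ((𝔓.ty t).k : ℝ) * 𝔓.num.rho1 := mul_nonneg (Nat.cast_nonneg _) Nu.r1
  linarith [Nu.ma, Nu.ab]

/-- **THE MASK OF THE THICK LINK CONTAINS THE `μ`-NEIGHBOURHOOD OF ITS ROOMS**, `μ ≤ δ / 80`: place of `g⁺` of the reference plug, room of 166 / 124, own-level box off `B(z, a h)` -/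
theorem pvvi_nr (W : PvieEng.Wf 𝔓 𝔈 m0 Cth r κs) (hm : m0 ≤ m) (hT : pviwTyOk 𝔓 t) (hL : PvegLev 𝔓 m) (hf : 1000 * pvlmDel c m ≤ 𝔓.num.rho * pvlmH m) (Z : PvehGeo 𝔓 m t) (Nu : PvviNum 𝔓 t)
    (E : PvviEng 𝔓 𝔈 m t) (z : ℂ) {MmP : Set ℂ} (hbox : MmP ⊆ pvcaBx 𝔓.num (pvilPin 𝔓 m z t)) (hann : ∀ w ∈ MmP, (𝔓.ty t).a * pvlmH m ≤ ‖w - z‖) {μ : ℝ} (hμ : μ ≤ pvlmDel c m / 80) :
    pvcy2Nr μ (pvkdAt (pvieZu 𝔓 m z t) 1 (pvkdP (pvilRu 𝔈 m)).Zp ∪ pvieSh z (pveheY 𝔓 (pvegIM 𝔓) m t ∪ pvegIK 𝔓 m t) ∪ MmP) ⊆ (pvilLe 𝔓 𝔈 m z t).msk 𝔓.num := by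
  have hh := pvlm_H_pos m
  have hδ := pvlm_Del_pos c m
  have hΔ : pvlmDel c m ≤ pvehDl 𝔓 m := pveh_Del_le_Dl Z.n0
  have hρh : 𝔓.num.rho * pvlmH m ≤ pvlmH m := by nlinarith [Nu.r0]
  have hrad := Nu.rad m
  have hmh : 0 ≤ 𝔓.num.m * pvlmH m := mul_nonneg Nu.m0 hh.le
  have hzu : pvieZu 𝔓 m z t = z + (pvxrGam 𝔓 m).zu t := by unfold pvieZu; rw [E.gam]
  -- far from the centre of the pin
  have far : ∀ x w : ℂ, x - z ∈ (pveheY 𝔓 (pvegIM 𝔓) m t ∪ pvegIK 𝔓 m t) ∪ pviwRo 𝔓 𝔈 m t → ‖w - x‖ ≤ μ → 𝔓.num.m * pvlmH m < ‖w - z‖ := by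
    intro x w hx hw
    have h1 := pvvi_old_far W hm hT hL Z E hx
    have h2 := pvvi_N_near hw z
    have h3 := pvvi_N_le_norm (w - z)
    nlinarith
  rintro w ⟨x, (hx | hx) | hx, hw⟩
  · -- the place of the exit gate vertex of the reference plug
    obtain ⟨u, ⟨u1, u2, u3, u4⟩, rfl⟩ := hx
    unfold pvilRu at u1 u2 u3 u4
    refine pvvi_Le_msk 𝔓 𝔈 m z t (fun _ => ?_) (far _ w (Or.inr ?_) hw)
    · have h1 := abs_le.1 (pvvi_re_near hw)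
      have h2 : (pvthSim (pvieZu 𝔓 m z t) 1 u).re = (pvieZu 𝔓 m z t).re + u.re := by unfold pvthSim; simp
      have hru := E.ru
      rw [sub_re]
      linarith [h1.1]
    · refine ⟨u, W.rp_win m hm ⟨?_, ?_⟩, ?_⟩
      · have := W.rp_h m hm
        rw [sub_zero, abs_le]; constructor <;> linarith
      · have := W.rp_h m hm
        rw [sub_zero, abs_le]; constructor <;> linarith
      · unfold pvthSim pvieZu; ring
  · -- the room of the thick link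
    obtain ⟨v, hv, rfl⟩ := hx
    have e : z + v - z = v := by ring
    refine pvvi_Le_msk 𝔓 𝔈 m z t (fun hw' => ?_) (far _ w (Or.inl (by rw [e]; exact hv)) hw)
    have h1 : pvccN (w - pvieZu 𝔓 m z t) < pvehDl 𝔓 m / 4 := E.sq hw'
    have h2 := pvvi_N_near hw (pvieZu 𝔓 m z t)
    have h3 : v ∈ pvccSq ((pvxrGam 𝔓 m).zu t) (pvehDl 𝔓 m / 2) := by
      show pvccN (v - (pvxrGam 𝔓 m).zu t) < pvehDl 𝔓 m / 2
      have e2 : v - (pvxrGam 𝔓 m).zu t = z + v - pvieZu 𝔓 m z t := by rw [hzu]; ring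
      rw [e2]
      linarith
    have h4 := pvvi_eY_front hL hf hT Z hv h3
    have h5 := abs_le.1 (pvvi_re_near hw)
    rw [hzu]
    simp only [sub_re, add_re] at h4 h5 ⊢
    linarith [h5.1]
  · -- the own-level box off the disc of the gate
    have h0 : x ∈ pvwSq z (pviwRad 𝔓 m t) := hbox hx
    rw [pvvi_mem_wSq] at h0
    refine pvvi_Le_msk 𝔓 𝔈 m z t (fun hw' => ?_) ?_
    · exfalso
      have h1 : w - z ∈ pviwRo 𝔓 𝔈 m t := by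
        obtain ⟨u, hu', rfl⟩ := hw'
        exact ⟨u, hu', by unfold pvieZu; ring⟩
      have hR : pviwRo 𝔓 𝔈 m t ∈ pviwRes 𝔓 𝔈 m 1 t := by unfold pviwRes; simp
      refine Set.disjoint_left.1 (W.res_off m hm 1 t hT _ hR) h1 ?_
      unfold pviwBox
      rw [pvvi_mem_wSq, sub_zero]
      have h2 : ‖x - w‖ ≤ μ := by rw [norm_sub_rev]; exact hw
      have h3 := pvvi_N_near h2 z
      linarith
    · have h1 := hann x hx
      have h2 : ‖x - z‖ ≤ ‖w - z‖ + μ := by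
        have : x - z = (w - z) - (w - x) := by ring
        rw [this]
        exact (norm_sub_le _ _).trans (by linarith)
      have h3 : (𝔓.num.m + 1) * pvlmH m ≤ (𝔓.ty t).a * pvlmH m := mul_le_mul_of_nonneg_right Nu.ma hh.le
      nlinarith

/-! ## 3. the collars in the window of the thick link -/

/-- the closed set `G` of the thick link, placed at the pin, lies in the window -/
theorem pvvi_win (E : PvviEng 𝔓 𝔈 m t) (z : ℂ) (Zi : Set (ℤ × ℤ)) {x : ℂ} (hx : x - z ∈ pverG 𝔓 m t) : x ∈ pvilWne 𝔓 𝔈 m z t Zi := by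
  unfold pvilWne
  rcases E.win hx with (h | h) | h
  · exact Or.inl (Or.inl (Or.inr ⟨x - z, h, by ring⟩))
  · exact Or.inl (Or.inr ⟨x - z, h, by ring⟩)
  · obtain ⟨u, hu, e⟩ := h
    refine Or.inr ⟨u, hu, ?_⟩
    simp only at e
    unfold pvieZu
    show z + (𝔓.Γ m).zu t + u = x
    rw [add_assoc, e]
    ring

/-- **the rectangle and the lanes of the room of 166 have a collar `Δ / 64` in the window** (blocks of the word, one more straight block through the funnel of 124: `pver_EY_collar`, `pver_body3`, `pver_G_win` of 166) -/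
theorem pvvi_lane_core (hρ : 0 < 𝔓.num.rho) (hf : 1000 * pvlmDel c m ≤ 𝔓.num.rho * pvlmH m) (hT : pviwTyOk 𝔓 t) (Z : PvehGeo 𝔓 m t) (E : PvviEng 𝔓 𝔈 m t) (z : ℂ) (Zi : Set (ℤ × ℤ))
    {s : ℝ} (hs : s ≤ pvehDl 𝔓 m / 64) : pvieSh z (pveheY 𝔓 (fun _ _ => ∅) m t) ⊆ pvtrCore s (pvilWne 𝔓 𝔈 m z t Zi) := by
  have hΔ := pveh_Dl_pos Z.n0
  rintro _ ⟨v, hv, rfl⟩ x hx
  rw [mem_closedBall_iff_norm] at hx
  refine pvvi_win E z Zi (pver_body3 hρ hf hT Z ?_)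
  have hv' : v ∈ pverEY (pvehDl 𝔓 m / 16) (pvehDl 𝔓 m) ((pvxrGam 𝔓 m).zu t) (pvxrLe (pvxrB 𝔓 t)) ∅ := by
    rcases hv with (⟨h1, h2, h3, h4⟩ | h) | h
    · exact Or.inl (Or.inl ⟨by linarith, h2, h3, h4⟩)
    · exact Or.inl (Or.inr h)
    · exact Or.inr h
  have hN : pvccN (x - z - v) ≤ s := by
    have e : x - z - v = x - (z + v) := by ring
    rw [e]
    exact (pvvi_N_le_norm _).trans hx
  have h1 := pver_EY_collar (μ := s) hΔ (by linarith) (by linarith) _ _ hv' (Set.notMem_empty v) hN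
  have h2 := pver_body_append (pvehDl 𝔓 m) ((pvxrGam 𝔓 m).zu t) (pvxrLe (pvxrB 𝔓 t) ++ [PvtTurn.S]) [PvtTurn.S, PvtTurn.S] h1
  rw [pver_ly_append]
  simpa using h2

/-- the place of `g⁺` of the reference plug has a collar `u` in the window -/
theorem pvvi_Zp_core (W : PvieEng.Wf 𝔓 𝔈 m0 Cth r κs) (hm : m0 ≤ m) (z : ℂ) (t : τ) (Zi : Set (ℤ × ℤ)) {s : ℝ} (hs : s ≤ (𝔈.rp m).h) :
    pvkdAt (pvieZu 𝔓 m z t) 1 (pvkdP (pvilRu 𝔈 m)).Zp ⊆ pvtrCore s (pvilWne 𝔓 𝔈 m z t Zi) := by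
  have h0 := W.rp_h m hm
  rintro _ ⟨u, ⟨u1, u2, u3, u4⟩, rfl⟩ x hx
  rw [mem_closedBall_iff_norm] at hx
  unfold pvilRu at u1 u2 u3 u4
  have a1 := abs_le.1 (pvvi_re_near hx)
  have a2 := abs_le.1 (pvvi_im_near hx)
  have e1 : (pvthSim (pvieZu 𝔓 m z t) 1 u).re = (pvieZu 𝔓 m z t).re + u.re := by unfold pvthSim; simp
  have e2 : (pvthSim (pvieZu 𝔓 m z t) 1 u).im = (pvieZu 𝔓 m z t).im + u.im := by unfold pvthSim; simp
  rw [e1] at a1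
  rw [e2] at a2
  refine Or.inr ⟨x - pvieZu 𝔓 m z t, W.rp_win m hm ⟨?_, ?_⟩, by ring⟩
  · rw [sub_zero, sub_re, abs_le]; constructor <;> linarith [a1.1, a1.2]
  · rw [sub_zero, sub_im, abs_le]; constructor <;> linarith [a2.1, a2.2]

/-! ## 4. the record of 48 for the thick link -/

/-- **`R1 = C1`**: the ball of the entrance mouth and of its funnel (NO MESH) -/
noncomputable def pvviE1 (𝔓 : PvxPar τ c) (m : ℕ) (z : ℂ) (t : τ) : Set ℂ := closedBall (z + pvegYm 𝔓 m t) (pvegR 𝔓 m / 2)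

/-- **`R2`**: the place of `g⁺` of the reference plug, the rectangle and the lanes of the room, the reduced frozen positions of `Σ_in` -/
noncomputable def pvviE2 (𝔓 : PvxPar τ c) (𝔈 : PvieEng τ) (m : ℕ) (z : ℂ) (t : τ) (η : Conf PvPt) : Set ℂ :=
  pvkdAt (pvieZu 𝔓 m z t) 1 (pvkdP (pvilRu 𝔈 m)).Zp ∪ pvieSh z (pveheY 𝔓 (fun _ _ => ∅) m t) ∪ pvcy3Fi 𝔓.num (𝔓.col t) (pvilPin 𝔓 m z t) η

theorem pvvi_eqns_cite : True := by
  have := @pvviE1.eq_1; have := @pvviE2.eq_1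
  trivial

/-- the room of 166 / 124 = rectangle and lanes, mouth, funnel -/
theorem pvvi_old_cases {v : ℂ} (hv : v ∈ pveheY 𝔓 (pvegIM 𝔓) m t ∪ pvegIK 𝔓 m t) : v ∈ pveheY 𝔓 (fun _ _ => ∅) m t ∨ v ∈ pvegIM 𝔓 m t ∪ pvegIK 𝔓 m t := by
  rcases hv with (h | h) | h
  · exact Or.inl (Or.inl h)
  · exact Or.inr (Or.inl h)
  · exact Or.inr (Or.inr h)

theorem pvvi_lane_old : pveheY 𝔓 (fun _ _ => ∅) m t ⊆ pveheY 𝔓 (pvegIM 𝔓) m t ∪ pvegIK 𝔓 m t := by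
  rintro v (h | h)
  · exact Or.inl (Or.inl h)
  · exact absurd h (Set.notMem_empty v)

/-- the mouth and the funnel lie in the ball -/
theorem pvvi_MK_E1 (hL : PvegLev 𝔓 m) (hT : pviwTyOk 𝔓 t) (z : ℂ) {v : ℂ} (hv : v ∈ pvegIM 𝔓 m t ∪ pvegIK 𝔓 m t) : z + v ∈ pvviE1 𝔓 m z t := by
  have h : v ∈ closedBall (pvegYm 𝔓 m t) (pvegR 𝔓 m / 2) := hv.elim (fun h => pveg_M_ball (pveg_door_i hL hT) h) (fun h => pveg_K_ball (pveg_door_i hL hT) h)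
  unfold pvviE1
  rw [mem_closedBall_iff_norm] at h ⊢
  rwa [add_sub_add_left_eq_sub]

/-- **the ball of the mouth lies in the mask of the thick link** -/
theorem pvvi_E1_msk (hT : pviwTyOk 𝔓 t) (hL : PvegLev 𝔓 m) (hf : 1000 * pvlmDel c m ≤ 𝔓.num.rho * pvlmH m) (Z : PvehGeo 𝔓 m t) (Nu : PvviNum 𝔓 t) (E : PvviEng 𝔓 𝔈 m t) (z : ℂ) :
    pvviE1 𝔓 m z t ⊆ (pvilLe 𝔓 𝔈 m z t).msk 𝔓.num := by
  have hh := pvlm_H_pos m
  have hΔ := pveh_Dl_pos Z.n0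
  have hρh : 𝔓.num.rho * pvlmH m ≤ pvlmH m := by nlinarith [Nu.r0]
  have hrad := Nu.rad m
  have hmh : 0 ≤ 𝔓.num.m * pvlmH m := mul_nonneg Nu.m0 hh.le
  have hzu : pvieZu 𝔓 m z t = z + (pvxrGam 𝔓 m).zu t := by unfold pvieZu; rw [E.gam]
  intro w hw
  have hw' : w - z ∈ closedBall (pvegYm 𝔓 m t) (pvegR 𝔓 m / 2) := by
    unfold pvviE1 at hw
    rw [mem_closedBall_iff_norm] at hw ⊢
    rwa [sub_sub]
  refine pvvi_Le_msk 𝔓 𝔈 m z t (fun h => ?_) ?_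
  · exfalso
    have J := pvej_geo_at (m := m) hL.rho0 hf hT
    have hb : w - z ∈ pvehSq ((pvxrGam 𝔓 m).zu t) (pvehDl 𝔓 m / 2) := by
      show pvccN (w - z - (pvxrGam 𝔓 m).zu t) ≤ pvehDl 𝔓 m / 2
      have h1 : pvccN (w - pvieZu 𝔓 m z t) < pvehDl 𝔓 m / 4 := E.sq h
      rw [hzu, ← sub_sub] at h1
      linarith
    rw [Z.zu'] at hb
    exact pvej_plug_off2 J hb hw'
  · have h1 := pvvi_ball_far hT hL.rho0 hw'
    have h3 := pvvi_N_le_norm (w - z)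
    nlinarith

variable {η : Conf PvPt}

/-- **THE RECORD `Pvcy3Lk` OF THE THICK LINK**: mesh `μ` (`0 < μ`, `3 μ ≤ δ / 80`) of the window `pvilWne` at the hull of `Σ_in`;   NO collar of the room is read -/
theorem pvvi_Ge (W : PvieEng.Wf 𝔓 𝔈 m0 Cth r κs) (hm : m0 ≤ m) (hT : pviwTyOk 𝔓 t) (hL : PvegLev 𝔓 m) (hf : 1000 * pvlmDel c m ≤ 𝔓.num.rho * pvlmH m) (Z : PvehGeo 𝔓 m t) (Nu : PvviNum 𝔓 t)
    (E : PvviEng 𝔓 𝔈 m t) (z : ℂ) {Zi : Set (ℤ × ℤ)} (hZ : pvilZi 𝔓 m z t η = Zi) {μ : ℝ} (h0 : 0 < μ) (hμ : 3 * μ ≤ pvlmDel c m / 80) (me : PvtrMesh μ (pvilWne 𝔓 𝔈 m z t Zi) (cfSites η)) :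
    Pvcy3Lk η (pvviE1 𝔓 m z t) (pvviE2 𝔓 𝔈 m z t η) (pvviE1 𝔓 m z t) ((pvilLe 𝔓 𝔈 m z t).msk 𝔓.num) where
  cvx := convex_closedBall _ _
  r1 := Subset.rfl
  c1 := pvvi_E1_msk hT hL hf Z Nu E z
  fine v hv := by
    have hδ := pvlm_Del_pos c m
    have hΔ : pvlmDel c m ≤ pvehDl 𝔓 m := pveh_Del_le_Dl Z.n0
    have hbox : pvcy3Fi 𝔓.num (𝔓.col t) (pvilPin 𝔓 m z t) η ⊆ pvcaBx 𝔓.num (pvilPin 𝔓 m z t) := fun w hw => pvcy3_fi_bx (Lo := pvilLo 𝔓 𝔈 m z t) rfl hw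
    have hann : ∀ w ∈ pvcy3Fi 𝔓.num (𝔓.col t) (pvilPin 𝔓 m z t) η, (𝔓.ty t).a * pvlmH m ≤ ‖w - z‖ := fun w hw => hw.2.2
    have hnr := pvvi_nr W hm hT hL hf Z Nu E z hbox hann (μ := 2 * μ) (by linarith)
    have hv' : v ∈ pvkdAt (pvieZu 𝔓 m z t) 1 (pvkdP (pvilRu 𝔈 m)).Zp ∪ pvieSh z (pveheY 𝔓 (pvegIM 𝔓) m t ∪ pvegIK 𝔓 m t) ∪ pvcy3Fi 𝔓.num (𝔓.col t) (pvilPin 𝔓 m z t) η := by
      rcases hv with (h | h) | h
      · exact Or.inl (Or.inl h)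
      · exact Or.inl (Or.inr (Set.image_mono pvvi_lane_old h))
      · exact Or.inr h
    refine ⟨μ, pvilWne 𝔓 𝔈 m z t Zi, h0, me, ?_, closedBall v (2 * μ), convex_closedBall _ _, fun w hw => hnr ⟨v, hv', mem_closedBall_iff_norm.1 hw⟩, Set.inter_subset_right⟩
    rcases hv with (h | h) | h
    · exact pvvi_Zp_core W hm z t Zi (by linarith [E.ru]) h
    · exact pvvi_lane_core hL.rho0 hf hT Z E z Zi (by linarith) h
    · have h1 := pvcy3_fi_core (𝔓 := 𝔓) (m := m) (z := z) (t := t) (η := η) (μ := μ) hδ (by linarith) h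
      rw [hZ] at h1
      exact pvtr_core_mono (fun x hx => Or.inl (Or.inl (Or.inl hx))) h1

/-- `eF` of `pvcy3_rest` -/
theorem pvvi_eF (𝔓 : PvxPar τ c) (𝔈 : PvieEng τ) (m : ℕ) (z : ℂ) (t : τ) (η : Conf PvPt) :
    pvcy3Fi 𝔓.num (𝔓.col t) (pvilLo 𝔓 𝔈 m z t).p η ⊆ pvviE1 𝔓 m z t ∪ pvviE2 𝔓 𝔈 m z t η := fun _ h => Or.inr (Or.inr h)

/-- `eY` of `pvcy3_rest` -/
theorem pvvi_eY (hL : PvegLev 𝔓 m) (hT : pviwTyOk 𝔓 t) (E : PvviEng 𝔓 𝔈 m t) (z : ℂ) (η : Conf PvPt) : (pvilLe 𝔓 𝔈 m z t).Yin ⊆ pvviE1 𝔓 m z t ∪ pvviE2 𝔓 𝔈 m z t η := by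
  rintro _ ⟨v, hv, rfl⟩
  rcases pvvi_old_cases (E.eY hv) with h | h
  · exact Or.inr (Or.inl (Or.inr ⟨v, h, rfl⟩))
  · exact Or.inl (pvvi_MK_E1 hL hT z h)

/-- `eZ` of `pvcy3_rest` -/
theorem pvvi_eZ (𝔓 : PvxPar τ c) (𝔈 : PvieEng τ) (m : ℕ) (z : ℂ) (t : τ) (η : Conf PvPt) :
    pvkdAt (pvieZu 𝔓 m z t) 1 (pvkdP (pvilRu 𝔈 m)).Zp ⊆ pvviE1 𝔓 m z t ∪ pvviE2 𝔓 𝔈 m z t η := fun _ h => Or.inr (Or.inl (Or.inl h))

/-- **`te` OF `PvdwArcs.restT` OF 42**: the tags of the arc of the thick link of a normal form lie in its mask -/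
theorem pvvi_te (W : PvieEng.Wf 𝔓 𝔈 m0 Cth r κs) (hm : m0 ≤ m) (hT : pviwTyOk 𝔓 t) (hL : PvegLev 𝔓 m) (hf : 1000 * pvlmDel c m ≤ 𝔓.num.rho * pvlmH m) (Z : PvehGeo 𝔓 m t) (Nu : PvviNum 𝔓 t)
    (E : PvviEng 𝔓 𝔈 m t) {z : ℂ} {Zi : Set (ℤ × ℤ)} (hZ : pvilZi 𝔓 m z t η = Zi) {μ : ℝ} (h0 : 0 < μ) (hμ : 3 * μ ≤ pvlmDel c m / 80) (me : PvtrMesh μ (pvilWne 𝔓 𝔈 m z t Zi) (cfSites η))
    {Lo Lr : PvilLk} {𝔭 : PvkdPlug} {n : ℕ} {Zd Dv : ℕ → ℂ} {Co : ℕ → Set ℂ} {P P' : PvwSt (pvieT η)} {g : ℕ → (pvkiT η).Gate (pvukS (𝔓.col t) η)} {gu : (pvkiT η).Gate (pvukS (𝔓.col t) η)}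
    {y0 yr ye : (pvieT η).Pth} (A : PvdwArcs 𝔓.num (𝔓.col t) η Lo Lr (pvilLe 𝔓 𝔈 m z t) 𝔭 (pvkdP (pvilRu 𝔈 m)) n Zd Dv Co (pvieZu 𝔓 m z t) 1 P P' g gu y0 yr ye) {k : ℕ} (hk : k < ye.n) :
    (pvieT η).bary (pviePos η) ((pvieT η).opp (ye.e k)) ∈ (pvilLe 𝔓 𝔈 m z t).msk 𝔓.num :=
  pvcy3_ye A (by show ‖(1 : ℂ)‖ = 1; exact norm_one) (pvvi_Ge W hm hT hL hf Z Nu E z hZ h0 hμ me) (pvvi_eF 𝔓 𝔈 m z t η) (pvvi_eY hL hT E z η) (pvvi_eZ 𝔓 𝔈 m z t η) hk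

end ye

/-! ## 5. at the engine of record -/

section record

variable {N : PvxNums} (hN : N.Ok) {c : ℝ}

/-- **`G` lies in the window of the thick link AFTER U4** (`eK := pvnuEK`, `rO := pvnuRO`): the body lies east of the centre of the plug inside its closed block (`pveh_body_east` of 124) -/
theorem pvvi_G_win4 {τ : Type} {𝔓 : PvxPar τ c} {m : ℕ} {t : τ} (hΓ : 𝔓.Γ m = pvxrGam 𝔓 m) (hn : 0 ≤ pvxrNw 𝔓 m) :
    pverG 𝔓 m t ⊆ pvegIM 𝔓 m t ∪ pvnuEK 𝔓 m t ∪ pvieSh ((𝔓.Γ m).zu t) (pvnuRO 𝔓 m) := by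
  have hΔ := pveh_Dl_pos hn
  intro w hw
  rcases pver_G_win hΓ hw with (h | h) | h
  · exact Or.inl (Or.inl h)
  · exact Or.inl (Or.inr (Or.inl h))
  · rw [hΓ]
    by_cases h3 : w ∈ pvieSh ((pvxrGam 𝔓 m).zu t) (pvnuRO 𝔓 m)
    · exact Or.inr h3
    by_cases hM : w ∈ pvegIM 𝔓 m t
    · exact Or.inl (Or.inl hM)
    by_cases hK : w ∈ pvegIK 𝔓 m t
    · exact Or.inl (Or.inr (Or.inl (Or.inr hK)))
    have hB : w ∈ pvehBody (pvehDl 𝔓 m) ((pvxrGam 𝔓 m).zu t) (pvxrLe (pvxrB 𝔓 t)) := by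
      rcases hw with (hw | hw) | hw
      · exact hw
      · exfalso
        apply hK
        unfold pvegIK
        rw [hΓ, pvxr_gam_din, neg_neg]
        exact ⟨hw, hM⟩
      · exact absurd hw hM
    have h2 : w ∈ pvccSq ((pvxrGam 𝔓 m).zu t) (pvehDl 𝔓 m / 4) := by rwa [pveh_sh_rO] at h
    have h4 : w ∈ pvehSq ((pvxrGam 𝔓 m).zu t) (pvehDl 𝔓 m / 2) := by
      have h5 : pvccN (w - (pvxrGam 𝔓 m).zu t) < pvehDl 𝔓 m / 4 := h2
      show pvccN (w - (pvxrGam 𝔓 m).zu t) ≤ pvehDl 𝔓 m / 2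
      linarith
    have h6 := pveh_body_east hΔ _ (pveh_W_le _) hB h4
    refine Or.inl (Or.inr (Or.inr ?_))
    rw [hΓ]
    refine pveh_mem_sh.2 ⟨⟨pveh_mem_sh.1 h, fun h7 => h3 (pveh_mem_sh.2 h7)⟩, ?_⟩
    show 0 ≤ (w - (pvxrGam 𝔓 m).zu t).re
    rw [Complex.sub_re]
    linarith

/-- what is read of the engine of record      (after a change of the partition of `G`, of the region or of the unit of the reference plug, after a shrinking of the room `eY`: ONLY these lines change) -/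
theorem pvvi_eng_rec (c0 : 0 < c) (nb : PvnaNb N) (m : ℕ) (t : pvxTau N) : PvviEng (pvxParOf N hN c) (pvnaEngRec N hN c nb) m t where
  gam := rfl
  win := by
    first
      | exact pver_G_win rfl
      | exact pvvi_G_win4 rfl (pvea_Nw_nonneg (pvea_par hN c0) m)
  rO := by
    first
      | exact Subset.rfl
      | exact pvnu4_RO_sub (𝔓 := pvxParOf N hN c) hN.rho0 m
  ru := by
    have h := pveh_Dl_pos (pvea_Nw_nonneg (pvea_par hN c0) m)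
    have e := pvnr_rp_h (N := N) (hN := hN) (c := c) (nb := nb) m
    linarith
  eY := by
    first
      | exact Subset.rfl
      | exact pvvz_eY_old ((pvea_par hN c0).mu3 m) t

/-- the numerals of record -/
theorem pvvi_num_rec (t : pvxTau N) : PvviNum (pvxParOf N hN c) t where
  m0 := by show 0 ≤ N.m; linarith [hN.m_gt]
  ma := by show N.m + 1 ≤ N.a1; linarith [hN.m_gt, hN.m_lt, hN.B_lt]
  ab := by show N.a1 ≤ N.b2; linarith [hN.ab1, hN.gap, hN.ab2]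
  r1 := by show 0 ≤ N.rho1; linarith [hN.rho0, hN.rho1]
  r0 := by show N.rho ≤ 1; linarith [hN.rho0, hN.rho1, hN.rho2, hN.rho3]

/-- the mesh of the windows of record -/
theorem pvvi_mu_rec (m : ℕ) : 0 < pvilMu (pvxParOf N hN c) m ∧ 3 * pvilMu (pvxParOf N hN c) m ≤ pvlmDel c m / 80 := by
  have hδ := pvlm_Del_pos c m
  have hh := pvlm_H_pos m
  have h3 : 0 < (pvxParOf N hN c).num.rho3 * pvlmH m := mul_pos hN.msk0 hh
  unfold pvilMu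
  constructor
  · exact div_pos (lt_min hδ h3) (by norm_num)
  · have := min_le_left (pvlmDel c m) ((pvxParOf N hN c).num.rho3 * pvlmH m)
    linarith

variable {𝔤 : PvkdGeo} {m : ℕ} {ε : ℝ} {z : ℂ} {t : pvxTau N} {ω η : Conf PvPt}

/-- **THE RECORD OF THE THICK LINK AT THE ENGINE OF RECORD, AT THE EVENTS OF RECORD** -/
theorem pvvi_Ge_rec (c0 : 0 < c) (nb : PvnaNb N) (hm : N.m0 ≤ m) (E : Pvc1kEv (pvxParOf N hN c) (pvnaEngRec N hN c nb) 𝔤 m ε z t ω η) :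
    Pvcy3Lk η (pvviE1 (pvxParOf N hN c) m z t) (pvviE2 (pvxParOf N hN c) (pvnaEngRec N hN c nb) m z t η) (pvviE1 (pvxParOf N hN c) m z t) ((pvilLe (pvxParOf N hN c) (pvnaEngRec N hN c nb) m z t).msk (pvxParOf N hN c).num) := by
  obtain ⟨Cth, r, κs, W⟩ := (pvnr_wf hN c0 nb).wf
  have H := pvea_par hN c0
  have hf : 1000 * pvlmDel c m ≤ (pvxParOf N hN c).num.rho * pvlmH m := by
    have := H.fine m hm
    have := pvlm_Del_pos c m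
    linarith
  exact pvvi_Ge W hm (pvea_tyOk hN t) (H.lev hm) hf (H.geo m hm t (pvea_tyOk hN t)) (pvvi_num_rec hN t) (pvvi_eng_rec hN c0 nb m t) z E.me.1.2 (pvvi_mu_rec hN m).1 (pvvi_mu_rec hN m).2 E.me.2

/-- the three inclusions of `pvcy3_rest` at the engine of record -/
theorem pvvi_eY_rec (c0 : 0 < c) (nb : PvnaNb N) (hm : N.m0 ≤ m) (z : ℂ) (t : pvxTau N) (η : Conf PvPt) :
    (pvilLe (pvxParOf N hN c) (pvnaEngRec N hN c nb) m z t).Yin ⊆ pvviE1 (pvxParOf N hN c) m z t ∪ pvviE2 (pvxParOf N hN c) (pvnaEngRec N hN c nb) m z t η :=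
  pvvi_eY ((pvea_par hN c0).lev hm) (pvea_tyOk hN t) (pvvi_eng_rec hN c0 nb m t) z η

/-- **`te` OF `PvdwArcs.restT` AT THE ENGINE OF RECORD, AT THE EVENTS OF RECORD**, any first link, any link into the reference plug, any doors -/
theorem pvvi_te_rec (c0 : 0 < c) (nb : PvnaNb N) (hm : N.m0 ≤ m) (E : Pvc1kEv (pvxParOf N hN c) (pvnaEngRec N hN c nb) 𝔤 m ε z t ω η)
    {Lo Lr : PvilLk} {𝔭 : PvkdPlug} {n : ℕ} {Zd Dv : ℕ → ℂ} {Co : ℕ → Set ℂ} {P P' : PvwSt (pvieT η)} {g : ℕ → (pvkiT η).Gate (pvukS ((pvxParOf N hN c).col t) η)} {gu : (pvkiT η).Gate (pvukS ((pvxParOf N hN c).col t) η)}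
    {y0 yr ye : (pvieT η).Pth}
    (A : PvdwArcs (pvxParOf N hN c).num ((pvxParOf N hN c).col t) η Lo Lr (pvilLe (pvxParOf N hN c) (pvnaEngRec N hN c nb) m z t) 𝔭 (pvkdP (pvilRu (pvnaEngRec N hN c nb) m)) n Zd Dv Co (pvieZu (pvxParOf N hN c) m z t) 1 P P' g gu y0 yr ye)
    {k : ℕ} (hk : k < ye.n) :
    (pvieT η).bary (pviePos η) ((pvieT η).opp (ye.e k)) ∈ (pvilLe (pvxParOf N hN c) (pvnaEngRec N hN c nb) m z t).msk (pvxParOf N hN c).num :=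
  pvcy3_ye A (by show ‖(1 : ℂ)‖ = 1; exact norm_one) (pvvi_Ge_rec hN c0 nb hm E) (pvvi_eF _ _ m z t η) (pvvi_eY_rec hN c0 nb hm z t η) (pvvi_eZ _ _ m z t η) hk

end record

end Claimed.Agent.R289
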