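-- KEEP
import Claimed.Agent.R289.Exit.Cyc1O
import Claimed.Agent.R289.Exit.Cyc1Y
import Claimed.Agent.R289.Tr.CycC3G

/-!
# Row 289 (S0537), THE WALL, ROAD E, Exit/Cyc1GT : (T) AT THE ENGINE: THE RECORDS `Pvcy3Lk` OF THE FIRST LINK AND OF THE LINK INTO THE REFERENCE PLUG, THE LEAF (O) FROM THE RECORD OF THE THICK LINK      (helper48; prefix `pvcy3e_`, `pvcy3e`)

Generic: `PveaPar` + `PvioEng` + `PvioNum` of 179 (`Exit/Cyc1O`): rooms INSIDE the rooms of record, so robust to a switch of the rooms.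

* sec. 1  `pvcy3eKo` = {coordinate of the exit door `≤ -δ/160`} ∩ inner mouth ball: convex, in the mask of the first link, contains the room of the first link and the region `Zm` of the door `0`;   **`pvcy3e_lo`** : the record of the first link at `Pvc1kEv.mo`
* sec. 2  `pvcy3eKr` = the strip `-Δ/2 + δ/160 ≤ re (w - zu) ≤ -δ/160`;   **`pvcy3e_lr`** : the record of the link into the reference plug (NO MESH)
* sec. 3  **`pvcy3e_own`** : `Pvcy2Own` at the sequences of the normal form (= the conclusion of the leaf `exit_pvcy1d_own` of 219) from the record of the thick link ALONE;   `pvcy3e_own_rec` at the engine of record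
-/

set_option autoImplicit false

namespace Claimed.Agent.R289

open Set Metric
open scoped ComplexConjugate

/-! ## 1. the first link -/

theorem pvcy3e_lin (d : ℂ) : IsLinearMap ℝ fun w : ℂ => (w * conj d).re :=
  ⟨fun x y => by simp only [add_mul, Complex.add_re], fun a x => by simp only [Complex.real_smul, mul_assoc, Complex.re_ofReal_mul, smul_eq_mul]⟩

theorem pvcy3e_cv_le (z d : ℂ) (a : ℝ) : Convex ℝ {w : ℂ | ((w - z) * conj d).re ≤ a} := by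
  have h := convex_halfSpace_le (pvcy3e_lin d) (a + (z * conj d).re)
  have e : {w : ℂ | ((w - z) * conj d).re ≤ a} = {w : ℂ | (w * conj d).re ≤ a + (z * conj d).re} := by
    ext w
    simp only [mem_ofPred_eq, sub_mul, Complex.sub_re, sub_le_iff_le_add]
  rw [e]
  exact h

theorem pvcy3e_cv_hpc (z d : ℂ) : Convex ℝ (pvilHp z d)ᶜ := by
  have h := convex_halfSpace_lt (pvcy3e_lin d) ((z * conj d).re)
  have e : (pvilHp z d)ᶜ = {w : ℂ | (w * conj d).re < (z * conj d).re} := by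
    ext w
    simp only [pvilHp, mem_compl_iff, mem_ofPred_eq, sub_mul, Complex.sub_re, sub_nonneg, not_le]
  rw [e]
  exact h

section first

variable {τ : Type} {c : ℝ} (𝔓 : PvxPar τ c)

/-- **the convex part of the mask of the first link which contains its NEW part**: `δ / 160` behind the exit door, in the inner mouth ball of the exit tip -/
noncomputable def pvcy3eKo (m : ℕ) (z : ℂ) (t : τ) : Set ℂ :=
  {w | ((w - pvieZo 𝔓 m z t) * conj ((𝔓.Γ m).dout t)).re ≤ -(pvlmDel c m / 160)} ∩ closedBall (z + pvegYp 𝔓 m t) (pvegR 𝔓 m / 2)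

/-- **the convex part of the mask of the link into the reference plug**: the strip between the last door of the thin chain and the line of the reference plug -/
noncomputable def pvcy3eKr (m : ℕ) (z : ℂ) (t : τ) : Set ℂ :=
  {w | -(pvehDl 𝔓 m / 2) + pvlmDel c m / 160 ≤ (w - pvieZu 𝔓 m z t).re ∧ (w - pvieZu 𝔓 m z t).re ≤ -(pvlmDel c m / 160)}

theorem pvcy3e_eqns_cite : True := by
  have := @pvcy3eKo.eq_1; have := @pvcy3eKr.eq_1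
  trivial

variable {𝔓} {𝔈 : PvieEng τ} {m0 : ℕ}

theorem pvcy3e_Ko_cv (m : ℕ) (z : ℂ) (t : τ) : Convex ℝ (pvcy3eKo 𝔓 m z t) := (pvcy3e_cv_le _ _ _).inter (convex_closedBall _ _)

/-- `Ko` lies in the mask of the first link -/
theorem pvcy3e_Ko_msk (H : PveaPar 𝔓 m0) {m : ℕ} (hm : m0 ≤ m) {t : τ} (hT : pviwTyOk 𝔓 t) (hN : PvioNum 𝔓 m t) (z : ℂ) : pvcy3eKo 𝔓 m z t ⊆ (pvilLo 𝔓 𝔈 m z t).msk 𝔓.num := by
  rintro w ⟨h1, h2⟩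
  have hδ := pvlm_Del_pos c m
  have hR := pveg_R_pos (H.lev hm)
  rw [pvio_msk_o]
  refine ⟨fun hc => ?_, fun hc => ?_⟩
  · have : 0 ≤ ((w - pvieZo 𝔓 m z t) * conj ((𝔓.Γ m).dout t)).re := hc
    have h1' : ((w - pvieZo 𝔓 m z t) * conj ((𝔓.Γ m).dout t)).re ≤ -(pvlmDel c m / 160) := h1
    linarith
  · rw [mem_closedBall, dist_eq_norm] at hc h2
    have h4 := pvio_Yp_norm H hm hT
    have h6 : ‖pvegYp 𝔓 m t‖ ≤ ‖w - z‖ + ‖w - (z + pvegYp 𝔓 m t)‖ := by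
      have := norm_sub_le (w - z) (w - (z + pvegYp 𝔓 m t))
      have e : w - z - (w - (z + pvegYp 𝔓 m t)) = pvegYp 𝔓 m t := by ring
      rwa [e] at this
    linarith [hN.mr]

/-- the room of the first link lies in `Ko` -/
theorem pvcy3e_Ko_Y (H : PveaPar 𝔓 m0) {m : ℕ} (hm : m0 ≤ m) {t : τ} (hT : pviwTyOk 𝔓 t) (hoY : 𝔈.oY m t ⊆ pvegOYa 𝔓 m t) (z : ℂ) : (pvilLo 𝔓 𝔈 m z t).Yin ⊆ pvcy3eKo 𝔓 m z t := by
  intro x hx
  have h1 : x - z ∈ pvegOYa 𝔓 m t := hoY (pveh_mem_sh.1 hx)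
  obtain ⟨h2, h3⟩ := pvio_oY_back H hm hT h1
  refine ⟨h2, ?_⟩
  rw [mem_closedBall, dist_eq_norm]
  have e : x - (z + pvegYp 𝔓 m t) = x - z - pvegYp 𝔓 m t := by ring
  rw [e]
  exact h3

/-- the region `Zm` of the door `0` lies in `Ko` -/
theorem pvcy3e_Ko_Z (H : PveaPar 𝔓 m0) {m : ℕ} (hm : m0 ≤ m) {t : τ} (hT : pviwTyOk 𝔓 t) (z : ℂ) :
    pvkdAt (pvc1kZ 𝔓 m z t 0) (pvc1kD 𝔓 m t 0) (pvkdP (pvilRd 𝔓 m)).Zm ⊆ pvcy3eKo 𝔓 m z t := by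
  intro x hx
  have hL := H.lev hm
  have hδ := pvlm_Del_pos c m
  have hu : ‖(𝔓.Γ m).dout t‖ = 1 := pvth_norm_of_pow (pveg_dout4 hL t)
  rw [pvio_Z0, pvio_D0] at hx
  obtain ⟨b1, b2, -, -⟩ := pvio_at_coord hu hx
  have hrd : pvilRd 𝔓 m = pvlmDel c m / 40 := rfl
  rw [hrd] at b1 b2
  have h1 := pvio_tb_near hu (pvkx_at_mono _ _ (pvio_Zm_tb _ (by rw [hrd]; linarith)) hx)
  rw [hrd] at h1
  refine ⟨?_, ?_⟩
  · show ((x - pvieZo 𝔓 m z t) * conj ((𝔓.Γ m).dout t)).re ≤ -(pvlmDel c m / 160)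
    linarith
  · have e : x - pvieZo 𝔓 m z t = x - z - (𝔓.Γ m).pout t := by unfold pvieZo; ring
    rw [e] at h1
    have h2 : x - z ∈ pvccSq ((𝔓.Γ m).pout t) (pvlmDel c m / 4) :=
      max_lt (lt_of_le_of_lt (Complex.abs_re_le_norm _) (by linarith)) (lt_of_le_of_lt (Complex.abs_im_le_norm _) (by linarith))
    have h3 := pveg_D_ball (pveg_door_o hL hT) h2
    rw [mem_closedBall, dist_eq_norm] at h3 ⊢
    have e2 : x - (z + pvegYp 𝔓 m t) = x - z - pvegYp 𝔓 m t := by ring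
    rw [e2]
    exact h3

/-- **THE RECORD OF THE FIRST LINK** at the event of record of the first link (hull `Z`, mesh of the window) -/
theorem pvcy3e_lo (H : PveaPar 𝔓 m0) {m : ℕ} (hm : m0 ≤ m) {t : τ} (hT : pviwTyOk 𝔓 t) (hN : PvioNum 𝔓 m t) (hμ0 : 0 < pvilMu 𝔓 m) {ε : ℝ} {z : ℂ} {Z : Set (ℤ × ℤ)} {η : Conf PvPt}
    (mo : η ∈ pvilMo 𝔓 𝔈 m ε z t Z) :
    Pvcy3Lk η (pvcy3eKo 𝔓 m z t) (pvcy3Fo 𝔓.num (𝔓.col t) (pvilPin 𝔓 m z t) η) (pvcy3eKo 𝔓 m z t) ((pvilLo 𝔓 𝔈 m z t).msk 𝔓.num) where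
  cvx := pvcy3e_Ko_cv m z t
  r1 := Subset.rfl
  c1 := pvcy3e_Ko_msk H hm hT hN z
  fine v hv := by
    have hδ := pvlm_Del_pos c m
    have hμ := pvio_mu 𝔓 m
    have hZ : pvilZo 𝔓 m z t η = Z := mo.1.2
    refine ⟨pvilMu 𝔓 m, pvilWno 𝔓 𝔈 m ε z t Z, hμ0, mo.2, ?_, closedBall v (2 * pvilMu 𝔓 m) ∩ (pvilHp (pvieZo 𝔓 m z t) ((𝔓.Γ m).dout t))ᶜ, (convex_closedBall v _).inter (pvcy3e_cv_hpc _ _), ?_, ?_⟩
    · have := pvcy3_fo_core (𝔓 := 𝔓) (m := m) (z := z) (t := t) (η := η) (μ := pvilMu 𝔓 m) hδ (by linarith) hv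
      rw [hZ] at this
      exact pvtr_core_mono (fun w hw => Or.inl (Or.inl (Or.inl hw))) this
    · rintro w ⟨h1, h2⟩
      rw [pvio_msk_o]
      refine ⟨h2, fun h => Set.disjoint_left.1 (pvcy3_ball_off (z := z) (v := v) (r := 𝔓.num.m * pvlmH m) (s := 2 * pvilMu 𝔓 m) ?_) h1 h⟩
      have h3 : (𝔓.ty t).a * pvlmH m ≤ ‖v - z‖ := hv.2.2
      linarith [hN.ma]
    · rintro w ⟨h1 | h1, h2⟩
      · refine ⟨h2, fun hc => ?_⟩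
        have a1 : 0 ≤ ((w - pvieZo 𝔓 m z t) * conj ((𝔓.Γ m).dout t)).re := hc
        have a2 : ((w - pvieZo 𝔓 m z t) * conj ((𝔓.Γ m).dout t)).re ≤ -(pvlmDel c m / 160) := h1.1
        linarith
      · refine ⟨h2, fun hc => ?_⟩
        have a1 : 0 ≤ ((w - pvieZo 𝔓 m z t) * conj ((𝔓.Γ m).dout t)).re := hc
        have a3 : w ∈ pvcaBx 𝔓.num (pvilPin 𝔓 m z t) := pvcy3_fo_bx (Lo := pvilLo 𝔓 𝔈 m z t) rfl h1
        have a4 : w - z ∈ pvwSq 0 (pviwRad 𝔓 m t) := pvio_sq_shift.1 a3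
        have a5 := pvio_box_back H hm hT (pvxo_sq_mono 0 (by linarith) a4)
        linarith

end first

/-! ## 2. the link into the reference plug -/

section ref

variable {τ : Type} {c : ℝ} {𝔓 : PvxPar τ c} {𝔈 : PvieEng τ} {m0 : ℕ}

theorem pvcy3e_Kr_cv (m : ℕ) (z : ℂ) (t : τ) : Convex ℝ (pvcy3eKr 𝔓 m z t) := by
  intro x hx y hy a b ha hb hab
  have e : (a • x + b • y - pvieZu 𝔓 m z t).re = a * (x - pvieZu 𝔓 m z t).re + b * (y - pvieZu 𝔓 m z t).re := by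
    have h1 : (pvieZu 𝔓 m z t).re = (a + b) * (pvieZu 𝔓 m z t).re := by rw [hab, one_mul]
    simp only [Complex.sub_re, Complex.add_re, Complex.real_smul, Complex.re_ofReal_mul]
    linarith
  obtain ⟨x1, x2⟩ := hx
  obtain ⟨y1, y2⟩ := hy
  have hb' : b = 1 - a := by linarith
  refine ⟨?_, ?_⟩
  · rw [e, hb']
    nlinarith
  · rw [e, hb']
    nlinarith

/-- `Kr` lies in the mask of the link into the reference plug -/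
theorem pvcy3e_Kr_msk (H : PveaPar 𝔓 m0) (m : ℕ) (z : ℂ) (t : τ) : pvcy3eKr 𝔓 m z t ⊆ (pviqLr 𝔓 𝔈 m z t).msk 𝔓.num := by
  rintro w ⟨h1, h2⟩
  obtain ⟨hδ, hΔ⟩ := pvio_Dl H m
  rw [pvio_msk_r]
  refine ⟨(pvio_hpN H m _ w).2 (by linarith), fun hc => ?_⟩
  have := (pvio_hp_one _ _).1 hc.2
  linarith

/-- the region `Zp` of the last door of the thin chain lies in `Kr` -/
theorem pvcy3e_Kr_P (H : PveaPar 𝔓 m0) (m : ℕ) (z : ℂ) (t : τ) :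
    pvkdAt (pvc1kZ 𝔓 m z t ((𝔓.Γ m).l1 t).length) (pvc1kD 𝔓 m t ((𝔓.Γ m).l1 t).length) (pvkdP (pvilRd 𝔓 m)).Zp ⊆ pvcy3eKr 𝔓 m z t := by
  intro x hx
  obtain ⟨hδ, hΔ⟩ := pvio_Dl H m
  rw [pvio_Zn, pvio_Dn, pvio_din0 H, pvio_pin0 H] at hx
  obtain ⟨b1, b2, -, -⟩ := pvio_at_coord norm_one hx
  rw [map_one, mul_one] at b1 b2
  have hrd : pvilRd 𝔓 m = pvlmDel c m / 40 := rfl
  rw [hrd] at b1 b2
  simp only [Complex.sub_re, Complex.add_re, Complex.ofReal_re] at b1 b2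
  refine ⟨?_, ?_⟩
  · simp only [Complex.sub_re]; linarith
  · simp only [Complex.sub_re]; linarith

/-- the room of the link into the reference plug lies in `Kr` -/
theorem pvcy3e_Kr_Y {m : ℕ} {t : τ} (E : PvioEng 𝔓 𝔈 m t) (z : ℂ) : (pviqLr 𝔓 𝔈 m z t).Yin ⊆ pvcy3eKr 𝔓 m z t := by
  intro x hx
  exact E.rY _ (pveh_mem_sh.1 hx)

/-- the region `Zm` of the reference plug lies in `Kr` -/
theorem pvcy3e_Kr_M (H : PveaPar 𝔓 m0) {m : ℕ} {t : τ} (E : PvioEng 𝔓 𝔈 m t) (z : ℂ) : pvkdAt (pvieZu 𝔓 m z t) 1 (pvkdP (pvilRu 𝔈 m)).Zm ⊆ pvcy3eKr 𝔓 m z t := by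
  intro x hx
  obtain ⟨hδ, hΔ⟩ := pvio_Dl H m
  obtain ⟨b1, b2, -, -⟩ := pvio_at_coord norm_one hx
  rw [map_one, mul_one] at b1 b2
  have hru : pvilRu 𝔈 m = (𝔈.rp m).h := rfl
  rw [hru] at b1 b2
  have h1 := E.ru_lo
  have h2 := E.ru_hi
  exact ⟨by linarith, by linarith⟩

/-- **THE RECORD OF THE LINK INTO THE REFERENCE PLUG**: NO MESH -/
theorem pvcy3e_lr (H : PveaPar 𝔓 m0) (m : ℕ) (z : ℂ) (t : τ) (η : Conf PvPt) : Pvcy3Lk η (pvcy3eKr 𝔓 m z t) ∅ (pvcy3eKr 𝔓 m z t) ((pviqLr 𝔓 𝔈 m z t).msk 𝔓.num) :=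
  Pvcy3Lk.conv η (pvcy3e_Kr_cv m z t) (pvcy3e_Kr_msk H m z t)

/-- the disc of the last door of the thin chain and the disc of the reference plug are disjoint -/
theorem pvcy3e_dd (H : PveaPar 𝔓 m0) {m : ℕ} {t : τ} (E : PvioEng 𝔓 𝔈 m t) (z : ℂ) :
    Disjoint (ball (pvc1kZ 𝔓 m z t ((𝔓.Γ m).l1 t).length) (pvkdP (pvilRd 𝔓 m)).b) (ball (pvieZu 𝔓 m z t) (pvkdP (pvilRu 𝔈 m)).b) := by
  obtain ⟨hδ, hΔ⟩ := pvio_Dl H m
  rw [Set.disjoint_left]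
  intro w h1 h2
  rw [pvio_Zn, pvio_pin0 H, mem_ball, dist_eq_norm] at h1
  rw [mem_ball, dist_eq_norm] at h2
  have e1 : (pvkdP (pvilRd 𝔓 m)).b = 2 * (pvlmDel c m / 40) := rfl
  have e2 : (pvkdP (pvilRu 𝔈 m)).b = 2 * (𝔈.rp m).h := rfl
  rw [e1] at h1
  rw [e2] at h2
  have a1 := abs_lt.1 (lt_of_le_of_lt (Complex.abs_re_le_norm _) h1)
  have a2 := abs_lt.1 (lt_of_le_of_lt (Complex.abs_re_le_norm _) h2)
  simp only [Complex.sub_re, Complex.add_re, Complex.ofReal_re] at a1 a2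
  have h3 := E.ru_hi
  linarith [a1.2, a2.1]

end ref

/-! ## 3. the leaf (O) from the record of the thick link -/

section own

variable {τ : Type} {c : ℝ} {𝔓 : PvxPar τ c} {𝔈 : PvieEng τ} {m0 : ℕ}

/-- the links of record fit (42) -/
theorem pvcy3e_fit {m : ℕ} (z : ℂ) (t : τ) (hd : 0 < pvilRd 𝔓 m) (hu : 0 < pvilRu 𝔈 m) :
    PvdwFit (pvilLo 𝔓 𝔈 m z t) (pviqLr 𝔓 𝔈 m z t) (pvilLe 𝔓 𝔈 m z t) (pvkdP (pvilRd 𝔓 m)) (pvkdP (pvilRu 𝔈 m)) ((𝔓.Γ m).l1 t).length (pvc1kZ 𝔓 m z t) (pvc1kD 𝔓 m t) (pvieZu 𝔓 m z t) 1 := by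
  have e1 := pviq_Lr_eq 𝔓 𝔈 m z t
  exact pvdw_fit_rec 𝔓 𝔈 m z t (Lr := pviqLr 𝔓 𝔈 m z t) (by rw [← e1]; rfl) (by rw [← e1]; rfl) rfl rfl hd hu

variable {m : ℕ} {t : τ} {ε : ℝ} {z : ℂ} {Z : Set (ℤ × ℤ)} {η : Conf PvPt} {Co : ℕ → Set ℂ}
  {P P' : PvwSt (pvieT η)} {g : ℕ → (pvkiT η).Gate (pvukS (𝔓.col t) η)} {gu : (pvkiT η).Gate (pvukS (𝔓.col t) η)} {y0 yr ye : (pvieT η).Pth}

/-- **`t0` OF `PvdwArcs.restT`**: the tags of the arc of the first link lie in its mask -/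
theorem pvcy3e_t0 (H : PveaPar 𝔓 m0) (hm : m0 ≤ m) (hT : pviwTyOk 𝔓 t) (E : PvioEng 𝔓 𝔈 m t) (hN : PvioNum 𝔓 m t) (hμ0 : 0 < pvilMu 𝔓 m) (mo : η ∈ pvilMo 𝔓 𝔈 m ε z t Z)
    (A : PvdwArcs 𝔓.num (𝔓.col t) η (pvilLo 𝔓 𝔈 m z t) (pviqLr 𝔓 𝔈 m z t) (pvilLe 𝔓 𝔈 m z t) (pvkdP (pvilRd 𝔓 m)) (pvkdP (pvilRu 𝔈 m)) ((𝔓.Γ m).l1 t).length
      (pvc1kZ 𝔓 m z t) (pvc1kD 𝔓 m t) Co (pvieZu 𝔓 m z t) 1 P P' g gu y0 yr ye) {k : ℕ} (hk : k < y0.n) :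
    (pvieT η).bary (pviePos η) ((pvieT η).opp (y0.e k)) ∈ (pvilLo 𝔓 𝔈 m z t).msk 𝔓.num :=
  pvcy3_y0 A (by show ‖(1 : ℂ)‖ = 1; exact norm_one) (pvcy3e_lo H hm hT hN hμ0 mo) (fun _ h => Or.inr h) (fun _ h => Or.inl (pvcy3e_Ko_Y H hm hT E.oY z h)) (fun _ h => Or.inl (pvcy3e_Ko_Z H hm hT z h)) hk

/-- **`tr` OF `PvdwArcs.restT`**: the tags of the arc of the link into the reference plug lie in its mask -/
theorem pvcy3e_tr (H : PveaPar 𝔓 m0) (E : PvioEng 𝔓 𝔈 m t)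
    (A : PvdwArcs 𝔓.num (𝔓.col t) η (pvilLo 𝔓 𝔈 m z t) (pviqLr 𝔓 𝔈 m z t) (pvilLe 𝔓 𝔈 m z t) (pvkdP (pvilRd 𝔓 m)) (pvkdP (pvilRu 𝔈 m)) ((𝔓.Γ m).l1 t).length
      (pvc1kZ 𝔓 m z t) (pvc1kD 𝔓 m t) Co (pvieZu 𝔓 m z t) 1 P P' g gu y0 yr ye) {k : ℕ} (hk : k < yr.n) :
    (pvieT η).bary (pviePos η) ((pvieT η).opp (yr.e k)) ∈ (pviqLr 𝔓 𝔈 m z t).msk 𝔓.num :=
  pvcy3_yr A (pvcy3e_lr H m z t η) (pvcy3e_dd H E z) (fun _ h => Or.inl (pvcy3e_Kr_P H m z t h)) (fun _ h => Or.inl (pvcy3e_Kr_Y E z h)) (fun _ h => Or.inl (pvcy3e_Kr_M H E z h)) hk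

/-- **THE LEAF (O), GENERIC**: every tag of the ring has exactly one owner, from the cuts `PvdwOc` (179) + the event of the first link + the tags of the arc of the thick link in its mask (92) -/
theorem pvcy3e_own (H : PveaPar 𝔓 m0) (hm : m0 ≤ m) (hT : pviwTyOk 𝔓 t) (E : PvioEng 𝔓 𝔈 m t) (hN : PvioNum 𝔓 m t) (hμ0 : 0 < pvilMu 𝔓 m) (mo : η ∈ pvilMo 𝔓 𝔈 m ε z t Z)
    (A : PvdwArcs 𝔓.num (𝔓.col t) η (pvilLo 𝔓 𝔈 m z t) (pviqLr 𝔓 𝔈 m z t) (pvilLe 𝔓 𝔈 m z t) (pvkdP (pvilRd 𝔓 m)) (pvkdP (pvilRu 𝔈 m)) ((𝔓.Γ m).l1 t).length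
      (pvc1kZ 𝔓 m z t) (pvc1kD 𝔓 m t) Co (pvieZu 𝔓 m z t) 1 P P' g gu y0 yr ye) {Mc : ℕ → Set ℂ}
    (O : PvdwOc 𝔓.num (pvilLo 𝔓 𝔈 m z t) (pviqLr 𝔓 𝔈 m z t) (pvilLe 𝔓 𝔈 m z t) (pvkdP (pvilRd 𝔓 m)) (pvkdP (pvilRu 𝔈 m)) ((𝔓.Γ m).l1 t).length (pvc1kZ 𝔓 m z t) (pvc1kD 𝔓 m t) Co Mc (pvieZu 𝔓 m z t) 1)
    (te : ∀ k, k < ye.n → (pvieT η).bary (pviePos η) ((pvieT η).opp (ye.e k)) ∈ (pvilLe 𝔓 𝔈 m z t).msk 𝔓.num) :
    Pvcy2Own (pvieT η) (pviePos η) (((𝔓.Γ m).l1 t).length + 3)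
      (pvdwSt ((𝔓.Γ m).l1 t).length P (pvdwDd (pvkdP (pvilRd 𝔓 m)) (𝔓.col t) η (pvc1kZ 𝔓 m z t) g) (pvilStS (pvkdP (pvilRu 𝔈 m)) η (pvieCol η (𝔓.col t)) (pvieZu 𝔓 m z t) gu))
      (pvdwY ((𝔓.Γ m).l1 t).length y0 (pvdwYc (𝔓.col t) η g) yr ye)
      (pvdwM ((𝔓.Γ m).l1 t).length ((pvilLo 𝔓 𝔈 m z t).msk 𝔓.num) Mc ((pviqLr 𝔓 𝔈 m z t).msk 𝔓.num) ((pvilLe 𝔓 𝔈 m z t).msk 𝔓.num))
      (pvdwB ((𝔓.Γ m).l1 t).length ((pvilLo 𝔓 𝔈 m z t).ball 𝔓.num)) (pvdwDr ((𝔓.Γ m).l1 t).length) := by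
  have hd : 0 < pvilRd 𝔓 m := pviq_Rd_pos 𝔓 (pvlm_Del_pos c m)
  have hu : 0 < pvilRu 𝔈 m := by
    have h1 := E.ru_lo
    have h2 := pvlm_Del_pos c m
    show 0 < (𝔈.rp m).h
    linarith
  exact (A.ownT (pvcy3e_fit z t hd hu) rfl O (fun k hk => pvcy3e_t0 H hm hT E hN hμ0 mo A hk) (fun k hk => pvcy3e_tr H E A hk) te).own

end own

/-! ## 4. at the engine of record -/

section record

variable {N : PvxNums} (hN : N.Ok) {c : ℝ} {m : ℕ} {ε : ℝ} {z : ℂ} {t : pvxTau N} {ω η : Conf PvPt}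
  {P P' : PvwSt (pvieT η)} {g : ℕ → (pvkiT η).Gate (pvukS ((pvxParOf N hN c).col t) η)} {gu : (pvkiT η).Gate (pvukS ((pvxParOf N hN c).col t) η)} {y0 yr ye : (pvieT η).Pth}

/-- **THE LEAF (O) AT THE ENGINE OF RECORD, AT THE EVENTS OF RECORD** (= the conclusion of `exit_pvcy1d_own` of 219, names unfolded), EVERY `ε`, NO HYPOTHESIS LEFT:
`t0 tr` = sec. 1-3, `te` = `pvvi_te_rec` of 92, the cuts = `pvio_oc_rec` of 179, the consumer = `PvdwArcs.ownT` of 42 -/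
theorem pvcy3e_own_rec (c0 : 0 < c) (nb : PvnaNb N) (hm : N.m0 ≤ m) (E : Pvc1kEv (pvxParOf N hN c) (pvnaEngRec N hN c nb) (pvkgG.sc (pvlmDel c m)) m ε z t ω η)
    (A : PvdwArcs (pvxParOf N hN c).num ((pvxParOf N hN c).col t) η (pvilLo (pvxParOf N hN c) (pvnaEngRec N hN c nb) m z t) (pviqLr (pvxParOf N hN c) (pvnaEngRec N hN c nb) m z t)
      (pvilLe (pvxParOf N hN c) (pvnaEngRec N hN c nb) m z t) (pvkdP (pvilRd (pvxParOf N hN c) m)) (pvkdP (pvilRu (pvnaEngRec N hN c nb) m)) (((pvxParOf N hN c).Γ m).l1 t).length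
      (pvc1kZ (pvxParOf N hN c) m z t) (pvc1kD (pvxParOf N hN c) m t) (pvc1kCo (pvxParOf N hN c) (pvkgG.sc (pvlmDel c m)) m z t) (pvieZu (pvxParOf N hN c) m z t) 1 P P' g gu y0 yr ye) :
    Pvcy2Own (pvieT η) (pviePos η) ((((pvxParOf N hN c).Γ m).l1 t).length + 3)
      (pvdwSt (((pvxParOf N hN c).Γ m).l1 t).length P (pvdwDd (pvkdP (pvilRd (pvxParOf N hN c) m)) ((pvxParOf N hN c).col t) η (pvc1kZ (pvxParOf N hN c) m z t) g)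
        (pvilStS (pvkdP (pvilRu (pvnaEngRec N hN c nb) m)) η (pvieCol η ((pvxParOf N hN c).col t)) (pvieZu (pvxParOf N hN c) m z t) gu))
      (pvdwY (((pvxParOf N hN c).Γ m).l1 t).length y0 (pvdwYc ((pvxParOf N hN c).col t) η g) yr ye)
      (pvdwM (((pvxParOf N hN c).Γ m).l1 t).length ((pvilLo (pvxParOf N hN c) (pvnaEngRec N hN c nb) m z t).msk (pvxParOf N hN c).num) (pvc1kMk (pvxParOf N hN c) (pvkgG.sc (pvlmDel c m)) m z t)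
        ((pviqLr (pvxParOf N hN c) (pvnaEngRec N hN c nb) m z t).msk (pvxParOf N hN c).num) ((pvilLe (pvxParOf N hN c) (pvnaEngRec N hN c nb) m z t).msk (pvxParOf N hN c).num))
      (pvdwB (((pvxParOf N hN c).Γ m).l1 t).length ((pvilLo (pvxParOf N hN c) (pvnaEngRec N hN c nb) m z t).ball (pvxParOf N hN c).num)) (pvdwDr (((pvxParOf N hN c).Γ m).l1 t).length) :=
  pvcy3e_own (pvea_par hN c0) hm (pvea_tyOk hN t) (pvio_eng_rec N hN nb c0 hm t) (pvio_num_rec N hN c0 hm t) (pvvi_mu_rec hN m).1 E.mo A (pvio_oc_rec N hN nb c0 hm z t)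
    (fun _ hk => pvvi_te_rec hN c0 nb hm E A hk)

end record

end Claimed.Agent.R289
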