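-- KEEP
import Claimed.Agent.R289.Tr.CycC2G
import Claimed.Agent.R289.Tr.CycDI

/-!
# Row 289 (S0537), THE WALL, ROAD E, Exit/Cyc1G : THE ATOMS OF THE `Σ₁` CYCLE (`Pvc2gAt` OF 75) AT THE NAMES OF `Tr/InstL`, ANY ENGINE WITH `PvieEng.Wf`      (helper129, under 75 `Tr/CycC2G`, 219 `exit_pvcy1c_rest`; prefix `pvc1g_`)

0 sorry.
* `pvc1g_box_Bx` : the closed own-level box `pvcaBx 𝔓.num (pvilPin 𝔓 m z t)` lies in the box with collar `pvilBx 𝔓 m z t`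
* **`pvc1g_at`**  : `Pvc2gAt ((𝔓.Γ m).l1 t).length (pvcaBx 𝔓.num (pvilLo 𝔓 𝔈 m z t).p) (z + oM) (z + eM) (z + oK) (z + eK) (zu + rK) (zu + rO) (pvjhDr ..) (pvjhCl ..)` = the argument `A` of `pvc2g_hd` of 75      := `pvjh_disj` + `pvjh_Bx_C` (180)
-/

set_option autoImplicit false

namespace Claimed.Agent.R289

open Set Claims.C0465

section atoms

variable {τ : Type} {c : ℝ} {𝔓 : PvxPar τ c} {𝔈 : PvieEng τ}

/-- the closed own-level box lies in the own-level box with its collar -/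
theorem pvc1g_box_Bx (𝔓 : PvxPar τ c) (m : ℕ) (z : ℂ) (t : τ) : pvcaBx 𝔓.num (pvilPin 𝔓 m z t) ⊆ pvilBx 𝔓 m z t := by
  intro w hw
  have h0 : 0 < pvlmDel c m := pvlm_Del_pos c m
  have h1 : w ∈ pvwSq z (pvwRad 𝔓.num (pvlmH m) (𝔓.ty t) (𝔓.ty t).k) := hw
  exact ⟨h1.1.trans (by linarith), h1.2.trans (by linarith)⟩

/-- **THE ATOMS OF THE `Σ₁` CYCLE** = the argument `A` of `pvc2g_hd` (75) -/
theorem pvc1g_at {m0 : ℕ} {Cth : ℝ} {r κs : ℕ → ℝ} (H : PvieEng.Wf 𝔓 𝔈 m0 Cth r κs) {m : ℕ} (hm : m0 ≤ m) (ε : ℝ) (z : ℂ) {t : τ} (ht : pviwTyOk 𝔓 t) :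
    Pvc2gAt ((𝔓.Γ m).l1 t).length (pvcaBx 𝔓.num (pvilLo 𝔓 𝔈 m z t).p) (pvieSh z (𝔈.oM m t)) (pvieSh z (𝔈.eM m t)) (pvieSh z (𝔈.oK m t)) (pvieSh z (𝔈.eK m t))
      (pvieSh (pvieZu 𝔓 m z t) (𝔈.rK m)) (pvieSh (pvieZu 𝔓 m z t) (𝔈.rO m)) (pvjhDr 𝔓 𝔈 m ε z t) (pvjhCl 𝔓 𝔈 m ε z t) := by
  have D := pvjh_disj H hm ε z ht
  have hB : Disjoint (pvcaBx 𝔓.num (pvilLo 𝔓 𝔈 m z t).p) (pvilCcyc 𝔓 𝔈 m ε z t) := (pvjh_Bx_C H hm ε z ht).mono_left (pvc1g_box_Bx 𝔓 m z t)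
  exact
    { MoMe := D.MoMe, MoKe := D.MoKe, MoRk := D.MoRk, MoRo := D.MoRo, MoDr := D.MoDr, MoCl := D.MoCl
      MeKo := D.MeKo, MeRk := D.MeRk, MeRo := D.MeRo, MeDr := D.MeDr, MeCl := D.MeCl
      KoKe := D.KoKe, KoRk := D.KoRk, KoRo := D.KoRo, KoDr := D.KoDr, KoCl := D.KoCl
      KeRk := D.KeRk, KeRo := D.KeRo, KeDr := D.KeDr, KeCl := D.KeCl
      RkRo := D.RkRo, RkDr := D.RkDr, RkCl := D.RkCl, RoDr := D.RoDr, RoCl := D.RoCl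
      DrDr := D.DrDr, ClCl := D.ClCl, DrCl := D.DrCl
      BoKo := hB.mono_right (pvjh_Ko_sub m ε z t)
      BoKe := hB.mono_right (pvjh_Ke_sub m ε z t)
      BoRk := hB.mono_right (pvjh_Rk_sub m ε z t)
      BoRo := hB.mono_right (pvjh_Ro_sub m ε z t)
      BoDr := fun j hj => hB.mono_right (pvjh_Dr_sub m ε z t hj)
      BoCl := fun j hj => hB.mono_right (pvjh_Cl_sub m ε z t hj) }

end atoms

end Claimed.Agent.R289
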