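-- KEEP
import Claimed.Agent.R289.Exit.Cyc1K
import Claimed.Agent.R289.Exit.EngRec
import Claimed.Agent.R289.Tr.CycC2H
import Claimed.Agent.R289.Tr.AtCylL

/-!
# Row 289 (S0537), THE WALL, ROAD E, Exit/Cyc1H : THE TWO STUBS OF THE CANDIDATE UNDER `exit_pvcy1c_rest`, AT THE EVENTS AND AT THE ENGINE OF RECORD      (helper264; prefix `pvc2h_`, `Pvc2h`)

`MpP := pvc2hMp 𝔓 m z t (pvilZo 𝔓 m z t ω)`, `MmP := pvc2hMm 𝔓 m z t (pvilZi 𝔓 m z t ω)` (`Tr/CycC2H` sec. 5), `ω` = THE BASE.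
* **`Pvc2hStub 𝔓 𝔈 m ε z t MpP MmP`** = ALL the region facts on the two reduced masks (what `PvdwHd`, `PvdwOw` may ask of `MpP MmP`): masks of the type, closed own box, annulus, SEP, off everything resampled, off the OTHER mouth.
* `pvc2h_stub` : any engine with `PvieEng.Wf`, base with its full state;   **`pvc2h_stub_rec`** : AT THE ENGINE OF RECORD, base `ω ∈ pvConf '' pvxU ..`: no hypothesis left.
* **`pvc2h_ev_hMp`**, **`pvc2h_ev_hMm`** : the vertex side `hMp hMm` of `PvdwArcs.ring` of 42 at the events of record `Pvc1kEv` of 133;   `pvc2h_arcs_hMp`, `pvc2h_arcs_hMm` : the same read on a normal form `PvdwArcs`.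
-/

set_option autoImplicit false

namespace Claimed.Agent.R289

open Set Claims.C0465

section gen

variable {τ : Type} {c : ℝ}

/-- **ALL THE REGION FACTS ON THE REDUCED MASKS OF THE TWO STUBS** -/
structure Pvc2hStub (𝔓 : PvxPar τ c) (𝔈 : PvieEng τ) (m : ℕ) (ε : ℝ) (z : ℂ) (t : τ) (MpP MmP : Set ℂ) : Prop where
  p_mask : MpP ⊆ (pvilPin 𝔓 m z t).Mp
  m_mask : MmP ⊆ (pvilPin 𝔓 m z t).Mm
  p_box : MpP ⊆ pvcaBx 𝔓.num (pvilPin 𝔓 m z t)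
  m_box : MmP ⊆ pvcaBx 𝔓.num (pvilPin 𝔓 m z t)
  p_Bx : MpP ⊆ pvilBx 𝔓 m z t
  m_Bx : MmP ⊆ pvilBx 𝔓 m z t
  p_ann : ∀ w ∈ MpP, (𝔓.ty t).a * pvlmH m ≤ ‖w - z‖
  m_ann : ∀ w ∈ MmP, (𝔓.ty t).a * pvlmH m ≤ ‖w - z‖
  sep : Disjoint MpP MmP
  p_C : Disjoint MpP (pvilCcyc 𝔓 𝔈 m ε z t)
  m_C : Disjoint MmP (pvilCcyc 𝔓 𝔈 m ε z t)
  p_eM : Disjoint MpP (pvieSh z (𝔈.eM m t))
  m_oM : Disjoint MmP (pvieSh z (𝔈.oM m t))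

variable {𝔓 : PvxPar τ c} {𝔈 : PvieEng τ} {𝔤 : PvkdGeo} {m : ℕ} {ε : ℝ} {z : ℂ} {t : τ} {ω η : Conf PvPt}

/-- any engine with the contract, base with its full state -/
theorem pvc2h_stub {m0 : ℕ} {Cth : ℝ} {r κs : ℕ → ℝ} (H : PvieEng.Wf 𝔓 𝔈 m0 Cth r κs) (hW : 𝔓.WfB) (hm : m0 ≤ m) (ht : pviwTyOk 𝔓 t) (hδ : 0 ≤ pvlmDel c m)
    (fine : 32 * pvlmDel c m ≤ 𝔓.num.rho * pvlmH m) (hM : PvjhMh 𝔓 𝔈 m t) (ε : ℝ) {𝔖 : PvwSt (pvieT ω)} (h : PvilAt 𝔓.num (𝔓.col t) (pvilPin 𝔓 m z t) ω 𝔖) :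
    Pvc2hStub 𝔓 𝔈 m ε z t (pvc2hMp 𝔓 m z t (pvilZo 𝔓 m z t ω)) (pvc2hMm 𝔓 m z t (pvilZi 𝔓 m z t ω)) where
  p_mask := pvc2h_Mp_mask 𝔓 m z t _
  m_mask := pvc2h_Mm_mask 𝔓 m z t _
  p_box := pvc2h_Mp_box 𝔓 m z t _
  m_box := pvc2h_Mm_box 𝔓 m z t _
  p_Bx := pvc2h_Mp_Bx 𝔓 m z t _
  m_Bx := pvc2h_Mm_Bx 𝔓 m z t _
  p_ann := fun _ hw => pvc2h_Mp_ann 𝔓 m z t _ hw
  m_ann := fun _ hw => pvc2h_Mm_ann 𝔓 m z t _ hw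
  sep := pvc2h_Mp_Mm hW m z t _ _
  p_C := pvc2h_Mp_C H hm ε z ht _
  m_C := pvc2h_Mm_C H hm ε z ht _
  p_eM := pvc2h_Mp_eM hδ fine hW.rho0 ht hM h
  m_oM := pvc2h_Mm_oM hδ fine hW.rho0 ht hM h

/-- **VERTEX SIDE AT THE EVENTS OF RECORD, exit stub** -/
theorem pvc2h_ev_hMp (hδ : 0 < pvlmDel c m) (E : Pvc1kEv 𝔓 𝔈 𝔤 m ε z t ω η) {P : PvwSt (pvieT η)} (h : PvilOut 𝔓.num (𝔓.col t) (pvilPin 𝔓 m z t) η P) :
    ∀ x : (pvieT η).Pth, PvwLE (pvieT η) (fun i => (pvieT η).src (P.ep i)) P.np x → ∀ v ∈ x.verts, pviePos η v ∈ pvc2hMp 𝔓 m z t (pvilZo 𝔓 m z t ω) :=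
  pvc2h_hMp hδ h E.mo.1.2

/-- **VERTEX SIDE AT THE EVENTS OF RECORD, entrance stub** -/
theorem pvc2h_ev_hMm (hδ : 0 < pvlmDel c m) (E : Pvc1kEv 𝔓 𝔈 𝔤 m ε z t ω η) {P' : PvwSt (pvieT η)} (h : PvilIn 𝔓.num (𝔓.col t) (pvilPin 𝔓 m z t) η P') :
    ∀ x : (pvieT η).Pth, PvwLE (pvieT η) (fun i => (pvieT η).src (P'.em i)) P'.nm x → ∀ v ∈ x.verts, pviePos η v ∈ pvc2hMm 𝔓 m z t (pvilZi 𝔓 m z t ω) :=
  pvc2h_hMm hδ h E.me.1.2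

variable {Lr : PvilLk} {𝔭 𝔭u : PvkdPlug} {n : ℕ} {Z Dv : ℕ → ℂ} {Co : ℕ → Set ℂ} {zu du : ℂ}
  {P P' : PvwSt (pvieT η)} {g : ℕ → (pvkiT η).Gate (pvukS (𝔓.col t) η)} {gu : (pvkiT η).Gate (pvukS (𝔓.col t) η)} {y0 yr ye : (pvieT η).Pth}

/-- the same, read on a normal form of 42 -/
theorem pvc2h_arcs_hMp (hδ : 0 < pvlmDel c m) (E : Pvc1kEv 𝔓 𝔈 𝔤 m ε z t ω η)
    (A : PvdwArcs 𝔓.num (𝔓.col t) η (pvilLo 𝔓 𝔈 m z t) Lr (pvilLe 𝔓 𝔈 m z t) 𝔭 𝔭u n Z Dv Co zu du P P' g gu y0 yr ye) :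
    ∀ x : (pvieT η).Pth, PvwLE (pvieT η) (fun i => (pvieT η).src (P.ep i)) P.np x → ∀ v ∈ x.verts, pviePos η v ∈ pvc2hMp 𝔓 m z t (pvilZo 𝔓 m z t ω) :=
  pvc2h_ev_hMp hδ E A.out

theorem pvc2h_arcs_hMm (hδ : 0 < pvlmDel c m) (E : Pvc1kEv 𝔓 𝔈 𝔤 m ε z t ω η)
    (A : PvdwArcs 𝔓.num (𝔓.col t) η (pvilLo 𝔓 𝔈 m z t) Lr (pvilLe 𝔓 𝔈 m z t) 𝔭 𝔭u n Z Dv Co zu du P P' g gu y0 yr ye) :
    ∀ x : (pvieT η).Pth, PvwLE (pvieT η) (fun i => (pvieT η).src (P'.em i)) P'.nm x → ∀ v ∈ x.verts, pviePos η v ∈ pvc2hMm 𝔓 m z t (pvilZi 𝔓 m z t ω) :=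
  pvc2h_ev_hMm hδ E A.inn

end gen

/-! ## at the engine of record -/

section rec

variable {c : ℝ}

/-- **THE REGION FACTS AT THE ENGINE OF RECORD**, base = the configuration of a usable sample: NO HYPOTHESIS LEFT -/
theorem pvc2h_stub_rec (c0 : 0 < c) (N : PvxNums) (hN : N.Ok) (nb : PvnaNb N) {m : ℕ} (hm : (pvxParOf N hN c).m0 ≤ m) (ε : ℝ) (z : ℂ) (t : pvxTau N) {ω : Conf PvPt}
    (hω : ω ∈ pvConf '' pvxU (pvxParOf N hN c) m z t) :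
    Pvc2hStub (pvxParOf N hN c) (pvnaEngRec N hN c nb) m ε z t (pvc2hMp (pvxParOf N hN c) m z t (pvilZo (pvxParOf N hN c) m z t ω)) (pvc2hMm (pvxParOf N hN c) m z t (pvilZi (pvxParOf N hN c) m z t ω)) := by
  obtain ⟨ω', ⟨𝔖, h𝔖⟩, rfl⟩ := hω
  obtain ⟨Cth, r, κs, hW⟩ := (pvnr_wf hN c0 nb).wf
  have ht : pviwTyOk (pvxParOf N hN c) t := pvea_tyOk hN t
  have hd : 0 < pvlmDel c m := pvlm_Del_pos c m
  have fine : 32 * pvlmDel c m ≤ (pvxParOf N hN c).num.rho * pvlmH m := by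
    have h1 : 1000000 * pvlmDel c m ≤ N.rho * pvlmH m := pvxo_fine hN c0 hm
    show 32 * pvlmDel c m ≤ N.rho * pvlmH m
    linarith
  exact pvc2h_stub hW (pvxo_wf N hN c).toWfB hm ht hd.le fine ⟨hW.oM_half m hm t ht, hW.eM_half m hm t ht⟩ ε ((pvkfl_at_model (pvxParOf N hN c) m ω' z t 𝔖).1 h𝔖)

/-! ## the eight candidate-side fields of `Pvc2gRm` (75), masks = the bodies of `pvcy1dMp`, `pvcy1dMm` of 219 (`Exit/Cyc1CD`) -/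

/-- the body of `pvcy1dMp` of 219 lies in `pvc2hMp` (a point of a cell of the hull, in the closed own box, lies in the carried part of the window) -/
theorem pvc2h_cd_Mp {τ : Type} (𝔓 : PvxPar τ c) (m : ℕ) (z : ℂ) (t : τ) (Z : Set (ℤ × ℤ)) :
    (pvilPin 𝔓 m z t).Mp ∩ pvtU (pvlmDel c m) Z ∩ pvcaBx 𝔓.num (pvilPin 𝔓 m z t) ∩ {w | (𝔓.ty t).a * pvlmH m ≤ ‖w - z‖} = pvc2hMp 𝔓 m z t Z := by
  have hd : 0 < pvlmDel c m := pvlm_Del_pos c m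
  ext w
  constructor
  · rintro ⟨⟨⟨h1, h2⟩, h3⟩, h4⟩
    exact ⟨⟨⟨⟨h1, pvc2h_core_of hd h2 h3 (Metric.mem_closedBall_self hd.le)⟩, h3⟩, h4⟩, h2⟩
  · intro h
    exact ⟨⟨⟨h.1.1.1.1, h.2⟩, h.1.1.2⟩, h.1.2⟩

theorem pvc2h_cd_Mm {τ : Type} (𝔓 : PvxPar τ c) (m : ℕ) (z : ℂ) (t : τ) (Z : Set (ℤ × ℤ)) :
    (pvilPin 𝔓 m z t).Mm ∩ pvtU (pvlmDel c m) Z ∩ pvcaBx 𝔓.num (pvilPin 𝔓 m z t) ∩ {w | (𝔓.ty t).a * pvlmH m ≤ ‖w - z‖} = pvc2hMm 𝔓 m z t Z := by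
  have hd : 0 < pvlmDel c m := pvlm_Del_pos c m
  ext w
  constructor
  · rintro ⟨⟨⟨h1, h2⟩, h3⟩, h4⟩
    exact ⟨⟨⟨⟨h1, pvc2h_core_of hd h2 h3 (Metric.mem_closedBall_self hd.le)⟩, h3⟩, h4⟩, h2⟩
  · intro h
    exact ⟨⟨⟨h.1.1.1.1, h.2⟩, h.1.1.2⟩, h.1.2⟩

/-- `D0_box`: the disc of the candidate lies in the closed own-level box -/
theorem pvc2h_rm_D0_box (N : PvxNums) (hN : N.Ok) (𝔈 : PvieEng (pvxTau N)) (m : ℕ) (z : ℂ) (t : pvxTau N) :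
    Metric.ball (pvilLo (pvxParOf N hN c) 𝔈 m z t).p.z ((pvilLo (pvxParOf N hN c) 𝔈 m z t).p.ty.b * (pvilLo (pvxParOf N hN c) 𝔈 m z t).p.h) ⊆ pvcaBx (pvxParOf N hN c).num (pvilLo (pvxParOf N hN c) 𝔈 m z t).p := by
  intro w hw
  have hh : 0 < pvlmH m := by unfold pvlmH; positivity
  have h1 : ‖w - z‖ < N.b1 * pvlmH m := by
    have := mem_ball_iff_norm.1 hw
    exact this
  have h2 : N.b1 * pvlmH m ≤ (2 * N.b2 + (pvxoK t : ℝ) * N.rho1) * pvlmH m := by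
    have h3 : 0 ≤ (pvxoK t : ℝ) * N.rho1 := mul_nonneg (Nat.cast_nonneg _) (by linarith [hN.rho0, hN.rho1])
    have h4 : 0 < N.b2 := hN.b2_pos
    exact mul_le_mul_of_nonneg_right (by linarith [hN.gap, hN.ab2]) hh.le
  show |(w - z).re| ≤ (2 * N.b2 + (pvxoK t : ℝ) * N.rho1) * pvlmH m ∧ |(w - z).im| ≤ (2 * N.b2 + (pvxoK t : ℝ) * N.rho1) * pvlmH m
  exact ⟨(Complex.abs_re_le_norm _).trans (h1.le.trans h2), (Complex.abs_im_le_norm _).trans (h1.le.trans h2)⟩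

/-- the disc of the candidate misses a set placed at `z` which lies within `ρ h / 2` of a tip centre -/
theorem pvc2h_rm_D0_off (N : PvxNums) (hN : N.Ok) (𝔈 : PvieEng (pvxTau N)) (m : ℕ) (z : ℂ) (t : pvxTau N) {y : ℂ} {S : Set ℂ}
    (hy : |pvccN y - (2 * N.b2 + (pvxoK t : ℝ) * N.rho1)| ≤ N.rho / 10) (hS : S ⊆ Metric.closedBall ((pvlmH m : ℂ) * y) (N.rho * pvlmH m / 2)) :
    Disjoint (Metric.ball (pvilLo (pvxParOf N hN c) 𝔈 m z t).p.z ((pvilLo (pvxParOf N hN c) 𝔈 m z t).p.ty.b * (pvilLo (pvxParOf N hN c) 𝔈 m z t).p.h)) (pvieSh z S) := by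
  rw [Set.disjoint_left]
  intro w hw hw2
  have hh : 0 < pvlmH m := by unfold pvlmH; positivity
  have h1 : ‖w - z‖ < N.b1 * pvlmH m := by
    have := mem_ball_iff_norm.1 hw
    exact this
  have h2 : w ∈ Metric.closedBall (z + (pvlmH m : ℂ) * y) (N.rho * pvlmH m / 2) := pvjh_sh_ball z _ _ hS hw2
  have h3 : ‖w - (z + (pvlmH m : ℂ) * y)‖ ≤ N.rho * pvlmH m / 2 := by simpa [dist_eq_norm] using h2
  have h4 : pvccN y ≤ ‖y‖ := max_le (Complex.abs_re_le_norm _) (Complex.abs_im_le_norm _)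
  have h5 : ‖(pvlmH m : ℂ) * y‖ = pvlmH m * ‖y‖ := by rw [norm_mul, Complex.norm_real, Real.norm_of_nonneg hh.le]
  have h6 : ‖(pvlmH m : ℂ) * y‖ ≤ ‖w - z‖ + ‖w - (z + (pvlmH m : ℂ) * y)‖ := by
    have : (pvlmH m : ℂ) * y = (w - z) - (w - (z + (pvlmH m : ℂ) * y)) := by ring
    calc ‖(pvlmH m : ℂ) * y‖ = ‖(w - z) - (w - (z + (pvlmH m : ℂ) * y))‖ := by rw [← this]
      _ ≤ _ := norm_sub_le _ _
  have h7 : 0 ≤ (pvxoK t : ℝ) * N.rho1 := mul_nonneg (Nat.cast_nonneg _) (by linarith [hN.rho0, hN.rho1])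
  have h8 := (abs_le.1 hy).1
  have h9 : N.rho ≤ 1 := by linarith [hN.rho0, hN.rho1, hN.rho2, hN.rho3]
  have h10 : (N.b1 + N.rho / 2) * pvlmH m < ‖y‖ * pvlmH m := by
    apply mul_lt_mul_of_pos_right _ hh
    linarith [hN.gap, hN.ab2, hN.b2_pos]
  nlinarith

/-- `D0_Mo`, `D0_Me`, `Mp_box`, `Mm_box`, `Mp_Me`, `Mm_Mo`, `Mp_Mm` + `D0_box`: **THE EIGHT CANDIDATE-SIDE FIELDS OF `Pvc2gRm` AT THE ENGINE OF RECORD** -/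
theorem pvc2h_rm_rec (c0 : 0 < c) (N : PvxNums) (hN : N.Ok) (nb : PvnaNb N) {m : ℕ} (hm : (pvxParOf N hN c).m0 ≤ m) (z : ℂ) (t : pvxTau N) {ω : Conf PvPt}
    (hω : ω ∈ pvConf '' pvxU (pvxParOf N hN c) m z t) {D0 Bo MpP MmP : Set ℂ}
    (hD0 : D0 = Metric.ball (pvilLo (pvxParOf N hN c) (pvnaEngRec N hN c nb) m z t).p.z ((pvilLo (pvxParOf N hN c) (pvnaEngRec N hN c nb) m z t).p.ty.b * (pvilLo (pvxParOf N hN c) (pvnaEngRec N hN c nb) m z t).p.h))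
    (hBo : Bo = pvcaBx (pvxParOf N hN c).num (pvilLo (pvxParOf N hN c) (pvnaEngRec N hN c nb) m z t).p)
    (hMp : MpP = (pvilPin (pvxParOf N hN c) m z t).Mp ∩ pvtU (pvlmDel c m) (pvilZo (pvxParOf N hN c) m z t ω) ∩ pvcaBx (pvxParOf N hN c).num (pvilPin (pvxParOf N hN c) m z t) ∩ {w | ((pvxParOf N hN c).ty t).a * pvlmH m ≤ ‖w - z‖})
    (hMm : MmP = (pvilPin (pvxParOf N hN c) m z t).Mm ∩ pvtU (pvlmDel c m) (pvilZi (pvxParOf N hN c) m z t ω) ∩ pvcaBx (pvxParOf N hN c).num (pvilPin (pvxParOf N hN c) m z t) ∩ {w | ((pvxParOf N hN c).ty t).a * pvlmH m ≤ ‖w - z‖}) :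
    D0 ⊆ Bo ∧ Disjoint D0 (pvieSh z ((pvnaEngRec N hN c nb).oM m t)) ∧ Disjoint D0 (pvieSh z ((pvnaEngRec N hN c nb).eM m t)) ∧ MpP ⊆ Bo ∧ MmP ⊆ Bo ∧
      Disjoint MpP (pvieSh z ((pvnaEngRec N hN c nb).eM m t)) ∧ Disjoint MmP (pvieSh z ((pvnaEngRec N hN c nb).oM m t)) ∧ Disjoint MpP MmP := by
  have S := pvc2h_stub_rec c0 N hN nb hm 0 z t hω
  obtain ⟨Cth, r, κs, hW⟩ := (pvnr_wf hN c0 nb).wf
  have ht : pviwTyOk (pvxParOf N hN c) t := pvea_tyOk hN t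
  rw [pvc2h_cd_Mp] at hMp
  rw [pvc2h_cd_Mm] at hMm
  subst hD0 hBo hMp hMm
  exact ⟨pvc2h_rm_D0_box N hN _ m z t, pvc2h_rm_D0_off N hN _ m z t ht.1 (hW.oM_half m hm t ht), pvc2h_rm_D0_off N hN _ m z t ht.2.1 (hW.eM_half m hm t ht),
    S.p_box, S.m_box, S.p_eM, S.m_oM, S.sep⟩

end rec

end Claimed.Agent.R289
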