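-- KEEP
import Claimed.Agent.R289.Exit.Cyc1G
import Claimed.Agent.R289.Exit.Cyc1H
import Claimed.Agent.R289.Exit.EngU4
import Claimed.Agent.R289.Exit.EngYe

/-!
# Row 289 (S0537), THE WALL, ROAD E, Exit/Cyc1HR : (H) THE REGIONS OF THE HEADS OF THE `Σ₁` CYCLE AT THE NAMES OF RECORD      (helper41, second rope under `exit_pvcy1d_hd` of 219 `Exit/Cyc1CD`, next to 75; prefix `pvq4_`, `Pvq4`)

* sec. 1  plane lemmas: a placed point and the half plane of its door, the disc and the two gate rooms of a placed plug `pvkdP r` inside a region which contains the mesh window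
* sec. 2  `Pvq4Ln` = THE LINES READ OF THE ENGINE beyond `PvieEng.Wf` (numbers of the type, four plane lines W-7, one cell line);   **`pvq4_rm`** : `Pvc2gRm` of 75 at the names of `Tr/InstL`;   **`pvq4_hd`** : `PvdwHd` of 42 at these names
* sec. 3  the cell line at `pvkgG`, the lines at the engine of record;   **`pvq4_hd_rec`** = the statement of `exit_pvcy1d_hd` (masks unfolded)
-/

set_option autoImplicit false

namespace Claimed.Agent.R289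

open Set Metric Claims.C0465
open scoped ComplexConjugate

/-! ## 1. plane lemmas -/

theorem pvq4_conj_self {d : ℂ} (hd : ‖d‖ = 1) : d * conj d = 1 := by
  rw [Complex.mul_conj, Complex.normSq_eq_norm_sq, hd]
  norm_num

/-- the coordinate along `d` of a placed point -/
theorem pvq4_coord {d : ℂ} (hd : ‖d‖ = 1) (z u : ℂ) : ((pvthSim z d u - z) * conj d).re = u.re := by
  have : (pvthSim z d u - z) * conj d = u * (d * conj d) := by unfold pvthSim; ring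
  rw [this, pvq4_conj_self hd, mul_one]

theorem pvq4_mem_hp {d : ℂ} (hd : ‖d‖ = 1) (z u : ℂ) : pvthSim z d u ∈ pvilHp z d ↔ 0 ≤ u.re := by
  show 0 ≤ ((pvthSim z d u - z) * conj d).re ↔ _
  rw [pvq4_coord hd]

theorem pvq4_ne {d : ℂ} (hd : ‖d‖ = 1) : d ≠ 0 := by
  intro h
  rw [h, norm_zero] at hd
  exact zero_ne_one hd

/-- the disc of a placed plug lies in the placed region -/
theorem pvq4_disc {d : ℂ} (hd : ‖d‖ = 1) (z : ℂ) {r : ℝ} (hr : 0 < r) {O : Set ℂ} (hO : pvwSq 0 (3 * r) ⊆ O) : ball z (pvkdP r).b ⊆ pvkdAt z d O := by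
  intro w hw
  rw [pvkx_mem_at (pvq4_ne hd)]
  apply hO
  have h1 : ‖w - z‖ < 2 * r := mem_ball_iff_norm.1 hw
  have h2 : ‖(w - z) / d‖ < 2 * r := by rwa [norm_div, hd, div_one]
  have h3 := Complex.abs_re_le_norm ((w - z) / d)
  have h4 := Complex.abs_im_le_norm ((w - z) / d)
  refine ⟨?_, ?_⟩
  · rw [sub_zero]; linarith
  · rw [sub_zero]; linarith

/-- the room of `g⁻` of a placed plug: in the region, behind the line -/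
theorem pvq4_Zm {d : ℂ} (hd : ‖d‖ = 1) (z : ℂ) {r : ℝ} (hr : 0 < r) {O : Set ℂ} (hO : pvwSq 0 (3 * r) ⊆ O) : pvkdAt z d (pvkdP r).Zm ⊆ pvkdAt z d O \ pvilHp z d := by
  rintro _ ⟨u, ⟨h1, h2, h3, h4⟩, rfl⟩
  refine ⟨⟨u, hO ⟨?_, ?_⟩, rfl⟩, ?_⟩
  · rw [sub_zero, abs_le]; constructor <;> linarith
  · rw [sub_zero, abs_le]; constructor <;> linarith
  · rw [pvq4_mem_hp hd]; linarith

/-- the room of `g⁺` of a placed plug: in the region, in front of the line -/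
theorem pvq4_Zp {d : ℂ} (hd : ‖d‖ = 1) (z : ℂ) {r : ℝ} (hr : 0 < r) {O : Set ℂ} (hO : pvwSq 0 (3 * r) ⊆ O) : pvkdAt z d (pvkdP r).Zp ⊆ pvkdAt z d O ∩ pvilHp z d := by
  rintro _ ⟨u, ⟨h1, h2, h3, h4⟩, rfl⟩
  refine ⟨⟨u, hO ⟨?_, ?_⟩, rfl⟩, ?_⟩
  · rw [sub_zero, abs_le]; constructor <;> linarith
  · rw [sub_zero, abs_le]; constructor <;> linarith
  · rw [pvq4_mem_hp hd]; linarith

/-! ## 2. the rooms of the cycle in the atoms, at the names of `Tr/InstL` -/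

section gen

variable {τ : Type} {c : ℝ}

/-- **THE LINES READ OF THE ENGINE BEYOND `PvieEng.Wf`**: numbers of the type, side of the cells, four plane lines (W-7 of 208), one cell line (reference frame of the cell) -/
structure Pvq4Ln (𝔓 : PvxPar τ c) (𝔈 : PvieEng τ) (𝔤 : PvkdGeo) (m : ℕ) (ε : ℝ) (t : τ) : Prop where
  del : (𝔓.Γ m).δ = pvlmDel c m
  d4 : (𝔓.Γ m).dout t ^ 4 = 1
  rho0 : 0 ≤ 𝔓.num.rho
  /-- the disc of the gate is well inside the own-level box -/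
  bb : (𝔓.ty t).b + 𝔓.num.rho ≤ 2 * (𝔓.ty t).b2 + (𝔓.ty t).k * 𝔓.num.rho1
  o_back : ∀ v ∈ 𝔈.oY m t, ((v - (𝔓.Γ m).pout t) * conj ((𝔓.Γ m).dout t)).re < 0
  r_front : ∀ v ∈ 𝔈.rY m, 0 ≤ ((v - (𝔓.Γ m).pin0) * conj (𝔓.Γ m).din0).re
  r_back : ∀ v ∈ 𝔈.rY m, v.re < 0
  e_front : ∀ v ∈ 𝔈.eY m t, v ∈ pviwRo 𝔓 𝔈 m t → 0 ≤ (v - (𝔓.Γ m).zu t).re
  cell : ∀ T : PvtTurn, ∀ w ∈ 𝔤.Co T, (w ∈ (𝔈.kit m ε).O₀ ∧ 0 ≤ w.re) ∨ w ∈ (𝔈.kit m ε).K₀ T ∨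
    ∃ u ∈ (𝔈.kit m ε).O₀, u.re < 0 ∧ w = (pvlmDel c m : ℂ) * T.mid + T.rot * u

variable {𝔓 : PvxPar τ c} {𝔈 : PvieEng τ} {𝔤 : PvkdGeo} {m : ℕ} {ε : ℝ} {t : τ}

theorem pvq4_D_norm (h4 : (𝔓.Γ m).dout t ^ 4 = 1) (j : ℕ) : ‖pvc1kD 𝔓 m t j‖ = 1 := pveg_norm_unit (pvtDir_pow_four _ h4 _)

/-- the door `j`, in the words of the kit of 34 -/
theorem pvq4_Dr_eq (hδ : (𝔈.kit m ε).δ = (𝔓.Γ m).δ) (z : ℂ) (j : ℕ) : pvjhDr 𝔓 𝔈 m ε z t j = pvkdAt (pvc1kZ 𝔓 m z t j) (pvc1kD 𝔓 m t j) (𝔈.kit m ε).O₀ := by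
  unfold pvjhDr pvieDoor pvc1kZ pvc1kD pvkdAt
  rw [hδ]

theorem pvq4_Cl_eq (hδ : (𝔈.kit m ε).δ = (𝔓.Γ m).δ) (z : ℂ) (j : ℕ) :
    pvjhCl 𝔓 𝔈 m ε z t j = pvkdAt (pvc1kZ 𝔓 m z t j) (pvc1kD 𝔓 m t j) ((𝔈.kit m ε).K₀ (pvthL ((𝔓.Γ m).l1 t) j)) := by
  unfold pvjhCl pvc1kZ pvc1kD pvkdAt
  rw [hδ]

theorem pvq4_Z_zero (z : ℂ) : pvc1kZ 𝔓 m z t 0 = pvieZo 𝔓 m z t := pvthx_Z_zero _ _ _ _
theorem pvq4_D_zero : pvc1kD 𝔓 m t 0 = (𝔓.Γ m).dout t := pvthx_D_zero _ _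

theorem pvq4_Z_last (z : ℂ) : pvc1kZ 𝔓 m z t ((𝔓.Γ m).l1 t).length = pvieZu 𝔓 m z t + (𝔓.Γ m).pin0 := by
  unfold pvc1kZ pvthZ pvieZo pvieZu
  rw [List.take_length, (𝔓.Γ m).l1_disp t]
  ring

theorem pvq4_D_last : pvc1kD 𝔓 m t ((𝔓.Γ m).l1 t).length = (𝔓.Γ m).din0 := by
  unfold pvc1kD pvthD
  rw [List.take_length]
  exact (𝔓.Γ m).l1_dir t

/-- a mouth in the half ball round the grid centre of a tip cell on the boundary of the own-level box misses the disc of the gate -/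
theorem pvq4_mouth_far {y : ℂ} {A b ρ h : ℝ} (hh : 0 < h) (hy : |pvccN y - A| ≤ ρ / 10) (hb : b + ρ ≤ A) (hρ : 0 ≤ ρ) {M : Set ℂ} (hM : M ⊆ closedBall ((h : ℂ) * y) (ρ * h / 2)) (z : ℂ) :
    Disjoint (ball z (b * h)) (pvieSh z M) := by
  rw [Set.disjoint_left]
  rintro _ hw ⟨v, hv, rfl⟩
  have h1 : ‖v‖ < b * h := by
    have := mem_ball_iff_norm.1 hw
    rwa [add_sub_cancel_left] at this
  have h2 : ‖v - (h : ℂ) * y‖ ≤ ρ * h / 2 := mem_closedBall_iff_norm.1 (hM hv)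
  have h3 : pvccN y ≤ ‖y‖ := max_le (Complex.abs_re_le_norm y) (Complex.abs_im_le_norm y)
  have h4 : ‖(h : ℂ) * y‖ = h * ‖y‖ := by rw [norm_mul, Complex.norm_real, Real.norm_of_nonneg hh.le]
  have h5 : ‖(h : ℂ) * y‖ ≤ ‖v‖ + ‖v - (h : ℂ) * y‖ := by
    have e : (h : ℂ) * y = v - (v - (h : ℂ) * y) := by ring
    calc ‖(h : ℂ) * y‖ = ‖v - (v - (h : ℂ) * y)‖ := by rw [← e]
      _ ≤ _ := norm_sub_le _ _
  have h6 := (abs_le.1 hy).1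
  nlinarith

/-- **THE ROOMS OF THE `Σ₁` CYCLE IN THE ATOMS** = the argument `G` of `pvc2g_hd` (75), half planes `Hd j := pvilHp (Z j) (D j)`, `Hu := pvilHp zu 1` -/
theorem pvq4_rm {m0 : ℕ} {Cth : ℝ} {r κs : ℕ → ℝ} (H : PvieEng.Wf 𝔓 𝔈 m0 Cth r κs) (hm : m0 ≤ m) (ht : pviwTyOk 𝔓 t) (L : Pvq4Ln 𝔓 𝔈 𝔤 m ε t) (z : ℂ) {MpP MmP : Set ℂ}
    (p_box : MpP ⊆ pvcaBx 𝔓.num (pvilPin 𝔓 m z t)) (m_box : MmP ⊆ pvcaBx 𝔓.num (pvilPin 𝔓 m z t)) (p_eM : Disjoint MpP (pvieSh z (𝔈.eM m t))) (m_oM : Disjoint MmP (pvieSh z (𝔈.oM m t)))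
    (sep : Disjoint MpP MmP) :
    Pvc2gRm ((𝔓.Γ m).l1 t).length (pvcaBx 𝔓.num (pvilLo 𝔓 𝔈 m z t).p) (pvieSh z (𝔈.oM m t)) (pvieSh z (𝔈.eM m t)) (pvieSh z (𝔈.oK m t)) (pvieSh z (𝔈.eK m t))
      (pvieSh (pvieZu 𝔓 m z t) (𝔈.rK m)) (pvieSh (pvieZu 𝔓 m z t) (𝔈.rO m)) (pvjhDr 𝔓 𝔈 m ε z t) (pvjhCl 𝔓 𝔈 m ε z t)
      (fun j => pvilHp (pvc1kZ 𝔓 m z t j) (pvc1kD 𝔓 m t j)) (pvilHp (pvieZu 𝔓 m z t) 1)
      (ball (pvilLo 𝔓 𝔈 m z t).p.z ((pvilLo 𝔓 𝔈 m z t).p.ty.b * (pvilLo 𝔓 𝔈 m z t).p.h)) (fun j => ball (pvc1kZ 𝔓 m z t j) (pvkdP (pvilRd 𝔓 m)).b) (ball (pvieZu 𝔓 m z t) (pvkdP (pvilRu 𝔈 m)).b)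
      MpP MmP (pvilLo 𝔓 𝔈 m z t).Yin (pvc1kCo 𝔓 𝔤 m z t) (pviqLr 𝔓 𝔈 m z t).Yin (pvilLe 𝔓 𝔈 m z t).Yin
      (fun j => pvkdAt (pvc1kZ 𝔓 m z t j) (pvc1kD 𝔓 m t j) (pvkdP (pvilRd 𝔓 m)).Zm) (fun j => pvkdAt (pvc1kZ 𝔓 m z t j) (pvc1kD 𝔓 m t j) (pvkdP (pvilRd 𝔓 m)).Zp)
      (pvkdAt (pvieZu 𝔓 m z t) 1 (pvkdP (pvilRu 𝔈 m)).Zm) (pvkdAt (pvieZu 𝔓 m z t) 1 (pvkdP (pvilRu 𝔈 m)).Zp) := by
  have hh : 0 < pvlmH m := pvlm_H_pos m
  have hd0 : 0 < pvlmDel c m := pvlm_Del_pos c m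
  have hδ : (𝔈.kit m ε).δ = (𝔓.Γ m).δ := by rw [H.kit_del, L.del]
  have hD := pvq4_D_norm (𝔓 := 𝔓) (m := m) (t := t) L.d4
  have hRd : 0 < pvilRd 𝔓 m := pviq_Rd_pos 𝔓 hd0
  have hRu : 0 < pvilRu 𝔈 m := H.rp_h m hm
  have hwd : pvwSq 0 (3 * pvilRd 𝔓 m) ⊆ (𝔈.kit m ε).O₀ := H.dp_win m hm ε
  have hwu : pvwSq 0 (3 * pvilRu 𝔈 m) ⊆ 𝔈.rO m := H.rp_win m hm
  have hRo : pvieSh (pvieZu 𝔓 m z t) (𝔈.rO m) = pvkdAt (pvieZu 𝔓 m z t) 1 (𝔈.rO m) := (pviq_sh _ _).symm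
  refine
    { D0_box := ?_, D0_Mo := ?_, D0_Me := ?_, Dd_sub := ?_, Du_sub := ?_, Mp_box := p_box, Mm_box := m_box, Mp_Me := p_eM, Mm_Mo := m_oM, Mp_Mm := sep
      Yo_sub := ?_, Co_sub := ?_, Yr_sub := ?_, Ye_sub := ?_, Zm_sub := ?_, Zp_sub := ?_, Zmu_sub := ?_, Zpu_sub := ?_ }
  · -- D0_box
    intro w hw
    have h1 : ‖w - z‖ < (𝔓.ty t).b * pvlmH m := mem_ball_iff_norm.1 hw
    have h2 : (𝔓.ty t).b * pvlmH m ≤ (2 * (𝔓.ty t).b2 + (𝔓.ty t).k * 𝔓.num.rho1) * pvlmH m := by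
      have := L.bb; have := L.rho0
      nlinarith
    exact ⟨((Complex.abs_re_le_norm _).trans h1.le).trans h2, ((Complex.abs_im_le_norm _).trans h1.le).trans h2⟩
  · exact pvq4_mouth_far hh ht.1 L.bb L.rho0 (H.oM_half m hm t ht) z
  · exact pvq4_mouth_far hh ht.2.1 L.bb L.rho0 (H.eM_half m hm t ht) z
  · intro j _
    rw [pvq4_Dr_eq hδ]
    exact pvq4_disc (hD j) _ hRd hwd
  · rw [hRo]
    exact pvq4_disc norm_one _ hRu hwu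
  · -- Yo_sub
    rintro _ ⟨v, hv, rfl⟩
    rcases H.oY_sub m hm ε t ht hv with (h | h) | h
    · exact Or.inl (Or.inl ⟨v, h, rfl⟩)
    · exact Or.inl (Or.inr ⟨v, h, rfl⟩)
    · refine Or.inr ⟨?_, ?_⟩
      · rw [pvjh_dr_sh, pvthx_Z_zero, pvthx_D_zero]
        exact ⟨v, h, rfl⟩
      · show ¬ 0 ≤ ((z + v - pvc1kZ 𝔓 m z t 0) * conj (pvc1kD 𝔓 m t 0)).re
        rw [pvq4_Z_zero, pvq4_D_zero, not_le]
        have e : z + v - pvieZo 𝔓 m z t = v - (𝔓.Γ m).pout t := by unfold pvieZo; ring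
        rw [e]
        exact L.o_back v hv
  · -- Co_sub
    intro j hj
    rintro _ ⟨w, hw, rfl⟩
    obtain ⟨e1, e2⟩ := pvuk_exit ⟨pvkdP 1, (𝔓.Γ m).δ, ∅, fun _ => ∅, fun _ => ∅, fun _ => ∅⟩ (pvieZo 𝔓 m z t) ((𝔓.Γ m).dout t) ((𝔓.Γ m).l1 t) hj
    rcases L.cell _ w hw with ⟨h1, h2⟩ | h | ⟨u, hu, hu0, rfl⟩
    · refine Or.inl (Or.inl ⟨?_, (pvq4_mem_hp (hD j) _ _).2 h2⟩)
      rw [pvq4_Dr_eq hδ]
      exact ⟨w, h1, rfl⟩
    · refine Or.inl (Or.inr ?_)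
      rw [pvq4_Cl_eq hδ]
      exact ⟨w, h, rfl⟩
    · have e : pvthSim (pvc1kZ 𝔓 m z t j) (pvc1kD 𝔓 m t j) ((pvlmDel c m : ℂ) * (pvthL ((𝔓.Γ m).l1 t) j).mid + (pvthL ((𝔓.Γ m).l1 t) j).rot * u) =
          pvthSim (pvc1kZ 𝔓 m z t (j + 1)) (pvc1kD 𝔓 m t (j + 1)) u := by
        have e1' : pvc1kZ 𝔓 m z t j + pvc1kD 𝔓 m t j * (((𝔓.Γ m).δ : ℂ) * (pvthL ((𝔓.Γ m).l1 t) j).mid) = pvc1kZ 𝔓 m z t (j + 1) := e1
        have e2' : pvc1kD 𝔓 m t j * (pvthL ((𝔓.Γ m).l1 t) j).rot = pvc1kD 𝔓 m t (j + 1) := e2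
        unfold pvthSim
        rw [← e1', ← e2', L.del]
        ring
      rw [e]
      refine Or.inr ⟨?_, ?_⟩
      · rw [pvq4_Dr_eq hδ]
        exact ⟨u, hu, rfl⟩
      · rw [pvq4_mem_hp (hD (j + 1))]
        exact not_le.2 hu0
  · -- Yr_sub
    rintro _ ⟨v, hv, rfl⟩
    rcases H.rY_sub m hm ε hv with (h | h) | h
    · exact Or.inl (Or.inr ⟨v, h, rfl⟩)
    · refine Or.inr ⟨⟨v, h, rfl⟩, ?_⟩
      show ¬ 0 ≤ ((pvieZu 𝔓 m z t + v - pvieZu 𝔓 m z t) * conj (1 : ℂ)).re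
      rw [map_one, mul_one, add_sub_cancel_left, not_le]
      exact L.r_back v hv
    · refine Or.inl (Or.inl ⟨?_, ?_⟩)
      · rw [pvq4_Dr_eq hδ, pvq4_Z_last, pvq4_D_last]
        obtain ⟨u, hu, rfl⟩ := h
        exact ⟨u, hu, by unfold pvthSim; ring⟩
      · show 0 ≤ ((pvieZu 𝔓 m z t + v - pvc1kZ 𝔓 m z t ((𝔓.Γ m).l1 t).length) * conj (pvc1kD 𝔓 m t ((𝔓.Γ m).l1 t).length)).re
        rw [pvq4_Z_last, pvq4_D_last]
        have e : pvieZu 𝔓 m z t + v - (pvieZu 𝔓 m z t + (𝔓.Γ m).pin0) = v - (𝔓.Γ m).pin0 := by ring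
        rw [e]
        exact L.r_front v hv
  · -- Ye_sub
    rintro _ ⟨v, hv, rfl⟩
    rcases H.eY_sub m hm t ht hv with (h | h) | h
    · exact Or.inr ⟨v, h, rfl⟩
    · exact Or.inl (Or.inr ⟨v, h, rfl⟩)
    · refine Or.inl (Or.inl ⟨?_, ?_⟩)
      · rw [pvjh_ro_sh]
        exact ⟨v, h, rfl⟩
      · show 0 ≤ ((z + v - pvieZu 𝔓 m z t) * conj (1 : ℂ)).re
        rw [map_one, mul_one]
        have e : z + v - pvieZu 𝔓 m z t = v - (𝔓.Γ m).zu t := by unfold pvieZu; ring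
        rw [e]
        exact L.e_front v hv h
  · intro j _
    rw [pvq4_Dr_eq hδ]
    exact pvq4_Zm (hD j) _ hRd hwd
  · intro j _
    rw [pvq4_Dr_eq hδ]
    exact pvq4_Zp (hD j) _ hRd hwd
  · rw [hRo]
    exact pvq4_Zm norm_one _ hRu hwu
  · rw [hRo]
    exact pvq4_Zp norm_one _ hRu hwu

/-- **(H) = `PvdwHd` OF 42 AT THE NAMES OF `Tr/InstL`**, any engine with `PvieEng.Wf` + the lines -/
theorem pvq4_hd {m0 : ℕ} {Cth : ℝ} {r κs : ℕ → ℝ} (H : PvieEng.Wf 𝔓 𝔈 m0 Cth r κs) (hm : m0 ≤ m) (ht : pviwTyOk 𝔓 t) (L : Pvq4Ln 𝔓 𝔈 𝔤 m ε t) (z : ℂ) {MpP MmP : Set ℂ}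
    (p_box : MpP ⊆ pvcaBx 𝔓.num (pvilPin 𝔓 m z t)) (m_box : MmP ⊆ pvcaBx 𝔓.num (pvilPin 𝔓 m z t)) (p_eM : Disjoint MpP (pvieSh z (𝔈.eM m t))) (m_oM : Disjoint MmP (pvieSh z (𝔈.oM m t)))
    (sep : Disjoint MpP MmP) :
    PvdwHd 𝔓.num (pvilLo 𝔓 𝔈 m z t) (pviqLr 𝔓 𝔈 m z t) (pvilLe 𝔓 𝔈 m z t) (pvkdP (pvilRd 𝔓 m)) (pvkdP (pvilRu 𝔈 m)) ((𝔓.Γ m).l1 t).length (pvc1kZ 𝔓 m z t) (pvc1kD 𝔓 m t) (pvc1kCo 𝔓 𝔤 m z t)
      (pvieZu 𝔓 m z t) 1 MpP MmP :=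
  pvc2g_hd (pvc1g_at H hm ε z ht) (pvq4_rm H hm ht L z p_box m_box p_eM m_oM sep)

end gen

/-! ## 3. the lines at the engine of record -/

/-- **THE CELL LINE AT THE KIT OF RECORD**, cells of side `1`: the room of the run of a cell lies in (entrance door square, in front of its line) ∪ tile ∪ (exit door square, behind its line) -/
theorem pvq4_cell_unit (T : PvtTurn) {w : ℂ} (hw : w ∈ pvkgG.Co T) :
    (w ∈ pvkgG.O₀ ∧ 0 ≤ w.re) ∨ w ∈ pvkgG.K₀ T ∨ ∃ u ∈ pvkgG.O₀, u.re < 0 ∧ w = T.mid + T.rot * u := by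
  obtain ⟨⟨a1, a2, a3, a4⟩, hc⟩ := hw
  have hE : w ∈ pvkgG.Ea T := by
    rw [pvkgg_Ea]
    exact hc (mem_closedBall_self (by norm_num))
  rcases hE with (h | h) | h
  · exact Or.inl ⟨h, a1⟩
  · exact Or.inr (Or.inl h)
  · rw [pvkgg_zo] at h
    obtain ⟨u, hu, rfl⟩ := h
    refine Or.inr (Or.inr ⟨u, hu, ?_, rfl⟩)
    cases T
    · simp [pvthSim, PvtTurn.mid, PvtTurn.rot] at a2
      linarith
    · simp [pvthSim, PvtTurn.mid, PvtTurn.rot] at a4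
      linarith
    · simp [pvthSim, PvtTurn.mid, PvtTurn.rot] at a3
      linarith

/-- the cell line, cells of side `s` -/
theorem pvq4_cell_sc {s : ℝ} (hs : 0 < s) (T : PvtTurn) {w : ℂ} (hw : w ∈ (pvkgG.sc s).Co T) :
    (w ∈ pvthSim 0 s '' pvkgG.O₀ ∧ 0 ≤ w.re) ∨ w ∈ pvthSim 0 s '' pvkgG.K₀ T ∨ ∃ u ∈ pvthSim 0 s '' pvkgG.O₀, u.re < 0 ∧ w = (s : ℂ) * T.mid + T.rot * u := by
  have hw' : w ∈ pvthSim 0 s '' pvkgG.Co T := by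
    rw [← pvdil_S_sim]
    exact hw
  obtain ⟨w0, hw0, rfl⟩ := hw'
  have hre : ∀ x : ℂ, (pvthSim 0 s x).re = s * x.re := fun x => by simp [pvthSim]
  rcases pvq4_cell_unit T hw0 with ⟨h1, h2⟩ | h | ⟨u, hu, hu0, rfl⟩
  · exact Or.inl ⟨⟨w0, h1, rfl⟩, by rw [hre]; positivity⟩
  · exact Or.inr (Or.inl ⟨w0, h, rfl⟩)
  · refine Or.inr (Or.inr ⟨pvthSim 0 s u, ⟨u, hu, rfl⟩, ?_, ?_⟩)
    · rw [hre]
      exact mul_neg_of_pos_of_neg hs hu0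
    · unfold pvthSim
      ring

section rec

variable {c : ℝ}

/-- **THE LINES AT THE ENGINE OF RECORD** -/
theorem pvq4_ln_rec (c0 : 0 < c) (N : PvxNums) (hN : N.Ok) (nb : PvnaNb N) {m : ℕ} (hm : (pvxParOf N hN c).m0 ≤ m) (ε : ℝ) (t : pvxTau N) :
    Pvq4Ln (pvxParOf N hN c) (pvnaEngRec N hN c nb) (pvkgG.sc (pvlmDel c m)) m ε t := by
  have P := pvea_par hN c0
  have hL : PvegLev (pvxParOf N hN c) m := P.lev hm
  have hT : pviwTyOk (pvxParOf N hN c) t := pvea_tyOk hN t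
  have hd : 0 < pvlmDel c m := pvlm_Del_pos c m
  have Z : PvehGeo (pvxParOf N hN c) m t := P.geo m hm t hT
  have hDl : 0 < pvehDl (pvxParOf N hN c) m := pveh_Dl_pos Z.n0
  exact
    { del := hL.del
      d4 := pveg_dout4 hL t
      rho0 := hN.rho0.le
      bb := by
        have hk : (0 : ℝ) ≤ (((pvxParOf N hN c).ty t).k : ℝ) * N.rho1 := mul_nonneg (Nat.cast_nonneg _) (by linarith [hN.rho0, hN.rho1])
        show N.b1 + N.rho ≤ 2 * N.b2 + (((pvxParOf N hN c).ty t).k : ℝ) * N.rho1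
        linarith [hN.gap, hN.ab2, hN.m_gt, hN.m_lt, hN.B_lt, hN.ab1, hN.rho1, hN.rho2, hN.rho3, hN.rho0]
      o_back := fun v hv => by
        have hμ : 0 < pvilMu (pvxParOf N hN c) m := by
          unfold pvilMu
          exact div_pos (lt_min hd (mul_pos hN.msk0 (pvlm_H_pos m))) (by norm_num)
        have := pvey_oYc_back hL hμ.le hT hv
        linarith [pveg_A_pos c m]
      r_front := fun v hv => by
        -- BOTH ENGINES (before / after L2 = U4): `rY = pvehrY ⊆ pvnuRY`, resp. `rY = pvnuRY`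
        have hv' : v ∈ pvnuRY (pvxParOf N hN c) m := by
          first
            | exact hv
            | exact pvnu4_RY_old (pvnaInRec N hN c nb).O0 m hv
        have := pvnu4_RY_front (𝔓 := pvxParOf N hN c) m hv'
        exact le_trans (by positivity) this
      r_back := fun v hv => by
        have hv' : v ∈ pvnuRY (pvxParOf N hN c) m := by
          first
            | exact hv
            | exact pvnu4_RY_old (pvnaInRec N hN c nb).O0 m hv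
        have := pvnu4_RY_back (𝔓 := pvxParOf N hN c) m hv'
        linarith
      e_front := fun v hv hO => by
        have hf : 1000 * pvlmDel c m ≤ (pvxParOf N hN c).num.rho * pvlmH m := by
          have := P.fine m hm
          linarith
        have hμ3 : 0 ≤ 3 * pviwMu (pvxParOf N hN c) m := by
          have h : 0 ≤ pvilMu (pvxParOf N hN c) m := pvey_mu_nonneg P.rho3 m
          have e : pviwMu (pvxParOf N hN c) m = pvilMu (pvxParOf N hN c) m := rfl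
          rw [e]
          linarith
        -- BOTH ENGINES: `eY` = the old room, resp. its open core `pvvzEY`;   `rO = pvehrO`, resp. `pvnuRO ⊆ pvehrO`
        have hv' : v ∈ pveheY (pvxParOf N hN c) (pvegIM (pvxParOf N hN c)) m t ∪ pvegIK (pvxParOf N hN c) m t := by
          first
            | exact hv
            | exact pvvz_eY_old hμ3 t hv
        have hO' : v ∈ pvieSh ((pvxrGam (pvxParOf N hN c) m).zu t) (pvehrO (pvxParOf N hN c) m) := by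
          first
            | exact hO
            | exact pvnu4_sh_mono _ (pvnu4_RO_sub hN.rho0 m) hO
        have := pvej_eY_front hL hf hT Z hv' hO'
        exact le_trans (by positivity) this
      cell := fun T w hw => pvq4_cell_sc hd T hw }

/-- **(H) THE REGIONS OF THE HEADS AT THE ENGINE OF RECORD** = the statement of `exit_pvcy1d_hd` (219, `Exit/Cyc1CD`), `Pvcy1dHd pvcy1dMp pvcy1dMm` unfolded -/
theorem pvq4_hd_rec (c0 : 0 < c) (N : PvxNums) (hN : N.Ok) (nb : PvnaNb N) (m : ℕ) (hm : (pvxParOf N hN c).m0 ≤ m) (z : ℂ) (t : pvxTau N) (ω : Conf PvPt) (hω : ω ∈ pvConf '' pvxU (pvxParOf N hN c) m z t) :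
    PvdwHd (pvxParOf N hN c).num (pvilLo (pvxParOf N hN c) (pvnaEngRec N hN c nb) m z t) (pviqLr (pvxParOf N hN c) (pvnaEngRec N hN c nb) m z t) (pvilLe (pvxParOf N hN c) (pvnaEngRec N hN c nb) m z t)
      (pvkdP (pvilRd (pvxParOf N hN c) m)) (pvkdP (pvilRu (pvnaEngRec N hN c nb) m)) (((pvxParOf N hN c).Γ m).l1 t).length (pvc1kZ (pvxParOf N hN c) m z t) (pvc1kD (pvxParOf N hN c) m t)
      (pvc1kCo (pvxParOf N hN c) (pvkgG.sc (pvlmDel c m)) m z t) (pvieZu (pvxParOf N hN c) m z t) 1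
      ((pvilPin (pvxParOf N hN c) m z t).Mp ∩ pvtU (pvlmDel c m) (pvilZo (pvxParOf N hN c) m z t ω) ∩ pvcaBx (pvxParOf N hN c).num (pvilPin (pvxParOf N hN c) m z t) ∩
        {w | ((pvxParOf N hN c).ty t).a * pvlmH m ≤ ‖w - z‖})
      ((pvilPin (pvxParOf N hN c) m z t).Mm ∩ pvtU (pvlmDel c m) (pvilZi (pvxParOf N hN c) m z t ω) ∩ pvcaBx (pvxParOf N hN c).num (pvilPin (pvxParOf N hN c) m z t) ∩
        {w | ((pvxParOf N hN c).ty t).a * pvlmH m ≤ ‖w - z‖}) := by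
  obtain ⟨Cth, r, κs, hW⟩ := (pvnr_wf hN c0 nb).wf
  have hd : 0 < pvlmDel c m := pvlm_Del_pos c m
  have S := pvc2h_stub_rec c0 N hN nb hm 1 z t hω
  have ip : (pvilPin (pvxParOf N hN c) m z t).Mp ∩ pvtU (pvlmDel c m) (pvilZo (pvxParOf N hN c) m z t ω) ∩ pvcaBx (pvxParOf N hN c).num (pvilPin (pvxParOf N hN c) m z t) ∩
      {w | ((pvxParOf N hN c).ty t).a * pvlmH m ≤ ‖w - z‖} ⊆ pvc2hMp (pvxParOf N hN c) m z t (pvilZo (pvxParOf N hN c) m z t ω) := fun w hw =>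
    ⟨⟨⟨⟨hw.1.1.1, pvc2h_core_of hd hw.1.1.2 hw.1.2 (mem_closedBall_self hd.le)⟩, hw.1.2⟩, hw.2⟩, hw.1.1.2⟩
  have im : (pvilPin (pvxParOf N hN c) m z t).Mm ∩ pvtU (pvlmDel c m) (pvilZi (pvxParOf N hN c) m z t ω) ∩ pvcaBx (pvxParOf N hN c).num (pvilPin (pvxParOf N hN c) m z t) ∩
      {w | ((pvxParOf N hN c).ty t).a * pvlmH m ≤ ‖w - z‖} ⊆ pvc2hMm (pvxParOf N hN c) m z t (pvilZi (pvxParOf N hN c) m z t ω) := fun w hw =>
    ⟨⟨⟨⟨hw.1.1.1, pvc2h_core_of hd hw.1.1.2 hw.1.2 (mem_closedBall_self hd.le)⟩, hw.1.2⟩, hw.2⟩, hw.1.1.2⟩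
  exact pvq4_hd hW hm (pvea_tyOk hN t) (pvq4_ln_rec c0 N hN nb hm 1 t) z (fun w hw => hw.1.2) (fun w hw => hw.1.2) (S.p_eM.mono_left ip) (S.m_oM.mono_left im) (S.sep.mono ip im)

end rec

end Claimed.Agent.R289
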