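-- KEEP
import Claimed.Agent.R289.Exit.EngRec
import Claimed.Agent.R289.Tr.FrcDoor
import Claimed.Agent.R289.Exit.ParEngF
import Claimed.Agent.R289.Exit.ParEngY
import Claimed.Agent.R289.Exit.EngU4

/-!
# Row 289 (S0537), THE WALL, ROAD E, S0 PAR, file Exit/ParBd : EVERY REGION OF THE ENGINE OF RECORD IS BOUNDED      (helper73, guardian of S0 PAR; prefix `pvbd_`)

ASKED BY 193 (`Tr/SqFin`: `bY : IsBounded (𝔈.oY m t)` ..), 35 116 54 (`PvjeEnd.Wf.bK bD bM`, `PvjeTest.Ok.bO`), the mesh certificates of 238 (`pvgu_frc_mesh`: `E` bounded).      `Defs/InstWf` has no such field (only `e_bdd`): by T12 these are LEMMAS AT THE CONCRETE ENGINE.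
NO LEVEL HYPOTHESIS, NO TYPE HYPOTHESIS: every statement holds for ALL `m`, `t`, `ε`.
* sec. 1  generic: `pvbd_of_box`, images `pvbd_sim pvbd_sh pvbd_pl pvbd_at`, squares `pvbd_ccSq pvbd_ehSq pvbd_wSq`
* sec. 2  the building blocks of 124 (`Exit/ParEng`: `pvegRc Ra K Ka Y Ya`; the direction may be `0`: then the funnel is empty) and of 166 (`Exit/ParEngR`: `pvehO RK RY Body EK EY`), lanes of 209
* sec. 3  any parameter `𝔓` with `0 ≤ ρ`: `pvbd_OM OK OKa OY OYa IM IK IKa IY IYa rO rK rY eK eY`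
* sec. 4  the engine `pveaEng 𝔓 J` with bounded door regions: **`pvbd_eng`** `: PvbdEng (pveaEng 𝔓 J)`;   `PvbdEng 𝔈` = ONE RECORD with all the fields (`oM .. fY`, `O₀`, `K₀`) + consequences for ANY `𝔈`: doors `PvbdEng.door kyDoor`, shifted regions `.sh_oM ..`
* sec. 5  **`pvbd_rec N hN c nb : PvbdEng (pvnaEngRec N hN c nb)`**;   `pvbd_of_rec : PvnaRec N hN c 𝔈 → PvbdEng 𝔈`
* sec. 6  THE REFERENCE PLUG AGAINST THE THICK LINK: `pvbd_block_off` (the whole block `sq(zu, Δ/2)` is off the entrance mouth `pvegIM`), `pvbd_rH_win` (window of `S⁺` at the scale `5Δ/2` ⊆ `(zu + rO) ∪ (z + eK)`), **`pvbd_rH`** (= leaf `pvet_rH` of `Exit/FrcT`, at the scale of `pvnaRG`); GENERIC: `pvbd_win_gen` (any window, any scale), `pvbd_rH_gen` (any event read in `pvkgEp ∪ (pvhfT a).Es true`)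
* sec. 7  the regions of the engine v3, ALL `m t`: `pvbd_ffK pvbd_ffY0 pvbd_ffY` (182), `pvbd_OYc pvbd_IYc` (245; `0 ≤ ρ₃`);   a core / a smaller room: `(old).subset ..`
* sec. 8  U4 (84 `Exit/EngU4`): **`PvbdEng.nu`**, `pvbd_engA` (boundedness at `pvnuEng`, `pvnuEngA`);   `pvbd_block_offO` (block of the plug off the EXIT mouth), `pvbd_win_genF` (mirror of `pvbd_win_gen` for `pveffK`), model free `pvbd_nu_east pvbd_nu_west`;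
          **`pvbd_nu_Ep pvbd_nu_Em`** (`zu + s_m E± ⊆ (zu + new rO) ∪ (z + new eK / fK)`, `s_m = pvurS`), **`pvbd_nu_rHe pvbd_nu_rHf`** (= `pvet_rH`, `pvif_l_rH` after L2; twins: `pvvn_*` of 173 `Exit/RefWin`)
-/

set_option autoImplicit false

namespace Claimed.Agent.R289

open Set Metric Bornology Claims.C0465

/-! ## 1. generic -/

theorem pvbd_of_box {S : Set ℂ} {a b : ℝ} (h : ∀ w ∈ S, |w.re| ≤ a ∧ |w.im| ≤ b) : IsBounded S := by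
  refine (isBounded_closedBall (x := (0 : ℂ)) (r := a + b)).subset fun w hw => ?_
  rw [mem_closedBall_zero_iff]
  obtain ⟨h1, h2⟩ := h w hw
  exact (Complex.norm_le_abs_re_add_abs_im w).trans (add_le_add h1 h2)

theorem pvbd_sim (z d : ℂ) {S : Set ℂ} (h : IsBounded S) : IsBounded (pvthSim z d '' S) := by
  obtain ⟨R, hR⟩ := h.subset_closedBall (0 : ℂ)
  refine (isBounded_closedBall (x := z) (r := ‖d‖ * R)).subset ?_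
  rintro _ ⟨w, hw, rfl⟩
  have h1 := hR hw
  rw [mem_closedBall_zero_iff] at h1
  rw [mem_closedBall_iff_norm]
  have e : pvthSim z d w - z = d * w := by unfold pvthSim; ring
  rw [e, norm_mul]
  exact mul_le_mul_of_nonneg_left h1 (norm_nonneg _)

theorem pvbd_at (z d : ℂ) {S : Set ℂ} (h : IsBounded S) : IsBounded (pvkdAt z d S) := pvbd_sim z d h

theorem pvbd_pl (z d : ℂ) {S : Set ℂ} (h : IsBounded S) : IsBounded (pvccPl z d S) := pvbd_sim z d h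

theorem pvbd_sh (z : ℂ) {S : Set ℂ} (h : IsBounded S) : IsBounded (pvieSh z S) := by
  have e : pvieSh z S = pvthSim z 1 '' S := by
    unfold pvieSh
    refine image_congr fun w _ => ?_
    unfold pvthSim
    rw [one_mul]
  rw [e]
  exact pvbd_sim z 1 h

theorem pvbd_N_le {w c : ℂ} {r : ℝ} (h : pvccN (w - c) ≤ r) : ‖w - c‖ ≤ r + r :=
  (Complex.norm_le_abs_re_add_abs_im _).trans (add_le_add ((le_max_left _ _).trans h) ((le_max_right _ _).trans h))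

theorem pvbd_ehSq (c : ℂ) (r : ℝ) : IsBounded (pvehSq c r) :=
  (isBounded_closedBall (x := c) (r := r + r)).subset fun w hw => by
    rw [mem_closedBall_iff_norm]
    exact pvbd_N_le hw

theorem pvbd_ccSq (c : ℂ) (r : ℝ) : IsBounded (pvccSq c r) :=
  (pvbd_ehSq c r).subset fun w hw => by
    have h : pvccN (w - c) < r := hw
    exact h.le

theorem pvbd_wSq (z : ℂ) (r : ℝ) : IsBounded (pvwSq z r) :=
  (pvbd_ehSq z r).subset fun _ hw => max_le hw.1 hw.2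

theorem pvbd_kgB (x0 x1 y0 y1 : ℝ) : IsBounded (pvkgB x0 x1 y0 y1) :=
  pvbd_of_box (a := max |x0| |x1|) (b := max |y0| |y1|) fun w hw => by
    obtain ⟨h1, h2, h3, h4⟩ := hw
    exact ⟨abs_le_max_abs_abs h1.le h2.le, abs_le_max_abs_abs h3.le h4.le⟩

/-! ## 2. the building blocks -/

/-- a set on which the two coordinates `pvegS`, `pvegL` of the frame `(Y, u)` are bounded;   if `u = 0` both vanish -/
theorem pvbd_frame {Y u : ℂ} (hu : u ≠ 0) {S : Set ℂ} {a b : ℝ} (h : ∀ v ∈ S, |pvegS Y u v| ≤ a ∧ |pvegL Y u v| ≤ b) : IsBounded S := by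
  refine (isBounded_closedBall (x := Y) (r := (a + b) / ‖u‖)).subset fun v hv => ?_
  rw [mem_closedBall_iff_norm]
  obtain ⟨h1, h2⟩ := h v hv
  have hn : 0 < ‖u‖ := norm_pos_iff.2 hu
  rw [le_div_iff₀ hn]
  have e : ‖v - Y‖ * ‖u‖ = ‖(v - Y) * (starRingEnd ℂ) u‖ := by rw [norm_mul, Complex.norm_conj]
  rw [e]
  exact (Complex.norm_le_abs_re_add_abs_im _).trans (add_le_add h1 h2)

theorem pvbd_Ra (Y u p : ℂ) {e δ : ℝ} (w a : ℝ) (h0 : 0 < e + 2 * δ) : IsBounded (pvegRa Y u p e δ w a) := by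
  by_cases hu : u = 0
  · have : pvegRa Y u p e δ w a = ∅ := by
      ext v
      simp only [pvegRa, mem_ofPred_eq, mem_empty_iff_false, iff_false, not_and]
      intro h1
      exfalso
      have : pvegS Y u v = 0 := by unfold pvegS; rw [hu]; simp
      linarith
    rw [this]
    exact isBounded_empty
  · refine pvbd_frame (Y := Y) hu (a := max |e + 2 * δ| |pvegS Y u p - a|) (b := w + |pvegL Y u p|) fun v hv => ?_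
    obtain ⟨h1, h2, h3⟩ := hv
    refine ⟨abs_le_max_abs_abs h1 h2, ?_⟩
    have := abs_sub_abs_le_abs_sub (pvegL Y u v) (pvegL Y u p)
    linarith

theorem pvbd_Rc (Y u p : ℂ) {e δ : ℝ} (w : ℝ) (h0 : 0 < e + 2 * δ) : IsBounded (pvegRc Y u p e δ w) :=
  (pvbd_Ra Y u p w (δ / 4) h0).subset fun _ hv => hv

theorem pvbd_K (Y u p : ℂ) {e δ : ℝ} (w rM : ℝ) (h0 : 0 < e + 2 * δ) : IsBounded (pvegK Y u p e δ w rM) := (pvbd_Rc Y u p w h0).subset sdiff_subset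

theorem pvbd_Ka (Y u p : ℂ) {e δ : ℝ} (w rM a : ℝ) (O : Set ℂ) (h0 : 0 < e + 2 * δ) : IsBounded (pvegKa Y u p e δ w rM a O) :=
  (pvbd_Ra Y u p w a h0).subset (pveg_Ka_sub_Ra Y u p e δ w rM a O)

theorem pvbd_Y (Y u p : ℂ) {e δ : ℝ} (w rM : ℝ) {O : Set ℂ} (hO : IsBounded O) (h0 : 0 < e + 2 * δ) : IsBounded (pvegY Y u p e δ w rM O) :=
  (isBounded_closedBall.union (pvbd_K Y u p w rM h0)).union hO

theorem pvbd_Ya (Y u p : ℂ) {e δ : ℝ} (w rM a : ℝ) (h0 : 0 < e + 2 * δ) : IsBounded (pvegYa Y u p e δ w rM a) :=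
  isBounded_closedBall.union (pvbd_Ra Y u p w a h0)

theorem pvbd_lane (a b : ℝ) (τ : PvtTurn) : IsBounded (pvfeLane a b τ) := by
  refine pvbd_of_box (a := 1 + |a| + |b|) (b := 1 + |a| + |b|) fun w hw => ?_
  have ha := abs_nonneg a
  have hb := abs_nonneg b
  have ha1 := le_abs_self a
  have hb1 := le_abs_self b
  have ha2 := neg_abs_le a
  have hb2 := neg_abs_le b
  cases τ
  · obtain ⟨h1, h2, h3, h4⟩ := hw
    exact ⟨abs_le.2 ⟨by linarith, by linarith⟩, abs_le.2 ⟨by linarith, by linarith⟩⟩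
  · rcases hw with ⟨h1, h2, h3, h4⟩ | ⟨h1, h2, h3, h4⟩ <;> exact ⟨abs_le.2 ⟨by linarith, by linarith⟩, abs_le.2 ⟨by linarith, by linarith⟩⟩
  · rcases hw with ⟨h1, h2, h3, h4⟩ | ⟨h1, h2, h3, h4⟩ <;> exact ⟨abs_le.2 ⟨by linarith, by linarith⟩, abs_le.2 ⟨by linarith, by linarith⟩⟩

theorem pvbd_biUnion {ι : Type*} (s : Finset ι) {f : ι → Set ℂ} (h : ∀ i ∈ s, IsBounded (f i)) : IsBounded (⋃ i ∈ s, f i) :=
  (isBounded_biUnion s.finite_toSet).2 h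

theorem pvbd_lanes (a b : ℝ) (z d : ℂ) (l : List PvtTurn) : IsBounded (pvfeLanes a b z d l) :=
  pvbd_biUnion _ fun _ _ => pvbd_pl _ _ (pvbd_lane a b _)

theorem pvbd_ehO (Δ : ℝ) : IsBounded (pvehO Δ) := pvbd_ccSq _ _

theorem pvbd_RK (Dr : Set ℂ) (Δ : ℝ) : IsBounded (pvehRK Dr Δ) := (pvbd_ehSq 0 (Δ / 2)).subset fun _ hw => hw.1

theorem pvbd_RY (δ Δ : ℝ) : IsBounded (pvehRY δ Δ) :=
  pvbd_of_box (a := max |-(Δ / 2) + δ / 64| |-(Δ / 64)|) (b := max |-(Δ / 10)| |4 * Δ / 10|) fun _ hw => ⟨abs_le_max_abs_abs hw.1 hw.2.1, abs_le_max_abs_abs hw.2.2.1 hw.2.2.2⟩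

theorem pvbd_body (Δ : ℝ) (cu : ℂ) (lb : List PvtTurn) : IsBounded (pvehBody Δ cu lb) :=
  ((pvbd_ehSq cu (Δ / 2)).subset fun _ hw => hw.1).union (pvbd_biUnion _ fun _ _ => pvbd_ehSq _ _)

theorem pvbd_EK (Δ : ℝ) (cu : ℂ) (lb : List PvtTurn) (Mo : Set ℂ) : IsBounded (pvehEK Δ cu lb Mo) := (pvbd_body Δ cu lb).subset sdiff_subset

theorem pvbd_EY (Δ : ℝ) (cu : ℂ) (lb : List PvtTurn) {Mi : Set ℂ} (hM : IsBounded Mi) : IsBounded (pvehEY Δ cu lb Mi) := by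
  refine (IsBounded.union ?_ (pvbd_lanes _ _ _ _ _)).union hM
  exact pvbd_of_box (a := max |cu.re + Δ / 64| |cu.re + Δ / 2|) (b := max |cu.im - Δ / 10| |cu.im + 4 * Δ / 10|) fun _ hw =>
    ⟨abs_le_max_abs_abs hw.1 hw.2.1, abs_le_max_abs_abs hw.2.2.1 hw.2.2.2⟩

/-- the regions of the instance of record of 258 (cells of side `1`) -/
theorem pvbd_kgO : IsBounded pvkgO := pvbd_kgB _ _ _ _

theorem pvbd_kgK (τ : PvtTurn) : IsBounded (pvkgK τ) :=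
  ((pvbd_kgB _ _ _ _).union (pvbd_at _ _ (pvbd_kgB _ _ _ _))).subset sdiff_subset

/-! ## 3. the regions of 124 and 166 at any parameter with `0 ≤ ρ` -/

section par

variable {τ : Type} {c : ℝ} (𝔓 : PvxPar τ c)

theorem pvbd_e_pos (h0 : 0 ≤ 𝔓.num.rho) (m : ℕ) : 0 < pvegR 𝔓 m / 10 + 2 * pvlmDel c m := by
  have h1 := pvlm_Del_pos c m
  have h2 : 0 ≤ pvegR 𝔓 m := mul_nonneg h0 (pvlm_H_pos m).le
  linarith

theorem pvbd_OM (m : ℕ) (t : τ) : IsBounded (pvegOM 𝔓 m t) := isBounded_closedBall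
theorem pvbd_IM (m : ℕ) (t : τ) : IsBounded (pvegIM 𝔓 m t) := isBounded_closedBall
theorem pvbd_OK (h0 : 0 ≤ 𝔓.num.rho) (m : ℕ) (t : τ) : IsBounded (pvegOK 𝔓 m t) := pvbd_K _ _ _ _ _ (pvbd_e_pos 𝔓 h0 m)
theorem pvbd_IK (h0 : 0 ≤ 𝔓.num.rho) (m : ℕ) (t : τ) : IsBounded (pvegIK 𝔓 m t) := pvbd_K _ _ _ _ _ (pvbd_e_pos 𝔓 h0 m)
theorem pvbd_OKa (h0 : 0 ≤ 𝔓.num.rho) (O₀ : ℕ → Set ℂ) (m : ℕ) (t : τ) : IsBounded (pvegOKa 𝔓 O₀ m t) := pvbd_Ka _ _ _ _ _ _ _ (pvbd_e_pos 𝔓 h0 m)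
theorem pvbd_IKa (h0 : 0 ≤ 𝔓.num.rho) (O₀ : ℕ → Set ℂ) (m : ℕ) (t : τ) : IsBounded (pvegIKa 𝔓 O₀ m t) := pvbd_Ka _ _ _ _ _ _ _ (pvbd_e_pos 𝔓 h0 m)
theorem pvbd_OY (h0 : 0 ≤ 𝔓.num.rho) {O₀ : ℕ → Set ℂ} (hO : ∀ m, IsBounded (O₀ m)) (m : ℕ) (t : τ) : IsBounded (pvegOY 𝔓 O₀ m t) :=
  pvbd_Y _ _ _ _ _ (pvbd_sim _ _ (hO m)) (pvbd_e_pos 𝔓 h0 m)
theorem pvbd_IY (h0 : 0 ≤ 𝔓.num.rho) {O₀ : ℕ → Set ℂ} (hO : ∀ m, IsBounded (O₀ m)) (m : ℕ) (t : τ) : IsBounded (pvegIY 𝔓 O₀ m t) :=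
  pvbd_Y _ _ _ _ _ (pvbd_sim _ _ (hO m)) (pvbd_e_pos 𝔓 h0 m)
theorem pvbd_OYa (h0 : 0 ≤ 𝔓.num.rho) (m : ℕ) (t : τ) : IsBounded (pvegOYa 𝔓 m t) := pvbd_Ya _ _ _ _ _ _ (pvbd_e_pos 𝔓 h0 m)
theorem pvbd_IYa (h0 : 0 ≤ 𝔓.num.rho) (m : ℕ) (t : τ) : IsBounded (pvegIYa 𝔓 m t) := pvbd_Ya _ _ _ _ _ _ (pvbd_e_pos 𝔓 h0 m)
theorem pvbd_rO (m : ℕ) : IsBounded (pvehrO 𝔓 m) := pvbd_ehO _
theorem pvbd_rK (O0 : ℕ → Set ℂ) (m : ℕ) : IsBounded (pvehrK 𝔓 O0 m) := pvbd_RK _ _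
theorem pvbd_rY (O0 : ℕ → Set ℂ) (m : ℕ) : IsBounded (pvehrY 𝔓 O0 m) := pvbd_RY _ _
theorem pvbd_eK (Mo : ℕ → τ → Set ℂ) (m : ℕ) (t : τ) : IsBounded (pveheK 𝔓 Mo m t) := pvbd_EK _ _ _ _
theorem pvbd_eY {Mi : ℕ → τ → Set ℂ} (hM : ∀ m t, IsBounded (Mi m t)) (m : ℕ) (t : τ) : IsBounded (pveheY 𝔓 Mi m t) := pvbd_EY _ _ _ (hM m t)
/-- the tile of the thick return (182, `Exit/ParEngF`)      [(A) of T22: helper13] -/
theorem pvbd_fK (h0 : 0 ≤ 𝔓.num.rho) (m : ℕ) (t : τ) : IsBounded (pveffK 𝔓 m t) := by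
  refine IsBounded.subset ?_ (sdiff_subset : pveffK 𝔓 m t ⊆ pvefBody (pvehDl 𝔓 m) ((pvxrGam 𝔓 m).zu t) (pvefZ 𝔓 m t) (pvefD 𝔓 m t) (pvefW 𝔓 m t) (pvefF 𝔓 m t))
  refine ((pvbd_Rc _ _ _ _ (pvbd_e_pos 𝔓 h0 m)).union (pvbd_biUnion _ fun j _ => pvbd_ehSq _ _)).union ((pvbd_ehSq _ _).subset fun _ hw => hw.1)
/-- the room of the thick return -/
theorem pvbd_fY (h0 : 0 ≤ 𝔓.num.rho) (m : ℕ) (t : τ) : IsBounded (pveffY 𝔓 m t) := by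
  refine IsBounded.subset ?_ (pvlj_core_sub (pvef_Ka_pos c m).le (pveffY0 𝔓 m t))
  unfold pveffY0 pvefFY pvefF
  refine (((pvbd_Rc _ _ _ _ (pvbd_e_pos 𝔓 h0 m)).union (pvbd_lanes _ _ _ _ _)).union ?_).union (pvbd_OM 𝔓 m t)
  refine pvbd_of_box (a := |((pvxrGam 𝔓 m).zu t).re| + |pvehDl 𝔓 m|) (b := |((pvxrGam 𝔓 m).zu t).im| + |pvehDl 𝔓 m|) fun w hw => ?_
  obtain ⟨h1, h2, h3, h4⟩ := hw
  have a1 := le_abs_self ((pvxrGam 𝔓 m).zu t).re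
  have a2 := neg_abs_le ((pvxrGam 𝔓 m).zu t).re
  have a3 := le_abs_self ((pvxrGam 𝔓 m).zu t).im
  have a4 := neg_abs_le ((pvxrGam 𝔓 m).zu t).im
  have a5 := le_abs_self (pvehDl 𝔓 m)
  have a6 := neg_abs_le (pvehDl 𝔓 m)
  have a7 := abs_nonneg (pvehDl 𝔓 m)
  constructor <;> rw [abs_le] <;> constructor <;> linarith

end par

/-! ## 7 (moved before sec. 4 by 124: `pvbd_eng` cites it). the regions of the engine v3 (182 `Exit/ParEngF`, 245 `Exit/ParEngY`), ALL `m`, `t`: one line per field of `pvbd_eng` after the swaps -/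

section v3

variable {τ : Type} {c : ℝ} (𝔓 : PvxPar τ c)

theorem pvbd_efBody (Δ : ℝ) (cu z d : ℂ) (l : List PvtTurn) {F : Set ℂ} (hF : IsBounded F) : IsBounded (pvefBody Δ cu z d l F) :=
  (hF.union (pvbd_biUnion _ fun _ _ => pvbd_ehSq _ _)).union ((pvbd_ehSq cu (Δ / 2)).subset fun _ h => h.1)

theorem pvbd_efF (h0 : 0 ≤ 𝔓.num.rho) (m : ℕ) (t : τ) : IsBounded (pvefF 𝔓 m t) := pvbd_Rc _ _ _ _ (pvbd_e_pos 𝔓 h0 m)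

/-- **`fK`** of 182 -/
theorem pvbd_ffK (h0 : 0 ≤ 𝔓.num.rho) (m : ℕ) (t : τ) : IsBounded (pveffK 𝔓 m t) := (pvbd_efBody _ _ _ _ _ (pvbd_efF 𝔓 h0 m t)).subset sdiff_subset

theorem pvbd_ffY0 (h0 : 0 ≤ 𝔓.num.rho) (m : ℕ) (t : τ) : IsBounded (pveffY0 𝔓 m t) :=
  (((pvbd_efF 𝔓 h0 m t).union (pvbd_lanes _ _ _ _ _)).union
    (pvbd_of_box (a := |((pvxrGam 𝔓 m).zu t).re| + |pvehDl 𝔓 m|) (b := |((pvxrGam 𝔓 m).zu t).im| + |pvehDl 𝔓 m|) fun w hw => by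
      obtain ⟨h1, h2, h3, h4⟩ := hw
      have a1 := le_abs_self ((pvxrGam 𝔓 m).zu t).re
      have a2 := neg_abs_le ((pvxrGam 𝔓 m).zu t).re
      have a3 := le_abs_self ((pvxrGam 𝔓 m).zu t).im
      have a4 := neg_abs_le ((pvxrGam 𝔓 m).zu t).im
      have a5 := le_abs_self (pvehDl 𝔓 m)
      have a6 := neg_abs_le (pvehDl 𝔓 m)
      constructor <;> rw [abs_le] <;> constructor <;> linarith)).union (pvbd_OM 𝔓 m t)

/-- **`fY`** of 182 -/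
theorem pvbd_ffY (h0 : 0 ≤ 𝔓.num.rho) (m : ℕ) (t : τ) : IsBounded (pveffY 𝔓 m t) := (pvbd_ffY0 𝔓 h0 m t).subset (pvef_fY_sub0 m t)

theorem pvbd_Re (Y u : ℂ) {s₀ : ℝ} (s₁ l₀ r : ℝ) (h0 : 0 < s₀) : IsBounded (pveyRe Y u s₀ s₁ l₀ r) := by
  by_cases hu : u = 0
  · have : pveyRe Y u s₀ s₁ l₀ r = ∅ := by
      ext v
      simp only [pveyRe, mem_ofPred_eq, mem_empty_iff_false, iff_false, not_and]
      intro h1
      exfalso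
      have : pvegS Y u v = 0 := by unfold pvegS; rw [hu]; simp
      linarith
    rw [this]
    exact isBounded_empty
  · refine pvbd_frame (Y := Y) hu (a := max |s₀| |s₁|) (b := r + |l₀|) fun v hv => ?_
    obtain ⟨h1, h2, h3⟩ := hv
    refine ⟨abs_le_max_abs_abs h1 h2, ?_⟩
    have := abs_sub_abs_le_abs_sub (pvegL Y u v) l₀
    linarith

theorem pvbd_Yc (Y u p : ℂ) {e δ μ : ℝ} (w rM a s : ℝ) (h0 : 0 < e + 2 * δ + μ) : IsBounded (pvegYc Y u p e δ w rM a s μ) :=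
  (isBounded_closedBall.union (pvbd_Re _ _ _ _ _ h0)).union (pvbd_Re _ _ _ _ _ h0)

theorem pvbd_e_pos' (h0 : 0 ≤ 𝔓.num.rho) (h3 : 0 ≤ 𝔓.num.rho3) (m : ℕ) : 0 < pvegR 𝔓 m / 10 + 2 * pvlmDel c m + 3 * pvilMu 𝔓 m := by
  have := pvbd_e_pos 𝔓 h0 m
  have := pvey_mu_nonneg h3 m
  linarith

/-- **`oY`** of 245 -/
theorem pvbd_OYc (h0 : 0 ≤ 𝔓.num.rho) (h3 : 0 ≤ 𝔓.num.rho3) (m : ℕ) (t : τ) : IsBounded (pvegOYc 𝔓 m t) := pvbd_Yc _ _ _ _ _ _ _ (pvbd_e_pos' 𝔓 h0 h3 m)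

/-- **`iY`** of 245 -/
theorem pvbd_IYc (h0 : 0 ≤ 𝔓.num.rho) (h3 : 0 ≤ 𝔓.num.rho3) (m : ℕ) (t : τ) : IsBounded (pvegIYc 𝔓 m t) := pvbd_Yc _ _ _ _ _ _ _ (pvbd_e_pos' 𝔓 h0 h3 m)

end v3

/-! ## 4. the record, the engine `pveaEng` -/

/-- **ALL THE REGIONS OF AN ENGINE ARE BOUNDED**, all levels, all types, all meshes -/
structure PvbdEng {τ : Type} (𝔈 : PvieEng τ) : Prop where
  oM : ∀ m t, IsBounded (𝔈.oM m t)
  oK : ∀ m t, IsBounded (𝔈.oK m t)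
  oY : ∀ m t, IsBounded (𝔈.oY m t)
  iM : ∀ m t, IsBounded (𝔈.iM m t)
  iK : ∀ m t, IsBounded (𝔈.iK m t)
  iY : ∀ m t, IsBounded (𝔈.iY m t)
  eM : ∀ m t, IsBounded (𝔈.eM m t)
  eK : ∀ m t, IsBounded (𝔈.eK m t)
  eY : ∀ m t, IsBounded (𝔈.eY m t)
  fM : ∀ m t, IsBounded (𝔈.fM m t)
  fK : ∀ m t, IsBounded (𝔈.fK m t)
  fY : ∀ m t, IsBounded (𝔈.fY m t)
  rK : ∀ m, IsBounded (𝔈.rK m)
  rY : ∀ m, IsBounded (𝔈.rY m)
  rO : ∀ m, IsBounded (𝔈.rO m)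
  O₀ : ∀ m ε, IsBounded (𝔈.kit m ε).O₀
  K₀ : ∀ m ε s, IsBounded ((𝔈.kit m ε).K₀ s)

namespace PvbdEng

variable {τ : Type} {𝔈 : PvieEng τ} (H : PvbdEng 𝔈)
include H

/-- a placed door plug -/
theorem door (m : ℕ) (ε : ℝ) (z d : ℂ) : IsBounded (pvieDoor 𝔈 m ε z d) := pvbd_sim z d (H.O₀ m ε)
theorem kyDoor (m : ℕ) (ε : ℝ) (z d : ℂ) : IsBounded (pvkyDoor (𝔈.kit m ε) z d) := pvbd_sim z d (H.O₀ m ε)
/-- a placed tile of a cell -/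
theorem tile (m : ℕ) (ε : ℝ) (z d : ℂ) (s : PvtTurn) : IsBounded (pvthSim z d '' (𝔈.kit m ε).K₀ s) := pvbd_sim z d (H.K₀ m ε s)
theorem sh_oM (z : ℂ) (m : ℕ) (t : τ) : IsBounded (pvieSh z (𝔈.oM m t)) := pvbd_sh z (H.oM m t)
theorem sh_oK (z : ℂ) (m : ℕ) (t : τ) : IsBounded (pvieSh z (𝔈.oK m t)) := pvbd_sh z (H.oK m t)
theorem sh_oY (z : ℂ) (m : ℕ) (t : τ) : IsBounded (pvieSh z (𝔈.oY m t)) := pvbd_sh z (H.oY m t)
theorem sh_iM (z : ℂ) (m : ℕ) (t : τ) : IsBounded (pvieSh z (𝔈.iM m t)) := pvbd_sh z (H.iM m t)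
theorem sh_iK (z : ℂ) (m : ℕ) (t : τ) : IsBounded (pvieSh z (𝔈.iK m t)) := pvbd_sh z (H.iK m t)
theorem sh_iY (z : ℂ) (m : ℕ) (t : τ) : IsBounded (pvieSh z (𝔈.iY m t)) := pvbd_sh z (H.iY m t)
theorem sh_eM (z : ℂ) (m : ℕ) (t : τ) : IsBounded (pvieSh z (𝔈.eM m t)) := pvbd_sh z (H.eM m t)
theorem sh_eK (z : ℂ) (m : ℕ) (t : τ) : IsBounded (pvieSh z (𝔈.eK m t)) := pvbd_sh z (H.eK m t)
theorem sh_eY (z : ℂ) (m : ℕ) (t : τ) : IsBounded (pvieSh z (𝔈.eY m t)) := pvbd_sh z (H.eY m t)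
theorem sh_fM (z : ℂ) (m : ℕ) (t : τ) : IsBounded (pvieSh z (𝔈.fM m t)) := pvbd_sh z (H.fM m t)
theorem sh_fK (z : ℂ) (m : ℕ) (t : τ) : IsBounded (pvieSh z (𝔈.fK m t)) := pvbd_sh z (H.fK m t)
theorem sh_fY (z : ℂ) (m : ℕ) (t : τ) : IsBounded (pvieSh z (𝔈.fY m t)) := pvbd_sh z (H.fY m t)
theorem sh_rK (z : ℂ) (m : ℕ) : IsBounded (pvieSh z (𝔈.rK m)) := pvbd_sh z (H.rK m)
theorem sh_rY (z : ℂ) (m : ℕ) : IsBounded (pvieSh z (𝔈.rY m)) := pvbd_sh z (H.rY m)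
theorem sh_rO (z : ℂ) (m : ℕ) : IsBounded (pvieSh z (𝔈.rO m)) := pvbd_sh z (H.rO m)

end PvbdEng

/-- **the engine `pveaEng 𝔓 J`** of 124: bounded as soon as the regions of the kit are -/
theorem pvbd_eng {τ : Type} {c : ℝ} (𝔓 : PvxPar τ c) (h0 : 0 ≤ 𝔓.num.rho) (h3 : 0 ≤ 𝔓.num.rho3) (J : PveaIn) (hO : ∀ m ε, IsBounded (J.kit m ε).O₀) (hK : ∀ m ε s, IsBounded ((J.kit m ε).K₀ s)) :
    PvbdEng (pveaEng 𝔓 J) where
  oM := pvbd_OM 𝔓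
  oK := pvbd_OKa 𝔓 h0 J.O0
  oY := pvbd_OYc 𝔓 h0 h3
  iM := pvbd_IM 𝔓
  iK := pvbd_IKa 𝔓 h0 J.O0
  iY := pvbd_IYc 𝔓 h0 h3
  eM := pvbd_IM 𝔓
  eK := fun m t => (pvbd_eK 𝔓 _ m t).union (pvbd_IK 𝔓 h0 m t)
  eY := fun m t => by
    first
      | exact (pvbd_eY 𝔓 (pvbd_IM 𝔓) m t).union (pvbd_IK 𝔓 h0 m t)
      | exact ((pvbd_eY 𝔓 (pvbd_IM 𝔓) m t).union (pvbd_IK 𝔓 h0 m t)).subset (pvvz_eY_old (by have h : 0 ≤ pvilMu 𝔓 m := pvey_mu_nonneg h3 m; exact mul_nonneg (by norm_num) h) t)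
  fM := pvbd_OM 𝔓
  fK := pvbd_fK 𝔓 h0
  fY := pvbd_fY 𝔓 h0
  rK := pvbd_rK 𝔓 J.O0
  rY := pvbd_rY 𝔓 J.O0
  rO := pvbd_rO 𝔓
  O₀ := hO
  K₀ := hK

/-! ## 6. the reference plug against the thick link -/

section refplug

open Complex

/-- the forward coordinate is at most the distance -/
theorem pvbd_S_le {Y u v : ℂ} (hu : ‖u‖ = 1) : pvegS Y u v ≤ ‖v - Y‖ := by
  unfold pvegS
  have h := (le_abs_self _).trans (Complex.abs_re_le_norm ((v - Y) * (starRingEnd ℂ) u))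
  rwa [norm_mul, Complex.norm_conj, hu, mul_one] at h

/-- **THE WHOLE BLOCK OF THE REFERENCE PLUG IS OFF THE ENTRANCE MOUTH** -/
theorem pvbd_block_off {τ : Type} {c : ℝ} {𝔓 : PvxPar τ c} {m0 : ℕ} (H : PveaPar 𝔓 m0) {m : ℕ} (hm : m0 ≤ m) {t : τ} (hT : pviwTyOk 𝔓 t) :
    Disjoint (pvehSq ((pvxrGam 𝔓 m).zu t) (pvehDl 𝔓 m / 2)) (pvegIM 𝔓 m t) := by
  have G := H.geo m hm t hT
  have D := pveg_door_i (H.lev hm) hT
  rw [H.gam, pvxr_gam_din, pvxr_gam_pin, neg_neg] at D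
  have hδ := pvlm_Del_pos c m
  have hΔ := pveh_Del_le_Dl G.n0
  rw [Set.disjoint_left]
  intro w hw hM
  rw [G.zu', pveh_mem_sq] at hw
  unfold pvegIM at hM
  rw [mem_closedBall_iff_norm] at hM
  have hu : ‖(I : ℂ) ^ pvxrB 𝔓 t‖ = 1 := by rw [norm_pow, Complex.norm_I, one_pow]
  have h1 := (pvbd_S_le (Y := pvegYm 𝔓 m t) (v := w) hu).trans hM
  have h2 := D.s_lo
  have h3 := D.n1
  have key : pvegS (pvegYm 𝔓 m t) (I ^ pvxrB 𝔓 t) (pvxrDoor (pvlmDel c m) (pvxrEm 𝔓 m t) (pvxrB 𝔓 t)) + 3 * pvehDl 𝔓 m ≤ pvegS (pvegYm 𝔓 m t) (I ^ pvxrB 𝔓 t) w := by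
    obtain ⟨⟨a1, a2⟩, a3, a4⟩ := hw
    generalize pvehDl 𝔓 m = Δ at *
    generalize pvlmDel c m = δ at *
    generalize pvegYm 𝔓 m t = Y at *
    generalize pvxrEm 𝔓 m t = e at *
    generalize pvxrB 𝔓 t = b at *
    have hb : b % 4 = 0 ∨ b % 4 = 1 ∨ b % 4 = 2 ∨ b % 4 = 3 := by omega
    rw [Complex.I_pow_eq_pow_mod]
    unfold pvegS pvxrDoor
    rw [Complex.I_pow_eq_pow_mod b]
    rcases hb with hb | hb | hb | hb <;> simp only [pvxrUo, hb] at a1 a2 a3 a4 ⊢ <;>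
      simp [pvtZ, pvtCtr, pow_succ] at a1 a2 a3 a4 ⊢ <;> nlinarith
  linarith

/-- **A WINDOW PLACED AT THE REFERENCE PLUG** (generic in the window `E` and in the scale `s`): inside the closed block, its west part inside the open square of the plug ⟹ it lies in (region of the reference plug) ∪ (tile of the thick link) -/
theorem pvbd_win_gen {τ : Type} {c : ℝ} {𝔓 : PvxPar τ c} {m0 : ℕ} (H : PveaPar 𝔓 m0) {m : ℕ} (hm : m0 ≤ m) {t : τ} (hT : pviwTyOk 𝔓 t) (z : ℂ) {s : ℝ} {E : Set ℂ}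
    (hE : ∀ w ∈ E, |s * w.re| ≤ pvehDl 𝔓 m / 2 ∧ |s * w.im| ≤ pvehDl 𝔓 m / 2 ∧ (s * w.re < 0 → |s * w.re| < pvehDl 𝔓 m / 4 ∧ |s * w.im| < pvehDl 𝔓 m / 4)) :
    pvthSim (pvieZu 𝔓 m z t) ((s : ℝ) : ℂ) '' E ⊆ pvieSh (pvieZu 𝔓 m z t) (pvehrO 𝔓 m) ∪ pvieSh z (pveheK 𝔓 (pvegIM 𝔓) m t ∪ pvegIK 𝔓 m t) := by
  have hoff := pvbd_block_off H hm hT
  have hzu : pvieZu 𝔓 m z t = z + (pvxrGam 𝔓 m).zu t := by unfold pvieZu; rw [H.gam]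
  rintro _ ⟨w, hw, rfl⟩
  obtain ⟨b1, b2, b3⟩ := hE w hw
  set Δ := pvehDl 𝔓 m with hΔdef
  have e1 : (((s : ℝ) : ℂ) * w).re = s * w.re := by rw [Complex.re_ofReal_mul]
  have e2 : (((s : ℝ) : ℂ) * w).im = s * w.im := by rw [Complex.im_ofReal_mul]
  by_cases hin : ((s : ℝ) : ℂ) * w ∈ pvccSq 0 (Δ / 4)
  · left
    exact ⟨_, hin, rfl⟩
  · right
    refine ⟨(pvxrGam 𝔓 m).zu t + ((s : ℝ) : ℂ) * w, Or.inl ?_, by rw [hzu]; unfold pvthSim; ring⟩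
    rw [abs_le] at b1 b2
    have hsq : (pvxrGam 𝔓 m).zu t + ((s : ℝ) : ℂ) * w ∈ pvehSq ((pvxrGam 𝔓 m).zu t) (Δ / 2) := by
      rw [pveh_mem_sq, add_re, add_im, e1, e2]
      refine ⟨⟨?_, ?_⟩, ?_, ?_⟩ <;> linarith [b1.1, b1.2, b2.1, b2.2]
    have hre : 0 ≤ s * w.re := by
      by_contra hneg
      push Not at hneg
      apply hin
      show pvccN (((s : ℝ) : ℂ) * w - 0) < Δ / 4
      rw [sub_zero]
      unfold pvccN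
      rw [e1, e2]
      exact max_lt (b3 hneg).1 (b3 hneg).2
    refine ⟨Or.inl ⟨hsq, ?_⟩, ?_⟩
    · rw [add_re, e1]
      linarith
    · rintro (h | h)
      · apply hin
        have h' : pvccN ((pvxrGam 𝔓 m).zu t + ((s : ℝ) : ℂ) * w - (pvxrGam 𝔓 m).zu t) < Δ / 4 := h
        rw [add_sub_cancel_left] at h'
        show pvccN (((s : ℝ) : ℂ) * w - 0) < Δ / 4
        rwa [sub_zero]
      · exact Set.disjoint_left.1 hoff hsq h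

/-- the two windows of the exit side event `S⁺` (closed: 174 `pvhfT`; open: 258 `pvkgEp`) lie in one box -/
theorem pvbd_Ep_box {w : ℂ} (hw : w ∈ pvkgEp ∪ (pvhfT pvkgG.a).Es true) : (-(13 / 160) ≤ w.re ∧ w.re ≤ 11 / 80) ∧ (-(13 / 160) ≤ w.im ∧ w.im ≤ 13 / 160) := by
  have ha : pvkgG.a = 1 / 40 := rfl
  rw [ha] at hw
  rcases hw with (hw | hw) | hw | hw
  · obtain ⟨h1, h2, h3, h4⟩ := hw
    exact ⟨⟨h1.le, by linarith⟩, h3.le, h4.le⟩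
  · obtain ⟨h1, h2, h3, h4⟩ := hw
    exact ⟨⟨by linarith, h2.le⟩, by linarith, by linarith⟩
  · obtain ⟨h1, h2⟩ := hw
    rw [sub_zero, abs_le] at h1 h2
    exact ⟨⟨by linarith [h1.1], by linarith [h1.2]⟩, by linarith [h2.1], by linarith [h2.2]⟩
  · simp only [pvkdRect, if_true] at hw
    obtain ⟨h1, h2, h3, h4⟩ := hw
    exact ⟨⟨by linarith, by linarith⟩, by linarith, by linarith⟩

/-- **THE WINDOWS OF THE EXIT SIDE EVENT `S⁺` OF THE REFERENCE PLUG**, at the scale `5 Δ_m / 2`, placed at `zu`, lie in (region of the reference plug) ∪ (tile of the thick link) -/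
theorem pvbd_rH_win {τ : Type} {c : ℝ} {𝔓 : PvxPar τ c} {m0 : ℕ} (H : PveaPar 𝔓 m0) {m : ℕ} (hm : m0 ≤ m) {t : τ} (hT : pviwTyOk 𝔓 t) (z : ℂ) :
    pvthSim (pvieZu 𝔓 m z t) ((5 / 2 * pvehDl 𝔓 m : ℝ) : ℂ) '' (pvkgEp ∪ (pvhfT pvkgG.a).Es true) ⊆
      pvieSh (pvieZu 𝔓 m z t) (pvehrO 𝔓 m) ∪ pvieSh z (pveheK 𝔓 (pvegIM 𝔓) m t ∪ pvegIK 𝔓 m t) := by
  have hΔ := pveh_Dl_pos (H.geo m hm t hT).n0
  refine pvbd_win_gen H hm hT z fun w hw => ?_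
  obtain ⟨⟨b1, b2⟩, b3, b4⟩ := pvbd_Ep_box hw
  refine ⟨?_, ?_, fun _ => ⟨?_, ?_⟩⟩
  · rw [abs_le]; constructor <;> nlinarith
  · rw [abs_le]; constructor <;> nlinarith
  · rw [abs_lt]; constructor <;> nlinarith
  · rw [abs_lt]; constructor <;> nlinarith

end refplug

/-! ## 8. U4: the new window of the reference plug -/

section u4

open Complex

/-- **the engine with the new window of the reference plug** (84, `Exit/EngU4`, model free) -/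
theorem PvbdEng.nu {τ : Type} {c : ℝ} (𝔓 : PvxPar τ c) {𝔈 : PvieEng τ} (B : PvbdEng 𝔈) {rO' rY' : ℕ → Set ℂ} (rp' : ℕ → PviePl) (rG' : ℕ → ℝ → Set (Conf PvPt))
    (hO : ∀ m, IsBounded (rO' m)) (hY : ∀ m, IsBounded (rY' m)) : PvbdEng (pvnuEng 𝔓 𝔈 rO' rY' rp' rG') where
  oM := B.oM
  oK := B.oK
  oY := B.oY
  iM := B.iM
  iK := B.iK
  iY := B.iY
  eM := B.eM
  eK := fun m t => (B.eK m t).union (pvbd_sh _ ((B.rO m).subset (pvnu4_AE_sub _ _)))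
  eY := B.eY
  fM := B.fM
  fK := fun m t => (B.fK m t).union (pvbd_sh _ ((B.rO m).subset (pvnu4_AW_sub _ _)))
  fY := B.fY
  rK := fun m => (B.rK m).union ((B.rO m).subset (pvnu4_AW_sub _ _))
  rY := hY
  rO := hO
  O₀ := B.O₀
  K₀ := B.K₀

theorem pvbd_nuRO {τ : Type} {c : ℝ} (𝔓 : PvxPar τ c) (m : ℕ) : IsBounded (pvnuRO 𝔓 m) := pvbd_sim _ _ pvbd_kgO

theorem pvbd_nuRY {τ : Type} {c : ℝ} (𝔓 : PvxPar τ c) (m : ℕ) : IsBounded (pvnuRY 𝔓 m) := pvbd_RY _ _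

/-- **`pvnuEngA`** of 84, any room `rY'` inside a bounded one -/
theorem pvbd_engA {τ : Type} {c : ℝ} (𝔓 : PvxPar τ c) (h0 : 0 ≤ 𝔓.num.rho) (h3 : 0 ≤ 𝔓.num.rho3) (J : PveaIn) (hO : ∀ m ε, IsBounded (J.kit m ε).O₀) (hK : ∀ m ε s, IsBounded ((J.kit m ε).K₀ s))
    {rY' : ℕ → Set ℂ} (hY : ∀ m, IsBounded (rY' m)) (𝔊 : PvpgGlob) (b : ENNReal) : PvbdEng (pvnuEngA 𝔓 J rY' 𝔊 b) :=
  (pvbd_eng 𝔓 h0 h3 J hO hK).nu 𝔓 _ _ (pvbd_nuRO 𝔓) hY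

/-- **U4, EAST**: a set which lies in (old window of the plug) ∪ (old tile `eK`), whose part WEST of the plane of the plug lies in the new window, lies in (new window) ∪ (new tile `eK`) -/
theorem pvbd_nu_east {τ : Type} {c : ℝ} (𝔓 : PvxPar τ c) (𝔈 : PvieEng τ) (rO' rY' : ℕ → Set ℂ) (rp' : ℕ → PviePl) (rG' : ℕ → ℝ → Set (Conf PvPt)) (m : ℕ) (z : ℂ) (t : τ) {W : Set ℂ}
    (h : W ⊆ pvieSh (pvieZu 𝔓 m z t) (𝔈.rO m) ∪ pvieSh z (𝔈.eK m t)) (hw : ∀ w ∈ W, w ∈ pvieSh (pvieZu 𝔓 m z t) (𝔈.rO m) → (w - pvieZu 𝔓 m z t).re < 0 → w ∈ pvieSh (pvieZu 𝔓 m z t) (rO' m)) :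
    W ⊆ pvieSh (pvieZu 𝔓 m z t) ((pvnuEng 𝔓 𝔈 rO' rY' rp' rG').rO m) ∪ pvieSh z ((pvnuEng 𝔓 𝔈 rO' rY' rp' rG').eK m t) := by
  intro w hW
  rcases h hW with h1 | h1
  · by_cases h2 : w ∈ pvieSh (pvieZu 𝔓 m z t) (rO' m)
    · exact Or.inl h2
    · have h3 : 0 ≤ (w - pvieZu 𝔓 m z t).re := by
        by_contra hn
        exact h2 (hw w hW h1 (not_le.1 hn))
      right
      obtain ⟨v, hv, rfl⟩ := h1
      refine ⟨(𝔓.Γ m).zu t + v, Or.inr ⟨v, ⟨⟨hv, fun hv' => h2 ⟨v, hv', rfl⟩⟩, ?_⟩, rfl⟩, ?_⟩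
      · simpa using h3
      · show z + ((𝔓.Γ m).zu t + v) = pvieZu 𝔓 m z t + v
        unfold pvieZu
        ring
  · obtain ⟨v, hv, rfl⟩ := h1
    exact Or.inr ⟨v, Or.inl hv, rfl⟩

/-- **U4, WEST** (thick return): the mirror statement for `fK` -/
theorem pvbd_nu_west {τ : Type} {c : ℝ} (𝔓 : PvxPar τ c) (𝔈 : PvieEng τ) (rO' rY' : ℕ → Set ℂ) (rp' : ℕ → PviePl) (rG' : ℕ → ℝ → Set (Conf PvPt)) (m : ℕ) (z : ℂ) (t : τ) {W : Set ℂ}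
    (h : W ⊆ pvieSh (pvieZu 𝔓 m z t) (𝔈.rO m) ∪ pvieSh z (𝔈.fK m t)) (hw : ∀ w ∈ W, w ∈ pvieSh (pvieZu 𝔓 m z t) (𝔈.rO m) → 0 ≤ (w - pvieZu 𝔓 m z t).re → w ∈ pvieSh (pvieZu 𝔓 m z t) (rO' m)) :
    W ⊆ pvieSh (pvieZu 𝔓 m z t) ((pvnuEng 𝔓 𝔈 rO' rY' rp' rG').rO m) ∪ pvieSh z ((pvnuEng 𝔓 𝔈 rO' rY' rp' rG').fK m t) := by
  intro w hW
  rcases h hW with h1 | h1
  · by_cases h2 : w ∈ pvieSh (pvieZu 𝔓 m z t) (rO' m)
    · exact Or.inl h2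
    · have h3 : (w - pvieZu 𝔓 m z t).re < 0 := by
        by_contra hn
        exact h2 (hw w hW h1 (not_lt.1 hn))
      right
      obtain ⟨v, hv, rfl⟩ := h1
      refine ⟨(𝔓.Γ m).zu t + v, Or.inr ⟨v, ⟨⟨hv, fun hv' => h2 ⟨v, hv', rfl⟩⟩, ?_⟩, rfl⟩, ?_⟩
      · simpa using h3
      · show z + ((𝔓.Γ m).zu t + v) = pvieZu 𝔓 m z t + v
        unfold pvieZu
        ring
  · obtain ⟨v, hv, rfl⟩ := h1
    exact Or.inr ⟨v, Or.inl hv, rfl⟩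

/-- the centre of a cell and the door on its side `- I ^ a` -/
theorem pvbd_ctr_door (δ : ℝ) (e : ℤ × ℤ) (a : ℕ) : pvtCtr δ e - pvxrDoor δ e a = (δ : ℂ) * I ^ a / 2 := by
  have e1 : pvtCtr δ e = (δ : ℂ) * (pvtZ e + (1 + I) / 2) := by
    apply Complex.ext <;> simp [pvtCtr, pvtZ] <;> ring
  rw [e1]
  unfold pvxrDoor
  ring

/-- **THE WHOLE BLOCK OF THE REFERENCE PLUG IS OFF THE EXIT MOUTH** -/
theorem pvbd_block_offO {τ : Type} {c : ℝ} {𝔓 : PvxPar τ c} {m0 : ℕ} (H : PveaPar 𝔓 m0) {m : ℕ} (hm : m0 ≤ m) {t : τ} (hT : pviwTyOk 𝔓 t) :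
    Disjoint (pvehSq ((pvxrGam 𝔓 m).zu t) (pvehDl 𝔓 m / 2)) (pvegOM 𝔓 m t) := by
  have G := H.geo m hm t hT
  have D := pveg_door_i (H.lev hm) hT
  rw [H.gam, pvxr_gam_din, pvxr_gam_pin, neg_neg] at D
  have hδ := pvlm_Del_pos c m
  have hΔ := pvea_Dl_le 𝔓 m
  have hfine : 1024 * pvlmDel c m ≤ pvegR 𝔓 m := H.fine m hm
  have hh := pvlm_H_pos m
  have hfar : 7 * pvegR 𝔓 m / 4 ≤ ‖pvegYp 𝔓 m t - pvegYm 𝔓 m t‖ := by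
    have h1 := H.far t hT
    have e : pvegYp 𝔓 m t - pvegYm 𝔓 m t = (pvlmH m : ℂ) * ((𝔓.ty t).yp - (𝔓.ty t).ym) := by unfold pvegYp pvegYm; ring
    rw [e, norm_mul, Complex.norm_real, Real.norm_of_nonneg hh.le]
    unfold pvegR
    nlinarith
  rw [Set.disjoint_left]
  intro w hw hM
  unfold pvegOM at hM
  rw [mem_closedBall_iff_norm] at hM
  have h1 : ‖w - pvtCtr (pvlmDel c m) (pvxrEm 𝔓 m t)‖ ≤ 13 * pvehDl 𝔓 m :=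
    pveh_body_near (pveh_Dl_pos G.n0) _ (pvxrB 𝔓 t) (Or.inl (by rw [← G.zu']; exact hw))
  have hu : ‖(I : ℂ) ^ pvxrB 𝔓 t‖ = 1 := by rw [norm_pow, Complex.norm_I, one_pow]
  have h2 : ‖pvtCtr (pvlmDel c m) (pvxrEm 𝔓 m t) - pvxrDoor (pvlmDel c m) (pvxrEm 𝔓 m t) (pvxrB 𝔓 t)‖ = pvlmDel c m / 2 := by
    rw [pvbd_ctr_door, norm_div, norm_mul, hu, Complex.norm_real, Real.norm_of_nonneg hδ.le]
    simp
  have h3 : ‖pvxrDoor (pvlmDel c m) (pvxrEm 𝔓 m t) (pvxrB 𝔓 t) - pvegYm 𝔓 m t‖ ≤ 3 * pvegR 𝔓 m / 8 + 2 * pvlmDel c m := by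
    have e : ‖pvxrDoor (pvlmDel c m) (pvxrEm 𝔓 m t) (pvxrB 𝔓 t) - pvegYm 𝔓 m t‖ =
        ‖(pvxrDoor (pvlmDel c m) (pvxrEm 𝔓 m t) (pvxrB 𝔓 t) - pvegYm 𝔓 m t) * (starRingEnd ℂ) (I ^ pvxrB 𝔓 t)‖ := by rw [norm_mul, Complex.norm_conj, hu, mul_one]
    rw [e]
    refine (Complex.norm_le_abs_re_add_abs_im _).trans ?_
    have a1 := D.s_lo
    have a2 := D.s_hi
    have a3 := D.lat
    unfold pvegS at a1 a2
    unfold pvegL at a3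
    have a4 : |((pvxrDoor (pvlmDel c m) (pvxrEm 𝔓 m t) (pvxrB 𝔓 t) - pvegYm 𝔓 m t) * (starRingEnd ℂ) (I ^ pvxrB 𝔓 t)).re| ≤ 3 * pvegR 𝔓 m / 8 + pvlmDel c m := by
      rw [abs_le]
      constructor <;> linarith
    linarith
  have h4 : ‖pvegYp 𝔓 m t - pvegYm 𝔓 m t‖ ≤ ‖w - pvegYp 𝔓 m t‖ + ‖w - pvtCtr (pvlmDel c m) (pvxrEm 𝔓 m t)‖ +
      ‖pvtCtr (pvlmDel c m) (pvxrEm 𝔓 m t) - pvxrDoor (pvlmDel c m) (pvxrEm 𝔓 m t) (pvxrB 𝔓 t)‖ + ‖pvxrDoor (pvlmDel c m) (pvxrEm 𝔓 m t) (pvxrB 𝔓 t) - pvegYm 𝔓 m t‖ := by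
    have e : pvegYp 𝔓 m t - pvegYm 𝔓 m t = -(w - pvegYp 𝔓 m t) + (w - pvtCtr (pvlmDel c m) (pvxrEm 𝔓 m t)) +
      (pvtCtr (pvlmDel c m) (pvxrEm 𝔓 m t) - pvxrDoor (pvlmDel c m) (pvxrEm 𝔓 m t) (pvxrB 𝔓 t)) + (pvxrDoor (pvlmDel c m) (pvxrEm 𝔓 m t) (pvxrB 𝔓 t) - pvegYm 𝔓 m t) := by ring
    rw [e]
    refine (norm_add_le _ _).trans (add_le_add_left ((norm_add_le _ _).trans (add_le_add_left ((norm_add_le _ _).trans ?_) _)) _)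
    rw [norm_neg]
  linarith

/-- **A WINDOW PLACED AT THE REFERENCE PLUG, THICK RETURN** (mirror of `pvbd_win_gen`): inside the closed block, its east part inside the open square of the plug ⟹ it lies in (old region of the reference plug) ∪ (tile `pveffK` of 182) -/
theorem pvbd_win_genF {τ : Type} {c : ℝ} {𝔓 : PvxPar τ c} {m0 : ℕ} (H : PveaPar 𝔓 m0) {m : ℕ} (hm : m0 ≤ m) {t : τ} (hT : pviwTyOk 𝔓 t) (z : ℂ) {s : ℝ} {E : Set ℂ}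
    (hE : ∀ w ∈ E, |s * w.re| ≤ pvehDl 𝔓 m / 2 ∧ |s * w.im| ≤ pvehDl 𝔓 m / 2 ∧ (0 ≤ s * w.re → |s * w.re| < pvehDl 𝔓 m / 4 ∧ |s * w.im| < pvehDl 𝔓 m / 4)) :
    pvthSim (pvieZu 𝔓 m z t) ((s : ℝ) : ℂ) '' E ⊆ pvieSh (pvieZu 𝔓 m z t) (pvehrO 𝔓 m) ∪ pvieSh z (pveffK 𝔓 m t) := by
  have hoff := pvbd_block_offO H hm hT
  have hzu : pvieZu 𝔓 m z t = z + (pvxrGam 𝔓 m).zu t := by unfold pvieZu; rw [H.gam]
  rintro _ ⟨w, hw, rfl⟩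
  obtain ⟨b1, b2, b3⟩ := hE w hw
  set Δ := pvehDl 𝔓 m with hΔdef
  have e1 : (((s : ℝ) : ℂ) * w).re = s * w.re := by rw [Complex.re_ofReal_mul]
  have e2 : (((s : ℝ) : ℂ) * w).im = s * w.im := by rw [Complex.im_ofReal_mul]
  by_cases hin : ((s : ℝ) : ℂ) * w ∈ pvccSq 0 (Δ / 4)
  · left
    exact ⟨_, hin, rfl⟩
  · right
    refine ⟨(pvxrGam 𝔓 m).zu t + ((s : ℝ) : ℂ) * w, ?_, by rw [hzu]; unfold pvthSim; ring⟩
    rw [abs_le] at b1 b2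
    have hsq : (pvxrGam 𝔓 m).zu t + ((s : ℝ) : ℂ) * w ∈ pvehSq ((pvxrGam 𝔓 m).zu t) (Δ / 2) := by
      rw [pveh_mem_sq, add_re, add_im, e1, e2]
      refine ⟨⟨?_, ?_⟩, ?_, ?_⟩ <;> linarith [b1.1, b1.2, b2.1, b2.2]
    have hre : s * w.re < 0 := by
      by_contra hneg
      push Not at hneg
      apply hin
      show pvccN (((s : ℝ) : ℂ) * w - 0) < Δ / 4
      rw [sub_zero]
      unfold pvccN
      rw [e1, e2]
      exact max_lt (b3 hneg).1 (b3 hneg).2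
    refine ⟨Or.inr ⟨hsq, ?_⟩, ?_⟩
    · rw [add_re, e1]
      linarith
    · rintro (h | h)
      · apply hin
        have h' : pvccN ((pvxrGam 𝔓 m).zu t + ((s : ℝ) : ℂ) * w - (pvxrGam 𝔓 m).zu t) < Δ / 4 := h
        rw [add_sub_cancel_left] at h'
        show pvccN (((s : ℝ) : ℂ) * w - 0) < Δ / 4
        rwa [sub_zero]
      · exact Set.disjoint_left.1 hoff hsq h

section inst

variable {τ : Type} {c : ℝ} {𝔓 : PvxPar τ c} {m0 : ℕ} (H : PveaPar 𝔓 m0) {m : ℕ} (hm : m0 ≤ m) {t : τ} (hT : pviwTyOk 𝔓 t) (J : PveaIn) (rY' : ℕ → Set ℂ) (rp' : ℕ → PviePl) (rG' : ℕ → ℝ → Set (Conf PvPt)) (z : ℂ)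

include H hm hT

/-- **(i) OF THE ACCEPTANCE TESTS OF U4, LINK `e`**: the open window `E⁺` of 258 at the scale `s_m = pvurS`, placed at `zu`, lies in (NEW region of the reference plug) ∪ (NEW tile of the thick link) -/
theorem pvbd_nu_Ep : pvthSim (pvieZu 𝔓 m z t) ((pvurS 𝔓 m : ℝ) : ℂ) '' pvkgEp ⊆
    pvieSh (pvieZu 𝔓 m z t) ((pvnuEng 𝔓 (pveaEng 𝔓 J) (pvnuRO 𝔓) rY' rp' rG').rO m) ∪ pvieSh z ((pvnuEng 𝔓 (pveaEng 𝔓 J) (pvnuRO 𝔓) rY' rp' rG').eK m t) := by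
  have hΔ := pveh_Dl_pos (H.geo m hm t hT).n0
  refine pvbd_nu_east 𝔓 (pveaEng 𝔓 J) (pvnuRO 𝔓) rY' rp' rG' m z t (pvbd_win_gen H hm hT z fun w hw => ?_) ?_
  · obtain ⟨⟨b1, b2⟩, b3, b4⟩ := pvbd_Ep_box (Or.inl hw)
    unfold pvurS
    refine ⟨?_, ?_, fun _ => ⟨?_, ?_⟩⟩
    · rw [abs_le]; constructor <;> nlinarith
    · rw [abs_le]; constructor <;> nlinarith
    · rw [abs_lt]; constructor <;> nlinarith
    · rw [abs_lt]; constructor <;> nlinarith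
  · rintro _ ⟨w, hw, rfl⟩ - hre
    have e : pvthSim (pvieZu 𝔓 m z t) ((pvurS 𝔓 m : ℝ) : ℂ) w - pvieZu 𝔓 m z t = ((pvurS 𝔓 m : ℝ) : ℂ) * w := by unfold pvthSim; ring
    rw [e, Complex.re_ofReal_mul] at hre
    have hs : 0 < pvurS 𝔓 m := by unfold pvurS; linarith
    have hneg : w.re < 0 := by
      by_contra hn
      exact absurd hre (not_lt.2 (mul_nonneg hs.le (not_lt.1 hn)))
    have hO : w ∈ pvkgO := by
      rcases hw with hw | hw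
      · exact hw
      · exact absurd hw.1 (not_lt.2 hneg.le)
    exact ⟨pvthSim 0 ((pvurS 𝔓 m : ℝ) : ℂ) w, ⟨w, hO, rfl⟩, by unfold pvthSim; ring⟩

/-- **(i), LINK `f`**: the open window `E⁻` at the scale `s_m`, placed at `zu`, lies in (NEW region of the reference plug) ∪ (NEW tile of the thick return) -/
theorem pvbd_nu_Em : pvthSim (pvieZu 𝔓 m z t) ((pvurS 𝔓 m : ℝ) : ℂ) '' pvkgEm ⊆
    pvieSh (pvieZu 𝔓 m z t) ((pvnuEng 𝔓 (pveaEng 𝔓 J) (pvnuRO 𝔓) rY' rp' rG').rO m) ∪ pvieSh z ((pvnuEng 𝔓 (pveaEng 𝔓 J) (pvnuRO 𝔓) rY' rp' rG').fK m t) := by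
  have hΔ := pveh_Dl_pos (H.geo m hm t hT).n0
  have hbox : ∀ w ∈ pvkgEm, (-(11 / 80) ≤ w.re ∧ w.re ≤ 13 / 160) ∧ (-(13 / 160) ≤ w.im ∧ w.im ≤ 13 / 160) := by
    rintro w (hw | hw)
    · obtain ⟨h1, h2, h3, h4⟩ := hw
      exact ⟨⟨by linarith, h2.le⟩, h3.le, h4.le⟩
    · obtain ⟨h1, h2, h3, h4⟩ := hw
      exact ⟨⟨h1.le, by linarith⟩, by linarith, by linarith⟩
  refine pvbd_nu_west 𝔓 (pveaEng 𝔓 J) (pvnuRO 𝔓) rY' rp' rG' m z t (pvbd_win_genF H hm hT z fun w hw => ?_) ?_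
  · obtain ⟨⟨b1, b2⟩, b3, b4⟩ := hbox w hw
    unfold pvurS
    refine ⟨?_, ?_, fun _ => ⟨?_, ?_⟩⟩
    · rw [abs_le]; constructor <;> nlinarith
    · rw [abs_le]; constructor <;> nlinarith
    · rw [abs_lt]; constructor <;> nlinarith
    · rw [abs_lt]; constructor <;> nlinarith
  · rintro _ ⟨w, hw, rfl⟩ - hre
    have e : pvthSim (pvieZu 𝔓 m z t) ((pvurS 𝔓 m : ℝ) : ℂ) w - pvieZu 𝔓 m z t = ((pvurS 𝔓 m : ℝ) : ℂ) * w := by unfold pvthSim; ring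
    rw [e, Complex.re_ofReal_mul] at hre
    have hs : 0 < pvurS 𝔓 m := by unfold pvurS; linarith
    have hpos : 0 ≤ w.re := by
      by_contra hn
      exact absurd hre (not_le.2 (mul_neg_of_pos_of_neg hs (not_le.1 hn)))
    have hO : w ∈ pvkgO := by
      rcases hw with hw | hw
      · exact hw
      · exact absurd hw.2.1 (not_lt.2 hpos)
    exact ⟨pvthSim 0 ((pvurS 𝔓 m : ℝ) : ℂ) w, ⟨w, hO, rfl⟩, by unfold pvthSim; ring⟩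

/-- placed readers: an event read in a window `E`, scaled by `s_m`, placed at `(zu, 1)` -/
theorem pvbd_nu_pl (col : Bool) {E : Set ℂ} {S : Set (Conf PvPt)} (hr : Conf.ReadsSet (E ×ˢ (univ : Set Bool)) S) :
    Conf.ReadsSet ((pvthSim (pvieZu 𝔓 m z t) ((pvurS 𝔓 m : ℝ) : ℂ) '' E) ×ˢ (univ : Set Bool)) (pvdpPl (pvieZu 𝔓 m z t) 1 col (cfMap (pvthInv 0 ((pvurS 𝔓 m : ℝ) : ℂ)) ⁻¹' S)) := by
  have hΔ := pveh_Dl_pos (H.geo m hm t hT).n0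
  have hs : ((pvurS 𝔓 m : ℝ) : ℂ) ≠ 0 := by
    rw [Ne, Complex.ofReal_eq_zero]
    unfold pvurS
    positivity
  have e : pvdpPl (pvieZu 𝔓 m z t) 1 col (cfMap (pvthInv 0 ((pvurS 𝔓 m : ℝ) : ℂ)) ⁻¹' S) = pvdpPl (pvieZu 𝔓 m z t) ((pvurS 𝔓 m : ℝ) : ℂ) col S := by
    ext η
    show cfMap (pvthInv 0 ((pvurS 𝔓 m : ℝ) : ℂ)) (pvdpT (pvieZu 𝔓 m z t) 1 col η) ∈ S ↔ pvdpT (pvieZu 𝔓 m z t) ((pvurS 𝔓 m : ℝ) : ℂ) col η ∈ S
    rw [pvdp_T_comp _ _ _ _ one_ne_zero, mul_zero, add_zero, one_mul]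
  rw [e]
  exact pvdp_reads _ _ hs col hr

/-- **`pvet_rH` AFTER U4**: any event read in `E ⊆ E⁺` -/
theorem pvbd_nu_rHe (col : Bool) {E : Set ℂ} {S : Set (Conf PvPt)} (hr : Conf.ReadsSet (E ×ˢ (univ : Set Bool)) S) (hE : E ⊆ pvkgEp) :
    Conf.ReadsSet ((pvieSh (pvieZu 𝔓 m z t) ((pvnuEng 𝔓 (pveaEng 𝔓 J) (pvnuRO 𝔓) rY' rp' rG').rO m) ∪ pvieSh z ((pvnuEng 𝔓 (pveaEng 𝔓 J) (pvnuRO 𝔓) rY' rp' rG').eK m t)) ×ˢ (univ : Set Bool))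
      (pvdpPl (pvieZu 𝔓 m z t) 1 col (cfMap (pvthInv 0 ((pvurS 𝔓 m : ℝ) : ℂ)) ⁻¹' S)) :=
  (pvbd_nu_pl H hm hT z col hr).mono (Set.prod_mono ((Set.image_mono hE).trans (pvbd_nu_Ep H hm hT J rY' rp' rG' z)) le_rfl)

/-- **`pvif_l_rH` AFTER U4**: any event read in `E ⊆ E⁻` -/
theorem pvbd_nu_rHf (col : Bool) {E : Set ℂ} {S : Set (Conf PvPt)} (hr : Conf.ReadsSet (E ×ˢ (univ : Set Bool)) S) (hE : E ⊆ pvkgEm) :
    Conf.ReadsSet ((pvieSh (pvieZu 𝔓 m z t) ((pvnuEng 𝔓 (pveaEng 𝔓 J) (pvnuRO 𝔓) rY' rp' rG').rO m) ∪ pvieSh z ((pvnuEng 𝔓 (pveaEng 𝔓 J) (pvnuRO 𝔓) rY' rp' rG').fK m t)) ×ˢ (univ : Set Bool))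
      (pvdpPl (pvieZu 𝔓 m z t) 1 col (cfMap (pvthInv 0 ((pvurS 𝔓 m : ℝ) : ℂ)) ⁻¹' S)) :=
  (pvbd_nu_pl H hm hT z col hr).mono (Set.prod_mono ((Set.image_mono hE).trans (pvbd_nu_Em H hm hT J rY' rp' rG' z)) le_rfl)

end inst

end u4

/-! ## 5 (moved after sec. 8 by 54 for L2: `pvbd_rec` cites `pvbd_engA`; BI-GREEN: engine v3 | v4). the engine of record -/

/-- **ALL THE REGIONS OF THE ENGINE OF RECORD ARE BOUNDED** -/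
theorem pvbd_rec (N : PvxNums) (hN : N.Ok) (c : ℝ) (nb : PvnaNb N) : PvbdEng (pvnaEngRec N hN c nb) := by
  have hO : ∀ m ε, IsBounded ((pvnaInRec N hN c nb).kit m ε).O₀ := fun m ε => by
    have e : ((pvnaEngRec N hN c nb).kit m ε).O₀ = pvthSim 0 (pvlmDel c m) '' pvkgG.O₀ := pvnr_kit_O N hN c nb m ε
    exact e ▸ pvbd_sim _ _ pvbd_kgO
  have hK : ∀ m ε s, IsBounded (((pvnaInRec N hN c nb).kit m ε).K₀ s) := fun m ε s => by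
    have e : ((pvnaEngRec N hN c nb).kit m ε).K₀ s = pvthSim 0 (pvlmDel c m) '' pvkgG.K₀ s := pvnr_kit_K N hN c nb m ε s
    exact e ▸ pvbd_sim _ _ (pvbd_kgK s)
  first
    | exact pvbd_engA (pvxParOf N hN c) hN.rho0.le hN.msk0.le (pvnaInRec N hN c nb) hO hK (pvbd_nuRY _) _ _
    | exact pvbd_eng (pvxParOf N hN c) hN.rho0.le hN.msk0.le (pvnaInRec N hN c nb) hO hK

theorem pvbd_of_rec {N : PvxNums} {hN : N.Ok} {c : ℝ} {𝔈 : PvieEng (pvxTau N)} (hR : PvnaRec N hN c 𝔈) : PvbdEng 𝔈 := by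
  obtain ⟨nb, rfl⟩ := hR
  exact pvbd_rec N hN c nb

end Claimed.Agent.R289
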