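-- KEEP
import Claimed.Agent.R289.Exit.ThickL

/-!
# Row 289 (S0537), THE WALL, ROAD E, file Exit/ThickLU : THE SEAM `pvxU ⊆ pvilU` = leaf `exit_pvjt_U` of `Exit/ThickLT.lean` (223)      (helper50, second of 265; prefix `pvju_`)

A plug of `Tr/InstE` in the standard frame (`fr = 1`) is read in the frame of the plane: `PviePl.std.pos = pviePos`, `PviePl.std.zf = z`.      So the full state `PvieAt` of `Tr/InstE` (= `PvxAt` of `Defs/TrModel` v4: `pvie_at_iff`) IS the full state `PvilAt` of `Tr/InstL` v2.1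
(both test the BLACK END of the tip darts), field by field:   **`pvju_at_iff`**, `pvju_U_eq`, **`pvju_U`** (statement of `exit_pvjt_U`, VERBATIM), `pvju_U_conf` (equality).
-/

set_option autoImplicit false

namespace Claimed.Agent.R289

open Set Claims.C0465
open scoped ComplexConjugate

/-- the standard frame does not move the positions -/
theorem pvju_pos (p : PviePl) (η : Conf PvPt) : p.std.pos η = pviePos η := by
  funext v
  simp [PvilPl.pos, PviePl.std]

/-- the standard frame does not move the centre -/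
theorem pvju_zf (p : PviePl) : p.std.zf = p.z := by
  simp [PvilPl.zf, PviePl.std]

/-- **THE FULL STATE OF `Tr/InstE` IS THE FULL STATE OF `Tr/InstL`** at the plug in the standard frame -/
theorem pvju_at_iff (N : PvwNum) (b : Bool) (p : PviePl) (η : Conf PvPt) (𝔖 : PvwSt (pvieT η)) : PvieAt N b p η 𝔖 ↔ PvilAt N b p.std η 𝔖 := by
  constructor
  · intro h
    refine ⟨⟨h.good, ?_, h.tip_p, h.mask_p, h.inn_p, h.lev0⟩, ⟨h.good, ?_, h.tip_m, h.mask_m, h.inn_m, h.lev0⟩, ?_, ?_⟩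
    · rw [pvju_pos, pvju_zf]; exact h.st.out
    · rw [pvju_pos, pvju_zf]; exact h.st.inn
    · rw [pvju_pos, pvju_zf]; exact h.st.far_p
    · rw [pvju_pos, pvju_zf]; exact h.st.far_m
  · intro h
    have h1 := h.out.st
    have h2 := h.inn.st
    have h3 := h.far_p
    have h4 := h.far_m
    rw [pvju_pos, pvju_zf] at h1 h2 h3 h4
    exact ⟨h.out.good, ⟨h1, h2, h3, h4⟩, h.out.tip, h.inn.tip, h.out.mask, h.inn.mask, h.out.mask_i, h.inn.mask_i, h.out.lev0⟩

theorem pvju_U_eq (N : PvwNum) (b : Bool) (p : PviePl) : pvieU N b p = pvilU N b p.std := by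
  ext η
  exact ⟨fun ⟨𝔖, h⟩ => ⟨𝔖, (pvju_at_iff N b p η 𝔖).1 h⟩, fun ⟨𝔖, h⟩ => ⟨𝔖, (pvju_at_iff N b p η 𝔖).2 h⟩⟩

/-- the usable candidates of `Defs/TrModel` v4 ARE the configurations which carry the full state of `Tr/InstL` -/
theorem pvju_U_conf {τ : Type} {c : ℝ} (𝔓 : PvxPar τ c) (m : ℕ) (z : ℂ) (t : τ) : pvxU 𝔓 m z t = pvConf ⁻¹' pvilU 𝔓.num (𝔓.col t) (pvilPin 𝔓 m z t) := by
  rw [pvie_U_conf, pvju_U_eq]
  rfl

/-- **(SEAM)** = `exit_pvjt_U`, VERBATIM -/
theorem pvju_U {τ : Type} {c : ℝ} (𝔓 : PvxPar τ c) (m : ℕ) (z : ℂ) (t : τ) : pvxU 𝔓 m z t ⊆ pvConf ⁻¹' pvilU 𝔓.num (𝔓.col t) (pvilPin 𝔓 m z t) :=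
  (pvju_U_conf 𝔓 m z t).subset

end Claimed.Agent.R289
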