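-- KEEP
import Claimed.Agent.R289.Exit.Cyc1K
import Claimed.Agent.R289.Exit.Cyc1GT
import Claimed.Agent.R289.Exit.EngRec
import Claimed.Agent.R289.Exit.ThickLU
import Claimed.Agent.R289.Tr.CycDI
import Claimed.Agent.R289.Tr.CycC2H
import Claimed.Agent.R289.Exit.Cyc1HR
import Claimed.Agent.R289.Exit.ParBd

/-!
# Row 289 (S0537), THE WALL, ROAD E, Exit/Cyc1CD : `exit_pvcy1c_rest` (188, `Exit/Cyc1CM`) = COMPILED GLUE OVER `PvdwArcs.ring` (42) + NAMED LEAVES AT THE ENGINE OF RECORD      (helper219, integrator; prefix `pvcy1d_`, `pvcy1d`, `Pvcy1d`)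
-/

set_option autoImplicit false

namespace Claimed.Agent.R289

open MeasureTheory Filter Topology Set Claims.C0465
open scoped ENNReal

/-! ## 1. the glue, any parameters, any engine -/

section gen

variable {τ : Type} {c : ℝ} (𝔓 : PvxPar τ c) (𝔈 : PvieEng τ) (𝔤 : PvkdGeo)

/-- **the reduced vertex mask of the exit stub** of the candidate: mask of the type ∩ THE CELLS OF THE HULL OF THE BASE (guard of 264; the cells themselves, not `Z⁺`: so a vertex over it lies `δ` deep in `pvilWz`) ∩ closed own-level box ∩ beyond the gate annulus (92) -/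
noncomputable def pvcy1dMp (m : ℕ) (z : ℂ) (t : τ) (ω : Conf PvPt) : Set ℂ :=
  (pvilPin 𝔓 m z t).Mp ∩ pvtU (pvlmDel c m) (pvilZo 𝔓 m z t ω) ∩ pvcaBx 𝔓.num (pvilPin 𝔓 m z t) ∩ {w | (𝔓.ty t).a * pvlmH m ≤ ‖w - z‖}
/-- **the reduced vertex mask of the entrance stub** -/
noncomputable def pvcy1dMm (m : ℕ) (z : ℂ) (t : τ) (ω : Conf PvPt) : Set ℂ :=
  (pvilPin 𝔓 m z t).Mm ∩ pvtU (pvlmDel c m) (pvilZi 𝔓 m z t ω) ∩ pvcaBx 𝔓.num (pvilPin 𝔓 m z t) ∩ {w | (𝔓.ty t).a * pvlmH m ≤ ‖w - z‖}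

/-- the discs of the `n + 3` plugs, at the names of record -/
noncomputable def pvcy1dDk (m : ℕ) (z : ℂ) (t : τ) : ℕ → Set ℂ :=
  pvdwDk (pvilLo 𝔓 𝔈 m z t) (pvkdP (pvilRd 𝔓 m)) (pvkdP (pvilRu 𝔈 m)) ((𝔓.Γ m).l1 t).length (pvc1kZ 𝔓 m z t) (pvieZu 𝔓 m z t)

/-- the rooms of the `n + 3` arcs, at the names of record, base `ω` -/
noncomputable def pvcy1dYr (m : ℕ) (z : ℂ) (t : τ) (ω : Conf PvPt) : ℕ → Set ℂ :=
  pvdwYr (pvilLo 𝔓 𝔈 m z t) (pviqLr 𝔓 𝔈 m z t) (pvilLe 𝔓 𝔈 m z t) (pvkdP (pvilRd 𝔓 m)) (pvkdP (pvilRu 𝔈 m)) ((𝔓.Γ m).l1 t).length (pvc1kZ 𝔓 m z t) (pvc1kD 𝔓 m t) (pvc1kCo 𝔓 𝔤 m z t)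
    (pvieZu 𝔓 m z t) 1 (pvcy1dMp 𝔓 m z t ω) (pvcy1dMm 𝔓 m z t ω)

/-- **(H) THE REGIONS OF THE HEADS AT THE NAMES OF RECORD**, base `ω` -/
def Pvcy1dHd (m : ℕ) (z : ℂ) (t : τ) (ω : Conf PvPt) : Prop :=
  PvdwHd 𝔓.num (pvilLo 𝔓 𝔈 m z t) (pviqLr 𝔓 𝔈 m z t) (pvilLe 𝔓 𝔈 m z t) (pvkdP (pvilRd 𝔓 m)) (pvkdP (pvilRu 𝔈 m)) ((𝔓.Γ m).l1 t).length (pvc1kZ 𝔓 m z t) (pvc1kD 𝔓 m t) (pvc1kCo 𝔓 𝔤 m z t)
    (pvieZu 𝔓 m z t) 1 (pvcy1dMp 𝔓 m z t ω) (pvcy1dMm 𝔓 m z t ω)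

/-- the normal form of 42 at the names of record -/
def Pvcy1dNf (m : ℕ) (z : ℂ) (t : τ) (η : Conf PvPt) (P P' : PvwSt (pvieT η)) (g : ℕ → (pvkiT η).Gate (pvukS (𝔓.col t) η)) (gu : (pvkiT η).Gate (pvukS (𝔓.col t) η)) (y0 yr ye : (pvieT η).Pth) : Prop :=
  PvdwArcs 𝔓.num (𝔓.col t) η (pvilLo 𝔓 𝔈 m z t) (pviqLr 𝔓 𝔈 m z t) (pvilLe 𝔓 𝔈 m z t) (pvkdP (pvilRd 𝔓 m)) (pvkdP (pvilRu 𝔈 m)) ((𝔓.Γ m).l1 t).length
    (pvc1kZ 𝔓 m z t) (pvc1kD 𝔓 m t) (pvc1kCo 𝔓 𝔤 m z t) (pvieZu 𝔓 m z t) 1 P P' g gu y0 yr ye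

/-- the plugs of the normal form -/
noncomputable def pvcy1dSt (m : ℕ) (z : ℂ) (t : τ) (η : Conf PvPt) (P : PvwSt (pvieT η)) (g : ℕ → (pvkiT η).Gate (pvukS (𝔓.col t) η)) (gu : (pvkiT η).Gate (pvukS (𝔓.col t) η)) : ℕ → PvwSt (pvieT η) :=
  pvdwSt ((𝔓.Γ m).l1 t).length P (pvdwDd (pvkdP (pvilRd 𝔓 m)) (𝔓.col t) η (pvc1kZ 𝔓 m z t) g) (pvilStS (pvkdP (pvilRu 𝔈 m)) η (pvieCol η (𝔓.col t)) (pvieZu 𝔓 m z t) gu)

/-- the arcs of the normal form -/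
noncomputable def pvcy1dY (m : ℕ) (t : τ) (η : Conf PvPt) (g : ℕ → (pvkiT η).Gate (pvukS (𝔓.col t) η)) (y0 yr ye : (pvieT η).Pth) : ℕ → (pvieT η).Pth :=
  pvdwY ((𝔓.Γ m).l1 t).length y0 (pvdwYc (𝔓.col t) η g) yr ye

/-- the masks of the links at the names of record -/
noncomputable def pvcy1dM (m : ℕ) (z : ℂ) (t : τ) : ℕ → Set ℂ :=
  pvdwM ((𝔓.Γ m).l1 t).length ((pvilLo 𝔓 𝔈 m z t).msk 𝔓.num) (pvc1kMk 𝔓 𝔤 m z t) ((pviqLr 𝔓 𝔈 m z t).msk 𝔓.num) ((pvilLe 𝔓 𝔈 m z t).msk 𝔓.num)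

theorem pvcy1d_eqns_cite : True := by
  have := @pvcy1dMp.eq_1; have := @pvcy1dMm.eq_1; have := @pvcy1dDk.eq_1; have := @pvcy1dYr.eq_1; have := @Pvcy1dHd.eq_1; have := @Pvcy1dNf.eq_1; have := @pvcy1dSt.eq_1; have := @pvcy1dY.eq_1; have := @pvcy1dM.eq_1
  trivial

/-- the reduced masks of this file ARE the reduced masks of record of 264 (`Tr/CycC2H` sec. 5) at the hull of the base: a statement at `pvc2hMp` / `pvc2hMm` (75 `Exit/Cyc1G`) is a statement at `pvcy1dMp` / `pvcy1dMm` by `rw`      (110) -/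
theorem pvcy1d_Mp_eq {m : ℕ} (hδ : 0 < pvlmDel c m) (z : ℂ) (t : τ) (ω : Conf PvPt) : pvcy1dMp 𝔓 m z t ω = pvc2hMp 𝔓 m z t (pvilZo 𝔓 m z t ω) := by
  ext w
  exact ⟨fun h => ⟨⟨⟨⟨h.1.1.1, pvtr_core_subset hδ.le (pvc2h_core_of hδ h.1.1.2 h.1.2)⟩, h.1.2⟩, h.2⟩, h.1.1.2⟩, fun h => ⟨⟨⟨h.1.1.1.1, h.2⟩, h.1.1.2⟩, h.1.2⟩⟩

theorem pvcy1d_Mm_eq {m : ℕ} (hδ : 0 < pvlmDel c m) (z : ℂ) (t : τ) (ω : Conf PvPt) : pvcy1dMm 𝔓 m z t ω = pvc2hMm 𝔓 m z t (pvilZi 𝔓 m z t ω) := by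
  ext w
  exact ⟨fun h => ⟨⟨⟨⟨h.1.1.1, pvtr_core_subset hδ.le (pvc2h_core_of hδ h.1.1.2 h.1.2)⟩, h.1.2⟩, h.2⟩, h.1.1.2⟩, fun h => ⟨⟨⟨h.1.1.1.1, h.2⟩, h.1.1.2⟩, h.1.2⟩⟩

/-- **THE LEAVES OF [REST]**, at one mesh `ε` -/
structure Pvcy1dIn (m : ℕ) (ε : ℝ) (z : ℂ) (t : τ) (Nice B : Set (Conf PvPt)) (Bd : Set ℂ) (a₀ : ℝ) : Prop where
  rd : 0 < pvilRd 𝔓 m
  ru : 0 < pvilRu 𝔈 m
  /-- (H) regions only -/
  hd : ∀ ω ∈ B, Pvcy1dHd 𝔓 𝔈 𝔤 m z t ω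
  /-- (S+) the vertices of the erased exit stub lie over the reduced mask -/
  sp : ∀ η ∈ Nice, ∀ ω ∈ B, Pvc1kEv 𝔓 𝔈 𝔤 m ε z t ω η → ∀ P : PvwSt (pvieT η), PvilOut 𝔓.num (𝔓.col t) (pvilPin 𝔓 m z t) η P →
    ∀ x : (pvieT η).Pth, PvwLE (pvieT η) (fun i => (pvieT η).src (P.ep i)) P.np x → ∀ v ∈ x.verts, pviePos η v ∈ pvcy1dMp 𝔓 m z t ω
  /-- (S-) the vertices of the erased entrance stub lie over the reduced mask -/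
  sm : ∀ η ∈ Nice, ∀ ω ∈ B, Pvc1kEv 𝔓 𝔈 𝔤 m ε z t ω η → ∀ P' : PvwSt (pvieT η), PvilIn 𝔓.num (𝔓.col t) (pvilPin 𝔓 m z t) η P' →
    ∀ x : (pvieT η).Pth, PvwLE (pvieT η) (fun i => (pvieT η).src (P'.em i)) P'.nm x → ∀ v ∈ x.verts, pviePos η v ∈ pvcy1dMm 𝔓 m z t ω
  /-- (O) every tag has exactly one owner; the rooms of the arcs and of the inner arcs are given -/
  own : ∀ η ∈ Nice, ∀ ω ∈ B, Pvc1kEv 𝔓 𝔈 𝔤 m ε z t ω η → ∀ P P' g gu y0 yr ye, Pvcy1dNf 𝔓 𝔈 𝔤 m z t η P P' g gu y0 yr ye →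
    (∀ k, k < ((𝔓.Γ m).l1 t).length + 3 → ∀ v ∈ (pvcy1dY 𝔓 m t η g y0 yr ye k).verts, pviePos η v ∈ pvcy1dYr 𝔓 𝔈 𝔤 m z t ω k) →
    (∀ k, k < ((𝔓.Γ m).l1 t).length + 3 → ∀ v ∈ (pvcy1dSt 𝔓 𝔈 m z t η P g gu k).inn.verts, pviePos η v ∈ pvcy1dDk 𝔓 𝔈 m z t k) →
    Pvcy2Own (pvieT η) (pviePos η) (((𝔓.Γ m).l1 t).length + 3) (pvcy1dSt 𝔓 𝔈 m z t η P g gu) (pvcy1dY 𝔓 m t η g y0 yr ye) (pvcy1dM 𝔓 𝔈 𝔤 m z t)
      (pvdwB ((𝔓.Γ m).l1 t).length ((pvilLo 𝔓 𝔈 m z t).ball 𝔓.num)) (pvdwDr ((𝔓.Γ m).l1 t).length)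
  /-- (B) the box -/
  bd : ∀ k, k < ((𝔓.Γ m).l1 t).length + 3 → pvcy1dDk 𝔓 𝔈 m z t k ⊆ Bd
  by' : ∀ ω ∈ B, ∀ k, k < ((𝔓.Γ m).l1 t).length + 3 → pvcy1dYr 𝔓 𝔈 𝔤 m z t ω k ⊆ Bd
  /-- (F) the disc of the candidate and the disc of the reference plug are `a₀` apart -/
  far : ∀ u ∈ pvcy1dDk 𝔓 𝔈 m z t 0, ∀ v ∈ pvcy1dDk 𝔓 𝔈 m z t (((𝔓.Γ m).l1 t).length + 2), a₀ ≤ ‖u - v‖

variable {𝔓 𝔈 𝔤}

/-- the links of record fit (42), at the names of 133 -/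
theorem pvcy1d_fit {m : ℕ} (z : ℂ) (t : τ) (hd : 0 < pvilRd 𝔓 m) (hu : 0 < pvilRu 𝔈 m) :
    PvdwFit (pvilLo 𝔓 𝔈 m z t) (pviqLr 𝔓 𝔈 m z t) (pvilLe 𝔓 𝔈 m z t) (pvkdP (pvilRd 𝔓 m)) (pvkdP (pvilRu 𝔈 m)) ((𝔓.Γ m).l1 t).length (pvc1kZ 𝔓 m z t) (pvc1kD 𝔓 m t) (pvieZu 𝔓 m z t) 1 := by
  have e1 := pviq_Lr_eq 𝔓 𝔈 m z t
  exact pvdw_fit_rec 𝔓 𝔈 m z t (Lr := pviqLr 𝔓 𝔈 m z t) (by rw [← e1]; rfl) (by rw [← e1]; rfl) rfl rfl hd hu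

/-- the vertices of the inner arc of the plug `k` of a normal form lie over its disc -/
theorem pvcy1d_inn {m : ℕ} {z : ℂ} {t : τ} {η : Conf PvPt} {P P' : PvwSt (pvieT η)} {g : ℕ → (pvkiT η).Gate (pvukS (𝔓.col t) η)} {gu : (pvkiT η).Gate (pvukS (𝔓.col t) η)} {y0 yr ye : (pvieT η).Pth}
    (A : Pvcy1dNf 𝔓 𝔈 𝔤 m z t η P P' g gu y0 yr ye) {k : ℕ} (hk : k < ((𝔓.Γ m).l1 t).length + 3) {v : ↥(pvieY η)} (hv : v ∈ (pvcy1dSt 𝔓 𝔈 m z t η P g gu k).inn.verts) :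
    pviePos η v ∈ pvcy1dDk 𝔓 𝔈 m z t k := by
  have hT := pvca_il_sph A.good
  unfold pvcy1dSt at hv
  unfold pvcy1dDk pvdwDk
  rcases pvdw_cases hk with rfl | ⟨j, hj, rfl⟩ | rfl | rfl
  · rw [pvdw_st_zero] at hv
    rw [pvdw_sq_zero]
    exact A.ins_P rfl ((pvca_gt_gate A.out.st.gate).ins hT hv)
  · rw [pvdw_st_door hj.le] at hv
    rw [pvdw_sq_cell _ _ _ _ _ hj]
    exact pvca_gt_disc (A.gt j hj.le) ((pvdw_dr A.good (A.gt j hj.le)).gt.ins hT hv)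
  · rw [pvdw_st_door le_rfl] at hv
    rw [pvdw_sq_r]
    exact pvca_gt_disc (A.gt _ le_rfl) ((pvdw_dr A.good (A.gt _ le_rfl)).gt.ins hT hv)
  · rw [pvdw_st_u] at hv
    rw [pvdw_sq_e]
    exact pvca_gt_disc A.gtu ((pvdw_dr A.good A.gtu).gt.ins hT hv)

/-- **[REST] FROM THE LEAVES** -/
theorem pvcy1d_rest_of {m : ℕ} {ε : ℝ} {z : ℂ} {t : τ} {Nice B : Set (Conf PvPt)} {Bd : Set ℂ} {a₀ : ℝ} (H : Pvcy1dIn 𝔓 𝔈 𝔤 m ε z t Nice B Bd a₀) : Pvc1kRest 𝔓 𝔈 𝔤 m ε z t Nice B Bd a₀ := by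
  intro η hη ω hω E P P' g gu y0 yr ye A
  have F := pvcy1d_fit (𝔓 := 𝔓) (𝔈 := 𝔈) z t H.rd H.ru
  obtain ⟨C, rooms⟩ := A.ring F rfl (H.sp η hη ω hω E P A.out) (H.sm η hη ω hω E P' A.inn) (H.hd ω hω)
  have inn : ∀ k, k < ((𝔓.Γ m).l1 t).length + 3 → ∀ v ∈ (pvcy1dSt 𝔓 𝔈 m z t η P g gu k).inn.verts, pviePos η v ∈ pvcy1dDk 𝔓 𝔈 m z t k := fun k hk v hv => pvcy1d_inn A hk hv
  have hgp : ∀ k, k < ((𝔓.Γ m).l1 t).length + 3 → pviePos η (pvcy1dSt 𝔓 𝔈 m z t η P g gu k).gp ∈ pvcy1dDk 𝔓 𝔈 m z t k := by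
    intro k hk
    obtain ⟨n, h1, h2⟩ := C.inn k hk
    refine inn k hk _ ⟨(pvcy1dSt 𝔓 𝔈 m z t η P g gu k).inn.n, le_rfl, ?_⟩
    have := pvt_sd_vn h2
    rw [h1] at this
    exact this
  exact ⟨C.ii, C.yy, C.iy, H.own η hη ω hω E P P' g gu y0 yr ye A rooms inn, fun k hk v hv => H.bd k hk (inn k hk v hv), fun k hk v hv => H.by' ω hω k hk (rooms k hk v hv),
    ⟨0, ((𝔓.Γ m).l1 t).length + 2, by omega, by omega, H.far _ (hgp 0 (by omega)) _ (hgp _ (by omega))⟩⟩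

end gen

/-! ## 1b. (F) and (B) from the contracts -/

section gen2
variable {τ : Type} {c : ℝ} {𝔓 : PvxPar τ c} {𝔈 : PvieEng τ}

theorem pvcy1d_Dk_zero (m : ℕ) (z : ℂ) (t : τ) : pvcy1dDk 𝔓 𝔈 m z t 0 = Metric.ball z ((𝔓.ty t).b * pvlmH m) := by
  unfold pvcy1dDk pvdwDk
  rw [pvdw_sq_zero]
  rfl

theorem pvcy1d_Dk_u (m : ℕ) (z : ℂ) (t : τ) : pvcy1dDk 𝔓 𝔈 m z t (((𝔓.Γ m).l1 t).length + 2) = Metric.ball (pvieZu 𝔓 m z t) (2 * pvilRu 𝔈 m) := by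
  unfold pvcy1dDk pvdwDk
  rw [pvdw_sq_e]
  rfl

theorem pvcy1d_Dk_door (m : ℕ) (z : ℂ) (t : τ) {j : ℕ} (hj : j ≤ ((𝔓.Γ m).l1 t).length) : pvcy1dDk 𝔓 𝔈 m z t (j + 1) = Metric.ball (pvc1kZ 𝔓 m z t j) (2 * pvilRd 𝔓 m) := by
  unfold pvcy1dDk pvdwDk
  rw [pvdw_sq_door _ _ _ _ hj]
  rfl

/-- the disc of the candidate lies in the closed own-level box -/
theorem pvcy1d_disc_box {t : τ} (hb : (𝔓.ty t).b ≤ 2 * (𝔓.ty t).b2) (hρ : 0 ≤ 𝔓.num.rho1) (m : ℕ) (z : ℂ) : Metric.ball z ((𝔓.ty t).b * pvlmH m) ⊆ pvcaBx 𝔓.num (pvilPin 𝔓 m z t) := by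
  intro w hw
  have hh : 0 < pvlmH m := pvlm_H_pos m
  have h1 : ‖w - z‖ < (𝔓.ty t).b * pvlmH m := by simpa [dist_eq_norm] using hw
  have h2 : (𝔓.ty t).b * pvlmH m ≤ pvwRad 𝔓.num (pvlmH m) (𝔓.ty t) (𝔓.ty t).k := by
    unfold pvwRad
    have e : 0 ≤ ((𝔓.ty t).k : ℝ) * 𝔓.num.rho1 := mul_nonneg (Nat.cast_nonneg _) hρ
    nlinarith
  show |(w - z).re| ≤ pvwRad 𝔓.num (pvlmH m) (𝔓.ty t) (𝔓.ty t).k ∧ |(w - z).im| ≤ pvwRad 𝔓.num (pvlmH m) (𝔓.ty t) (𝔓.ty t).k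
  exact ⟨(Complex.abs_re_le_norm _).trans (by linarith), (Complex.abs_im_le_norm _).trans (by linarith)⟩

/-- a point of the closed own-level box and a point off the box with its collar are `δ` apart -/
theorem pvcy1d_box_gap (m : ℕ) (z : ℂ) (t : τ) {u v : ℂ} (hu : u ∈ pvcaBx 𝔓.num (pvilPin 𝔓 m z t)) (hv : v ∉ pvilBx 𝔓 m z t) : pvlmDel c m ≤ ‖u - v‖ := by
  have hu' : |(u - z).re| ≤ pvwRad 𝔓.num (pvlmH m) (𝔓.ty t) (𝔓.ty t).k ∧ |(u - z).im| ≤ pvwRad 𝔓.num (pvlmH m) (𝔓.ty t) (𝔓.ty t).k := hu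
  have hv' : ¬ (|(v - z).re| ≤ pvwRad 𝔓.num (pvlmH m) (𝔓.ty t) (𝔓.ty t).k + pvlmDel c m ∧ |(v - z).im| ≤ pvwRad 𝔓.num (pvlmH m) (𝔓.ty t) (𝔓.ty t).k + pvlmDel c m) := hv
  by_cases h1 : |(v - z).re| ≤ pvwRad 𝔓.num (pvlmH m) (𝔓.ty t) (𝔓.ty t).k + pvlmDel c m
  · have h2 : pvwRad 𝔓.num (pvlmH m) (𝔓.ty t) (𝔓.ty t).k + pvlmDel c m < |(v - z).im| := not_le.1 fun h => hv' ⟨h1, h⟩
    have h3 : |(v - z).im| ≤ |(u - z).im| + |(u - v).im| := by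
      have e : (v - z).im = (u - z).im - (u - v).im := by simp
      rw [e]
      exact abs_sub _ _
    linarith [Complex.abs_im_le_norm (u - v), hu'.2]
  · have h2 := not_le.1 h1
    have h3 : |(v - z).re| ≤ |(u - z).re| + |(u - v).re| := by
      have e : (v - z).re = (u - z).re - (u - v).re := by simp
      rw [e]
      exact abs_sub _ _
    linarith [Complex.abs_re_le_norm (u - v), hu'.1]

/-- the disc of the reference plug lies in its region -/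
theorem pvcy1d_disc_u {m0 : ℕ} {Cth : ℝ} {r κs : ℕ → ℝ} (H : PvieEng.Wf 𝔓 𝔈 m0 Cth r κs) {m : ℕ} (hm : m0 ≤ m) (z : ℂ) (t : τ) :
    Metric.ball (pvieZu 𝔓 m z t) (2 * pvilRu 𝔈 m) ⊆ pvieSh (pvieZu 𝔓 m z t) (𝔈.rO m) := by
  intro w hw
  have h1 : ‖w - pvieZu 𝔓 m z t‖ < 2 * pvilRu 𝔈 m := by simpa [dist_eq_norm] using hw
  have hr : 0 < (𝔈.rp m).h := H.rp_h m hm
  refine ⟨w - pvieZu 𝔓 m z t, H.rp_win m hm ?_, by ring⟩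
  show |(w - pvieZu 𝔓 m z t - 0).re| ≤ 3 * (𝔈.rp m).h ∧ |(w - pvieZu 𝔓 m z t - 0).im| ≤ 3 * (𝔈.rp m).h
  rw [sub_zero]
  have h2 : pvilRu 𝔈 m = (𝔈.rp m).h := rfl
  exact ⟨(Complex.abs_re_le_norm _).trans (by linarith), (Complex.abs_im_le_norm _).trans (by linarith)⟩

/-- the region of the reference plug misses the own-level box with its collar -/
theorem pvcy1d_Ro_off {m0 : ℕ} {Cth : ℝ} {r κs : ℕ → ℝ} (H : PvieEng.Wf 𝔓 𝔈 m0 Cth r κs) {m : ℕ} (hm : m0 ≤ m) (z : ℂ) {t : τ} (ht : pviwTyOk 𝔓 t) :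
    Disjoint (pvieSh (pvieZu 𝔓 m z t) (𝔈.rO m)) (pvilBx 𝔓 m z t) := by
  have h := H.res_off m hm 0 t ht (pviwRo 𝔓 𝔈 m t) (by simp [pviwRes])
  rw [pvjh_Bx_eq, pvjh_ro_sh, pvjh_sh_disj]
  exact h

/-- **(F)** from the contract -/
theorem pvcy1d_far_of {m0 : ℕ} {Cth : ℝ} {r κs : ℕ → ℝ} (H : PvieEng.Wf 𝔓 𝔈 m0 Cth r κs) {m : ℕ} (hm : m0 ≤ m) (z : ℂ) {t : τ} (ht : pviwTyOk 𝔓 t) (hb : (𝔓.ty t).b ≤ 2 * (𝔓.ty t).b2) (hρ : 0 ≤ 𝔓.num.rho1) :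
    ∀ u ∈ pvcy1dDk 𝔓 𝔈 m z t 0, ∀ v ∈ pvcy1dDk 𝔓 𝔈 m z t (((𝔓.Γ m).l1 t).length + 2), pvlmDel c m ≤ ‖u - v‖ := by
  intro u hu v hv
  rw [pvcy1d_Dk_zero] at hu
  rw [pvcy1d_Dk_u] at hv
  exact pvcy1d_box_gap m z t (pvcy1d_disc_box hb hρ m z hu) fun h => Set.disjoint_left.1 (pvcy1d_Ro_off H hm z ht) (pvcy1d_disc_u H hm z t hv) h

end gen2

theorem pvcy1d_rect_bdd (x0 x1 y0 y1 : ℝ) : Bornology.IsBounded (rswRect x0 x1 y0 y1) :=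
  pvbd_of_box (a := max |x0| |x1|) (b := max |y0| |y1|) fun w hw => by
    obtain ⟨h1, h2, h3, h4⟩ := hw
    exact ⟨abs_le_max_abs_abs h1 h2, abs_le_max_abs_abs h3 h4⟩

theorem pvcy1d_Co_bdd (s : ℝ) (τ : PvtTurn) : Bornology.IsBounded ((pvkgG.sc s).Co τ) := by
  show Bornology.IsBounded (pvdilS s (pvkxM 1 ∩ pvtrCore (3 / 640) (pvkgEa τ)))
  rw [pvdil_S_sim]
  refine pvbd_sim _ _ ((pvkgg_Ea_bdd τ).subset ?_)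
  rintro w ⟨-, hw⟩
  exact hw (Metric.mem_closedBall_self (by norm_num))

section gen3
variable {τ : Type} {c : ℝ} {𝔓 : PvxPar τ c} {𝔈 : PvieEng τ} {𝔤 : PvkdGeo}

/-- **(B)** from the boundedness of the regions -/
theorem pvcy1d_box_of (HB : PvbdEng 𝔈) (hCo : ∀ s, Bornology.IsBounded (𝔤.Co s)) (m : ℕ) (z : ℂ) (t : τ) :
    ∃ Bd : Set ℂ, Bornology.IsBounded Bd ∧ MeasurableSet Bd ∧ (∀ k, k < ((𝔓.Γ m).l1 t).length + 3 → pvcy1dDk 𝔓 𝔈 m z t k ⊆ Bd) ∧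
      ∀ ω : Conf PvPt, ∀ k, k < ((𝔓.Γ m).l1 t).length + 3 → pvcy1dYr 𝔓 𝔈 𝔤 m z t ω k ⊆ Bd := by
  set n := ((𝔓.Γ m).l1 t).length with hn
  set Bx : Set ℂ := pvcaBx 𝔓.num (pvilPin 𝔓 m z t) with hBx
  have bBx : Bornology.IsBounded Bx := pvbd_wSq _ _
  -- the rooms with the stubs replaced by the box
  set Y' : ℕ → Set ℂ := pvdwYr (pvilLo 𝔓 𝔈 m z t) (pviqLr 𝔓 𝔈 m z t) (pvilLe 𝔓 𝔈 m z t) (pvkdP (pvilRd 𝔓 m)) (pvkdP (pvilRu 𝔈 m)) n (pvc1kZ 𝔓 m z t) (pvc1kD 𝔓 m t) (pvc1kCo 𝔓 𝔤 m z t)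
    (pvieZu 𝔓 m z t) 1 Bx Bx with hY'
  have bD : ∀ k, k < n + 3 → Bornology.IsBounded (pvcy1dDk 𝔓 𝔈 m z t k) := by
    intro k hk
    unfold pvcy1dDk pvdwDk
    rcases pvdw_cases hk with rfl | ⟨j, hj, rfl⟩ | rfl | rfl
    · rw [pvdw_sq_zero]; exact Metric.isBounded_ball
    · rw [pvdw_sq_cell _ _ _ _ _ hj]; exact Metric.isBounded_ball
    · rw [pvdw_sq_r]; exact Metric.isBounded_ball
    · rw [pvdw_sq_e]; exact Metric.isBounded_ball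
  have bY : ∀ k, k < n + 3 → Bornology.IsBounded (Y' k) := by
    intro k hk
    rw [hY']
    unfold pvdwYr
    rcases pvdw_cases hk with rfl | ⟨j, hj, rfl⟩ | rfl | rfl
    · rw [pvdw_sq_zero]
      exact (bBx.union (HB.sh_oY z m t)).union (pvbd_at _ _ (pvcy1d_rect_bdd _ _ _ _))
    · rw [pvdw_sq_cell _ _ _ _ _ hj]
      exact pvbd_at _ _ (hCo _)
    · rw [pvdw_sq_r]
      exact ((pvbd_at _ _ (pvcy1d_rect_bdd _ _ _ _)).union (HB.sh_rY _ m)).union (pvbd_at _ _ (pvcy1d_rect_bdd _ _ _ _))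
    · rw [pvdw_sq_e]
      exact ((pvbd_at _ _ (pvcy1d_rect_bdd _ _ _ _)).union (HB.sh_eY z m t)).union bBx
  have sub : ∀ ω : Conf PvPt, ∀ k, k < n + 3 → pvcy1dYr 𝔓 𝔈 𝔤 m z t ω k ⊆ Y' k := by
    intro ω k hk
    have hp : pvcy1dMp 𝔓 m z t ω ⊆ Bx := fun w hw => hw.1.2
    have hq : pvcy1dMm 𝔓 m z t ω ⊆ Bx := fun w hw => hw.1.2
    rw [hY']
    unfold pvcy1dYr pvdwYr
    rcases pvdw_cases hk with rfl | ⟨j, hj, rfl⟩ | rfl | rfl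
    · rw [pvdw_sq_zero, pvdw_sq_zero]
      exact union_subset_union_left _ (union_subset_union_left _ hp)
    · rw [pvdw_sq_cell _ _ _ _ _ hj, pvdw_sq_cell _ _ _ _ _ hj]
    · rw [pvdw_sq_r, pvdw_sq_r]
    · rw [pvdw_sq_e, pvdw_sq_e]
      exact union_subset_union_right _ hq
  have bU : Bornology.IsBounded (⋃ k ∈ Finset.range (n + 3), (pvcy1dDk 𝔓 𝔈 m z t k ∪ Y' k)) :=
    (Bornology.isBounded_biUnion_finset _).2 fun k hk => (bD k (Finset.mem_range.1 hk)).union (bY k (Finset.mem_range.1 hk))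
  obtain ⟨R, hR⟩ := bU.subset_closedBall (0 : ℂ)
  refine ⟨Metric.closedBall 0 R, Metric.isBounded_closedBall, Metric.isClosed_closedBall.measurableSet, fun k hk => ?_, fun ω k hk => ?_⟩
  · exact fun w hw => hR (mem_iUnion₂.2 ⟨k, Finset.mem_range.2 hk, Or.inl hw⟩)
  · exact fun w hw => hR (mem_iUnion₂.2 ⟨k, Finset.mem_range.2 hk, Or.inr (sub ω k hk hw)⟩)

end gen3

/-! ## 2. the leaves at the engine of record -/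

section rec

variable {c : ℝ}

/-- **(H) THE REGIONS OF THE HEADS AT THE ENGINE OF RECORD**, base = the configuration of a usable sample      [75 `pvc2g_hd` (`Tr/CycC2G`) over the atoms `Pvc2gAt` (`cyc_disj`, `res_off`) and the rooms in atoms `Pvc2gRm` (W-7 at `pveaEng`; guard `pvjh_Wz_o_Me`, `pvjh_Wz_i_Mo` of 180; SEP);   92] -/
theorem exit_pvcy1d_hd (c0 : 0 < c) (N : PvxNums) (hN : N.Ok) (nb : PvnaNb N) (m : ℕ) (hm : (pvxParOf N hN c).m0 ≤ m) (z : ℂ) (t : pvxTau N) (ω : Conf PvPt) (hω : ω ∈ pvConf '' pvxU (pvxParOf N hN c) m z t) :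
    Pvcy1dHd (pvxParOf N hN c) (pvnaEngRec N hN c nb) (pvkgG.sc (pvlmDel c m)) m z t ω :=
  pvq4_hd_rec c0 N hN nb m hm z t ω hω

/-- **(S+) THE VERTICES OF THE ERASED EXIT STUB LIE OVER THE REDUCED MASK**: `PvilOut.mask` | frozen site ⟹ cell of the hull of `η` = hull of the base (`Pvc1kEv.mo`) | `StubP.ep_in` | `off_p` + `round` + `ann`      [264 `Tr/CycC2H` sec. 4;   92] -/
theorem exit_pvcy1d_sp (c0 : 0 < c) (N : PvxNums) (hN : N.Ok) (nb : PvnaNb N) (m : ℕ) (hm : (pvxParOf N hN c).m0 ≤ m) (ε : ℝ) (z : ℂ) (t : pvxTau N) (ω η : Conf PvPt)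
    (E : Pvc1kEv (pvxParOf N hN c) (pvnaEngRec N hN c nb) (pvkgG.sc (pvlmDel c m)) m ε z t ω η) (P : PvwSt (pvieT η)) (hP : PvilOut (pvxParOf N hN c).num ((pvxParOf N hN c).col t) (pvilPin (pvxParOf N hN c) m z t) η P)
    (x : (pvieT η).Pth) (hx : PvwLE (pvieT η) (fun i => (pvieT η).src (P.ep i)) P.np x) (v : ↥(pvieY η)) (hv : v ∈ x.verts) : pviePos η v ∈ pvcy1dMp (pvxParOf N hN c) m z t ω := by
  have h := pvc2h_hMp (pvlm_Del_pos c m) hP (E.mo.1.2 : pvilZo (pvxParOf N hN c) m z t η = pvilZo (pvxParOf N hN c) m z t ω) x hx v hv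
  exact ⟨⟨⟨h.1.1.1.1, h.2⟩, h.1.1.2⟩, h.1.2⟩

/-- **(S-) THE VERTICES OF THE ERASED ENTRANCE STUB LIE OVER THE REDUCED MASK** (mirror; hull: `Pvc1kEv.me`) -/
theorem exit_pvcy1d_sm (c0 : 0 < c) (N : PvxNums) (hN : N.Ok) (nb : PvnaNb N) (m : ℕ) (hm : (pvxParOf N hN c).m0 ≤ m) (ε : ℝ) (z : ℂ) (t : pvxTau N) (ω η : Conf PvPt)
    (E : Pvc1kEv (pvxParOf N hN c) (pvnaEngRec N hN c nb) (pvkgG.sc (pvlmDel c m)) m ε z t ω η) (P' : PvwSt (pvieT η)) (hP : PvilIn (pvxParOf N hN c).num ((pvxParOf N hN c).col t) (pvilPin (pvxParOf N hN c) m z t) η P')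
    (x : (pvieT η).Pth) (hx : PvwLE (pvieT η) (fun i => (pvieT η).src (P'.em i)) P'.nm x) (v : ↥(pvieY η)) (hv : v ∈ x.verts) : pviePos η v ∈ pvcy1dMm (pvxParOf N hN c) m z t ω := by
  have h := pvc2h_hMm (pvlm_Del_pos c m) hP (E.me.1.2 : pvilZi (pvxParOf N hN c) m z t η = pvilZi (pvxParOf N hN c) m z t ω) x hx v hv
  exact ⟨⟨⟨h.1.1.1.1, h.2⟩, h.1.1.2⟩, h.1.2⟩

/-- **(O) EVERY TAG OF THE RING HAS EXACTLY ONE OWNER, AT THE ENGINE OF RECORD**: normal form + events of record (meshes of the four kinds of windows) + the rooms of the arcs and of the inner arcs (GIVEN: `PvdwArcs.ring`, `pvcy1d_inn`)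
[42 consumer `PvdwArcs.rest` / `PvdwOwn.own` (`Tr/CycC2M` sec. 9);   179 regions `PvdwOw` at the engine of record] -/
theorem exit_pvcy1d_own (c0 : 0 < c) (N : PvxNums) (hN : N.Ok) (nb : PvnaNb N) (m : ℕ) (hm : (pvxParOf N hN c).m0 ≤ m) (z : ℂ) (t : pvxTau N) : ∀ᶠ ε in 𝓝[>] (0 : ℝ), ∀ η : Conf PvPt, CfOK η →
    ∀ ω ∈ pvConf '' pvxU (pvxParOf N hN c) m z t, Pvc1kEv (pvxParOf N hN c) (pvnaEngRec N hN c nb) (pvkgG.sc (pvlmDel c m)) m ε z t ω η → ∀ P P' g gu y0 yr ye,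
    Pvcy1dNf (pvxParOf N hN c) (pvnaEngRec N hN c nb) (pvkgG.sc (pvlmDel c m)) m z t η P P' g gu y0 yr ye →
    (∀ k, k < (((pvxParOf N hN c).Γ m).l1 t).length + 3 → ∀ v ∈ (pvcy1dY (pvxParOf N hN c) m t η g y0 yr ye k).verts, pviePos η v ∈ pvcy1dYr (pvxParOf N hN c) (pvnaEngRec N hN c nb) (pvkgG.sc (pvlmDel c m)) m z t ω k) →
    (∀ k, k < (((pvxParOf N hN c).Γ m).l1 t).length + 3 → ∀ v ∈ (pvcy1dSt (pvxParOf N hN c) (pvnaEngRec N hN c nb) m z t η P g gu k).inn.verts, pviePos η v ∈ pvcy1dDk (pvxParOf N hN c) (pvnaEngRec N hN c nb) m z t k) →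
    Pvcy2Own (pvieT η) (pviePos η) ((((pvxParOf N hN c).Γ m).l1 t).length + 3) (pvcy1dSt (pvxParOf N hN c) (pvnaEngRec N hN c nb) m z t η P g gu) (pvcy1dY (pvxParOf N hN c) m t η g y0 yr ye)
      (pvcy1dM (pvxParOf N hN c) (pvnaEngRec N hN c nb) (pvkgG.sc (pvlmDel c m)) m z t) (pvdwB (((pvxParOf N hN c).Γ m).l1 t).length ((pvilLo (pvxParOf N hN c) (pvnaEngRec N hN c nb) m z t).ball (pvxParOf N hN c).num))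
      (pvdwDr (((pvxParOf N hN c).Γ m).l1 t).length) := by
  refine Filter.Eventually.of_forall fun ε η _ ω _ E P P' g gu y0 yr ye A _ _ => ?_
  exact pvcy3e_own_rec hN c0 nb hm E A

/-- **(B) THE BOX**: ONE bounded Borel set contains the discs of the plugs and the rooms of the arcs, whatever the base      [219] -/
theorem exit_pvcy1d_box (c0 : 0 < c) (N : PvxNums) (hN : N.Ok) (nb : PvnaNb N) (m : ℕ) (hm : (pvxParOf N hN c).m0 ≤ m) (z : ℂ) (t : pvxTau N) :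
    ∃ Bd : Set ℂ, Bornology.IsBounded Bd ∧ MeasurableSet Bd ∧ (∀ k, k < (((pvxParOf N hN c).Γ m).l1 t).length + 3 → pvcy1dDk (pvxParOf N hN c) (pvnaEngRec N hN c nb) m z t k ⊆ Bd) ∧
      ∀ ω : Conf PvPt, ∀ k, k < (((pvxParOf N hN c).Γ m).l1 t).length + 3 → pvcy1dYr (pvxParOf N hN c) (pvnaEngRec N hN c nb) (pvkgG.sc (pvlmDel c m)) m z t ω k ⊆ Bd :=
  pvcy1d_box_of (pvbd_rec N hN c nb) (pvcy1d_Co_bdd _) m z t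

/-- **(F) TWO FAR GATES**: the disc of the candidate (in the own-level box) and the disc of the reference plug (in `zu + rO`, off the box with its collar `δ`) are `δ` apart      [219] -/
theorem exit_pvcy1d_far (c0 : 0 < c) (N : PvxNums) (hN : N.Ok) (nb : PvnaNb N) (m : ℕ) (hm : (pvxParOf N hN c).m0 ≤ m) (z : ℂ) (t : pvxTau N) :
    ∀ u ∈ pvcy1dDk (pvxParOf N hN c) (pvnaEngRec N hN c nb) m z t 0, ∀ v ∈ pvcy1dDk (pvxParOf N hN c) (pvnaEngRec N hN c nb) m z t ((((pvxParOf N hN c).Γ m).l1 t).length + 2), pvlmDel c m ≤ ‖u - v‖ := by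
  obtain ⟨Cth, r, κs, hW⟩ := (pvnr_wf hN c0 nb).wf
  have ht : pviwTyOk (pvxParOf N hN c) t := ⟨pvxo_nd_p t, pvxo_nd_m t, by have := pvxo_nd_far t; show 7 * N.rho / 4 ≤ ‖pvxoYp t - pvxoYm t‖; linarith⟩
  have hb : ((pvxParOf N hN c).ty t).b ≤ 2 * ((pvxParOf N hN c).ty t).b2 := by
    show N.b1 ≤ 2 * N.b2
    have := hN.gap; have := hN.ab2; have := hN.b2_pos
    linarith
  exact pvcy1d_far_of hW hm z ht hb hN.rho1_pos.le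

/-- **[REST] AT THE ENGINE OF RECORD** = the statement of `exit_pvcy1c_rest` (188, `Exit/Cyc1CM`; `pvcy1cGeo c m = pvkgG.sc (pvlmDel c m)` by `rfl`), any centre `z` -/
theorem pvcy1d_rest (c0 : 0 < c) (N : PvxNums) (hN : N.Ok) (nb : PvnaNb N) (m : ℕ) (hm : (pvxParOf N hN c).m0 ≤ m) (z : ℂ) (t : pvxTau N) :
    ∃ (Bd : Set ℂ) (a₀ : ℝ), Bornology.IsBounded Bd ∧ MeasurableSet Bd ∧ 0 < a₀ ∧ ∀ᶠ ε in 𝓝[>] (0 : ℝ),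
      Pvc1kRest (pvxParOf N hN c) (pvnaEngRec N hN c nb) (pvkgG.sc (pvlmDel c m)) m ε z t {η | CfOK η} (pvConf '' pvxU (pvxParOf N hN c) m z t) Bd a₀ := by
  obtain ⟨Bd, bB, mB, h1, h2⟩ := exit_pvcy1d_box c0 N hN nb m hm z t
  obtain ⟨Cth, r, κs, hW⟩ := (pvnr_wf hN c0 nb).wf
  refine ⟨Bd, pvlmDel c m, bB, mB, pvlm_Del_pos c m, ?_⟩
  filter_upwards [exit_pvcy1d_own c0 N hN nb m hm z t] with ε hown
  exact pvcy1d_rest_of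
    { rd := pviq_Rd_pos _ (pvlm_Del_pos c m)
      ru := hW.rp_h m hm
      hd := fun ω hω => exit_pvcy1d_hd c0 N hN nb m hm z t ω hω
      sp := fun η _ ω _ E P hP x hx v hv => exit_pvcy1d_sp c0 N hN nb m hm ε z t ω η E P hP x hx v hv
      sm := fun η _ ω _ E P hP x hx v hv => exit_pvcy1d_sm c0 N hN nb m hm ε z t ω η E P hP x hx v hv
      own := fun η hη ω hω E => hown η hη ω hω E
      bd := h1
      by' := fun ω _ => h2 ω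
      far := exit_pvcy1d_far c0 N hN nb m hm z t }

end rec

end Claimed.Agent.R289
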