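-- KEEP
import Claimed.Agent.R289.Exit.Cyc1K
import Claimed.Agent.R289.Exit.EngRec
import Claimed.Agent.R289.Tr.MeasL
import Claimed.Agent.R289.Tr.LinkMeas
import Claimed.Agent.R289.Exit.Cyc1CD

/-!
# Row 289 (S0537), THE WALL, ROAD E, Exit/Cyc1CM : `exit_pvc1_c2` (115, `Exit/Cyc1M`) AT THE ENGINE OF RECORD = COMPILED GLUE OVER ONE DETERMINISTIC SUB-EXIT      (helper188; prefix `pvcy1c_`, `pvcy1c`, `Pvcy1c`)

`Pvc1C2`  ⟸  **`pvcy1c_main`** (here)  ⟸  `pvcy1c_c2` (`Exit/Cyc1C`, soft → plain, PROVED)  ⟸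
* [MEAS]  **`pvcy1c_meas`**   PROVED here from `pvml_SAo_null pvml_SAe_null pvml_SAr_null` (289, `Tr/MeasL`) + the Borel windows `pvzi2_mWno mWne mWnr` (282, `Tr/LinkMeas`)
* [CELL]  **`pvcy1c_cell`**   PROVED here from `pvc1k_cell_at` (133, `Exit/Cyc1K`) + [KDICT] `pvuk_eng` (244, `Tr/KitDict`) at the engine of record (`pvcy1c_dict`: T12, `Exit/EngRec` of 124)
* [DET]   **`exit_pvcy1c_det`** PROVED here from `pvc1k_det` (133: top glue over `pvdw_rec` of 42, `pviq_Ar_iff pviq_XrQ` of 246, `Pvcy2At.le` of 48) + the numerals `pvcy1c_num` (plug of the cells = `pvkdP (δ_m / 40)`: KitGeo v2 of 258)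
* [REST]  **`exit_pvcy1c_rest`** = THE ONLY DEBT: `Pvc1kRest` of 133 = `PvdwRest` of 42 at every normal form, at the events of record      [42 consumer; 75 92 `PvdwHd`, 179 `PvdwOw` at the engine of record; 264 stubs; 133 `Exit/Cyc1KR`; 48]
-/

set_option autoImplicit false

namespace Claimed.Agent.R289

open MeasureTheory Filter Topology Set Claims.C0465
open scoped ENNReal

/-! ## 1. [MEAS] -/

section meas

variable {τ : Type} {c : ℝ} {𝔓 : PvxPar τ c} {𝔈 : PvieEng τ}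

/-- **[MEAS] OF (C2)**, from the Borel data of the contract of record -/
theorem pvcy1c_meas {m0 : ℕ} {Cth : ℝ} {r κs : ℕ → ℝ} (hP : 𝔓.WfB) (H : PvieEng.Wf 𝔓 𝔈 m0 Cth r κs) {m : ℕ} {ε : ℝ} (hε : 0 < ε) (hO : MeasurableSet (𝔈.kit m ε).O₀) (z : ℂ) (t : τ) :
    Pvcy1cMeas 𝔓 𝔈 m ε z t where
  wo := pvzi2_mWno H hO z t
  we := pvzi2_mWne H z t
  wr := pvzi2_mWnr H hO
  no := fun Z _ => pvml_SAo_null hP (pvml_engB H) hε pvml_wm_Q m z t Z (pvzi2_mWno H hO z t Z)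
  ne := fun Z _ => pvml_SAe_null hP (pvml_engB H) hε pvml_wm_Q m z t Z (pvzi2_mWne H z t Z)
  nr := pvml_SAr_null 𝔓 (pvml_engB H) hε pvml_wm_Q m (pvzi2_mWnr H hO)

/-- (C2) is owed on the bases only: a smaller set of bases is cheaper -/
theorem pvcy1c_c2_mono {m : ℕ} {ε : ℝ} {z : ℂ} {t : τ} {B B' : Set (Conf PvPt)} {H : Conf PvPt → ℝ≥0∞} (hB : B' ⊆ B) (h : Pvcy1C2 𝔓 𝔈 m ε z t B H) : Pvcy1C2 𝔓 𝔈 m ε z t B' H := by
  filter_upwards [h] with η hη ω hω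
  exact hη ω (hB hω)

end meas

/-! ## 2. [KDICT], [CELL] at the engine of record -/

section rec

variable (N : PvxNums) (hN : N.Ok) (c : ℝ) (nb : PvnaNb N)

/-- the geometry of the cells of level `m` -/
noncomputable def pvcy1cGeo (m : ℕ) : PvkdGeo := pvkgG.sc (pvlmDel c m)

/-- **[KDICT] AT THE ENGINE OF RECORD** -/
theorem pvcy1c_dict (m : ℕ) : ∀ᶠ ε in 𝓝[>] (0 : ℝ), PvukDict ((pvnaEngRec N hN c nb).kit m ε) ((pvnaEngRec N hN c nb).XQ m ε) (pvcy1cGeo c m) ε :=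
  pvuk_eng (pvnr_num N hN c nb) (fun e => pvku_unit_kit nb.H e) (fun e => pvku_unit_XQ nb.H e) (nb.H.ok.mono fun _ h => ⟨_, _, h⟩) pvkgg_xref.ZZ m

/-- **[CELL] AT THE ENGINE OF RECORD** -/
theorem pvcy1c_cell (c0 : 0 < c) {m : ℕ} (hm : N.m0 ≤ m) (z : ℂ) (t : pvxTau N) : ∀ᶠ ε in 𝓝[>] (0 : ℝ),
    Pvcy1cCell (pvxParOf N hN c) (pvnaEngRec N hN c nb) m ε z t (pvc1kA (pvxParOf N hN c) (pvcy1cGeo c m) m z t) (pvc1kX (pvxParOf N hN c) (pvcy1cGeo c m) m z t) := by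
  filter_upwards [pvcy1c_dict N hN c nb m] with ε D
  exact pvc1k_cell_at D z (pveg_dout4 ((pvea_par hN c0).lev hm) t)

end rec

theorem pvcy1cm_eqns_cite : True := by
  have := @pvcy1cGeo.eq_1
  trivial

/-! ## 3. the sub-exit, the statement of `exit_pvc1_c2` -/

section exits

variable {c : ℝ}

/-- **the numerals of the glue of 133**: the plug of the cells of level `m` IS the door plug of record `pvkdP (δ_m / 40)` (KitGeo v2 of 258, InstL v2.2.1), side, scales -/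
theorem pvcy1c_num (c0 : 0 < c) (N : PvxNums) (hN : N.Ok) (nb : PvnaNb N) {m : ℕ} (hm : N.m0 ≤ m) (t : pvxTau N) : Pvc1kNum (pvxParOf N hN c) (pvnaEngRec N hN c nb) (pvcy1cGeo c m) m where
  pl := by
    show (pvkdP (1 / 40)).sc (pvlmDel c m) = pvkdP (pvlmDel c m / 40)
    rw [pvdil_P (pvlm_Del_pos c m)]
    congr 1
    ring
  δ := by
    rw [((pvea_par hN c0).lev hm).del]
    show pvlmDel c m * 1 = pvlmDel c m
    ring
  d0 := pvlm_Del_pos c m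
  ru := by
    rw [pvnr_rp_h]
    have := pveh_Dl_pos ((pvea_par hN c0).geo m hm t (pvea_tyOk hN t)).n0
    positivity
  din0 := by
    intro h0
    have h : ‖pvtDir (((pvxParOf N hN c).Γ m).dout t) (((pvxParOf N hN c).Γ m).l1 t)‖ = 1 := by rw [pvt_norm_dir, ((pvxParOf N hN c).Γ m).dout1 t]
    rw [((pvxParOf N hN c).Γ m).l1_dir t, h0, norm_zero] at h
    exact zero_ne_one h

/-- **[REST] = THE ONLY DEBT OF (C2)** (text of 133, `Exit/Cyc1K`): ONE bounded Borel box `Bd`, ONE diameter `a₀ > 0` for all the meshes;   at the events of record `Pvc1kEv` (`η` with `CfOK η`, in the orbit of the configuration `ω` of a usable sample; hulls of the base; meshes of the four kinds of windows)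
EVERY normal form `PvdwArcs` of 42 has `PvdwRest`: heads pairwise different, every tag owned once, box, two far gates
[42 = consumer `PvdwArcs.ring`, `PvdwArcs.rest` (`Tr/CycC2M` sec. 8-9) over REGION records `PvdwHd` (75 92), `PvdwOw` (179) at the engine of record;   264 = vertex side of the stubs;   133 = cut by fields `Exit/Cyc1KR`;   48 = pen of [DET]] -/
theorem exit_pvcy1c_rest (c0 : 0 < c) (N : PvxNums) (hN : N.Ok) (nb : PvnaNb N) (m : ℕ) (hm : (pvxParOf N hN c).m0 ≤ m) (p : ℤ × ℤ) (t : pvxTau N) :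
    ∃ (Bd : Set ℂ) (a₀ : ℝ), Bornology.IsBounded Bd ∧ MeasurableSet Bd ∧ 0 < a₀ ∧ ∀ᶠ ε in 𝓝[>] (0 : ℝ),
      Pvc1kRest (pvxParOf N hN c) (pvnaEngRec N hN c nb) (pvcy1cGeo c m) m ε (l9Pt (pvlmH m) p) t {η | CfOK η} (pvConf '' pvxU (pvxParOf N hN c) m (l9Pt (pvlmH m) p) t) Bd a₀ :=
  pvcy1d_rest c0 N hN nb m hm (l9Pt (pvlmH m) p) t

/-- **[DET] THE DETERMINISTIC CLOSING OF THE `Σ₁` CYCLE AT THE ENGINE OF RECORD**: `η` ANY configuration with `CfOK η` (Delaunay good, one colour per site), `ω` = the configuration of ANY usable sample (the full state of `(z,t)` exists at `ω`), `η` in the orbit of `ω`;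
plain events, plain values (`Pvcy1cDet`, `Exit/Cyc1C`), cells = the plain links and masses of 133 (`pvc1kA pvc1kX`)      := `pvc1k_det` of 133 over [REST] -/
theorem exit_pvcy1c_det (c0 : 0 < c) (N : PvxNums) (hN : N.Ok) (nb : PvnaNb N) (m : ℕ) (hm : (pvxParOf N hN c).m0 ≤ m) (p : ℤ × ℤ) (t : pvxTau N) :
    ∃ (Bd : Set ℂ) (a₀ : ℝ), Bornology.IsBounded Bd ∧ MeasurableSet Bd ∧ 0 < a₀ ∧ ∀ᶠ ε in 𝓝[>] (0 : ℝ),
      Pvcy1cDet (pvxParOf N hN c) (pvnaEngRec N hN c nb) m ε (l9Pt (pvlmH m) p) t (pvc1kA (pvxParOf N hN c) (pvcy1cGeo c m) m (l9Pt (pvlmH m) p) t) (pvc1kX (pvxParOf N hN c) (pvcy1cGeo c m) m (l9Pt (pvlmH m) p) t)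
        {η | CfOK η} (pvConf '' pvxU (pvxParOf N hN c) m (l9Pt (pvlmH m) p) t) Bd a₀ := by
  obtain ⟨Bd, a₀, bB, mB, ha, h⟩ := exit_pvcy1c_rest c0 N hN nb m hm p t
  exact ⟨Bd, a₀, bB, mB, ha, h.mono fun ε hε => pvc1k_det (pvcy1c_num c0 N hN nb hm t) (fun η hη => hη.col) bB hε⟩

/-- **(C2) AT THE ENGINE OF RECORD**, bases = the configurations of the usable samples -/
theorem pvcy1c_rec (c0 : 0 < c) (N : PvxNums) (hN : N.Ok) (nb : PvnaNb N) (m : ℕ) (hm : (pvxParOf N hN c).m0 ≤ m) (p : ℤ × ℤ) (t : pvxTau N) :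
    ∃ (Bd : Set ℂ) (a₀ : ℝ), Bornology.IsBounded Bd ∧ MeasurableSet Bd ∧ 0 < a₀ ∧ ∀ᶠ ε in 𝓝[>] (0 : ℝ),
      Pvcy1C2 (pvxParOf N hN c) (pvnaEngRec N hN c nb) m ε (l9Pt (pvlmH m) p) t (pvConf '' pvxU (pvxParOf N hN c) m (l9Pt (pvlmH m) p) t) fun η => pvclSum η Bd a₀ := by
  obtain ⟨Bd, a₀, bB, mB, ha, hdet⟩ := exit_pvcy1c_det c0 N hN nb m hm p t
  obtain ⟨Cth, r, κs, hW⟩ := (pvnr_wf hN c0 nb).wf
  refine ⟨Bd, a₀, bB, mB, ha, ?_⟩
  filter_upwards [hdet, pvcy1c_cell N hN c nb c0 hm (l9Pt (pvlmH m) p) t, self_mem_nhdsWithin] with ε h1 h2 hε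
  have hO : MeasurableSet ((pvnaEngRec N hN c nb).kit m ε).O₀ := by
    rw [pvnr_kit_O]
    exact pvzi2_sim _ _ pvkgg_ze.mO
  exact pvcy1c_c2 (pvcy1c_meas (pvxo_wf N hN c).toWfB hW hε hO _ t) (dls_ae_conf hε) h2 h1

/-- **THE STATEMENT OF `exit_pvc1_c2`** (`Pvc1C2` of 115 unfolded), with the binder `hR` of T12 -/
theorem pvcy1c_main (c0 : 0 < c) (N : PvxNums) (hN : N.Ok) (𝔈 : PvieEng (pvxTau N)) (hR : PvnaRec N hN c 𝔈) (𝔊 : PvnaGd (pvxTau N))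
    (m : ℕ) (hm : (pvxParOf N hN c).m0 ≤ m) (p : ℤ × ℤ) (t : pvxTau N) :
    ∃ (Bd : Set ℂ) (a₀ : ℝ), Bornology.IsBounded Bd ∧ MeasurableSet Bd ∧ 0 < a₀ ∧ ∀ᶠ ε in 𝓝[>] (0 : ℝ), ∀ᵐ η ∂pvP ε,
      ∀ ω ∈ pvConf '' (pvxU (pvxParOf N hN c) m (l9Pt (pvlmH m) p) t ∩ 𝔊.all m ε (l9Pt (pvlmH m) p) t),
        (∃ q, η = pvcy1R (pvxParOf N hN c) 𝔈 m ε (l9Pt (pvlmH m) p) t ω q) → η ∈ pvjgEvL (pvxParOf N hN c) 𝔈 m ε (l9Pt (pvlmH m) p) t ω →
          ‖pvilYcyc (pvxParOf N hN c) 𝔈 m ε (l9Pt (pvlmH m) p) t ω η‖ₑ ^ 2 ≤ pvclSum η Bd a₀ := by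
  obtain ⟨nb, rfl⟩ := hR
  obtain ⟨Bd, a₀, bB, mB, ha, h⟩ := pvcy1c_rec c0 N hN nb m hm p t
  refine ⟨Bd, a₀, bB, mB, ha, h.mono fun ε hε => ?_⟩
  exact pvcy1c_c2_mono (image_mono inter_subset_left) hε

end exits

end Claimed.Agent.R289
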