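-- KEEP
import Claimed.Agent.R289.Exit.Cyc1B
import Claimed.Agent.R289.Tr.CycE
import Claimed.Agent.R289.Tr.CycD
import Claimed.Agent.R289.Exit.Par
import Claimed.Agent.R289.Tr.StopL
import Claimed.Agent.R289.Exit.ThickLU
import Claimed.Agent.R289.Exit.EngRec
import Claimed.Agent.R289.Exit.GdRec
import Claimed.Agent.R289.Exit.Cyc1CM

/-!
# Row 289 (S0537), THE WALL, ROAD E, Exit/Cyc1M : `exit_pvie_cyc1` = COMPILED GLUE OVER NAMED SUB-EXITS AT THE NAMES OF `Tr/InstL`      (pen helper115; prefix `pvc1_`, `pvc1`, `Pvc1`)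

ROPE OF RECORD = ROPE B (the calculus in which the data of record are written; a.e. forcing absorbed by 141 / 256):
`PvnaCyc1`  ⟸  `pvcy1_cyc1` (188, `Exit/Cyc1B`, PROVED)  ⟸  `Pvcy1All`  ⟸  **`pvc1_all`** (here, PROVED)  ⟸  for every candidate: (REC) + (STOP) + (C2)   [(MEAS), (TAIL), `mH`, (ACT) are PROVED here].
* sec. 1  `pvc1B 𝔓 𝔊 m ε z t` = THE BASES = the configurations of the good usable samples (the SMALLEST possible set: every leaf is owed on it only);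
          the three contracts of one candidate: **`Pvc1Rec`** (the record `PvjgCycL` of 102 at a.e. base, ONE bound `D` of `pvjgDL` for all the meshes), **`Pvc1Stop`** (STOP for the diagonal fresh set `pvilYfcyc`), **`Pvc1C2`** ((C2) closing, majorant `pvclSum · Bd a₀`)
* sec. 2  the kit from `PvnaWf.num` (`pvc1_kit`), (MEAS) (`pvc1_mC`), **`pvc1_at`**, **`pvc1_all`**                                                                        PROVED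
* sec. 3  THE SUB-EXITS AT `pvxParOf N hN c` (one sorry each, owners in the docstrings), **`pvc1_main`** = the statement of `exit_pvie_cyc1` (271, `Exit/Ana`) VERBATIM
-/

set_option autoImplicit false

namespace Claimed.Agent.R289

open MeasureTheory Filter Topology Set Claims.C0465
open scoped ENNReal

/-! ## 1. the bases, the three contracts of one candidate -/

section contracts

variable {τ : Type} {c : ℝ} (𝔓 : PvxPar τ c) (𝔈 : PvieEng τ) (𝔊 : PvnaGd τ)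

/-- **THE BASES OF THE `Σ₁` CYCLE OF THE CANDIDATE `(z,t)`** = the configurations of the good usable samples -/
def pvc1B (m : ℕ) (ε : ℝ) (z : ℂ) (t : τ) : Set (Conf PvPt) := pvConf '' (pvxU 𝔓 m z t ∩ 𝔊.all m ε z t)

/-- **(REC)** at almost every base the record of 102 holds (funnels free), with constants which do not depend on the mesh;   the bound `pvjgDL` of the weight is bounded along the meshes -/
def Pvc1Rec (m : ℕ) (z : ℂ) (t : τ) : Prop :=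
  ∃ β' q qr qo qe D : ℝ≥0∞, D ≠ ∞ ∧ ∀ᶠ ε in 𝓝[>] (0 : ℝ), pvjgDL 𝔓 𝔈 m ε t q qr qo qe ≤ D ∧
    ∀ᵐ ω ∂pvP ε, ω ∈ pvc1B 𝔓 𝔊 m ε z t → ∃ fo fe : PvkeFun ℂ, PvjgCycL 𝔓 𝔈 m ε z t ω fo fe β' q qr qo qe

/-- **(STOP)** a stopping choice which is the fresh set of the cycle at almost every base -/
def Pvc1Stop (m : ℕ) (z : ℂ) (t : τ) : Prop :=
  ∀ᶠ ε in 𝓝[>] (0 : ℝ), ∃ (Ok : Set ℂ → Prop) (yf : Conf PvPt → Set ℂ), (∀ᵐ ω ∂pvP ε, Ok (cfSites ω)) ∧ PvktStop Ok yf ∧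
    ∀ᵐ ω ∂pvP ε, ω ∈ pvc1B 𝔓 𝔊 m ε z t → yf ω = pvilYfcyc 𝔓 𝔈 m z t ω

/-- **(C2)** CLOSING: on the success of the whole cycle (at the base data of `ω`) its value is the increment of ONE closed rim inside `Bd`, of diameter `≥ a₀`;   ONE null set of configurations `η` for all the bases -/
def Pvc1C2 (m : ℕ) (z : ℂ) (t : τ) : Prop :=
  ∃ (Bd : Set ℂ) (a₀ : ℝ), Bornology.IsBounded Bd ∧ MeasurableSet Bd ∧ 0 < a₀ ∧ ∀ᶠ ε in 𝓝[>] (0 : ℝ), ∀ᵐ η ∂pvP ε, ∀ ω ∈ pvc1B 𝔓 𝔊 m ε z t,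
    (∃ p, η = pvcy1R 𝔓 𝔈 m ε z t ω p) → η ∈ pvjgEvL 𝔓 𝔈 m ε z t ω → ‖pvilYcyc 𝔓 𝔈 m ε z t ω η‖ₑ ^ 2 ≤ pvclSum η Bd a₀

end contracts

theorem pvc1m_eqns_cite : True := by
  have := @pvc1B.eq_1; have := @Pvc1Rec.eq_1; have := @Pvc1Stop.eq_1; have := @Pvc1C2.eq_1
  trivial

/-! ## 2. the glue -/

section glue

variable {τ : Type} {c : ℝ} {𝔓 : PvxPar τ c} {𝔈 : PvieEng τ} {𝔊 : PvnaGd τ}

/-- **THE CELL KIT** from the field (NUM) of 258: constants which depend neither on the level nor on the mesh -/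
theorem pvc1_kit (hE : PvnaWf 𝔓 𝔈) : ∃ (β' q : ℝ≥0∞) (B : ℕ → ℝ≥0∞) (r : ℕ → ℝ → ℝ), ∀ m, ∀ᶠ ε in 𝓝[>] (0 : ℝ), PvcnOkQ (𝔈.kit m ε) ε (𝔈.XQ m ε) β' q (B m) (r m ε) := by
  obtain ⟨U, hU⟩ := hE.num
  refine ⟨(U.fam (pvlm_Del_pos c)).β', (U.fam (pvlm_Del_pos c)).q, fun m => ENNReal.ofReal ((U.fam (pvlm_Del_pos c)).CB * pvlmDel c m ^ 2), (U.fam (pvlm_Del_pos c)).r, fun m => ?_⟩
  filter_upwards [(U.fam (pvlm_Del_pos c)).ok m] with ε H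
  rw [hU.kit, hU.XQ]
  exact H.toQ

/-- (MEAS) the resampled region of the cycle is Borel -/
theorem pvc1_mC (hE : PvnaWf 𝔓 𝔈) (m : ℕ) (z : ℂ) (t : τ) : ∀ᶠ ε in 𝓝[>] (0 : ℝ), MeasurableSet (pvilCcyc 𝔓 𝔈 m ε z t) := by
  obtain ⟨Cth, r, κs, H⟩ := hE.wf
  obtain ⟨β', q, B, r', hk⟩ := pvc1_kit hE
  filter_upwards [hk m] with ε h
  exact pvjh_C_meas H h.wf z t

/-- the contract of 188 at one mesh -/
theorem pvc1_at {m : ℕ} {ε : ℝ} {z : ℂ} {t : τ} {β' q qr qo qe D : ℝ≥0∞} {Bd : Set ℂ} {a₀ : ℝ} (mC : MeasurableSet (pvilCcyc 𝔓 𝔈 m ε z t)) (mB : MeasurableSet Bd)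
    (hD : pvjgDL 𝔓 𝔈 m ε t q qr qo qe ≤ D)
    (hR : ∀ᵐ ω ∂pvP ε, ω ∈ pvc1B 𝔓 𝔊 m ε z t → ∃ fo fe : PvkeFun ℂ, PvjgCycL 𝔓 𝔈 m ε z t ω fo fe β' q qr qo qe)
    (hS : ∃ (Ok : Set ℂ → Prop) (yf : Conf PvPt → Set ℂ), (∀ᵐ ω ∂pvP ε, Ok (cfSites ω)) ∧ PvktStop Ok yf ∧ ∀ᵐ ω ∂pvP ε, ω ∈ pvc1B 𝔓 𝔊 m ε z t → yf ω = pvilYfcyc 𝔓 𝔈 m z t ω)
    (hC : ∀ᵐ η ∂pvP ε, ∀ ω ∈ pvc1B 𝔓 𝔊 m ε z t, (∃ p, η = pvcy1R 𝔓 𝔈 m ε z t ω p) → η ∈ pvjgEvL 𝔓 𝔈 m ε z t ω → ‖pvilYcyc 𝔓 𝔈 m ε z t ω η‖ₑ ^ 2 ≤ pvclSum η Bd a₀) :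
    Pvcy1At 𝔓 𝔈 m ε z t (pvc1B 𝔓 𝔊 m ε z t) D (fun η => pvclSum η Bd a₀) where
  mC := mC
  stop := hS
  mH := pvcl_sum_aem ε mB a₀
  eq := by
    filter_upwards [hR] with ω h hω
    obtain ⟨fo, fe, H⟩ := h hω
    obtain ⟨ω', -, rfl⟩ := hω
    rw [← pvcy1_hat_eq, pvjg_hat_cyc H]
    rfl
  mass := by
    filter_upwards [hR] with ω h hω
    obtain ⟨fo, fe, H⟩ := h hω
    exact le_of_eq (pvjg_mass_cyc H)
  le_c2 := by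
    refine ⟨pvjgEvL 𝔓 𝔈 m ε z t, ?_, hC⟩
    filter_upwards [hR] with ω h hω
    obtain ⟨fo, fe, H⟩ := h hω
    filter_upwards [pvjg_le_cyc H] with p hp
    exact hp.trans (mul_le_mul_left hD _)

/-- **(CYC1.B) FROM THE THREE CONTRACTS** -/
theorem pvc1_all (hE : PvnaWf 𝔓 𝔈) {m0 : ℕ}
    (hR : ∀ m, m0 ≤ m → ∀ (p : ℤ × ℤ) (t : τ), Pvc1Rec 𝔓 𝔈 𝔊 m (l9Pt (pvlmH m) p) t)
    (hS : ∀ m, m0 ≤ m → ∀ (p : ℤ × ℤ) (t : τ), Pvc1Stop 𝔓 𝔈 𝔊 m (l9Pt (pvlmH m) p) t)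
    (hC : ∀ m, m0 ≤ m → ∀ (p : ℤ × ℤ) (t : τ), Pvc1C2 𝔓 𝔈 𝔊 m (l9Pt (pvlmH m) p) t) : Pvcy1All 𝔓 𝔈 𝔊 m0 := by
  intro m hm p t
  obtain ⟨β', q, qr, qo, qe, D, hD, h1⟩ := hR m hm p t
  obtain ⟨Bd, a₀, bB, mB, ha, h3⟩ := hC m hm p t
  refine ⟨fun ε => pvc1B 𝔓 𝔊 m ε (l9Pt (pvlmH m) p) t, D, fun _ η => pvclSum η Bd a₀, hD, ?_, ?_, pvcl_closed bB ha⟩
  · filter_upwards [h1, hS m hm p t, h3, pvc1_mC hE m (l9Pt (pvlmH m) p) t] with ε e1 e2 e3 e4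
    exact pvc1_at e4 mB e1.1 e1.2 e2 e3
  · exact Eventually.of_forall fun ε ω hω => ⟨ω, hω, rfl⟩

end glue

/-! ## 3. the sub-exits at the parameters of record -/

section exits

variable {c : ℝ}

/-! **(5.1) REC** = the record of the cycle (102, `Tr/CycE`) at almost every good usable base: PROVED ABOVE THIS FILE, `pvc1r_rec` of 129 (`Exit/Cyc1R.lean`, which imports this file) over ONE leaf `exit_pvc1r_frcr` (the `r`-link is forced: 233 262 257);   here it is the binder `hRec` of `pvc1_main` -/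

/-- **(5.2) STOP**: the diagonal fresh set `pvilYfcyc` is a stopping choice on the bases      [96 `Tr/StopL` = `Tr/StopM` ported to the names of `Tr/InstL`: `pvsml_cyc_leaf`; PROVED] -/
theorem exit_pvc1_stop (c0 : 0 < c) (N : PvxNums) (hN : N.Ok) (𝔈 : PvieEng (pvxTau N)) (hE : PvnaWf (pvxParOf N hN c) 𝔈) (𝔊 : PvnaGd (pvxTau N)) (hG : 𝔊.Wf (pvxParOf N hN c) 𝔈)
    (m : ℕ) (hm : (pvxParOf N hN c).m0 ≤ m) (p : ℤ × ℤ) (t : pvxTau N) : Pvc1Stop (pvxParOf N hN c) 𝔈 𝔊 m (l9Pt (pvlmH m) p) t := by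
  obtain ⟨Cth, r, κs, hW⟩ := hE.wf
  have ht : pviwTyOk (pvxParOf N hN c) t := by
    refine ⟨pvxo_nd_p t, pvxo_nd_m t, ?_⟩
    have := pvxo_nd_far t
    show 7 * N.rho / 4 ≤ ‖pvxoYp t - pvxoYm t‖
    linarith
  refine Eventually.of_forall fun ε => pvsml_cyc_leaf _ 𝔈 hW hm ε _ ht ?_
  rintro _ ⟨ω, hω, rfl⟩
  exact pvju_U _ m _ t hω.1

/-- **(5.3) C2**: closing of the `Σ₁` cycle      **WIRED (188, 13:25Z)** := `pvcy1c_main` of `Exit/Cyc1CM` ([MEAS] 289, [CELL] 133 244 PROVED) over ONE deterministic sub-exit `exit_pvcy1c_det`      [48 `Tr/CycC3` = pen;  133 top glue;  42 `Tr/CycC2M`;  264 `Tr/CycC2B`;  75 regions] -/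
theorem exit_pvc1_c2 (c0 : 0 < c) (N : PvxNums) (hN : N.Ok) (𝔈 : PvieEng (pvxTau N)) (hE : PvnaWf (pvxParOf N hN c) 𝔈) (hR : PvnaRec N hN c 𝔈)
    (𝔊 : PvnaGd (pvxTau N)) (hG : 𝔊.Wf (pvxParOf N hN c) 𝔈) (hGR : PvguRec (pvxParOf N hN c) 𝔈 𝔊)
    (m : ℕ) (hm : (pvxParOf N hN c).m0 ≤ m) (p : ℤ × ℤ) (t : pvxTau N) : Pvc1C2 (pvxParOf N hN c) 𝔈 𝔊 m (l9Pt (pvlmH m) p) t :=
  pvcy1c_main c0 N hN 𝔈 hR 𝔊 m hm p t

/-- **(5) CYC1** = the statement of `exit_pvie_cyc1` (`Exit/Ana`) over (REC);   the exit itself = `pvc1r_main` (`Exit/Cyc1R.lean`) -/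
theorem pvc1_main (c0 : 0 < c) (N : PvxNums) (hN : N.Ok) (𝔈 : PvieEng (pvxTau N)) (hE : PvnaWf (pvxParOf N hN c) 𝔈) (hR : PvnaRec N hN c 𝔈)
    (𝔊 : PvnaGd (pvxTau N)) (hG : 𝔊.Wf (pvxParOf N hN c) 𝔈) (hGR : PvguRec (pvxParOf N hN c) 𝔈 𝔊)
    (hRec : ∀ m, (pvxParOf N hN c).m0 ≤ m → ∀ (p : ℤ × ℤ) (t : pvxTau N), Pvc1Rec (pvxParOf N hN c) 𝔈 𝔊 m (l9Pt (pvlmH m) p) t) :
    PvnaCyc1 (pvxParOf N hN c) (pvnaDatE (pvxParOf N hN c) 𝔈) 𝔊 (pvxParOf N hN c).m0 :=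
  pvcy1_cyc1 (pvc1_all hE hRec (exit_pvc1_stop c0 N hN 𝔈 hE 𝔊 hG) (exit_pvc1_c2 c0 N hN 𝔈 hE hR 𝔊 hG hGR))

end exits

end Claimed.Agent.R289
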