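import Claimed.Agent.R289.Exit.N1
import Claimed.Agent.R289.Tr.Dict
import Claimed.Agent.R289.Qbx.Loc
import Claimed.Agent.R289.Cr.ArmB
import Claimed.Agent.R289.Mesh.Tri

/-!
# Row 289 (S0537), Exit/N1B : THE LOWER HALF OF THE ROOF OF `n1` (ROAD E) = THE FIELDS `geo` AND `act` OF `PvxnOk` AT THE SYSTEM `pvxnSys` OF 170      (helper60, on the request of 170, msg 80829; prefix `pvn1b`, `Pvn1b`, `exit_pvn1b_`)

v4.2 (11:55Z): DEFECT of 130 CURED: the clause `qbx` of `Pvn1bGood` / `Pvn1bQbx` runs over the data with `E(D)` only (a frozen black `g₀` across the annulus has `P(circuit | D) = 0`);   `Pvn1bMu` reads the boxes of the two types of the pattern only, PROVED from `pvxPatSet` v4 + `L h + h ≤ R` (`pvn1b_mu_of`; R19 (3) of 234: `pvxo_LR` of 73).      v4.1 (11:50Z): on `Defs/TrModel` v4 (hulls round the GRID centres `pvxYs pvxYt`; same patch in `PvxnWit`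 of `Exit/N1`).      v4 (11:40Z, riders R2 R3 of 191): a FREE good event `Γ` (`Γs ε`) in `Pvn1bKit`, `Pvn1bGood`, `pvn1bG` (e.g. `Γ ω := ω ∈ U(t) ∩ U(s) → ω ∈ Gd ε`; `pvn1b_geo` asks `P(¬ Γ) → 0` = field `bad` of `PvelAna`); the HULLS of the fit are in `Pvn1bAct`.      v3 (11:10Z): FAMILIES of kits `𝔎s ε` (Exit/N1 v4; R3 = `pvn1b_collar_fam`).      v2 (10:45Z).   v1 carried a system of its own (`pvn1bSys`): WITHDRAWN (82: no third definition of `S`; 170: the colour flip, the index which carries `F N g X`).      Everything here is stated for `pvxnSys 𝔓 m π a 𝔎 𝔜` (`Exit/N1.lean` sec. 5), ANY kit `𝔎`.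
* sec. 1  `Pvn1bMu` (the level `m` is fine enough for the patch: REQUEST Q1 to 187),  `pvn1b_core` : SYSTEM FREE: `pvxFit` + good geometry `⟹ pvbArcI = X(D)` for the datum of the fit (`pvdc_X_model` of 195).      PROVED
* sec. 2  the colour flip at a good configuration: `pvn1b_sites_fl`, `pvn1b_col_fl`.      PROVED
* sec. 3  **`Pvn1bKit`** = what the KIT owes to `act` (deterministic; one field = one sub-exit with its owner): `c1` (= `pvlx_act` of 22 when `E = NBU`), `sub fin far` (read sites), `uni` (one `WO` per index)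
* sec. 4  THE GOOD SAMPLES `Pvn1bGood`, THE BAD EVENT `pvn1bG`;   **`pvn1b_act`** = the field `act` of `PvxnOk`, VERBATIM.      COMPILED, 0 sorry
* sec. 5  **`pvn1b_geo`** = the field `geo` of `PvxnOk` from: a.s. goodness + fine mesh (PROVED here from `l9_fine_prob`), `exit_pvn1b_collar` (collar mesh; PROVED from `pvm_good_tendsto`), the QBX clause `Pvn1bQbx` (hypothesis: 35 `Tr/HookE`, 100)
* sec. 6  `exit_pvn1b_conf` : the frozen sites of an actual datum lie in `closedBall x (6R)` (for the producers of `far`, `fin`).      PROVED (110)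
REQUESTS TO 187 (TrModel v4):  (Q1) `n1` needs `Pvn1bMu` (`m h + μ < a h`, `b h + μ < R`, boxes inside the patch): NOT available for the finitely many small `m`; put the clause into `pvxPatSet` (no pattern at a coarse level).
-/

set_option autoImplicit false
set_option linter.unusedVariables false
set_option linter.unusedSectionVars false

namespace Claimed.Agent.R289

open MeasureTheory Filter Topology Set Claims.C0465
open scoped ENNReal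

/-! ## 1. the level is fine enough; the system free core -/

section core

variable {τ : Type} {c : ℝ} (𝔓 : PvxPar τ c)

/-- **the level `m` is fine enough for the patch `(x,R)`, mesh `μ`** (Q1) -/
structure Pvn1bMu (R : ℝ) (m : ℕ) (π : PvxIx τ) (μ : ℝ) : Prop where
  mu0 : 0 < μ
  muR : μ ≤ R
  cut : ∀ t, 𝔓.num.m * pvlmH m + μ < (𝔓.ty t).a * pvlmH m
  gate : ∀ t, (𝔓.ty t).b * pvlmH m + μ < R
  box : ∀ t, t = π.p.ts ∨ t = π.p.tt → 2 * pvwRad 𝔓.num (pvlmH m) (𝔓.ty t) 𝔓.num.K + μ ≤ 3 * R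

variable {x : ℂ} {R : ℝ} {m : ℕ} {π : PvxIx τ}

/-- **(Q1) IS PAID BY `pvxPatSet` v4** (clause (b2)) + the number `L h + h ≤ R` (`pvxo_LR` of 73 at `pvxParOf`), any mesh `0 < μ < h` -/
theorem pvn1b_mu_of (hW : 𝔓.Wf) (hπ : π ∈ pvxPatSet 𝔓 x R m) (hLR : 𝔓.𝔐.L * pvlmH m + pvlmH m ≤ R) {μ : ℝ} (h0 : 0 < μ) (h1 : μ < pvlmH m) : Pvn1bMu 𝔓 R m π μ := by
  have hh := pvlm_H_pos m
  have hB := hW.toWfB
  obtain ⟨-, -, hbs, hbt, -⟩ := hπ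
  have hb : ∀ t, (𝔓.ty t).b * pvlmH m ≤ 𝔓.𝔐.L * pvlmH m := fun t => mul_le_mul_of_nonneg_right (hB.b_le t) hh.le
  have hb0 : ∀ t, 0 < (𝔓.ty t).b * pvlmH m := fun t => mul_pos ((hB.a0 t).trans (hB.ab t)) hh
  have hR : 0 < R := by linarith [hb π.p.ts, hb0 π.p.ts]
  refine ⟨h0, by linarith [hb π.p.ts, hb0 π.p.ts], fun t => pvdc_wf_num 𝔓 hB t hh h1.le, fun t => by linarith [hb t], ?_⟩
  rintro t (rfl | rfl)
  · linarith
  · linarith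

/-- **THE SYSTEM FREE CORE OF `act`**: for the datum of a fit, `pvbArcI = X(D)` -/
theorem pvn1b_core (hW : 𝔓.Wf) (hR : 0 < R) (hπ : π ∈ pvxPatSet 𝔓 x R m) (a : ℂ) {μ : ℝ} (hμ : Pvn1bMu 𝔓 R m π μ) {ω : PVSample} (hd : DelGood (pvxY ω))
    (hf : L9Fine (pvxY ω) (Metric.closedBall x (6 * R)) μ) {P : PvbRim} (hP : P ∈ pvhbAll x R ω) {s t : PvbPin τ}
    (hs1 : s.ctr = π.p.zs) (ht1 : t.ctr = π.p.zt) {𝔇 : PvwDat (pvxT ω)} {j : ℕ} (hok : 𝔇.Ok (pvxPos ω) 𝔓.num (pvlmH m) (𝔓.reg m π))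
    (hact : PvxActual 𝔇 𝔓.num (pvlmH m) (𝔓.reg m π) (𝔓.col π.p.ts) P j) (hAs : PvxAt 𝔓 m ω π.p.zs π.p.ts 𝔇.s)
    (his : s.idx = j + 𝔇.s.ip) (hit : t.idx = j + 𝔇.s.inn.n + 𝔇.g.n + 𝔇.t.ip)
    (hin : ∀ k, j ≤ k → k ≤ j + 𝔇.s.inn.n + 𝔇.g.n + 𝔇.t.inn.n → ‖P.v k - x‖ ≤ 5 * R) :
    pvbArcI 𝔓.𝔐 (pvlmH m) P (fun k => P.xQ k - a * P.xV k) s t = 𝔇.X (pvxPos ω) (pvxnFd (pvxY ω) a) 𝔓.num (pvlmH m) (𝔓.reg m π) := by
  obtain ⟨⟨-, -, -, hzs, hzt, -⟩, -⟩ := hπ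
  obtain ⟨hcl, hfar, hmv, hmz⟩ := pvdc_all_mesh hR hμ.muR hf hP
  have hG : 𝔇.s.Gate (pvxPos ω) (pvlmH m) (𝔓.reg m π).zs (𝔓.reg m π).ts (pvxCol ω (𝔓.col π.p.ts)) := by
    rw [hW.reg_zs, hW.reg_ts]
    exact hAs.st.out.gate
  exact pvdc_X_model 𝔓.𝔐 hR hd hP hμ.mu0.le hcl hfar hmv hmz 𝔇 𝔓.num (pvlmH m) (𝔓.reg m π) (𝔓.col π.p.ts) j hok.pos_n hok.st_t.gate.ip_le hG hact
    (fun k hk => (hin (j + k) (Nat.le_add_right _ _) (by omega)).trans (by linarith))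
    (by rw [hW.reg_zs]; exact hzs) (by rw [hW.reg_ts]; exact hμ.gate _) (by rw [hW.reg_ts]; exact hμ.cut _)
    s t (hs1.trans (hW.reg_zs m π).symm) (ht1.trans (hW.reg_zt m π).symm) (hW.mc_eq _) (hW.mc_eq _) his hit a

end core

/-! ## 2. the colour flip -/

theorem pvn1b_sites_fl (b : Bool) (ζ : Conf PvPt) : cfSites (pvxnFl b ζ) = cfSites ζ := by
  cases b
  · exact pvqa_sites_flip ζ
  · rfl

/-- at a configuration with one colour per site, `true` of `pvxnFl b ζ` = the colour `b` of `ζ` -/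
theorem pvn1b_col_fl (b : Bool) {ζ : Conf PvPt} (h1 : ∀ p ∈ ζ.pts, ∀ q ∈ ζ.pts, p.1 = q.1 → p = q) {z : ℂ} (hz : z ∈ cfSites ζ) : cfCol (pvxnFl b ζ) z = (cfCol ζ z == b) := by
  cases b
  · show cfCol (cfFlip ζ) z = (cfCol ζ z == false)
    unfold cfCol
    by_cases ht : (z, true) ∈ ζ.pts
    · have hf : (z, false) ∉ ζ.pts := fun hf => by
        have := h1 _ ht _ hf rfl
        simp at this
      have hf' : (z, true) ∉ (cfFlip ζ).pts := fun h => hf (by simpa using (l9a_flip_mem ζ z true).1 h)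
      simp [ht, hf']
    · have hf : (z, false) ∈ ζ.pts := by
        obtain ⟨p, hp, rfl⟩ := hz
        obtain ⟨p1, p2⟩ := p
        cases p2
        · exact hp
        · exact absurd hp ht
      have hf' : (z, true) ∈ (cfFlip ζ).pts := (l9a_flip_mem ζ z true).2 (by simpa using hf)
      simp [ht, hf']
  · show cfCol ζ z = (cfCol ζ z == true)
    cases cfCol ζ z <;> rfl

/-! ## 3. what the kit owes to `act` -/

section kit

variable {τ : Type} {c : ℝ} (𝔓 : PvxPar τ c) (x : ℂ) (R : ℝ) (m : ℕ) (π : PvxIx τ) (a : ℂ) (𝔎 : PvxnKit) (Γ : PVSample → Prop)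

/-- the datum `𝔇` of the plane of `ω` is ACTUAL for an encoded rim of a completion, its arc inside `closedBall x (5R)`, its hulls are those of the index `π` -/
def Pvn1bAct (ω : PVSample) (𝔇 : PvwDat (pvxT ω)) : Prop :=
  𝔇.Ok (pvxPos ω) 𝔓.num (pvlmH m) (𝔓.reg m π) ∧ (∃ P ∈ pvhbAll x R ω, ∃ j, PvxActual 𝔇 𝔓.num (pvlmH m) (𝔓.reg m π) (𝔓.col π.p.ts) P j ∧
    ∀ k, j ≤ k → k ≤ j + 𝔇.s.inn.n + 𝔇.g.n + 𝔇.t.inn.n → ‖P.v k - x‖ ≤ 5 * R) ∧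
  (π.Zs : Set (ℤ × ℤ)) = pvtCells (pvlmDel c m) (Subtype.val '' 𝔇.s.fzIn ∪ Metric.closedBall (pvxYs 𝔓 m π.p) (𝔓.num.rho * pvlmH m)) ∧
  (π.Zt : Set (ℤ × ℤ)) = pvtCells (pvlmDel c m) (Subtype.val '' 𝔇.t.fzOut ∪ Metric.closedBall (pvxYt 𝔓 m π.p) (𝔓.num.rho * pvlmH m))

/-- **WHAT THE KIT OWES TO `act`** (deterministic).   `ω` runs through the samples with `PvqfGood`, fine mesh on `closedBall x (6R)`, dense collar, `Γ ω`. -/
structure Pvn1bKit (μ : ℝ) : Prop where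
  mu : Pvn1bMu 𝔓 R m π μ
  /-- (C1): an actual datum has `E(D)`      [22 `pvlx_act` when `E = NBU` on a set of sites of `closedBall x (6R)`; 194 (C1); 145 `NBon`] -/
  c1 : ∀ ω : PVSample, PvqfGood (pvConf ω) → L9Fine (pvxY ω) (Metric.closedBall x (6 * R)) μ → VorDense (pvxY ω) (pvgeCollar 𝔎.C 𝔎.r) 𝔎.r → Γ ω →
    ∀ 𝔇 : PvwDat (pvxT ω), Pvn1bAct 𝔓 x R m π ω 𝔇 → 𝔎.E (pvxY ω) 𝔇 (pvxCol ω (𝔓.col π.p.ts))
  /-- the frozen sites are read -/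
  sub : ∀ ω : PVSample, PvqfGood (pvConf ω) → L9Fine (pvxY ω) (Metric.closedBall x (6 * R)) μ → VorDense (pvxY ω) (pvgeCollar 𝔎.C 𝔎.r) 𝔎.r → Γ ω →
    ∀ 𝔇 : PvwDat (pvxT ω), Pvn1bAct 𝔓 x R m π ω 𝔇 → 𝔇.fz ⊆ 𝔎.N (pvxY ω) 𝔇
  /-- finitely many sites are read      [bounded patch + `PvLF`] -/
  fin : ∀ ω : PVSample, PvqfGood (pvConf ω) → L9Fine (pvxY ω) (Metric.closedBall x (6 * R)) μ → VorDense (pvxY ω) (pvgeCollar 𝔎.C 𝔎.r) 𝔎.r → Γ ω →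
    ∀ 𝔇 : PvwDat (pvxT ω), Pvn1bAct 𝔓 x R m π ω 𝔇 → (𝔎.N (pvxY ω) 𝔇).Finite
  /-- the read sites are FAR from the annealed region      [29 `Tr/Rd`; `Ok.off`: `g₀` avoids `Yreg`; hulls of the half states against `C`: 168 84] -/
  far : ∀ ω : PVSample, PvqfGood (pvConf ω) → L9Fine (pvxY ω) (Metric.closedBall x (6 * R)) μ → VorDense (pvxY ω) (pvgeCollar 𝔎.C 𝔎.r) 𝔎.r → Γ ω →
    ∀ 𝔇 : PvwDat (pvxT ω), Pvn1bAct 𝔓 x R m π ω 𝔇 → ∀ v ∈ 𝔎.N (pvxY ω) 𝔇, (v : ℂ) ∈ pvgeFar 𝔎.C 𝔎.r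
  /-- all the data of one index have the same `WO`      [25 `Tr/StKit` (uniqueness of the half states from their frozen sites), 3 150] -/
  uni : ∀ (Y : Set ℂ) (i : PvxnIx) (σ : ↥Y → Bool) (𝔇 𝔇' : PvwDat (delbPl Y).toMap), DelGood Y → PvxnWit 𝔓 m π a 𝔎 Y i σ 𝔇 → PvxnWit 𝔓 m π a 𝔎 Y i σ 𝔇' →
    ∀ τ' : ↥Y → Bool, 𝔎.W Y 𝔇' τ' → 𝔎.W Y 𝔇 τ'

/-! ## 4. the good samples, the bad event, the field `act` -/

/-- the colouring of the plane in which `true` = the colour of the rims of the pattern -/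
noncomputable def pvn1bSg (ω : PVSample) : ℂ → Bool := fun z => cfCol (pvConf ω) z == 𝔓.col π.p.ts

/-- **THE GOOD SAMPLES** -/
structure Pvn1bGood (μ : ℝ) (ω : PVSample) : Prop where
  good : PvqfGood (pvConf ω)
  fine : L9Fine (pvxY ω) (Metric.closedBall x (6 * R)) μ
  collar : VorDense (pvxY ω) (pvgeCollar 𝔎.C 𝔎.r) 𝔎.r
  /-- the free good event (R2 of 191) -/
  ex : Γ ω
  /-- QBX: every datum of the pattern which is present WITH `E(D)` has `P(WO | D) ≥ q` -/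
  qbx : ∀ (i : PvxnIx) (𝔇 : PvwDat (delbPl (pvxY ω)).toMap), PvxnWit 𝔓 m π a 𝔎 (pvxY ω) i (fun v => pvn1bSg 𝔓 π ω v) 𝔇 → 𝔎.E (pvxY ω) 𝔇 (fun v => pvn1bSg 𝔓 π ω v) →
    𝔎.q ≤ colLaw ℂ {κ | PvxnPW 𝔓 m π a 𝔎 i (pvxY ω) (pvdmOv i.Fᶜ κ (pvn1bSg 𝔓 π ω))}

/-- **THE BAD EVENT** `G` of `PvxnOk` (does not depend on `ε`) -/
def pvn1bG (μ : ℝ) : Set (PvGeoT × PvColT) := {p | ¬ Pvn1bGood 𝔓 x R m π a 𝔎 Γ μ (pvMerge p)}

/-- the index of a datum -/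
noncomputable def pvn1bIx (Y : Set ℂ) (𝔇 : PvwDat (delbPl Y).toMap) : PvxnIx where
  F := Subtype.val '' 𝔇.fz
  N := Subtype.val '' 𝔎.N Y 𝔇
  g := List.ofFn fun k : Fin (𝔇.g.n + 1) => ((𝔇.g.v k : ↥Y) : ℂ)
  X := 𝔇.X Subtype.val (pvxnFd Y a) 𝔓.num (pvlmH m) (𝔓.reg m π)

variable {𝔓 x R m π a 𝔎 Γ}

/-- **THE INCLUSION**: on a good sample an arc which fits the pattern gives a PRESENT datum of `pvxnSys`, of index `i` with `i.X = pvbArcI` -/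
theorem pvn1b_incl (hW : 𝔓.Wf) (hR : 0 < R) (hπ : π ∈ pvxPatSet 𝔓 x R m) {μ : ℝ} (hk : Pvn1bKit 𝔓 x R m π a 𝔎 Γ μ) (𝔜 : PvxnYd) (ε : ℝ)
    {ω : PVSample} (hω : Pvn1bGood 𝔓 x R m π a 𝔎 Γ μ ω) {P : PvbRim} (hP : P ∈ pvhbAll x R ω) {s t : PvbPin τ} (hfit : pvxFit 𝔓 x R m ω P s t π) :
    ∃ i, pvxnFl (𝔓.col π.p.ts) (pvConf ω) ∈ (pvxnSys 𝔓 m π a 𝔎 𝔜 ε).A i ∧ i.X = pvbArcI 𝔓.𝔐 (pvlmH m) P (fun k => P.xQ k - a * P.xV k) s t := by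
  obtain ⟨⟨hs1, hs2⟩, ⟨ht1, ht2⟩, -, -, 𝔇, j, hok, hact, hAs, hAt, his, hit, hin, hZs, hZt⟩ := hfit
  have hA : Pvn1bAct 𝔓 x R m π ω 𝔇 := ⟨hok, ⟨P, hP, j, hact, hin⟩, hZs, hZt⟩
  have hwit : PvxnWit 𝔓 m π a 𝔎 (pvxY ω) (pvn1bIx 𝔓 m π a 𝔎 (pvxY ω) 𝔇) (fun v => pvn1bSg 𝔓 π ω v) 𝔇 :=
    { ok := hok
      cyl := hact.cyl
      labF := rfl
      labN := rfl
      labg := rfl
      labX := rfl
      hull_s := hZs
      hull_t := hZt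
      sub := hk.sub ω hω.good hω.fine hω.collar hω.ex 𝔇 hA
      fin := hk.fin ω hω.good hω.fine hω.collar hω.ex 𝔇 hA
      far := hk.far ω hω.good hω.fine hω.collar hω.ex 𝔇 hA }
  refine ⟨pvn1bIx 𝔓 m π a 𝔎 (pvxY ω) 𝔇, ?_, (pvn1b_core 𝔓 hW hR hπ a hk.mu hω.good.del hω.fine hP hs1 ht1 hok hact hAs his hit hin).symm⟩
  show PvxnPA 𝔓 m π a 𝔎 _ (cfSites (pvxnFl (𝔓.col π.p.ts) (pvConf ω))) (cfCol (pvxnFl (𝔓.col π.p.ts) (pvConf ω)))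
  rw [pvn1b_sites_fl]
  refine (pvxn_PA_congr 𝔓 m π a 𝔎 (σ := pvn1bSg 𝔓 π ω) fun z hz => pvn1b_col_fl _ hω.good.one hz).2 ?_
  exact ⟨hω.collar, ⟨𝔇, hwit, hk.c1 ω hω.good hω.fine hω.collar hω.ex 𝔇 hA, fun 𝔇' h' τ' hτ => hk.uni _ _ _ 𝔇 𝔇' hω.good.del hwit h' τ' hτ⟩, hω.qbx _ 𝔇 hwit (hk.c1 ω hω.good hω.fine hω.collar hω.ex 𝔇 hA)⟩

/-- **THE FIELD `act` OF `PvxnOk` (v4: a FAMILY of kits `𝔎s ε`), VERBATIM**, at `G ε := pvn1bG .. (𝔎s ε) (Γs ε) μ`;   `mean` = TR2 (`ŷ = K` on the present data of the good samples)      [95 218 161 7] -/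
theorem pvn1b_act (hW : 𝔓.Wf) (hR : 0 < R) (hπ : π ∈ pvxPatSet 𝔓 x R m) {μ : ℝ} (𝔎s : ℝ → PvxnKit) (Γs : ℝ → PVSample → Prop) (hk : ∀ᶠ ε in 𝓝[>] (0 : ℝ), Pvn1bKit 𝔓 x R m π a (𝔎s ε) (Γs ε) μ) (𝔜 : PvxnYd) (K : ℝ → PVSample → ℂ)
    (mean : ∀ᶠ ε in 𝓝[>] (0 : ℝ), ∀ (ω : PVSample) (i : PvxnIx), Pvn1bGood 𝔓 x R m π a (𝔎s ε) (Γs ε) μ ω → pvxnFl (𝔓.col π.p.ts) (pvConf ω) ∈ (pvxnSys 𝔓 m π a (𝔎s ε) 𝔜 ε).A i →
      𝔜.yh ε i (pvxnFl (𝔓.col π.p.ts) (pvConf ω)) = K ε ω) :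
    ∀ᶠ ε in 𝓝[>] (0 : ℝ), ∀ p, p ∉ pvn1bG 𝔓 x R m π a (𝔎s ε) (Γs ε) μ → ∀ P ∈ pvhbAll x R (pvMerge p), ∀ s ∈ pvxPins 𝔓 x R m (pvMerge p) P, ∀ t ∈ pvxPins 𝔓 x R m (pvMerge p) P,
    pvxFit 𝔓 x R m (pvMerge p) P s t π → ∃ i, pvxnFl (𝔓.col π.p.ts) (pvConf (pvMerge p)) ∈ (pvxnSys 𝔓 m π a (𝔎s ε) 𝔜 ε).A i ∧
      i.X = pvbArcI 𝔓.𝔐 (pvlmH m) P (fun k => P.xQ k - a * P.xV k) s t ∧ 𝔜.yh ε i (pvxnFl (𝔓.col π.p.ts) (pvConf (pvMerge p))) = K ε (pvMerge p) := by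
  filter_upwards [mean, hk] with ε hmean hk p hp P hP s _ t _ hfit
  have hω : Pvn1bGood 𝔓 x R m π a (𝔎s ε) (Γs ε) μ (pvMerge p) := not_not.1 hp
  obtain ⟨i, hi, hX⟩ := pvn1b_incl hW hR hπ hk 𝔜 ε hω hP hfit
  exact ⟨i, hi, hX, hmean _ i hω hi⟩

end kit

/-! ## 5. the field `geo` -/

section geo

variable {τ : Type} {c : ℝ} (𝔓 : PvxPar τ c) (x : ℂ) (R : ℝ) (m : ℕ) (π : PvxIx τ) (a : ℂ) (𝔎 : PvxnKit)

/-- almost surely good, fine mesh with high probability -/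
theorem pvn1b_fine_lim (hR : 0 < R) {μ : ℝ} (hμ : 0 < μ) :
    Tendsto (fun ε => (pvhbUp ε).P {p | ¬ (PvqfGood (pvConf (pvMerge p)) ∧ L9Fine (pvxY (pvMerge p)) (Metric.closedBall x (6 * R)) μ)}) (𝓝[>] (0 : ℝ)) (𝓝 0) := by
  have h1 : Tendsto (fun ε => (pvLaw ε {o | ¬ L9Fine (cfSites (pvConf o)) (Metric.closedBall x (6 * R)) μ}).toReal) (𝓝[>] (0 : ℝ)) (𝓝 0) :=
    (pvhb_tendsto_iff _ _).2 fun es h0 he => l9_fine_prob es h0 he x hR hμ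
  have h2 : Tendsto (fun ε => pvLaw ε {o | ¬ L9Fine (cfSites (pvConf o)) (Metric.closedBall x (6 * R)) μ}) (𝓝[>] (0 : ℝ)) (𝓝 0) :=
    (ENNReal.tendsto_toReal_iff (fun ε => measure_ne_top _ _) ENNReal.zero_ne_top).1 (by simpa using h1)
  refine tendsto_of_tendsto_of_tendsto_of_le_of_le' tendsto_const_nhds h2 (Eventually.of_forall fun _ => zero_le) ?_
  filter_upwards [self_mem_nhdsWithin] with ε hε
  have hε' : (0 : ℝ) < ε := hε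
  refine (pvhb_up_P_law ε {o | ¬ (PvqfGood (pvConf o) ∧ L9Fine (pvxY o) (Metric.closedBall x (6 * R)) μ)}).trans ?_
  have hsub : {o | ¬ (PvqfGood (pvConf o) ∧ L9Fine (pvxY o) (Metric.closedBall x (6 * R)) μ)} ⊆
      {o | ¬ PvqfGood (pvConf o)} ∪ {o | ¬ L9Fine (cfSites (pvConf o)) (Metric.closedBall x (6 * R)) μ} := by
    intro o ho
    by_cases hg : PvqfGood (pvConf o)
    · exact Or.inr fun hf => ho ⟨hg, hf⟩
    · exact Or.inl hg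
  refine (measure_mono hsub).trans ((measure_union_le _ _).trans ?_)
  have h0 : pvLaw ε {o | ¬ PvqfGood (pvConf o)} = 0 := ae_iff.1 (pvqf_good_ae_law ε hε'.ne')
  rw [h0, zero_add]

theorem pvn1b_collar_bdd {C : Set ℂ} (hC : Bornology.IsBounded C) {r : ℝ} (hr : 0 < r) : Bornology.IsBounded (pvgeCollar C r) := by
  rcases C.eq_empty_or_nonempty with rfl | hne
  · refine Bornology.isBounded_empty.subset fun y hy => ?_
    have h1 := hy.1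
    rw [Metric.infDist_empty] at h1
    exact absurd h1 (not_lt.2 hr.le)
  · obtain ⟨M, hM⟩ := hC.subset_closedBall (0 : ℂ)
    refine (Metric.isBounded_closedBall (x := (0 : ℂ)) (r := M + (5 * r + 1))).subset fun y hy => ?_
    obtain ⟨z, hz, hlt⟩ := (Metric.infDist_lt_iff hne).1 (lt_of_le_of_lt hy.2 (lt_add_one _))
    have h2 : dist z 0 ≤ M := hM hz
    rw [Metric.mem_closedBall]
    linarith [dist_triangle y z 0]

/-- **MESH**: a bounded set is `r`-dense with high probability -/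
theorem pvn1b_dense_lim {B : Set ℂ} (hB : Bornology.IsBounded B) {r : ℝ} (hr : 0 < r) :
    Tendsto (fun ε => (pvhbUp ε).P {p | ¬ VorDense (pvxY (pvMerge p)) B r}) (𝓝[>] (0 : ℝ)) (𝓝 0) := by
  obtain ⟨L, hL, _, hnet⟩ := pvm_net_bdd (K := B) hB hr univ
  have hlim := pvm_good_tendsto (μ := pvP) hr hL (fun ε _ => pv_isPpp ε) (c := univ) ⟨true, mem_univ _⟩ 0
  refine tendsto_of_tendsto_of_tendsto_of_le_of_le tendsto_const_nhds hlim (fun _ => zero_le) fun ε => ?_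
  refine (pvhb_up_P_conf ε {η | ¬ VorDense (cfSites η) B r}).trans (measure_mono fun η hη hgood => hη ?_)
  exact pvmt_dense_of_net (pvm_net_of_netC (hnet _ hgood))

/-- **COLLAR MESH**: the collar of a bounded region is `r`-dense with high probability      [void probability of finitely many squares: `pvm_good_tendsto`] -/
theorem exit_pvn1b_collar {C : Set ℂ} (hC : Bornology.IsBounded C) {r : ℝ} (hr : 0 < r) :
    Tendsto (fun ε => (pvhbUp ε).P {p | ¬ VorDense (pvxY (pvMerge p)) (pvgeCollar C r) r}) (𝓝[>] (0 : ℝ)) (𝓝 0) :=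
  pvn1b_dense_lim (pvn1b_collar_bdd hC hr) hr

/-- **COLLAR MESH FOR A FAMILY**: regions `C ε` inside one bounded set, radii `r₀ ≤ r ε ≤ r₁` -/
theorem pvn1b_collar_fam {C : ℝ → Set ℂ} {r : ℝ → ℝ} {B₀ : Set ℂ} (hB : Bornology.IsBounded B₀) {r₀ r₁ : ℝ} (h0 : 0 < r₀)
    (hC : ∀ᶠ ε in 𝓝[>] (0 : ℝ), C ε ⊆ B₀ ∧ r₀ ≤ r ε ∧ r ε ≤ r₁) :
    Tendsto (fun ε => (pvhbUp ε).P {p | ¬ VorDense (pvxY (pvMerge p)) (pvgeCollar (C ε) (r ε)) (r ε)}) (𝓝[>] (0 : ℝ)) (𝓝 0) := by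
  obtain ⟨M, hM⟩ := hB.subset_closedBall (0 : ℂ)
  have hlim := pvn1b_dense_lim (B := Metric.closedBall (0 : ℂ) (M + (5 * r₁ + 1))) Metric.isBounded_closedBall h0
  refine tendsto_of_tendsto_of_tendsto_of_le_of_le' tendsto_const_nhds hlim (Eventually.of_forall fun _ => zero_le) ?_
  filter_upwards [hC] with ε hε
  obtain ⟨h1, h2, h3⟩ := hε
  refine (pvhbUp ε).P_mono fun p hp hd => hp fun z hz => ?_
  have hne : (C ε).Nonempty := by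
    by_contra hn
    rw [Set.not_nonempty_iff_eq_empty] at hn
    have h4 := hz.1
    rw [hn, Metric.infDist_empty] at h4
    linarith
  obtain ⟨y, hy, hlt⟩ := (Metric.infDist_lt_iff hne).1 (lt_of_le_of_lt hz.2 (lt_add_one _))
  have h5 : dist y 0 ≤ M := hM (h1 hy)
  have hzB : z ∈ Metric.closedBall (0 : ℂ) (M + (5 * r₁ + 1)) := by
    rw [Metric.mem_closedBall]
    linarith [dist_triangle z y 0]
  obtain ⟨u, hu, hle⟩ := hd z hzB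
  exact ⟨u, hu, hle.trans h2⟩

/-- **THE QBX CLAUSE** (a HYPOTHESIS on the kits): with high probability every present datum of the pattern WITH `E(D)` has `P(WO | D) ≥ q`      [35 `Tr/HookE` `pvhe_good_up`, `pvhe_hq`; 100 (bad `η` removed first); QBX 165 229 30] -/
def Pvn1bQbx (𝔎s : ℝ → PvxnKit) : Prop :=
  Tendsto (fun ε => (pvhbUp ε).P {p | ¬ ∀ (i : PvxnIx) (𝔇 : PvwDat (delbPl (pvxY (pvMerge p))).toMap), PvxnWit 𝔓 m π a (𝔎s ε) (pvxY (pvMerge p)) i (fun v => pvn1bSg 𝔓 π (pvMerge p) v) 𝔇 → (𝔎s ε).E (pvxY (pvMerge p)) 𝔇 (fun v => pvn1bSg 𝔓 π (pvMerge p) v) →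
    (𝔎s ε).q ≤ colLaw ℂ {κ | PvxnPW 𝔓 m π a (𝔎s ε) i (pvxY (pvMerge p)) (pvdmOv i.Fᶜ κ (pvn1bSg 𝔓 π (pvMerge p)))}}) (𝓝[>] (0 : ℝ)) (𝓝 0)

/-- **THE FIELD `geo` OF `PvxnOk`** at `G ε := pvn1bG .. (𝔎s ε) (Γs ε) μ` -/
theorem pvn1b_geo (hR : 0 < R) {μ : ℝ} (hμ : 0 < μ) (𝔎s : ℝ → PvxnKit) {B₀ : Set ℂ} (hB : Bornology.IsBounded B₀) {r₀ r₁ : ℝ} (h0 : 0 < r₀)
    (hC : ∀ᶠ ε in 𝓝[>] (0 : ℝ), (𝔎s ε).C ⊆ B₀ ∧ r₀ ≤ (𝔎s ε).r ∧ (𝔎s ε).r ≤ r₁) (hq : Pvn1bQbx 𝔓 m π a 𝔎s)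
    (Γs : ℝ → PVSample → Prop) (hΓ : Tendsto (fun ε => (pvhbUp ε).P {p | ¬ Γs ε (pvMerge p)}) (𝓝[>] (0 : ℝ)) (𝓝 0)) :
    Tendsto (fun ε => (pvhbUp ε).P (pvn1bG 𝔓 x R m π a (𝔎s ε) (Γs ε) μ)) (𝓝[>] (0 : ℝ)) (𝓝 0) := by
  have h3 := (((pvn1b_fine_lim x R hR hμ).add (pvn1b_collar_fam hB h0 hC)).add hq).add hΓ
  simp only [add_zero] at h3
  refine tendsto_of_tendsto_of_tendsto_of_le_of_le tendsto_const_nhds h3 (fun _ => zero_le) fun ε => ?_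
  refine le_trans ((pvhbUp ε).P_mono ?_) (((pvhbUp ε).P_union_le _ _).trans (add_le_add (((pvhbUp ε).P_union_le _ _).trans (add_le_add ((pvhbUp ε).P_union_le _ _) le_rfl)) le_rfl))
  intro p hp
  by_contra hn
  simp only [mem_union, mem_ofPred_eq, not_or, not_not] at hn
  exact hp ⟨hn.1.1.1.1, hn.1.1.1.2, hn.1.1.2, hn.2, hn.1.2⟩

end geo

/-! ## 6. the frozen sites of an actual datum -/

theorem pvn1b_sq_norm {z w : ℂ} {r : ℝ} (h : w ∈ pvwSq z r) : ‖w - z‖ ≤ 2 * r := by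
  obtain ⟨h1, h2⟩ := h
  have := Complex.norm_le_abs_re_add_abs_im (w - z)
  linarith

/-- **THE FROZEN SITES LIE IN THE PATCH**: half states in their boxes (`StubP.ep_in`, `Gate.inside`), `g₀` in `closedBall x (5R)`, right apexes within the mesh -/
theorem exit_pvn1b_conf {τ : Type} {c : ℝ} (𝔓 : PvxPar τ c) (x : ℂ) (R : ℝ) (m : ℕ) (π : PvxIx τ) (hR : 0 < R) (hW : 𝔓.Wf) {μ : ℝ} (hμ : Pvn1bMu 𝔓 R m π μ)
    (hzs : ‖π.p.zs - x‖ ≤ 3 * R) (hzt : ‖π.p.zt - x‖ ≤ 3 * R) {ω : PVSample} (hd : DelGood (pvxY ω)) (hf : L9Fine (pvxY ω) (Metric.closedBall x (6 * R)) μ)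
    (𝔇 : PvwDat (pvxT ω)) (hA : Pvn1bAct 𝔓 x R m π ω 𝔇) : ∀ v ∈ 𝔇.fz, ‖pvxPos ω v - x‖ ≤ 6 * R := by
  -- proof of helper110 (v1 of this file), ported
  obtain ⟨hok, ⟨P, -, j, hact, hin⟩, -, -⟩ := hA
  have h0 := pvlm_H_pos m
  have hr1 : 0 ≤ 𝔓.num.rho1 := (hW.rho0.trans hW.rho1).le
  have hmu0 := hμ.mu0
  have key : ∀ (z w : ℂ), ‖z - x‖ ≤ 3 * R → ‖w - z‖ ≤ 3 * R → ‖w - x‖ ≤ 6 * R := by
    intro z w h1 h2
    have : w - x = (w - z) + (z - x) := by ring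
    rw [this]
    exact (norm_add_le _ _).trans (by linarith)
  have hrad : ∀ (t : τ) (k : ℕ), (t = π.p.ts ∨ t = π.p.tt) → k ≤ 𝔓.num.K → 2 * pvwRad 𝔓.num (pvlmH m) (𝔓.ty t) k ≤ 3 * R := by
    intro t k ht hk
    have h1 := hμ.box t ht
    have h2 : pvwRad 𝔓.num (pvlmH m) (𝔓.ty t) k ≤ pvwRad 𝔓.num (pvlmH m) (𝔓.ty t) 𝔓.num.K := by
      unfold pvwRad
      have : (k : ℝ) ≤ 𝔓.num.K := by exact_mod_cast hk
      gcongr
    linarith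
  have hgv : ∀ i, i ≤ 𝔇.g.n → ‖pvxPos ω (𝔇.g.v i) - x‖ ≤ 5 * R := by
    intro i hi
    rw [← hact.arc i hi]
    exact hin _ (by omega) (by omega)
  intro v hv
  rcases hv with (hv | hv) | hv
  · rcases hv with hv | hv
    · have hst := hok.st_t
      rw [hW.reg_zt, hW.reg_tt] at hst
      refine key _ _ hzt ?_
      rcases hv with (hv | ⟨i, hi, rfl⟩) | ⟨i, hi, rfl⟩
      · have h8 : v ∈ 𝔇.t.dsc := hv
        rw [hst.gate.dsc_eq] at h8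
        have h9 : ‖pvxPos ω v - π.p.zt‖ < (𝔓.ty π.p.tt).b * pvlmH m := h8
        have := hμ.gate π.p.tt
        linarith
      · exact (pvn1b_sq_norm (hst.stub.ep_in i hi).1).trans (hrad _ _ (Or.inr rfl) hst.lev)
      · exact (pvn1b_sq_norm (hst.stub.ep_in i hi).2).trans (hrad _ _ (Or.inr rfl) hst.lev)
    · have hst := hok.st_s
      rw [hW.reg_zs, hW.reg_ts] at hst
      refine key _ _ hzs ?_
      rcases hv with (hv | ⟨i, hi, rfl⟩) | ⟨i, hi, rfl⟩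
      · have h8 : v ∈ 𝔇.s.dsc := hv
        rw [hst.gate.dsc_eq] at h8
        have h9 : ‖pvxPos ω v - π.p.zs‖ < (𝔓.ty π.p.ts).b * pvlmH m := h8
        have := hμ.gate π.p.ts
        linarith
      · exact (pvn1b_sq_norm (hst.stub.em_in i hi).1).trans (hrad _ _ (Or.inl rfl) hst.lev)
      · exact (pvn1b_sq_norm (hst.stub.em_in i hi).2).trans (hrad _ _ (Or.inl rfl) hst.lev)
  · obtain ⟨i, hi, rfl⟩ := hv
    exact (hgv i hi).trans (by linarith)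
  · obtain ⟨i, hi, rfl⟩ := hv
    set d := (pvxT ω).opp (𝔇.g.e i) with hd'
    have hs : (pvxT ω).src d = 𝔇.g.v (i + 1) := by rw [hd', PvMap.src_opp']; exact 𝔇.g.tgt_e i hi
    have htri : DelTri (pvxY ω) d.1.1.1 d.1.2.1 (delApex (pvxY ω) d.1.1.1 d.1.2.1) := delp_apex_spec d.2.1 d.2.2
    have hs' : d.1.1 = 𝔇.g.v (i + 1) := hs
    have h5 := hgv (i + 1) hi
    have hmem : d.1.1.1 ∈ Metric.closedBall x (6 * R) := by
      rw [Metric.mem_closedBall, dist_eq_norm, hs']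
      exact h5.trans (by linarith)
    have h6 := (hf _ _ _ htri (Or.inl hmem)).2.1
    have hap : pvxPos ω ((pvxT ω).apex d) = delApex (pvxY ω) d.1.1.1 d.1.2.1 := rfl
    rw [hap]
    have e : delApex (pvxY ω) d.1.1.1 d.1.2.1 - x = (delApex (pvxY ω) d.1.1.1 d.1.2.1 - d.1.1.1) + (d.1.1.1 - x) := by ring
    rw [e]
    refine (norm_add_le _ _).trans ?_
    have h7 : ‖(d.1.1.1 : ℂ) - x‖ ≤ 5 * R := by rw [hs']; exact h5
    have := hμ.muR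
    linarith

theorem pvn1b_eqns_cite : True := by
  have := @Pvn1bAct.eq_1; have := @pvn1bSg.eq_1; have := @pvn1bG.eq_1; have := @pvn1bIx.eq_1; have := @Pvn1bQbx.eq_1
  trivial

end Claimed.Agent.R289
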