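import Claimed.Agent.R289.Exit.N1B
import Claimed.Agent.R289.Tr.StabE
import Claimed.Agent.R289.Tr.LocalX
import Claimed.Agent.R289.Tr.PatchH

/-!
# Row 289 (S0537), Exit/N1BK : THE FIELDS `act` AND `geo` OF `PvxnOk` AT THE KIT `pvhqKit` OF 27 (`Tr/StabE` v2)      (helper60; prefix `pvnbk_`, `Pvnbk`)

`Exit/N1B` proves `act`, `geo` at `pvxnSys` for ANY kit from the contracts `Pvn1bKit`, `Pvn1bQbx`.      THIS FILE PAYS THE TWO CONTRACTS at `𝔎s ε := pvhqKit x R (𝔓.reg m π) (Cs ε) (rs ε) q`.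
* sec. 1  `pvnbk_c1` (field `c1`: `pvlx_act_on` of 22 + the position clause),  **`pvnbk_kit`** : `Pvn1bKit` at the kit   (`sub fin far uni` = 27)
* sec. 2  `PvnbkWO` = THE ONLY PROBABILISTIC DEBT: with high probability every present datum with `E(D)` has `P(WO | D) ≥ q₁`      [5 `Exit/N1Q`, 155 `Tr/HookWM`];
          **`pvnbk_qbx`** : `PvnbkWO` + the frame of 130 (`pve6q_frame`, `pve6h_W_col` = circuit + Harris, `pve6h_fz_in`) `⟹ Pvn1bQbx` at `q = q₁ q_frame`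
* sec. 3  **`PvnbkReg`** = what the REGIONS owe (deterministic; (b5) of 187 / 94, `hcol` of 27 / 29, bounded `Cs`),   **`pvnbk_geo`**, **`pvnbk_act`** = the two fields VERBATIM, mesh `μ := h_m / 4`.
REMAINING HYPOTHESES (each with its owner): `PvnbkReg` [209 63 84: regions], `hfz` (frozen sites of the half states off `Ycol`, under the free good event `Γs ε`) [63 (FZ), 61 256], `P(¬ Γs ε) → 0` [`PvnaBad`, 256], `PvnbkWO` [5 155], `mean` (`ŷ = K`) [93 `PvjbIn.yh_eq`], `L h + h ≤ R` [73 `pvxo_LR`].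
-/

set_option autoImplicit false
set_option linter.unusedVariables false
set_option linter.unusedSectionVars false

namespace Claimed.Agent.R289

open MeasureTheory Filter Topology Set Claims.C0465
open scoped ENNReal

/-! ## 1. the contract `Pvn1bKit` at the kit -/

section kit

variable {τ : Type} {c : ℝ} {𝔓 : PvxPar τ c} {x : ℂ} {R : ℝ} {m : ℕ} {π : PvxIx τ}

/-- the gate disc of a pin of the pattern lies in the patch -/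
theorem pvnbk_disc {z : ℂ} {ρ : ℝ} (hz : ‖z - x‖ ≤ 3 * R) (hρ : ρ ≤ 3 * R) : Metric.closedBall z ρ ⊆ Metric.closedBall x (6 * R) := by
  intro w hw
  rw [mem_closedBall_iff_norm] at hw ⊢
  have e : w - x = (w - z) + (z - x) := by ring
  rw [e]
  exact (norm_add_le _ _).trans (by linarith)

/-- **the field `c1`**: an actual datum has `E(D) = NBon (NU ∩ patch) ∧ g₀ ⊆ closedBall x (5R)` -/
theorem pvnbk_c1 (hW : 𝔓.Wf) (hR : 0 < R) (hπ : π ∈ pvxPatSet 𝔓 x R m) {μ : ℝ} (hμ : Pvn1bMu 𝔓 R m π μ) {ω : PVSample} (hd : DelGood (pvxY ω))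
    (𝔇 : PvwDat (pvxT ω)) (hA : Pvn1bAct 𝔓 x R m π ω 𝔇) : PvhqE 𝔇 Subtype.val (𝔓.reg m π) x R (pvxCol ω (𝔓.col π.p.ts)) := by
  obtain ⟨hok, ⟨P, hP, j, hact, hin⟩, -, -⟩ := hA
  obtain ⟨⟨-, -, -, hzs, hzt, -⟩, -⟩ := hπ
  have hgv : ∀ i, i ≤ 𝔇.g.n → ‖pvxPos ω (𝔇.g.v i) - x‖ ≤ 5 * R := by
    intro i hi
    rw [← hact.arc i hi]
    exact hin _ (by omega) (by omega)
  have hmu := hμ.mu0
  refine ⟨pvlx_act_on hR hd hP ?_ ?_ (fun k hk => (hgv k hk).trans (by linarith)) hok hact (fun v hv => hv.2), ?_⟩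
  · rw [hW.reg_zs, hW.reg_ts]
    exact pvnbk_disc hzs (by linarith [hμ.gate π.p.ts])
  · rw [hW.reg_zt, hW.reg_tt]
    exact pvnbk_disc hzt (by linarith [hμ.gate π.p.tt])
  · rintro v ⟨i, hi, rfl⟩
    exact hgv i hi

/-- **THE CONTRACT `Pvn1bKit` AT THE KIT OF 27** -/
theorem pvnbk_kit (hW : 𝔓.Wf) (hR : 0 < R) (hπ : π ∈ pvxPatSet 𝔓 x R m) (a : ℂ) {μ : ℝ} (hμ : Pvn1bMu 𝔓 R m π μ) (C : Set ℂ) (r : ℝ) (q : ℝ≥0∞) (Γ : PVSample → Prop)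
    (hYo : Bornology.IsBounded (𝔓.reg m π).Yout) (hcol : ∀ z, z ∉ (𝔓.reg m π).Ycol → z ∈ pvgeFar C r) (hann : ∀ z ∈ (𝔓.reg m π).Ycol, ‖z - x‖ ≤ 5 * R)
    (hfz : ∀ ω : PVSample, PvqfGood (pvConf ω) → L9Fine (pvxY ω) (Metric.closedBall x (6 * R)) μ → VorDense (pvxY ω) (pvgeCollar C r) r → Γ ω →
      ∀ 𝔇 : PvwDat (pvxT ω), Pvn1bAct 𝔓 x R m π ω 𝔇 → ∀ v ∈ 𝔇.fzY, (v : ℂ) ∉ (𝔓.reg m π).Ycol) :
    Pvn1bKit 𝔓 x R m π a (pvhqKit x R (𝔓.reg m π) C r q) Γ μ where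
  mu := hμ
  c1 := fun ω hg _ _ _ 𝔇 hA => pvnbk_c1 hW hR hπ hμ hg.del 𝔇 hA
  sub := fun ω _ _ _ _ 𝔇 _ => pvhq_sub x R (𝔓.reg m π) C r q (pvxY ω) 𝔇
  fin := fun ω hg _ _ _ 𝔇 hA => pvhq_N_finite x R (𝔓.reg m π) hg.del hA.1 hYo
  far := fun ω hg hf hc hΓ 𝔇 hA => pvhq_N_far x R (𝔓.reg m π) C r hA.1 (hW.reg_wf m π) hcol hann (hfz ω hg hf hc hΓ 𝔇 hA)
  uni := pvhq_uni 𝔓 x R m π a (𝔓.reg m π) C r q

end kit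

/-! ## 2. the QBX clause at the kit -/

section qbx

variable {τ : Type} {c : ℝ} (𝔓 : PvxPar τ c) (x : ℂ) (R : ℝ) (m : ℕ) (π : PvxIx τ) (a : ℂ)

/-- **THE `WO` HALF OF E4 AT THE MODEL** (a HYPOTHESIS): with high probability every present datum of the pattern with `E(D)` has `P(WO | D) ≥ q₁`      [5 `Exit/N1Q`, 155 `Tr/HookWM`, 35 `Tr/HookE`] -/
def PvnbkWO (𝔎s : ℝ → PvxnKit) (q₁ : ℝ≥0∞) : Prop :=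
  Tendsto (fun ε => (pvhbUp ε).P {p | ¬ ∀ (i : PvxnIx) (𝔇 : PvwDat (delbPl (pvxY (pvMerge p))).toMap), PvxnWit 𝔓 m π a (𝔎s ε) (pvxY (pvMerge p)) i (fun v => pvn1bSg 𝔓 π (pvMerge p) v) 𝔇 →
    (𝔎s ε).E (pvxY (pvMerge p)) 𝔇 (fun v => pvn1bSg 𝔓 π (pvMerge p) v) →
    q₁ ≤ colLaw ℂ {κ | 𝔇.WO Subtype.val (𝔓.reg m π) (fun v : ↥(pvxY (pvMerge p)) => pvdmOv i.Fᶜ κ (pvn1bSg 𝔓 π (pvMerge p)) v)}}) (𝓝[>] (0 : ℝ)) (𝓝 0)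

theorem pvnbk_eqns_cite : True := by
  have := @PvnbkWO.eq_1
  trivial

variable {𝔓 x R m π a}

/-- the frame of 130 under the upper probability -/
theorem pvnbk_frame (hR : 0 < R) : ∃ q : ℝ, 0 < q ∧ Tendsto (fun ε : ℝ => (pvhbUp ε).P {p | ¬ Pve6qFrame q x R (pvxY (pvMerge p))}) (𝓝[>] (0 : ℝ)) (𝓝 0) := by
  obtain ⟨q, hq, h⟩ := pve6q_frame x hR
  refine ⟨q, hq, tendsto_of_tendsto_of_tendsto_of_le_of_le tendsto_const_nhds h (fun _ => zero_le) fun ε => ?_⟩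
  exact pvhb_up_P_law ε {ω | ¬ Pve6qFrame q x R (cfSites (pvConf ω))}

/-- ONE SAMPLE: the clause `qbx` of `Pvn1bGood` from the frame, the meshes and the `WO` bound -/
theorem pvnbk_qbx_one (hW : 𝔓.Wf) (hR : 0 < R) (hπ : π ∈ pvxPatSet 𝔓 x R m) {μ : ℝ} (hμ : Pvn1bMu 𝔓 R m π μ) (hμ4 : μ ≤ R / 4) (C : Set ℂ) (r : ℝ) {q₁ : ℝ≥0∞} {qf : ℝ}
    (hYo : (𝔓.reg m π).Yout ⊆ Metric.closedBall x (6 * R)) {Y : Set ℂ} (σ : ℂ → Bool) (hF : Pve6qFrame qf x R Y) (hf : L9Fine Y (Metric.closedBall x (6 * R)) μ)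
    (hc : VorDense Y (pvgeCollar C r) r) {i : PvxnIx} {𝔇 : PvwDat (delbPl Y).toMap}
    (hwit : PvxnWit 𝔓 m π a (pvhqKit x R (𝔓.reg m π) C r (q₁ * ENNReal.ofReal qf)) Y i (fun v => σ v) 𝔇)
    (hE : PvhqE 𝔇 Subtype.val (𝔓.reg m π) x R (fun v => σ v))
    (h₁ : q₁ ≤ colLaw ℂ {κ | 𝔇.WO Subtype.val (𝔓.reg m π) (fun v : ↥Y => pvdmOv i.Fᶜ κ σ v)}) :
    q₁ * ENNReal.ofReal qf ≤ colLaw ℂ {κ | PvxnPW 𝔓 m π a (pvhqKit x R (𝔓.reg m π) C r (q₁ * ENNReal.ofReal qf)) i Y (pvdmOv i.Fᶜ κ σ)} := by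
  obtain ⟨⟨-, -, -, hzs, hzt, -⟩, -, hbs, hbt, -⟩ := hπ
  have hh := pvlm_H_pos m
  have hr1 : 0 ≤ 𝔓.num.rho1 := (hW.rho0.trans hW.rho1).le
  have hrad : ∀ (t : τ) (k : ℕ), k ≤ 𝔓.num.K → pvwRad 𝔓.num (pvlmH m) (𝔓.ty t) k ≤ pvwRad 𝔓.num (pvlmH m) (𝔓.ty t) 𝔓.num.K := by
    intro t k hk
    unfold pvwRad
    have : (k : ℝ) ≤ 𝔓.num.K := by exact_mod_cast hk
    gcongr
  have hmu := hμ.mu0
  have hFin : ∀ z ∈ i.F, ‖z - x‖ ≤ 21 / 4 * R := by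
    rw [← hwit.labF]
    refine pve6h_fz_in hR hμ4 hf hwit.ok (by rw [hW.reg_zs]; exact hzs) (by rw [hW.reg_zt]; exact hzt) ?_ ?_ ?_ ?_ hE.2
    · rw [hW.reg_ts]; linarith [hμ.gate π.p.ts]
    · rw [hW.reg_tt]; linarith [hμ.gate π.p.tt]
    · have h1 := hwit.ok.st_s.lev
      rw [hW.reg_ts] at h1 ⊢
      linarith [hrad π.p.ts _ h1]
    · have h1 := hwit.ok.st_t.lev
      rw [hW.reg_tt] at h1 ⊢
      linarith [hrad π.p.tt _ h1]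
  refine (pve6h_W_col hR hF 𝔇 hYo i.F hFin σ h₁).trans (measure_mono fun κ hκ => ?_)
  refine ⟨hc, 𝔇, hwit.move fun v hv => ?_, hκ⟩
  exact pvdm_ov_notMem (U := i.Fᶜ) (z := (v : ℂ)) (fun h => h hv) κ σ

/-- **THE CONTRACT `Pvn1bQbx` AT THE KIT** from the `WO` half -/
theorem pvnbk_qbx (hW : 𝔓.Wf) (hR : 0 < R) (hπ : π ∈ pvxPatSet 𝔓 x R m) {μ : ℝ} (hμ : Pvn1bMu 𝔓 R m π μ) (hμ4 : μ ≤ R / 4) (Cs : ℝ → Set ℂ) (rs : ℝ → ℝ) {q₁ : ℝ≥0∞} {qf : ℝ}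
    (hfr : Tendsto (fun ε : ℝ => (pvhbUp ε).P {p | ¬ Pve6qFrame qf x R (pvxY (pvMerge p))}) (𝓝[>] (0 : ℝ)) (𝓝 0))
    (hYo : (𝔓.reg m π).Yout ⊆ Metric.closedBall x (6 * R)) {B₀ : Set ℂ} (hB : Bornology.IsBounded B₀) {r₀ r₁ : ℝ} (h0 : 0 < r₀)
    (hC : ∀ᶠ ε in 𝓝[>] (0 : ℝ), Cs ε ⊆ B₀ ∧ r₀ ≤ rs ε ∧ rs ε ≤ r₁)
    (hWO : PvnbkWO 𝔓 m π a (fun ε => pvhqKit x R (𝔓.reg m π) (Cs ε) (rs ε) (q₁ * ENNReal.ofReal qf)) q₁) :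
    Pvn1bQbx 𝔓 m π a fun ε => pvhqKit x R (𝔓.reg m π) (Cs ε) (rs ε) (q₁ * ENNReal.ofReal qf) := by
  have h3 := (((pvn1b_fine_lim x R hR hμ.mu0).add (pvn1b_collar_fam hB h0 hC)).add hfr).add hWO
  simp only [add_zero] at h3
  refine tendsto_of_tendsto_of_tendsto_of_le_of_le tendsto_const_nhds h3 (fun _ => zero_le) fun ε => ?_
  refine le_trans ((pvhbUp ε).P_mono ?_) (((pvhbUp ε).P_union_le _ _).trans (add_le_add (((pvhbUp ε).P_union_le _ _).trans (add_le_add ((pvhbUp ε).P_union_le _ _) le_rfl)) le_rfl))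
  intro p hp
  by_contra hn
  simp only [mem_union, mem_ofPred_eq, not_or, not_not] at hn
  obtain ⟨⟨⟨⟨-, hf⟩, hc⟩, hF⟩, hwo⟩ := hn
  exact hp fun i 𝔇 hwit hE => pvnbk_qbx_one hW hR hπ hμ hμ4 (Cs ε) (rs ε) hYo (pvn1bSg 𝔓 π (pvMerge p)) hF hf hc hwit hE (hwo i 𝔇 hwit hE)

end qbx

/-! ## 3. the two fields -/

section fields

variable {τ : Type} {c : ℝ} (𝔓 : PvxPar τ c) (x : ℂ) (R : ℝ) (m : ℕ) (π : PvxIx τ)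

/-- **WHAT THE REGIONS OWE** (deterministic: no site, no colour) -/
structure PvnbkReg (Cs : ℝ → Set ℂ) (rs : ℝ → ℝ) : Prop where
  /-- the outer lanes lie in the patch -/
  yout : (𝔓.reg m π).Yout ⊆ Metric.closedBall x (6 * R)
  /-- (b5) of 187 / 94 -/
  ycol : ∀ z ∈ (𝔓.reg m π).Ycol, ‖z - x‖ ≤ 5 * R
  /-- the `3r`-neighbourhood of the resampled region lies under the collared lanes      [27 `hcol`, 29 `PvknGeo.col`] -/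
  col : ∀ᶠ ε in 𝓝[>] (0 : ℝ), ∀ z, z ∉ (𝔓.reg m π).Ycol → z ∈ pvgeFar (Cs ε) (rs ε)
  /-- the resampled regions are uniformly bounded, the collar meshes are uniform -/
  bdd : ∃ B₀ : Set ℂ, Bornology.IsBounded B₀ ∧ ∃ r₀ r₁ : ℝ, 0 < r₀ ∧ ∀ᶠ ε in 𝓝[>] (0 : ℝ), Cs ε ⊆ B₀ ∧ r₀ ≤ rs ε ∧ rs ε ≤ r₁

variable {𝔓 x R m π}

/-- the mesh of record `μ = h_m / 4` -/
theorem pvnbk_mu (hW : 𝔓.Wf) (hπ : π ∈ pvxPatSet 𝔓 x R m) (hLR : 𝔓.𝔐.L * pvlmH m + pvlmH m ≤ R) : Pvn1bMu 𝔓 R m π (pvlmH m / 4) ∧ pvlmH m / 4 ≤ R / 4 := by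
  have hh := pvlm_H_pos m
  have h1 := pvn1b_mu_of 𝔓 hW hπ hLR (μ := pvlmH m / 4) (by positivity) (by linarith)
  refine ⟨h1, ?_⟩
  have h2 := mul_pos ((hW.a0 π.p.ts).trans (hW.ab π.p.ts)) hh
  have h3 := mul_le_mul_of_nonneg_right (hW.b_le π.p.ts) hh.le
  linarith

/-- **THE FIELD `geo` OF `PvxnOk` AT THE KIT OF 27** -/
theorem pvnbk_geo (hW : 𝔓.Wf) (hR : 0 < R) (hπ : π ∈ pvxPatSet 𝔓 x R m) (a : ℂ) (hLR : 𝔓.𝔐.L * pvlmH m + pvlmH m ≤ R) {Cs : ℝ → Set ℂ} {rs : ℝ → ℝ} (hreg : PvnbkReg 𝔓 x R m π Cs rs)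
    {q₁ : ℝ≥0∞} {qf : ℝ} (hfr : Tendsto (fun ε : ℝ => (pvhbUp ε).P {p | ¬ Pve6qFrame qf x R (pvxY (pvMerge p))}) (𝓝[>] (0 : ℝ)) (𝓝 0))
    (hWO : PvnbkWO 𝔓 m π a (fun ε => pvhqKit x R (𝔓.reg m π) (Cs ε) (rs ε) (q₁ * ENNReal.ofReal qf)) q₁)
    (Γs : ℝ → PVSample → Prop) (hΓ : Tendsto (fun ε => (pvhbUp ε).P {p | ¬ Γs ε (pvMerge p)}) (𝓝[>] (0 : ℝ)) (𝓝 0)) :
    Tendsto (fun ε => (pvhbUp ε).P (pvn1bG 𝔓 x R m π a (pvhqKit x R (𝔓.reg m π) (Cs ε) (rs ε) (q₁ * ENNReal.ofReal qf)) (Γs ε) (pvlmH m / 4))) (𝓝[>] (0 : ℝ)) (𝓝 0) := by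
  obtain ⟨hμ, hμ4⟩ := pvnbk_mu hW hπ hLR
  obtain ⟨B₀, hB, r₀, r₁, h0, hC⟩ := hreg.bdd
  exact pvn1b_geo 𝔓 x R m π a hR hμ.mu0 (fun ε => pvhqKit x R (𝔓.reg m π) (Cs ε) (rs ε) (q₁ * ENNReal.ofReal qf)) hB h0 hC
    (pvnbk_qbx hW hR hπ hμ hμ4 Cs rs hfr hreg.yout hB h0 hC hWO) Γs hΓ

/-- **THE FIELD `act` OF `PvxnOk` AT THE KIT OF 27** -/
theorem pvnbk_act (hW : 𝔓.Wf) (hR : 0 < R) (hπ : π ∈ pvxPatSet 𝔓 x R m) (a : ℂ) (hLR : 𝔓.𝔐.L * pvlmH m + pvlmH m ≤ R) {Cs : ℝ → Set ℂ} {rs : ℝ → ℝ} (hreg : PvnbkReg 𝔓 x R m π Cs rs)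
    (q : ℝ≥0∞) (Γs : ℝ → PVSample → Prop)
    (hfz : ∀ᶠ ε in 𝓝[>] (0 : ℝ), ∀ ω : PVSample, PvqfGood (pvConf ω) → L9Fine (pvxY ω) (Metric.closedBall x (6 * R)) (pvlmH m / 4) → VorDense (pvxY ω) (pvgeCollar (Cs ε) (rs ε)) (rs ε) → Γs ε ω →
      ∀ 𝔇 : PvwDat (pvxT ω), Pvn1bAct 𝔓 x R m π ω 𝔇 → ∀ v ∈ 𝔇.fzY, (v : ℂ) ∉ (𝔓.reg m π).Ycol)
    (𝔜 : PvxnYd) (K : ℝ → PVSample → ℂ)
    (mean : ∀ᶠ ε in 𝓝[>] (0 : ℝ), ∀ (ω : PVSample) (i : PvxnIx), Pvn1bGood 𝔓 x R m π a (pvhqKit x R (𝔓.reg m π) (Cs ε) (rs ε) q) (Γs ε) (pvlmH m / 4) ω →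
      pvxnFl (𝔓.col π.p.ts) (pvConf ω) ∈ (pvxnSys 𝔓 m π a (pvhqKit x R (𝔓.reg m π) (Cs ε) (rs ε) q) 𝔜 ε).A i → 𝔜.yh ε i (pvxnFl (𝔓.col π.p.ts) (pvConf ω)) = K ε ω) :
    ∀ᶠ ε in 𝓝[>] (0 : ℝ), ∀ p, p ∉ pvn1bG 𝔓 x R m π a (pvhqKit x R (𝔓.reg m π) (Cs ε) (rs ε) q) (Γs ε) (pvlmH m / 4) → ∀ P ∈ pvhbAll x R (pvMerge p),
    ∀ s ∈ pvxPins 𝔓 x R m (pvMerge p) P, ∀ t ∈ pvxPins 𝔓 x R m (pvMerge p) P,
    pvxFit 𝔓 x R m (pvMerge p) P s t π → ∃ i, pvxnFl (𝔓.col π.p.ts) (pvConf (pvMerge p)) ∈ (pvxnSys 𝔓 m π a (pvhqKit x R (𝔓.reg m π) (Cs ε) (rs ε) q) 𝔜 ε).A i ∧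
      i.X = pvbArcI 𝔓.𝔐 (pvlmH m) P (fun k => P.xQ k - a * P.xV k) s t ∧ 𝔜.yh ε i (pvxnFl (𝔓.col π.p.ts) (pvConf (pvMerge p))) = K ε (pvMerge p) := by
  obtain ⟨hμ, -⟩ := pvnbk_mu hW hπ hLR
  refine pvn1b_act hW hR hπ (fun ε => pvhqKit x R (𝔓.reg m π) (Cs ε) (rs ε) q) Γs ?_ 𝔜 K mean
  filter_upwards [hreg.col, hfz] with ε h1 h2
  exact pvnbk_kit hW hR hπ a hμ (Cs ε) (rs ε) q (Γs ε) (Metric.isBounded_closedBall.subset hreg.yout) h1 hreg.ycol h2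

end fields

end Claimed.Agent.R289
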