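import Claimed.Agent.R289.Exit.N1
import Claimed.Agent.R289.Tr.Rd
import Claimed.Agent.R289.Tr.LocalW
import Claimed.Agent.R289.Tr.StKit
import Claimed.Agent.R289.Tr.ModelApi

/-!
# Row 289 (S0537), wall TR, file Exit/N1R : THE FIELD `rd` OF `PvxnOk`      (owner helper29; prefix `pvrd_`, `Pvrd`, `pvrd`; continuation of `Tr/Rd`)      0 sorry
`A i`, `WO i` of `pvxnSys` (170, `Exit/N1`) are the same events for `η` and for the splice of `η` with an independent sample inside `C`.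
* §1 THE GLUE: `PvrdTw Tw` (a twin relation between the data of two planes: every datum of index `i` has a twin of THE SAME index; `E`, `W` are carried over)  ⟹  `pvrd_PW`, `pvrd_PA` (with the clauses `uni`, `q ≤ colLaw ..`), `pvrd_spl`, **`pvrd_rd_tw`**
* §2 THE FAR INSTANCE of `PvLocP` (22): `PvrdSit.locP`;   `pvrd_twin` (a well formed datum with far frozen sites has a twin), `pvrd_ok_of` (v2: `Ok` of the twin WITHOUT any hypothesis on `Yin`, `Ycol` against `C`: only `off_y` at the right apexes is asked), `pvrd_share` (`Ok`, positions of `fz fzIn fzOut`, tips, `g₀`, the value `X(D)`)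
* §3 `PvrdKit` (what a kit owes: `PvrdPk` = `PvrdPw` + `off_y` at the right apexes of the twin, from `fz ⊆ N`;  `N E W` carried over by `PvLocDat` twins of the far instance)  ⟹  `PvrdKit.tw`, **`pvrd_rd`** (one kit), **`pvrd_rd_fam`** (= the field `rd`, VERBATIM)
-/

set_option autoImplicit false

namespace Claimed.Agent.R289

open Set Metric Filter Topology MeasureTheory Relation Claimed.Agent.R291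
open scoped ENNReal

/-! ## 1. the glue -/

section abs

variable {τ : Type} {c : ℝ} (𝔓 : PvxPar τ c) (m : ℕ) (π : PvxIx τ) (a : ℂ) (𝔎 : PvxnKit)

/-- **THE KIT IS CARRIED OVER BY TWINS** (`Tw` = the twin relation between the data of the two planes) -/
structure PvrdTw (Tw : ∀ Y Y' : Set ℂ, PvwDat (delbPl Y).toMap → PvwDat (delbPl Y').toMap → Prop) : Prop where
  /-- a datum of index `i` has a twin, which is a datum of THE SAME index -/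
  ex : ∀ Y Y', PvrdSit Y Y' 𝔎.C 𝔎.r → ∀ (i : PvxnIx) (σ : ↥Y → Bool) (σ' : ↥Y' → Bool), PvrdCol 𝔎.C σ σ' → ∀ 𝔇, PvxnWit 𝔓 m π a 𝔎 Y i σ 𝔇 →
    ∃ 𝔇', Tw Y Y' 𝔇 𝔇' ∧ PvxnWit 𝔓 m π a 𝔎 Y' i σ' 𝔇'
  E : ∀ Y Y', PvrdSit Y Y' 𝔎.C 𝔎.r → ∀ (σ : ↥Y → Bool) (σ' : ↥Y' → Bool), PvrdCol 𝔎.C σ σ' → ∀ 𝔇 𝔇', Tw Y Y' 𝔇 𝔇' → 𝔎.E Y 𝔇 σ → 𝔎.E Y' 𝔇' σ'
  W : ∀ Y Y', PvrdSit Y Y' 𝔎.C 𝔎.r → ∀ (σ : ↥Y → Bool) (σ' : ↥Y' → Bool), PvrdCol 𝔎.C σ σ' → ∀ 𝔇 𝔇', Tw Y Y' 𝔇 𝔇' → 𝔎.W Y 𝔇 σ → 𝔎.W Y' 𝔇' σ'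

variable {𝔓 m π a 𝔎} {Tw : ∀ Y Y' : Set ℂ, PvwDat (delbPl Y).toMap → PvwDat (delbPl Y').toMap → Prop} {Y Y' : Set ℂ} {i : PvxnIx} {σ σ' : ℂ → Bool}

/-- `WO i` is carried over -/
theorem pvrd_PW (hT : PvrdTw 𝔓 m π a 𝔎 Tw) (H : PvrdSit Y Y' 𝔎.C 𝔎.r) (hσ : ∀ z ∉ 𝔎.C, σ z = σ' z) (h : PvxnPW 𝔓 m π a 𝔎 i Y σ) : PvxnPW 𝔓 m π a 𝔎 i Y' σ' := by
  obtain ⟨-, 𝔇, hW, hWO⟩ := h
  obtain ⟨𝔇', ht, hW'⟩ := hT.ex Y Y' H i _ _ (pvrd_col_of hσ) 𝔇 hW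
  exact ⟨H.symm.mesh, 𝔇', hW', hT.W Y Y' H _ _ (pvrd_col_of hσ) 𝔇 𝔇' ht hWO⟩

/-- `A i` is carried over -/
theorem pvrd_PA (hT : PvrdTw 𝔓 m π a 𝔎 Tw) (H : PvrdSit Y Y' 𝔎.C 𝔎.r) (hσ : ∀ z ∉ 𝔎.C, σ z = σ' z) (h : PvxnPA 𝔓 m π a 𝔎 i Y σ) : PvxnPA 𝔓 m π a 𝔎 i Y' σ' := by
  obtain ⟨-, ⟨𝔇, hW, hE, huni⟩, hq⟩ := h
  obtain ⟨𝔇', ht, hW'⟩ := hT.ex Y Y' H i _ _ (pvrd_col_of hσ) 𝔇 hW
  refine ⟨H.symm.mesh, ⟨𝔇', hW', hT.E Y Y' H _ _ (pvrd_col_of hσ) 𝔇 𝔇' ht hE, ?_⟩, ?_⟩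
  · intro 𝔇₁' hW₁' τ' hw
    obtain ⟨𝔇₁, ht₁, hW₁⟩ := hT.ex Y' Y H.symm i _ _ (pvrd_col_of (Y := Y') (Y' := Y) fun z hz => (hσ z hz).symm) 𝔇₁' hW₁'
    have h1 : 𝔎.W Y 𝔇₁ (pvrdPull τ') := hT.W Y' Y H.symm _ _ (pvrd_pull_col 𝔎.C τ').symm 𝔇₁' 𝔇₁ ht₁ hw
    exact hT.W Y Y' H _ _ (pvrd_pull_col 𝔎.C τ') 𝔇 𝔇' ht (huni 𝔇₁ hW₁ _ h1)
  · refine le_trans hq (measure_mono fun κ hκ => ?_)
    refine pvrd_PW hT H (fun z hz => ?_) hκ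
    by_cases hF : z ∈ i.Fᶜ
    · rw [pvdm_ov_mem hF, pvdm_ov_mem hF]
    · rw [pvdm_ov_notMem hF, pvdm_ov_notMem hF, hσ z hz]

theorem pvrd_spl_sites (C : Set ℂ) (ζ ω₂ : Conf PvPt) : cfSites (Conf.spl (pvdmU C) (ζ, ω₂)) = cfSites ζ \ C ∪ cfSites ω₂ ∩ C := by
  have h := pvmo_spl_sites Cᶜ ζ ω₂
  unfold pvdmU
  rw [h]
  ext z
  simp only [Set.mem_sdiff, mem_union, mem_inter_iff, mem_compl_iff, not_not]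

/-- the splice: the situation -/
theorem pvrd_spl_sit (hr : 0 < 𝔎.r) {ζ ω₂ : Conf PvPt} (hg : DelGood (cfSites ζ)) (hg' : DelGood (cfSites ζ \ 𝔎.C ∪ cfSites ω₂ ∩ 𝔎.C)) (hm : VorDense (cfSites ζ) (pvgeCollar 𝔎.C 𝔎.r) 𝔎.r) :
    PvrdSit (cfSites ζ) (cfSites (Conf.spl (pvdmU 𝔎.C) (ζ, ω₂))) 𝔎.C 𝔎.r := by
  refine ⟨hr, ?_, hm, hg, by rw [pvrd_spl_sites]; exact hg'⟩
  rw [pvrd_spl_sites]
  ext z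
  simp only [Set.mem_sdiff, mem_union, mem_inter_iff]
  tauto

theorem pvrd_spl_col (C : Set ℂ) (ζ ω₂ : Conf PvPt) : ∀ z ∉ C, cfCol ζ z = cfCol (Conf.spl (pvdmU C) (ζ, ω₂)) z := by
  intro z hz
  have h := pvge_spl_restr Cᶜ ζ ω₂
  rw [← pvge_fst_preimage] at h
  rw [pvge_fst_preimage] at h
  have h2 : pvdmU C = Cᶜ ×ˢ univ := pvge_fst_preimage Cᶜ
  rw [h2]
  exact pvge_conf_col h z hz

/-- **the two events under the splice**, one configuration -/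
theorem pvrd_spl (hT : PvrdTw 𝔓 m π a 𝔎 Tw) (hr : 0 < 𝔎.r) {ζ ω₂ : Conf PvPt} (hg : DelGood (cfSites ζ)) (hg' : DelGood (cfSites ζ \ 𝔎.C ∪ cfSites ω₂ ∩ 𝔎.C)) (i : PvxnIx) :
    (PvxnPA 𝔓 m π a 𝔎 i (cfSites (Conf.spl (pvdmU 𝔎.C) (ζ, ω₂))) (cfCol (Conf.spl (pvdmU 𝔎.C) (ζ, ω₂))) ↔ PvxnPA 𝔓 m π a 𝔎 i (cfSites ζ) (cfCol ζ)) ∧
    (PvxnPW 𝔓 m π a 𝔎 i (cfSites (Conf.spl (pvdmU 𝔎.C) (ζ, ω₂))) (cfCol (Conf.spl (pvdmU 𝔎.C) (ζ, ω₂))) ↔ PvxnPW 𝔓 m π a 𝔎 i (cfSites ζ) (cfCol ζ)) := by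
  have hc := pvrd_spl_col 𝔎.C ζ ω₂
  have he : cfSites ζ \ 𝔎.C = cfSites (Conf.spl (pvdmU 𝔎.C) (ζ, ω₂)) \ 𝔎.C := by
    rw [pvrd_spl_sites]
    ext z
    simp only [Set.mem_sdiff, mem_union, mem_inter_iff]
    tauto
  constructor
  · constructor
    · intro h
      have H := pvrd_spl_sit (ω₂ := ω₂) hr hg hg' ((pvge_collar_congr he).2 h.1)
      exact pvrd_PA hT H.symm (fun z hz => (hc z hz).symm) h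
    · intro h
      exact pvrd_PA hT (pvrd_spl_sit hr hg hg' h.1) hc h
  · constructor
    · intro h
      have H := pvrd_spl_sit (ω₂ := ω₂) hr hg hg' ((pvge_collar_congr he).2 h.1)
      exact pvrd_PW hT H.symm (fun z hz => (hc z hz).symm) h
    · intro h
      exact pvrd_PW hT (pvrd_spl_sit hr hg hg' h.1) hc h

/-- **THE FIELD `rd` FROM THE TWINS**, one kit, one `ε` -/
theorem pvrd_rd_tw (hT : PvrdTw 𝔓 m π a 𝔎 Tw) (hr : 0 < 𝔎.r) (𝔜 : PvxnYd) (ε : ℝ) : ∀ Y, (pvxnSys 𝔓 m π a 𝔎 𝔜 ε).Ok Y → ∀ σ, ∀ᵐ ω₂ ∂pvP ε, ∀ i,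
    (Conf.spl (pvdmU 𝔎.C) (cfOf Y σ, ω₂) ∈ (pvxnSys 𝔓 m π a 𝔎 𝔜 ε).A i ↔ cfOf Y σ ∈ (pvxnSys 𝔓 m π a 𝔎 𝔜 ε).A i) ∧
    (Conf.spl (pvdmU 𝔎.C) (cfOf Y σ, ω₂) ∈ (pvxnSys 𝔓 m π a 𝔎 𝔜 ε).WO i ↔ cfOf Y σ ∈ (pvxnSys 𝔓 m π a 𝔎 𝔜 ε).WO i) := by
  intro Y hY σ
  filter_upwards [hY.2] with ω₂ hg' i
  exact pvrd_spl hT hr (ζ := cfOf Y σ) (ω₂ := ω₂) (by rw [cfOf_sites]; exact hY.1) (by rw [cfOf_sites]; exact hg') i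

end abs

/-! ## 2. the far instance of `PvLocP`; the twin of a datum -/

section far

variable {Y Y' C : Set ℂ} {ρ : ℝ}

/-- the twin relation of the far instance -/
abbrev pvrdR (Y Y' C : Set ℂ) (ρ : ℝ) : (delbPl Y).Dart → (delbPl Y').Dart → Prop := pvgeRel (delbPl Y) (delbPl Y') (pvgeFar C ρ)

/-- **THE FAR INSTANCE** of the positioned local isomorphisms of 22 -/
theorem PvrdSit.locP (H : PvrdSit Y Y' C ρ) : PvLocP (delbPl Y).toMap (delbPl Y').toMap (pvrdR Y Y' C ρ) Subtype.val Subtype.val (pvgeFar C ρ) :=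
  ⟨H.loc, pvge_pos_eq, pvge_full (pvge_del_bpl H.good) (pvge_del_bpl H.good') H.agr.same, pvge_full' (pvge_del_bpl H.good) (pvge_del_bpl H.good') H.agr.same⟩

/-- corresponding sets have the same positions -/
theorem pvrd_set_img {A : Set ↥Y} {A' : Set ↥Y'} (h : PvLocSet (delbPl Y).toMap (delbPl Y').toMap (pvrdR Y Y' C ρ) A A') : Subtype.val '' A = Subtype.val '' A' :=
  pvrd_img_of (fun v hv => by obtain ⟨v', k1, k2⟩ := h.1 v hv; exact ⟨v', k2, pvge_loc_v k1⟩) (fun v' hv' => by obtain ⟨v, k1, k2⟩ := h.2 v' hv'; exact ⟨v, k2, (pvge_loc_v k1).symm⟩)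

theorem pvrd_img_sub {A B : Set ↥Y} (h : Subtype.val '' A ⊆ Subtype.val '' B) : A ⊆ B := fun v hv => by
  obtain ⟨w, hw, e⟩ := h ⟨v, hv, rfl⟩
  exact Subtype.ext e ▸ hw

/-- facts on the inner arc of a gate -/
theorem pvrd_inn {V D : Type} {T : PvMap V D} {𝔖 : PvwSt T} {pos : V → ℂ} {h : ℝ} {z : ℂ} {τ : PvwTy} {c : V → Bool} (hg : 𝔖.Gate pos h z τ c) :
    0 < 𝔖.inn.n ∧ 𝔖.inn.v 0 = 𝔖.gm ∧ 𝔖.inn.v 𝔖.inn.n = 𝔖.gp ∧ ∀ k, k ≤ 𝔖.inn.n → pos (𝔖.inn.v k) ∈ closedBall z (τ.b * h) := by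
  have hKv : ∀ v ∈ 𝔖.S.verts, pos v ∈ closedBall z (τ.b * h) := fun v hv => mem_closedBall_iff_norm.2 (hg.ann v hv).2.le
  have hKc : ∀ v ∈ 𝔖.ins, pos v ∈ closedBall z (τ.b * h) := fun v hv => mem_closedBall_iff_norm.2 (hg.inside v hv).le
  have hgp : 𝔖.gp ∈ 𝔖.S.verts := by
    obtain ⟨k, hk⟩ := hg.dp_on
    refine ⟨k + 1, ?_⟩
    rw [← 𝔖.S.chain k, hk, T.tgt_opp]
    rfl
  obtain ⟨n, h1, h2, j, a0, an, a1, a2⟩ := hg.strand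
  have e2 : 𝔖.inn.v 𝔖.inn.n = 𝔖.gp := by
    have e1 := (a1 𝔖.inn.n le_rfl).2.1
    rw [an] at e1
    rw [e1]; show T.src (pvasIt T c 𝔖.dm n) = _; rw [h1]; rfl
  have e3 : 𝔖.inn.v 0 = 𝔖.gm := a0
  refine ⟨?_, e3, e2, ?_⟩
  · rcases Nat.eq_zero_or_pos 𝔖.inn.n with h0 | h0
    · exfalso
      rw [h0, e3] at e2
      exact hg.ne e2.symm
    · exact h0
  · intro k hk
    obtain ⟨b1, b2, -⟩ := a1 k hk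
    rw [b2]
    rcases Nat.lt_or_ge (j k) n with h3 | h3
    · exact hKc _ ⟨_, h2 _ h3, rfl⟩
    · have : j k = n := le_antisymm b1 h3
      show pos (T.src (pvasIt T c 𝔖.dm (j k))) ∈ _
      rw [this, h1]
      exact hKv _ hgp

/-- what the pattern owes to `C`, v1: the two gate discs and `Yin \ Ycol` are far from `C`.      (`yy` has no producer at the pattern of record: 63;  TRUE BY CONSTRUCTION at the pattern with the collar enlarged by `Farᶜ`: 292 78 60.) -/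
structure PvrdPat (h : ℝ) (π : PvwPat) (C : Set ℂ) (ρ : ℝ) : Prop where
  ks : closedBall π.zs (π.ts.b * h) ⊆ pvgeFar C ρ
  kt : closedBall π.zt (π.tt.b * h) ⊆ pvgeFar C ρ
  yy : π.Yin \ π.Ycol ⊆ pvgeFar C ρ

/-- **what the pattern owes to `C`** (no colour, no site), v2: the two gate discs are far from `C` -/
structure PvrdPw (h : ℝ) (π : PvwPat) (C : Set ℂ) (ρ : ℝ) : Prop where
  ks : closedBall π.zs (π.ts.b * h) ⊆ pvgeFar C ρ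
  kt : closedBall π.zt (π.tt.b * h) ⊆ pvgeFar C ρ
  wf : π.Wf

section okof

variable {V D V' D' : Type} {T : PvMap V D} {T' : PvMap V' D'} {R : D → D' → Prop} {pos : V → ℂ} {pos' : V' → ℂ} {Kr : Set ℂ} {𝔇 : PvwDat T} {𝔇' : PvwDat T'} {N : PvwNum} {h : ℝ} {π : PvwPat}

/-- a well formed datum is well formed for the pattern with `Yin := ∅` -/
theorem pvrd_ok_empty (hok : 𝔇.Ok pos N h π) : 𝔇.Ok pos N h { π with Yin := ∅ } :=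
  ⟨hok.st_s, hok.st_t, hok.tip_s, hok.tip_t, hok.g0, hok.g1, hok.pos_n, hok.out, hok.off, hok.disj, fun v hv => ⟨fun hc => (Set.mem_empty_iff_false _).1 (pvwk_yc0_sub hc).1.2, (hok.off_y v hv).2⟩,
    hok.tip_f, hok.cons_b, hok.cons_w, hok.cons_a, fun _ _ hc => (Set.mem_empty_iff_false _).1 hc⟩

/-- **`D.Ok` is carried over, v2**: nothing is asked on `Yin`, `Ycol` against `Kr`; `off_y` at the right apexes of the twin is a hypothesis -/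
theorem pvrd_ok_of (L : PvLocP T T' R pos pos' Kr) (hT : T.IsSph) (G : PvLocDat R 𝔇 𝔇') (hKs : closedBall π.zs (π.ts.b * h) ⊆ Kr) (hKm : ∀ i, i ≤ 𝔇.s.nm → pos (T.src (𝔇.s.em i)) ∈ Kr)
    (hKt : closedBall π.zt (π.tt.b * h) ⊆ Kr) (h2 : ∀ k, k ≤ 𝔇.g.n → pos (𝔇.g.v k) ∈ Kr) (hwf : π.Wf) (hok : 𝔇.Ok pos N h π) (hnu : ∀ v' ∈ 𝔇'.apx, v' ∈ 𝔇'.NU pos' π) : 𝔇'.Ok pos' N h π := by
  have h0 : 𝔇'.Ok pos' N h { π with Yin := ∅ } := pvlw_ok_h L hT G hKs hKm hKt (fun z hz => absurd hz.1 (Set.notMem_empty z)) h2 (pvrd_ok_empty hok)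
  refine ⟨h0.st_s, h0.st_t, h0.tip_s, h0.tip_t, h0.g0, h0.g1, h0.pos_n, h0.out, h0.off, h0.disj, ?_, h0.tip_f, h0.cons_b, h0.cons_w, h0.cons_a, ?_⟩
  · rintro v' (hv' | hv')
    · exact ⟨fun hc => h0.off v' hv' (hwf.in_sub (pvwk_yc0_sub hc).1.2), (h0.off_y v' (Or.inl hv')).2⟩
    · exact hnu v' hv'
  · intro v' hv'
    obtain ⟨v, k1, k2⟩ := ((pvlw_core G.s.gt).union (pvlw_core G.t.gt)).2 v' hv'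
    rw [← pvlw_pos L k1]
    exact hok.core_off v k2

end okof

variable {N : PvwNum} {h : ℝ} {π : PvwPat} {𝔇 : PvwDat (delbPl Y).toMap} {𝔇' : PvwDat (delbPl Y').toMap}

theorem pvrd_hKm (hf : ∀ v ∈ 𝔇.fz, (v : ℂ) ∈ pvgeFar C ρ) : ∀ i, i ≤ 𝔇.s.nm → ((delbPl Y).toMap.src (𝔇.s.em i) : ℂ) ∈ pvgeFar C ρ :=
  fun i hi => hf _ (Or.inl (Or.inl (Or.inr (Or.inl (Or.inr ⟨i, hi, rfl⟩)))))

theorem pvrd_hKp (hf : ∀ v ∈ 𝔇.fz, (v : ℂ) ∈ pvgeFar C ρ) : ∀ i, i ≤ 𝔇.t.np → ((delbPl Y).toMap.src (𝔇.t.ep i) : ℂ) ∈ pvgeFar C ρ :=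
  fun i hi => hf _ (Or.inl (Or.inl (Or.inl (Or.inl (Or.inr ⟨i, hi, rfl⟩)))))

theorem pvrd_h2 (hf : ∀ v ∈ 𝔇.fz, (v : ℂ) ∈ pvgeFar C ρ) : ∀ k, k ≤ 𝔇.g.n → ((𝔇.g.v k : ↥Y) : ℂ) ∈ pvgeFar C ρ :=
  fun k hk => hf _ (Or.inl (Or.inr ⟨k, hk, rfl⟩))

/-- **A WELL FORMED DATUM WITH FAR FROZEN SITES HAS A TWIN** -/
theorem pvrd_twin_k (H : PvrdSit Y Y' C ρ) (hks : closedBall π.zs (π.ts.b * h) ⊆ pvgeFar C ρ) (hkt : closedBall π.zt (π.tt.b * h) ⊆ pvgeFar C ρ) (hok : 𝔇.Ok Subtype.val N h π)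
    (hf : ∀ v ∈ 𝔇.fz, (v : ℂ) ∈ pvgeFar C ρ) : ∃ 𝔇' : PvwDat (delbPl Y').toMap, PvLocDat (pvrdR Y Y' C ρ) 𝔇 𝔇' := by
  obtain ⟨𝔇', G, -⟩ := pvlw_dat_exists_h H.locP hks (pvrd_hKm hf) hkt (pvrd_hKp hf) (pvrd_h2 hf) hok (σ' := pvrdPull 𝔇.col) (pvrd_col_rel H (pvrd_pull_col C 𝔇.col).symm)
  exact ⟨𝔇', G⟩

theorem pvrd_twin (H : PvrdSit Y Y' C ρ) (P : PvrdPat h π C ρ) (hok : 𝔇.Ok Subtype.val N h π) (hf : ∀ v ∈ 𝔇.fz, (v : ℂ) ∈ pvgeFar C ρ) :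
    ∃ 𝔇' : PvwDat (delbPl Y').toMap, PvLocDat (pvrdR Y Y' C ρ) 𝔇 𝔇' := pvrd_twin_k H P.ks P.kt hok hf

/-- **WHAT THE TWINS SHARE** -/
structure PvrdSh (N : PvwNum) (h : ℝ) (π : PvwPat) (a : ℂ) (𝔇 : PvwDat (delbPl Y).toMap) (𝔇' : PvwDat (delbPl Y').toMap) : Prop where
  ok : 𝔇'.Ok Subtype.val N h π
  fz : Subtype.val '' 𝔇.fz = Subtype.val '' 𝔇'.fz
  fzIn : Subtype.val '' 𝔇.s.fzIn = Subtype.val '' 𝔇'.s.fzIn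
  fzOut : Subtype.val '' 𝔇.t.fzOut = Subtype.val '' 𝔇'.t.fzOut
  xm : 𝔇'.s.xm Subtype.val = 𝔇.s.xm Subtype.val
  xp : 𝔇'.t.xp Subtype.val = 𝔇.t.xp Subtype.val
  g : (List.ofFn fun k : Fin (𝔇'.g.n + 1) => ((𝔇'.g.v k : ↥Y') : ℂ)) = List.ofFn fun k : Fin (𝔇.g.n + 1) => ((𝔇.g.v k : ↥Y) : ℂ)
  X : 𝔇'.X Subtype.val (pvxnFd Y' a) N h π = 𝔇.X Subtype.val (pvxnFd Y a) N h π

/-- the twins share everything as soon as the twin is well formed -/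
theorem pvrd_share_of (H : PvrdSit Y Y' C ρ) (hks : closedBall π.zs (π.ts.b * h) ⊆ pvgeFar C ρ) (hkt : closedBall π.zt (π.tt.b * h) ⊆ pvgeFar C ρ) (hok : 𝔇.Ok Subtype.val N h π)
    (hf : ∀ v ∈ 𝔇.fz, (v : ℂ) ∈ pvgeFar C ρ) (G : PvLocDat (pvrdR Y Y' C ρ) 𝔇 𝔇') (hok' : 𝔇'.Ok Subtype.val N h π) (a : ℂ) : PvrdSh N h π a 𝔇 𝔇' := by
  have L := H.locP
  have h2 := pvrd_h2 hf
  refine ⟨hok', pvrd_set_img (((pvlw_fzY L.loc G).union (pvlw_pth_verts G.g)).union (pvlw_apx L G h2)),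
    pvrd_set_img (pvlw_fzIn L.loc G.s), pvrd_set_img (pvlw_fzOut L.loc G.t), pvlw_xm L G.s, pvlw_xp L G.t, ?_, ?_⟩
  · refine List.ext_getElem (by simp [G.g.n_eq]) fun k h1 h2 => ?_
    simp only [List.getElem_ofFn]
    have hk : k ≤ 𝔇.g.n := by simpa [Nat.lt_succ_iff] using h2
    exact (pvge_loc_v (G.g.v_rel k hk)).symm
  · refine (pvlw_X L ?_ G (fun k hk => hks ((pvrd_inn hok.st_s.gate).2.2.2 k hk)) h2 (fun k hk => hkt ((pvrd_inn hok.st_t.gate).2.2.2 k hk)) hok.st_s.gate.ip_le hok.st_t.gate.ip_le N h π).symm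
    intro d d' hd
    show _ - _ = _ - _
    rw [pvlw_qpart L hd, pvlw_side L hd]

/-- v1 -/
theorem pvrd_share (H : PvrdSit Y Y' C ρ) (P : PvrdPat h π C ρ) (hok : 𝔇.Ok Subtype.val N h π) (hf : ∀ v ∈ 𝔇.fz, (v : ℂ) ∈ pvgeFar C ρ) (G : PvLocDat (pvrdR Y Y' C ρ) 𝔇 𝔇') (a : ℂ) :
    PvrdSh N h π a 𝔇 𝔇' :=
  pvrd_share_of H P.ks P.kt hok hf G (pvlw_ok_h H.locP (pvmo_sph H.good) G P.ks (pvrd_hKm hf) P.kt P.yy (pvrd_h2 hf) hok) a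

/-- v2 -/
theorem pvrd_share_w (H : PvrdSit Y Y' C ρ) (P : PvrdPw h π C ρ) (hok : 𝔇.Ok Subtype.val N h π) (hf : ∀ v ∈ 𝔇.fz, (v : ℂ) ∈ pvgeFar C ρ) (G : PvLocDat (pvrdR Y Y' C ρ) 𝔇 𝔇')
    (hnu : ∀ v' ∈ 𝔇'.apx, v' ∈ 𝔇'.NU Subtype.val π) (a : ℂ) : PvrdSh N h π a 𝔇 𝔇' :=
  pvrd_share_of H P.ks P.kt hok hf G (pvrd_ok_of H.locP (pvmo_sph H.good) G P.ks (pvrd_hKm hf) P.kt (pvrd_h2 hf) P.wf hok hnu) a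

end far

/-! ## 3. what a kit owes -/

section kit

variable {τ : Type} {c : ℝ} (𝔓 : PvxPar τ c) (m : ℕ) (π : PvxIx τ) (𝔎 : PvxnKit)

/-- the twin relation of record -/
def PvrdT (Y Y' : Set ℂ) (𝔇 : PvwDat (delbPl Y).toMap) (𝔇' : PvwDat (delbPl Y').toMap) : Prop :=
  PvLocDat (pvrdR Y Y' 𝔎.C 𝔎.r) 𝔇 𝔇' ∧ 𝔇.Ok Subtype.val 𝔓.num (pvlmH m) (𝔓.reg m π) ∧ ∀ v ∈ 𝔇.fz, (v : ℂ) ∈ pvgeFar 𝔎.C 𝔎.r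

/-- **what the pattern and the class `N` owe**: `PvrdPw`, and `off_y` at the right apexes of the twin of a datum whose frozen sites are read.      (Typed on `C r N`, not on the kit: a guard on `E` does not touch it.) -/
structure PvrdPk (C : Set ℂ) (r : ℝ) (N : ∀ Y : Set ℂ, PvwDat (delbPl Y).toMap → Set ↥Y) : Prop where
  pat : PvrdPw (pvlmH m) (𝔓.reg m π) C r
  nu : ∀ Y Y', PvrdSit Y Y' C r → ∀ (𝔇 : PvwDat (delbPl Y).toMap) (𝔇' : PvwDat (delbPl Y').toMap), PvLocDat (pvrdR Y Y' C r) 𝔇 𝔇' → 𝔇.Ok Subtype.val 𝔓.num (pvlmH m) (𝔓.reg m π) →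
    (∀ v ∈ 𝔇.fz, (v : ℂ) ∈ pvgeFar C r) → 𝔇.fz ⊆ N Y 𝔇 → ∀ v' ∈ 𝔇'.apx, v' ∈ 𝔇'.NU Subtype.val (𝔓.reg m π)

/-- from the form of v1 (`Yin \ Ycol` far from `C`: the spare kits) -/
theorem pvrd_pk_of_yy {𝔓 : PvxPar τ c} {m : ℕ} {π : PvxIx τ} {C : Set ℂ} {r : ℝ} {N : ∀ Y : Set ℂ, PvwDat (delbPl Y).toMap → Set ↥Y} (P : PvrdPat (pvlmH m) (𝔓.reg m π) C r)
    (hwf : (𝔓.reg m π).Wf) : PvrdPk 𝔓 m π C r N :=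
  ⟨⟨P.ks, P.kt, hwf⟩, fun _ _ H _ _ G hok hf _ v' hv' => by
    obtain ⟨v, k1, k2⟩ := (pvlw_apx H.locP G (pvrd_h2 hf)).2 v' hv'
    exact (pvlw_nu H.locP G (pvrd_hKm hf) P.yy k1).1 (hok.off_y v (Or.inr k2))⟩

/-- **WHAT A KIT OWES TO `rd`** -/
structure PvrdKit : Prop where
  r0 : 0 < 𝔎.r
  pat : PvrdPk 𝔓 m π 𝔎.C 𝔎.r 𝔎.N
  N : ∀ Y Y', PvrdSit Y Y' 𝔎.C 𝔎.r → ∀ 𝔇 𝔇', PvrdT 𝔓 m π 𝔎 Y Y' 𝔇 𝔇' → Subtype.val '' 𝔎.N Y 𝔇 = Subtype.val '' 𝔎.N Y' 𝔇'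
  E : ∀ Y Y', PvrdSit Y Y' 𝔎.C 𝔎.r → ∀ (σ : ↥Y → Bool) (σ' : ↥Y' → Bool), PvrdCol 𝔎.C σ σ' → ∀ 𝔇 𝔇', PvrdT 𝔓 m π 𝔎 Y Y' 𝔇 𝔇' → 𝔎.E Y 𝔇 σ → 𝔎.E Y' 𝔇' σ'
  W : ∀ Y Y', PvrdSit Y Y' 𝔎.C 𝔎.r → ∀ (σ : ↥Y → Bool) (σ' : ↥Y' → Bool), PvrdCol 𝔎.C σ σ' → ∀ 𝔇 𝔇', PvrdT 𝔓 m π 𝔎 Y Y' 𝔇 𝔇' → 𝔎.W Y 𝔇 σ → 𝔎.W Y' 𝔇' σ'

theorem pvrd_eqns_cite4 : True := by
  have := @PvrdT.eq_1
  trivial

variable {𝔓 m π 𝔎}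

theorem PvrdKit.tw (K : PvrdKit 𝔓 m π 𝔎) (a : ℂ) : PvrdTw 𝔓 m π a 𝔎 (PvrdT 𝔓 m π 𝔎) where
  ex Y Y' H i σ σ' hσ 𝔇 hW := by
    have hf : ∀ v ∈ 𝔇.fz, (v : ℂ) ∈ pvgeFar 𝔎.C 𝔎.r := fun v hv => hW.far v (hW.sub hv)
    obtain ⟨𝔇', G⟩ := pvrd_twin_k H K.pat.pat.ks K.pat.pat.kt hW.ok hf
    have S := pvrd_share_w H K.pat.pat hW.ok hf G (K.pat.nu Y Y' H 𝔇 𝔇' G hW.ok hf hW.sub) a
    have hT : PvrdT 𝔓 m π 𝔎 Y Y' 𝔇 𝔇' := ⟨G, hW.ok, hf⟩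
    have hN := K.N Y Y' H 𝔇 𝔇' hT
    refine ⟨𝔇', hT, ⟨S.ok, pvlw_cyl H.locP G (pvrd_h2 hf) (pvrd_col_rel H hσ) hW.cyl, S.fz.symm.trans hW.labF, hN.symm.trans hW.labN, S.g.trans hW.labg, S.X.trans hW.labX, ?_, ?_, ?_, ?_, ?_⟩⟩
    · rw [← S.fzIn]; exact hW.hull_s
    · rw [← S.fzOut]; exact hW.hull_t
    · exact pvrd_img_sub (by rw [← S.fz, ← hN]; exact image_mono hW.sub)
    · exact Set.Finite.of_finite_image (by rw [← hN]; exact hW.fin.image _) Subtype.val_injective.injOn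
    · intro v' hv'
      have h1 : (v' : ℂ) ∈ Subtype.val '' 𝔎.N Y 𝔇 := hN ▸ ⟨v', hv', rfl⟩
      obtain ⟨v, hv, e⟩ := h1
      exact e ▸ hW.far v hv
  E := K.E
  W := K.W

/-- **THE FIELD `rd`**, one kit, one `ε` -/
theorem pvrd_rd (K : PvrdKit 𝔓 m π 𝔎) (a : ℂ) (𝔜 : PvxnYd) (ε : ℝ) : ∀ Y, (pvxnSys 𝔓 m π a 𝔎 𝔜 ε).Ok Y → ∀ σ, ∀ᵐ ω₂ ∂pvP ε, ∀ i,
    (Conf.spl (pvdmU 𝔎.C) (cfOf Y σ, ω₂) ∈ (pvxnSys 𝔓 m π a 𝔎 𝔜 ε).A i ↔ cfOf Y σ ∈ (pvxnSys 𝔓 m π a 𝔎 𝔜 ε).A i) ∧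
    (Conf.spl (pvdmU 𝔎.C) (cfOf Y σ, ω₂) ∈ (pvxnSys 𝔓 m π a 𝔎 𝔜 ε).WO i ↔ cfOf Y σ ∈ (pvxnSys 𝔓 m π a 𝔎 𝔜 ε).WO i) :=
  pvrd_rd_tw (K.tw a) K.r0 𝔜 ε

/-- **THE FIELD `rd` OF `PvxnOk`, VERBATIM** (a family of kits) -/
theorem pvrd_rd_fam {𝔎s : ℝ → PvxnKit} (K : ∀ᶠ ε in 𝓝[>] (0 : ℝ), PvrdKit 𝔓 m π (𝔎s ε)) (a : ℂ) (𝔜 : PvxnYd) :
    ∀ᶠ ε in 𝓝[>] (0 : ℝ), ∀ Y, (pvxnSys 𝔓 m π a (𝔎s ε) 𝔜 ε).Ok Y → ∀ σ, ∀ᵐ ω₂ ∂pvP ε, ∀ i,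
    (Conf.spl (pvdmU (𝔎s ε).C) (cfOf Y σ, ω₂) ∈ (pvxnSys 𝔓 m π a (𝔎s ε) 𝔜 ε).A i ↔ cfOf Y σ ∈ (pvxnSys 𝔓 m π a (𝔎s ε) 𝔜 ε).A i) ∧
    (Conf.spl (pvdmU (𝔎s ε).C) (cfOf Y σ, ω₂) ∈ (pvxnSys 𝔓 m π a (𝔎s ε) 𝔜 ε).WO i ↔ cfOf Y σ ∈ (pvxnSys 𝔓 m π a (𝔎s ε) 𝔜 ε).WO i) := by
  filter_upwards [K] with ε hK
  exact pvrd_rd hK a 𝔜 ε

end kit

end Claimed.Agent.R289
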