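import Claimed.Agent.R289.Exit.N1B
import Claimed.Agent.R289.Exit.N1R

/-!
# Row 289 (S0537), THE WALL, ROAD E, file Exit/N1Guard : THE GUARD OF THE KIT OF N1'      (helper159, post of 234 id 85964 + 271 id 86146; prefix `pvn1a_`, `pvn1a`, `Pvn1a`; the def `PvxnKit.guard`)

WHY (misfit M1 of 159, 11:32Z).   The fields `jen yh_stab mw mY` and the clause `ŷ = K` of `PvxnOk` (170, `Exit/N1.lean`) are asked at EVERY base `cfOf Y σ ∈ A i`;   the `Y` side (`PvkyChain` of 218 from `pvue_chain_own` of 141) holds at the GOOD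
bases only (links forced, second moments, hull of the half state = hull of the pattern).      So the good part must sit INSIDE `A i`.      CURE, GENERIC, PROVED HERE: for ANY kit `𝔎` and ANY set `S` of configurations (BLACK vocabulary, `ζ = pvxnFl b (actual)`)
`𝔎.guard S := {𝔎 with E := fun Y 𝔇 σ => pvn1aCf Y σ ∈ S ∧ 𝔎.E Y 𝔇 σ}`.
* sec. 1  `pvn1aCf`, `PvxnKit.guard`;   `pvn1a_wit` `pvn1a_PW` (unchanged), **`pvn1a_PA`** (`PvxnPA (guard) i Y σ ↔ cfOf Y σ ∈ S ∧ PvxnPA 𝔎 i Y σ`), `pvn1a_mem_A`, `pvn1a_mem_A'`, `pvn1a_WO`, `pvn1a_Ok`, `pvn1a_R`.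
* sec. 2  the fields of `PvxnOk` at the guarded kit FROM THE SAME FIELDS AT `𝔎`: `pvn1a_E_mono` (needs `stabS`), `pvn1a_rd` (needs `rdS`), `pvn1a_dom` (monotone), `pvn1a_qbx`, `pvn1a_incl` (needs `ζ ∈ S`).
* sec. 4  THE DETERMINISTIC GUARD (request of 170, 12:02Z): `𝔎.guardE Rg`, `Rg` of the type of `E` (may read the datum);   `pvn1a_rdKit` (`PvrdKit` of 29 at the guarded kit), `pvn1a_kitE` (`Pvn1bKit` of 60), **`pvn1a_X_guardE`** : the `X` side at `(𝔎s ε).guardE (Rg ε)` from the fields at `𝔎s ε`.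
          KIT OF RECORD = TWO LAYERS: `((base kit).guardE (deterministic clauses)).guard (good part)`.
* sec. 3  **`Pvn1aX`** (the `X` side at the UNGUARDED kits `𝔎s ε`), **`Pvn1aS`** (what the guard owes), **`Pvn1aY`** (the `Y` side at the GUARDED kits)   ⟹   **`pvn1a_ok`** : `PvxnOk 𝔓 x R m π a 𝔜 (fun ε => (𝔎s ε).guard (S ε)) (fun ε => pvn1bG .. (𝔎s ε) (Γs ε) μ) K`.      0 sorry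
-/

set_option autoImplicit false
set_option linter.unusedVariables false
set_option linter.unusedSectionVars false

namespace Claimed.Agent.R289

open MeasureTheory Filter Topology Set Claims.C0465
open scoped ENNReal

/-! ## 1. the guard -/

open Classical in
/-- the configuration with the sites `Y` and the colours `σ : ↥Y → Bool` -/
noncomputable def pvn1aCf (Y : Set ℂ) (σ : ↥Y → Bool) : Conf PvPt := cfOf Y fun z => if h : z ∈ Y then σ ⟨z, h⟩ else false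

theorem pvn1a_cf (Y : Set ℂ) (σ : ℂ → Bool) : pvn1aCf Y (fun v => σ v) = cfOf Y σ :=
  pvdm_cfOf_congr fun z hz => by simp only [dif_pos hz]

/-- **THE GUARDED KIT**: `E(D)` is asked together with `(Y, σ) ∈ S` -/
def PvxnKit.guard (𝔎 : PvxnKit) (S : Set (Conf PvPt)) : PvxnKit :=
  { 𝔎 with E := fun Y 𝔇 σ => pvn1aCf Y σ ∈ S ∧ 𝔎.E Y 𝔇 σ }

theorem pvn1a_eqns_cite : True := by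
  have := @pvn1aCf.eq_1; have := @PvxnKit.guard.eq_1
  trivial

/-- a configuration with one colour per site is `cfOf` of its sites and colours -/
theorem pvn1a_cfOf_self {ζ : Conf PvPt} (h1 : ∀ p ∈ ζ.pts, ∀ q ∈ ζ.pts, p.1 = q.1 → p = q) : cfOf (cfSites ζ) (cfCol ζ) = ζ := by
  classical
  ext p
  obtain ⟨z, c⟩ := p
  show (z ∈ cfSites ζ ∧ c = cfCol ζ z) ↔ (z, c) ∈ ζ.pts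
  unfold cfCol
  constructor
  · rintro ⟨⟨⟨z', c'⟩, hq, rfl⟩, hc⟩
    by_cases ht : ((z', true) : PvPt) ∈ ζ.pts
    · rw [hc, decide_eq_true ht]; exact ht
    · rw [hc, decide_eq_false ht]
      cases c'
      · exact hq
      · exact absurd hq ht
  · intro hq
    refine ⟨⟨(z, c), hq, rfl⟩, ?_⟩
    cases c
    · symm
      rw [decide_eq_false_iff_not]
      intro ht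
      have := h1 _ hq _ ht rfl
      simp at this
    · exact (decide_eq_true hq).symm

theorem pvn1a_fl_one {b : Bool} {ζ : Conf PvPt} (h : ∀ p ∈ ζ.pts, ∀ q ∈ ζ.pts, p.1 = q.1 → p = q) : ∀ p ∈ (pvxnFl b ζ).pts, ∀ q ∈ (pvxnFl b ζ).pts, p.1 = q.1 → p = q := by
  cases b
  · rintro ⟨z, c⟩ hp ⟨z', c'⟩ hq e
    have h1 := h _ ((l9a_flip_mem ζ z c).1 hp) _ ((l9a_flip_mem ζ z' c').1 hq) e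
    have h2 : (!c) = (!c') := congrArg Prod.snd h1
    exact Prod.ext e (by simpa using h2)
  · exact h

section guard

variable {τ : Type} {c : ℝ} (𝔓 : PvxPar τ c) (m : ℕ) (π : PvxIx τ) (a : ℂ) (𝔎 : PvxnKit) (S : Set (Conf PvPt)) (𝔜 : PvxnYd)

/-- the data are those of the unguarded kit -/
theorem pvn1a_wit {Y : Set ℂ} {i : PvxnIx} {σ : ↥Y → Bool} {𝔇 : PvwDat (delbPl Y).toMap} : PvxnWit 𝔓 m π a (𝔎.guard S) Y i σ 𝔇 ↔ PvxnWit 𝔓 m π a 𝔎 Y i σ 𝔇 :=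
  ⟨fun h => ⟨h.ok, h.cyl, h.labF, h.labN, h.labg, h.labX, h.hull_s, h.hull_t, h.sub, h.fin, h.far⟩,
    fun h => ⟨h.ok, h.cyl, h.labF, h.labN, h.labg, h.labX, h.hull_s, h.hull_t, h.sub, h.fin, h.far⟩⟩

/-- `WO i` is that of the unguarded kit -/
theorem pvn1a_PW {i : PvxnIx} {Y : Set ℂ} {σ : ℂ → Bool} : PvxnPW 𝔓 m π a (𝔎.guard S) i Y σ ↔ PvxnPW 𝔓 m π a 𝔎 i Y σ := by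
  unfold PvxnPW
  simp only [pvn1a_wit]
  exact Iff.rfl

/-- **`A i` OF THE GUARDED KIT** `= S ∩ A i` -/
theorem pvn1a_PA {i : PvxnIx} {Y : Set ℂ} {σ : ℂ → Bool} : PvxnPA 𝔓 m π a (𝔎.guard S) i Y σ ↔ cfOf Y σ ∈ S ∧ PvxnPA 𝔓 m π a 𝔎 i Y σ := by
  unfold PvxnPA
  simp only [pvn1a_wit, pvn1a_PW]
  constructor
  · rintro ⟨h1, ⟨𝔇, hW, ⟨hS, hE⟩, hu⟩, hq⟩
    rw [pvn1a_cf] at hS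
    exact ⟨hS, h1, ⟨𝔇, hW, hE, hu⟩, hq⟩
  · rintro ⟨hS, h1, ⟨𝔇, hW, hE, hu⟩, hq⟩
    exact ⟨h1, ⟨𝔇, hW, ⟨by rw [pvn1a_cf]; exact hS, hE⟩, hu⟩, hq⟩

theorem pvn1a_mem_A {ε : ℝ} {i : PvxnIx} {Y : Set ℂ} {σ : ℂ → Bool} :
    cfOf Y σ ∈ (pvxnSys 𝔓 m π a (𝔎.guard S) 𝔜 ε).A i ↔ cfOf Y σ ∈ S ∧ cfOf Y σ ∈ (pvxnSys 𝔓 m π a 𝔎 𝔜 ε).A i := by
  rw [pvxn_mem_A, pvxn_mem_A, pvn1a_PA]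

/-- the same at a configuration with one colour per site -/
theorem pvn1a_mem_A' {ε : ℝ} {i : PvxnIx} {ζ : Conf PvPt} (h1 : ∀ p ∈ ζ.pts, ∀ q ∈ ζ.pts, p.1 = q.1 → p = q) :
    ζ ∈ (pvxnSys 𝔓 m π a (𝔎.guard S) 𝔜 ε).A i ↔ ζ ∈ S ∧ ζ ∈ (pvxnSys 𝔓 m π a 𝔎 𝔜 ε).A i := by
  have := pvn1a_mem_A 𝔓 m π a 𝔎 S 𝔜 (ε := ε) (i := i) (Y := cfSites ζ) (σ := cfCol ζ)
  rwa [pvn1a_cfOf_self h1] at this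

theorem pvn1a_A_sub (ε : ℝ) (i : PvxnIx) : (pvxnSys 𝔓 m π a (𝔎.guard S) 𝔜 ε).A i ⊆ (pvxnSys 𝔓 m π a 𝔎 𝔜 ε).A i :=
  fun _ h => ((pvn1a_PA 𝔓 m π a 𝔎 S).1 h).2

theorem pvn1a_WO (ε : ℝ) (i : PvxnIx) : (pvxnSys 𝔓 m π a (𝔎.guard S) 𝔜 ε).WO i = (pvxnSys 𝔓 m π a 𝔎 𝔜 ε).WO i :=
  Set.ext fun _ => pvn1a_PW 𝔓 m π a 𝔎 S

theorem pvn1a_Ok (ε : ℝ) (Y : Set ℂ) : (pvxnSys 𝔓 m π a (𝔎.guard S) 𝔜 ε).Ok Y ↔ (pvxnSys 𝔓 m π a 𝔎 𝔜 ε).Ok Y := Iff.rfl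

theorem pvn1a_R (ε : ℝ) (i : PvxnIx) (Y : Set ℂ) (σ κ : ℂ → Bool) (ω₂ : Conf PvPt) :
    (pvxnSys 𝔓 m π a (𝔎.guard S) 𝔜 ε).R i Y σ κ ω₂ = (pvxnSys 𝔓 m π a 𝔎 𝔜 ε).R i Y σ κ ω₂ := rfl

end guard

/-! ## 2. the fields of `PvxnOk` at the guarded kit from the same fields at the kit -/

section fields

variable {τ : Type} {c : ℝ} {𝔓 : PvxPar τ c} {x : ℂ} {R : ℝ} {m : ℕ} {π : PvxIx τ} {a : ℂ} {𝔎 : PvxnKit} {S : Set (Conf PvPt)} {𝔜 : PvxnYd}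

/-- (C3a) at the guarded kit -/
theorem pvn1a_E_mono
    (hE : ∀ (Y : Set ℂ) (𝔇 : PvwDat (delbPl Y).toMap) (σ σ' : ↥Y → Bool), DelGood Y → 𝔇.Ok Subtype.val 𝔓.num (pvlmH m) (𝔓.reg m π) → σ ∈ 𝔇.Cyl →
      (∀ v ∈ 𝔇.fz, σ' v = σ v) → (∀ v ∈ 𝔎.N Y 𝔇, σ' v ≤ σ v) → 𝔎.E Y 𝔇 σ → 𝔎.E Y 𝔇 σ')
    (hS : ∀ (Y : Set ℂ) (𝔇 : PvwDat (delbPl Y).toMap) (σ σ' : ↥Y → Bool), DelGood Y → 𝔇.Ok Subtype.val 𝔓.num (pvlmH m) (𝔓.reg m π) → σ ∈ 𝔇.Cyl →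
      (∀ v ∈ 𝔇.fz, σ' v = σ v) → (∀ v ∈ 𝔎.N Y 𝔇, σ' v ≤ σ v) → 𝔎.E Y 𝔇 σ → pvn1aCf Y σ ∈ S → pvn1aCf Y σ' ∈ S) :
    ∀ (Y : Set ℂ) (𝔇 : PvwDat (delbPl Y).toMap) (σ σ' : ↥Y → Bool), DelGood Y → 𝔇.Ok Subtype.val 𝔓.num (pvlmH m) (𝔓.reg m π) → σ ∈ 𝔇.Cyl →
      (∀ v ∈ 𝔇.fz, σ' v = σ v) → (∀ v ∈ (𝔎.guard S).N Y 𝔇, σ' v ≤ σ v) → (𝔎.guard S).E Y 𝔇 σ → (𝔎.guard S).E Y 𝔇 σ' :=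
  fun Y 𝔇 σ σ' h1 h2 h3 h4 h5 h6 => ⟨hS Y 𝔇 σ σ' h1 h2 h3 h4 h5 h6.2 h6.1, hE Y 𝔇 σ σ' h1 h2 h3 h4 h5 h6.2⟩

/-- the splice of a coloured set of sites with a configuration which has one colour per site has one colour per site -/
theorem pvn1a_spl_one (C Y : Set ℂ) (σ : ℂ → Bool) {ω₂ : Conf PvPt} (h1 : ∀ p ∈ ω₂.pts, ∀ q ∈ ω₂.pts, p.1 = q.1 → p = q) :
    ∀ p ∈ (Conf.spl (pvdmU C) (cfOf Y σ, ω₂)).pts, ∀ q ∈ (Conf.spl (pvdmU C) (cfOf Y σ, ω₂)).pts, p.1 = q.1 → p = q := by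
  rintro p (⟨hp, hpU⟩ | ⟨hp, hpU⟩) q (⟨hq, hqU⟩ | ⟨hq, hqU⟩) e
  · exact Prod.ext e (by rw [hp.2, hq.2, e])
  · exact absurd (show q ∈ pvdmU C from by show q.1 ∈ Cᶜ; rw [← e]; exact hpU) hqU
  · exact absurd (show p ∈ pvdmU C from by show p.1 ∈ Cᶜ; rw [e]; exact hqU) hpU
  · exact h1 p hp q hq e

/-- HYBRID at the guarded kit -/
theorem pvn1a_rd {ε : ℝ}
    (hrd : ∀ Y, (pvxnSys 𝔓 m π a 𝔎 𝔜 ε).Ok Y → ∀ σ, ∀ᵐ ω₂ ∂pvP ε, ∀ i,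
      (Conf.spl (pvdmU 𝔎.C) (cfOf Y σ, ω₂) ∈ (pvxnSys 𝔓 m π a 𝔎 𝔜 ε).A i ↔ cfOf Y σ ∈ (pvxnSys 𝔓 m π a 𝔎 𝔜 ε).A i) ∧
      (Conf.spl (pvdmU 𝔎.C) (cfOf Y σ, ω₂) ∈ (pvxnSys 𝔓 m π a 𝔎 𝔜 ε).WO i ↔ cfOf Y σ ∈ (pvxnSys 𝔓 m π a 𝔎 𝔜 ε).WO i))
    (hS : ∀ Y, (pvxnSys 𝔓 m π a 𝔎 𝔜 ε).Ok Y → ∀ σ, ∀ᵐ ω₂ ∂pvP ε, ∀ i, cfOf Y σ ∈ (pvxnSys 𝔓 m π a 𝔎 𝔜 ε).A i →
      (Conf.spl (pvdmU 𝔎.C) (cfOf Y σ, ω₂) ∈ S ↔ cfOf Y σ ∈ S)) :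
    ∀ Y, (pvxnSys 𝔓 m π a (𝔎.guard S) 𝔜 ε).Ok Y → ∀ σ, ∀ᵐ ω₂ ∂pvP ε, ∀ i,
      (Conf.spl (pvdmU (𝔎.guard S).C) (cfOf Y σ, ω₂) ∈ (pvxnSys 𝔓 m π a (𝔎.guard S) 𝔜 ε).A i ↔ cfOf Y σ ∈ (pvxnSys 𝔓 m π a (𝔎.guard S) 𝔜 ε).A i) ∧
      (Conf.spl (pvdmU (𝔎.guard S).C) (cfOf Y σ, ω₂) ∈ (pvxnSys 𝔓 m π a (𝔎.guard S) 𝔜 ε).WO i ↔ cfOf Y σ ∈ (pvxnSys 𝔓 m π a (𝔎.guard S) 𝔜 ε).WO i) := by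
  intro Y hY σ
  filter_upwards [hrd Y hY σ, hS Y hY σ, delgp_ae_conf ε] with ω₂ h1 h2 h3 i
  refine ⟨?_, ?_⟩
  · show Conf.spl (pvdmU 𝔎.C) (cfOf Y σ, ω₂) ∈ (pvxnSys 𝔓 m π a (𝔎.guard S) 𝔜 ε).A i ↔ _
    rw [pvn1a_mem_A' 𝔓 m π a 𝔎 S 𝔜 (pvn1a_spl_one 𝔎.C Y σ h3.2.2), pvn1a_mem_A, (h1 i).1]
    exact and_congr_left fun hA => h2 i hA
  · rw [pvn1a_WO]
    exact (h1 i).2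

/-- (C2) + INJ at the guarded kit (monotone) -/
theorem pvn1a_dom {ε : ℝ} {ω : Conf PvPt} {M : ℝ≥0∞}
    (h : ∑' i, ((pvxnSys 𝔓 m π a 𝔎 𝔜 ε).A i ∩ (pvxnSys 𝔓 m π a 𝔎 𝔜 ε).WO i).indicator (fun ω => 𝔜.w ε ω * ‖i.X + 𝔜.Y ε ω‖ₑ ^ 2) ω ≤ M) :
    ∑' i, ((pvxnSys 𝔓 m π a (𝔎.guard S) 𝔜 ε).A i ∩ (pvxnSys 𝔓 m π a (𝔎.guard S) 𝔜 ε).WO i).indicator (fun ω => 𝔜.w ε ω * ‖i.X + 𝔜.Y ε ω‖ₑ ^ 2) ω ≤ M := by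
  refine le_trans (ENNReal.tsum_le_tsum fun i => ?_) h
  rw [pvn1a_WO]
  exact indicator_le_indicator_of_subset (inter_subset_inter_left _ (pvn1a_A_sub 𝔓 m π a 𝔎 S 𝔜 ε i)) (fun _ => zero_le) ω

/-- **THE INCLUSION at the guarded kit** -/
theorem pvn1a_incl (hW : 𝔓.Wf) (hR : 0 < R) (hπ : π ∈ pvxPatSet 𝔓 x R m) {Γ : PVSample → Prop} {μ : ℝ} (hk : Pvn1bKit 𝔓 x R m π a 𝔎 Γ μ) (ε : ℝ)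
    {ω : PVSample} (hω : Pvn1bGood 𝔓 x R m π a 𝔎 Γ μ ω) {P : PvbRim} (hP : P ∈ pvhbAll x R ω) {s t : PvbPin τ} (hfit : pvxFit 𝔓 x R m ω P s t π)
    (hS : pvxnFl (𝔓.col π.p.ts) (pvConf ω) ∈ S) :
    ∃ i, pvxnFl (𝔓.col π.p.ts) (pvConf ω) ∈ (pvxnSys 𝔓 m π a (𝔎.guard S) 𝔜 ε).A i ∧ i.X = pvbArcI 𝔓.𝔐 (pvlmH m) P (fun k => P.xQ k - a * P.xV k) s t := by
  obtain ⟨i, hi, hX⟩ := pvn1b_incl hW hR hπ hk 𝔜 ε hω hP hfit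
  refine ⟨i, (pvn1a_mem_A' 𝔓 m π a 𝔎 S 𝔜 ?_).2 ⟨hS, hi⟩, hX⟩
  exact pvn1a_fl_one hω.good.one

end fields

/-! ## 3. the three contracts; the record of 170 at the guarded kits -/

section roof

variable {τ : Type} {c : ℝ} (𝔓 : PvxPar τ c) (x : ℂ) (R : ℝ) (m : ℕ) (π : PvxIx τ) (a : ℂ) (𝔜 : PvxnYd) (𝔎s : ℝ → PvxnKit) (Γs : ℝ → PVSample → Prop) (μ : ℝ) (S : ℝ → Set (Conf PvPt))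

/-- **THE `X` SIDE, AT THE UNGUARDED KITS `𝔎s ε`**: the fields of `PvxnOk` (170) which do not see the `Y` side, the contract of 60 for `act`, the inputs of `pvn1b_geo` -/
structure Pvn1aX : Prop where
  mC : ∀ᶠ ε in 𝓝[>] (0 : ℝ), MeasurableSet (𝔎s ε).C
  bB : ∃ B₀ : Set ℂ, Bornology.IsBounded B₀ ∧ ∀ᶠ ε in 𝓝[>] (0 : ℝ), (𝔎s ε).B ⊆ B₀
  q0 : ∃ q : ℝ≥0∞, q ≠ 0 ∧ ∀ᶠ ε in 𝓝[>] (0 : ℝ), q ≤ (𝔎s ε).q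
  E_mono : ∀ᶠ ε in 𝓝[>] (0 : ℝ), ∀ (Y : Set ℂ) (𝔇 : PvwDat (delbPl Y).toMap) (σ σ' : ↥Y → Bool), DelGood Y → 𝔇.Ok Subtype.val 𝔓.num (pvlmH m) (𝔓.reg m π) → σ ∈ 𝔇.Cyl →
    (∀ v ∈ 𝔇.fz, σ' v = σ v) → (∀ v ∈ (𝔎s ε).N Y 𝔇, σ' v ≤ σ v) → (𝔎s ε).E Y 𝔇 σ → (𝔎s ε).E Y 𝔇 σ'
  W_mono : ∀ᶠ ε in 𝓝[>] (0 : ℝ), ∀ (Y : Set ℂ) (𝔇 : PvwDat (delbPl Y).toMap) (σ σ' : ↥Y → Bool), DelGood Y → 𝔇.Ok Subtype.val 𝔓.num (pvlmH m) (𝔓.reg m π) → σ ∈ 𝔇.Cyl →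
    (∀ v ∈ 𝔇.fz, σ' v = σ v) → (∀ v ∈ (𝔎s ε).N Y 𝔇, σ' v ≤ σ v) → (𝔎s ε).W Y 𝔇 σ → (𝔎s ε).W Y 𝔇 σ'
  rd : ∀ᶠ ε in 𝓝[>] (0 : ℝ), ∀ Y, (pvxnSys 𝔓 m π a (𝔎s ε) 𝔜 ε).Ok Y → ∀ σ, ∀ᵐ ω₂ ∂pvP ε, ∀ i,
    (Conf.spl (pvdmU (𝔎s ε).C) (cfOf Y σ, ω₂) ∈ (pvxnSys 𝔓 m π a (𝔎s ε) 𝔜 ε).A i ↔ cfOf Y σ ∈ (pvxnSys 𝔓 m π a (𝔎s ε) 𝔜 ε).A i) ∧
    (Conf.spl (pvdmU (𝔎s ε).C) (cfOf Y σ, ω₂) ∈ (pvxnSys 𝔓 m π a (𝔎s ε) 𝔜 ε).WO i ↔ cfOf Y σ ∈ (pvxnSys 𝔓 m π a (𝔎s ε) 𝔜 ε).WO i)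
  /-- the contract of 60 (`Exit/N1B`) -/
  kit : ∀ᶠ ε in 𝓝[>] (0 : ℝ), Pvn1bKit 𝔓 x R m π a (𝔎s ε) (Γs ε) μ
  /-- the resampled regions lie in one bounded set, the collar radii between two positive constants -/
  bC : ∃ (B₀ : Set ℂ) (r₀ r₁ : ℝ), Bornology.IsBounded B₀ ∧ 0 < r₀ ∧ ∀ᶠ ε in 𝓝[>] (0 : ℝ), (𝔎s ε).C ⊆ B₀ ∧ r₀ ≤ (𝔎s ε).r ∧ (𝔎s ε).r ≤ r₁
  qbx : Pvn1bQbx 𝔓 m π a 𝔎s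
  /-- the free good event of 60 / 191 has high probability -/
  bad : Tendsto (fun ε => (pvhbUp ε).P {p | ¬ Γs ε (pvMerge p)}) (𝓝[>] (0 : ℝ)) (𝓝 0)

/-- **WHAT THE GUARD `S ε` OWES** (sets of configurations in the BLACK vocabulary).
* `stab`  `S` does not read the colours off the frozen sites of a datum      [(CYL-W) of 234 + `pvue_forced_base`, `pvue_sq_base` of 141]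
* `rd`    `S` does not read the resampled region, at a present datum      [the same base change lemmas: the windows meet `C` in the own tile and door only]
* `fit`   on a good sample (`Γ` included) a fit puts the configuration into `S`      [field `bad` of the good part inside `Γ`; inclusions of `PvnaGd.Wf`] -/
structure Pvn1aS : Prop where
  stab : ∀ᶠ ε in 𝓝[>] (0 : ℝ), ∀ (Y : Set ℂ) (𝔇 : PvwDat (delbPl Y).toMap) (σ σ' : ↥Y → Bool), DelGood Y → 𝔇.Ok Subtype.val 𝔓.num (pvlmH m) (𝔓.reg m π) → σ ∈ 𝔇.Cyl →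
    (∀ v ∈ 𝔇.fz, σ' v = σ v) → (∀ v ∈ (𝔎s ε).N Y 𝔇, σ' v ≤ σ v) → (𝔎s ε).E Y 𝔇 σ → pvn1aCf Y σ ∈ S ε → pvn1aCf Y σ' ∈ S ε
  rd : ∀ᶠ ε in 𝓝[>] (0 : ℝ), ∀ Y, (pvxnSys 𝔓 m π a (𝔎s ε) 𝔜 ε).Ok Y → ∀ σ, ∀ᵐ ω₂ ∂pvP ε, ∀ i, cfOf Y σ ∈ (pvxnSys 𝔓 m π a (𝔎s ε) 𝔜 ε).A i →
    (Conf.spl (pvdmU (𝔎s ε).C) (cfOf Y σ, ω₂) ∈ S ε ↔ cfOf Y σ ∈ S ε)
  fit : ∀ᶠ ε in 𝓝[>] (0 : ℝ), ∀ ω : PVSample, Pvn1bGood 𝔓 x R m π a (𝔎s ε) (Γs ε) μ ω → ∀ P ∈ pvhbAll x R ω, ∀ s t : PvbPin τ, pvxFit 𝔓 x R m ω P s t π →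
    pvxnFl (𝔓.col π.p.ts) (pvConf ω) ∈ S ε

/-- **THE `Y` SIDE, AT THE GUARDED KITS** `(𝔎s ε).guard (S ε)`: every base of `jen yh_stab mw mY mean` lies in `S ε` (`pvn1a_mem_A`) -/
structure Pvn1aY (K : ℝ → PVSample → ℂ) : Prop where
  D1 : 𝔜.D ≠ ⊤
  yh_stab : ∀ᶠ ε in 𝓝[>] (0 : ℝ), ∀ Y, (pvxnSys 𝔓 m π a ((𝔎s ε).guard (S ε)) 𝔜 ε).Ok Y → ∀ i σ σ', cfOf Y σ ∈ (pvxnSys 𝔓 m π a ((𝔎s ε).guard (S ε)) 𝔜 ε).A i → (∀ z ∈ Y, z ∈ i.F → σ' z = σ z) →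
    (∀ z ∈ Y, z ∈ i.N → σ' z ≤ σ z) → 𝔜.yh ε i (cfOf Y σ') = 𝔜.yh ε i (cfOf Y σ)
  mw : ∀ᶠ ε in 𝓝[>] (0 : ℝ), ∀ Y, (pvxnSys 𝔓 m π a ((𝔎s ε).guard (S ε)) 𝔜 ε).Ok Y → ∀ i σ, cfOf Y σ ∈ (pvxnSys 𝔓 m π a ((𝔎s ε).guard (S ε)) 𝔜 ε).A i → cfOf Y σ ∈ (pvxnSys 𝔓 m π a ((𝔎s ε).guard (S ε)) 𝔜 ε).WO i →
    Measurable fun p : (ℂ → Bool) × Conf PvPt => 𝔜.w ε ((pvxnSys 𝔓 m π a ((𝔎s ε).guard (S ε)) 𝔜 ε).R i Y σ p.1 p.2)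
  mY : ∀ᶠ ε in 𝓝[>] (0 : ℝ), ∀ Y, (pvxnSys 𝔓 m π a ((𝔎s ε).guard (S ε)) 𝔜 ε).Ok Y → ∀ i σ, cfOf Y σ ∈ (pvxnSys 𝔓 m π a ((𝔎s ε).guard (S ε)) 𝔜 ε).A i → cfOf Y σ ∈ (pvxnSys 𝔓 m π a ((𝔎s ε).guard (S ε)) 𝔜 ε).WO i →
    Measurable fun p : (ℂ → Bool) × Conf PvPt => 𝔜.Y ε ((pvxnSys 𝔓 m π a ((𝔎s ε).guard (S ε)) 𝔜 ε).R i Y σ p.1 p.2)
  jen : ∀ᶠ ε in 𝓝[>] (0 : ℝ), ∀ Y, (pvxnSys 𝔓 m π a ((𝔎s ε).guard (S ε)) 𝔜 ε).Ok Y → ∀ i σ, cfOf Y σ ∈ (pvxnSys 𝔓 m π a ((𝔎s ε).guard (S ε)) 𝔜 ε).A i → cfOf Y σ ∈ (pvxnSys 𝔓 m π a ((𝔎s ε).guard (S ε)) 𝔜 ε).WO i →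
    ‖i.X + 𝔜.yh ε i (cfOf Y σ)‖ₑ ^ 2 ≤ ∫⁻ κ, ∫⁻ ω₂, 𝔜.w ε ((pvxnSys 𝔓 m π a ((𝔎s ε).guard (S ε)) 𝔜 ε).R i Y σ κ ω₂) * ‖i.X + 𝔜.Y ε ((pvxnSys 𝔓 m π a ((𝔎s ε).guard (S ε)) 𝔜 ε).R i Y σ κ ω₂)‖ₑ ^ 2 ∂pvP ε ∂colLaw ℂ
  /-- (from the same line at the unguarded kits: `pvn1a_dom`) -/
  dom : ∀ᶠ ε in 𝓝[>] (0 : ℝ), ∀ᵐ ω ∂pvP ε, ∑' i, ((pvxnSys 𝔓 m π a ((𝔎s ε).guard (S ε)) 𝔜 ε).A i ∩ (pvxnSys 𝔓 m π a ((𝔎s ε).guard (S ε)) 𝔜 ε).WO i).indicator (fun ω => 𝔜.w ε ω * ‖i.X + 𝔜.Y ε ω‖ₑ ^ 2) ω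
    ≤ 𝔜.D * pvclSum ω (𝔎s ε).B (pvlmH m)
  /-- TR2: `ŷ = K` at the present data of the good samples -/
  mean : ∀ᶠ ε in 𝓝[>] (0 : ℝ), ∀ (ω : PVSample) (i : PvxnIx), Pvn1bGood 𝔓 x R m π a (𝔎s ε) (Γs ε) μ ω → pvxnFl (𝔓.col π.p.ts) (pvConf ω) ∈ (pvxnSys 𝔓 m π a ((𝔎s ε).guard (S ε)) 𝔜 ε).A i →
    𝔜.yh ε i (pvxnFl (𝔓.col π.p.ts) (pvConf ω)) = K ε ω

variable {𝔓 x R m π a 𝔜 𝔎s Γs μ S}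

/-- **THE RECORD OF 170 AT THE GUARDED KITS** -/
theorem pvn1a_ok (hW : 𝔓.Wf) (hR : 0 < R) (hπ : π ∈ pvxPatSet 𝔓 x R m) {K : ℝ → PVSample → ℂ} (hX : Pvn1aX 𝔓 x R m π a 𝔜 𝔎s Γs μ) (hS : Pvn1aS 𝔓 x R m π a 𝔜 𝔎s Γs μ S)
    (hY : Pvn1aY 𝔓 x R m π a 𝔜 𝔎s Γs μ S K) :
    PvxnOk 𝔓 x R m π a 𝔜 (fun ε => (𝔎s ε).guard (S ε)) (fun ε => pvn1bG 𝔓 x R m π a (𝔎s ε) (Γs ε) μ) K where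
  mC := hX.mC
  bB := hX.bB
  q0 := hX.q0
  D1 := hY.D1
  E_mono := by
    filter_upwards [hX.E_mono, hS.stab] with ε h1 h2
    exact pvn1a_E_mono h1 h2
  W_mono := hX.W_mono
  yh_stab := hY.yh_stab
  mw := hY.mw
  mY := hY.mY
  rd := by
    filter_upwards [hX.rd, hS.rd] with ε h1 h2
    exact pvn1a_rd h1 h2
  jen := hY.jen
  dom := hY.dom
  geo := by
    obtain ⟨B₀, r₀, r₁, hB, h0, hC⟩ := hX.bC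
    obtain ⟨ε, hε⟩ := hX.kit.exists
    exact pvn1b_geo 𝔓 x R m π a hR hε.mu.mu0 𝔎s hB h0 hC hX.qbx Γs hX.bad
  act := by
    filter_upwards [hX.kit, hS.fit, hY.mean] with ε hk hfitS hmean p hp P hP s _ t _ hfit
    have hω : Pvn1bGood 𝔓 x R m π a (𝔎s ε) (Γs ε) μ (pvMerge p) := not_not.1 hp
    obtain ⟨i, hi, hXi⟩ := pvn1a_incl (𝔜 := 𝔜) hW hR hπ hk ε hω hP hfit (hfitS _ hω P hP s t hfit)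
    exact ⟨i, hi, hXi, hmean _ i hω hi⟩

end roof

/-! ## 4. the deterministic guard -/

/-- **THE KIT GUARDED BY A PREDICATE OF THE TYPE OF `E`** (it may read the datum) -/
def PvxnKit.guardE (𝔎 : PvxnKit) (Rg : ∀ Y : Set ℂ, PvwDat (delbPl Y).toMap → (↥Y → Bool) → Prop) : PvxnKit :=
  { 𝔎 with E := fun Y 𝔇 σ => Rg Y 𝔇 σ ∧ 𝔎.E Y 𝔇 σ }

theorem pvn1a_eqns_cite2 : True := by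
  have := @PvxnKit.guardE.eq_1
  trivial

theorem pvn1a_guard_eq (𝔎 : PvxnKit) (S : Set (Conf PvPt)) : 𝔎.guard S = 𝔎.guardE fun Y _ σ => pvn1aCf Y σ ∈ S := rfl

theorem pvn1a_cf_eq (Y : Set ℂ) (σ : ↥Y → Bool) : pvn1aCf Y σ = pvfCf Y σ := by
  ext p
  constructor
  · rintro ⟨h1, h2⟩
    refine ⟨⟨p.1, h1⟩, Prod.ext rfl ?_⟩
    rw [h2]
    simp only [dif_pos h1]
  · rintro ⟨v, rfl⟩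
    refine ⟨v.2, ?_⟩
    show σ v = _
    simp only [dif_pos v.2]

section guardE

variable {τ : Type} {c : ℝ} {𝔓 : PvxPar τ c} {x : ℂ} {R : ℝ} {m : ℕ} {π : PvxIx τ} {a : ℂ} {𝔎 : PvxnKit} {Rg : ∀ Y : Set ℂ, PvwDat (delbPl Y).toMap → (↥Y → Bool) → Prop} {𝔜 : PvxnYd}

theorem pvn1a_witE {Y : Set ℂ} {i : PvxnIx} {σ : ↥Y → Bool} {𝔇 : PvwDat (delbPl Y).toMap} : PvxnWit 𝔓 m π a (𝔎.guardE Rg) Y i σ 𝔇 ↔ PvxnWit 𝔓 m π a 𝔎 Y i σ 𝔇 :=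
  ⟨fun h => ⟨h.ok, h.cyl, h.labF, h.labN, h.labg, h.labX, h.hull_s, h.hull_t, h.sub, h.fin, h.far⟩,
    fun h => ⟨h.ok, h.cyl, h.labF, h.labN, h.labg, h.labX, h.hull_s, h.hull_t, h.sub, h.fin, h.far⟩⟩

theorem pvn1a_PWE {i : PvxnIx} {Y : Set ℂ} {σ : ℂ → Bool} : PvxnPW 𝔓 m π a (𝔎.guardE Rg) i Y σ ↔ PvxnPW 𝔓 m π a 𝔎 i Y σ := by
  unfold PvxnPW
  simp only [pvn1a_witE]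
  exact Iff.rfl

/-- a present datum of the guarded kit: the datum itself, with the guard -/
theorem pvn1a_PAE {i : PvxnIx} {Y : Set ℂ} {σ : ℂ → Bool} (h : PvxnPA 𝔓 m π a (𝔎.guardE Rg) i Y σ) :
    PvxnPA 𝔓 m π a 𝔎 i Y σ ∧ ∃ 𝔇, PvxnWit 𝔓 m π a 𝔎 Y i (fun v => σ v) 𝔇 ∧ Rg Y 𝔇 (fun v => σ v) ∧ 𝔎.E Y 𝔇 (fun v => σ v) := by
  unfold PvxnPA at h ⊢
  simp only [pvn1a_witE, pvn1a_PWE] at h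
  obtain ⟨h1, ⟨𝔇, hW, ⟨hR, hE⟩, hu⟩, hq⟩ := h
  exact ⟨⟨h1, ⟨𝔇, hW, hE, hu⟩, hq⟩, 𝔇, hW, hR, hE⟩

/-- `PvrdKit` of 29 at the guarded kit: the guard is carried over by the twins of record -/
theorem pvn1a_rdKit (K : PvrdKit 𝔓 m π 𝔎)
    (hRg : ∀ Y Y', PvrdSit Y Y' 𝔎.C 𝔎.r → ∀ (σ : ↥Y → Bool) (σ' : ↥Y' → Bool), PvrdCol 𝔎.C σ σ' → ∀ 𝔇 𝔇', PvrdT 𝔓 m π 𝔎 Y Y' 𝔇 𝔇' → Rg Y 𝔇 σ → Rg Y' 𝔇' σ') :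
    PvrdKit 𝔓 m π (𝔎.guardE Rg) where
  r0 := K.r0
  pat := K.pat
  N := K.N
  E := fun Y Y' H σ σ' hσ 𝔇 𝔇' hT h => ⟨hRg Y Y' H σ σ' hσ 𝔇 𝔇' hT h.1, K.E Y Y' H σ σ' hσ 𝔇 𝔇' hT h.2⟩
  W := K.W

/-- the contract of 60 at the guarded kit -/
theorem pvn1a_kitE {Γ : PVSample → Prop} {μ : ℝ} (hk : Pvn1bKit 𝔓 x R m π a 𝔎 Γ μ)
    (c1 : ∀ ω : PVSample, PvqfGood (pvConf ω) → L9Fine (pvxY ω) (Metric.closedBall x (6 * R)) μ → VorDense (pvxY ω) (pvgeCollar 𝔎.C 𝔎.r) 𝔎.r → Γ ω →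
      ∀ 𝔇 : PvwDat (pvxT ω), Pvn1bAct 𝔓 x R m π ω 𝔇 → Rg (pvxY ω) 𝔇 (pvxCol ω (𝔓.col π.p.ts))) :
    Pvn1bKit 𝔓 x R m π a (𝔎.guardE Rg) Γ μ where
  mu := hk.mu
  c1 := fun ω h1 h2 h3 h4 𝔇 hA => ⟨c1 ω h1 h2 h3 h4 𝔇 hA, hk.c1 ω h1 h2 h3 h4 𝔇 hA⟩
  sub := hk.sub
  fin := hk.fin
  far := hk.far
  uni := fun Y i σ 𝔇 𝔇' hY h h' => hk.uni Y i σ 𝔇 𝔇' hY (pvn1a_witE.1 h) (pvn1a_witE.1 h')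

/-- the QBX clause is monotone in the guard (it runs over the data with `E(D)` only) -/
theorem pvn1a_qbxE {𝔎s : ℝ → PvxnKit} {Rgs : ℝ → ∀ Y : Set ℂ, PvwDat (delbPl Y).toMap → (↥Y → Bool) → Prop} (h : Pvn1bQbx 𝔓 m π a 𝔎s) :
    Pvn1bQbx 𝔓 m π a fun ε => (𝔎s ε).guardE (Rgs ε) := by
  unfold Pvn1bQbx at h ⊢
  simp only [pvn1a_witE, pvn1a_PWE]
  refine tendsto_of_tendsto_of_tendsto_of_le_of_le tendsto_const_nhds h (fun _ => zero_le) fun ε => (pvhbUp ε).P_mono fun p hp hn => hp ?_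
  exact fun i 𝔇 hW hE => hn i 𝔇 hW hE.2

/-- **THE `X` SIDE AT THE KITS GUARDED BY DETERMINISTIC CLAUSES**, from the fields at the unguarded kits;   `qbx` is asked AT THE GUARDED KITS (130: it is false without `g₀ ⊆ closedBall x (5R)`; from the unguarded line: `pvn1a_qbxE`) -/
theorem pvn1a_X_guardE {𝔎s : ℝ → PvxnKit} {Γs : ℝ → PVSample → Prop} {μ : ℝ} (Rgs : ℝ → ∀ Y : Set ℂ, PvwDat (delbPl Y).toMap → (↥Y → Bool) → Prop)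
    (mC : ∀ᶠ ε in 𝓝[>] (0 : ℝ), MeasurableSet (𝔎s ε).C)
    (bB : ∃ B₀ : Set ℂ, Bornology.IsBounded B₀ ∧ ∀ᶠ ε in 𝓝[>] (0 : ℝ), (𝔎s ε).B ⊆ B₀)
    (q0 : ∃ q : ℝ≥0∞, q ≠ 0 ∧ ∀ᶠ ε in 𝓝[>] (0 : ℝ), q ≤ (𝔎s ε).q)
    (E_mono : ∀ᶠ ε in 𝓝[>] (0 : ℝ), ∀ (Y : Set ℂ) (𝔇 : PvwDat (delbPl Y).toMap) (σ σ' : ↥Y → Bool), DelGood Y → 𝔇.Ok Subtype.val 𝔓.num (pvlmH m) (𝔓.reg m π) → σ ∈ 𝔇.Cyl →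
      (∀ v ∈ 𝔇.fz, σ' v = σ v) → (∀ v ∈ (𝔎s ε).N Y 𝔇, σ' v ≤ σ v) → (𝔎s ε).E Y 𝔇 σ → (𝔎s ε).E Y 𝔇 σ')
    (W_mono : ∀ᶠ ε in 𝓝[>] (0 : ℝ), ∀ (Y : Set ℂ) (𝔇 : PvwDat (delbPl Y).toMap) (σ σ' : ↥Y → Bool), DelGood Y → 𝔇.Ok Subtype.val 𝔓.num (pvlmH m) (𝔓.reg m π) → σ ∈ 𝔇.Cyl →
      (∀ v ∈ 𝔇.fz, σ' v = σ v) → (∀ v ∈ (𝔎s ε).N Y 𝔇, σ' v ≤ σ v) → (𝔎s ε).W Y 𝔇 σ → (𝔎s ε).W Y 𝔇 σ')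
    (kit : ∀ᶠ ε in 𝓝[>] (0 : ℝ), Pvn1bKit 𝔓 x R m π a (𝔎s ε) (Γs ε) μ)
    (bC : ∃ (B₀ : Set ℂ) (r₀ r₁ : ℝ), Bornology.IsBounded B₀ ∧ 0 < r₀ ∧ ∀ᶠ ε in 𝓝[>] (0 : ℝ), (𝔎s ε).C ⊆ B₀ ∧ r₀ ≤ (𝔎s ε).r ∧ (𝔎s ε).r ≤ r₁)
    (bad : Tendsto (fun ε => (pvhbUp ε).P {p | ¬ Γs ε (pvMerge p)}) (𝓝[>] (0 : ℝ)) (𝓝 0))
    (qbx : Pvn1bQbx 𝔓 m π a fun ε => (𝔎s ε).guardE (Rgs ε))
    (frz : ∀ᶠ ε in 𝓝[>] (0 : ℝ), ∀ (Y : Set ℂ) (𝔇 : PvwDat (delbPl Y).toMap) (σ σ' : ↥Y → Bool), DelGood Y → 𝔇.Ok Subtype.val 𝔓.num (pvlmH m) (𝔓.reg m π) → σ ∈ 𝔇.Cyl →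
      (∀ v ∈ 𝔇.fz, σ' v = σ v) → (∀ v ∈ (𝔎s ε).N Y 𝔇, σ' v ≤ σ v) → (𝔎s ε).E Y 𝔇 σ → Rgs ε Y 𝔇 σ → Rgs ε Y 𝔇 σ')
    (c1 : ∀ᶠ ε in 𝓝[>] (0 : ℝ), ∀ ω : PVSample, PvqfGood (pvConf ω) → L9Fine (pvxY ω) (Metric.closedBall x (6 * R)) μ → VorDense (pvxY ω) (pvgeCollar (𝔎s ε).C (𝔎s ε).r) (𝔎s ε).r → Γs ε ω →
      ∀ 𝔇 : PvwDat (pvxT ω), Pvn1bAct 𝔓 x R m π ω 𝔇 → Rgs ε (pvxY ω) 𝔇 (pvxCol ω (𝔓.col π.p.ts)))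
    (K : ∀ᶠ ε in 𝓝[>] (0 : ℝ), PvrdKit 𝔓 m π (𝔎s ε))
    (spl : ∀ᶠ ε in 𝓝[>] (0 : ℝ), ∀ Y Y', PvrdSit Y Y' (𝔎s ε).C (𝔎s ε).r → ∀ (σ : ↥Y → Bool) (σ' : ↥Y' → Bool), PvrdCol (𝔎s ε).C σ σ' → ∀ 𝔇 𝔇', PvrdT 𝔓 m π (𝔎s ε) Y Y' 𝔇 𝔇' →
      Rgs ε Y 𝔇 σ → Rgs ε Y' 𝔇' σ') :
    Pvn1aX 𝔓 x R m π a 𝔜 (fun ε => (𝔎s ε).guardE (Rgs ε)) Γs μ where
  mC := mC
  bB := bB
  q0 := q0
  E_mono := by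
    filter_upwards [E_mono, frz] with ε h1 h2 Y 𝔇 σ σ' k1 k2 k3 k4 k5 k6
    exact ⟨h2 Y 𝔇 σ σ' k1 k2 k3 k4 k5 k6.2 k6.1, h1 Y 𝔇 σ σ' k1 k2 k3 k4 k5 k6.2⟩
  W_mono := W_mono
  rd := pvrd_rd_fam (by filter_upwards [K, spl] with ε h1 h2 using pvn1a_rdKit h1 h2) a 𝔜
  kit := by
    filter_upwards [kit, c1] with ε h1 h2
    exact pvn1a_kitE h1 h2
  bC := bC
  qbx := qbx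
  bad := bad

end guardE

end Claimed.Agent.R289
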