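-- KEEP
import Claimed.Agent.R289.Exit.N1BK
import Claimed.Agent.R289.Exit.N1R
import Claimed.Agent.R289.Exit.N1Guard
import Claimed.Agent.R289.Tr.StabW

/-!
# Row 289 (S0537), THE WALL, ROAD E, file Exit/N1C : THE `X` SIDE OF `n1` AT THE MODEL = `Pvn1aX` (159) WITH THE END TILES IN THE MOUTHS      (helper292, post of 234 id 90125; prefix `pvn1c_`, `pvn1c`, `Pvn1c`)

WHY.   `rd` (29 `Exit/N1R`, `PvrdPat.yy`), `PvknGeo.col`, `PvnbkReg.col` ask `Yin \ Ycol ⊆ pvgeFar C r`.      At `C = pvieCc` this is FALSE: the end tiles `oK iK` and the door `0` sit BEHIND the first door, in the mouth balls, off `Ycol` (63, L2).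
It is consumed twice: `NU` carried over (`pvlw_nu`) and `Ok.off_y` of the twin (`pvlw_ok_h`).
CURE, AT KIT LEVEL (no definition of record moves): the kit is run at the pattern **`pvn1cPat π₀ S`** `= {π₀ with Ycol := π₀.Ycol ∪ S}`, `S := (pvgeFar C r)ᶜ`.
* `yy`, `hcol`, `far` of the read sites hold BY CONSTRUCTION;   `NU(π₁) ⊆ NU(π₀)` (`pvn1c_nu_sub`, combinatorial), so (C1) is free (`pvc4_nbon_mono`);   `YCL XCL WO SY YArc Yof` do not read `Ycol`.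
* ONE colour free conjunct in `E` AND `W`: **`Pvn1cC`** = `off_y` at `π₁` (the vertices of `g₀` and its right apexes which are not frozen by `D_Y` are in `NU(π₁)`).      `Ok(π₀)` + `far` + `Pvn1cC` `⟹ Ok(π₁) ⟹` twin `Ok(π₁) ⟹` twin `Ok(π₀)`, `Pvn1cC`.
* a FREE colour free guard `Rg` in `E` (mesh of the kept patch, `PvwDat.Geo`, ..: 170 104 63): owes `tw` (carried over by twins) and `c1` (actual data).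
CONTENTS.
* sec. 1  (any map)   `pvn1cPat`, `pvn1c_yc0`, **`pvn1c_nu_sub`**, `pvn1c_ok_down`, `Pvn1cC`, **`pvn1c_ok_up`**, `pvn1c_wf`
* sec. 2  **`pvn1cKit x R π₀ C r q Rg`**;   `E_mono W_mono sub fin far uni`
* sec. 3  `rd`: `Pvn1cTw` (the glue of 29 with `ex` asked only for the data with `E` or `W`), `pvn1c_rd_tw`;   `Pvn1cGeo` (what the regions owe: no site, no colour), **`pvn1c_rd`**
* sec. 4  `Pvn1bKit`, `Pvn1bQbx` at the kit;   **`pvn1c_X`** : `Pvn1aX`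
-/

set_option autoImplicit false
set_option linter.unusedVariables false
set_option linter.unusedSectionVars false

namespace Claimed.Agent.R289

open MeasureTheory Filter Topology Set Relation Claims.C0465
open scoped ENNReal

/-! ## 1. the pattern with the enlarged collar -/

/-- **the pattern `π` with the collar enlarged by `S`** -/
def pvn1cPat (π : PvwPat) (S : Set ℂ) : PvwPat := { π with Ycol := π.Ycol ∪ S }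

section free

variable {V D : Type} {T : PvMap V D} {𝔇 : PvwDat T} {pos : V → ℂ} {π : PvwPat} {S : Set ℂ}

/-- **`off_y` AT THE ENLARGED PATTERN**, for the sites which `D_Y` does not freeze -/
def Pvn1cC (𝔇 : PvwDat T) (pos : V → ℂ) (π₁ : PvwPat) : Prop := ∀ v ∈ 𝔇.fz, v ∉ 𝔇.fzY → v ∈ 𝔇.NU pos π₁

theorem pvn1c_eqns_cite : True := by
  have := @pvn1cPat.eq_1; have := @Pvn1cC.eq_1
  trivial

/-- a component is closed under adjacency -/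
theorem pvn1c_comp_adj {X : Set V} {a u v : V} (hu : u ∈ pvwComp T X a) (d : D) (hs : T.src d = u) (ht : T.tgt d = v) (hv : v ∈ X) : v ∈ pvwComp T X a := by
  have : Nonempty D := ⟨d⟩
  obtain ⟨q, q0, q1, qX⟩ := hu
  have h := pl_pth_join q (A := Set.univ) (X := X) (fun i _ => Or.inl (mem_univ _)) (fun x hx => qX x hx) (Nat.zero_le q.n) le_rfl
  rw [q0, q1] at h
  obtain ⟨p, p0, p1, pX, -⟩ := pl_pth_of_join (T := T) (A := Set.univ) (X := X) (a := a) (b := v) ⟨h.1, h.2.tail ⟨⟨d, Or.inl (mem_univ _), hs, ht⟩, hv⟩⟩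
  exact ⟨p, p0, p1, fun x hx => pX hx⟩

theorem pvn1c_yr0 {v : V} (hv : v ∈ 𝔇.Yr0 pos π) (hS : pos v ∉ S) : v ∈ 𝔇.Yr0 pos (pvn1cPat π S) :=
  ⟨hv.1, fun h => h.elim hv.2 hS⟩

/-- a site of `YC0(π)` which is not over `S` is a site of `YC0` of the enlarged pattern -/
theorem pvn1c_yc0 {v : V} (hv : v ∈ 𝔇.YC0 pos π) (hS : pos v ∉ S) : v ∈ 𝔇.YC0 pos (pvn1cPat π S) := by
  obtain ⟨a, ha, hc⟩ := hv
  have d₀ : D := 𝔇.t.dp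
  obtain ⟨h0, hw⟩ := pvwc_comp_walk hc
  clear hc
  have hsub : ∀ u, u ∈ pvwComp T (𝔇.Yr0 pos π) a → u ∈ 𝔇.Yr0 pos π := by
    rintro u ⟨q, -, h1, hX⟩
    exact hX u ⟨q.n, le_rfl, h1⟩
  have self : ∀ u, u ∈ 𝔇.Yr0 pos (pvn1cPat π S) → u ∈ pvwComp T (𝔇.Yr0 pos (pvn1cPat π S)) u := fun u hu =>
    ⟨PvMap.Pth.nil T u d₀, rfl, rfl, by rintro y ⟨i, -, rfl⟩; exact hu⟩
  revert hS
  induction hw with
  | refl =>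
    intro hS
    refine ⟨a, ?_, self a (pvn1c_yr0 (hsub a h0) hS)⟩
    rcases ha with h | h | ⟨w, hw, hadj⟩
    · exact Or.inl h
    · exact Or.inr (Or.inl h)
    · exact Or.inr (Or.inr ⟨w, Or.inl hw, hadj⟩)
  | @tail u w _ huw ih =>
    intro hS
    have hw1 : w ∈ 𝔇.Yr0 pos (pvn1cPat π S) := pvn1c_yr0 (hsub w huw.2) hS
    by_cases hu : pos u ∈ S
    · exact ⟨w, Or.inr (Or.inr ⟨u, Or.inr hu, T.adj_symm huw.1⟩), self w hw1⟩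
    · obtain ⟨a₁, ha₁, hc₁⟩ := ih hu
      obtain ⟨d, e1, e2⟩ := huw.1
      exact ⟨a₁, ha₁, pvn1c_comp_adj hc₁ d e1 e2 hw1⟩

/-- **`NU` OF THE ENLARGED PATTERN LIES IN `NU`** -/
theorem pvn1c_nu_sub : 𝔇.NU pos (pvn1cPat π S) ⊆ 𝔇.NU pos π := fun v hv =>
  ⟨fun hc => hv.1 (pvn1c_yc0 hc fun hS => hv.2 (Or.inr hS)), fun hc => hv.2 (Or.inl hc)⟩

theorem pvn1c_nu_off {v : V} (hv : v ∈ 𝔇.NU pos (pvn1cPat π S)) : pos v ∉ S := fun hS => hv.2 (Or.inr hS)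

/-- a site of `YC0` is fresh for `D_Y` and lies over `Yin` -/
theorem pvn1c_yc0_raw {π : PvwPat} {v : V} (hv : v ∈ 𝔇.YC0 pos π) : v ∉ 𝔇.fzY ∧ pos v ∈ π.Yin := by
  obtain ⟨a, -, q, -, h1, hX⟩ := hv
  exact (hX v ⟨q.n, le_rfl, h1⟩).1

variable {N : PvwNum} {h : ℝ}

/-- well formed for the enlarged pattern `⟹` well formed for the pattern -/
theorem pvn1c_ok_down (hok : 𝔇.Ok pos N h (pvn1cPat π S)) : 𝔇.Ok pos N h π :=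
  ⟨hok.st_s, hok.st_t, hok.tip_s, hok.tip_t, hok.g0, hok.g1, hok.pos_n, hok.out, hok.off, hok.disj, fun v hv => pvn1c_nu_sub (hok.off_y v hv), hok.tip_f, hok.cons_b, hok.cons_w, hok.cons_a, hok.core_off⟩

/-- **well formed for the pattern, frozen sites off `S`, `Pvn1cC` `⟹` well formed for the enlarged pattern** -/
theorem pvn1c_ok_up (hok : 𝔇.Ok pos N h π) (hf : ∀ v ∈ 𝔇.fz, pos v ∉ S) (hC : Pvn1cC 𝔇 pos (pvn1cPat π S)) : 𝔇.Ok pos N h (pvn1cPat π S) := by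
  refine ⟨hok.st_s, hok.st_t, hok.tip_s, hok.tip_t, hok.g0, hok.g1, hok.pos_n, hok.out, hok.off, hok.disj, fun v hv => ?_, hok.tip_f, hok.cons_b, hok.cons_w, hok.cons_a, hok.core_off⟩
  have hfz : v ∈ 𝔇.fz := by
    rcases hv with hv | hv
    · exact Or.inl (Or.inr hv)
    · exact Or.inr hv
  by_cases hY : v ∈ 𝔇.fzY
  · exact ⟨fun hc => (pvn1c_yc0_raw hc).1 hY, fun hc => hc.elim (hok.off_y v hv).2 (hf v hfz)⟩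
  · exact hC v hfz hY

theorem pvn1c_C_of_ok (hok : 𝔇.Ok pos N h (pvn1cPat π S)) : Pvn1cC 𝔇 pos (pvn1cPat π S) := by
  rintro v ((hv | hv) | hv) hY
  · exact absurd hv hY
  · exact hok.off_y v (Or.inl hv)
  · exact hok.off_y v (Or.inr hv)

/-- a site which is neither over `Yin` nor over the enlarged collar is in `NU` -/
theorem pvn1c_nu_of_pos {π : PvwPat} {v : V} (h1 : pos v ∉ π.Yin) (h2 : pos v ∉ π.Ycol) : v ∈ 𝔇.NU pos π :=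
  ⟨fun hc => h1 (pvn1c_yc0_raw hc).2, h2⟩

theorem pvn1c_wf (hW : π.Wf) (hS : Disjoint S π.Yout) : (pvn1cPat π S).Wf :=
  ⟨hW.disj, by show Disjoint (π.Ycol ∪ S) π.Yout; exact Set.disjoint_union_left.2 ⟨hW.col, hS⟩, hW.in_sub, hW.out_sub⟩

/-- `WO` does not read the collar -/
theorem pvn1c_WO {σ : V → Bool} : 𝔇.WO pos (pvn1cPat π S) σ ↔ 𝔇.WO pos π σ := Iff.rfl

theorem pvn1c_W {x : ℂ} {R : ℝ} {σ : V → Bool} : PvhqW 𝔇 pos (pvn1cPat π S) x R σ ↔ PvhqW 𝔇 pos π x R σ := Iff.rfl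

/-- (C1) is free: `E` at the pattern gives `E` at the enlarged pattern -/
theorem pvn1c_E_of {x : ℂ} {R : ℝ} {σ : V → Bool} (hE : PvhqE 𝔇 pos π x R σ) : PvhqE 𝔇 pos (pvn1cPat π S) x R σ :=
  ⟨pvc4_nbon_mono 𝔇 (M := pvhqM 𝔇 pos (pvn1cPat π S) x R) (M' := pvhqM 𝔇 pos π x R) (fun v hv => ⟨pvn1c_nu_sub hv.1, hv.2⟩) hE.1, hE.2⟩

end free

/-! ## 2. the kit -/

section loc

variable {V D V' D' : Type} {T : PvMap V D} {T' : PvMap V' D'} {Rl : D → D' → Prop} {pos : V → ℂ} {pos' : V' → ℂ} {Kr : Set ℂ} {𝔇 : PvwDat T} {𝔇' : PvwDat T'} {π : PvwPat} {x : ℂ} {ρ : ℝ}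

/-- the sites which `E(D)` reads correspond -/
theorem pvn1c_loc_M (L : PvLocP T T' Rl pos pos' Kr) (G : PvLocDat Rl 𝔇 𝔇') (hcol : ∀ z, z ∉ π.Ycol → z ∈ Kr) (hfz : ∀ v ∈ 𝔇.fz, pos v ∈ Kr) :
    PvLocSet T T' Rl (pvhqM 𝔇 pos π x ρ) (pvhqM 𝔇' pos' π x ρ) := by
  constructor
  · intro v hv
    obtain ⟨v', k1⟩ := pvlw_vertex L (hcol _ hv.1.2)
    exact ⟨v', k1, (pvhq_loc_M L G hcol hfz k1).1 hv⟩
  · intro v' hv'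
    obtain ⟨v, k1⟩ := pvlw_vertex L.symm (hcol _ hv'.1.2)
    exact ⟨v, pvloc_v_symm k1, (pvhq_loc_M L G hcol hfz (pvloc_v_symm k1)).2 hv'⟩

/-- **the read sites correspond** -/
theorem pvn1c_loc_N (L : PvLocP T T' Rl pos pos' Kr) (G : PvLocDat Rl 𝔇 𝔇') (hW : π.Wf) (hcol : ∀ z, z ∉ π.Ycol → z ∈ Kr) (hann : ∀ z ∈ π.Ycol, ‖z - x‖ ≤ 5 * ρ) (hfz : ∀ v ∈ 𝔇.fz, pos v ∈ Kr) :
    PvLocSet T T' Rl (pvhqN 𝔇 pos π x ρ) (pvhqN 𝔇' pos' π x ρ) :=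
  (((pvhq_loc_fz L G fun k hk => hfz _ (Or.inl (Or.inr ⟨k, hk, rfl⟩))).union (pvn1c_loc_M L G hcol hfz)).union
    (pvlw_set_pos L (A := π.Yout) fun z hz => hcol z fun hc => Set.disjoint_left.1 hW.col hc hz)).union
    (pvlw_set_pos L (A := {z | 5 * ρ < ‖z - x‖ ∧ ‖z - x‖ ≤ 6 * ρ}) fun z hz => hcol z fun hc => absurd (hann z hc) (not_le.2 hz.1))

end loc

section kit

/-- the pattern at which the kit is run: the collar is enlarged by the `3r`-neighbourhood of the resampled region -/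
def pvn1cP (π₀ : PvwPat) (C : Set ℂ) (r : ℝ) : PvwPat := pvn1cPat π₀ (pvgeFar C r)ᶜ

/-- **THE KIT**: the events of record of 27 (`Tr/StabE`) at the enlarged pattern, `off_y` at the enlarged pattern in `E` and `W`, a free colour free guard `Rg` in `E` -/
noncomputable def pvn1cKit (x : ℂ) (R : ℝ) (π₀ : PvwPat) (C : Set ℂ) (r : ℝ) (q : ℝ≥0∞) (Rg : ∀ Y : Set ℂ, PvwDat (delbPl Y).toMap → Prop) : PvxnKit where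
  C := C
  r := r
  E Y 𝔇 σ := PvhqE 𝔇 Subtype.val (pvn1cP π₀ C r) x R σ ∧ Pvn1cC 𝔇 Subtype.val (pvn1cP π₀ C r) ∧ Rg Y 𝔇
  W _ 𝔇 σ := PvhqW 𝔇 Subtype.val (pvn1cP π₀ C r) x R σ ∧ Pvn1cC 𝔇 Subtype.val (pvn1cP π₀ C r)
  N _ 𝔇 := pvhqN 𝔇 Subtype.val (pvn1cP π₀ C r) x R
  B := Metric.closedBall x (6 * R)
  mB := Metric.isClosed_closedBall.measurableSet
  q := q

theorem pvn1c_kit_cite : True := by
  have := @pvn1cP.eq_1; have := @pvn1cKit.eq_1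
  trivial

/-- off the enlarged collar everything is far from `C`: BY CONSTRUCTION -/
theorem pvn1c_hcol (π₀ : PvwPat) (C : Set ℂ) (r : ℝ) : ∀ z, z ∉ (pvn1cP π₀ C r).Ycol → z ∈ pvgeFar C r :=
  fun z hz => not_not.1 fun hn => hz (Or.inr hn)

variable {τ : Type} {c : ℝ} (𝔓 : PvxPar τ c) (x : ℂ) (R : ℝ) (m : ℕ) (π : PvxIx τ) (a : ℂ) (π₀ : PvwPat) (C : Set ℂ) (r : ℝ) (q : ℝ≥0∞) (Rg : ∀ Y : Set ℂ, PvwDat (delbPl Y).toMap → Prop)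

/-- **the field `E_mono` of `PvxnOk`, VERBATIM** -/
theorem pvn1c_E_mono : ∀ (Y : Set ℂ) (𝔇 : PvwDat (delbPl Y).toMap) (σ σ' : ↥Y → Bool), DelGood Y → 𝔇.Ok Subtype.val 𝔓.num (pvlmH m) (𝔓.reg m π) → σ ∈ 𝔇.Cyl →
    (∀ v ∈ 𝔇.fz, σ' v = σ v) → (∀ v ∈ (pvn1cKit x R π₀ C r q Rg).N Y 𝔇, σ' v ≤ σ v) → (pvn1cKit x R π₀ C r q Rg).E Y 𝔇 σ → (pvn1cKit x R π₀ C r q Rg).E Y 𝔇 σ' :=
  fun _ _ _ _ _ _ _ _ h hE => ⟨pvhq_E_anti (fun v hv => h v (pvhq_M_sub_N hv)) hE.1, hE.2⟩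

/-- **the field `W_mono` of `PvxnOk`, VERBATIM** -/
theorem pvn1c_W_mono : ∀ (Y : Set ℂ) (𝔇 : PvwDat (delbPl Y).toMap) (σ σ' : ↥Y → Bool), DelGood Y → 𝔇.Ok Subtype.val 𝔓.num (pvlmH m) (𝔓.reg m π) → σ ∈ 𝔇.Cyl →
    (∀ v ∈ 𝔇.fz, σ' v = σ v) → (∀ v ∈ (pvn1cKit x R π₀ C r q Rg).N Y 𝔇, σ' v ≤ σ v) → (pvn1cKit x R π₀ C r q Rg).W Y 𝔇 σ → (pvn1cKit x R π₀ C r q Rg).W Y 𝔇 σ' :=
  fun _ _ _ _ _ _ _ _ h hW => ⟨pvhq_W_anti h hW.1, hW.2⟩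

/-- **the field `uni` of `Pvn1bKit`, VERBATIM** -/
theorem pvn1c_uni : ∀ (Y : Set ℂ) (i : PvxnIx) (σ : ↥Y → Bool) (𝔇 𝔇' : PvwDat (delbPl Y).toMap), DelGood Y → PvxnWit 𝔓 m π a (pvn1cKit x R π₀ C r q Rg) Y i σ 𝔇 →
    PvxnWit 𝔓 m π a (pvn1cKit x R π₀ C r q Rg) Y i σ 𝔇' → ∀ τ' : ↥Y → Bool, (pvn1cKit x R π₀ C r q Rg).W Y 𝔇' τ' → (pvn1cKit x R π₀ C r q Rg).W Y 𝔇 τ' := by
  intro Y i σ 𝔇 𝔇' hY h h' τ' hW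
  have hs := pvhq_same (pvmo_sph hY) (pvmo_simple Y) Subtype.val_injective h.ok h'.ok h.cyl h'.cyl
  have hfz : 𝔇.fz = 𝔇'.fz := Subtype.val_injective.image_injective (h.labF.trans h'.labF.symm)
  refine ⟨(hs.W hfz).2 hW.1, fun v hv hY' => ?_⟩
  have e := hs.NU Subtype.val (pvn1cP π₀ C r)
  exact (Set.ext_iff.1 e v).2 (hW.2 v (hfz ▸ hv) (hs.fzY ▸ hY'))

theorem pvn1c_sub (Y : Set ℂ) (𝔇 : PvwDat (delbPl Y).toMap) : 𝔇.fz ⊆ (pvn1cKit x R π₀ C r q Rg).N Y 𝔇 := pvhq_fz_sub_N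

end kit

/-! ## 3. `rd` -/

section glue

variable {τ : Type} {c : ℝ} (𝔓 : PvxPar τ c) (m : ℕ) (π : PvxIx τ) (a : ℂ) (𝔎 : PvxnKit)

/-- **THE KIT IS CARRIED OVER BY TWINS** (the glue of 29, `PvrdTw`; here a twin is asked only for the data with the colour free clause `Cd`, which `E` and `W` imply) -/
structure Pvn1cTw (Cd : ∀ Y : Set ℂ, PvwDat (delbPl Y).toMap → Prop) (Tw : ∀ Y Y' : Set ℂ, PvwDat (delbPl Y).toMap → PvwDat (delbPl Y').toMap → Prop) : Prop where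
  cE : ∀ (Y : Set ℂ) (𝔇 : PvwDat (delbPl Y).toMap) (σ : ↥Y → Bool), 𝔎.E Y 𝔇 σ → Cd Y 𝔇
  cW : ∀ (Y : Set ℂ) (𝔇 : PvwDat (delbPl Y).toMap) (σ : ↥Y → Bool), 𝔎.W Y 𝔇 σ → Cd Y 𝔇
  ex : ∀ Y Y', PvrdSit Y Y' 𝔎.C 𝔎.r → ∀ (i : PvxnIx) (σ : ↥Y → Bool) (σ' : ↥Y' → Bool), PvrdCol 𝔎.C σ σ' → ∀ 𝔇, PvxnWit 𝔓 m π a 𝔎 Y i σ 𝔇 → Cd Y 𝔇 →
    ∃ 𝔇', Tw Y Y' 𝔇 𝔇' ∧ PvxnWit 𝔓 m π a 𝔎 Y' i σ' 𝔇'
  E : ∀ Y Y', PvrdSit Y Y' 𝔎.C 𝔎.r → ∀ (σ : ↥Y → Bool) (σ' : ↥Y' → Bool), PvrdCol 𝔎.C σ σ' → ∀ 𝔇 𝔇', Tw Y Y' 𝔇 𝔇' → 𝔎.E Y 𝔇 σ → 𝔎.E Y' 𝔇' σ'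
  W : ∀ Y Y', PvrdSit Y Y' 𝔎.C 𝔎.r → ∀ (σ : ↥Y → Bool) (σ' : ↥Y' → Bool), PvrdCol 𝔎.C σ σ' → ∀ 𝔇 𝔇', Tw Y Y' 𝔇 𝔇' → 𝔎.W Y 𝔇 σ → 𝔎.W Y' 𝔇' σ'

variable {𝔓 m π a 𝔎} {Cd : ∀ Y : Set ℂ, PvwDat (delbPl Y).toMap → Prop} {Tw : ∀ Y Y' : Set ℂ, PvwDat (delbPl Y).toMap → PvwDat (delbPl Y').toMap → Prop} {Y Y' : Set ℂ} {i : PvxnIx} {σ σ' : ℂ → Bool}

/-- `WO i` is carried over -/
theorem pvn1c_PW (hT : Pvn1cTw 𝔓 m π a 𝔎 Cd Tw) (H : PvrdSit Y Y' 𝔎.C 𝔎.r) (hσ : ∀ z ∉ 𝔎.C, σ z = σ' z) (h : PvxnPW 𝔓 m π a 𝔎 i Y σ) : PvxnPW 𝔓 m π a 𝔎 i Y' σ' := by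
  obtain ⟨-, 𝔇, hW, hWO⟩ := h
  obtain ⟨𝔇', ht, hW'⟩ := hT.ex Y Y' H i _ _ (pvrd_col_of hσ) 𝔇 hW (hT.cW _ _ _ hWO)
  exact ⟨H.symm.mesh, 𝔇', hW', hT.W Y Y' H _ _ (pvrd_col_of hσ) 𝔇 𝔇' ht hWO⟩

/-- `A i` is carried over -/
theorem pvn1c_PA (hT : Pvn1cTw 𝔓 m π a 𝔎 Cd Tw) (H : PvrdSit Y Y' 𝔎.C 𝔎.r) (hσ : ∀ z ∉ 𝔎.C, σ z = σ' z) (h : PvxnPA 𝔓 m π a 𝔎 i Y σ) : PvxnPA 𝔓 m π a 𝔎 i Y' σ' := by
  obtain ⟨-, ⟨𝔇, hW, hE, huni⟩, hq⟩ := h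
  obtain ⟨𝔇', ht, hW'⟩ := hT.ex Y Y' H i _ _ (pvrd_col_of hσ) 𝔇 hW (hT.cE _ _ _ hE)
  refine ⟨H.symm.mesh, ⟨𝔇', hW', hT.E Y Y' H _ _ (pvrd_col_of hσ) 𝔇 𝔇' ht hE, ?_⟩, ?_⟩
  · intro 𝔇₁' hW₁' τ' hw
    obtain ⟨𝔇₁, ht₁, hW₁⟩ := hT.ex Y' Y H.symm i _ _ (pvrd_col_of (Y := Y') (Y' := Y) fun z hz => (hσ z hz).symm) 𝔇₁' hW₁' (hT.cW _ _ _ hw)
    have h1 : 𝔎.W Y 𝔇₁ (pvrdPull τ') := hT.W Y' Y H.symm _ _ (pvrd_pull_col 𝔎.C τ').symm 𝔇₁' 𝔇₁ ht₁ hw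
    exact hT.W Y Y' H _ _ (pvrd_pull_col 𝔎.C τ') 𝔇 𝔇' ht (huni 𝔇₁ hW₁ _ h1)
  · refine le_trans hq (measure_mono fun κ hκ => ?_)
    refine pvn1c_PW hT H (fun z hz => ?_) hκ
    by_cases hF : z ∈ i.Fᶜ
    · rw [pvdm_ov_mem hF, pvdm_ov_mem hF]
    · rw [pvdm_ov_notMem hF, pvdm_ov_notMem hF, hσ z hz]

/-- **the two events under the splice**, one configuration -/
theorem pvn1c_spl (hT : Pvn1cTw 𝔓 m π a 𝔎 Cd Tw) (hr : 0 < 𝔎.r) {ζ ω₂ : Conf PvPt} (hg : DelGood (cfSites ζ)) (hg' : DelGood (cfSites ζ \ 𝔎.C ∪ cfSites ω₂ ∩ 𝔎.C)) (i : PvxnIx) :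
    (PvxnPA 𝔓 m π a 𝔎 i (cfSites (Conf.spl (pvdmU 𝔎.C) (ζ, ω₂))) (cfCol (Conf.spl (pvdmU 𝔎.C) (ζ, ω₂))) ↔ PvxnPA 𝔓 m π a 𝔎 i (cfSites ζ) (cfCol ζ)) ∧
    (PvxnPW 𝔓 m π a 𝔎 i (cfSites (Conf.spl (pvdmU 𝔎.C) (ζ, ω₂))) (cfCol (Conf.spl (pvdmU 𝔎.C) (ζ, ω₂))) ↔ PvxnPW 𝔓 m π a 𝔎 i (cfSites ζ) (cfCol ζ)) := by
  have hc := pvrd_spl_col 𝔎.C ζ ω₂
  have he : cfSites ζ \ 𝔎.C = cfSites (Conf.spl (pvdmU 𝔎.C) (ζ, ω₂)) \ 𝔎.C := by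
    rw [pvrd_spl_sites]
    ext z
    simp only [Set.mem_sdiff, mem_union, mem_inter_iff]
    tauto
  constructor
  · constructor
    · intro h
      have H := pvrd_spl_sit (ω₂ := ω₂) hr hg hg' ((pvge_collar_congr he).2 h.1)
      exact pvn1c_PA hT H.symm (fun z hz => (hc z hz).symm) h
    · intro h
      exact pvn1c_PA hT (pvrd_spl_sit hr hg hg' h.1) hc h
  · constructor
    · intro h
      have H := pvrd_spl_sit (ω₂ := ω₂) hr hg hg' ((pvge_collar_congr he).2 h.1)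
      exact pvn1c_PW hT H.symm (fun z hz => (hc z hz).symm) h
    · intro h
      exact pvn1c_PW hT (pvrd_spl_sit hr hg hg' h.1) hc h

/-- **THE FIELD `rd` FROM THE TWINS**, one kit, one `ε` -/
theorem pvn1c_rd_tw (hT : Pvn1cTw 𝔓 m π a 𝔎 Cd Tw) (hr : 0 < 𝔎.r) (𝔜 : PvxnYd) (ε : ℝ) : ∀ Y, (pvxnSys 𝔓 m π a 𝔎 𝔜 ε).Ok Y → ∀ σ, ∀ᵐ ω₂ ∂pvP ε, ∀ i,
    (Conf.spl (pvdmU 𝔎.C) (cfOf Y σ, ω₂) ∈ (pvxnSys 𝔓 m π a 𝔎 𝔜 ε).A i ↔ cfOf Y σ ∈ (pvxnSys 𝔓 m π a 𝔎 𝔜 ε).A i) ∧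
    (Conf.spl (pvdmU 𝔎.C) (cfOf Y σ, ω₂) ∈ (pvxnSys 𝔓 m π a 𝔎 𝔜 ε).WO i ↔ cfOf Y σ ∈ (pvxnSys 𝔓 m π a 𝔎 𝔜 ε).WO i) := by
  intro Y hY σ
  filter_upwards [hY.2] with ω₂ hg' i
  exact pvn1c_spl hT hr (ζ := cfOf Y σ) (ω₂ := ω₂) (by rw [cfOf_sites]; exact hY.1) (by rw [cfOf_sites]; exact hg') i

end glue

section inst

/-- **WHAT THE REGIONS OWE TO `rd`** (no site, no colour).      NOTHING is asked of `Yin \ Ycol`. -/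
structure Pvn1cGeo (h : ℝ) (π₀ : PvwPat) (x : ℂ) (R : ℝ) (C : Set ℂ) (r : ℝ) : Prop where
  r0 : 0 < r
  wf : π₀.Wf
  /-- the two gate discs are far from `C` -/
  ks : Metric.closedBall π₀.zs (π₀.ts.b * h) ⊆ pvgeFar C r
  kt : Metric.closedBall π₀.zt (π₀.tt.b * h) ⊆ pvgeFar C r
  /-- the far half of the outer lane and the landing zones are far from `C` -/
  yout : π₀.Yout ⊆ pvgeFar C r
  /-- the `3r`-neighbourhood of `C` and the collared lanes lie in `closedBall x (5R)` -/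
  ann : ∀ z, 5 * R < ‖z - x‖ → z ∈ pvgeFar C r
  ycol : ∀ z ∈ π₀.Ycol, ‖z - x‖ ≤ 5 * R

variable {h : ℝ} {π₀ : PvwPat} {x : ℂ} {R : ℝ} {C : Set ℂ} {r : ℝ}

theorem Pvn1cGeo.wf1 (G : Pvn1cGeo h π₀ x R C r) : (pvn1cP π₀ C r).Wf :=
  pvn1c_wf G.wf (Set.disjoint_left.2 fun z hz hy => hz (G.yout hy))

theorem Pvn1cGeo.hann (G : Pvn1cGeo h π₀ x R C r) : ∀ z ∈ (pvn1cP π₀ C r).Ycol, ‖z - x‖ ≤ 5 * R := by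
  rintro z (hz | hz)
  · exact G.ycol z hz
  · exact not_lt.1 fun hlt => hz (G.ann z hlt)

theorem Pvn1cGeo.pat (G : Pvn1cGeo h π₀ x R C r) : PvrdPat h (pvn1cP π₀ C r) C r :=
  ⟨G.ks, G.kt, fun z hz => pvn1c_hcol π₀ C r z hz.2⟩

/-- **WHAT THE GUARD OWES TO `rd`**: it is carried over by the twins of the far instance -/
def Pvn1cRgTw (N : PvwNum) (h : ℝ) (π₀ : PvwPat) (C : Set ℂ) (r : ℝ) (Rg : ∀ Y : Set ℂ, PvwDat (delbPl Y).toMap → Prop) : Prop :=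
  ∀ Y Y', PvrdSit Y Y' C r → ∀ (𝔇 : PvwDat (delbPl Y).toMap) (𝔇' : PvwDat (delbPl Y').toMap), PvLocDat (pvrdR Y Y' C r) 𝔇 𝔇' → 𝔇.Ok Subtype.val N h (pvn1cP π₀ C r) →
    (∀ v ∈ 𝔇.fz, (v : ℂ) ∈ pvgeFar C r) → Rg Y 𝔇 → Rg Y' 𝔇'

/-- the twin relation -/
def Pvn1cT (N : PvwNum) (h : ℝ) (π₀ : PvwPat) (C : Set ℂ) (r : ℝ) (Y Y' : Set ℂ) (𝔇 : PvwDat (delbPl Y).toMap) (𝔇' : PvwDat (delbPl Y').toMap) : Prop :=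
  PvLocDat (pvrdR Y Y' C r) 𝔇 𝔇' ∧ 𝔇.Ok Subtype.val N h (pvn1cP π₀ C r) ∧ ∀ v ∈ 𝔇.fz, (v : ℂ) ∈ pvgeFar C r

theorem pvn1c_eqns_cite3 : True := by
  have := @Pvn1cRgTw.eq_1; have := @Pvn1cT.eq_1
  trivial

variable {τ : Type} {c : ℝ} {𝔓 : PvxPar τ c} {m : ℕ} {π : PvxIx τ} {q : ℝ≥0∞} {Rg : ∀ Y : Set ℂ, PvwDat (delbPl Y).toMap → Prop}

/-- **THE KIT IS CARRIED OVER BY THE TWINS OF THE FAR INSTANCE** -/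
theorem pvn1c_tw (G : Pvn1cGeo (pvlmH m) (𝔓.reg m π) x R C r) (hRg : Pvn1cRgTw 𝔓.num (pvlmH m) (𝔓.reg m π) C r Rg) (a : ℂ) :
    Pvn1cTw 𝔓 m π a (pvn1cKit x R (𝔓.reg m π) C r q Rg) (fun _ 𝔇 => Pvn1cC 𝔇 Subtype.val (pvn1cP (𝔓.reg m π) C r)) (Pvn1cT 𝔓.num (pvlmH m) (𝔓.reg m π) C r) where
  cE _ _ _ h := h.2.1
  cW _ _ _ h := h.2
  ex Y Y' H i σ σ' hσ 𝔇 hW hC := by
    have H' : PvrdSit Y Y' C r := H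
    have hf : ∀ v ∈ 𝔇.fz, (v : ℂ) ∈ pvgeFar C r := fun v hv => hW.far v (hW.sub hv)
    have ok1 : 𝔇.Ok Subtype.val 𝔓.num (pvlmH m) (pvn1cP (𝔓.reg m π) C r) := pvn1c_ok_up hW.ok (fun v hv => not_not.2 (hf v hv)) hC
    obtain ⟨𝔇', Gd⟩ := pvrd_twin H' G.pat ok1 hf
    have S := pvrd_share H' G.pat ok1 hf Gd a
    have hN : Subtype.val '' pvhqN 𝔇 Subtype.val (pvn1cP (𝔓.reg m π) C r) x R = Subtype.val '' pvhqN 𝔇' Subtype.val (pvn1cP (𝔓.reg m π) C r) x R :=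
      pvrd_set_img (pvn1c_loc_N H'.locP Gd G.wf1 (pvn1c_hcol _ C r) G.hann hf)
    refine ⟨𝔇', ⟨Gd, ok1, hf⟩, ⟨pvn1c_ok_down S.ok, pvlw_cyl H'.locP Gd (pvrd_h2 hf) (pvrd_col_rel H' hσ) hW.cyl, S.fz.symm.trans hW.labF, hN.symm.trans hW.labN, S.g.trans hW.labg, S.X.trans hW.labX, ?_, ?_, ?_, ?_, ?_⟩⟩
    · rw [← S.fzIn]; exact hW.hull_s
    · rw [← S.fzOut]; exact hW.hull_t
    · exact pvhq_fz_sub_N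
    · refine Set.Finite.of_finite_image (f := Subtype.val) ?_ Subtype.val_injective.injOn
      show (Subtype.val '' pvhqN 𝔇' Subtype.val (pvn1cP (𝔓.reg m π) C r) x R).Finite
      rw [← hN]
      exact hW.fin.image _
    · intro v' hv'
      have h1 : (v' : ℂ) ∈ Subtype.val '' pvhqN 𝔇 Subtype.val (pvn1cP (𝔓.reg m π) C r) x R := hN ▸ ⟨v', hv', rfl⟩
      obtain ⟨v, hv, e⟩ := h1
      exact e ▸ hW.far v hv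
  E Y Y' H σ σ' hσ 𝔇 𝔇' hT hE := by
    have H' : PvrdSit Y Y' C r := H
    exact ⟨pvhq_loc_E H'.locP hT.1 (pvn1c_hcol _ C r) hT.2.2 hT.2.1 (pvrd_col_rel H' hσ) hE.1, pvn1c_C_of_ok (pvrd_share H' G.pat hT.2.1 hT.2.2 hT.1 a).ok,
      hRg Y Y' H' 𝔇 𝔇' hT.1 hT.2.1 hT.2.2 hE.2.2⟩
  W Y Y' H σ σ' hσ 𝔇 𝔇' hT hW := by
    have H' : PvrdSit Y Y' C r := H
    exact ⟨pvhq_loc_W H'.locP (pvmo_sph H'.good) (pvmo_sph H'.good') hT.1 G.wf1 (pvn1c_hcol _ C r) G.hann hT.2.2 (pvrd_col_rel H' hσ) (pvhq_loc_fin H'.good'.lf x (6 * R)) hW.1,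
      pvn1c_C_of_ok (pvrd_share H' G.pat hT.2.1 hT.2.2 hT.1 a).ok⟩

/-- **THE FIELD `rd` OF `PvxnOk` AT THE KIT, VERBATIM** (a family of kits) -/
theorem pvn1c_rd {Cs : ℝ → Set ℂ} {rs : ℝ → ℝ} {Rgs : ℝ → ∀ Y : Set ℂ, PvwDat (delbPl Y).toMap → Prop}
    (G : ∀ᶠ ε in 𝓝[>] (0 : ℝ), Pvn1cGeo (pvlmH m) (𝔓.reg m π) x R (Cs ε) (rs ε)) (hRg : ∀ᶠ ε in 𝓝[>] (0 : ℝ), Pvn1cRgTw 𝔓.num (pvlmH m) (𝔓.reg m π) (Cs ε) (rs ε) (Rgs ε)) (a : ℂ) (𝔜 : PvxnYd) :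
    ∀ᶠ ε in 𝓝[>] (0 : ℝ), ∀ Y, (pvxnSys 𝔓 m π a (pvn1cKit x R (𝔓.reg m π) (Cs ε) (rs ε) q (Rgs ε)) 𝔜 ε).Ok Y → ∀ σ, ∀ᵐ ω₂ ∂pvP ε, ∀ i,
    (Conf.spl (pvdmU (pvn1cKit x R (𝔓.reg m π) (Cs ε) (rs ε) q (Rgs ε)).C) (cfOf Y σ, ω₂) ∈ (pvxnSys 𝔓 m π a (pvn1cKit x R (𝔓.reg m π) (Cs ε) (rs ε) q (Rgs ε)) 𝔜 ε).A i ↔
      cfOf Y σ ∈ (pvxnSys 𝔓 m π a (pvn1cKit x R (𝔓.reg m π) (Cs ε) (rs ε) q (Rgs ε)) 𝔜 ε).A i) ∧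
    (Conf.spl (pvdmU (pvn1cKit x R (𝔓.reg m π) (Cs ε) (rs ε) q (Rgs ε)).C) (cfOf Y σ, ω₂) ∈ (pvxnSys 𝔓 m π a (pvn1cKit x R (𝔓.reg m π) (Cs ε) (rs ε) q (Rgs ε)) 𝔜 ε).WO i ↔
      cfOf Y σ ∈ (pvxnSys 𝔓 m π a (pvn1cKit x R (𝔓.reg m π) (Cs ε) (rs ε) q (Rgs ε)) 𝔜 ε).WO i) := by
  filter_upwards [G, hRg] with ε h1 h2
  exact pvn1c_rd_tw (pvn1c_tw h1 h2 a) h1.r0 𝔜 ε

end inst

end Claimed.Agent.R289
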