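import Claimed.Agent.R289.Exit.ParGeo
import Claimed.Agent.R289.Defs.FitRec

/-!
# Row 289 (S0537), THE WALL, ROAD E, roof `cover`, file Exit/FitWf : `PvfhWf` AT THE PARAMETERS OF RECORD      (helper206; prefix `pvfhw_`)

`PvfhWf 𝔓` (209, `Defs/FitRec.lean`) = what FIT-DET (`pvfh_main`, `pvfh_cor`) asks from the parameters: regions of record, doors of record, `b ≤ 2 b₂`.
PAID HERE at `pvxParOf N hN c` of 73: `reg_eq` is `rfl` (`pvxrReg` of helper1), `doors` = `pvxr_doors_par` of helper1, `b_b2` from `PvxNums.Ok`.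
-/

set_option autoImplicit false

namespace Claimed.Agent.R289

/-- **`PvfhWf` at the parameters of record** -/
theorem pvfhw_par (N : PvxNums) (hN : N.Ok) (c : ℝ) : PvfhWf (pvxParOf N hN c) where
  reg_eq := fun _ _ => rfl
  doors := fun m => pvxr_doors_par (hN := hN) (c := c) m
  b_b2 := fun t => by
    show N.b1 ≤ 2 * N.b2
    linarith [hN.gap, hN.ab2, hN.ab1, hN.B_lt, hN.m_lt, hN.m_gt]
  b_gap := fun t => by
    show N.b1 + 2 ≤ 2 * N.b2
    linarith [hN.gap, hN.ab2, hN.ab1, hN.B_lt, hN.m_lt, hN.m_gt]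
  box2 := fun _ => by
    show N.b2 ≤ 2 * N.b2
    linarith [hN.gap, hN.ab2, hN.ab1, hN.B_lt, hN.m_lt, hN.m_gt]

end Claimed.Agent.R289
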