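-- KEEP
import Claimed.Agent.R289.Tr.FitFz
import Claimed.Agent.R289.Exit.N1B
import Claimed.Agent.R289.Exit.N1C

/-!
# Row 289 (S0537), THE WALL, ROAD E, file Exit/N1Junk : THE JUNK SPLIT OF `PvnaIn`      (helper209; prefix `pvjx_`, `Pvjx`)      0 sorry

WHY.   `pvxPatSet` reads the INDEX only.   An index with empty hulls `π.Zs = π.Zt = ∅` is allowed (`adm` and the last clause of `lk` are vacuous), and its corridor may run THROUGH a closed core disc `closedBall z (b h)`: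
a statement "no colour, no site" such as `PvknGeo.ks kt` (the core discs are far from the resampled region) is FALSE for such an index.      The discs are protected only by the hull EQUALITIES of `pvxFit` + the density of the sites.
CURE (nothing frozen moves).
* `PvjxGood 𝔓 m π`      the index is GOOD: every point of the two closed core discs is at distance `> 3 δ / 2` from the centres of all the cells of the corridor      (index only, no site; form `PvffzGap` of 274)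
* `pvjx_fit`      a fit on a sample whose sites are dense in the two discs (mesh `pvjxMu`) ⟹ the index is good
* `pvjx_triv`     no fit off an event of small probability ⟹ the TRIVIAL contract `PvxnIn` (`ι := Empty`, `H := 0`)
* **`pvjx_split`**    `(PvjxGood 𝔓 m π → Nonempty (PvxnIn 𝔓 x R m π a K)) → Nonempty (PvxnIn 𝔓 x R m π a K)`      so every sub-exit under `PvnaIn` may assume `PvjxGood 𝔓 m π`
* `PvjxGood.far`  the two discs lie in `pvgeFar C r` as soon as `C ⊆ pvfeTube κ ..`, `3 r ≤ (3/2 - κ) δ`      (= `ks kt` of `PvknGeo` for the part of `C` in the tube)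
* sec. 4, 5  THE REGIONS OF RECORD AGAINST ANY RESAMPLED REGION `C ⊆ Yin`, `C ≠ ∅` (no site, no colour) = the fields of `PvknGeo` v2 (29) / `Pvn1cGeo` (292):
             **`PvjxGood.far_in`** (`ks kt`), **`pvjx_yout`** (`yo`), `pvjx_yreg`, **`pvjx_ann`** (`cin`), `pvjx_reg5` (`yin ycol yout < 5R`), `pvjx_D_mouth`;   radius: `3 r ≤ δ / 10`;   **`pvjx_geo_c`** : `Pvn1cGeo` of 292 assembled
-/

set_option autoImplicit false

namespace Claimed.Agent.R289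

open MeasureTheory Filter Topology Set Metric Claims.C0465
open scoped ENNReal

section defs

variable {τ : Type} {c : ℝ} (𝔓 : PvxPar τ c) (m : ℕ) (π : PvxIx τ)

/-- the two closed core discs of an index -/
def pvjxD : Set ℂ := closedBall π.p.zs ((𝔓.ty π.p.ts).b * pvlmH m) ∪ closedBall π.p.zt ((𝔓.ty π.p.tt).b * pvlmH m)

/-- **THE INDEX IS GOOD**: the two closed core discs are far from the cells of the corridor (index only) -/
def PvjxGood : Prop := ∀ w ∈ pvjxD 𝔓 m π, PvffzGap (𝔓.Γ m) π.p (3 / 2 * (𝔓.Γ m).δ) w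

/-- the mesh asked in the two discs -/
noncomputable def pvjxMu : ℝ := min (pvlmDel c m / 8) (min ((𝔓.ty π.p.ts).b * pvlmH m / 4) ((𝔓.ty π.p.tt).b * pvlmH m / 4))

end defs

theorem pvjx_eqns_cite : True := by
  have := @pvjxD.eq_1; have := @PvjxGood.eq_1; have := @pvjxMu.eq_1
  trivial

/-! ## 1. density of the core sites -/

/-- a closed disc whose points are `μ`-close to sites: every point is `3 μ`-close to a site of the OPEN disc -/
theorem pvjx_dense {Y : Set ℂ} {z : ℂ} {ρ μ : ℝ} (hμ : 0 < μ) (hρ : 2 * μ ≤ ρ) (hd : VorDense Y (closedBall z ρ) μ) {w : ℂ} (hw : w ∈ closedBall z ρ) :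
    ∃ u ∈ Y, ‖u - z‖ < ρ ∧ ‖u - w‖ ≤ 3 * μ := by
  have hρ0 : 0 < ρ := by linarith
  have hwz : ‖w - z‖ ≤ ρ := mem_closedBall_iff_norm.1 hw
  set s : ℝ := 1 - 2 * μ / ρ with hs
  have hs0 : 0 ≤ s := by
    rw [hs, sub_nonneg, div_le_one hρ0]; exact hρ
  have hs1 : 0 ≤ 1 - s := by
    rw [hs]; have : 0 ≤ 2 * μ / ρ := by positivity
    linarith
  have e1 : ‖(z + (s : ℂ) * (w - z)) - z‖ ≤ ρ - 2 * μ := by
    rw [add_sub_cancel_left, norm_mul, Complex.norm_real, Real.norm_of_nonneg hs0]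
    calc s * ‖w - z‖ ≤ s * ρ := mul_le_mul_of_nonneg_left hwz hs0
      _ = ρ - 2 * μ := by rw [hs]; field_simp
  have e2 : ‖(z + (s : ℂ) * (w - z)) - w‖ ≤ 2 * μ := by
    have : (z + (s : ℂ) * (w - z)) - w = - (((1 - s : ℝ) : ℂ) * (w - z)) := by push_cast; ring
    rw [this, norm_neg, norm_mul, Complex.norm_real, Real.norm_of_nonneg hs1]
    calc (1 - s) * ‖w - z‖ ≤ (1 - s) * ρ := mul_le_mul_of_nonneg_left hwz hs1
      _ = 2 * μ := by rw [hs]; field_simp; ring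
  obtain ⟨u, hu, hle⟩ := hd (z + (s : ℂ) * (w - z)) (mem_closedBall_iff_norm.2 (by linarith))
  refine ⟨u, hu, ?_, ?_⟩
  · have : ‖u - z‖ ≤ ‖(z + (s : ℂ) * (w - z)) - u‖ + ‖(z + (s : ℂ) * (w - z)) - z‖ := by
      have := norm_sub_le ((z + (s : ℂ) * (w - z)) - z) ((z + (s : ℂ) * (w - z)) - u)
      rw [sub_sub_sub_cancel_left] at this
      linarith
    linarith
  · have : ‖u - w‖ ≤ ‖(z + (s : ℂ) * (w - z)) - u‖ + ‖(z + (s : ℂ) * (w - z)) - w‖ := by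
      have := norm_sub_le ((z + (s : ℂ) * (w - z)) - w) ((z + (s : ℂ) * (w - z)) - u)
      rw [sub_sub_sub_cancel_left] at this
      linarith
    linarith

/-! ## 2. a fit on a dense sample: the index is good -/

section fit

variable {τ : Type} {c : ℝ} {𝔓 : PvxPar τ c} {x : ℂ} {R : ℝ} {m : ℕ} {π : PvxIx τ}

theorem pvjx_mu_pos (hW : 𝔓.Wf) (m : ℕ) (π : PvxIx τ) : 0 < pvjxMu 𝔓 m π := by
  have hh := pvlm_H_pos m
  have b1 : 0 < (𝔓.ty π.p.ts).b := (hW.a0 _).trans (hW.ab _)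
  have b2 : 0 < (𝔓.ty π.p.tt).b := (hW.a0 _).trans (hW.ab _)
  exact lt_min (by have := pvlm_Del_pos c m; positivity) (lt_min (by positivity) (by positivity))

/-- **A DATUM WITH THE HULLS OF THE INDEX ON A DENSE SITE SET ⟹ THE INDEX IS GOOD** -/
theorem pvjx_dat (hW : 𝔓.Wf) (hF : PvfhWf 𝔓) (hfine : 32 * pvlmDel c m < 𝔓.num.rho * pvlmH m) (hπ : π ∈ pvxPatSet 𝔓 x R m) {Y : Set ℂ} {𝔇 : PvwDat (delbPl Y).toMap}
    (hok : 𝔇.Ok Subtype.val 𝔓.num (pvlmH m) (𝔓.reg m π)) {Bs Bt : Set ℂ}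
    (hZs : (π.Zs : Set (ℤ × ℤ)) = pvtCells (pvlmDel c m) (Subtype.val '' 𝔇.s.fzIn ∪ Bs)) (hZt : (π.Zt : Set (ℤ × ℤ)) = pvtCells (pvlmDel c m) (Subtype.val '' 𝔇.t.fzOut ∪ Bt))
    (hd : VorDense Y (pvjxD 𝔓 m π) (pvjxMu 𝔓 m π)) : PvjxGood 𝔓 m π := by
  have hμ := pvjx_mu_pos hW m π
  have h1 : pvjxMu 𝔓 m π ≤ pvlmDel c m / 8 := min_le_left _ _
  have h2 : pvjxMu 𝔓 m π ≤ (𝔓.ty π.p.ts).b * pvlmH m / 4 := (min_le_right _ _).trans (min_le_left _ _)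
  have h3 : pvjxMu 𝔓 m π ≤ (𝔓.ty π.p.tt).b * pvlmH m / 4 := (min_le_right _ _).trans (min_le_right _ _)
  have hok' := hok
  rw [hF.reg_eq] at hok'
  have gs := hok'.st_s.gate.dsc_eq
  have gt := hok'.st_t.gate.dsc_eq
  have key := pvffz_model_discs hW hF hfine hπ hok hZs hZt (μ := 3 * pvjxMu 𝔓 m π)
    (fun w hw => by
      obtain ⟨u, hu, a1, a2⟩ := pvjx_dense hμ (by linarith) (fun z hz => hd z (Or.inl hz)) hw
      refine ⟨⟨u, hu⟩, ?_, a2⟩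
      show (⟨u, hu⟩ : ↥Y) ∈ 𝔇.s.dsc
      rw [gs]
      exact a1)
    (fun w hw => by
      obtain ⟨u, hu, a1, a2⟩ := pvjx_dense hμ (by linarith) (fun z hz => hd z (Or.inr hz)) hw
      refine ⟨⟨u, hu⟩, ?_, a2⟩
      show (⟨u, hu⟩ : ↥Y) ∈ 𝔇.t.dsc
      rw [gt]
      exact a1)
  intro w hw
  refine (key w hw).mono ?_
  rw [hW.del m]
  linarith

/-- **A FIT ON A DENSE SAMPLE ⟹ THE INDEX IS GOOD** -/
theorem pvjx_fit (hW : 𝔓.Wf) (hF : PvfhWf 𝔓) (hfine : 32 * pvlmDel c m < 𝔓.num.rho * pvlmH m) (hπ : π ∈ pvxPatSet 𝔓 x R m) {ω : PVSample} {P : PvbRim} {s t : PvbPin τ}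
    (hfit : pvxFit 𝔓 x R m ω P s t π) (hd : VorDense (pvxY ω) (pvjxD 𝔓 m π) (pvjxMu 𝔓 m π)) : PvjxGood 𝔓 m π := by
  obtain ⟨-, -, -, -, 𝔇, j, hok, -, -, -, -, -, -, hZs, hZt⟩ := hfit
  exact pvjx_dat hW hF hfine hπ hok hZs hZt hd

/-- the same for a witness of `pvxnSys` -/
theorem pvjx_wit (hW : 𝔓.Wf) (hF : PvfhWf 𝔓) (hfine : 32 * pvlmDel c m < 𝔓.num.rho * pvlmH m) (hπ : π ∈ pvxPatSet 𝔓 x R m) {a : ℂ} {𝔎 : PvxnKit} {Y : Set ℂ} {i : PvxnIx} {σ : ↥Y → Bool}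
    {𝔇 : PvwDat (delbPl Y).toMap} (h : PvxnWit 𝔓 m π a 𝔎 Y i σ 𝔇) (hd : VorDense Y (pvjxD 𝔓 m π) (pvjxMu 𝔓 m π)) : PvjxGood 𝔓 m π :=
  pvjx_dat hW hF hfine hπ h.ok h.hull_s h.hull_t hd

/-- `ks kt` of `PvknGeo` for the part of the resampled region which lies in a tube of the corridor -/
theorem PvjxGood.far (hW : 𝔓.Wf) (hg : PvjxGood 𝔓 m π) {κ r : ℝ} {C : Set ℂ} (hne : C.Nonempty) (hC : C ⊆ pvfeTube κ (pvfeZ (𝔓.Γ m) π.p) (pvfeD (𝔓.Γ m) π.p) π.p.l)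
    (hr : 3 * r ≤ (3 / 2 - κ) * pvlmDel c m) : pvjxD 𝔓 m π ⊆ pvgeFar C r := by
  intro w hw
  refine (hg w hw).far (by rw [hW.del]; exact pvlm_Del_pos c m) hne hC ?_
  rw [hW.del m]
  linarith

end fit

/-! ## 3. the trivial contract -/

section triv

variable {τ : Type} {c : ℝ} {𝔓 : PvxPar τ c} {x : ℂ} {R : ℝ} {m : ℕ} {π : PvxIx τ} {a : ℂ} {K : ℝ → PVSample → ℂ}

/-- the system without data -/
noncomputable def pvjxSys : PvdmSys Empty where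
  Ok := fun _ => True
  C := ∅
  A := fun i => i.elim
  WO := fun i => i.elim
  frz := fun i => i.elim
  yf := fun i => i.elim
  X := fun i => i.elim
  yh := fun i => i.elim
  w := fun _ => 0
  Y := fun _ => 0
  H := fun _ => 0
  q := 1

theorem pvjx_sys_hyp (ε : ℝ) : pvjxSys.Hyp ε where
  ok_ae := Eventually.of_forall fun _ => trivial
  mC := MeasurableSet.empty
  mw := fun _ _ i => i.elim
  mY := fun _ _ i => i.elim
  mH := measurable_const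
  cnt := fun _ _ => Set.to_countable _
  fin := fun _ _ i => i.elim
  dis := fun _ _ i => i.elim
  stab := fun _ _ i => i.elim
  stabW := fun _ _ i => i.elim
  hq := fun _ _ i => i.elim
  rd := fun _ _ _ => Eventually.of_forall fun _ i => i.elim
  jen := fun _ _ i => i.elim
  dom := Eventually.of_forall fun _ => by simp [pvjxSys]

/-- **THE TRIVIAL CONTRACT**: off an event of small probability no arc fits the index -/
noncomputable def pvjxTriv (G : ℝ → Set (PvGeoT × PvColT)) (hG : Tendsto (fun ε => (pvhbUp ε).P (G ε)) (𝓝[>] (0 : ℝ)) (𝓝 0))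
    (hno : ∀ ε p, p ∉ G ε → ∀ (P : PvbRim) (s t : PvbPin τ), ¬ pvxFit 𝔓 x R m (pvMerge p) P s t π) : PvxnIn 𝔓 x R m π a K where
  ι := Empty
  S := fun _ => pvjxSys
  q := 1
  q0 := one_ne_zero
  hyp := Eventually.of_forall fun ε => ⟨pvjx_sys_hyp ε, le_rfl⟩
  tail := by
    simp only [pvjxSys, lintegral_zero]
    exact tendsto_const_nhds
  G := G
  geo := hG
  act := Eventually.of_forall fun ε p hp P _ s _ t _ hfit => absurd hfit (hno ε p hp P s t)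

theorem pvjx_D_bdd (𝔓 : PvxPar τ c) (m : ℕ) (π : PvxIx τ) : Bornology.IsBounded (pvjxD 𝔓 m π) := isBounded_closedBall.union isBounded_closedBall

/-- **THE JUNK SPLIT**: under `PvnaIn` every index may be assumed good -/
theorem pvjx_split (hW : 𝔓.Wf) (hF : PvfhWf 𝔓) (hfine : 32 * pvlmDel c m < 𝔓.num.rho * pvlmH m) (hπ : π ∈ pvxPatSet 𝔓 x R m)
    (H : PvjxGood 𝔓 m π → Nonempty (PvxnIn 𝔓 x R m π a K)) : Nonempty (PvxnIn 𝔓 x R m π a K) := by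
  by_cases hg : PvjxGood 𝔓 m π
  · exact H hg
  · exact ⟨pvjxTriv (fun _ => {p | ¬ VorDense (pvxY (pvMerge p)) (pvjxD 𝔓 m π) (pvjxMu 𝔓 m π)}) (pvn1b_dense_lim (pvjx_D_bdd 𝔓 m π) (pvjx_mu_pos hW m π))
      fun ε p hp P s t hfit => hg (pvjx_fit hW hF hfine hπ hfit (not_not.1 hp))⟩

/-- the junk split at the parameters of record -/
theorem pvjx_split_at {N : PvxNums} (hN : N.Ok) (c0 : 0 < c) (hm : N.m0 ≤ m) {π : PvxIx (pvxTau N)} (hπ : π ∈ pvxPatSet (pvxParOf N hN c) x R m)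
    (H : PvjxGood (pvxParOf N hN c) m π → Nonempty (PvxnIn (pvxParOf N hN c) x R m π a K)) : Nonempty (PvxnIn (pvxParOf N hN c) x R m π a K) :=
  pvjx_split (pvxo_wf N hN c) (pvfhw_par N hN c) (pvffz_fine_at hN c0 hm) hπ H

end triv

/-! ## 4. THE REGIONS OF RECORD AGAINST A RESAMPLED REGION `C ⊆ Yin`      (model free: `Defs/FitReg`) -/

section reg

variable {rI rO κ r : ℝ} {ys yt z d : ℂ} {l : List PvtTurn} {C : Set ℂ}

/-- `Yout` is far from a region inside `Yin` -/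
theorem pvjx_out_far (hne : C.Nonempty) (hC : C ⊆ pvfeIn rI ys yt z d l) (hr : 3 * r ≤ ‖d‖ / 10) : pvfeOut rI rO ys yt z d l ⊆ pvgeFar C r := by
  intro w hw
  show 3 * r ≤ infDist w C
  refine (le_infDist hne).2 fun u hu => ?_
  rw [dist_eq_norm]
  exact hr.trans (pvfe_in_out_far (hC hu) hw).le

/-- the complement of `Yreg` is far from a region inside `Yin` -/
theorem pvjx_body_far (hne : C.Nonempty) (hC : C ⊆ pvfeIn rI ys yt z d l) (h1 : 3 * r ≤ (κ - 1) * ‖d‖) (h2 : 3 * r ≤ rO + κ * ‖d‖ - rI) : (pvfeBody rO κ ys yt z d l)ᶜ ⊆ pvgeFar C r := by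
  intro w hw
  show 3 * r ≤ infDist w C
  refine (le_infDist hne).2 fun u hu => ?_
  rw [dist_eq_norm]
  have tri : ∀ a : ℂ, ‖w - a‖ ≤ ‖w - u‖ + ‖u - a‖ := fun a => by
    have := norm_add_le (w - u) (u - a)
    rwa [sub_add_sub_cancel] at this
  rcases hC hu with (hu | hu) | hu
  · obtain ⟨j, hj, hle⟩ := pvfe_mem_tube.1 (pvfe_lanes_sub_tube (κ := 1) (by norm_num) (by norm_num) le_rfl z d l hu)
    have hw' : κ * ‖d‖ < ‖w - pvccC z d l j‖ := by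
      by_contra hc
      exact hw (Or.inl (Or.inl (pvfe_mem_tube.2 ⟨j, hj, not_lt.1 hc⟩)))
    have := tri (pvccC z d l j)
    linarith
  · have hw' : rO + κ * ‖d‖ < ‖w - yt‖ := by
      by_contra hc
      exact hw (Or.inl (Or.inr (mem_closedBall_iff_norm.2 (not_lt.1 hc))))
    have := tri yt
    have := mem_closedBall_iff_norm.1 hu
    linarith
  · have hw' : rO + κ * ‖d‖ < ‖w - ys‖ := by
      by_contra hc
      exact hw (Or.inr (mem_closedBall_iff_norm.2 (not_lt.1 hc)))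
    have := tri ys
    have := mem_closedBall_iff_norm.1 hu
    linarith

end reg

/-! ## 5. the same at the model -/

section geo

variable {τ : Type} {c : ℝ} {𝔓 : PvxPar τ c} {x : ℂ} {R : ℝ} {m : ℕ} {π : PvxIx τ} {C : Set ℂ} {r : ℝ}

theorem pvjx_norm_D (hW : 𝔓.Wf) (m : ℕ) (π : PvxIx τ) : ‖pvfeD (𝔓.Γ m) π.p‖ = pvlmDel c m := by
  rw [pvfe_norm_D, hW.del, abs_of_pos (pvlm_Del_pos c m)]

/-- the sup norm is below the norm -/
theorem pvjx_N_le (y : ℂ) : pvccN y ≤ ‖y‖ := max_le (Complex.abs_re_le_norm y) (Complex.abs_im_le_norm y)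

/-- **a core disc against the mouth of its own pin**: `(2 - ρ/4) h` apart -/
theorem pvjx_own {h ρ b b2 A : ℝ} (h0 : 0 < h) (hb : b + 2 ≤ 2 * b2) (hA : 2 * b2 ≤ A) {y z w : ℂ} (hy : |pvccN y - A| ≤ ρ / 4) (hw : ‖w - z‖ ≤ b * h) :
    (2 - ρ / 4) * h ≤ ‖w - (z + (h : ℂ) * y)‖ := by
  have h1 : h * pvccN y ≤ ‖(h : ℂ) * y‖ := by
    rw [norm_mul, Complex.norm_real, Real.norm_of_nonneg h0.le]
    exact mul_le_mul_of_nonneg_left (pvjx_N_le y) h0.le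
  have h2 : ‖(h : ℂ) * y‖ ≤ ‖w - (z + (h : ℂ) * y)‖ + ‖w - z‖ := by
    have := norm_sub_le (w - z) (w - (z + (h : ℂ) * y))
    rw [show w - z - (w - (z + (h : ℂ) * y)) = (h : ℂ) * y by ring] at this
    linarith
  have h3 := (abs_le.1 hy).1
  nlinarith

/-- **a core disc against the mouth of the other pin**: `7 h` apart -/
theorem pvjx_other {h ρ b A rK rK' : ℝ} (h0 : 0 < h) (hρ : ρ ≤ 1) (hb : b * h ≤ rK') (hA : A * h ≤ rK) {y z z' w : ℂ} (hy : |pvccN y - A| ≤ ρ / 4) (hw : ‖w - z'‖ ≤ b * h)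
    (hsep : 2 * (rK' + rK) + 8 * h ≤ ‖z' - z‖) (hK' : 0 ≤ rK') : 7 * h ≤ ‖w - (z + (h : ℂ) * y)‖ := by
  have h1 : ‖(h : ℂ) * y‖ ≤ h * (2 * pvccN y) := by
    rw [norm_mul, Complex.norm_real, Real.norm_of_nonneg h0.le]
    exact mul_le_mul_of_nonneg_left (pvffz_norm_le_N y) h0.le
  have h2 : ‖z' - z‖ ≤ ‖w - z'‖ + ‖w - (z + (h : ℂ) * y)‖ + ‖(h : ℂ) * y‖ := by
    have a1 := norm_add_le (w - (z + (h : ℂ) * y) + (h : ℂ) * y) (-(w - z'))
    have a2 := norm_add_le (w - (z + (h : ℂ) * y)) ((h : ℂ) * y)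
    rw [show w - (z + (h : ℂ) * y) + (h : ℂ) * y + -(w - z') = z' - z by ring, norm_neg] at a1
    linarith
  have h3 := (abs_le.1 hy).2
  nlinarith

/-- **THE TWO CORE DISCS ARE `3 h / 2` AWAY FROM THE CENTRES OF THE TWO MOUTHS** -/
theorem pvjx_D_mouth (hW : 𝔓.Wf) (hF : PvfhWf 𝔓) (hπ : π ∈ pvxPatSet 𝔓 x R m) {w : ℂ} (hw : w ∈ pvjxD 𝔓 m π) :
    3 / 2 * pvlmH m ≤ ‖w - pvxYt 𝔓 m π.p‖ ∧ 3 / 2 * pvlmH m ≤ ‖w - pvxYs 𝔓 m π.p‖ := by
  have h0 := pvlm_H_pos m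
  have hρ0 := hW.rho0
  have hρ1 : 𝔓.num.rho ≤ 1 := by linarith [hW.rho1, hW.rho2, hW.rho3]
  have hr1 : 0 ≤ 𝔓.num.rho1 := by linarith [hW.rho1]
  have hsep := hπ.2.2.2.2.1.sep
  have hD := hF.doors m
  have radk : ∀ t : τ, (2 * (𝔓.ty t).b2 + (𝔓.ty t).k * 𝔓.num.rho1) * pvlmH m ≤ pvwRad 𝔓.num (pvlmH m) (𝔓.ty t) 𝔓.num.K := by
    intro t
    unfold pvwRad
    have h1 : ((𝔓.ty t).k : ℝ) ≤ 𝔓.num.K := Nat.cast_le.2 (hW.lev t)
    have h4 : ((𝔓.ty t).k : ℝ) * 𝔓.num.rho1 ≤ 𝔓.num.K * 𝔓.num.rho1 := mul_le_mul_of_nonneg_right h1 hr1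
    nlinarith
  have k0 : ∀ t : τ, 0 ≤ ((𝔓.ty t).k : ℝ) * 𝔓.num.rho1 := fun t => mul_nonneg (Nat.cast_nonneg _) hr1
  have radb : ∀ t : τ, (𝔓.ty t).b * pvlmH m ≤ pvwRad 𝔓.num (pvlmH m) (𝔓.ty t) 𝔓.num.K := by
    intro t
    refine le_trans ?_ (radk t)
    have := hF.b_b2 t
    have := k0 t
    nlinarith
  have rad0 : ∀ t : τ, 0 ≤ pvwRad 𝔓.num (pvlmH m) (𝔓.ty t) 𝔓.num.K := by
    intro t
    refine le_trans ?_ (radb t)
    exact mul_nonneg ((hW.a0 t).trans (hW.ab t)).le h0.le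
  rcases hw with hw | hw
  · rw [mem_closedBall_iff_norm] at hw
    constructor
    · have := pvjx_other (z := π.p.zt) h0 hρ1 (radb π.p.ts) (radk π.p.tt) (hD.nd_p π.p.tt) hw hsep (rad0 _)
      show _ ≤ ‖w - (π.p.zt + (pvlmH m : ℂ) * (𝔓.ty π.p.tt).yp)‖
      linarith
    · have := pvjx_own (z := π.p.zs) h0 (hF.b_gap π.p.ts) (by have := k0 π.p.ts; linarith) (hD.nd_m π.p.ts) hw
      show _ ≤ ‖w - (π.p.zs + (pvlmH m : ℂ) * (𝔓.ty π.p.ts).ym)‖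
      nlinarith
  · rw [mem_closedBall_iff_norm] at hw
    constructor
    · have := pvjx_own (z := π.p.zt) h0 (hF.b_gap π.p.tt) (by have := k0 π.p.tt; linarith) (hD.nd_p π.p.tt) hw
      show _ ≤ ‖w - (π.p.zt + (pvlmH m : ℂ) * (𝔓.ty π.p.tt).yp)‖
      nlinarith
    · have := pvjx_other (z := π.p.zs) h0 hρ1 (radb π.p.tt) (radk π.p.ts) (hD.nd_m π.p.ts) hw (by rw [norm_sub_rev]; linarith) (rad0 _)
      show _ ≤ ‖w - (π.p.zs + (pvlmH m : ℂ) * (𝔓.ty π.p.ts).ym)‖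
      linarith

/-- **(`ks kt`)** the two core discs are far from a region inside `Yin`, at a good index -/
theorem PvjxGood.far_in (hW : 𝔓.Wf) (hF : PvfhWf 𝔓) (hπ : π ∈ pvxPatSet 𝔓 x R m) (hg : PvjxGood 𝔓 m π) (hne : C.Nonempty) (hC : C ⊆ (𝔓.reg m π).Yin)
    (h1 : 3 * r ≤ pvlmDel c m / 2) (h2 : 3 * r ≤ pvlmH m) : pvjxD 𝔓 m π ⊆ pvgeFar C r := by
  rw [hF.reg_eq] at hC
  have h0 := pvlm_H_pos m
  have hρ1 : 𝔓.num.rho ≤ 1 := by linarith [hW.rho1, hW.rho2, hW.rho3]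
  intro w hw
  show 3 * r ≤ infDist w C
  refine (le_infDist hne).2 fun u hu => ?_
  rw [dist_eq_norm]
  have tri : ∀ a : ℂ, ‖w - a‖ ≤ ‖w - u‖ + ‖u - a‖ := fun a => by
    have := norm_add_le (w - u) (u - a)
    rwa [sub_add_sub_cancel] at this
  obtain ⟨m1, m2⟩ := pvjx_D_mouth hW hF hπ hw
  rcases hC hu with (hu | hu) | hu
  · have := (hg w hw).tube (κ := 1) (by rw [hW.del]; exact pvlm_Del_pos c m) (pvfe_lanes_sub_tube (κ := 1) (by norm_num) (by norm_num) le_rfl _ _ _ hu)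
    rw [hW.del] at this
    linarith
  · have a1 := mem_closedBall_iff_norm.1 hu
    have a2 := tri ((𝔓.ty π.p.tt).cp (pvlmH m) π.p.zt)
    have m1' : 3 / 2 * pvlmH m ≤ ‖w - (𝔓.ty π.p.tt).cp (pvlmH m) π.p.zt‖ := m1
    nlinarith
  · have a1 := mem_closedBall_iff_norm.1 hu
    have a2 := tri ((𝔓.ty π.p.ts).cm (pvlmH m) π.p.zs)
    have m2' : 3 / 2 * pvlmH m ≤ ‖w - (𝔓.ty π.p.ts).cm (pvlmH m) π.p.zs‖ := m2
    nlinarith

/-- **(`yo`)** `Yout` is far from a region inside `Yin` -/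
theorem pvjx_yout (hW : 𝔓.Wf) (hF : PvfhWf 𝔓) (hne : C.Nonempty) (hC : C ⊆ (𝔓.reg m π).Yin) (hr : 3 * r ≤ pvlmDel c m / 10) : (𝔓.reg m π).Yout ⊆ pvgeFar C r := by
  rw [hF.reg_eq] at hC ⊢
  exact pvjx_out_far hne hC (by rw [pvjx_norm_D hW]; exact hr)

/-- the complement of `Yreg` is far from a region inside `Yin` -/
theorem pvjx_yreg (hW : 𝔓.Wf) (hF : PvfhWf 𝔓) (hne : C.Nonempty) (hC : C ⊆ (𝔓.reg m π).Yin) (hr : 3 * r ≤ 2 * pvlmDel c m) : (𝔓.reg m π).Yregᶜ ⊆ pvgeFar C r := by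
  rw [hF.reg_eq] at hC ⊢
  have h0 := pvlm_H_pos m
  have hρ0 := hW.rho0
  have hδ := pvlm_Del_pos c m
  refine pvjx_body_far hne hC (by rw [pvjx_norm_D hW]; linarith) ?_
  rw [pvjx_norm_D hW]
  nlinarith [mul_pos hρ0 h0]

/-- **(`cin`)** everything at distance `≥ 5R` of `x` is far from a region inside `Yin`      ((b5) of TrModel v4.1) -/
theorem pvjx_ann (hW : 𝔓.Wf) (hF : PvfhWf 𝔓) (hπ : π ∈ pvxPatSet 𝔓 x R m) (hne : C.Nonempty) (hC : C ⊆ (𝔓.reg m π).Yin) (hr : 3 * r ≤ 2 * pvlmDel c m) {w : ℂ} (hw : 5 * R ≤ ‖w - x‖) :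
    w ∈ pvgeFar C r := by
  refine pvjx_yreg hW hF hne hC hr fun hY => ?_
  have := hπ.2.2.2.2.2 (Or.inl hY)
  rw [mem_ball_iff_norm] at this
  linarith

/-- the regions against the patch      ((b5) of TrModel v4.1) -/
theorem pvjx_reg5 (hW : 𝔓.Wf) (hπ : π ∈ pvxPatSet 𝔓 x R m) : (∀ w ∈ (𝔓.reg m π).Yin, ‖w - x‖ < 5 * R) ∧ (∀ w ∈ (𝔓.reg m π).Ycol, ‖w - x‖ < 5 * R) ∧ (∀ w ∈ (𝔓.reg m π).Yout, ‖w - x‖ < 5 * R) ∧
    ∀ w ∈ (𝔓.reg m π).Yreg, ‖w - x‖ < 5 * R := by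
  have h5 := hπ.2.2.2.2.2
  have wf := hW.reg_wf m π
  exact ⟨fun w hw => mem_ball_iff_norm.1 (h5 (Or.inl (wf.in_sub hw))), fun w hw => mem_ball_iff_norm.1 (h5 (Or.inr hw)), fun w hw => mem_ball_iff_norm.1 (h5 (Or.inl (wf.out_sub hw))),
    fun w hw => mem_ball_iff_norm.1 (h5 (Or.inl hw))⟩

/-- **`Pvn1cGeo` OF 292 AT THE MODEL**, for ANY non empty region `C ⊆ Yin` and any radius `0 < r`, `3 r ≤ δ / 10`, at a good index -/
theorem pvjx_geo_c (hW : 𝔓.Wf) (hF : PvfhWf 𝔓) (hfine : 32 * pvlmDel c m < 𝔓.num.rho * pvlmH m) (hπ : π ∈ pvxPatSet 𝔓 x R m) (hg : PvjxGood 𝔓 m π) (hne : C.Nonempty) (hC : C ⊆ (𝔓.reg m π).Yin)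
    (hr0 : 0 < r) (hr : 3 * r ≤ pvlmDel c m / 10) : Pvn1cGeo (pvlmH m) (𝔓.reg m π) x R C r := by
  have hδ := pvlm_Del_pos c m
  have h0 := pvlm_H_pos m
  have hρ1 : 𝔓.num.rho ≤ 1 := by linarith [hW.rho1, hW.rho2, hW.rho3]
  have hh : 3 * r ≤ pvlmH m := by nlinarith
  have hD := hg.far_in hW hF hπ hne hC (by linarith) hh
  refine ⟨hr0, hW.reg_wf m π, ?_, ?_, pvjx_yout hW hF hne hC hr, fun z hz => pvjx_ann hW hF hπ hne hC (by linarith) hz.le, fun z hz => ((pvjx_reg5 hW hπ).2.1 z hz).le⟩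
  · rw [hW.reg_zs, hW.reg_ts]
    exact fun w hw => hD (Or.inl hw)
  · rw [hW.reg_zt, hW.reg_tt]
    exact fun w hw => hD (Or.inr hw)

end geo

theorem pvjx_eqns_cite2 : True := by
  have := @pvjxSys.eq_1; have := @pvjxTriv.eq_1
  trivial

end Claimed.Agent.R289
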