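-- KEEP
import Claimed.Agent.R289.Exit.EngRec
import Claimed.Agent.R289.Tr.SimpleE

/-!
# Row 289 (S0537), THE WALL, ROAD E, node (4) `exit_pvie_in`, file Exit/N1XE : THE ENGINE OF RECORD AGAINST THE PATTERN      (helper184, post of 60 id 94808; prefix `pvnxe_`)

EVERYTHING AT   `𝔓 := pvxParOf N hN c`,   `𝔈 := pvnaEngRec N hN c nb` (`Exit/EngRec` of 124),   `0 < c`,   `N.m0 ≤ m` where a level is used.      0 sorry.
ROBUST: of the end regions `oM oK iM iK` ONLY the two records `PvzuEo`, `PvzuEi` of 148 are read (`pvnxe_eo`, `pvnxe_ei`: at the regions v2 `pvegOKa`, `pvegIKa` of 124 = EngAll v4, through `pvnr_oK pvnr_iK pvnr_O0`; v1.1: no `rfl` through the engine, the kernel timed out).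
* sec. 1  the hypotheses of 148 / 124 at the parameters of record: `pvnxe_wfB pvnxe_lev pvnxe_ty`, kit: `pvnxe_del`, `pvnxe_ref` (`∃ r, ∀ m ε, PvccKitRef ..`)
* sec. 2  (1) **`pvnxe_O_tenth`** : `(𝔈.kit m ε).O₀ ⊆ pvccSq 0 (δ_m / 10)`      (2) **`pvnxe_K_lane`** : `(𝔈.kit m ε).K₀ t ⊆ (δ_m * ·) '' pvfeLane (-(1/10)) (4/10) t`      (3) **`pvnxe_zero_O`** : `0 ∈ (𝔈.kit m ε).O₀`;
          `pvnxe_win` (`pvwSq 0 (3 δ_m / 40) ⊆ O₀`),   placed forms `pvnxe_door_sq` (a door region lies in the open square `δ_m / 10` round its centre, direction a fourth root of unity), `pvnxe_door_cen`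
* sec. 3  `pvnxe_eo`, `pvnxe_ei`;   (4) **`pvnxe_oK_ball`**, **`pvnxe_iK_ball`** : the placed end tiles lie in `closedBall y^± (ρ h_m / 2)`;   the same for the mouths `pvnxe_oM_ball pvnxe_iM_ball`;   tiles off the own-level boxes `pvnxe_oK_off pvnxe_iK_off`
* sec. 4  (5) **`pvnxe_clear`** = the conclusion of `pvzu_clear_pat` of 148 for every pattern of `pvxPatSet`;   `pvnxe_clear_cc` (the same for the union `pvieCc`);   **`pvnxe_simple`** (`PvieSimple` of every pattern)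
-/

set_option autoImplicit false

namespace Claimed.Agent.R289

open Set Metric Claims.C0465
open scoped ENNReal

section rec

variable {N : PvxNums} (hN : N.Ok) {c : ℝ} (nb : PvnaNb N)

/-! ## 1. the hypotheses of 148 and 124 at the objects of record -/

theorem pvnxe_wfB (c : ℝ) : (pvxParOf N hN c).WfB := (pvxo_wf N hN c).toWfB

theorem pvnxe_lev (c0 : 0 < c) {m : ℕ} (hm : N.m0 ≤ m) : PvegLev (pvxParOf N hN c) m := (pvea_par hN c0).lev hm

theorem pvnxe_ty (c : ℝ) (t : pvxTau N) : pviwTyOk (pvxParOf N hN c) t := pvea_tyOk hN t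

/-- the mesh of the cell kit -/
theorem pvnxe_del (m : ℕ) (ε : ℝ) : ((pvnaEngRec N hN c nb).kit m ε).δ = pvlmDel c m := (pvnr_num N hN c nb).kδ m ε

/-- the containment record of 166, one radius per level -/
theorem pvnxe_ref (c0 : 0 < c) : ∃ r : ℕ → ℝ, ∀ m ε, PvccKitRef ((pvnaEngRec N hN c nb).kit m ε) (r m) := by
  obtain ⟨_, r, _, hW⟩ := (pvnr_wf hN c0 nb).wf
  exact ⟨r, hW.kit_ref⟩

/-! ## 2. the regions of the cell kit -/

/-- **(1)** the region of a door plug lies in the open square of half side `δ_m / 10` -/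
theorem pvnxe_O_tenth (m : ℕ) (ε : ℝ) : ((pvnaEngRec N hN c nb).kit m ε).O₀ ⊆ pvccSq 0 (pvlmDel c m / 10) := by
  have hδ := pvlm_Del_pos c m
  rw [pvnr_kit_O]
  rintro _ ⟨w, hw, rfl⟩
  have h : pvccN (w - 0) < 1 / 10 := pvkgg_O_tenth hw
  rw [sub_zero] at h
  obtain ⟨h1, h2⟩ := max_lt_iff.1 h
  show pvccN (pvthSim 0 (pvlmDel c m) w - 0) < pvlmDel c m / 10
  simp only [pvthSim, zero_add, sub_zero, pvccN, Complex.re_ofReal_mul, Complex.im_ofReal_mul, abs_mul, abs_of_pos hδ]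
  exact max_lt (by nlinarith) (by nlinarith)

/-- **(2)** the tile of a cell lies in the lane of record of 209 -/
theorem pvnxe_K_lane (m : ℕ) (ε : ℝ) (t : PvtTurn) :
    ((pvnaEngRec N hN c nb).kit m ε).K₀ t ⊆ (fun w : ℂ => (pvlmDel c m : ℂ) * w) '' pvfeLane (-(1 / 10)) (4 / 10) t := by
  rw [pvnr_kit_K]
  rintro _ ⟨w, hw, rfl⟩
  exact ⟨w, pvkgg_lane_K t hw, by simp only [pvthSim, zero_add]⟩

/-- the mesh window of the door plug -/
theorem pvnxe_win (m : ℕ) (ε : ℝ) : pvwSq 0 (3 * (pvlmDel c m / 40)) ⊆ ((pvnaEngRec N hN c nb).kit m ε).O₀ := by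
  have hδ := pvlm_Del_pos c m
  have hne : (pvlmDel c m : ℂ) ≠ 0 := by exact_mod_cast hδ.ne'
  rw [pvnr_kit_O]
  rintro w ⟨h1, h2⟩
  simp only [sub_zero] at h1 h2
  refine ⟨w / (pvlmDel c m : ℂ), pvkgg_dp_win ⟨?_, ?_⟩, ?_⟩
  · simp only [sub_zero, Complex.div_ofReal_re, abs_div, abs_of_pos hδ]
    rw [div_le_iff₀ hδ]; linarith
  · simp only [sub_zero, Complex.div_ofReal_im, abs_div, abs_of_pos hδ]
    rw [div_le_iff₀ hδ]; linarith
  · simp only [pvthSim, zero_add]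
    field_simp

/-- **(3)** the centre of a door lies in its region -/
theorem pvnxe_zero_O (m : ℕ) (ε : ℝ) : (0 : ℂ) ∈ ((pvnaEngRec N hN c nb).kit m ε).O₀ := by
  have hδ := pvlm_Del_pos c m
  refine pvnxe_win hN nb m ε ⟨?_, ?_⟩ <;> simp only [sub_zero, Complex.zero_re, Complex.zero_im, abs_zero] <;> positivity

/-- the centre of a placed door lies in its region -/
theorem pvnxe_door_cen (m : ℕ) (ε : ℝ) (z d : ℂ) : z ∈ pvieDoor (pvnaEngRec N hN c nb) m ε z d :=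
  ⟨0, pvnxe_zero_O hN nb m ε, by simp only [pvthSim, mul_zero, add_zero]⟩

/-- a placed door region lies in the open square of half side `δ_m / 10` round its centre -/
theorem pvnxe_door_sq (m : ℕ) (ε : ℝ) (z : ℂ) {d : ℂ} (hd : d ^ 4 = 1) : pvieDoor (pvnaEngRec N hN c nb) m ε z d ⊆ pvccSq z (pvlmDel c m / 10) := by
  rintro _ ⟨w, hw, rfl⟩
  have h : pvccN (w - 0) < pvlmDel c m / 10 := pvnxe_O_tenth hN nb m ε hw
  rw [sub_zero] at h
  show pvccN (pvthSim z d w - z) < pvlmDel c m / 10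
  have e : pvthSim z d w - z = d * w := by simp only [pvthSim]; ring
  rw [e, pvccN_unit_mul hd]
  exact h

/-! ## 3. the end links -/

/-- the exit link of the engine of record is an end link (record of 148) -/
theorem pvnxe_eo (c0 : 0 < c) {m : ℕ} (hm : N.m0 ≤ m) (ε : ℝ) (t : pvxTau N) : PvzuEo (pvxParOf N hN c) (pvnaEngRec N hN c nb) m ε t := by
  obtain ⟨r, hr⟩ := pvnxe_ref hN nb c0
  exact pvzu_eo_of_a (O₀ := (pvnaInRec N hN c nb).O0) (pvnxe_lev hN c0 hm) (pvnxe_ty hN c t) (hr m ε) (pvnxe_del hN nb m ε)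
    ((pvnr_kit_O N hN c nb m ε).trans (pvnr_O0 N hN c nb m).symm) (pvnr_oM N hN c nb m t).le (pvnr_oK N hN c nb m t).le

/-- the entrance link of the engine of record is an end link -/
theorem pvnxe_ei (c0 : 0 < c) {m : ℕ} (hm : N.m0 ≤ m) (ε : ℝ) (t : pvxTau N) : PvzuEi (pvxParOf N hN c) (pvnaEngRec N hN c nb) m ε t := by
  obtain ⟨r, hr⟩ := pvnxe_ref hN nb c0
  exact pvzu_ei_of_a (O₀ := (pvnaInRec N hN c nb).O0) (pvnxe_lev hN c0 hm) (pvnxe_ty hN c t) (hr m ε) (pvnxe_del hN nb m ε)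
    ((pvnr_kit_O N hN c nb m ε).trans (pvnr_O0 N hN c nb m).symm) (pvnr_iM N hN c nb m t).le (pvnr_iK N hN c nb m t).le

/-- a shifted subset of a ball -/
theorem pvnxe_sh_ball {S : Set ℂ} {Y : ℂ} {r : ℝ} (h : S ⊆ closedBall Y r) (z : ℂ) : pvieSh z S ⊆ closedBall (z + Y) r := by
  rintro _ ⟨w, hw, rfl⟩
  have := mem_closedBall_iff_norm.1 (h hw)
  rw [mem_closedBall_iff_norm]
  simpa using this

/-- **(4)** the placed exit tile lies in the inner mouth `closedBall y⁺ (ρ h_m / 2)` -/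
theorem pvnxe_oK_ball (c0 : 0 < c) {m : ℕ} (hm : N.m0 ≤ m) (z : ℂ) (t : pvxTau N) :
    pvieSh z ((pvnaEngRec N hN c nb).oK m t) ⊆ closedBall (((pvxParOf N hN c).ty t).cp (pvlmH m) z) ((pvxParOf N hN c).num.rho * pvlmH m / 2) :=
  pvnxe_sh_ball (subset_union_right.trans (pvnxe_eo hN nb c0 hm 1 t).ball) z

/-- **(4)** the placed entrance tile lies in the inner mouth `closedBall y⁻ (ρ h_m / 2)` -/
theorem pvnxe_iK_ball (c0 : 0 < c) {m : ℕ} (hm : N.m0 ≤ m) (z : ℂ) (t : pvxTau N) :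
    pvieSh z ((pvnaEngRec N hN c nb).iK m t) ⊆ closedBall (((pvxParOf N hN c).ty t).cm (pvlmH m) z) ((pvxParOf N hN c).num.rho * pvlmH m / 2) :=
  pvnxe_sh_ball (subset_union_right.trans (pvnxe_ei hN nb c0 hm 1 t).ball) z

/-- the placed exit mouth lies in the inner mouth -/
theorem pvnxe_oM_ball (c0 : 0 < c) {m : ℕ} (hm : N.m0 ≤ m) (z : ℂ) (t : pvxTau N) :
    pvieSh z ((pvnaEngRec N hN c nb).oM m t) ⊆ closedBall (((pvxParOf N hN c).ty t).cp (pvlmH m) z) ((pvxParOf N hN c).num.rho * pvlmH m / 2) :=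
  pvnxe_sh_ball (subset_union_left.trans (pvnxe_eo hN nb c0 hm 1 t).ball) z

/-- the placed entrance mouth lies in the inner mouth -/
theorem pvnxe_iM_ball (c0 : 0 < c) {m : ℕ} (hm : N.m0 ≤ m) (z : ℂ) (t : pvxTau N) :
    pvieSh z ((pvnaEngRec N hN c nb).iM m t) ⊆ closedBall (((pvxParOf N hN c).ty t).cm (pvlmH m) z) ((pvxParOf N hN c).num.rho * pvlmH m / 2) :=
  pvnxe_sh_ball (subset_union_left.trans (pvnxe_ei hN nb c0 hm 1 t).ball) z

/-- the exit tile is off the own-level box with its collar -/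
theorem pvnxe_oK_off (c0 : 0 < c) {m : ℕ} (hm : N.m0 ≤ m) (t : pvxTau N) : Disjoint ((pvnaEngRec N hN c nb).oK m t) (pviwBox (pvxParOf N hN c) m t) :=
  (pvnxe_eo hN nb c0 hm 1 t).K_off

/-- the entrance tile is off the own-level box with its collar -/
theorem pvnxe_iK_off (c0 : 0 < c) {m : ℕ} (hm : N.m0 ≤ m) (t : pvxTau N) : Disjoint ((pvnaEngRec N hN c nb).iK m t) (pviwBox (pvxParOf N hN c) m t) :=
  (pvnxe_ei hN nb c0 hm 1 t).K_off

/-! ## 4. the chain of a pattern against the two hulls -/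

/-- **(5) THE RESAMPLED REGIONS OF THE CHAIN MISS THE FATTENED HULLS INSIDE THE TWO OWN-LEVEL BOXES** = the conclusion of `pvzu_clear_pat` of 148 at the objects of record -/
theorem pvnxe_clear (c0 : 0 < c) {m : ℕ} (hm : N.m0 ≤ m) (ε : ℝ) {x : ℂ} {R₀ : ℝ} {π : PvxIx (pvxTau N)} (hπ : π ∈ pvxPatSet (pvxParOf N hN c) x R₀ m) :
    ∀ S ∈ pvieTiles (pvxParOf N hN c) (pvnaEngRec N hN c nb) m ε π.p,
      Disjoint S (pvieSh π.p.zt (pviwBox (pvxParOf N hN c) m π.p.tt) ∩ pvtU (pvlmDel c m) (pvtN8 (↑π.Zs ∪ ↑π.Zt))) ∧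
      Disjoint S (pvieSh π.p.zs (pviwBox (pvxParOf N hN c) m π.p.ts) ∩ pvtU (pvlmDel c m) (pvtN8 (↑π.Zs ∪ ↑π.Zt))) := by
  obtain ⟨r, hr⟩ := pvnxe_ref hN nb c0
  exact pvzu_clear_pat_end (pvnxe_wfB hN c) (pvnxe_lev hN c0 hm) (hr m ε) (pvnxe_del hN nb m ε) (pvnxe_eo hN nb c0 hm ε) (pvnxe_ei hN nb c0 hm ε) hπ

/-- the same for the union of the resampled regions -/
theorem pvnxe_clear_cc (c0 : 0 < c) {m : ℕ} (hm : N.m0 ≤ m) (ε : ℝ) {x : ℂ} {R₀ : ℝ} {π : PvxIx (pvxTau N)} (hπ : π ∈ pvxPatSet (pvxParOf N hN c) x R₀ m) :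
    Disjoint (pvieCc (pvxParOf N hN c) (pvnaEngRec N hN c nb) m ε π.p) (pvieSh π.p.zt (pviwBox (pvxParOf N hN c) m π.p.tt) ∩ pvtU (pvlmDel c m) (pvtN8 (↑π.Zs ∪ ↑π.Zt))) ∧
    Disjoint (pvieCc (pvxParOf N hN c) (pvnaEngRec N hN c nb) m ε π.p) (pvieSh π.p.zs (pviwBox (pvxParOf N hN c) m π.p.ts) ∩ pvtU (pvlmDel c m) (pvtN8 (↑π.Zs ∪ ↑π.Zt))) := by
  have h := pvnxe_clear hN nb c0 hm ε hπ
  constructor
  · rw [Set.disjoint_left]
    rintro w ⟨S, hS, hw⟩ hb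
    exact Set.disjoint_left.1 (h S hS).1 hw hb
  · rw [Set.disjoint_left]
    rintro w ⟨S, hS, hw⟩ hb
    exact Set.disjoint_left.1 (h S hS).2 hw hb

/-- **the chain of every pattern is simple** -/
theorem pvnxe_simple (c0 : 0 < c) {m : ℕ} (hm : N.m0 ≤ m) (ε : ℝ) {x : ℂ} {R₀ : ℝ} {π : PvxIx (pvxTau N)} (hπ : π ∈ pvxPatSet (pvxParOf N hN c) x R₀ m) :
    PvieSimple (pvxParOf N hN c) (pvnaEngRec N hN c nb) m ε π.p := by
  obtain ⟨r, hr⟩ := pvnxe_ref hN nb c0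
  exact pvzu_simple_pat_end (pvnxe_wfB hN c) (pvnxe_lev hN c0 hm).del (pvnxe_lev hN c0 hm).doors (hr m ε) (pvnxe_del hN nb m ε) (pvnxe_eo hN nb c0 hm ε) (pvnxe_ei hN nb c0 hm ε) hπ

end rec

end Claimed.Agent.R289
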