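import Claimed.Agent.R289.Exit.N1B
import Claimed.Agent.R289.Tr.KitN1
import Claimed.Agent.R289.Defs.FitRec

/-!
# Row 289 (S0537), Exit/N1XG : THE REGIONS OF RECORD AGAINST A RESAMPLED REGION `C ⊆ Yin`      (helper60, pen of (X) by T16 of 24, (X2) by N1-A (6) of 170; prefix `pvnxg_`, `Pvnxg`)

EVERYTHING THE `X` SIDE ASKS FROM THE REGIONS, but the frozen sites of `D_Y` and the gate discs, follows from ONE inclusion **`C ⊆ Yin`** (213 `Exit/N1XC`) + `𝔓.reg = pvfeRegAt` (`PvfhWf`) + (b5) of `pvxPatSet` v4.1.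
* sec. 1  `pvnxg_far_of` (pointwise form of `pvgeFar`), **`pvnxg_in_body`** : `Yin^{+2δ} ⊆ Yreg` at the regions of record
* sec. 2  at the model (`hF : PvfhWf 𝔓`, `hC : C ⊆ Yin`, `C` nonempty): **`pvnxg_off_reg`** (within `μ` of a point off `Yreg`: far from `C`, off `Yin`; `μ + 3 r ≤ 2 δ`), `pvnxg_yout` (`3 r ≤ δ/10`), `pvnxg_ann`, `pvnxg_C_ball`, **`pvnxg_reg`** (`PvknReg`)
* sec. 3  a datum on a fine sample: `pvnxg_apx_near` (a right apex is within `μ` of a vertex of `g₀`), **`pvnxg_g_far`**, **`pvnxg_apx_far`**, **`pvnxg_apx_off`** (the vertices of `g₀` and the right apexes are far from `C`; the right apexes are off `Yin`)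
* sec. 4  **`pvnxg_fz_far`** : the frozen sites of `D_Y` are far from `C` from the clearance of 148 (`pvzu_clear_pat`, `Tr/SimpleE`), in the abstract form `PvnxgClear`.      0 sorry
-/

set_option autoImplicit false
set_option linter.unusedVariables false
set_option linter.unusedSectionVars false

namespace Claimed.Agent.R289

open MeasureTheory Filter Topology Set Metric Claims.C0465
open scoped ENNReal

/-! ## 1. pure geometry -/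

/-- the pointwise form of `pvgeFar` -/
theorem pvnxg_far_of {C : Set ℂ} {r : ℝ} (hne : C.Nonempty) {w : ℂ} (h : ∀ u ∈ C, 3 * r ≤ ‖w - u‖) : w ∈ pvgeFar C r :=
  (le_infDist hne).2 fun u hu => by rw [dist_eq_norm]; exact h u hu

theorem pvnxg_far_le {C : Set ℂ} {r : ℝ} {w u : ℂ} (hw : w ∈ pvgeFar C r) (hu : u ∈ C) : 3 * r ≤ ‖w - u‖ := by
  have h1 : 3 * r ≤ infDist w C := hw
  have h2 := infDist_le_dist_of_mem (x := w) hu
  rw [dist_eq_norm] at h2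
  linarith

/-- **`Yin^{+2‖d‖} ⊆ Yreg`** at the regions of record -/
theorem pvnxg_in_body {rI rO : ℝ} (hr : rI ≤ rO) {ys yt z d : ℂ} {l : List PvtTurn} {u w : ℂ} (hu : u ∈ pvfeIn rI ys yt z d l) (hw : ‖w - u‖ ≤ 2 * ‖d‖) : w ∈ pvfeBody rO 3 ys yt z d l := by
  have hd := norm_nonneg d
  have tri : ∀ y : ℂ, ‖w - y‖ ≤ ‖w - u‖ + ‖u - y‖ := fun y => by
    have e : w - y = (w - u) + (u - y) := by ring
    rw [e]; exact norm_add_le _ _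
  rcases hu with (hu | hu) | hu
  · obtain ⟨j, hj, hC⟩ := pvfe_mem_tube.1 (pvfe_lanes_sub_tube (κ := 1) (by norm_num) (by norm_num) le_rfl z d l hu)
    exact Or.inl (Or.inl (pvfe_mem_tube.2 ⟨j, hj, (tri _).trans (by linarith)⟩))
  · rw [mem_closedBall_iff_norm] at hu
    exact Or.inl (Or.inr (mem_closedBall_iff_norm.2 ((tri _).trans (by linarith))))
  · rw [mem_closedBall_iff_norm] at hu
    exact Or.inr (mem_closedBall_iff_norm.2 ((tri _).trans (by linarith)))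

/-! ## 2. at the model -/

section model

variable {τ : Type} {c : ℝ} {𝔓 : PvxPar τ c} {x : ℂ} {R : ℝ} {m : ℕ} {π : PvxIx τ} {C : Set ℂ} {r μ : ℝ}

theorem pvnxg_norm_D (hW : 𝔓.Wf) (m : ℕ) (p : PvtsPat τ) : ‖pvfeD (𝔓.Γ m) p‖ = pvlmDel c m := by
  rw [pvfe_norm_D, hW.del, abs_of_pos (pvlm_Del_pos c m)]

/-- a point of `Yin` and a point off `Yreg` are more than `2 δ` apart -/
theorem pvnxg_in_reg (hW : 𝔓.Wf) (hF : PvfhWf 𝔓) {u z : ℂ} (hu : u ∈ (𝔓.reg m π).Yin) (hz : z ∉ (𝔓.reg m π).Yreg) : 2 * pvlmDel c m < ‖z - u‖ := by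
  by_contra hc
  rw [not_lt] at hc
  rw [hF.reg_eq] at hu hz
  refine hz (pvnxg_in_body (rI := 𝔓.num.rho * pvlmH m / 2) (rO := 𝔓.num.rho * pvlmH m) ?_ hu (by rw [pvnxg_norm_D hW]; exact hc))
  have := mul_pos hW.rho0 (pvlm_H_pos m)
  linarith

/-- **WITHIN `μ` OF A POINT OFF `Yreg`**: far from `C`, off `Yin` -/
theorem pvnxg_off_reg (hW : 𝔓.Wf) (hF : PvfhWf 𝔓) (hne : C.Nonempty) (hC : C ⊆ (𝔓.reg m π).Yin) (hr : 0 ≤ r) (hμ : μ + 3 * r ≤ 2 * pvlmDel c m) {z w : ℂ} (hz : z ∉ (𝔓.reg m π).Yreg) (hw : ‖w - z‖ ≤ μ) :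
    w ∈ pvgeFar C r ∧ w ∉ (𝔓.reg m π).Yin := by
  have key : ∀ u ∈ (𝔓.reg m π).Yin, 3 * r < ‖w - u‖ := by
    intro u hu
    have h1 := pvnxg_in_reg hW hF hu hz
    have h2 : ‖z - u‖ ≤ ‖w - z‖ + ‖w - u‖ := by
      have e : z - u = -(w - z) + (w - u) := by ring
      rw [e]
      exact (norm_add_le _ _).trans (by rw [norm_neg])
    linarith
  refine ⟨pvnxg_far_of hne fun u hu => (key u (hC hu)).le, fun hin => ?_⟩
  have := key w hin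
  rw [sub_self, norm_zero] at this
  linarith

/-- the outer lanes and the landing zones are far from `C` -/
theorem pvnxg_yout (hW : 𝔓.Wf) (hF : PvfhWf 𝔓) (hne : C.Nonempty) (hC : C ⊆ (𝔓.reg m π).Yin) (hr : 3 * r ≤ pvlmDel c m / 10) : (𝔓.reg m π).Yout ⊆ pvgeFar C r := by
  intro w hw
  refine pvnxg_far_of hne fun u hu => ?_
  have hu' := hC hu
  rw [hF.reg_eq] at hu' hw
  have := pvfe_in_out_far hu' hw
  rw [pvnxg_norm_D hW] at this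
  linarith

/-- (b5) -/
theorem pvnxg_b5 (hπ : π ∈ pvxPatSet 𝔓 x R m) : (𝔓.reg m π).Yreg ∪ (𝔓.reg m π).Ycol ⊆ ball x (5 * R) := hπ.2.2.2.2.2

/-- everything outside the open ball `B(x, 5R)` is far from `C` -/
theorem pvnxg_ann (hW : 𝔓.Wf) (hF : PvfhWf 𝔓) (hπ : π ∈ pvxPatSet 𝔓 x R m) (hne : C.Nonempty) (hC : C ⊆ (𝔓.reg m π).Yin) (hr0 : 0 ≤ r) (hr : 3 * r ≤ 2 * pvlmDel c m) {z : ℂ} (hz : 5 * R ≤ ‖z - x‖) :
    z ∈ pvgeFar C r := by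
  refine (pvnxg_off_reg (μ := 0) hW hF hne hC hr0 (by linarith) (z := z) (fun h => ?_) (by simp)).1
  have := pvnxg_b5 hπ (Or.inl h)
  rw [mem_ball_iff_norm] at this
  linarith

/-- the resampled region lies in the open ball -/
theorem pvnxg_C_ball (hW : 𝔓.Wf) (hπ : π ∈ pvxPatSet 𝔓 x R m) (hC : C ⊆ (𝔓.reg m π).Yin) : C ⊆ ball x (5 * R) :=
  fun z hz => pvnxg_b5 hπ (Or.inl ((hW.reg_wf m π).in_sub (hC hz)))

/-- **the regions of the pattern against the patch** -/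
theorem pvnxg_reg (hW : 𝔓.Wf) (hR : 0 < R) (hπ : π ∈ pvxPatSet 𝔓 x R m) : PvknReg (𝔓.reg m π) x (5 * R) (6 * R) where
  wf := hW.reg_wf m π
  r12 := by linarith
  yin z hz := mem_ball_iff_norm.1 (pvnxg_b5 hπ (Or.inl ((hW.reg_wf m π).in_sub hz)))
  ycol z hz := mem_ball_iff_norm.1 (pvnxg_b5 hπ (Or.inr hz))
  yout z hz := by
    have := mem_ball_iff_norm.1 (pvnxg_b5 hπ (Or.inl ((hW.reg_wf m π).out_sub hz)))
    linarith

end model

/-! ## 3. `g₀` and its right apexes, on a fine sample -/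

section apx

variable {Y : Set ℂ} {x : ℂ} {ρ μ : ℝ}

/-- a right apex of `g₀` is within `μ` of a vertex of `g₀` -/
theorem pvnxg_apx_near (hf : L9Fine Y (closedBall x ρ) μ) {𝔇 : PvwDat (delbPl Y).toMap} (hg : ∀ v ∈ 𝔇.g.verts, ‖(v : ℂ) - x‖ ≤ ρ) {v : ↥Y} (hv : v ∈ 𝔇.apx) :
    ∃ u ∈ 𝔇.g.verts, ‖(v : ℂ) - u‖ ≤ μ := by
  obtain ⟨i, hi, rfl⟩ := hv
  set d := (delbPl Y).toMap.opp (𝔇.g.e i) with hd'
  have hs : (delbPl Y).toMap.src d = 𝔇.g.v (i + 1) := by rw [hd', PvMap.src_opp']; exact 𝔇.g.tgt_e i hi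
  have htri : DelTri Y d.1.1.1 d.1.2.1 (delApex Y d.1.1.1 d.1.2.1) := delp_apex_spec d.2.1 d.2.2
  have hs' : d.1.1 = 𝔇.g.v (i + 1) := hs
  have hmem : d.1.1.1 ∈ closedBall x ρ := by
    rw [mem_closedBall, dist_eq_norm, hs']
    exact hg _ ⟨i + 1, hi, rfl⟩
  have h6 := (hf _ _ _ htri (Or.inl hmem)).2.1
  refine ⟨𝔇.g.v (i + 1), ⟨i + 1, hi, rfl⟩, ?_⟩
  have hap : (((delbPl Y).toMap.apex d : ↥Y) : ℂ) = delApex Y d.1.1.1 d.1.2.1 := rfl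
  rw [hap, ← hs']
  exact h6

variable {τ : Type} {c : ℝ} {𝔓 : PvxPar τ c} {R : ℝ} {m : ℕ} {π : PvxIx τ} {C : Set ℂ} {r : ℝ}

/-- the vertices of `g₀` are far from `C` -/
theorem pvnxg_g_far (hW : 𝔓.Wf) (hF : PvfhWf 𝔓) (hne : C.Nonempty) (hC : C ⊆ (𝔓.reg m π).Yin) (hr0 : 0 ≤ r) (hr : 3 * r ≤ 2 * pvlmDel c m) {𝔇 : PvwDat (delbPl Y).toMap}
    (hok : 𝔇.Ok Subtype.val 𝔓.num (pvlmH m) (𝔓.reg m π)) {v : ↥Y} (hv : v ∈ 𝔇.g.verts) : (v : ℂ) ∈ pvgeFar C r :=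
  (pvnxg_off_reg (μ := 0) hW hF hne hC hr0 (by linarith) (hok.off v hv) (by simp)).1

/-- the right apexes of `g₀` are far from `C` and off `Yin` -/
theorem pvnxg_apx (hW : 𝔓.Wf) (hF : PvfhWf 𝔓) (hne : C.Nonempty) (hC : C ⊆ (𝔓.reg m π).Yin) (hr0 : 0 ≤ r) (hμ : μ + 3 * r ≤ 2 * pvlmDel c m) (hf : L9Fine Y (closedBall x ρ) μ)
    {𝔇 : PvwDat (delbPl Y).toMap} (hok : 𝔇.Ok Subtype.val 𝔓.num (pvlmH m) (𝔓.reg m π)) (hg : ∀ v ∈ 𝔇.g.verts, ‖(v : ℂ) - x‖ ≤ ρ) {v : ↥Y} (hv : v ∈ 𝔇.apx) :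
    (v : ℂ) ∈ pvgeFar C r ∧ (v : ℂ) ∉ (𝔓.reg m π).Yin := by
  obtain ⟨u, hu, hle⟩ := pvnxg_apx_near hf hg hv
  exact pvnxg_off_reg hW hF hne hC hr0 hμ (hok.off u hu) hle

end apx

/-! ## 4. the frozen sites of `D_Y` -/

section fz

variable {δ : ℝ} {C : Set ℂ} {z : ℂ} {ρ : ℝ} {Z : Set (ℤ × ℤ)}

/-- **THE CLEARANCE OF 148** (`pvzu_clear_pat`), abstract form: `C` misses (box with the collar `δ`) `∩` (fattened cells of the hull) -/
def PvnxgClear (δ : ℝ) (C : Set ℂ) (z : ℂ) (ρ : ℝ) (Z : Set (ℤ × ℤ)) : Prop := Disjoint C (pvwSq z (ρ + δ) ∩ pvtU δ (pvtN8 Z))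

theorem pvnxg_eqns_cite : True := by
  have := @PvnxgClear.eq_1
  trivial

/-- a point of the box over the hull is more than `δ` away from `C` -/
theorem PvnxgClear.gap (h : PvnxgClear δ C z ρ Z) (hδ : 0 < δ) {p u : ℂ} (hp : p ∈ pvwSq z ρ) (hZ : p ∈ pvtU δ Z) (hu : u ∈ C) : δ < ‖u - p‖ := by
  by_contra hc
  rw [not_lt] at hc
  refine Set.disjoint_left.1 h hu ⟨?_, pvt_N8_U hδ hZ hc⟩
  have e : u - z = (u - p) + (p - z) := by ring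
  have h1 := Complex.abs_re_le_norm (u - p)
  have h2 := Complex.abs_im_le_norm (u - p)
  constructor
  · rw [e, Complex.add_re]
    exact (abs_add_le _ _).trans (by linarith [hp.1])
  · rw [e, Complex.add_im]
    exact (abs_add_le _ _).trans (by linarith [hp.2])

/-- … and a point within `μ` of it is far from `C` -/
theorem PvnxgClear.far (h : PvnxgClear δ C z ρ Z) (hδ : 0 < δ) (hne : C.Nonempty) {r μ : ℝ} (hr : μ + 3 * r ≤ δ) {p w : ℂ} (hp : p ∈ pvwSq z ρ) (hZ : p ∈ pvtU δ Z) (hw : ‖w - p‖ ≤ μ) :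
    w ∈ pvgeFar C r := by
  refine pvnxg_far_of hne fun u hu => ?_
  have h1 := h.gap hδ hp hZ hu
  have h2 : ‖u - p‖ ≤ ‖w - u‖ + ‖w - p‖ := by
    have e : u - p = -(w - u) + (w - p) := by ring
    rw [e]
    exact (norm_add_le _ _).trans (by rw [norm_neg])
  linarith

variable {V D : Type} {T : PvMap V D} {𝔇 : PvwDat T} {pos : V → ℂ} {N : PvwNum} {h : ℝ} {π : PvwPat} {Zs Zt : Set (ℤ × ℤ)} {r : ℝ}

/-- a core site lies in the own box as soon as the gate disc does -/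
theorem pvnxg_core_box {𝔖 : PvwSt T} {z : ℂ} {t : PvwTy} {s : V → Bool} (hg : 𝔖.Gate pos h z t s) {ρ : ℝ} (hb : t.b * h ≤ ρ) {v : V} (hv : v ∈ 𝔖.core) : pos v ∈ pvwSq z ρ := by
  have h1 := mem_closedBall_iff_norm.1 (pvkn_core_in hg hv)
  exact ⟨(Complex.abs_re_le_norm _).trans (h1.trans hb), (Complex.abs_im_le_norm _).trans (h1.trans hb)⟩

/-- the frozen sites of `D_Y` lie in the two own boxes -/
theorem pvnxg_fzY_box (hok : 𝔇.Ok pos N h π) (hbs : π.ts.b * h ≤ pvwRad N h π.ts π.ts.k) (hbt : π.tt.b * h ≤ pvwRad N h π.tt π.tt.k) {v : V} :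
    (v ∈ 𝔇.t.fzOut → pos v ∈ pvwSq π.zt (pvwRad N h π.tt π.tt.k)) ∧ (v ∈ 𝔇.s.fzIn → pos v ∈ pvwSq π.zs (pvwRad N h π.ts π.ts.k)) := by
  constructor
  · rintro ((hv | hv) | hv)
    · exact pvnxg_core_box hok.st_t.gate hbt hv
    · exact pvwk_banksP_in hok.st_t.stub (Or.inl hv)
    · exact pvwk_banksP_in hok.st_t.stub (Or.inr hv)
  · rintro ((hv | hv) | hv)
    · exact pvnxg_core_box hok.st_s.gate hbs hv
    · exact pvwk_banksM_in hok.st_s.stub (Or.inl hv)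
    · exact pvwk_banksM_in hok.st_s.stub (Or.inr hv)

/-- **THE FROZEN SITES OF `D_Y` ARE FAR FROM `C`** -/
theorem pvnxg_fz_far (hδ : 0 < δ) (hne : C.Nonempty) (hr : 3 * r ≤ δ) (hok : 𝔇.Ok pos N h π) (hbs : π.ts.b * h ≤ pvwRad N h π.ts π.ts.k) (hbt : π.tt.b * h ≤ pvwRad N h π.tt π.tt.k)
    (hcs : PvnxgClear δ C π.zs (pvwRad N h π.ts π.ts.k) (Zs ∪ Zt)) (hct : PvnxgClear δ C π.zt (pvwRad N h π.tt π.tt.k) (Zs ∪ Zt))
    (hZs : pvtCells δ (pos '' 𝔇.s.fzIn) ⊆ Zs) (hZt : pvtCells δ (pos '' 𝔇.t.fzOut) ⊆ Zt) {v : V} (hv : v ∈ 𝔇.fzY) : pos v ∈ pvgeFar C r := by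
  have hU : ∀ {F : Set V} {Z' : Set (ℤ × ℤ)}, pvtCells δ (pos '' F) ⊆ Z' → Z' ⊆ Zs ∪ Zt → v ∈ F → pos v ∈ pvtU δ (Zs ∪ Zt) := by
    intro F Z' h1 h2 hvF
    obtain ⟨z', hz', hp⟩ := Set.mem_iUnion₂.1 (pvt_cells_cover hδ (K := pos '' F) ⟨v, hvF, rfl⟩)
    exact Set.mem_biUnion (h2 (h1 hz')) hp
  rcases hv with hv | hv
  · exact hct.far hδ hne (μ := 0) (by linarith) ((pvnxg_fzY_box hok hbs hbt).1 hv) (hU hZt subset_union_right hv) (by simp)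
  · exact hcs.far hδ hne (μ := 0) (by linarith) ((pvnxg_fzY_box hok hbs hbt).2 hv) (hU hZs subset_union_left hv) (by simp)

/-- **THE GATE DISCS ARE FAR FROM `C`** as soon as ONE datum with the hulls of the index has its core sites `μ`-dense in the two closed discs      (the witness of `PvnxdReal`, `Exit/N1XD`) -/
theorem pvnxg_disc_far (hδ : 0 < δ) (hne : C.Nonempty) {μ : ℝ} (hr : μ + 3 * r ≤ δ) (hok : 𝔇.Ok pos N h π) (hbs : π.ts.b * h ≤ pvwRad N h π.ts π.ts.k) (hbt : π.tt.b * h ≤ pvwRad N h π.tt π.tt.k)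
    (hcs : PvnxgClear δ C π.zs (pvwRad N h π.ts π.ts.k) (Zs ∪ Zt)) (hct : PvnxgClear δ C π.zt (pvwRad N h π.tt π.tt.k) (Zs ∪ Zt))
    (hZs : pvtCells δ (pos '' 𝔇.s.fzIn) ⊆ Zs) (hZt : pvtCells δ (pos '' 𝔇.t.fzOut) ⊆ Zt)
    (hds : ∀ w ∈ closedBall π.zs (π.ts.b * h), ∃ v ∈ 𝔇.s.core, ‖w - pos v‖ ≤ μ) (hdt : ∀ w ∈ closedBall π.zt (π.tt.b * h), ∃ v ∈ 𝔇.t.core, ‖w - pos v‖ ≤ μ) :
    closedBall π.zs (π.ts.b * h) ⊆ pvgeFar C r ∧ closedBall π.zt (π.tt.b * h) ⊆ pvgeFar C r := by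
  have hU : ∀ {v : V} {F : Set V} {Z' : Set (ℤ × ℤ)}, pvtCells δ (pos '' F) ⊆ Z' → Z' ⊆ Zs ∪ Zt → v ∈ F → pos v ∈ pvtU δ (Zs ∪ Zt) := by
    intro v F Z' h1 h2 hvF
    obtain ⟨z', hz', hp⟩ := Set.mem_iUnion₂.1 (pvt_cells_cover hδ (K := pos '' F) ⟨v, hvF, rfl⟩)
    exact Set.mem_biUnion (h2 (h1 hz')) hp
  constructor
  · intro w hw
    obtain ⟨v, hv, hle⟩ := hds w hw
    exact hcs.far hδ hne hr (pvnxg_core_box hok.st_s.gate hbs hv) (hU hZs subset_union_left (Or.inl (Or.inl hv))) hle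
  · intro w hw
    obtain ⟨v, hv, hle⟩ := hdt w hw
    exact hct.far hδ hne hr (pvnxg_core_box hok.st_t.gate hbt hv) (hU hZt subset_union_right (Or.inl (Or.inl hv))) hle

end fz

end Claimed.Agent.R289
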