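-- KEEP
import Claimed.Agent.R289.Exit.N1Junk
import Claimed.Agent.R289.Tr.KitN1
import Claimed.Agent.R289.Exit.N1XG
import Claimed.Agent.R289.Defs.InstWf
import Claimed.Agent.R289.Tr.SimpleE
import Claimed.Agent.R289.Exit.N1XE

/-!
# Row 289 (S0537), THE WALL, ROAD E, file Exit/N1CX : (X1) OF `Exit/N1All` = THE RESAMPLED REGION AGAINST THE PATTERN, FIELD BY FIELD      (helper292, post of 170 RULING N1-A; prefix `pvn1c_x`, `pvn1c_far`)      0 sorry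

No colour, no site.      `C` = ANY nonempty subset of `Yin` of the regions of record (213: `pvieCc ⊆ Yin`), `30 r ≤ δ_m`, the index is GOOD (209: `PvjxGood`, free under `PvnaIn` by `pvjx_split`).
* `pvn1c_xreg`   `PvknReg (𝔓.reg m π) x (5R) (6R)`      ((b5) of `pvxPatSet` + `reg_wf`)
* `pvn1c_xyo`    `Yout ⊆ pvgeFar C r`      (`pvfe_in_out_far`)
* `pvn1c_xcin`   `{z | 5R ≤ ‖z - x‖} ⊆ pvgeFar C r`      (the `2δ`-neighbourhood of `Yin` lies in `Yreg`; (b5))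
* `pvn1c_xks`, `pvn1c_xkt`   the two closed core discs `⊆ pvgeFar C r`      (lanes: `PvjxGood`; own mouth: `nd_p nd_m` + `b_gap`; the other mouth: `sep` of `PvfeIx`)
* **`pvn1c_geo_rec`** = (X1) AT `pvxParOf` + `pvnaEngRec`, no hypothesis left but `PvjxGood` and `μ ≤ δ_m`;   **`pvn1c_Cin`** : `pvieCc ⊆ Yin` (generic engine: door region in the square `δ/10`, tiles in the inner lanes, end tiles in the mouth balls), `pvn1c_Cin_rec`, `pvn1c_Cne_rec`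
* **`pvn1c_geo`**, **`pvn1c_geo_cc`** = THE STATEMENT OF `exit_pvn1a_geo` (kit v2: `PvknGeo` + frozen sites far + apexes off `Yin`; tools `pvnxg_` of 60) for any mesh `μ ≤ δ_m`, from [nonempty, `⊆ Yin`, clearance of 148]
* **`pvn1c_x1`**   the five together;   `pvn1c_x1_ev` : for a family `Cs ε`, at `r := δ_m / 30`
-/

set_option autoImplicit false
set_option linter.unusedVariables false
set_option linter.unusedSectionVars false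

namespace Claimed.Agent.R289

open Filter Topology Set Metric Claims.C0465

/-- far from a nonempty set, pointwise -/
theorem pvn1c_far_of {C : Set ℂ} {r : ℝ} {w : ℂ} (hne : C.Nonempty) (h : ∀ u ∈ C, 3 * r ≤ ‖w - u‖) : w ∈ pvgeFar C r := by
  show 3 * r ≤ infDist w C
  exact (le_infDist hne).2 fun u hu => by rw [dist_eq_norm]; exact h u hu

theorem pvn1c_xN_le (y : ℂ) : pvccN y ≤ ‖y‖ := max_le (Complex.abs_re_le_norm y) (Complex.abs_im_le_norm y)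

/-- a core disc against its own mouth -/
theorem pvn1c_xown {z y w u : ℂ} {h b ρ : ℝ} (h0 : 0 < h) (hρ : ρ ≤ 1) (hy : b + 2 - ρ / 4 ≤ pvccN y) (hw : ‖w - z‖ ≤ b * h) (hu : ‖u - (z + (h : ℂ) * y)‖ ≤ ρ * h / 2) : h ≤ ‖w - u‖ := by
  have e : (h : ℂ) * y = -(u - (z + (h : ℂ) * y)) + (-(w - u) + (w - z)) := by ring
  have h1 : ‖(h : ℂ) * y‖ ≤ ‖u - (z + (h : ℂ) * y)‖ + (‖w - u‖ + ‖w - z‖) := by
    calc ‖(h : ℂ) * y‖ = ‖-(u - (z + (h : ℂ) * y)) + (-(w - u) + (w - z))‖ := by rw [← e]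
      _ ≤ ‖-(u - (z + (h : ℂ) * y))‖ + ‖-(w - u) + (w - z)‖ := norm_add_le _ _
      _ ≤ ‖-(u - (z + (h : ℂ) * y))‖ + (‖-(w - u)‖ + ‖w - z‖) := by gcongr; exact norm_add_le _ _
      _ = _ := by rw [norm_neg, norm_neg]
  rw [norm_mul, Complex.norm_real, Real.norm_of_nonneg h0.le] at h1
  have h2 : h * (b + 2 - ρ / 4) ≤ h * ‖y‖ := mul_le_mul_of_nonneg_left (hy.trans (pvn1c_xN_le y)) h0.le
  nlinarith

/-- a core disc against the mouth of the other pin -/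
theorem pvn1c_xcross {z z' y w u : ℂ} {h ρ A A' : ℝ} (h0 : 0 < h) (hρ : ρ ≤ 1) (hA : 0 ≤ A) (hy : h * pvccN y ≤ A' + ρ * h / 4) (hsep : 2 * (A + A') + 8 * h ≤ ‖z - z'‖)
    (hw : ‖w - z‖ ≤ A) (hu : ‖u - (z' + (h : ℂ) * y)‖ ≤ ρ * h / 2) : h ≤ ‖w - u‖ := by
  have e : z - z' = -(w - z) + ((w - u) + ((u - (z' + (h : ℂ) * y)) + (h : ℂ) * y)) := by ring
  have h1 : ‖z - z'‖ ≤ ‖w - z‖ + (‖w - u‖ + (‖u - (z' + (h : ℂ) * y)‖ + ‖(h : ℂ) * y‖)) := by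
    calc ‖z - z'‖ = ‖-(w - z) + ((w - u) + ((u - (z' + (h : ℂ) * y)) + (h : ℂ) * y))‖ := by rw [← e]
      _ ≤ ‖-(w - z)‖ + ‖(w - u) + ((u - (z' + (h : ℂ) * y)) + (h : ℂ) * y)‖ := norm_add_le _ _
      _ ≤ ‖-(w - z)‖ + (‖w - u‖ + ‖(u - (z' + (h : ℂ) * y)) + (h : ℂ) * y‖) := by gcongr; exact norm_add_le _ _
      _ ≤ ‖-(w - z)‖ + (‖w - u‖ + (‖u - (z' + (h : ℂ) * y)‖ + ‖(h : ℂ) * y‖)) := by gcongr; exact norm_add_le _ _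
      _ = _ := by rw [norm_neg]
  rw [norm_mul, Complex.norm_real, Real.norm_of_nonneg h0.le] at h1
  have h2 : h * ‖y‖ ≤ h * (2 * pvccN y) := mul_le_mul_of_nonneg_left (pvffz_norm_le_N y) h0.le
  nlinarith

/-- the `2 ‖d‖`-neighbourhood of `Yin` lies in `Yreg` -/
theorem pvn1c_xthick {rI rO : ℝ} (hr : rI ≤ rO) {ys yt z d : ℂ} {l : List PvtTurn} {u w : ℂ} (hu : u ∈ pvfeIn rI ys yt z d l) (hw : ‖w - u‖ ≤ 2 * ‖d‖) : w ∈ pvfeBody rO 3 ys yt z d l := by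
  have tri : ∀ a : ℂ, ‖w - a‖ ≤ ‖w - u‖ + ‖u - a‖ := fun a => by
    have := norm_add_le (w - u) (u - a)
    rwa [sub_add_sub_cancel] at this
  have hd := norm_nonneg d
  rcases hu with (hu | hu) | hu
  · obtain ⟨j, hj, h1⟩ := pvfe_mem_tube.1 (pvfe_lanes_sub_tube (κ := 1) (by norm_num) (by norm_num) le_rfl z d l hu)
    exact Or.inl (Or.inl (pvfe_mem_tube.2 ⟨j, hj, by have := tri (pvccC z d l j); linarith⟩))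
  · exact Or.inl (Or.inr (mem_closedBall_iff_norm.2 (by have := tri yt; have := mem_closedBall_iff_norm.1 hu; linarith)))
  · exact Or.inr (mem_closedBall_iff_norm.2 (by have := tri ys; have := mem_closedBall_iff_norm.1 hu; linarith))

section x1

variable {τ : Type} {c : ℝ} {𝔓 : PvxPar τ c} {x : ℂ} {R : ℝ} {m : ℕ} {π : PvxIx τ} {C : Set ℂ} {r : ℝ}

/-- **`reg`** -/
theorem pvn1c_xreg (hW : 𝔓.Wf) (hR : 0 < R) (hπ : π ∈ pvxPatSet 𝔓 x R m) : PvknReg (𝔓.reg m π) x (5 * R) (6 * R) where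
  wf := hW.reg_wf m π
  r12 := by linarith
  yin := fun z hz => mem_ball_iff_norm.1 (hπ.2.2.2.2.2 (Or.inl ((hW.reg_wf m π).in_sub hz)))
  ycol := fun z hz => mem_ball_iff_norm.1 (hπ.2.2.2.2.2 (Or.inr hz))
  yout := fun z hz => (mem_ball_iff_norm.1 (hπ.2.2.2.2.2 (Or.inl ((hW.reg_wf m π).out_sub hz)))).le.trans (by linarith)

theorem pvn1c_xnormD (hW : 𝔓.Wf) (m : ℕ) (π : PvxIx τ) : ‖pvfeD (𝔓.Γ m) π.p‖ = pvlmDel c m := by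
  rw [pvfe_norm_D, hW.del, abs_of_pos (pvlm_Del_pos c m)]

/-- **`yo`** -/
theorem pvn1c_xyo (hW : 𝔓.Wf) (hF : PvfhWf 𝔓) (hne : C.Nonempty) (hC : C ⊆ (𝔓.reg m π).Yin) (hr : 30 * r ≤ pvlmDel c m) : (𝔓.reg m π).Yout ⊆ pvgeFar C r := by
  intro w hw
  refine pvn1c_far_of hne fun u hu => ?_
  have hu' := hC hu
  rw [hF.reg_eq] at hu' hw
  have := pvfe_in_out_far hu' hw
  rw [pvn1c_xnormD hW] at this
  linarith

/-- **`cin`** -/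
theorem pvn1c_xcin (hW : 𝔓.Wf) (hF : PvfhWf 𝔓) (hπ : π ∈ pvxPatSet 𝔓 x R m) (hne : C.Nonempty) (hC : C ⊆ (𝔓.reg m π).Yin) (hr : 30 * r ≤ pvlmDel c m) : {z | 5 * R ≤ ‖z - x‖} ⊆ pvgeFar C r := by
  intro w hw
  refine pvn1c_far_of hne fun u hu => ?_
  by_contra hc
  rw [not_le] at hc
  have hu' := hC hu
  have hδ := pvlm_Del_pos c m
  have hρ : 0 ≤ 𝔓.num.rho * pvlmH m := mul_nonneg hW.rho0.le (pvlm_H_pos m).le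
  have h1 : w ∈ (𝔓.reg m π).Yreg := by
    rw [hF.reg_eq] at hu' ⊢
    exact pvn1c_xthick (by linarith) hu' (by rw [pvn1c_xnormD hW]; linarith)
  exact absurd (mem_ball_iff_norm.1 (hπ.2.2.2.2.2 (Or.inl h1))) (not_lt.2 hw)

/-- the numbers of one pin: `b h ≤ r_K`, `h N(y) ≤ r_K + ρ h / 4`, `b + 2 - ρ/4 ≤ N(y)` -/
theorem pvn1c_xnum (hW : 𝔓.Wf) (hF : PvfhWf 𝔓) (m : ℕ) (t : τ) {y : ℂ} (hy : |pvccN y - (2 * (𝔓.ty t).b2 + (𝔓.ty t).k * 𝔓.num.rho1)| ≤ 𝔓.num.rho / 4) :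
    (𝔓.ty t).b * pvlmH m ≤ pvwRad 𝔓.num (pvlmH m) (𝔓.ty t) 𝔓.num.K ∧ pvlmH m * pvccN y ≤ pvwRad 𝔓.num (pvlmH m) (𝔓.ty t) 𝔓.num.K + 𝔓.num.rho * pvlmH m / 4 ∧
    (𝔓.ty t).b + 2 - 𝔓.num.rho / 4 ≤ pvccN y := by
  have hh := pvlm_H_pos m
  have hρ1 : 0 ≤ 𝔓.num.rho1 := by linarith [hW.rho0, hW.rho1]
  have hk : ((𝔓.ty t).k : ℝ) ≤ 𝔓.num.K := Nat.cast_le.2 (hW.lev t)
  have hk0 : (0 : ℝ) ≤ (𝔓.ty t).k := Nat.cast_nonneg _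
  have h1 : ((𝔓.ty t).k : ℝ) * 𝔓.num.rho1 ≤ 𝔓.num.K * 𝔓.num.rho1 := mul_le_mul_of_nonneg_right hk hρ1
  have h0 : 0 ≤ ((𝔓.ty t).k : ℝ) * 𝔓.num.rho1 := mul_nonneg hk0 hρ1
  have hb := hF.b_gap t
  obtain ⟨y1, y2⟩ := abs_le.1 hy
  unfold pvwRad
  refine ⟨?_, ?_, by linarith⟩
  · exact mul_le_mul_of_nonneg_right (by linarith) hh.le
  · have : pvlmH m * pvccN y ≤ pvlmH m * (2 * (𝔓.ty t).b2 + 𝔓.num.K * 𝔓.num.rho1 + 𝔓.num.rho / 4) := mul_le_mul_of_nonneg_left (by linarith) hh.le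
    linarith

/-- **`ks kt`**: the two closed core discs are far from `C` -/
theorem pvn1c_xdisc (hW : 𝔓.Wf) (hF : PvfhWf 𝔓) (hfine : 32 * pvlmDel c m < 𝔓.num.rho * pvlmH m) (hπ : π ∈ pvxPatSet 𝔓 x R m) (hgood : PvjxGood 𝔓 m π) (hne : C.Nonempty)
    (hC : C ⊆ (𝔓.reg m π).Yin) (hr : 30 * r ≤ pvlmDel c m) : pvjxD 𝔓 m π ⊆ pvgeFar C r := by
  intro w hw
  refine pvn1c_far_of hne fun u hu => ?_
  have hu' := hC hu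
  rw [hF.reg_eq] at hu'
  have hδ := pvlm_Del_pos c m
  have hh := pvlm_H_pos m
  have hρ1 : 𝔓.num.rho ≤ 1 := by linarith [hW.rho1, hW.rho2, hW.rho3]
  have hsmall : 3 * r ≤ pvlmH m := by nlinarith
  obtain ⟨s1, s2, s3⟩ := pvn1c_xnum hW hF m π.p.ts ((hF.doors m).nd_m π.p.ts)
  obtain ⟨t1, t2, t3⟩ := pvn1c_xnum hW hF m π.p.tt ((hF.doors m).nd_p π.p.tt)
  have bs0 : 0 ≤ (𝔓.ty π.p.ts).b * pvlmH m := mul_nonneg ((hW.a0 _).trans (hW.ab _)).le hh.le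
  have bt0 : 0 ≤ (𝔓.ty π.p.tt).b * pvlmH m := mul_nonneg ((hW.a0 _).trans (hW.ab _)).le hh.le
  have hsep := hπ.2.2.2.2.1.sep
  rcases hu' with (hu' | hu') | hu'
  · have h1 := (hgood w hw).tube (by rw [hW.del]; exact hδ) (pvfe_lanes_sub_tube (κ := 1) (by norm_num) (by norm_num) le_rfl _ _ _ hu')
    rw [hW.del] at h1
    linarith
  · rcases hw with hw | hw
    · exact hsmall.trans (pvn1c_xcross hh hρ1 (bs0.trans s1) t2 hsep ((mem_closedBall_iff_norm.1 hw).trans s1) (mem_closedBall_iff_norm.1 hu'))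
    · exact hsmall.trans (pvn1c_xown hh hρ1 t3 (mem_closedBall_iff_norm.1 hw) (mem_closedBall_iff_norm.1 hu'))
  · rcases hw with hw | hw
    · exact hsmall.trans (pvn1c_xown hh hρ1 s3 (mem_closedBall_iff_norm.1 hw) (mem_closedBall_iff_norm.1 hu'))
    · exact hsmall.trans (pvn1c_xcross hh hρ1 (bt0.trans t1) s2 (by rw [norm_sub_rev]; linarith) ((mem_closedBall_iff_norm.1 hw).trans t1) (mem_closedBall_iff_norm.1 hu'))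

theorem pvn1c_xks (hW : 𝔓.Wf) (hF : PvfhWf 𝔓) (hfine : 32 * pvlmDel c m < 𝔓.num.rho * pvlmH m) (hπ : π ∈ pvxPatSet 𝔓 x R m) (hgood : PvjxGood 𝔓 m π) (hne : C.Nonempty)
    (hC : C ⊆ (𝔓.reg m π).Yin) (hr : 30 * r ≤ pvlmDel c m) : closedBall (𝔓.reg m π).zs ((𝔓.reg m π).ts.b * pvlmH m) ⊆ pvgeFar C r := by
  rw [hW.reg_zs, hW.reg_ts]
  exact fun w hw => pvn1c_xdisc hW hF hfine hπ hgood hne hC hr (Or.inl hw)

theorem pvn1c_xkt (hW : 𝔓.Wf) (hF : PvfhWf 𝔓) (hfine : 32 * pvlmDel c m < 𝔓.num.rho * pvlmH m) (hπ : π ∈ pvxPatSet 𝔓 x R m) (hgood : PvjxGood 𝔓 m π) (hne : C.Nonempty)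
    (hC : C ⊆ (𝔓.reg m π).Yin) (hr : 30 * r ≤ pvlmDel c m) : closedBall (𝔓.reg m π).zt ((𝔓.reg m π).tt.b * pvlmH m) ⊆ pvgeFar C r := by
  rw [hW.reg_zt, hW.reg_tt]
  exact fun w hw => pvn1c_xdisc hW hF hfine hπ hgood hne hC hr (Or.inr hw)

/-- **(X1), FIELD BY FIELD** (`reg ks kt yo cin` of `PvknGeo` v2 of 29) -/
theorem pvn1c_x1 (hW : 𝔓.Wf) (hF : PvfhWf 𝔓) (hfine : 32 * pvlmDel c m < 𝔓.num.rho * pvlmH m) (hR : 0 < R) (hπ : π ∈ pvxPatSet 𝔓 x R m) (hgood : PvjxGood 𝔓 m π) (hne : C.Nonempty)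
    (hC : C ⊆ (𝔓.reg m π).Yin) (hr : 30 * r ≤ pvlmDel c m) :
    PvknReg (𝔓.reg m π) x (5 * R) (6 * R) ∧ closedBall (𝔓.reg m π).zs ((𝔓.reg m π).ts.b * pvlmH m) ⊆ pvgeFar C r ∧ closedBall (𝔓.reg m π).zt ((𝔓.reg m π).tt.b * pvlmH m) ⊆ pvgeFar C r ∧
    (𝔓.reg m π).Yout ⊆ pvgeFar C r ∧ {z | 5 * R ≤ ‖z - x‖} ⊆ pvgeFar C r :=
  ⟨pvn1c_xreg hW hR hπ, pvn1c_xks hW hF hfine hπ hgood hne hC hr, pvn1c_xkt hW hF hfine hπ hgood hne hC hr, pvn1c_xyo hW hF hne hC hr, pvn1c_xcin hW hF hπ hne hC hr⟩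

/-- **(X1) FOR A FAMILY**, at the radius `r := δ_m / 30` -/
theorem pvn1c_x1_ev (hW : 𝔓.Wf) (hF : PvfhWf 𝔓) (hfine : 32 * pvlmDel c m < 𝔓.num.rho * pvlmH m) (hR : 0 < R) (hπ : π ∈ pvxPatSet 𝔓 x R m) (hgood : PvjxGood 𝔓 m π) {Cs : ℝ → Set ℂ}
    (hC : ∀ᶠ ε in 𝓝[>] (0 : ℝ), (Cs ε).Nonempty ∧ Cs ε ⊆ (𝔓.reg m π).Yin) :
    ∃ r : ℝ, 0 < r ∧ ∀ᶠ ε in 𝓝[>] (0 : ℝ), PvknReg (𝔓.reg m π) x (5 * R) (6 * R) ∧ closedBall (𝔓.reg m π).zs ((𝔓.reg m π).ts.b * pvlmH m) ⊆ pvgeFar (Cs ε) r ∧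
      closedBall (𝔓.reg m π).zt ((𝔓.reg m π).tt.b * pvlmH m) ⊆ pvgeFar (Cs ε) r ∧ (𝔓.reg m π).Yout ⊆ pvgeFar (Cs ε) r ∧ {z | 5 * R ≤ ‖z - x‖} ⊆ pvgeFar (Cs ε) r :=
  ⟨pvlmDel c m / 30, by have := pvlm_Del_pos c m; positivity, hC.mono fun ε h => pvn1c_x1 hW hF hfine hR hπ hgood h.1 h.2 (by linarith)⟩

/-! ## 2. the statement of `exit_pvn1a_geo` (kit v2 of 29) -/

/-- **`PvknGeo` v2** -/
theorem pvn1c_xgeo (hW : 𝔓.Wf) (hF : PvfhWf 𝔓) (hfine : 32 * pvlmDel c m < 𝔓.num.rho * pvlmH m) (hR : 0 < R) (hπ : π ∈ pvxPatSet 𝔓 x R m) (hgood : PvjxGood 𝔓 m π) (hne : C.Nonempty)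
    (hC : C ⊆ (𝔓.reg m π).Yin) (hr0 : 0 < r) (hr : 30 * r ≤ pvlmDel c m) : PvknGeo 𝔓.num (pvlmH m) (𝔓.reg m π) x (5 * R) (6 * R) C r where
  reg := pvn1c_xreg hW hR hπ
  r0 := hr0
  ks := pvn1c_xks hW hF hfine hπ hgood hne hC hr
  kt := pvn1c_xkt hW hF hfine hπ hgood hne hC hr
  yo := pvn1c_xyo hW hF hne hC hr
  cin := fun z hz => pvn1c_xcin hW hF hπ hne hC hr hz

/-- the clearance of 148 (`pvzu_clear_pat`, tile by tile) in the words of 60 -/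
theorem pvn1c_xclear {𝔈 : PvieEng τ} {ε : ℝ} {p : PvtsPat τ} {z : ℂ} {t : τ} {Z : Set (ℤ × ℤ)}
    (h : ∀ S ∈ pvieTiles 𝔓 𝔈 m ε p, Disjoint S (pvieSh z (pviwBox 𝔓 m t) ∩ pvtU (pvlmDel c m) (pvtN8 Z))) :
    PvnxgClear (pvlmDel c m) (pvieCc 𝔓 𝔈 m ε p) z (pvwRad 𝔓.num (pvlmH m) (𝔓.ty t) (𝔓.ty t).k) Z := by
  refine Set.disjoint_left.2 ?_
  rintro w ⟨S, hS, hw⟩ ⟨h1, h2⟩
  refine Set.disjoint_left.1 (h S hS) hw ⟨⟨w - z, ?_, by simp⟩, h2⟩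
  show w - z ∈ pvwSq 0 (pvwRad 𝔓.num (pvlmH m) (𝔓.ty t) (𝔓.ty t).k + pvlmDel c m)
  unfold pvwSq at h1 ⊢
  simpa using h1

/-- **THE FROZEN SITES OF AN ACTUAL DATUM ARE FAR FROM `C`, ITS RIGHT APEXES ARE OFF `Yin`** -/
theorem pvn1c_xfa (hW : 𝔓.Wf) (hF : PvfhWf 𝔓) (hR : 0 < R) (hne : C.Nonempty) (hC : C ⊆ (𝔓.reg m π).Yin) (hr0 : 0 < r) (hr : 30 * r ≤ pvlmDel c m) {μ : ℝ} (hμ : μ ≤ pvlmDel c m)
    (hcs : PvnxgClear (pvlmDel c m) C π.p.zs (pvwRad 𝔓.num (pvlmH m) (𝔓.ty π.p.ts) (𝔓.ty π.p.ts).k) (↑π.Zs ∪ ↑π.Zt))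
    (hct : PvnxgClear (pvlmDel c m) C π.p.zt (pvwRad 𝔓.num (pvlmH m) (𝔓.ty π.p.tt) (𝔓.ty π.p.tt).k) (↑π.Zs ∪ ↑π.Zt))
    {ω : PVSample} (hf : L9Fine (pvxY ω) (closedBall x (6 * R)) μ) {𝔇 : PvwDat (pvxT ω)} (hA : Pvn1bAct 𝔓 x R m π ω 𝔇) :
    (∀ v ∈ 𝔇.fz, (v : ℂ) ∈ pvgeFar C r) ∧ ∀ v ∈ 𝔇.apx, (v : ℂ) ∉ (𝔓.reg m π).Yin := by
  obtain ⟨hok, ⟨P, -, j, hact, hin⟩, hZs, hZt⟩ := hA
  have hδ := pvlm_Del_pos c m
  have hh := pvlm_H_pos m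
  have hρ1 : 0 ≤ 𝔓.num.rho1 := by linarith [hW.rho0, hW.rho1]
  have hb : ∀ t, (𝔓.ty t).b * pvlmH m ≤ pvwRad 𝔓.num (pvlmH m) (𝔓.ty t) (𝔓.ty t).k := fun t => by
    unfold pvwRad
    have h0 : 0 ≤ ((𝔓.ty t).k : ℝ) * 𝔓.num.rho1 := mul_nonneg (Nat.cast_nonneg _) hρ1
    exact mul_le_mul_of_nonneg_right (by linarith [hF.b_b2 t]) hh.le
  have hg : ∀ v ∈ 𝔇.g.verts, ‖(v : ℂ) - x‖ ≤ 6 * R := by
    rintro _ ⟨i, hi, rfl⟩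
    have h1 := hin (j + 𝔇.s.inn.n + i) (by omega) (by omega)
    rw [hact.arc i hi] at h1
    exact h1.trans (by linarith)
  have hap := fun v hv => pvnxg_apx (μ := μ) (r := r) hW hF hne hC hr0.le (by linarith) hf hok hg (v := v) hv
  refine ⟨fun v hv => ?_, fun v hv => (hap v hv).2⟩
  rcases hv with (hv | hv) | hv
  · refine pvnxg_fz_far (Zs := ↑π.Zs) (Zt := ↑π.Zt) hδ hne (by linarith) hok ?_ ?_ ?_ ?_ ?_ ?_ hv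
    · rw [hW.reg_ts]; exact hb _
    · rw [hW.reg_tt]; exact hb _
    · rw [hW.reg_ts, hW.reg_zs]; exact hcs
    · rw [hW.reg_tt, hW.reg_zt]; exact hct
    · rw [hZs]; exact pvt_cells_mono subset_union_left
    · rw [hZt]; exact pvt_cells_mono subset_union_left
  · exact pvnxg_g_far hW hF hne hC hr0.le (by linarith) hok hv
  · exact (hap v hv).1

/-- **(X1) = THE STATEMENT OF `exit_pvn1a_geo`** (any family `Cs`, any mesh `μ ≤ δ_m`), at `r := δ_m / 30`, from: the index is good; `Cs ε` nonempty, inside `Yin`, clear of the two hulls in the own boxes -/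
theorem pvn1c_geo (hW : 𝔓.Wf) (hF : PvfhWf 𝔓) (hfine : 32 * pvlmDel c m < 𝔓.num.rho * pvlmH m) (hR : 0 < R) (hπ : π ∈ pvxPatSet 𝔓 x R m) (hgood : PvjxGood 𝔓 m π) {μ : ℝ} (hμ : μ ≤ pvlmDel c m)
    {Cs : ℝ → Set ℂ}
    (hC : ∀ᶠ ε in 𝓝[>] (0 : ℝ), (Cs ε).Nonempty ∧ Cs ε ⊆ (𝔓.reg m π).Yin ∧
      PvnxgClear (pvlmDel c m) (Cs ε) π.p.zs (pvwRad 𝔓.num (pvlmH m) (𝔓.ty π.p.ts) (𝔓.ty π.p.ts).k) (↑π.Zs ∪ ↑π.Zt) ∧
      PvnxgClear (pvlmDel c m) (Cs ε) π.p.zt (pvwRad 𝔓.num (pvlmH m) (𝔓.ty π.p.tt) (𝔓.ty π.p.tt).k) (↑π.Zs ∪ ↑π.Zt)) :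
    ∃ r : ℝ, 0 < r ∧ (∀ᶠ ε in 𝓝[>] (0 : ℝ), PvknGeo 𝔓.num (pvlmH m) (𝔓.reg m π) x (5 * R) (6 * R) (Cs ε) r) ∧
      ∀ᶠ ε in 𝓝[>] (0 : ℝ), ∀ ω : PVSample, PvqfGood (pvConf ω) → L9Fine (pvxY ω) (Metric.closedBall x (6 * R)) μ → ∀ 𝔇 : PvwDat (pvxT ω), Pvn1bAct 𝔓 x R m π ω 𝔇 →
        (∀ v ∈ 𝔇.fz, (v : ℂ) ∈ pvgeFar (Cs ε) r) ∧ ∀ v ∈ 𝔇.apx, (v : ℂ) ∉ (𝔓.reg m π).Yin := by
  have hδ := pvlm_Del_pos c m
  have hr0 : 0 < pvlmDel c m / 30 := by positivity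
  refine ⟨pvlmDel c m / 30, hr0, hC.mono fun ε h => pvn1c_xgeo hW hF hfine hR hπ hgood h.1 h.2.1 hr0 (by linarith), hC.mono fun ε h ω _ hf 𝔇 hA => ?_⟩
  exact pvn1c_xfa hW hF hR h.1 h.2.1 hr0 (by linarith) hμ h.2.2.1 h.2.2.2 hf hA

/-- **(X1) AT `pvieCc`**, the clearance in the words of 148 -/
theorem pvn1c_geo_cc (hW : 𝔓.Wf) (hF : PvfhWf 𝔓) (hfine : 32 * pvlmDel c m < 𝔓.num.rho * pvlmH m) (hR : 0 < R) (hπ : π ∈ pvxPatSet 𝔓 x R m) (hgood : PvjxGood 𝔓 m π) {μ : ℝ} (hμ : μ ≤ pvlmDel c m)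
    {𝔈 : PvieEng τ}
    (hC : ∀ᶠ ε in 𝓝[>] (0 : ℝ), (pvieCc 𝔓 𝔈 m ε π.p).Nonempty ∧ pvieCc 𝔓 𝔈 m ε π.p ⊆ (𝔓.reg m π).Yin ∧
      ∀ S ∈ pvieTiles 𝔓 𝔈 m ε π.p, Disjoint S (pvieSh π.p.zt (pviwBox 𝔓 m π.p.tt) ∩ pvtU (pvlmDel c m) (pvtN8 (↑π.Zs ∪ ↑π.Zt))) ∧
        Disjoint S (pvieSh π.p.zs (pviwBox 𝔓 m π.p.ts) ∩ pvtU (pvlmDel c m) (pvtN8 (↑π.Zs ∪ ↑π.Zt)))) :
    ∃ r : ℝ, 0 < r ∧ (∀ᶠ ε in 𝓝[>] (0 : ℝ), PvknGeo 𝔓.num (pvlmH m) (𝔓.reg m π) x (5 * R) (6 * R) (pvieCc 𝔓 𝔈 m ε π.p) r) ∧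
      ∀ᶠ ε in 𝓝[>] (0 : ℝ), ∀ ω : PVSample, PvqfGood (pvConf ω) → L9Fine (pvxY ω) (Metric.closedBall x (6 * R)) μ → ∀ 𝔇 : PvwDat (pvxT ω), Pvn1bAct 𝔓 x R m π ω 𝔇 →
        (∀ v ∈ 𝔇.fz, (v : ℂ) ∈ pvgeFar (pvieCc 𝔓 𝔈 m ε π.p) r) ∧ ∀ v ∈ 𝔇.apx, (v : ℂ) ∉ (𝔓.reg m π).Yin :=
  pvn1c_geo hW hF hfine hR hπ hgood hμ (hC.mono fun ε h => ⟨h.1, h.2.1, pvn1c_xclear fun S hS => (h.2.2 S hS).2, pvn1c_xclear fun S hS => (h.2.2 S hS).1⟩)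

end x1

/-! ## 3. `pvieCc ⊆ Yin` -/

theorem pvn1c_cN {w : ℂ} {r : ℝ} (hw : pvccN w < r) : (-r < w.re ∧ w.re < r) ∧ (-r < w.im ∧ w.im < r) := by
  obtain ⟨h1, h2⟩ := max_lt_iff.1 hw
  exact ⟨abs_lt.1 h1, abs_lt.1 h2⟩

/-- the front half of a door square lies in the inner lane of the cell which it opens -/
theorem pvn1c_cfront {w : ℂ} (hw : pvccN w < 1 / 10) (h0 : 0 ≤ w.re) (τ : PvtTurn) : w ∈ pvfeLane (-(1 / 10)) (4 / 10) τ := by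
  obtain ⟨⟨a1, a2⟩, b1, b2⟩ := pvn1c_cN hw
  cases τ
  · exact ⟨h0, by linarith, by linarith, by linarith⟩
  · exact Or.inl ⟨h0, by linarith, by linarith, by linarith⟩
  · exact Or.inl ⟨h0, by linarith, by linarith, by linarith⟩

/-- the back half of a door square lies in the inner lane of the cell which it closes -/
theorem pvn1c_cback {w : ℂ} (hw : pvccN w < 1 / 10) (h0 : w.re ≤ 0) (τ : PvtTurn) : τ.mid + τ.rot * w ∈ pvfeLane (-(1 / 10)) (4 / 10) τ := by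
  obtain ⟨⟨a1, a2⟩, b1, b2⟩ := pvn1c_cN hw
  cases τ
  · have e1 : (PvtTurn.S.mid + PvtTurn.S.rot * w).re = 1 + w.re := by simp [PvtTurn.mid, PvtTurn.rot]
    have e2 : (PvtTurn.S.mid + PvtTurn.S.rot * w).im = w.im := by simp [PvtTurn.mid, PvtTurn.rot]
    show 0 ≤ _ ∧ _ ≤ 1 ∧ _ ≤ _ ∧ _ ≤ _
    rw [e1, e2]
    exact ⟨by linarith, by linarith, by linarith, by linarith⟩
  · have e1 : (PvtTurn.L.mid + PvtTurn.L.rot * w).re = 1 / 2 - w.im := by simp [PvtTurn.mid, PvtTurn.rot]; ring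
    have e2 : (PvtTurn.L.mid + PvtTurn.L.rot * w).im = 1 / 2 + w.re := by simp [PvtTurn.mid, PvtTurn.rot]
    refine Or.inr ?_
    rw [e1, e2]
    exact ⟨by linarith, by linarith, by linarith, by linarith⟩
  · have e1 : (PvtTurn.R.mid + PvtTurn.R.rot * w).re = 1 / 2 + w.im := by simp [PvtTurn.mid, PvtTurn.rot]; try ring
    have e2 : (PvtTurn.R.mid + PvtTurn.R.rot * w).im = -(1 / 2) - w.re := by simp [PvtTurn.mid, PvtTurn.rot]; try ring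
    refine Or.inr ?_
    rw [e1, e2]
    exact ⟨by linarith, by linarith, by linarith, by linarith⟩

/-- an inner door square lies in the inner lanes -/
theorem pvn1c_cdoor (z d : ℂ) (l : List PvtTurn) {j : ℕ} (h0 : 0 < j) (hj : j < l.length) : pvccO (pvccSq 0 (1 / 10)) z d l j ⊆ pvfeLanes (-(1 / 10)) (4 / 10) z d l := by
  rintro _ ⟨w, hw, rfl⟩
  have hw' : pvccN w < 1 / 10 := by
    have : pvccN (w - 0) < 1 / 10 := hw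
    rwa [sub_zero] at this
  unfold pvfeLanes
  rcases le_total 0 w.re with h | h
  · exact mem_biUnion (Finset.mem_coe.2 (Finset.mem_range.2 hj)) ⟨w, pvn1c_cfront hw' h _, rfl⟩
  · obtain ⟨i, rfl⟩ : ∃ i, j = i + 1 := ⟨j - 1, by omega⟩
    have hi : i < l.length := by omega
    refine mem_biUnion (Finset.mem_coe.2 (Finset.mem_range.2 hi)) ⟨_, pvn1c_cback hw' h (pvccT l i), ?_⟩
    show pvccZ z d l i + pvccD d l i * ((pvccT l i).mid + (pvccT l i).rot * w) = pvccZ z d l (i + 1) + pvccD d l (i + 1) * w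
    rw [pvccZ_succ z d l hi, pvccD_succ d l hi]
    ring

/-- a door square near the centre of a mouth lies in the mouth -/
theorem pvn1c_cball {Z D y : ℂ} {δ ρ' : ℝ} (hδ : 0 ≤ δ) (hD : ‖D‖ = δ) (h : ‖Z - y‖ + δ / 5 ≤ ρ') : pvccPl Z D (pvccSq 0 (1 / 10)) ⊆ closedBall y ρ' := by
  rintro _ ⟨w, hw, rfl⟩
  have hw' : pvccN w < 1 / 10 := by
    have : pvccN (w - 0) < 1 / 10 := hw
    rwa [sub_zero] at this
  rw [mem_closedBall_iff_norm]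
  have e : Z + D * w - y = (Z - y) + D * w := by ring
  have h1 : ‖D * w‖ ≤ δ / 5 := by
    rw [norm_mul, hD]
    have := pvffz_norm_le_N w
    nlinarith
  show ‖Z + D * w - y‖ ≤ ρ'
  rw [e]
  exact (norm_add_le _ _).trans (by linarith)

/-- a door of record against the centre of its mouth -/
theorem pvn1c_cmouth {δ h ρ : ℝ} (hδ : 0 ≤ δ) (hh : 0 ≤ h) (hρ : 0 ≤ ρ) {e u : ℤ × ℤ} (hu : PvfeDir u) {y P : ℂ} (hP : P = (pvtCtr δ (e - u) + pvtCtr δ e) / 2)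
    (hE : ‖pvtCtr δ e - (h : ℂ) * (y + ((3 * ρ / 8 : ℝ) : ℂ) * pvtZ u)‖ ≤ δ) : ‖P - (h : ℂ) * y‖ ≤ 3 * ρ * h / 8 + 3 * δ / 2 := by
  have hU := pvffz_norm_U (pvffz_dir hu)
  have e1 := pvffz_ctr_sub δ e u
  have e2 : P - (h : ℂ) * y = (pvtCtr δ e - (h : ℂ) * (y + ((3 * ρ / 8 : ℝ) : ℂ) * pvtZ u)) + (((h * (3 * ρ / 8) : ℝ) : ℂ) * pvtZ u + -(((δ / 2 : ℝ) : ℂ) * pvtZ u)) := by
    rw [hP]
    have : pvtCtr δ (e - u) = pvtCtr δ e - (δ : ℂ) * pvtZ u := by rw [← e1]; ring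
    rw [this]
    push_cast
    ring
  rw [e2]
  refine (norm_add_le _ _).trans ?_
  have h3 : ‖((h * (3 * ρ / 8) : ℝ) : ℂ) * pvtZ u + -(((δ / 2 : ℝ) : ℂ) * pvtZ u)‖ ≤ h * (3 * ρ / 8) + δ / 2 := by
    refine (norm_add_le _ _).trans ?_
    rw [norm_neg, norm_mul, norm_mul, hU, Complex.norm_real, Complex.norm_real, Real.norm_of_nonneg (by positivity), Real.norm_of_nonneg (by positivity)]
    linarith
  linarith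

section cin

variable {τ : Type} {c : ℝ} {𝔓 : PvxPar τ c} {𝔈 : PvieEng τ} {x : ℂ} {R : ℝ} {m : ℕ} {π : PvxIx τ} {ε : ℝ}

/-- **THE RESAMPLED REGION OF THE CHAIN LIES IN `Yin`** -/
theorem pvn1c_Cin (hW : 𝔓.Wf) (hF : PvfhWf 𝔓) (hfine : 32 * pvlmDel c m < 𝔓.num.rho * pvlmH m)
    (hd : (𝔈.kit m ε).δ = pvlmDel c m) (hO : (𝔈.kit m ε).O₀ ⊆ pvccSq 0 (pvlmDel c m / 10))
    (hK : ∀ t, (𝔈.kit m ε).K₀ t ⊆ (fun w : ℂ => (pvlmDel c m : ℂ) * w) '' pvfeLane (-(1 / 10)) (4 / 10) t)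
    (hoK : pvieSh π.p.zt (𝔈.oK m π.p.tt) ⊆ closedBall ((𝔓.ty π.p.tt).cp (pvlmH m) π.p.zt) (𝔓.num.rho * pvlmH m / 2))
    (hiK : pvieSh π.p.zs (𝔈.iK m π.p.ts) ⊆ closedBall ((𝔓.ty π.p.ts).cm (pvlmH m) π.p.zs) (𝔓.num.rho * pvlmH m / 2)) :
    pvieCc 𝔓 𝔈 m ε π.p ⊆ (𝔓.reg m π).Yin := by
  have hδ := pvlm_Del_pos c m
  have hδne : (𝔈.kit m ε).δ ≠ 0 := by rw [hd]; exact hδ.ne'
  have hh := pvlm_H_pos m
  have hρ := hW.rho0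
  have hO' : (fun w : ℂ => ((𝔈.kit m ε).δ : ℂ) * w) ⁻¹' (𝔈.kit m ε).O₀ ⊆ pvccSq 0 (1 / 10) := by
    intro w hw
    have h1 : pvccN (((𝔈.kit m ε).δ : ℂ) * w - 0) < pvlmDel c m / 10 := hO hw
    rw [hd, sub_zero, pvccN_real_mul hδ.le] at h1
    show pvccN (w - 0) < 1 / 10
    rw [sub_zero]
    by_contra hc
    rw [not_lt] at hc
    nlinarith
  have hK' : ∀ t, (fun w : ℂ => ((𝔈.kit m ε).δ : ℂ) * w) ⁻¹' (𝔈.kit m ε).K₀ t ⊆ pvfeLane (-(1 / 10)) (4 / 10) t := by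
    intro t w hw
    obtain ⟨w', hw', e⟩ := hK t hw
    rw [hd] at e
    have : w' = w := mul_left_cancel₀ (by exact_mod_cast hδ.ne') e
    exact this ▸ hw'
  have ed : ((𝔈.kit m ε).δ : ℂ) * (𝔓.Γ m).dout π.p.tt = pvfeD (𝔓.Γ m) π.p := by
    unfold pvfeD; rw [hd, hW.del]
  have hnD := pvn1c_xnormD hW m π
  rw [hF.reg_eq]
  rintro w ⟨S, hS, hw⟩
  unfold pvieTiles at hS
  simp only [List.mem_append, List.mem_cons, List.not_mem_nil, or_false, List.mem_map, List.mem_range] at hS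
  rcases hS with ((rfl | rfl | rfl) | ⟨j, hj, rfl⟩) | ⟨j, hj, rfl⟩
  · exact Or.inl (Or.inr (hoK hw))
  · exact Or.inr (hiK hw)
  · -- the last door
    obtain ⟨e, u, hu, hP, hdin, hE, -⟩ := (hF.doors m).inn π.p.ts
    rw [hW.del] at hP hE
    have h1 := pvn1c_cmouth hδ.le hh.le hρ.le hu (hP.trans (by rw [add_comm])) hE
    have hw' : w ∈ pvthSim (pvieZi 𝔓 m π.p.zs π.p.ts) ((𝔓.Γ m).din π.p.ts) '' (𝔈.kit m ε).O₀ := hw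
    rw [← pvcc_pl_preimage hδne] at hw'
    refine Or.inr (pvn1c_cball (δ := pvlmDel c m) hδ.le ?_ ?_ (pvccPl_mono _ _ hO' hw'))
    · rw [norm_mul, hdin, norm_neg, pvffz_norm_U (pvffz_dir hu), hd, Complex.norm_real, Real.norm_of_nonneg hδ.le, one_mul]
    · have e1 : pvieZi 𝔓 m π.p.zs π.p.ts - (𝔓.ty π.p.ts).cm (pvlmH m) π.p.zs = (𝔓.Γ m).pin π.p.ts - (pvlmH m : ℂ) * (𝔓.ty π.p.ts).ym := by
        unfold pvieZi PvwTy.cm; ring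
      rw [e1]
      linarith
  · -- the door `j`
    have hw' : w ∈ pvzuO (𝔈.kit m ε) (pvfeZ (𝔓.Γ m) π.p) ((𝔓.Γ m).dout π.p.tt) π.p.l j := hw
    rw [pvzu_O_eq _ hδne, ed] at hw'
    have hw2 := pvccPl_mono _ _ hO' hw'
    rcases Nat.eq_zero_or_pos j with rfl | h0
    · obtain ⟨e, u, hu, hP, -, hE, -⟩ := (hF.doors m).out π.p.tt
      rw [hW.del] at hP hE
      have h1 := pvn1c_cmouth hδ.le hh.le hρ.le hu hP hE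
      rw [pvccZ_zero, pvccD_zero] at hw2
      refine Or.inl (Or.inr (pvn1c_cball (δ := pvlmDel c m) hδ.le hnD ?_ hw2))
      have e1 : pvfeZ (𝔓.Γ m) π.p - (𝔓.ty π.p.tt).cp (pvlmH m) π.p.zt = (𝔓.Γ m).pout π.p.tt - (pvlmH m : ℂ) * (𝔓.ty π.p.tt).yp := by
        unfold pvfeZ PvwTy.cp; ring
      rw [e1]
      linarith
    · exact Or.inl (Or.inl (pvn1c_cdoor _ _ _ h0 hj hw2))
  · -- the tile `j`
    have hw' : w ∈ pvzuK (𝔈.kit m ε) (pvfeZ (𝔓.Γ m) π.p) ((𝔓.Γ m).dout π.p.tt) π.p.l j := hw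
    rw [pvzu_K_eq _ hδne, ed] at hw'
    exact Or.inl (Or.inl (mem_biUnion (Finset.mem_coe.2 (Finset.mem_range.2 hj)) (pvccPl_mono _ _ (hK' _) hw')))

/-- the resampled region is not empty as soon as the door region contains its centre -/
theorem pvn1c_Cne (h0 : (0 : ℂ) ∈ (𝔈.kit m ε).O₀) (p : PvtsPat τ) : (pvieCc 𝔓 𝔈 m ε p).Nonempty :=
  ⟨pvieZi 𝔓 m p.zs p.ts, pvieDoor 𝔈 m ε (pvieZi 𝔓 m p.zs p.ts) ((𝔓.Γ m).din p.ts), by unfold pvieTiles; simp, ⟨0, h0, by simp [pvthSim]⟩⟩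

end cin

/-! ## 4. (X1) at the objects of record -/

section rec

variable {N : PvxNums} (hN : N.Ok) {c : ℝ} (nb : PvnaNb N) {x : ℂ} {R : ℝ} {m : ℕ} {π : PvxIx (pvxTau N)}

/-- the resampled region of the engine of record lies in `Yin` -/
theorem pvn1c_Cin_rec (c0 : 0 < c) (hm : N.m0 ≤ m) (ε : ℝ) (π : PvxIx (pvxTau N)) : pvieCc (pvxParOf N hN c) (pvnaEngRec N hN c nb) m ε π.p ⊆ ((pvxParOf N hN c).reg m π).Yin :=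
  pvn1c_Cin (pvxo_wf N hN c) (pvfhw_par N hN c) (pvffz_fine_at hN c0 hm) (pvnxe_del hN nb m ε) (pvnxe_O_tenth hN nb m ε) (pvnxe_K_lane hN nb m ε) (pvnxe_oK_ball hN nb c0 hm _ _) (pvnxe_iK_ball hN nb c0 hm _ _)

theorem pvn1c_Cne_rec (m : ℕ) (ε : ℝ) (p : PvtsPat (pvxTau N)) : (pvieCc (pvxParOf N hN c) (pvnaEngRec N hN c nb) m ε p).Nonempty := pvn1c_Cne (pvnxe_zero_O hN nb m ε) p

/-- **(X1) AT THE OBJECTS OF RECORD, NO HYPOTHESIS LEFT** but `PvjxGood` (free under `PvnaIn`: `pvjx_split_at` of 209) and the mesh `μ ≤ δ_m` -/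
theorem pvn1c_geo_rec (c0 : 0 < c) (hR : 0 < R) (hm : N.m0 ≤ m) (hπ : π ∈ pvxPatSet (pvxParOf N hN c) x R m) (hgood : PvjxGood (pvxParOf N hN c) m π) {μ : ℝ} (hμ : μ ≤ pvlmDel c m) :
    ∃ r : ℝ, 0 < r ∧ (∀ᶠ ε in 𝓝[>] (0 : ℝ), PvknGeo (pvxParOf N hN c).num (pvlmH m) ((pvxParOf N hN c).reg m π) x (5 * R) (6 * R) (pvieCc (pvxParOf N hN c) (pvnaEngRec N hN c nb) m ε π.p) r) ∧
      ∀ᶠ ε in 𝓝[>] (0 : ℝ), ∀ ω : PVSample, PvqfGood (pvConf ω) → L9Fine (pvxY ω) (Metric.closedBall x (6 * R)) μ → ∀ 𝔇 : PvwDat (pvxT ω), Pvn1bAct (pvxParOf N hN c) x R m π ω 𝔇 →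
        (∀ v ∈ 𝔇.fz, (v : ℂ) ∈ pvgeFar (pvieCc (pvxParOf N hN c) (pvnaEngRec N hN c nb) m ε π.p) r) ∧ ∀ v ∈ 𝔇.apx, (v : ℂ) ∉ ((pvxParOf N hN c).reg m π).Yin :=
  pvn1c_geo_cc (pvxo_wf N hN c) (pvfhw_par N hN c) (pvffz_fine_at hN c0 hm) hR hπ hgood hμ
    (Eventually.of_forall fun ε => ⟨pvn1c_Cne_rec hN nb m ε π.p, pvn1c_Cin_rec hN nb c0 hm ε π, pvnxe_clear hN nb c0 hm ε hπ⟩)

end rec

end Claimed.Agent.R289
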