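import Claimed.Agent.R289.Tr.InstE
import Claimed.Agent.R289.Exit.N1
import Claimed.Agent.R289.Tr.CellChain

/-!
# Row 289 (S0537), THE WALL, ROAD E, Exit/N1Meas : MEASURABILITY OF THE N1 INSTANCE, THE KIT SIDE AND THE SECTION GLUE      (helper282; split of 247 / 289, item (M4); prefix `pvnm_`)

WHAT.   The fields `mC mw mY mw0 cntY` of `PvdmSys.Hyp` (159), `PvdmSys.HypY` (193), `PvxnOk` (170) at `w = pvieWc`, `Y = pvieYc`, `C = pvieCc` (161, `Tr/InstE`).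
The HARD inputs (sections of the END LINKS: `pvieWo pvieWi`, `PvieLk.X`) are hypotheses here: owners 247 (`Tr/MeasG`), 289 (`Tr/MeasE`).      Everything else is proved here, from `PvthKit.WF`, `PvthKit.Fld`.

* sec. 1  flips, placed regions: `pvnm_fl`, `pvnm_sh`, `pvnm_sim`, `pvnm_door`
* sec. 2  the kit functions: `pvnm_g`, `pvnm_Wt`, `pvnm_Y`, `pvnm_gr` (GLOBALLY measurable)
* sec. 3  `mC`: `pvnm_tiles`, **`pvnm_Cc`**
* sec. 4  **THE SECTION GLUE**, generic in the section `r : Ω → Conf PvPt` (`r = S.R i Y σ`, `pvdyR C yf ω`, with or without a flip): `pvnm_Wc_sec`, `pvnm_Yc_sec`, a.e. forms `pvnm_Wc_sec_ae`, `pvnm_Yc_sec_ae`;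
          the integrands of `pvieKout pvieKin pvieKe`: `pvnm_wo_sec`, `pvnm_wi_sec`, `pvnm_we_sec`
* sec. 5  the sections of record are measurable maps: `pvnm_R`, `pvnm_R_fl`, `pvnm_dyR`; `cntY`: `pvnm_cnt`
* sec. 6  a function which is a.e. equal to a measurable representative ALONG the experiment: `pvnm_rep_sec` (form (a) of 289)
-/

set_option autoImplicit false

namespace Claimed.Agent.R289

open Set MeasureTheory Filter Topology Claims.C0465
open scoped ENNReal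

/-! ## 1. flips, placed regions -/

theorem pvnm_fl (b : Bool) : Measurable (pvieFl b) := by
  cases b
  · exact measurable_cfFlip
  · exact measurable_id

theorem pvnm_xfl (b : Bool) : Measurable (pvxnFl b) := by
  cases b
  · exact measurable_cfFlip
  · exact measurable_id

/-- a translated region -/
theorem pvnm_sh (z : ℂ) {S : Set ℂ} (hS : MeasurableSet S) : MeasurableSet (pvieSh z S) := by
  have e : pvieSh z S = (fun w : ℂ => w - z) ⁻¹' S := by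
    ext w
    constructor
    · rintro ⟨u, hu, rfl⟩
      show z + u - z ∈ S
      rwa [add_sub_cancel_left]
    · intro hw
      exact ⟨w - z, hw, by ring⟩
  rw [e]
  exact (measurable_id.sub_const z) hS

/-- a region placed by a similarity -/
theorem pvnm_sim (z : ℂ) {d : ℂ} (hd : d ≠ 0) {S : Set ℂ} (hS : MeasurableSet S) : MeasurableSet (pvthSim z d '' S) := by
  have e : pvthSim z d '' S = pvthInv z d ⁻¹' S := by
    ext w
    constructor
    · rintro ⟨u, hu, rfl⟩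
      show (z + d * u - z) / d ∈ S
      rwa [add_sub_cancel_left, mul_div_cancel_left₀ _ hd]
    · intro hw
      refine ⟨pvthInv z d w, hw, ?_⟩
      show z + d * ((w - z) / d) = w
      rw [mul_div_cancel₀ _ hd]
      ring
  rw [e]
  exact pvth_measurable_inv z d hS

section kit

variable {τ : Type} {c : ℝ} (𝔓 : PvxPar τ c) (𝔈 : PvieEng τ) {kit : PvthKit} {ε : ℝ}

theorem pvnm_door {m : ℕ} (hk : (𝔈.kit m ε).WF) (z : ℂ) {d : ℂ} (hd : d ≠ 0) : MeasurableSet (pvieDoor 𝔈 m ε z d) := pvnm_sim z hd hk.mO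

/-! ## 2. the kit functions -/

theorem pvnm_g (hk : kit.WF) (μ : Measure (Conf PvPt)) (z d : ℂ) (b : Bool) : Measurable fun η => kit.g μ z d (pvieFl b η) :=
  (pvth_g_measurable hk μ z d).comp (pvnm_fl b)

theorem pvnm_Wt0 (hk : kit.WF) (z : ℂ) {d : ℂ} (hd : d ≠ 0) (l : List PvtTurn) : Measurable (kit.Wt (pvP ε) z d l) := by
  unfold PvthKit.Wt
  exact Finset.measurable_fun_prod _ fun j _ => (pvth_g_measurable hk _ _ _).mul (pvth_w_measurable hk _ _ (pvthD_ne_zero hd l j) _)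

theorem pvnm_Wt (hk : kit.WF) (z : ℂ) {d : ℂ} (hd : d ≠ 0) (l : List PvtTurn) (b : Bool) : Measurable fun η => kit.Wt (pvP ε) z d l (pvieFl b η) :=
  (pvnm_Wt0 hk z hd l).comp (pvnm_fl b)

theorem pvnm_Y0 {X₀ : PvtTurn → Conf PvPt → ℂ} (hX : kit.Fld X₀) (z d : ℂ) (l : List PvtTurn) : Measurable (kit.Y X₀ z d l) := by
  unfold PvthKit.Y PvthKit.Xj
  exact Finset.measurable_fun_sum _ fun j _ => pvth_X_meas hX _ _ _

theorem pvnm_Y {X₀ : PvtTurn → Conf PvPt → ℂ} (hX : kit.Fld X₀) (z d : ℂ) (l : List PvtTurn) (b : Bool) : Measurable fun η => kit.Y X₀ z d l (pvieFl b η) :=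
  (pvnm_Y0 hX z d l).comp (pvnm_fl b)

/-- `1_G / μ(G)` of the reference plug -/
theorem pvnm_gr {m : ℕ} (hG : MeasurableSet (𝔈.rG m ε)) (z : ℂ) (b : Bool) : Measurable fun η => pvieGr 𝔈 m ε z (pvieFl b η) := by
  have h0 : Measurable (pvieGr 𝔈 m ε z) := by
    unfold pvieGr
    exact (measurable_one.indicator (measurable_cfMap (pvth_measurable_inv z 1) hG)).div_const _
  exact h0.comp (pvnm_fl b)

/-! ## 3. the field `mC` -/

/-- all the resampled regions of a chain are measurable -/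
theorem pvnm_tiles {m : ℕ} (hk : (𝔈.kit m ε).WF) (ho : ∀ t, MeasurableSet (𝔈.oK m t)) (hi : ∀ t, MeasurableSet (𝔈.iK m t))
    (hdo : ∀ t, (𝔓.Γ m).dout t ≠ 0) (hdi : ∀ t, (𝔓.Γ m).din t ≠ 0) (π : PvtsPat τ) : ∀ S ∈ pvieTiles 𝔓 𝔈 m ε π, MeasurableSet S := by
  intro S hS
  unfold pvieTiles at hS
  simp only [List.mem_append, List.mem_cons, List.not_mem_nil, or_false, List.mem_map, List.mem_range] at hS
  rcases hS with ((rfl | rfl | rfl) | ⟨j, -, rfl⟩) | ⟨j, -, rfl⟩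
  · exact pvnm_sh _ (ho _)
  · exact pvnm_sh _ (hi _)
  · exact pvnm_door 𝔈 hk _ (hdi _)
  · exact pvnm_door 𝔈 hk _ (pvthD_ne_zero (hdo _) _ _)
  · exact pvnm_sim _ (pvthD_ne_zero (hdo _) _ _) (hk.mK _)

/-- **`mC`** at `C = pvieCc` -/
theorem pvnm_Cc {m : ℕ} (hk : (𝔈.kit m ε).WF) (ho : ∀ t, MeasurableSet (𝔈.oK m t)) (hi : ∀ t, MeasurableSet (𝔈.iK m t))
    (hdo : ∀ t, (𝔓.Γ m).dout t ≠ 0) (hdi : ∀ t, (𝔓.Γ m).din t ≠ 0) (π : PvtsPat τ) : MeasurableSet (pvieCc 𝔓 𝔈 m ε π) := by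
  have e : pvieCc 𝔓 𝔈 m ε π = ⋃ S ∈ {S | S ∈ pvieTiles 𝔓 𝔈 m ε π}, S := by
    ext w
    simp only [pvieCc, mem_ofPred_eq, mem_iUnion, exists_prop]
  rw [e]
  exact MeasurableSet.biUnion (List.finite_toSet _).countable (pvnm_tiles 𝔓 𝔈 hk ho hi hdo hdi π)

/-! ## 4. the section glue -/

section glue

variable {Ω : Type*} [MeasurableSpace Ω] {r : Ω → Conf PvPt} {m : ℕ}

/-- **`mw`, generic section**: the weight of the chain along `r` -/
theorem pvnm_Wc_sec (hr : Measurable r) (hk : (𝔈.kit m ε).WF) (π : PvtsPat τ) (hdo : (𝔓.Γ m).dout π.tt ≠ 0)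
    (ho : Measurable fun p => pvieWo 𝔓 𝔈 m ε π.zt π.tt (r p)) (hi : Measurable fun p => pvieWi 𝔓 𝔈 m ε π.zs π.ts (r p)) :
    Measurable fun p => pvieWc 𝔓 𝔈 m ε π (r p) := by
  unfold pvieWc
  exact (ho.mul ((pvnm_Wt hk _ hdo _ _).comp hr)).mul (((pvnm_g hk _ _ _ _).comp hr).mul hi)

theorem pvnm_Wc_sec_ae {ν : Measure Ω} (hr : Measurable r) (hk : (𝔈.kit m ε).WF) (π : PvtsPat τ) (hdo : (𝔓.Γ m).dout π.tt ≠ 0)
    (ho : AEMeasurable (fun p => pvieWo 𝔓 𝔈 m ε π.zt π.tt (r p)) ν) (hi : AEMeasurable (fun p => pvieWi 𝔓 𝔈 m ε π.zs π.ts (r p)) ν) :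
    AEMeasurable (fun p => pvieWc 𝔓 𝔈 m ε π (r p)) ν := by
  unfold pvieWc
  exact (ho.mul ((pvnm_Wt hk _ hdo _ _).comp hr).aemeasurable).mul (((pvnm_g hk _ _ _ _).comp hr).aemeasurable.mul hi)

/-- **`mY`, generic section**: the closing sum of the chain along `r` -/
theorem pvnm_Yc_sec (hr : Measurable r) (hQ : (𝔈.kit m ε).Fld (𝔈.XQ m ε)) (hV : (𝔈.kit m ε).Fld (𝔈.XV m ε)) (a : ℂ) (π : PvtsPat τ)
    (ho : Measurable fun p => (pvieLo 𝔓 𝔈 m π.zt π.tt).X 𝔓.num (𝔓.col π.tt) a (r p)) (hi : Measurable fun p => (pvieLi 𝔓 𝔈 m π.zs π.ts).X 𝔓.num (𝔓.col π.ts) a (r p)) :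
    Measurable fun p => pvieYc 𝔓 𝔈 m ε a π (r p) := by
  unfold pvieYc
  exact (ho.add ((pvnm_Y (pvcn_fld hQ hV a) _ _ _ _).comp hr)).add hi

theorem pvnm_Yc_sec_ae {ν : Measure Ω} (hr : Measurable r) (hQ : (𝔈.kit m ε).Fld (𝔈.XQ m ε)) (hV : (𝔈.kit m ε).Fld (𝔈.XV m ε)) (a : ℂ) (π : PvtsPat τ)
    (ho : AEMeasurable (fun p => (pvieLo 𝔓 𝔈 m π.zt π.tt).X 𝔓.num (𝔓.col π.tt) a (r p)) ν)
    (hi : AEMeasurable (fun p => (pvieLi 𝔓 𝔈 m π.zs π.ts).X 𝔓.num (𝔓.col π.ts) a (r p)) ν) :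
    AEMeasurable (fun p => pvieYc 𝔓 𝔈 m ε a π (r p)) ν := by
  unfold pvieYc
  exact (ho.add ((pvnm_Y (pvcn_fld hQ hV a) _ _ _ _).comp hr).aemeasurable).add hi

/-- the weight inside `pvieKout` along `r` -/
theorem pvnm_wo_sec {ν : Measure Ω} (hr : Measurable r) (hk : (𝔈.kit m ε).WF) (z : ℂ) (t : τ) (ho : AEMeasurable (fun p => pvieWo 𝔓 𝔈 m ε z t (r p)) ν) :
    AEMeasurable (fun p => (𝔈.kit m ε).g (pvP ε) (pvieZo 𝔓 m z t) ((𝔓.Γ m).dout t) (pvieFl (𝔓.col t) (r p)) * pvieWo 𝔓 𝔈 m ε z t (r p)) ν :=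
  ((pvnm_g hk _ _ _ _).comp hr).aemeasurable.mul ho

/-- the weight inside `pvieKin` along `r` -/
theorem pvnm_wi_sec {ν : Measure Ω} (hr : Measurable r) (hk : (𝔈.kit m ε).WF) (z : ℂ) (t : τ) (hi : AEMeasurable (fun p => pvieWi 𝔓 𝔈 m ε z t (r p)) ν) :
    AEMeasurable (fun p => (𝔈.kit m ε).g (pvP ε) (pvieZi 𝔓 m z t) ((𝔓.Γ m).din t) (pvieFl (𝔓.col t) (r p)) * pvieWi 𝔓 𝔈 m ε z t (r p)) ν :=
  ((pvnm_g hk _ _ _ _).comp hr).aemeasurable.mul hi

/-- the weight inside `pvieKe` along `r` -/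
theorem pvnm_we_sec {ν : Measure Ω} (hr : Measurable r) (hG : MeasurableSet (𝔈.rG m ε)) (z : ℂ) (t : τ) (he : AEMeasurable (fun p => pvieWe 𝔓 𝔈 m ε z t (r p)) ν) :
    AEMeasurable (fun p => pvieGr 𝔈 m ε (pvieZu 𝔓 m z t) (pvieFl (𝔓.col t) (r p)) * pvieWe 𝔓 𝔈 m ε z t (r p)) ν :=
  ((pvnm_gr 𝔈 hG _ _).comp hr).aemeasurable.mul he

end glue

end kit

/-! ## 5. the sections of record -/

section rec

variable {ι : Type*}

/-- `cntY` -/
theorem pvnm_cnt {Y : Set ℂ} (h : DelGood Y) : Y.Countable := h.lf.countable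

/-- the experiment of 159, as a measurable map -/
theorem pvnm_R (S : PvdmSys ι) (hC : MeasurableSet S.C) {Y : Set ℂ} (hY : DelGood Y) (i : ι) (σ : ℂ → Bool) :
    Measurable fun p : (ℂ → Bool) × Conf PvPt => S.R i Y σ p.1 p.2 := S.measurable_R hC (pvnm_cnt hY) i σ

/-- the experiment of 159 read by a rim of colour `b` -/
theorem pvnm_R_fl (S : PvdmSys ι) (hC : MeasurableSet S.C) {Y : Set ℂ} (hY : DelGood Y) (i : ι) (σ : ℂ → Bool) (b : Bool) :
    Measurable fun p : (ℂ → Bool) × Conf PvPt => pvxnFl b (S.R i Y σ p.1 p.2) := (pvnm_xfl b).comp (pvnm_R S hC hY i σ)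

/-- the hybrid resampling of 193 at a fixed configuration -/
theorem pvnm_dyR {C : Set ℂ} (hC : MeasurableSet C) (yf : Conf PvPt → Set ℂ) {Y : Set ℂ} (hY : DelGood Y) (σ : ℂ → Bool) : Measurable fun p => pvdyR C yf (cfOf Y σ) p := by
  have h := pvdy_section_meas (f := id) C yf (Y := Y)
    ((Conf.measurable_spl (pvdm_measurableSet_U hC)).comp (((pvdm_measurable_cfOf (pvnm_cnt hY)).comp measurable_fst).prodMk measurable_snd)) σ
  exact h

end rec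

/-! ## 6. representatives -/

/-- **form (a) of 289**: `f = f'` on a good set `𝒢`, `f'` measurable, the section stays a.e. in `𝒢`: the section of `f` is a.e. measurable -/
theorem pvnm_rep_sec {Ω β : Type*} [MeasurableSpace Ω] [MeasurableSpace β] {ν : Measure Ω} {r : Ω → Conf PvPt} (hr : Measurable r) {f f' : Conf PvPt → β} (hf' : Measurable f')
    {𝒢 : Set (Conf PvPt)} (hfg : ∀ η ∈ 𝒢, f η = f' η) (hg : ∀ᵐ p ∂ν, r p ∈ 𝒢) : AEMeasurable (fun p => f (r p)) ν :=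
  ⟨fun p => f' (r p), hf'.comp hr, hg.mono fun _ hp => hfg _ hp⟩

end Claimed.Agent.R289
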