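import Claimed.Agent.R289.Exit.N1XQ
import Claimed.Agent.R289.Tr.HookWMI
import Claimed.Agent.R289.Tr.FitFz

/-!
# Row 289 (S0537), THE WALL, ROAD E, Exit/N1QM : HOOK-DET FOR `WO` AT THE MODEL = `PvwhDet` (5, `Exit/N1Q`) PROVED      (helper5; prefix `pvwh_`)

sec. 4  **`pvwh_fitH`**   the numbers `PvhvFitH` of 155 (`Tr/HookWM`) at the regions of record `pvfeRegAt` (209): `PvfeDoors` (dominant direction, `nd`) + `PvfeIx.sep` + `8 ρ ≤ ρ₁ ≤ ρ₂ ≤ 1` + `b + 2 ≤ 2 b₂`;   `r := ρ₂ h + 3 ρ h`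
sec. 5  **`pvwh_det`**    `PvkqCore` + bounded + `PvwhDet 𝔓 x R m π μ (pvkqEv (δ/100) false RW xa xb)` for ANY `𝔓` with `Wf`, `PvfhWf`, at a fine level, `π ∈ pvxPatSet`, `Yout ⊆ closedBall x (6R)`, `μ ≤ δ`
        = `pvhv_det` (155) + `pvhs_geo_pat` (148) + `pvffz_model` (274) + mesh inclusions
sec. 6  **`pvwh_qbx_kn`** `Pvn1bQbx` at the kit of record with layer 1 of the guard (through `pvnxq_qbx_kn` of 60)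
sec. 7  at `pvxParOf N hN c`, `N.m0 ≤ m`
-/

set_option autoImplicit false
set_option linter.unusedVariables false
set_option linter.unusedSectionVars false

namespace Claimed.Agent.R289

open MeasureTheory Filter Topology Set Claims.C0465
open scoped ENNReal

/-! ## 4. the numbers of 155 at the regions of record -/

section fitH

variable {τ : Type}

theorem pvwh_dir_mem {u : ℤ × ℤ} (hu : PvfeDir u) : pvtZ u ∈ pvtzdDir := by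
  rcases hu with rfl | rfl | rfl | rfl <;> simp [pvtZ, pvtzdDir]

theorem pvwh_N_le_norm (w : ℂ) : pvccN w ≤ ‖w‖ := max_le (Complex.abs_re_le_norm w) (Complex.abs_im_le_norm w)

/-- one side of `adm` -/
theorem pvwh_adm {N : PvwNum} {h : ℝ} (hh : 0 < h) (t : PvwTy) {y U z : ℂ} (hy : |pvccN y - (2 * t.b2 + t.k * N.rho1)| ≤ N.rho / 4) (hU : (y * (starRingEnd ℂ) U).re = pvccN y) :
    pvwRad N h t t.k + ((starRingEnd ℂ) U * z).re ≤ ((starRingEnd ℂ) U * (z + (h : ℂ) * y)).re + N.rho * h / 4 := by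
  have e1 : ((starRingEnd ℂ) U * (z + (h : ℂ) * y)).re = ((starRingEnd ℂ) U * z).re + h * (y * (starRingEnd ℂ) U).re := by
    simp only [Complex.mul_re, Complex.add_re, Complex.add_im, Complex.mul_im, Complex.ofReal_re, Complex.ofReal_im, Complex.conj_re, Complex.conj_im]
    ring
  rw [e1, hU]
  unfold pvwRad
  have e2 := (abs_le.1 hy).1
  nlinarith

/-- one side of `gate` -/
theorem pvwh_gate {N : PvwNum} {h : ℝ} (hh : 0 < h) (t : PvwTy) {y z : ℂ} (hy : |pvccN y - (2 * t.b2 + t.k * N.rho1)| ≤ N.rho / 4) (h1 : 0 ≤ N.rho1) :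
    (2 * t.b2 - N.rho / 4) * h ≤ ‖z + (h : ℂ) * y - z‖ := by
  rw [add_sub_cancel_left, norm_mul, Complex.norm_real, Real.norm_eq_abs, abs_of_pos hh, mul_comm]
  refine mul_le_mul_of_nonneg_left ?_ hh.le
  have e2 := (abs_le.1 hy).1
  have e3 := pvwh_N_le_norm y
  have e4 : 0 ≤ (t.k : ℝ) * N.rho1 := mul_nonneg (Nat.cast_nonneg _) h1
  linarith

/-- one side of `far` -/
theorem pvwh_far {N : PvwNum} {h : ℝ} (hh : 0 < h) (h1 : 0 ≤ N.rho1) (hρ : N.rho ≤ 1) (t s : PvwTy) (hkt : t.k ≤ N.K) (hks : s.k ≤ N.K) {y zt zs : ℂ}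
    (hy : |pvccN y - (2 * s.b2 + s.k * N.rho1)| ≤ N.rho / 4) (hsep : 2 * (pvwRad N h s N.K + pvwRad N h t N.K) + 8 * h ≤ ‖zs - zt‖) :
    ∀ w ∈ pvwSq zt (pvwRad N h t t.k), N.rho * h < ‖w - (zs + (h : ℂ) * y)‖ := by
  intro w hw
  have t1 := pvwh_tip_le hh h1 s hks hy
  have t2 := pvffz_sq_norm hw
  have t3 : pvwRad N h t t.k ≤ pvwRad N h t N.K := by
    unfold pvwRad
    have : (t.k : ℝ) * N.rho1 ≤ N.K * N.rho1 := mul_le_mul_of_nonneg_right (by exact_mod_cast hkt) h1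
    nlinarith
  have e1 : zs - zt = (w - zt) - (w - (zs + (h : ℂ) * y)) - (h : ℂ) * y := by ring
  have t4 : ‖zs - zt‖ ≤ ‖w - zt‖ + ‖w - (zs + (h : ℂ) * y)‖ + ‖(h : ℂ) * y‖ := by
    rw [e1]
    exact (norm_sub_le _ _).trans (add_le_add (norm_sub_le _ _) le_rfl)
  have t5 : N.rho * h ≤ h := by nlinarith
  linarith

/-- **`PvhvFitH` (155) AT THE REGIONS OF RECORD** -/
theorem pvwh_fitH {Γ : PvtsGeo τ} {ty : τ → PvwTy} (cp cm : τ → Set ℂ) {N : PvwNum} {h : ℝ} {p : PvtsPat τ} {Z : Set (ℤ × ℤ)} (hD : PvfeDoors Γ ty N h) (hIx : PvfeIx Γ ty N h p Z)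
    (hδ : 0 < Γ.δ) (hfine : 1000 * Γ.δ ≤ N.rho * h) (hh : 0 < h) (h8 : 8 * N.rho ≤ N.rho1) (h12 : N.rho1 ≤ N.rho2) (h2 : N.rho2 ≤ 1) (hkt : (ty p.tt).k ≤ N.K) (hks : (ty p.ts).k ≤ N.K)
    (hbt0 : 0 ≤ (ty p.tt).b) (hbs0 : 0 ≤ (ty p.ts).b) (hbt : (ty p.tt).b + 2 ≤ 2 * (ty p.tt).b2) (hbs : (ty p.ts).b + 2 ≤ 2 * (ty p.ts).b2) {μ : ℝ} (hμ0 : 0 < μ) (hμ : μ ≤ Γ.δ) :
    PvhvFitH N h (pvfeRegAt Γ ty cp cm N h p) Γ.δ μ (N.rho2 * h + 3 * (N.rho * h)) (Γ.dout p.tt) (- Γ.din p.ts) (pvfeZ Γ p) (pvfeD Γ p) p.l := by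
  obtain ⟨e, u, hu, -, o2, -, o4⟩ := hD.out p.tt
  obtain ⟨e', u', hu', -, i2, -, i4⟩ := hD.inn p.ts
  have ha : 0 < N.rho * h := by linarith
  have hρ0 : 0 < N.rho := by
    by_contra hn
    have : N.rho * h ≤ 0 := mul_nonpos_of_nonpos_of_nonneg (not_lt.1 hn) hh.le
    linarith
  have h1 : 0 ≤ N.rho1 := by linarith
  have hρ1 : N.rho ≤ 1 := by linarith
  have e1 : 8 * (N.rho * h) ≤ N.rho1 * h := by nlinarith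
  have e2 : N.rho1 * h ≤ N.rho2 * h := mul_le_mul_of_nonneg_right h12 hh.le
  have e3 : N.rho2 * h ≤ h := by nlinarith
  have kt : 0 ≤ ((ty p.tt).k : ℝ) * N.rho1 := mul_nonneg (Nat.cast_nonneg _) h1
  have ks : 0 ≤ ((ty p.ts).k : ℝ) * N.rho1 := mul_nonneg (Nat.cast_nonneg _) h1
  have rt : ((ty p.tt).b + 2) * h ≤ pvwRad N h (ty p.tt) (ty p.tt).k := by
    unfold pvwRad
    exact mul_le_mul_of_nonneg_right (by linarith) hh.le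
  have rs : ((ty p.ts).b + 2) * h ≤ pvwRad N h (ty p.ts) (ty p.ts).k := by
    unfold pvwRad
    exact mul_le_mul_of_nonneg_right (by linarith) hh.le
  have bt : 0 ≤ (ty p.tt).b * h := mul_nonneg hbt0 hh.le
  have bs : 0 ≤ (ty p.ts).b * h := mul_nonneg hbs0 hh.le
  have din : - Γ.din p.ts = pvtZ u' := by rw [i2, neg_neg]
  refine
    { m0 := hμ0
      mδ := hμ
      dir_t := by rw [o2]; exact pvwh_dir_mem hu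
      dir_s := by rw [din]; exact pvwh_dir_mem hu'
      adm_t := ?_
      adm_s := ?_
      big_t := ?_
      big_s := ?_
      core_t := ?_
      core_s := ?_
      r1 := by linarith
      r2 := by linarith
      r3 := by linarith
      gate_t := ?_
      gate_s := ?_
      far_ts := ?_
      far_st := ?_
      out := Subset.rfl
      reg := Subset.rfl }
  · rw [o2]; exact pvwh_adm hh (ty p.tt) (hD.nd_p p.tt) o4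
  · rw [din]; exact pvwh_adm hh (ty p.ts) (hD.nd_m p.ts) i4
  · show N.rho * h / 4 + 2 * μ ≤ pvwRad N h (ty p.tt) (ty p.tt).k
    linarith
  · show N.rho * h / 4 + 2 * μ ≤ pvwRad N h (ty p.ts) (ty p.ts).k
    linarith
  · show (ty p.tt).b * h ≤ pvwRad N h (ty p.tt) (ty p.tt).k
    linarith
  · show (ty p.ts).b * h ≤ pvwRad N h (ty p.ts) (ty p.ts).k
    linarith
  · have g := pvwh_gate hh (ty p.tt) (z := p.zt) (hD.nd_p p.tt) h1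
    show N.rho2 * h + 3 * (N.rho * h) + 4 * μ + (ty p.tt).b * h ≤ ‖p.zt + (h : ℂ) * (ty p.tt).yp - p.zt‖
    have : ((ty p.tt).b + 2) * h ≤ 2 * (ty p.tt).b2 * h := mul_le_mul_of_nonneg_right hbt hh.le
    nlinarith
  · have g := pvwh_gate hh (ty p.ts) (z := p.zs) (hD.nd_m p.ts) h1
    show N.rho2 * h + 3 * (N.rho * h) + 4 * μ + (ty p.ts).b * h ≤ ‖p.zs + (h : ℂ) * (ty p.ts).ym - p.zs‖
    have : ((ty p.ts).b + 2) * h ≤ 2 * (ty p.ts).b2 * h := mul_le_mul_of_nonneg_right hbs hh.le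
    nlinarith
  · exact pvwh_far hh h1 hρ1 (ty p.tt) (ty p.ts) hkt hks (hD.nd_m p.ts) hIx.sep
  · refine pvwh_far hh h1 hρ1 (ty p.ts) (ty p.tt) hks hkt (hD.nd_p p.tt) ?_
    rw [norm_sub_rev, add_comm (pvwRad N h (ty p.tt) N.K)]
    exact hIx.sep

end fitH

/-! ## 5. HOOK-DET for `WO`, any well formed parameter with the regions and the doors of record -/

section det

variable {τ : Type} {c : ℝ} {𝔓 : PvxPar τ c} {x : ℂ} {R : ℝ} {m : ℕ} {π : PvxIx τ}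

/-- the grid centre of a tip cell lies in `closedBall x (4R)` -/
theorem pvwh_tip_in {N : PvwNum} {h : ℝ} (hh : 0 < h) (h1 : 0 ≤ N.rho1) (hρ : N.rho ≤ 1) (t : PvwTy) (hk : t.k ≤ N.K) {y z : ℂ} (hy : |pvccN y - (2 * t.b2 + t.k * N.rho1)| ≤ N.rho / 4)
    (hz : ‖z - x‖ ≤ 3 * R) (hb : 2 * pvwRad N h t N.K + h ≤ R) : ‖z + (h : ℂ) * y - x‖ ≤ 4 * R - h / 2 := by
  have t1 := pvwh_tip_le hh h1 t hk hy
  have e1 : z + (h : ℂ) * y - x = (z - x) + (h : ℂ) * y := by ring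
  have t2 : ‖z + (h : ℂ) * y - x‖ ≤ ‖z - x‖ + ‖(h : ℂ) * y‖ := by rw [e1]; exact norm_add_le _ _
  have t5 : N.rho * h ≤ h := by nlinarith
  linarith

/-- **HOOK-DET FOR `WO` AT THE PATTERNS OF THE MODEL**: the hooked outer corridor of 155 is a region with a core, bounded, and its white pattern gives `WO(D)` -/
theorem pvwh_det (hW : 𝔓.Wf) (hF : PvfhWf 𝔓) (hfine : 1000 * pvlmDel c m ≤ 𝔓.num.rho * pvlmH m) (h8 : 8 * 𝔓.num.rho ≤ 𝔓.num.rho1) (hπ : π ∈ pvxPatSet 𝔓 x R m)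
    (hYo : (𝔓.reg m π).Yout ⊆ Metric.closedBall x (6 * R)) {μ : ℝ} (hμ0 : 0 < μ) (hμ : μ ≤ pvlmDel c m) :
    ∃ (RW : Set ℂ) (xa xb : ℂ), PvkqCore (pvlmDel c m / 100) RW xa xb ∧ Bornology.IsBounded RW ∧ PvwhDet 𝔓 x R m π μ (pvkqEv (pvlmDel c m / 100) false RW xa xb) := by
  obtain ⟨nt, ns, G⟩ := pvhs_geo_pat hW.toWfB (hW.del m) (hF.doors m) hfine hπ
  have hh := pvlm_H_pos m
  have hd := pvlm_Del_pos c m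
  have hIx := pvzu_pat_ix hπ
  have h1 : 0 ≤ 𝔓.num.rho1 := (hW.rho0.trans hW.rho1).le
  have hρ1 : 𝔓.num.rho ≤ 1 := by linarith [hW.rho1, hW.rho2, hW.rho3]
  have H := pvwh_fitH 𝔓.cp 𝔓.cm (hF.doors m) hIx (by rw [hW.del]; exact hd) (by rw [hW.del]; exact hfine) hh h8 hW.rho2.le hW.rho3.le (hW.lev _) (hW.lev _)
    ((hW.a0 _).trans (hW.ab _)).le ((hW.a0 _).trans (hW.ab _)).le (hF.b_gap _) (hF.b_gap _) hμ0 (by rw [hW.del]; exact hμ)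
  rw [hW.del] at H
  refine ⟨_, _, _, G.core, (Metric.isBounded_closedBall).subset G.bdd, ?_⟩
  have hzs := hπ.1.2.2.2.1
  have hzt := hπ.1.2.2.2.2.1
  have hbs := hπ.2.2.1
  have hbt := hπ.2.2.2.1
  have hts := pvwh_tip_in (x := x) (R := R) hh h1 hρ1 (𝔓.ty π.p.ts) (hW.lev _) ((hF.doors m).nd_m π.p.ts) hzs hbs
  have htt := pvwh_tip_in (x := x) (R := R) hh h1 hρ1 (𝔓.ty π.p.tt) (hW.lev _) ((hF.doors m).nd_p π.p.tt) hzt hbt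
  have hRad : 0 ≤ pvwRad 𝔓.num (pvlmH m) (𝔓.ty π.p.tt) 𝔓.num.K := by
    unfold pvwRad
    have := hF.b_gap π.p.tt
    have := ((hW.a0 π.p.tt).trans (hW.ab _)).le
    have : 0 ≤ (𝔓.num.K : ℝ) * 𝔓.num.rho1 := mul_nonneg (Nat.cast_nonneg _) h1
    exact mul_nonneg (by linarith) hh.le
  have hhR : pvlmH m ≤ R := by linarith
  have e0 : 𝔓.num.rho * pvlmH m ≤ pvlmH m / 8 := by nlinarith [hW.rho2, hW.rho3]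
  have e3 : 𝔓.num.rho2 * pvlmH m ≤ pvlmH m := by nlinarith [hW.rho3]
  have hrr : 𝔓.num.rho2 * pvlmH m + 3 * (𝔓.num.rho * pvlmH m) + 3 * μ ≤ 3 * R := by linarith
  intro Y hY hdn 𝔇 hOk hZs hZt hg κ σ hκ hσ
  have hFZ : ∀ v ∈ 𝔇.fzY, ∀ i, i < π.p.l.length → pvlmDel c m < ‖(v : ℂ) - pvccC (pvfeZ (𝔓.Γ m) π.p) (pvfeD (𝔓.Γ m) π.p) π.p.l i‖ := by
    intro v hv i hi
    have := pvffz_model hW hF (by linarith) hπ hOk hZs hZt hv i hi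
    rw [hW.del] at this
    linarith
  rw [hF.reg_eq] at hOk hYo ⊢
  have hwf : (pvfeRegAt (𝔓.Γ m) 𝔓.ty 𝔓.cp 𝔓.cm 𝔓.num (pvlmH m) π.p).Wf := by rw [← hF.reg_eq m π]; exact hW.reg_wf m π
  refine pvhv_det hY (delb_pl_eq hY) hOk hwf G H hFZ ?_ ?_ ?_ hκ hσ
  · refine hdn.mono Subset.rfl (fun w hw => ?_) le_rfl
    rw [mem_closedBall_iff_norm] at hw ⊢
    have e1 : w - x = (w - (π.p.zt + (pvlmH m : ℂ) * (𝔓.ty π.p.tt).yp)) + (π.p.zt + (pvlmH m : ℂ) * (𝔓.ty π.p.tt).yp - x) := by ring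
    have hw' : ‖w - (π.p.zt + (pvlmH m : ℂ) * (𝔓.ty π.p.tt).yp)‖ ≤ 𝔓.num.rho2 * pvlmH m + 3 * (𝔓.num.rho * pvlmH m) + 3 * μ := hw
    rw [e1]
    refine (norm_add_le _ _).trans ?_
    linarith
  · refine hdn.mono Subset.rfl (fun w hw => ?_) le_rfl
    rw [mem_closedBall_iff_norm] at hw ⊢
    have e1 : w - x = (w - (π.p.zs + (pvlmH m : ℂ) * (𝔓.ty π.p.ts).ym)) + (π.p.zs + (pvlmH m : ℂ) * (𝔓.ty π.p.ts).ym - x) := by ring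
    have hw' : ‖w - (π.p.zs + (pvlmH m : ℂ) * (𝔓.ty π.p.ts).ym)‖ ≤ 𝔓.num.rho2 * pvlmH m + 3 * (𝔓.num.rho * pvlmH m) + 3 * μ := hw
    rw [e1]
    refine (norm_add_le _ _).trans ?_
    linarith
  · intro w hw
    have hw6 := hYo (H.out (G.out hw))
    refine hdn.mono Subset.rfl (fun w' hw' => ?_) le_rfl
    rw [mem_closedBall_iff_norm] at hw' hw6 ⊢
    have e1 : w' - x = (w' - w) + (w - x) := by ring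
    rw [e1]
    refine (norm_add_le _ _).trans ?_
    linarith

end det

/-! ## 6. down to `Pvn1bQbx` -/

section qbx

variable {τ : Type} {c : ℝ} {𝔓 : PvxPar τ c} {x : ℂ} {R : ℝ} {m : ℕ} {π : PvxIx τ}

/-- **`Pvn1bQbx`, KIT FREE** (roof `pvnxq_qbx_ev` of 60): ONE `q ≠ 0` for every family of kits with `E ⟹ g₀ ⊆ closedBall x (5R)`, `WK ⟹ W`, `q_kit ≤ q` -/
theorem pvwh_qbx_free (a : ℂ) (hW : 𝔓.Wf) (hF : PvfhWf 𝔓) (hfine : 1000 * pvlmDel c m ≤ 𝔓.num.rho * pvlmH m) (h8 : 8 * 𝔓.num.rho ≤ 𝔓.num.rho1)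
    (hLR : 𝔓.𝔐.L * pvlmH m + pvlmH m ≤ R) (hR : 0 < R) (hπ : π ∈ pvxPatSet 𝔓 x R m) (hYo : (𝔓.reg m π).Yout ⊆ Metric.closedBall x (6 * R)) :
    ∃ q : ℝ≥0∞, q ≠ 0 ∧ ∀ (𝔎s : ℝ → PvxnKit) (B₀ : Set ℂ), Bornology.IsBounded B₀ → ∀ r₀ r₁ : ℝ, 0 < r₀ → (∀ᶠ ε in 𝓝[>] (0 : ℝ), (𝔎s ε).C ⊆ B₀ ∧ r₀ ≤ (𝔎s ε).r ∧ (𝔎s ε).r ≤ r₁) →
      (∀ ε, (𝔎s ε).q ≤ q) →
      (∀ (ε : ℝ) (Y : Set ℂ) (𝔇 : PvwDat (delbPl Y).toMap) (σ : ↥Y → Bool), (𝔎s ε).E Y 𝔇 σ → ∀ v ∈ 𝔇.g.verts, ‖(v : ℂ) - x‖ ≤ 5 * R) →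
      (∀ (ε : ℝ) (Y : Set ℂ) (𝔇 : PvwDat (delbPl Y).toMap) (σ : ↥Y → Bool), 𝔇.WK Subtype.val (𝔓.reg m π) x (5 * R) (6 * R) σ → (𝔎s ε).W Y 𝔇 σ) →
      Pvn1bQbx 𝔓 m π a 𝔎s := by
  obtain ⟨RW, xa, xb, hcore, hb, hdet⟩ := pvwh_det hW hF hfine h8 hπ hYo (pvlm_Del_pos c m) le_rfl
  obtain ⟨hμ, hμ4⟩ := pvnbk_mu hW hπ hLR
  exact pvnxq_qbx_ev hW hR hπ hμ hμ4 hYo (pvlm_Del_pos c m) hcore hb hdet

/-- **`Pvn1bQbx` AT THE KIT OF RECORD WITH LAYER 1 OF THE GUARD** (roof `pvnxq_qbx_kn` of 60) = `exit_pvn1a_qbx` of 159 (`Exit/N1All`) up to delta -/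
theorem pvwh_qbx_kn (a : ℂ) (hW : 𝔓.Wf) (hF : PvfhWf 𝔓) (hfine : 1000 * pvlmDel c m ≤ 𝔓.num.rho * pvlmH m) (h8 : 8 * 𝔓.num.rho ≤ 𝔓.num.rho1)
    (hLR : 𝔓.𝔐.L * pvlmH m + pvlmH m ≤ R) (hR : 0 < R) (hπ : π ∈ pvxPatSet 𝔓 x R m) (hYo : (𝔓.reg m π).Yout ⊆ Metric.closedBall x (6 * R)) :
    ∃ q : ℝ≥0∞, q ≠ 0 ∧ ∀ (Cs : ℝ → Set ℂ) (r : ℝ) (B : Set ℂ) (mB : MeasurableSet B) (B₀ : Set ℂ), Bornology.IsBounded B₀ → 0 < r → (∀ᶠ ε in 𝓝[>] (0 : ℝ), Cs ε ⊆ B₀) →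
      Pvn1bQbx 𝔓 m π a fun ε => (pvknKit 𝔓 x R m π (Cs ε) r B mB q).guardE fun Y 𝔇 _ => ∀ k, k ≤ 𝔇.g.n → ‖((𝔇.g.v k : ↥Y) : ℂ) - x‖ ≤ 5 * R := by
  obtain ⟨RW, xa, xb, hcore, hb, hdet⟩ := pvwh_det hW hF hfine h8 hπ hYo (pvlm_Del_pos c m) le_rfl
  obtain ⟨hμ, hμ4⟩ := pvnbk_mu hW hπ hLR
  exact pvnxq_qbx_kn hW hR hπ hμ hμ4 hYo (pvlm_Del_pos c m) hcore hb hdet

end qbx

/-! ## 7. at the parameters of record -/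

section model

variable {N : PvxNums} (hN : N.Ok) {c : ℝ} (c0 : 0 < c) {x : ℂ} {R : ℝ} {m : ℕ} {π : PvxIx (pvxTau N)}

include c0 in
/-- **HOOK-DET FOR `WO` AT `pvxParOf`** -/
theorem pvwh_det_model (hm : N.m0 ≤ m) (hπ : π ∈ pvxPatSet (pvxParOf N hN c) x R m) (hYo : ((pvxParOf N hN c).reg m π).Yout ⊆ Metric.closedBall x (6 * R)) {μ : ℝ} (hμ0 : 0 < μ) (hμ : μ ≤ pvlmDel c m) :
    ∃ (RW : Set ℂ) (xa xb : ℂ), PvkqCore (pvlmDel c m / 100) RW xa xb ∧ Bornology.IsBounded RW ∧ PvwhDet (pvxParOf N hN c) x R m π μ (pvkqEv (pvlmDel c m / 100) false RW xa xb) := by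
  have hd := pvlm_Del_pos c m
  have h1 := pvxo_fine hN c0 hm
  exact pvwh_det (pvxo_wf N hN c) (pvfhw_par N hN c) (by show 1000 * pvlmDel c m ≤ N.rho * pvlmH m; linarith) hN.rho1 hπ hYo hμ0 hμ

include c0 in
/-- **`Pvn1bQbx` AT `pvxParOf`, KIT FREE** -/
theorem pvwh_qbx_free_model (a : ℂ) (hR : 0 < R) (hm : N.m0 ≤ m) (hπ : π ∈ pvxPatSet (pvxParOf N hN c) x R m) (hYo : ((pvxParOf N hN c).reg m π).Yout ⊆ Metric.closedBall x (6 * R)) :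
    ∃ q : ℝ≥0∞, q ≠ 0 ∧ ∀ (𝔎s : ℝ → PvxnKit) (B₀ : Set ℂ), Bornology.IsBounded B₀ → ∀ r₀ r₁ : ℝ, 0 < r₀ → (∀ᶠ ε in 𝓝[>] (0 : ℝ), (𝔎s ε).C ⊆ B₀ ∧ r₀ ≤ (𝔎s ε).r ∧ (𝔎s ε).r ≤ r₁) →
      (∀ ε, (𝔎s ε).q ≤ q) →
      (∀ (ε : ℝ) (Y : Set ℂ) (𝔇 : PvwDat (delbPl Y).toMap) (σ : ↥Y → Bool), (𝔎s ε).E Y 𝔇 σ → ∀ v ∈ 𝔇.g.verts, ‖(v : ℂ) - x‖ ≤ 5 * R) →
      (∀ (ε : ℝ) (Y : Set ℂ) (𝔇 : PvwDat (delbPl Y).toMap) (σ : ↥Y → Bool), 𝔇.WK Subtype.val ((pvxParOf N hN c).reg m π) x (5 * R) (6 * R) σ → (𝔎s ε).W Y 𝔇 σ) →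
      Pvn1bQbx (pvxParOf N hN c) m π a 𝔎s := by
  have hd := pvlm_Del_pos c m
  have h1 := pvxo_fine hN c0 hm
  exact pvwh_qbx_free a (pvxo_wf N hN c) (pvfhw_par N hN c) (by show 1000 * pvlmDel c m ≤ N.rho * pvlmH m; linarith) hN.rho1 (pvxo_LR N hN c hπ) hR hπ hYo

include c0 in
/-- **`Pvn1bQbx` AT `pvxParOf`, KIT OF RECORD** -/
theorem pvwh_qbx_kn_model (a : ℂ) (hR : 0 < R) (hm : N.m0 ≤ m) (hπ : π ∈ pvxPatSet (pvxParOf N hN c) x R m) (hYo : ((pvxParOf N hN c).reg m π).Yout ⊆ Metric.closedBall x (6 * R)) :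
    ∃ q : ℝ≥0∞, q ≠ 0 ∧ ∀ (Cs : ℝ → Set ℂ) (r : ℝ) (B : Set ℂ) (mB : MeasurableSet B) (B₀ : Set ℂ), Bornology.IsBounded B₀ → 0 < r → (∀ᶠ ε in 𝓝[>] (0 : ℝ), Cs ε ⊆ B₀) →
      Pvn1bQbx (pvxParOf N hN c) m π a fun ε => (pvknKit (pvxParOf N hN c) x R m π (Cs ε) r B mB q).guardE fun Y 𝔇 _ => ∀ k, k ≤ 𝔇.g.n → ‖((𝔇.g.v k : ↥Y) : ℂ) - x‖ ≤ 5 * R := by
  have hd := pvlm_Del_pos c m
  have h1 := pvxo_fine hN c0 hm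
  exact pvwh_qbx_kn a (pvxo_wf N hN c) (pvfhw_par N hN c) (by show 1000 * pvlmDel c m ≤ N.rho * pvlmH m; linarith) hN.rho1 (pvxo_LR N hN c hπ) hR hπ hYo

end model

/-! ## 8. WITHOUT `hYo`: clause (b5) of `pvxPatSet` v4.1 -/

section b5

variable {τ : Type} {c : ℝ} {𝔓 : PvxPar τ c} {x : ℂ} {R : ℝ} {m : ℕ} {π : PvxIx τ}

/-- `Yout ⊆ Yreg ⊆ ball x (5R) ⊆ closedBall x (6R)` -/
theorem pvwh_yout (hW : 𝔓.Wf) (hR : 0 < R) (hπ : π ∈ pvxPatSet 𝔓 x R m) : (𝔓.reg m π).Yout ⊆ Metric.closedBall x (6 * R) := by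
  intro w hw
  have h1 : w ∈ Metric.ball x (5 * R) := hπ.2.2.2.2.2 (Or.inl ((hW.reg_wf m π).out_sub hw))
  rw [mem_ball_iff_norm] at h1
  rw [mem_closedBall_iff_norm]
  linarith

theorem pvwh_det5 (hW : 𝔓.Wf) (hF : PvfhWf 𝔓) (hfine : 1000 * pvlmDel c m ≤ 𝔓.num.rho * pvlmH m) (h8 : 8 * 𝔓.num.rho ≤ 𝔓.num.rho1) (hR : 0 < R) (hπ : π ∈ pvxPatSet 𝔓 x R m)
    {μ : ℝ} (hμ0 : 0 < μ) (hμ : μ ≤ pvlmDel c m) :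
    ∃ (RW : Set ℂ) (xa xb : ℂ), PvkqCore (pvlmDel c m / 100) RW xa xb ∧ Bornology.IsBounded RW ∧ PvwhDet 𝔓 x R m π μ (pvkqEv (pvlmDel c m / 100) false RW xa xb) :=
  pvwh_det hW hF hfine h8 hπ (pvwh_yout hW hR hπ) hμ0 hμ

theorem pvwh_qbx_free5 (a : ℂ) (hW : 𝔓.Wf) (hF : PvfhWf 𝔓) (hfine : 1000 * pvlmDel c m ≤ 𝔓.num.rho * pvlmH m) (h8 : 8 * 𝔓.num.rho ≤ 𝔓.num.rho1)
    (hLR : 𝔓.𝔐.L * pvlmH m + pvlmH m ≤ R) (hR : 0 < R) (hπ : π ∈ pvxPatSet 𝔓 x R m) :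
    ∃ q : ℝ≥0∞, q ≠ 0 ∧ ∀ (𝔎s : ℝ → PvxnKit) (B₀ : Set ℂ), Bornology.IsBounded B₀ → ∀ r₀ r₁ : ℝ, 0 < r₀ → (∀ᶠ ε in 𝓝[>] (0 : ℝ), (𝔎s ε).C ⊆ B₀ ∧ r₀ ≤ (𝔎s ε).r ∧ (𝔎s ε).r ≤ r₁) →
      (∀ ε, (𝔎s ε).q ≤ q) →
      (∀ (ε : ℝ) (Y : Set ℂ) (𝔇 : PvwDat (delbPl Y).toMap) (σ : ↥Y → Bool), (𝔎s ε).E Y 𝔇 σ → ∀ v ∈ 𝔇.g.verts, ‖(v : ℂ) - x‖ ≤ 5 * R) →
      (∀ (ε : ℝ) (Y : Set ℂ) (𝔇 : PvwDat (delbPl Y).toMap) (σ : ↥Y → Bool), 𝔇.WK Subtype.val (𝔓.reg m π) x (5 * R) (6 * R) σ → (𝔎s ε).W Y 𝔇 σ) →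
      Pvn1bQbx 𝔓 m π a 𝔎s :=
  pvwh_qbx_free a hW hF hfine h8 hLR hR hπ (pvwh_yout hW hR hπ)

theorem pvwh_qbx_kn5 (a : ℂ) (hW : 𝔓.Wf) (hF : PvfhWf 𝔓) (hfine : 1000 * pvlmDel c m ≤ 𝔓.num.rho * pvlmH m) (h8 : 8 * 𝔓.num.rho ≤ 𝔓.num.rho1)
    (hLR : 𝔓.𝔐.L * pvlmH m + pvlmH m ≤ R) (hR : 0 < R) (hπ : π ∈ pvxPatSet 𝔓 x R m) :
    ∃ q : ℝ≥0∞, q ≠ 0 ∧ ∀ (Cs : ℝ → Set ℂ) (r : ℝ) (B : Set ℂ) (mB : MeasurableSet B) (B₀ : Set ℂ), Bornology.IsBounded B₀ → 0 < r → (∀ᶠ ε in 𝓝[>] (0 : ℝ), Cs ε ⊆ B₀) →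
      Pvn1bQbx 𝔓 m π a fun ε => (pvknKit 𝔓 x R m π (Cs ε) r B mB q).guardE fun Y 𝔇 _ => ∀ k, k ≤ 𝔇.g.n → ‖((𝔇.g.v k : ↥Y) : ℂ) - x‖ ≤ 5 * R :=
  pvwh_qbx_kn a hW hF hfine h8 hLR hR hπ (pvwh_yout hW hR hπ)

end b5

section model5

variable {N : PvxNums} (hN : N.Ok) {c : ℝ} (c0 : 0 < c) {x : ℂ} {R : ℝ} {m : ℕ} {π : PvxIx (pvxTau N)}

include c0 in
theorem pvwh_det_model5 (hR : 0 < R) (hm : N.m0 ≤ m) (hπ : π ∈ pvxPatSet (pvxParOf N hN c) x R m) {μ : ℝ} (hμ0 : 0 < μ) (hμ : μ ≤ pvlmDel c m) :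
    ∃ (RW : Set ℂ) (xa xb : ℂ), PvkqCore (pvlmDel c m / 100) RW xa xb ∧ Bornology.IsBounded RW ∧ PvwhDet (pvxParOf N hN c) x R m π μ (pvkqEv (pvlmDel c m / 100) false RW xa xb) :=
  pvwh_det_model hN c0 hm hπ (pvwh_yout (pvxo_wf N hN c) hR hπ) hμ0 hμ

include c0 in
theorem pvwh_qbx_free_model5 (a : ℂ) (hR : 0 < R) (hm : N.m0 ≤ m) (hπ : π ∈ pvxPatSet (pvxParOf N hN c) x R m) :
    ∃ q : ℝ≥0∞, q ≠ 0 ∧ ∀ (𝔎s : ℝ → PvxnKit) (B₀ : Set ℂ), Bornology.IsBounded B₀ → ∀ r₀ r₁ : ℝ, 0 < r₀ → (∀ᶠ ε in 𝓝[>] (0 : ℝ), (𝔎s ε).C ⊆ B₀ ∧ r₀ ≤ (𝔎s ε).r ∧ (𝔎s ε).r ≤ r₁) →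
      (∀ ε, (𝔎s ε).q ≤ q) →
      (∀ (ε : ℝ) (Y : Set ℂ) (𝔇 : PvwDat (delbPl Y).toMap) (σ : ↥Y → Bool), (𝔎s ε).E Y 𝔇 σ → ∀ v ∈ 𝔇.g.verts, ‖(v : ℂ) - x‖ ≤ 5 * R) →
      (∀ (ε : ℝ) (Y : Set ℂ) (𝔇 : PvwDat (delbPl Y).toMap) (σ : ↥Y → Bool), 𝔇.WK Subtype.val ((pvxParOf N hN c).reg m π) x (5 * R) (6 * R) σ → (𝔎s ε).W Y 𝔇 σ) →
      Pvn1bQbx (pvxParOf N hN c) m π a 𝔎s :=
  pvwh_qbx_free_model hN c0 a hR hm hπ (pvwh_yout (pvxo_wf N hN c) hR hπ)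

include c0 in
theorem pvwh_qbx_kn_model5 (a : ℂ) (hR : 0 < R) (hm : N.m0 ≤ m) (hπ : π ∈ pvxPatSet (pvxParOf N hN c) x R m) :
    ∃ q : ℝ≥0∞, q ≠ 0 ∧ ∀ (Cs : ℝ → Set ℂ) (r : ℝ) (B : Set ℂ) (mB : MeasurableSet B) (B₀ : Set ℂ), Bornology.IsBounded B₀ → 0 < r → (∀ᶠ ε in 𝓝[>] (0 : ℝ), Cs ε ⊆ B₀) →
      Pvn1bQbx (pvxParOf N hN c) m π a fun ε => (pvknKit (pvxParOf N hN c) x R m π (Cs ε) r B mB q).guardE fun Y 𝔇 _ => ∀ k, k ≤ 𝔇.g.n → ‖((𝔇.g.v k : ↥Y) : ℂ) - x‖ ≤ 5 * R :=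
  pvwh_qbx_kn_model hN c0 a hR hm hπ (pvwh_yout (pvxo_wf N hN c) hR hπ)

end model5

end Claimed.Agent.R289
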