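import Claimed.Agent.R289.Tr.KitN1
import Claimed.Agent.R289.Exit.N1R

/-!
# Row 289 (S0537), wall TR, file Exit/N1RK : `rd` AT THE KIT OF RECORD      (owner helper29; prefix `pvkn_`; continuation of `Tr/KitN1`, `Exit/N1R`)      0 sorry
RULING 19 (5) of 234 + v2 of the kit (63): `W := WO ∩ {white circuit in gate form PvknCirc}`, `E := NBon MF`, `N := fzY ∪ g₀ ∪ {right apexes off Yin} ∪ MF` at `K := pvgeFar C r`.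
* §4 along ANY positioned local isomorphism `L : PvLocP` with twin data `G : PvLocDat`: `pvkn_wo` (`WO`), `pvkn_wk` (`W`: the circuit through its RIGHT side), **`pvkn_yf`** (`YF` at `K := Kr` is carried over: NO hypothesis on the regions), `pvkn_nf_iff`, `pvkn_mf_iff`,
     `pvkn_mf_set`, `pvkn_nkf_set` (`M`, `N`), `pvkn_EF` (`NBon MF`), `pvkn_nu_apx` (`off_y` at the right apexes of the twin, from `fz ⊆ NKF`)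
* §5 **`pvkn_rdKit`** : `PvknGeo` v2 ⟹ `PvrdKit` at `pvknKit`;   **`pvkn_rd`** = the field `rd` of `PvxnOk`, VERBATIM, at a family `pvknKit 𝔓 x R m π (C ε) (r ε) B mB q`
-/

set_option autoImplicit false

namespace Claimed.Agent.R289

open Set Metric Filter Topology MeasureTheory Relation Claimed.Agent.R291
open scoped ENNReal

/-! ## 4. the events of the kit are carried over by twins -/

section tw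

variable {V D V' D' : Type} {T : PvMap V D} {T' : PvMap V' D'} {R : D → D' → Prop} {pos : V → ℂ} {pos' : V' → ℂ} {Kr : Set ℂ}
  {𝔇 : PvwDat T} {𝔇' : PvwDat T'} {π : PvwPat} {x : ℂ} {r₁ r₂ : ℝ} {σ : V → Bool} {σ' : V' → Bool}

theorem pvkn_fz_set (L : PvLocP T T' R pos pos' Kr) (G : PvLocDat R 𝔇 𝔇') (h2 : ∀ k, k ≤ 𝔇.g.n → pos (𝔇.g.v k) ∈ Kr) : PvLocSet T T' R 𝔇.fz 𝔇'.fz :=
  ((pvlw_fzY L.loc G).union (pvlw_pth_verts G.g)).union (pvlw_apx L G h2)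

theorem pvkn_ycl_yin {v : V} (hv : v ∈ 𝔇.YCL pos π) : pos v ∈ π.Yin := by
  rcases hv with ⟨q, -, h1, hq⟩ | ⟨q, -, h1, hq⟩
  · exact (hq v ⟨q.n, le_rfl, h1⟩).2
  · exact (hq v ⟨q.n, le_rfl, h1⟩).2

/-- **`WO(D)` is carried over** (the far half of the outer lane and the white bank of `Σ⁺(t)` are shared) -/
theorem pvkn_wo (L : PvLocP T T' R pos pos' Kr) (G : PvLocDat R 𝔇 𝔇') (h2 : ∀ k, k ≤ 𝔇.g.n → pos (𝔇.g.v k) ∈ Kr) (hσ : ∀ d d', R d d' → σ (T.src d) = σ' (T'.src d'))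
    (hd : Disjoint π.Yin π.Yout) (hYo : π.Yout ⊆ Kr) (hwh : ∀ v ∈ 𝔇.t.whP, pos v ∈ Kr) (h : 𝔇.WO pos π σ) : 𝔇'.WO pos' π σ' := by
  obtain ⟨q, h0, h1, hq⟩ := h
  rcases Nat.eq_zero_or_pos q.n with hn | hn
  · obtain ⟨v', k1, k2⟩ := (pvlw_whP L.loc G.t).1 _ h0
    obtain ⟨-, d', -, -, -⟩ := id k1
    rw [hn] at h1
    refine ⟨PvMap.Pth.nil T' v' d', k2, ((pvlw_whM L.loc G.s).iff L.loc k1).1 h1, ?_⟩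
    rintro y ⟨k, hk0, hk, -⟩
    exact absurd hk (by show ¬ k < 0; omega)
  · obtain ⟨q', P⟩ := pvloc_pth_exists L.loc q hn (fun k hk => pvlw_dart_src L (by
      rw [q.src_e k hk]
      rcases Nat.eq_zero_or_pos k with rfl | hk0
      · exact hwh _ h0
      · exact hYo (hq _ ⟨k, hk0, hk, rfl⟩).2.1))
    refine ⟨q', ((pvlw_whP L.loc G.t).iff L.loc (P.v_rel 0 (Nat.zero_le _))).1 h0, ?_, ?_⟩
    · rw [P.n_eq]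
      exact ((pvlw_whM L.loc G.s).iff L.loc (P.v_rel _ le_rfl)).1 h1
    · intro y' hy'
      obtain ⟨y, k1, k2⟩ := (pvlw_pth_inner P).2 y' hy'
      obtain ⟨a1, a2, a3⟩ := hq y k2
      have hp : pos' y' ∈ π.Yout := by rw [← pvlw_pos L k1]; exact a2
      exact ⟨by rw [← pvloc_v_col hσ k1]; exact a1, hp, fun hc => a3.1 (((pvkn_fz_set L G h2).iff L.loc k1).2 hc), fun hc => disjoint_left.1 hd (pvkn_ycl_yin hc) hp⟩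

/-- **`W(D)` of the kit is carried over** -/
theorem pvkn_wk (L : PvLocP T T' R pos pos' Kr) (hT : T.IsSph) (hT' : T'.IsSph) (G : PvLocDat R 𝔇 𝔇') (h2 : ∀ k, k ≤ 𝔇.g.n → pos (𝔇.g.v k) ∈ Kr) (hσ : ∀ d d', R d d' → σ (T.src d) = σ' (T'.src d'))
    (hd : Disjoint π.Yin π.Yout) (hYo : π.Yout ⊆ Kr) (hwh : ∀ v ∈ 𝔇.t.whP, pos v ∈ Kr) (h12 : r₁ ≤ r₂) (hK : ∀ z, r₁ ≤ ‖z - x‖ → z ∈ Kr)
    (hfin : {d' : D' | ‖pos' (T'.src d') - x‖ ≤ r₂ ∧ ‖pos' (T'.tgt d') - x‖ ≤ r₂}.Finite) (hne : ∀ v' : V', ∃ d', T'.src d' = v') (h : 𝔇.WK pos π x r₁ r₂ σ) : 𝔇'.WK pos' π x r₁ r₂ σ' := by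
  obtain ⟨hwo, w, hw, hg, hdp⟩ := h
  obtain ⟨w', hw', hL⟩ := pvkn_circ L hT hT' hσ h12 hK hfin hne hw
  refine ⟨pvkn_wo L G h2 hσ hd hYo hwh hwo, w', hw', ?_, (hL _ _ G.s.gt.dp).1 hdp⟩
  intro v' hv' d' hd'
  obtain ⟨v, k1, k2⟩ := (pvlw_pth_verts G.g).2 v' hv'
  obtain ⟨k, hk, rfl⟩ := id k2
  have hp : pos' (T'.src d') ∈ Kr := by rw [hd', ← pvlw_pos L k1]; exact h2 k hk
  obtain ⟨d, hdd⟩ := pvlw_dart_src L.symm hp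
  have hs : T.src d = 𝔇.g.v k := pvloc_v_inj L.loc (pvloc_v_src hdd) (hd' ▸ k1)
  exact (hL d d' hdd).1 (hg _ k2 d hs)

theorem pvkn_yk_imp (L : PvLocP T T' R pos pos' Kr) (G : PvLocDat R 𝔇 𝔇') {v : V} {v' : V'} (hv : pvlocV T T' R v v') (hm : v ∈ 𝔇.YK pos π Kr) : v' ∈ 𝔇'.YK pos' π Kr :=
  ⟨⟨⟨fun hf => hm.1.1.1 (((pvlw_fzY L.loc G).iff L.loc hv).2 hf), by rw [← pvlw_pos L hv]; exact hm.1.1.2⟩, by rw [← pvlw_pos L hv]; exact hm.1.2⟩, by rw [← pvlw_pos L hv]; exact hm.2⟩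

theorem pvkn_yf_fwd (L : PvLocP T T' R pos pos' Kr) (G : PvLocDat R 𝔇 𝔇') (hKm : ∀ i, i ≤ 𝔇.s.nm → pos (T.src (𝔇.s.em i)) ∈ Kr) {v : V} (hv : v ∈ 𝔇.YF pos π Kr) :
    ∃ v', pvlocV T T' R v v' ∧ v' ∈ 𝔇'.YF pos' π Kr := by
  obtain ⟨a, ha, hc⟩ := hv
  have h1 : 𝔇.YK pos π Kr ⊆ T.Int (plDom R) := fun v hv => (L.full v hv.2).1
  have haY : a ∈ 𝔇.YK pos π Kr := by
    obtain ⟨q, q0, -, q2⟩ := hc
    exact q0 ▸ q2 _ ⟨0, Nat.zero_le _, rfl⟩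
  obtain ⟨a', haa⟩ := pvlw_vertex L haY.2
  obtain ⟨v', k1, k2⟩ := pvlw_comp L.loc h1 (fun _ _ hv hm => pvkn_yk_imp L G hv hm) haa hc
  refine ⟨v', k1, a', ?_, k2⟩
  rcases ha with rfl | rfl | ⟨w, hw, hadj⟩
  · exact Or.inl (pvloc_v_fn L.loc haa (pvlw_ap L.loc G.t))
  · exact Or.inr (Or.inl (pvloc_v_fn L.loc haa (pvlw_am L G.s hKm)))
  · obtain ⟨w', hww, hadj'⟩ := pvloc_adj L.loc haa (h1 haY) hadj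
    exact Or.inr (Or.inr ⟨w', by rw [← pvlw_pos L hww]; exact hw, hadj'⟩)

/-- **`YF` at `K := Kr` is carried over**: no hypothesis on the regions -/
theorem pvkn_yf (L : PvLocP T T' R pos pos' Kr) (G : PvLocDat R 𝔇 𝔇') (hKm : ∀ i, i ≤ 𝔇.s.nm → pos (T.src (𝔇.s.em i)) ∈ Kr) : PvLocSet T T' R (𝔇.YF pos π Kr) (𝔇'.YF pos' π Kr) := by
  refine ⟨fun v hv => pvkn_yf_fwd L G hKm hv, fun v' hv' => ?_⟩
  obtain ⟨v, k1, k2⟩ := pvkn_yf_fwd L.symm G.symm (pvlw_hull_m L G.s hKm) hv'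
  exact ⟨v, pvloc_v_symm k1, k2⟩

/-- `NF` at twin sites -/
theorem pvkn_nf_iff (L : PvLocP T T' R pos pos' Kr) (G : PvLocDat R 𝔇 𝔇') (hKm : ∀ i, i ≤ 𝔇.s.nm → pos (T.src (𝔇.s.em i)) ∈ Kr) {v : V} {v' : V'} (hv : pvlocV T T' R v v') :
    v ∈ 𝔇.NF pos π Kr ↔ v' ∈ 𝔇'.NF pos' π Kr := by
  show (v ∉ 𝔇.YF pos π Kr ∧ pos v ∉ π.Ycol ∧ pos v ∈ Kr) ↔ (v' ∉ 𝔇'.YF pos' π Kr ∧ pos' v' ∉ π.Ycol ∧ pos' v' ∈ Kr)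
  rw [(pvkn_yf L G hKm).iff L.loc hv, pvlw_pos L hv]

/-- `M(D)` at twin sites -/
theorem pvkn_mf_iff (L : PvLocP T T' R pos pos' Kr) (G : PvLocDat R 𝔇 𝔇') (hKm : ∀ i, i ≤ 𝔇.s.nm → pos (T.src (𝔇.s.em i)) ∈ Kr) {v : V} {v' : V'} (hv : pvlocV T T' R v v') :
    v ∈ 𝔇.MF pos π Kr x r₂ ↔ v' ∈ 𝔇'.MF pos' π Kr x r₂ := by
  show (v ∈ 𝔇.NF pos π Kr ∧ ‖pos v - x‖ ≤ r₂) ↔ (v' ∈ 𝔇'.NF pos' π Kr ∧ ‖pos' v' - x‖ ≤ r₂)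
  rw [pvkn_nf_iff L G hKm hv, pvlw_pos L hv]

theorem pvkn_mf_set (L : PvLocP T T' R pos pos' Kr) (G : PvLocDat R 𝔇 𝔇') (hKm : ∀ i, i ≤ 𝔇.s.nm → pos (T.src (𝔇.s.em i)) ∈ Kr) : PvLocSet T T' R (𝔇.MF pos π Kr x r₂) (𝔇'.MF pos' π Kr x r₂) := by
  constructor
  · intro v hv
    obtain ⟨v', k1⟩ := pvlw_vertex L hv.1.2.2
    exact ⟨v', k1, (pvkn_mf_iff L G hKm k1).1 hv⟩
  · intro v' hv'
    obtain ⟨v, k1⟩ := pvlw_vertex L.symm hv'.1.2.2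
    exact ⟨v, pvloc_v_symm k1, (pvkn_mf_iff L G hKm (pvloc_v_symm k1)).2 hv'⟩

/-- a corresponding pair of sets, cut by a test on the positions -/
theorem pvkn_set_pos (L : PvLocP T T' R pos pos' Kr) {A : Set V} {A' : Set V'} (h : PvLocSet T T' R A A') (S : Set ℂ) : PvLocSet T T' R {v | v ∈ A ∧ pos v ∉ S} {v' | v' ∈ A' ∧ pos' v' ∉ S} := by
  constructor
  · rintro v ⟨hv, hp⟩
    obtain ⟨v', k1, k2⟩ := h.1 v hv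
    exact ⟨v', k1, k2, by rw [← pvlw_pos L k1]; exact hp⟩
  · rintro v' ⟨hv', hp⟩
    obtain ⟨v, k1, k2⟩ := h.2 v' hv'
    exact ⟨v, k1, k2, by rw [pvlw_pos L k1]; exact hp⟩

/-- the read sites correspond -/
theorem pvkn_nkf_set (L : PvLocP T T' R pos pos' Kr) (G : PvLocDat R 𝔇 𝔇') (h2 : ∀ k, k ≤ 𝔇.g.n → pos (𝔇.g.v k) ∈ Kr) (hKm : ∀ i, i ≤ 𝔇.s.nm → pos (T.src (𝔇.s.em i)) ∈ Kr) :
    PvLocSet T T' R (𝔇.NKF pos π Kr x r₂) (𝔇'.NKF pos' π Kr x r₂) :=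
  (((pvlw_fzY L.loc G).union (pvlw_pth_verts G.g)).union (pvkn_set_pos L (pvlw_apx L G h2) π.Yin)).union (pvkn_mf_set L G hKm)

/-- **`E(D) = NBon MF` is carried over** -/
theorem pvkn_EF (L : PvLocP T T' R pos pos' Kr) (G : PvLocDat R 𝔇 𝔇') {N : PvwNum} {h : ℝ} (hok : 𝔇.Ok pos N h π) (h2 : ∀ k, k ≤ 𝔇.g.n → pos (𝔇.g.v k) ∈ Kr)
    (hKm : ∀ i, i ≤ 𝔇.s.nm → pos (T.src (𝔇.s.em i)) ∈ Kr) (hσ : ∀ d d', R d d' → σ (T.src d) = σ' (T'.src d')) (h : 𝔇.NBon (𝔇.MF pos π Kr x r₂) σ) :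
    𝔇'.NBon (𝔇'.MF pos' π Kr x r₂) σ' := by
  obtain ⟨s1, -, s3, -⟩ := pvrd_inn hok.st_s.gate
  obtain ⟨t1, -, -, -⟩ := pvrd_inn hok.st_t.gate
  refine pvlw_nbU L G.s.gt.inn G.g G.t.gt.inn h2 s1 t1 ?_ hσ (U := 𝔇.MF pos π Kr x r₂) (U' := 𝔇'.MF pos' π Kr x r₂) (fun v' hv' => hv'.1.2.2)
    (fun v v' hv hv' => (pvkn_mf_iff L G hKm hv).2 hv') h
  rw [𝔇.s.inn.tgt_e _ (by omega), hok.g0, ← s3]
  congr 1; omega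

/-- **`off_y` at the right apexes of the twin**, from `fz ⊆ NKF` -/
theorem pvkn_nu_apx (L : PvLocP T T' R pos pos' Kr) (G : PvLocDat R 𝔇 𝔇') {N : PvwNum} {h : ℝ} (hok : 𝔇.Ok pos N h π) (hwf : π.Wf) (h2 : ∀ k, k ≤ 𝔇.g.n → pos (𝔇.g.v k) ∈ Kr)
    (hKm : ∀ i, i ≤ 𝔇.s.nm → pos (T.src (𝔇.s.em i)) ∈ Kr) (hs : 𝔇.fz ⊆ 𝔇.NKF pos π Kr x r₂) : ∀ v' ∈ 𝔇'.apx, v' ∈ 𝔇'.NU pos' π := by
  intro v' hv'
  obtain ⟨v, k1, k2⟩ := (pvlw_apx L G h2).2 v' hv'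
  have hcol : pos' v' ∉ π.Ycol := by rw [← pvlw_pos L k1]; exact (hok.off_y v (Or.inr k2)).2
  rcases pvkn_apx_cases hok hwf hs k2 with h | h | h
  · exact ⟨fun hc => (pvwk_yc0_sub hc).1.1 (((pvlw_fzY L.loc G).iff L.loc k1).1 h), hcol⟩
  · exact ⟨fun hc => h (by rw [pvlw_pos L k1]; exact (pvwk_yc0_sub hc).1.2), hcol⟩
  · exact pvkn_nf_nu ((pvkn_nf_iff L G hKm k1).1 h)

end tw

/-! ## 5. `rd` at the kit of record -/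

section inst

variable {Y : Set ℂ}

theorem pvkn_dart_finite (lf : VorLF Y) (x : ℂ) (ρ : ℝ) : {d : (delbPl Y).Dart | ‖((delbPl Y).toMap.src d : ℂ) - x‖ ≤ ρ ∧ ‖((delbPl Y).toMap.tgt d : ℂ) - x‖ ≤ ρ}.Finite := by
  have hf := pvkn_ball_finite lf x ρ
  refine Set.Finite.of_finite_image (f := fun d => ((delbPl Y).toMap.src d, (delbPl Y).toMap.tgt d)) ((hf.prod hf).subset ?_) ?_
  · rintro _ ⟨d, hd, rfl⟩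
    exact ⟨hd.1, hd.2⟩
  · intro d _ d' _ e
    exact (delbPl Y).toMap_simple d d' (congrArg Prod.fst e) (congrArg Prod.snd e)

theorem pvkn_dart_at (h : DelGood Y) (v : ↥Y) : ∃ d, (delbPl Y).toMap.src d = v := by
  obtain ⟨b, hb⟩ := pvge_del_ne h v
  exact ⟨⟨(v, b), h, hb⟩, rfl⟩

variable {τ : Type} {c : ℝ} {𝔓 : PvxPar τ c} {x : ℂ} {R : ℝ} {m : ℕ} {π : PvxIx τ} {C : Set ℂ} {r : ℝ} {B : Set ℂ} {mB : MeasurableSet B} {q : ℝ≥0∞}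

/-- **THE KIT OF RECORD PAYS `rd`** -/
theorem pvkn_rdKit (G : PvknGeo 𝔓.num (pvlmH m) (𝔓.reg m π) x (5 * R) (6 * R) C r) : PvrdKit 𝔓 m π (pvknKit 𝔓 x R m π C r B mB q) where
  r0 := G.r0
  pat := ⟨⟨G.ks, G.kt, G.reg.wf⟩, fun _ _ H _ _ hG hok hf hs => pvkn_nu_apx H.locP hG hok G.reg.wf (pvrd_h2 hf) (pvrd_hKm hf) hs⟩
  N _ _ H _ _ hT := pvrd_set_img (pvkn_nkf_set H.locP hT.1 (pvrd_h2 hT.2.2) (pvrd_hKm hT.2.2))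
  E _ _ H _ _ hσ _ _ hT hE := pvkn_EF H.locP hT.1 hT.2.1 (pvrd_h2 hT.2.2) (pvrd_hKm hT.2.2) (pvrd_col_rel H hσ) hE
  W _ _ H _ _ hσ _ _ hT hW := pvkn_wk H.locP (pvmo_sph H.good) (pvmo_sph H.good') hT.1 (pvrd_h2 hT.2.2) (pvrd_col_rel H hσ) G.reg.wf.disj
    G.yo (fun v hv => hT.2.2 v (Or.inl (Or.inl (Or.inl (Or.inr hv))))) G.reg.r12 G.cin (pvkn_dart_finite H.good'.lf x _) (pvkn_dart_at H.good') hW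

/-- **THE FIELD `rd` OF `PvxnOk` AT THE KIT OF RECORD, VERBATIM** -/
theorem pvkn_rd {Cs : ℝ → Set ℂ} {rs : ℝ → ℝ} (G : ∀ᶠ ε in 𝓝[>] (0 : ℝ), PvknGeo 𝔓.num (pvlmH m) (𝔓.reg m π) x (5 * R) (6 * R) (Cs ε) (rs ε)) (a : ℂ) (𝔜 : PvxnYd) :
    ∀ᶠ ε in 𝓝[>] (0 : ℝ), ∀ Y, (pvxnSys 𝔓 m π a (pvknKit 𝔓 x R m π (Cs ε) (rs ε) B mB q) 𝔜 ε).Ok Y → ∀ σ, ∀ᵐ ω₂ ∂pvP ε, ∀ i,
    (Conf.spl (pvdmU (pvknKit 𝔓 x R m π (Cs ε) (rs ε) B mB q).C) (cfOf Y σ, ω₂) ∈ (pvxnSys 𝔓 m π a (pvknKit 𝔓 x R m π (Cs ε) (rs ε) B mB q) 𝔜 ε).A i ↔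
      cfOf Y σ ∈ (pvxnSys 𝔓 m π a (pvknKit 𝔓 x R m π (Cs ε) (rs ε) B mB q) 𝔜 ε).A i) ∧
    (Conf.spl (pvdmU (pvknKit 𝔓 x R m π (Cs ε) (rs ε) B mB q).C) (cfOf Y σ, ω₂) ∈ (pvxnSys 𝔓 m π a (pvknKit 𝔓 x R m π (Cs ε) (rs ε) B mB q) 𝔜 ε).WO i ↔
      cfOf Y σ ∈ (pvxnSys 𝔓 m π a (pvknKit 𝔓 x R m π (Cs ε) (rs ε) B mB q) 𝔜 ε).WO i) :=
  pvrd_rd_fam (𝔎s := fun ε => pvknKit 𝔓 x R m π (Cs ε) (rs ε) B mB q) (G.mono fun _ h => pvkn_rdKit h) a 𝔜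

end inst

end Claimed.Agent.R289
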