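-- KEEP
import Claimed.Agent.R289.Exit.N1Guard
import Claimed.Agent.R289.Tr.InstLB
import Claimed.Agent.R289.Tr.LinkLocA
import Claimed.Agent.R289.Tr.KitN1

/-!
# Row 289 (S0537), THE WALL, ROAD E, file Exit/N1Dat : THE BASE DATA OF `Tr/InstL` AT A DATUM OF `n1`      (helper38; prefix `pvza_n1`)

0 sorry.      LEAF "base data at a datum" of (S1) `exit_pvn1a_stab` (and of `yh_stab`): `Y` good, `𝔇.Ok` at the regions of record, `σ ∈ 𝔇.Cyl`, `σ' = σ` ON `𝔇.fzY` (a fortiori on `𝔇.fz`).      With `η = pvxnFl b (pvn1aCf Y σ)`, `η' = pvxnFl b (pvn1aCf Y σ')`, `b = 𝔓.col π.p.ts`: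
* **`pvza_n1_base`**: `pvilFo`, `pvilZo` at `(zt, tt)` and `pvilFi`, `pvilZi` at `(zs, ts)` are THE SAME at `η'` and `η`      (NO hypothesis on the existence of the half states: they exist for both or for none)
* **`pvza_n1_Eo pvza_n1_Ei pvza_n1_Ee`**: the END LINKS AT BASE DATA are the same records: `pvilEoAt 𝔓 𝔈 m ε w zt tt η' = pvilEoAt .. η`, ..
* `pvza_n1_Fo pvza_n1_Fi`: where the half state exists, `F = val '' 𝔇.t.fzOut`, `val '' 𝔇.s.fzIn`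
* `pvza_n1_sites pvza_n1_col`: sites and colours of `pvxnFl b (pvn1aCf Y σ)`
LEAF (B) of (S2) `exit_pvn1a_rd`: THE BASE DATA UNDER A SPLICE (transfer `pvll_out pvll_in` of 74, situation `PvrdSit` of 29), v3 ON `PvknGeo` v2 of 29 (the boxes are NOT asked far from `C`: the frozen sites of a PRESENT DATUM are).      No existence hypothesis:
* model free **`pvza_spl_o pvza_spl_i`**: `PvrdSit Y Y' C ρ`, colours equal off `C`, gate disc `⊆ pvgeFar C ρ`, SOME record `AtOut` / `AtIn` for `s` with far frozen sites ⟹ the half state of `Tr/InstL` exists for both or none, same `F`, same `Z`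
* **`pvza_n1_spl`** (two configurations, datum `𝔇` over the sites of `ζ`: `Ok`, cylinder, `fzY` far), **`pvza_n1_rd`** (`ζ' = Conf.spl (pvdmU C) (ζ, ω₂)`): `pvilFo Zo` at `(zt,tt)`, `pvilFi Zi` at `(zs,ts)` equal
-/

set_option autoImplicit false

namespace Claimed.Agent.R289

open Set MeasureTheory Claims.C0465
open scoped ComplexConjugate

theorem pvza_n1_sites (b : Bool) (Y : Set ℂ) (σ : ↥Y → Bool) : cfSites (pvxnFl b (pvn1aCf Y σ)) = Y := by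
  rw [pvn1b_sites_fl]
  exact cfOf_sites _ _

/-- in the vocabulary of the colour `b` the configuration `pvxnFl b (pvn1aCf Y σ)` has the colouring `σ` -/
theorem pvza_n1_col (b : Bool) (Y : Set ℂ) (σ : ↥Y → Bool) (u : ↥Y) : (cfCol (pvxnFl b (pvn1aCf Y σ)) u.1 == b) = σ u := by
  have h1 : ∀ p ∈ (pvn1aCf Y σ).pts, ∀ q ∈ (pvn1aCf Y σ).pts, p.1 = q.1 → p = q := by
    rintro ⟨p1, p2⟩ hp ⟨q1, q2⟩ hq e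
    have e' : p1 = q1 := e
    subst e'
    exact Prod.ext rfl (hp.2.trans hq.2.symm)
  have hz : u.1 ∈ cfSites (pvn1aCf Y σ) := by
    rw [show cfSites (pvn1aCf Y σ) = Y from cfOf_sites _ _]
    exact u.2
  rw [pvn1b_col_fl b h1 hz]
  have e : cfCol (pvn1aCf Y σ) u.1 = σ u := by
    unfold pvn1aCf
    rw [pvdy_cfCol_cfOf _ u.2, dif_pos u.2]
  rw [e]
  cases σ u <;> cases b <;> rfl

section base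

variable {τ : Type} {c : ℝ} {𝔓 : PvxPar τ c} {x : ℂ} {R : ℝ} {m : ℕ} {π : PvxIx τ} {Y : Set ℂ} {𝔇 : PvwDat (delbPl Y).toMap} {σ σ' : ↥Y → Bool}

/-- the exit half of the datum for a colouring of the cylinder -/
theorem pvza_n1_out (hW : 𝔓.Wf) (hY : DelGood Y) (hok : 𝔇.Ok Subtype.val 𝔓.num (pvlmH m) (𝔓.reg m π)) (hσ : σ ∈ 𝔇.Cyl) : 𝔇.t.AtOut Subtype.val 𝔓.num (pvlmH m) π.p.zt (𝔓.ty π.p.tt) σ := by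
  obtain ⟨h1, h2, h3⟩ := pvkf_mo Y hY
  have h0 := hok.st_t
  rw [hW.reg_zt, hW.reg_tt] at h0
  exact ((pvkf_out h1 h2 h3 𝔓.num (pvlmH m) π.p.zt (𝔓.ty π.p.tt)).iff h0 (fun u hu => (hσ.1 u (Or.inl hu)).symm) 𝔇.t).1 h0

theorem pvza_n1_in (hW : 𝔓.Wf) (hY : DelGood Y) (hok : 𝔇.Ok Subtype.val 𝔓.num (pvlmH m) (𝔓.reg m π)) (hσ : σ ∈ 𝔇.Cyl) : 𝔇.s.AtIn Subtype.val 𝔓.num (pvlmH m) π.p.zs (𝔓.ty π.p.ts) σ := by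
  obtain ⟨h1, h2, h3⟩ := pvkf_mo Y hY
  have h0 := hok.st_s
  rw [hW.reg_zs, hW.reg_ts] at h0
  exact ((pvkf_in h1 h2 h3 𝔓.num (pvlmH m) π.p.zs (𝔓.ty π.p.ts)).iff h0 (fun u hu => (hσ.1 u (Or.inr hu)).symm) 𝔇.s).1 h0

/-- **THE BASE DATA DO NOT READ THE COLOURS OFF THE FROZEN SITES OF `D_Y`** -/
theorem pvza_n1_base (hW : 𝔓.Wf) (hπ : π ∈ pvxPatSet 𝔓 x R m) (hY : DelGood Y) (hok : 𝔇.Ok Subtype.val 𝔓.num (pvlmH m) (𝔓.reg m π)) (hσ : σ ∈ 𝔇.Cyl) (hσ' : ∀ v ∈ 𝔇.fzY, σ' v = σ v) :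
    pvilFo 𝔓 m π.p.zt π.p.tt (pvxnFl (𝔓.col π.p.ts) (pvn1aCf Y σ')) = pvilFo 𝔓 m π.p.zt π.p.tt (pvxnFl (𝔓.col π.p.ts) (pvn1aCf Y σ)) ∧
    pvilZo 𝔓 m π.p.zt π.p.tt (pvxnFl (𝔓.col π.p.ts) (pvn1aCf Y σ')) = pvilZo 𝔓 m π.p.zt π.p.tt (pvxnFl (𝔓.col π.p.ts) (pvn1aCf Y σ)) ∧
    pvilFi 𝔓 m π.p.zs π.p.ts (pvxnFl (𝔓.col π.p.ts) (pvn1aCf Y σ')) = pvilFi 𝔓 m π.p.zs π.p.ts (pvxnFl (𝔓.col π.p.ts) (pvn1aCf Y σ)) ∧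
    pvilZi 𝔓 m π.p.zs π.p.ts (pvxnFl (𝔓.col π.p.ts) (pvn1aCf Y σ')) = pvilZi 𝔓 m π.p.zs π.p.ts (pvxnFl (𝔓.col π.p.ts) (pvn1aCf Y σ)) := by
  have hcol : 𝔓.col π.p.ts = 𝔓.col π.p.tt := hπ.1.2.2.2.2.2.1
  have ho := pvza_dat_o (N := 𝔓.num) (b := 𝔓.col π.p.tt) (q := 𝔓.pl m π.p.zt π.p.tt) hY (pvza_n1_out hW hY hok hσ) (fun u hu => hσ' u (Or.inl hu))
    (pvza_n1_sites (𝔓.col π.p.ts) Y σ) (pvza_n1_sites (𝔓.col π.p.ts) Y σ') (fun u => by rw [← hcol]; exact pvza_n1_col _ Y σ u) (fun u => by rw [← hcol]; exact pvza_n1_col _ Y σ' u)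
  have hi := pvza_dat_i (N := 𝔓.num) (b := 𝔓.col π.p.ts) (q := 𝔓.pl m π.p.zs π.p.ts) hY (pvza_n1_in hW hY hok hσ) (fun u hu => hσ' u (Or.inr hu))
    (pvza_n1_sites (𝔓.col π.p.ts) Y σ) (pvza_n1_sites (𝔓.col π.p.ts) Y σ') (pvza_n1_col _ Y σ) (pvza_n1_col _ Y σ')
  exact ⟨ho.2.1, ho.2.2 _ _, hi.2.1, hi.2.2 _ _⟩

variable (𝔈 : PvieEng τ)

/-- **the first link at the base data is THE SAME RECORD** -/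
theorem pvza_n1_Eo (hW : 𝔓.Wf) (hπ : π ∈ pvxPatSet 𝔓 x R m) (hY : DelGood Y) (hok : 𝔇.Ok Subtype.val 𝔓.num (pvlmH m) (𝔓.reg m π)) (hσ : σ ∈ 𝔇.Cyl) (hσ' : ∀ v ∈ 𝔇.fzY, σ' v = σ v)
    (ε : ℝ) (w : ∀ η : Conf PvPt, (delbPl (pvieY η)).Dart → ℂ) :
    pvilEoAt 𝔓 𝔈 m ε w π.p.zt π.p.tt (pvxnFl (𝔓.col π.p.ts) (pvn1aCf Y σ')) = pvilEoAt 𝔓 𝔈 m ε w π.p.zt π.p.tt (pvxnFl (𝔓.col π.p.ts) (pvn1aCf Y σ)) := by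
  obtain ⟨h1, h2, -, -⟩ := pvza_n1_base hW hπ hY hok hσ hσ'
  unfold pvilEoAt
  rw [h1, h2]

/-- **the last link at the base data is the same record** -/
theorem pvza_n1_Ei (hW : 𝔓.Wf) (hπ : π ∈ pvxPatSet 𝔓 x R m) (hY : DelGood Y) (hok : 𝔇.Ok Subtype.val 𝔓.num (pvlmH m) (𝔓.reg m π)) (hσ : σ ∈ 𝔇.Cyl) (hσ' : ∀ v ∈ 𝔇.fzY, σ' v = σ v)
    (ε : ℝ) (w : ∀ η : Conf PvPt, (delbPl (pvieY η)).Dart → ℂ) :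
    pvilEiAt 𝔓 𝔈 m ε w π.p.zs π.p.ts (pvxnFl (𝔓.col π.p.ts) (pvn1aCf Y σ')) = pvilEiAt 𝔓 𝔈 m ε w π.p.zs π.p.ts (pvxnFl (𝔓.col π.p.ts) (pvn1aCf Y σ)) := by
  obtain ⟨-, -, h1, h2⟩ := pvza_n1_base hW hπ hY hok hσ hσ'
  unfold pvilEiAt
  rw [h1, h2]

/-- the thick link at the base data is the same record -/
theorem pvza_n1_Ee (hW : 𝔓.Wf) (hπ : π ∈ pvxPatSet 𝔓 x R m) (hY : DelGood Y) (hok : 𝔇.Ok Subtype.val 𝔓.num (pvlmH m) (𝔓.reg m π)) (hσ : σ ∈ 𝔇.Cyl) (hσ' : ∀ v ∈ 𝔇.fzY, σ' v = σ v)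
    (ε : ℝ) (w : ∀ η : Conf PvPt, (delbPl (pvieY η)).Dart → ℂ) :
    pvilEeAt 𝔓 𝔈 m ε w π.p.zs π.p.ts (pvxnFl (𝔓.col π.p.ts) (pvn1aCf Y σ')) = pvilEeAt 𝔓 𝔈 m ε w π.p.zs π.p.ts (pvxnFl (𝔓.col π.p.ts) (pvn1aCf Y σ)) := by
  obtain ⟨-, -, h1, h2⟩ := pvza_n1_base hW hπ hY hok hσ hσ'
  unfold pvilEeAt
  rw [h1, h2]

variable {𝔈}

/-- where the exit half state of `Tr/InstL` exists, `F_out` = the positions of the frozen sites of the datum -/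
theorem pvza_n1_Fo (hW : 𝔓.Wf) (hπ : π ∈ pvxPatSet 𝔓 x R m) (hY : DelGood Y) (hok : 𝔇.Ok Subtype.val 𝔓.num (pvlmH m) (𝔓.reg m π)) (hσ : σ ∈ 𝔇.Cyl)
    (hU : pvxnFl (𝔓.col π.p.ts) (pvn1aCf Y σ) ∈ pvilUo 𝔓.num (𝔓.col π.p.tt) (pvilPin 𝔓 m π.p.zt π.p.tt)) :
    pvilFo 𝔓 m π.p.zt π.p.tt (pvxnFl (𝔓.col π.p.ts) (pvn1aCf Y σ)) = Subtype.val '' 𝔇.t.fzOut := by
  have hcol : 𝔓.col π.p.ts = 𝔓.col π.p.tt := hπ.1.2.2.2.2.2.1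
  exact pvza_dat_Fo (N := 𝔓.num) (b := 𝔓.col π.p.tt) (q := 𝔓.pl m π.p.zt π.p.tt) hY (pvza_n1_out hW hY hok hσ) (pvza_n1_sites (𝔓.col π.p.ts) Y σ) (fun u => by rw [← hcol]; exact pvza_n1_col _ Y σ u) hU

theorem pvza_n1_Fi (hW : 𝔓.Wf) (hY : DelGood Y) (hok : 𝔇.Ok Subtype.val 𝔓.num (pvlmH m) (𝔓.reg m π)) (hσ : σ ∈ 𝔇.Cyl)
    (hU : pvxnFl (𝔓.col π.p.ts) (pvn1aCf Y σ) ∈ pvilUi 𝔓.num (𝔓.col π.p.ts) (pvilPin 𝔓 m π.p.zs π.p.ts)) :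
    pvilFi 𝔓 m π.p.zs π.p.ts (pvxnFl (𝔓.col π.p.ts) (pvn1aCf Y σ)) = Subtype.val '' 𝔇.s.fzIn :=
  pvza_dat_Fi (N := 𝔓.num) (b := 𝔓.col π.p.ts) (q := 𝔓.pl m π.p.zs π.p.ts) hY (pvza_n1_in hW hY hok hσ) (pvza_n1_sites (𝔓.col π.p.ts) Y σ) (pvza_n1_col _ Y σ) hU

end base

/-! ## (B) the base data under a splice -/

section splice

variable {N : PvwNum} {b : Bool} {q : PviePl} {Y Y' C : Set ℂ} {ρ : ℝ} {η η' : Conf PvPt}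

theorem pvza_kfO_ll {s : ↥Y → Bool} {𝔖 : PvwSt (delbPl Y).toMap} : PvkfO N q.h q.z q.ty (PvzaQo N q) Y s 𝔖 ↔ DelGood Y ∧ PvllOut N q.std (delbPl Y).toMap Subtype.val s 𝔖 := by
  have e1 : (fun v : ↥Y => conj q.std.fr * (v : ℂ)) = Subtype.val := by
    funext v
    simp [PviePl.std]
  constructor
  · rintro ⟨h1, h2, h3, h4, h5, h6⟩
    refine ⟨h1, ?_, h3, h4, h5, h6⟩
    rw [e1, pvza_std_zf]
    exact h2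
  · rintro ⟨h1, h2, h3, h4, h5, h6⟩
    rw [e1, pvza_std_zf] at h2
    exact ⟨h1, h2, h3, h4, h5, h6⟩

theorem pvza_kfI_ll {s : ↥Y → Bool} {𝔖 : PvwSt (delbPl Y).toMap} : PvkfI N q.h q.z q.ty (PvzaQi N q) Y s 𝔖 ↔ DelGood Y ∧ PvllIn N q.std (delbPl Y).toMap Subtype.val s 𝔖 := by
  have e1 : (fun v : ↥Y => conj q.std.fr * (v : ℂ)) = Subtype.val := by
    funext v
    simp [PviePl.std]
  constructor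
  · rintro ⟨h1, h2, h3, h4, h5, h6⟩
    refine ⟨h1, ?_, h3, h4, h5, h6⟩
    rw [e1, pvza_std_zf]
    exact h2
  · rintro ⟨h1, h2, h3, h4, h5, h6⟩
    rw [e1, pvza_std_zf] at h2
    exact ⟨h1, h2, h3, h4, h5, h6⟩

/-- **an exit half state of `Tr/InstL` whose gate disc and black bank are far from `C` has a twin over the spliced sites, with the same frozen POSITIONS** -/
theorem pvza_spl_kfO (H : PvrdSit Y Y' C ρ) {s : ↥Y → Bool} {s' : ↥Y' → Bool} (hs : PvrdCol C s s') (hK : Metric.closedBall q.z (q.ty.b * q.h) ⊆ pvgeFar C ρ)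
    {𝔖 : PvwSt (delbPl Y).toMap} (hB : ∀ i, i ≤ 𝔖.np → ((delbPl Y).toMap.src (𝔖.ep i) : ℂ) ∈ pvgeFar C ρ) (h : PvkfO N q.h q.z q.ty (PvzaQo N q) Y s 𝔖) :
    ∃ 𝔖₁ : PvwSt (delbPl Y').toMap, PvkfO N q.h q.z q.ty (PvzaQo N q) Y' s' 𝔖₁ ∧ Subtype.val '' 𝔖.fzOut = Subtype.val '' 𝔖₁.fzOut := by
  have hf : ‖q.std.fr‖ = 1 := by simp [PviePl.std]
  obtain ⟨𝔖₁, G, h₁⟩ := pvll_out H.locP (pvmo_sph H.good) (pvrd_col_rel H hs) hf hK hB (pvza_kfO_ll.1 h).2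
  exact ⟨𝔖₁, pvza_kfO_ll.2 ⟨H.good', h₁⟩, pvll_fzOut_pos H.locP G⟩

theorem pvza_spl_kfI (H : PvrdSit Y Y' C ρ) {s : ↥Y → Bool} {s' : ↥Y' → Bool} (hs : PvrdCol C s s') (hK : Metric.closedBall q.z (q.ty.b * q.h) ⊆ pvgeFar C ρ)
    {𝔖 : PvwSt (delbPl Y).toMap} (hB : ∀ i, i ≤ 𝔖.nm → ((delbPl Y).toMap.src (𝔖.em i) : ℂ) ∈ pvgeFar C ρ) (h : PvkfI N q.h q.z q.ty (PvzaQi N q) Y s 𝔖) :
    ∃ 𝔖₁ : PvwSt (delbPl Y').toMap, PvkfI N q.h q.z q.ty (PvzaQi N q) Y' s' 𝔖₁ ∧ Subtype.val '' 𝔖.fzIn = Subtype.val '' 𝔖₁.fzIn := by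
  have hf : ‖q.std.fr‖ = 1 := by simp [PviePl.std]
  obtain ⟨𝔖₁, G, h₁⟩ := pvll_in H.locP (pvmo_sph H.good) (pvrd_col_rel H hs) hf hK hB (pvza_kfI_ll.1 h).2
  exact ⟨𝔖₁, pvza_kfI_ll.2 ⟨H.good', h₁⟩, pvll_fzIn_pos H.locP G⟩

/-- the twin of a REFERENCE record (`AtOut` alone) with far frozen sites: `AtOut` over the spliced sites, far frozen sites -/
theorem pvza_spl_refO (H : PvrdSit Y Y' C ρ) {s : ↥Y → Bool} {s' : ↥Y' → Bool} (hs : PvrdCol C s s') (hK : Metric.closedBall q.z (q.ty.b * q.h) ⊆ pvgeFar C ρ)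
    {𝔖₀ : PvwSt (delbPl Y).toMap} (h₀ : 𝔖₀.AtOut Subtype.val N q.h q.z q.ty s) (hf : ∀ v ∈ 𝔖₀.fzOut, (v : ℂ) ∈ pvgeFar C ρ) :
    ∃ 𝔖₁ : PvwSt (delbPl Y').toMap, 𝔖₁.AtOut Subtype.val N q.h q.z q.ty s' ∧ ∀ v ∈ 𝔖₁.fzOut, (v : ℂ) ∈ pvgeFar C ρ := by
  obtain ⟨𝔖₁, G⟩ := pvlw_sp_exists_h H.locP hK h₀.gate fun i hi => hf _ (Or.inl (Or.inr ⟨i, hi, rfl⟩))
  refine ⟨𝔖₁, pvlw_atOut H.locP (pvmo_sph H.good) (pvrd_col_rel H hs) G hK h₀, fun v hv => ?_⟩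
  have h1 : (v : ℂ) ∈ Subtype.val '' 𝔖₀.fzOut := by
    rw [pvll_fzOut_pos H.locP G]
    exact ⟨v, hv, rfl⟩
  obtain ⟨u, hu, e⟩ := h1
  exact e ▸ hf u hu

theorem pvza_spl_refI (H : PvrdSit Y Y' C ρ) {s : ↥Y → Bool} {s' : ↥Y' → Bool} (hs : PvrdCol C s s') (hK : Metric.closedBall q.z (q.ty.b * q.h) ⊆ pvgeFar C ρ)
    {𝔖₀ : PvwSt (delbPl Y).toMap} (h₀ : 𝔖₀.AtIn Subtype.val N q.h q.z q.ty s) (hf : ∀ v ∈ 𝔖₀.fzIn, (v : ℂ) ∈ pvgeFar C ρ) :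
    ∃ 𝔖₁ : PvwSt (delbPl Y').toMap, 𝔖₁.AtIn Subtype.val N q.h q.z q.ty s' ∧ ∀ v ∈ 𝔖₁.fzIn, (v : ℂ) ∈ pvgeFar C ρ := by
  have hKm : ∀ i, i ≤ 𝔖₀.nm → ((delbPl Y).toMap.src (𝔖₀.em i) : ℂ) ∈ pvgeFar C ρ := fun i hi => hf _ (Or.inl (Or.inr ⟨i, hi, rfl⟩))
  obtain ⟨𝔖₁, G⟩ := pvlw_sm_exists_h H.locP hK h₀.gate hKm
  refine ⟨𝔖₁, pvlw_atIn_h H.locP (pvmo_sph H.good) (pvrd_col_rel H hs) G hK hKm h₀, fun v hv => ?_⟩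
  have h1 : (v : ℂ) ∈ Subtype.val '' 𝔖₀.fzIn := by
    rw [pvll_fzIn_pos H.locP G]
    exact ⟨v, hv, rfl⟩
  obtain ⟨u, hu, e⟩ := h1
  exact e ▸ hf u hu

/-- one direction of (B) -/
theorem pvza_spl_o1 (H : PvrdSit Y Y' C ρ) {s : ↥Y → Bool} {s' : ↥Y' → Bool} (hs : PvrdCol C s s') (hK : Metric.closedBall q.z (q.ty.b * q.h) ⊆ pvgeFar C ρ)
    {𝔖₀ : PvwSt (delbPl Y).toMap} (h₀ : 𝔖₀.AtOut Subtype.val N q.h q.z q.ty s) (hf : ∀ v ∈ 𝔖₀.fzOut, (v : ℂ) ∈ pvgeFar C ρ)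
    (hη : cfSites η = Y) (hη' : cfSites η' = Y') (hc : ∀ u : ↥Y, (cfCol η u.1 == b) = s u) (hc' : ∀ u : ↥Y', (cfCol η' u.1 == b) = s' u) (hU : η ∈ pvilUo N b q.std) :
    η' ∈ pvilUo N b q.std ∧ pvilFzO N b q.std η' = pvilFzO N b q.std η := by
  subst hη
  subst hη'
  obtain ⟨𝔖, h𝔖⟩ := hU
  have e1 : pvkfC (cfSites η) (cfCol η) b = s := funext hc
  have e2 : pvkfC (cfSites η') (cfCol η') b = s' := funext hc'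
  have h1 := (pvza_out_iff η 𝔖).1 h𝔖
  rw [e1] at h1
  obtain ⟨-, a2⟩ := pvuq_del_out H.good h1.2.1 h₀
  have hB : ∀ i, i ≤ 𝔖.np → ((delbPl (cfSites η)).toMap.src (𝔖.ep i) : ℂ) ∈ pvgeFar C ρ := fun i hi => by
    rw [a2.ep i hi]
    exact hf _ (Or.inl (Or.inr ⟨i, a2.np ▸ hi, rfl⟩))
  obtain ⟨𝔖₁, h₁, eF⟩ := pvza_spl_kfO H hs hK hB h1
  rw [← e2] at h₁
  have h₂ := (pvza_out_iff η' 𝔖₁).2 h₁
  exact ⟨⟨𝔖₁, h₂⟩, by rw [pvza_FzO_eq h₂, pvza_FzO_eq h𝔖]; exact eF.symm⟩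

theorem pvza_spl_i1 (H : PvrdSit Y Y' C ρ) {s : ↥Y → Bool} {s' : ↥Y' → Bool} (hs : PvrdCol C s s') (hK : Metric.closedBall q.z (q.ty.b * q.h) ⊆ pvgeFar C ρ)
    {𝔖₀ : PvwSt (delbPl Y).toMap} (h₀ : 𝔖₀.AtIn Subtype.val N q.h q.z q.ty s) (hf : ∀ v ∈ 𝔖₀.fzIn, (v : ℂ) ∈ pvgeFar C ρ)
    (hη : cfSites η = Y) (hη' : cfSites η' = Y') (hc : ∀ u : ↥Y, (cfCol η u.1 == b) = s u) (hc' : ∀ u : ↥Y', (cfCol η' u.1 == b) = s' u) (hU : η ∈ pvilUi N b q.std) :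
    η' ∈ pvilUi N b q.std ∧ pvilFzI N b q.std η' = pvilFzI N b q.std η := by
  subst hη
  subst hη'
  obtain ⟨𝔖, h𝔖⟩ := hU
  have e1 : pvkfC (cfSites η) (cfCol η) b = s := funext hc
  have e2 : pvkfC (cfSites η') (cfCol η') b = s' := funext hc'
  have h1 := (pvza_in_iff η 𝔖).1 h𝔖
  rw [e1] at h1
  obtain ⟨-, a2⟩ := pvuq_del_in H.good h1.2.1 h₀
  have hB : ∀ i, i ≤ 𝔖.nm → ((delbPl (cfSites η)).toMap.src (𝔖.em i) : ℂ) ∈ pvgeFar C ρ := fun i hi => by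
    rw [a2.em i hi]
    exact hf _ (Or.inl (Or.inr ⟨i, a2.nm ▸ hi, rfl⟩))
  obtain ⟨𝔖₁, h₁, eF⟩ := pvza_spl_kfI H hs hK hB h1
  rw [← e2] at h₁
  have h₂ := (pvza_in_iff η' 𝔖₁).2 h₁
  exact ⟨⟨𝔖₁, h₂⟩, by rw [pvza_FzI_eq h₂, pvza_FzI_eq h𝔖]; exact eF.symm⟩

/-- **(B) THE BASE DATA DO NOT READ A REGION `C` FAR FROM THE GATE DISC AND FROM THE FROZEN SITES OF A REFERENCE RECORD, exit half**: sites equal off `C` (situation of 29), colours equal off `C`;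
SOME record is `AtOut` for `s`, with far frozen sites.      The half state of `Tr/InstL` exists for both or for none, SAME `F`, SAME `Z`. -/
theorem pvza_spl_o (H : PvrdSit Y Y' C ρ) {s : ↥Y → Bool} {s' : ↥Y' → Bool} (hs : PvrdCol C s s') (hK : Metric.closedBall q.z (q.ty.b * q.h) ⊆ pvgeFar C ρ)
    {𝔖₀ : PvwSt (delbPl Y).toMap} (h₀ : 𝔖₀.AtOut Subtype.val N q.h q.z q.ty s) (hf : ∀ v ∈ 𝔖₀.fzOut, (v : ℂ) ∈ pvgeFar C ρ)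
    (hη : cfSites η = Y) (hη' : cfSites η' = Y') (hc : ∀ u : ↥Y, (cfCol η u.1 == b) = s u) (hc' : ∀ u : ↥Y', (cfCol η' u.1 == b) = s' u) :
    (η' ∈ pvilUo N b q.std ↔ η ∈ pvilUo N b q.std) ∧ pvilFzO N b q.std η' = pvilFzO N b q.std η ∧ ∀ δ r, pvilHuO δ r N b q.std η' = pvilHuO δ r N b q.std η := by
  obtain ⟨𝔖₁, h₁, hf₁⟩ := pvza_spl_refO H hs hK h₀ hf
  have hU : η' ∈ pvilUo N b q.std ↔ η ∈ pvilUo N b q.std :=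
    ⟨fun h => (pvza_spl_o1 H.symm hs.symm hK h₁ hf₁ hη' hη hc' hc h).1, fun h => (pvza_spl_o1 H hs hK h₀ hf hη hη' hc hc' h).1⟩
  by_cases h : η ∈ pvilUo N b q.std
  · have hF := (pvza_spl_o1 H hs hK h₀ hf hη hη' hc hc' h).2
    exact ⟨hU, hF, fun δ r => by rw [pvza_HuO_F h, pvza_HuO_F (hU.2 h), hF]⟩
  · have h' : η' ∉ pvilUo N b q.std := fun h' => h (hU.1 h')
    exact ⟨hU, by rw [pvza_FzO_off h, pvza_FzO_off h'], fun δ r => by rw [pvza_HuO_off h, pvza_HuO_off h']⟩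

/-- **(B), entrance half** -/
theorem pvza_spl_i (H : PvrdSit Y Y' C ρ) {s : ↥Y → Bool} {s' : ↥Y' → Bool} (hs : PvrdCol C s s') (hK : Metric.closedBall q.z (q.ty.b * q.h) ⊆ pvgeFar C ρ)
    {𝔖₀ : PvwSt (delbPl Y).toMap} (h₀ : 𝔖₀.AtIn Subtype.val N q.h q.z q.ty s) (hf : ∀ v ∈ 𝔖₀.fzIn, (v : ℂ) ∈ pvgeFar C ρ)
    (hη : cfSites η = Y) (hη' : cfSites η' = Y') (hc : ∀ u : ↥Y, (cfCol η u.1 == b) = s u) (hc' : ∀ u : ↥Y', (cfCol η' u.1 == b) = s' u) :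
    (η' ∈ pvilUi N b q.std ↔ η ∈ pvilUi N b q.std) ∧ pvilFzI N b q.std η' = pvilFzI N b q.std η ∧ ∀ δ r, pvilHuI δ r N b q.std η' = pvilHuI δ r N b q.std η := by
  obtain ⟨𝔖₁, h₁, hf₁⟩ := pvza_spl_refI H hs hK h₀ hf
  have hU : η' ∈ pvilUi N b q.std ↔ η ∈ pvilUi N b q.std :=
    ⟨fun h => (pvza_spl_i1 H.symm hs.symm hK h₁ hf₁ hη' hη hc' hc h).1, fun h => (pvza_spl_i1 H hs hK h₀ hf hη hη' hc hc' h).1⟩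
  by_cases h : η ∈ pvilUi N b q.std
  · have hF := (pvza_spl_i1 H hs hK h₀ hf hη hη' hc hc' h).2
    exact ⟨hU, hF, fun δ r => by rw [pvza_HuI_F h, pvza_HuI_F (hU.2 h), hF]⟩
  · have h' : η' ∉ pvilUi N b q.std := fun h' => h (hU.1 h')
    exact ⟨hU, by rw [pvza_FzI_off h, pvza_FzI_off h'], fun δ r => by rw [pvza_HuI_off h, pvza_HuI_off h']⟩

end splice

section spliceN1

variable {τ : Type} {c : ℝ} {𝔓 : PvxPar τ c} {x : ℂ} {R : ℝ} {m : ℕ} {π : PvxIx τ} {C : Set ℂ} {r : ℝ} {ζ ζ' : Conf PvPt}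

/-- in the vocabulary of the colour `b` the configuration `pvxnFl b ζ` has the colouring of `ζ` -/
theorem pvza_n1_colf (b : Bool) (h1 : ∀ p ∈ ζ.pts, ∀ q ∈ ζ.pts, p.1 = q.1 → p = q) (u : ↥(cfSites ζ)) : (cfCol (pvxnFl b ζ) u.1 == b) = cfCol ζ u.1 := by
  rw [pvn1b_col_fl b h1 u.2]
  cases cfCol ζ u.1 <;> cases b <;> rfl

/-- **(B) AT A PRESENT DATUM**: two configurations (black vocabulary) in the situation of 29 (sites equal off `C`, mesh on the collar, both good), colours equal off `C`;   the two gate discs are far from `C` (`PvknGeo.ks kt`, `PvrdPw.ks kt`);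
a datum `𝔇` over the sites of `ζ`, `Ok`, the colouring of `ζ` in its cylinder, `fzY` far from `C` (`PvxnWit.ok cyl far sub`):      THE BASE DATA OF THE TWO PINS ARE THE SAME.      No existence hypothesis. -/
theorem pvza_n1_spl (hW : 𝔓.Wf) (hπ : π ∈ pvxPatSet 𝔓 x R m) (hks : Metric.closedBall (𝔓.reg m π).zs ((𝔓.reg m π).ts.b * pvlmH m) ⊆ pvgeFar C r)
    (hkt : Metric.closedBall (𝔓.reg m π).zt ((𝔓.reg m π).tt.b * pvlmH m) ⊆ pvgeFar C r) (H : PvrdSit (cfSites ζ) (cfSites ζ') C r)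
    (h1 : ∀ p ∈ ζ.pts, ∀ q ∈ ζ.pts, p.1 = q.1 → p = q) (h1' : ∀ p ∈ ζ'.pts, ∀ q ∈ ζ'.pts, p.1 = q.1 → p = q) (hc : ∀ z ∉ C, cfCol ζ z = cfCol ζ' z)
    {𝔇 : PvwDat (delbPl (cfSites ζ)).toMap} (hok : 𝔇.Ok Subtype.val 𝔓.num (pvlmH m) (𝔓.reg m π)) (hcyl : (fun v : ↥(cfSites ζ) => cfCol ζ v) ∈ 𝔇.Cyl) (hf : ∀ v ∈ 𝔇.fzY, (v : ℂ) ∈ pvgeFar C r) :
    pvilFo 𝔓 m π.p.zt π.p.tt (pvxnFl (𝔓.col π.p.ts) ζ') = pvilFo 𝔓 m π.p.zt π.p.tt (pvxnFl (𝔓.col π.p.ts) ζ) ∧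
    pvilZo 𝔓 m π.p.zt π.p.tt (pvxnFl (𝔓.col π.p.ts) ζ') = pvilZo 𝔓 m π.p.zt π.p.tt (pvxnFl (𝔓.col π.p.ts) ζ) ∧
    pvilFi 𝔓 m π.p.zs π.p.ts (pvxnFl (𝔓.col π.p.ts) ζ') = pvilFi 𝔓 m π.p.zs π.p.ts (pvxnFl (𝔓.col π.p.ts) ζ) ∧
    pvilZi 𝔓 m π.p.zs π.p.ts (pvxnFl (𝔓.col π.p.ts) ζ') = pvilZi 𝔓 m π.p.zs π.p.ts (pvxnFl (𝔓.col π.p.ts) ζ) := by
  have hcol : 𝔓.col π.p.ts = 𝔓.col π.p.tt := hπ.1.2.2.2.2.2.1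
  rw [hW.reg_zt, hW.reg_tt] at hkt
  rw [hW.reg_zs, hW.reg_ts] at hks
  have hs : PvrdCol C (fun v : ↥(cfSites ζ) => cfCol ζ v) (fun v : ↥(cfSites ζ') => cfCol ζ' v) := pvrd_col_of hc
  have ho := pvza_spl_o (N := 𝔓.num) (b := 𝔓.col π.p.tt) (q := 𝔓.pl m π.p.zt π.p.tt) H hs hkt (pvza_n1_out hW H.good hok hcyl) (fun v hv => hf v (Or.inl hv))
    (pvn1b_sites_fl (𝔓.col π.p.ts) ζ) (pvn1b_sites_fl (𝔓.col π.p.ts) ζ') (fun u => by rw [← hcol]; exact pvza_n1_colf _ h1 u) (fun u => by rw [← hcol]; exact pvza_n1_colf _ h1' u)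
  have hi := pvza_spl_i (N := 𝔓.num) (b := 𝔓.col π.p.ts) (q := 𝔓.pl m π.p.zs π.p.ts) H hs hks (pvza_n1_in hW H.good hok hcyl) (fun v hv => hf v (Or.inr hv))
    (pvn1b_sites_fl (𝔓.col π.p.ts) ζ) (pvn1b_sites_fl (𝔓.col π.p.ts) ζ') (pvza_n1_colf _ h1) (pvza_n1_colf _ h1')
  exact ⟨ho.2.1, ho.2.2 _ _, hi.2.1, hi.2.2 _ _⟩

/-- the splice of two configurations with one colour per site has one colour per site -/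
theorem pvza_n1_spl_one (C : Set ℂ) {ω₂ : Conf PvPt} (h1 : ∀ p ∈ ζ.pts, ∀ q ∈ ζ.pts, p.1 = q.1 → p = q) (h2 : ∀ p ∈ ω₂.pts, ∀ q ∈ ω₂.pts, p.1 = q.1 → p = q) :
    ∀ p ∈ (Conf.spl (pvdmU C) (ζ, ω₂)).pts, ∀ q ∈ (Conf.spl (pvdmU C) (ζ, ω₂)).pts, p.1 = q.1 → p = q := by
  rintro p (⟨hp, hpU⟩ | ⟨hp, hpU⟩) q (⟨hq, hqU⟩ | ⟨hq, hqU⟩) e
  · exact h1 p hp q hq e
  · exact absurd (show q ∈ pvdmU C from by show q.1 ∈ Cᶜ; rw [← e]; exact hpU) hqU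
  · exact absurd (show p ∈ pvdmU C from by show p.1 ∈ Cᶜ; rw [e]; exact hqU) hpU
  · exact h2 p hp q hq e

/-- **(B) FOR THE SPLICE OF `rd`**: `ζ' = Conf.spl (pvdmU C) (ζ, ω₂)` -/
theorem pvza_n1_rd (hW : 𝔓.Wf) (hπ : π ∈ pvxPatSet 𝔓 x R m) (hr : 0 < r) (hks : Metric.closedBall (𝔓.reg m π).zs ((𝔓.reg m π).ts.b * pvlmH m) ⊆ pvgeFar C r)
    (hkt : Metric.closedBall (𝔓.reg m π).zt ((𝔓.reg m π).tt.b * pvlmH m) ⊆ pvgeFar C r) {ω₂ : Conf PvPt}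
    (hg : DelGood (cfSites ζ)) (hg' : DelGood (cfSites ζ \ C ∪ cfSites ω₂ ∩ C)) (hm : VorDense (cfSites ζ) (pvgeCollar C r) r)
    (h1 : ∀ p ∈ ζ.pts, ∀ q ∈ ζ.pts, p.1 = q.1 → p = q) (h2 : ∀ p ∈ ω₂.pts, ∀ q ∈ ω₂.pts, p.1 = q.1 → p = q)
    {𝔇 : PvwDat (delbPl (cfSites ζ)).toMap} (hok : 𝔇.Ok Subtype.val 𝔓.num (pvlmH m) (𝔓.reg m π)) (hcyl : (fun v : ↥(cfSites ζ) => cfCol ζ v) ∈ 𝔇.Cyl) (hf : ∀ v ∈ 𝔇.fzY, (v : ℂ) ∈ pvgeFar C r) :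
    pvilFo 𝔓 m π.p.zt π.p.tt (pvxnFl (𝔓.col π.p.ts) (Conf.spl (pvdmU C) (ζ, ω₂))) = pvilFo 𝔓 m π.p.zt π.p.tt (pvxnFl (𝔓.col π.p.ts) ζ) ∧
    pvilZo 𝔓 m π.p.zt π.p.tt (pvxnFl (𝔓.col π.p.ts) (Conf.spl (pvdmU C) (ζ, ω₂))) = pvilZo 𝔓 m π.p.zt π.p.tt (pvxnFl (𝔓.col π.p.ts) ζ) ∧
    pvilFi 𝔓 m π.p.zs π.p.ts (pvxnFl (𝔓.col π.p.ts) (Conf.spl (pvdmU C) (ζ, ω₂))) = pvilFi 𝔓 m π.p.zs π.p.ts (pvxnFl (𝔓.col π.p.ts) ζ) ∧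
    pvilZi 𝔓 m π.p.zs π.p.ts (pvxnFl (𝔓.col π.p.ts) (Conf.spl (pvdmU C) (ζ, ω₂))) = pvilZi 𝔓 m π.p.zs π.p.ts (pvxnFl (𝔓.col π.p.ts) ζ) := by
  have H : PvrdSit (cfSites ζ) (cfSites (Conf.spl (pvdmU C) (ζ, ω₂))) C r := by
    refine ⟨hr, ?_, hm, hg, by rw [pvrd_spl_sites]; exact hg'⟩
    rw [pvrd_spl_sites]
    ext z
    simp only [Set.mem_sdiff, mem_union, mem_inter_iff]
    tauto
  exact pvza_n1_spl hW hπ hks hkt H h1 (pvza_n1_spl_one C h1 h2) (pvrd_spl_col C ζ ω₂) hok hcyl hf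

end spliceN1

end Claimed.Agent.R289
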