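import Claimed.Agent.R289.Exit.AnaDefs
import Claimed.Agent.R289.Exit.N1RK
import Claimed.Agent.R289.Defs.GdReg
import Claimed.Agent.R289.Exit.N1Dat
import Claimed.Agent.R289.Tr.InstEKL
import Claimed.Agent.R289.Tr.SimpleE

/-!
# Row 289 (S0537), THE WALL, ROAD E, file Exit/N1Rd : (S2) THE GUARD OF N1' DOES NOT READ THE RESAMPLED REGION      (helper101, second of `exit_pvn1a_rd`, post VII of 243; prefix `pvn1y_`, `pvn1y`, `Pvn1y`)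

TARGET = the sub-exit `exit_pvn1a_rd` of 159 (`Exit/N1All.lean`).      THIS FILE DOES NOT IMPORT `Exit/N1All`: the guard is retyped (`pvn1yS`, SAME BODY as `pvn1aS`: `rfl`).
* sec. 1  `Pvn1yAg C η η'` (the two configurations have the same points off `C`): sites, colours, `.R` (hybrid resampling with a constant choice), `.reads`, flips, the splice
* sec. 2  **`pvn1y_end`** : MODEL FREE: an end link of 218 with a constant choice, `A` read in `Wn`, `G` read in `D`, `C ∩ Wn ⊆ K ∪ D`  ⟹  `pvrgEnd ε e D G q` does not see the difference between `η` and `η'`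
* sec. 3  (v2, 13:35Z: `PvknGeo` v2 of 29 has no `bs bt`: the own-level boxes are NOT far from `C`)   BASE DATA `(F, Z)` = (B) of 38, CITED: `pvza_n1_rd` (`Exit/N1Dat` v3), at the PRESENT DATUM of `A i` (`PvxnWit.ok cyl sub far`), only `G.ks G.kt G.r0` are used
* sec. 4  the windows against `C_c` (148: `PvieSimple`, `pvzu_clear_pat`): `pvn1y_win_o pvn1y_win_i`
* sec. 5  `pvn1yS`, **`pvn1y_guard`** (one `ε`, two configurations with the same base data), **`pvn1y_rd`** (one `ε`, one `ω₂`, a present datum), **`pvn1y_rd_kit`** = `exit_pvn1a_rd`, **`pvn1y_rd_reg`** (`hs hc` paid by 148)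
WHAT IS ASKED BEYOND THE BINDERS OF 159 (v0): `G : ∀ᶠ ε, PvknGeo ..` (= his (X1) `exit_pvn1a_geo`), `hs : ∀ᶠ ε, PvieSimple ..`, `hc : ∀ᶠ ε,` the tiles miss the two fattened hulls in the own-level boxes (= `pvzu_simple_pat`, `pvzu_clear_pat` of 148 at the engine of record).
-/

set_option autoImplicit false

namespace Claimed.Agent.R289

open MeasureTheory Filter Topology Set Metric Claims.C0465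
open scoped ENNReal

/-! ## 1. two configurations with the same points off `C` -/

/-- the two configurations have the same points off `C` -/
def Pvn1yAg (C : Set ℂ) (η η' : Conf PvPt) : Prop := ∀ x : PvPt, x.1 ∉ C → (x ∈ η'.pts ↔ x ∈ η.pts)

theorem pvn1y_eqns_cite : True := by
  have := @Pvn1yAg.eq_1
  trivial

namespace Pvn1yAg

variable {C C' : Set ℂ} {η η' : Conf PvPt}

theorem symm (h : Pvn1yAg C η η') : Pvn1yAg C η' η := fun x hx => (h x hx).symm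

theorem mono (h : Pvn1yAg C η η') (hC : C ⊆ C') : Pvn1yAg C' η η' := fun x hx => h x fun hc => hx (hC hc)

theorem sites (h : Pvn1yAg C η η') {z : ℂ} (hz : z ∉ C) : z ∈ cfSites η' ↔ z ∈ cfSites η := by
  constructor
  · rintro ⟨x, hx, rfl⟩
    exact ⟨x, (h x hz).1 hx, rfl⟩
  · rintro ⟨x, hx, rfl⟩
    exact ⟨x, (h x hz).2 hx, rfl⟩

theorem col (h : Pvn1yAg C η η') {z : ℂ} (hz : z ∉ C) : cfCol η' z = cfCol η z := by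
  classical
  unfold cfCol
  exact decide_eq_decide.2 (h (z, true) hz)

/-- the hybrid resampling with the same choice of the recoloured sites -/
theorem R (h : Pvn1yAg C η η') (K : Set ℂ) {yf : Conf PvPt → Set ℂ} (hy : yf η' = yf η) (p : (ℂ → Bool) × Conf PvPt) : Pvn1yAg (C \ K) (pvdyR K yf η p) (pvdyR K yf η' p) := by
  intro x hx
  rw [pvdy_mem_R, pvdy_mem_R]
  by_cases hK : x.1 ∈ K
  · simp only [hK, not_true_eq_false, false_and, true_and, false_or]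
  · have hC : x.1 ∉ C := fun hc => hx ⟨hc, hK⟩
    simp only [hK, not_false_eq_true, true_and, false_and, or_false, h.sites hC, hy]
    refine and_congr_right fun _ => ?_
    by_cases hm : x.1 ∈ yf η
    · rw [pvfqMix_of_mem hm, pvfqMix_of_mem hm]
    · rw [pvfqMix_of_notMem hm, pvfqMix_of_notMem hm]
      show x.2 = cfCol η' x.1 ↔ x.2 = cfCol η x.1
      rw [h.col hC]

theorem restr (h : Pvn1yAg C η η') {W : Set ℂ} (hW : Disjoint W C) : Conf.restr (W ×ˢ (univ : Set Bool)) η' = Conf.restr (W ×ˢ (univ : Set Bool)) η := by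
  ext x
  simp only [Conf.restr, mem_inter_iff, mem_prod, mem_univ, and_true]
  exact and_congr_left fun hx => h x (disjoint_left.1 hW hx)

/-- an event which is read off `C` does not see the difference -/
theorem reads (h : Pvn1yAg C η η') {W : Set ℂ} (hW : Disjoint W C) {A : Set (Conf PvPt)} (rA : Conf.ReadsSet (W ×ˢ (univ : Set Bool)) A) : η' ∈ A ↔ η ∈ A := by
  rw [← rA η', ← rA η, h.restr hW]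

theorem fl (h : Pvn1yAg C η η') (b : Bool) : Pvn1yAg C (pvxnFl b η) (pvxnFl b η') := by
  cases b
  · rintro ⟨z, c⟩ hx
    show (z, c) ∈ (cfFlip η').pts ↔ (z, c) ∈ (cfFlip η).pts
    rw [pvky_mem_flip, pvky_mem_flip]
    exact h (z, !c) hx
  · exact h

end Pvn1yAg

/-- the splice inside `C` -/
theorem pvn1y_ag_spl (C : Set ℂ) (ζ ω₂ : Conf PvPt) : Pvn1yAg C ζ (Conf.spl (pvdmU C) (ζ, ω₂)) := by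
  intro x hx
  have hU : x ∈ pvdmU C := hx
  simp only [Conf.spl, Conf.union, Conf.restr, mem_union, mem_inter_iff, mem_compl_iff, hU, and_true, not_true_eq_false, and_false, or_false]

theorem pvn1y_fl_sites (b : Bool) (ζ : Conf PvPt) : cfSites (pvxnFl b ζ) = cfSites ζ := by
  cases b
  · ext z
    constructor
    · rintro ⟨⟨z', c⟩, hx, rfl⟩
      exact ⟨(z', !c), pvky_mem_flip.1 hx, rfl⟩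
    · rintro ⟨⟨z', c⟩, hx, rfl⟩
      exact ⟨(z', !c), pvky_mem_flip.2 (by simpa using hx), rfl⟩
  · rfl

/-! ## 2. a forced end link does not see what happens in `C` off its tile and its door -/

/-- **MODEL FREE**: `FORCED` of an end link (256) at two configurations which differ inside `C` only -/
theorem pvn1y_end {ε : ℝ} {e : PvkyEnd} {D Wn C : Set ℂ} {G : Set (Conf PvPt)} (q : ℝ≥0∞) {η η' : Conf PvPt} (hy : ∀ ξ ξ', e.y ξ = e.y ξ')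
    (rA : Conf.ReadsSet (Wn ×ˢ (univ : Set Bool)) e.A) (rG : Conf.ReadsSet (D ×ˢ (univ : Set Bool)) G) (hW : C ∩ Wn ⊆ e.K ∪ D) (h : Pvn1yAg C η η') :
    η' ∈ pvrgEnd ε e D G q ↔ η ∈ pvrgEnd ε e D G q := by
  have dW : Disjoint Wn (C \ (e.K ∪ D)) := disjoint_left.2 fun w hw hc => hc.2 (hW ⟨hc.1, hw⟩)
  have dD : Disjoint D (C \ (e.K ∪ D)) := disjoint_left.2 fun w hw hc => hc.2 (Or.inr hw)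
  have key : ∀ p, (pvdyR (e.K ∪ D) e.y η' p ∈ G ↔ pvdyR (e.K ∪ D) e.y η p ∈ G) ∧
      pvdyQ ε e.K e.y e.A (pvdyR (e.K ∪ D) e.y η' p) = pvdyQ ε e.K e.y e.A (pvdyR (e.K ∪ D) e.y η p) := by
    intro p
    have h1 := h.R (e.K ∪ D) (hy η' η) p
    refine ⟨h1.reads dD rG, ?_⟩
    unfold pvdyQ
    congr 1
    ext p'
    exact ((h1.R e.K (hy _ _) p').mono sdiff_subset).reads dW rA
  unfold pvrgEnd pvrgFrc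
  simp only [mem_ofPred_eq, (key _).1, (key _).2]

/-! ## 4. the windows of the two end links against the resampled region of the chain -/

section win

variable {τ : Type} {c : ℝ} {𝔓 : PvxPar τ c} {𝔈 : PvieEng τ} {m : ℕ} {ε : ℝ} {π : PvxIx τ}

theorem pvn1y_bx_sub (𝔓 : PvxPar τ c) (m : ℕ) (z : ℂ) (t : τ) : pvilBx 𝔓 m z t ⊆ pvieSh z (pviwBox 𝔓 m t) := by
  intro w hw
  refine ⟨w - z, ⟨?_, ?_⟩, by simp⟩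
  · simpa [pviwRad] using hw.1
  · simpa [pviwRad] using hw.2

/-- **`C_c` MEETS THE WINDOW OF THE FIRST LINK (v2.2, hull of the index) IN ITS TILE AND ITS DOOR ONLY** -/
theorem pvn1y_win_o (hs : PvieSimple 𝔓 𝔈 m ε π.p)
    (hc : ∀ S ∈ pvieTiles 𝔓 𝔈 m ε π.p, Disjoint S (pvieSh π.p.zt (pviwBox 𝔓 m π.p.tt) ∩ pvtU (pvlmDel c m) (pvtN8 (↑π.Zs ∪ ↑π.Zt)))) :
    pvieCc 𝔓 𝔈 m ε π.p ∩ pvilWno 𝔓 𝔈 m ε π.p.zt π.p.tt ↑π.Zt ⊆ pvieSh π.p.zt (𝔈.oK m π.p.tt) ∪ pvieDoor 𝔈 m ε (pvieZo 𝔓 m π.p.zt π.p.tt) ((𝔓.Γ m).dout π.p.tt) := by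
  rintro w ⟨⟨S, hS, hw⟩, ((h | h) | h) | h⟩
  · exact absurd ⟨pvn1y_bx_sub 𝔓 m _ _ h.2, pvt_U_mono (pvt_N8_mono subset_union_right) h.1⟩ (disjoint_left.1 (hc S hS) hw)
  · exact absurd hw (disjoint_left.1 (hs.pvzu_mouths S hS).1 h)
  · exact Or.inl h
  · exact Or.inr h

/-- the same for the last link -/
theorem pvn1y_win_i (hs : PvieSimple 𝔓 𝔈 m ε π.p)
    (hc : ∀ S ∈ pvieTiles 𝔓 𝔈 m ε π.p, Disjoint S (pvieSh π.p.zs (pviwBox 𝔓 m π.p.ts) ∩ pvtU (pvlmDel c m) (pvtN8 (↑π.Zs ∪ ↑π.Zt)))) :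
    pvieCc 𝔓 𝔈 m ε π.p ∩ pvilWni 𝔓 𝔈 m ε π.p.zs π.p.ts ↑π.Zs ⊆ pvieSh π.p.zs (𝔈.iK m π.p.ts) ∪ pvieDoor 𝔈 m ε (pvieZi 𝔓 m π.p.zs π.p.ts) ((𝔓.Γ m).din π.p.ts) := by
  rintro w ⟨⟨S, hS, hw⟩, ((h | h) | h) | h⟩
  · exact absurd ⟨pvn1y_bx_sub 𝔓 m _ _ h.2, pvt_U_mono (pvt_N8_mono subset_union_left) h.1⟩ (disjoint_left.1 (hc S hS) hw)
  · exact absurd hw (disjoint_left.1 (hs.pvzu_mouths S hS).2 h)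
  · exact Or.inl h
  · exact Or.inr h

/-- the usable event of a door plug is read in the region of the plug -/
theorem pvn1y_Gk_reads (𝔈 : PvieEng τ) {m : ℕ} {ε : ℝ} (hk : (𝔈.kit m ε).WF) (b : Bool) (z' : ℂ) {d : ℂ} (hd : d ≠ 0) :
    Conf.ReadsSet (pvkyDoor (𝔈.kit m ε) z' d ×ˢ (univ : Set Bool)) (pvrgGk 𝔈 m ε b z' d) := by
  intro ξ
  show pvkyFl b (Conf.restr (pvkyDoor (𝔈.kit m ε) z' d ×ˢ (univ : Set Bool)) ξ) ∈ (𝔈.kit m ε).G z' d ↔ pvkyFl b ξ ∈ (𝔈.kit m ε).G z' d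
  rw [← pvky_fl_restr]
  exact iff_of_eq (pvth_rG hk z' d hd (pvkyFl b ξ))

end win

/-! ## 5. the guard -/

section guard

variable {τ : Type} {c : ℝ}

/-- **THE GUARD** (same body as `pvn1aS` of 159, `Exit/N1All.lean`) -/
def pvn1yS (𝔓 : PvxPar τ c) (𝔈 : PvieEng τ) (m : ℕ) (π : PvxIx τ) (qf : ℝ≥0∞) (ε : ℝ) : Set (Conf PvPt) :=
  {ζ | pvxnFl (𝔓.col π.p.ts) ζ ∈ pvrgFo 𝔓 𝔈 qf m ε π.p.zt π.p.tt ∧ pvxnFl (𝔓.col π.p.ts) ζ ∈ pvrgFi 𝔓 𝔈 qf m ε π.p.zs π.p.ts ∧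
    pvilZo 𝔓 m π.p.zt π.p.tt (pvxnFl (𝔓.col π.p.ts) ζ) = (π.Zt : Set (ℤ × ℤ)) ∧ pvilZi 𝔓 m π.p.zs π.p.ts (pvxnFl (𝔓.col π.p.ts) ζ) = (π.Zs : Set (ℤ × ℤ))}

theorem pvn1y_eqns_cite2 : True := by
  have := @pvn1yS.eq_1
  trivial

variable {𝔓 : PvxPar τ c} {𝔈 : PvieEng τ} {x : ℂ} {R : ℝ} {m : ℕ} {π : PvxIx τ} {r : ℝ}

/-- the first link AT FIXED BASE DATA -/
theorem pvn1y_Eo {ε : ℝ} (z : ℂ) (t : τ) (Z : Set (ℤ × ℤ)) (F : Set ℂ) {C : Set ℂ} {η η' : Conf PvPt} (hk : (𝔈.kit m ε).WF) (hdo : (𝔓.Γ m).dout t ≠ 0) (qf : ℝ≥0∞)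
    (hW : C ∩ pvilWno 𝔓 𝔈 m ε z t Z ⊆ pvieSh z (𝔈.oK m t) ∪ pvieDoor 𝔈 m ε (pvieZo 𝔓 m z t) ((𝔓.Γ m).dout t)) (h : Pvn1yAg C η η') :
    η' ∈ pvrgEnd ε (pvilEo 𝔓 𝔈 m ε pvilQ z t Z F) (pvkyDoor (𝔈.kit m ε) (pvieZo 𝔓 m z t) ((𝔓.Γ m).dout t)) (pvrgGk 𝔈 m ε (𝔓.col t) (pvieZo 𝔓 m z t) ((𝔓.Γ m).dout t)) qf ↔
    η ∈ pvrgEnd ε (pvilEo 𝔓 𝔈 m ε pvilQ z t Z F) (pvkyDoor (𝔈.kit m ε) (pvieZo 𝔓 m z t) ((𝔓.Γ m).dout t)) (pvrgGk 𝔈 m ε (𝔓.col t) (pvieZo 𝔓 m z t) ((𝔓.Γ m).dout t)) qf :=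
  pvn1y_end qf (Wn := pvilWno 𝔓 𝔈 m ε z t Z) (fun _ _ => rfl) (pvks_Eo_A_reads 𝔓 𝔈 m ε pvilQ _ _ _ _) (pvn1y_Gk_reads 𝔈 hk _ _ hdo) hW h

/-- the last link AT FIXED BASE DATA -/
theorem pvn1y_Ei {ε : ℝ} (z : ℂ) (t : τ) (Z : Set (ℤ × ℤ)) (F : Set ℂ) {C : Set ℂ} {η η' : Conf PvPt} (hk : (𝔈.kit m ε).WF) (hdi : (𝔓.Γ m).din t ≠ 0) (qf : ℝ≥0∞)
    (hW : C ∩ pvilWni 𝔓 𝔈 m ε z t Z ⊆ pvieSh z (𝔈.iK m t) ∪ pvieDoor 𝔈 m ε (pvieZi 𝔓 m z t) ((𝔓.Γ m).din t)) (h : Pvn1yAg C η η') :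
    η' ∈ pvrgEnd ε (pvilEi 𝔓 𝔈 m ε pvilQ z t Z F) (pvkyDoor (𝔈.kit m ε) (pvieZi 𝔓 m z t) ((𝔓.Γ m).din t)) (pvrgGk 𝔈 m ε (𝔓.col t) (pvieZi 𝔓 m z t) ((𝔓.Γ m).din t)) qf ↔
    η ∈ pvrgEnd ε (pvilEi 𝔓 𝔈 m ε pvilQ z t Z F) (pvkyDoor (𝔈.kit m ε) (pvieZi 𝔓 m z t) ((𝔓.Γ m).din t)) (pvrgGk 𝔈 m ε (𝔓.col t) (pvieZi 𝔓 m z t) ((𝔓.Γ m).din t)) qf :=
  pvn1y_end qf (Wn := pvilWni 𝔓 𝔈 m ε z t Z) (fun _ _ => rfl) (pvks_Ei_A_reads 𝔓 𝔈 m ε pvilQ _ _ _ _) (pvn1y_Gk_reads 𝔈 hk _ _ hdi) hW h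

/-- the first link is forced at `η'` iff it is forced at `η` -/
theorem pvn1y_Fo {ε : ℝ} {η η' : Conf PvPt} (hk : (𝔈.kit m ε).WF) (hdo : (𝔓.Γ m).dout π.p.tt ≠ 0) (hs : PvieSimple 𝔓 𝔈 m ε π.p)
    (hc : ∀ S ∈ pvieTiles 𝔓 𝔈 m ε π.p, Disjoint S (pvieSh π.p.zt (pviwBox 𝔓 m π.p.tt) ∩ pvtU (pvlmDel c m) (pvtN8 (↑π.Zs ∪ ↑π.Zt)))) (qf : ℝ≥0∞)
    (h : Pvn1yAg (pvieCc 𝔓 𝔈 m ε π.p) η η') (eF : pvilFo 𝔓 m π.p.zt π.p.tt η' = pvilFo 𝔓 m π.p.zt π.p.tt η) (eZ : pvilZo 𝔓 m π.p.zt π.p.tt η' = pvilZo 𝔓 m π.p.zt π.p.tt η)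
    (hZ : pvilZo 𝔓 m π.p.zt π.p.tt η = (π.Zt : Set (ℤ × ℤ))) : η' ∈ pvrgFo 𝔓 𝔈 qf m ε π.p.zt π.p.tt ↔ η ∈ pvrgFo 𝔓 𝔈 qf m ε π.p.zt π.p.tt := by
  rw [pvrgFo, mem_ofPred_eq, mem_ofPred_eq, pvilEoAt, pvilEoAt, eF, eZ, hZ]
  exact pvn1y_Eo _ _ _ _ hk hdo qf (pvn1y_win_o hs hc) h

/-- the last link is forced at `η'` iff it is forced at `η` -/
theorem pvn1y_Fi {ε : ℝ} {η η' : Conf PvPt} (hk : (𝔈.kit m ε).WF) (hdi : (𝔓.Γ m).din π.p.ts ≠ 0) (hs : PvieSimple 𝔓 𝔈 m ε π.p)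
    (hc : ∀ S ∈ pvieTiles 𝔓 𝔈 m ε π.p, Disjoint S (pvieSh π.p.zs (pviwBox 𝔓 m π.p.ts) ∩ pvtU (pvlmDel c m) (pvtN8 (↑π.Zs ∪ ↑π.Zt)))) (qf : ℝ≥0∞)
    (h : Pvn1yAg (pvieCc 𝔓 𝔈 m ε π.p) η η') (eF : pvilFi 𝔓 m π.p.zs π.p.ts η' = pvilFi 𝔓 m π.p.zs π.p.ts η) (eZ : pvilZi 𝔓 m π.p.zs π.p.ts η' = pvilZi 𝔓 m π.p.zs π.p.ts η)
    (hZ : pvilZi 𝔓 m π.p.zs π.p.ts η = (π.Zs : Set (ℤ × ℤ))) : η' ∈ pvrgFi 𝔓 𝔈 qf m ε π.p.zs π.p.ts ↔ η ∈ pvrgFi 𝔓 𝔈 qf m ε π.p.zs π.p.ts := by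
  rw [pvrgFi, mem_ofPred_eq, mem_ofPred_eq, pvilEiAt, pvilEiAt, eF, eZ, hZ]
  exact pvn1y_Ei _ _ _ _ hk hdi qf (pvn1y_win_i hs hc) h

/-- **THE GUARD AT TWO CONFIGURATIONS WHICH DIFFER INSIDE `C_c` ONLY** (black vocabulary), with the same base data `(F, Z)` at the two pins -/
theorem pvn1y_guard {ε : ℝ} {ζ ζ' : Conf PvPt} (hk : (𝔈.kit m ε).WF) (hdo : (𝔓.Γ m).dout π.p.tt ≠ 0) (hdi : (𝔓.Γ m).din π.p.ts ≠ 0) (hs : PvieSimple 𝔓 𝔈 m ε π.p)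
    (hc : ∀ S ∈ pvieTiles 𝔓 𝔈 m ε π.p, Disjoint S (pvieSh π.p.zt (pviwBox 𝔓 m π.p.tt) ∩ pvtU (pvlmDel c m) (pvtN8 (↑π.Zs ∪ ↑π.Zt))) ∧
      Disjoint S (pvieSh π.p.zs (pviwBox 𝔓 m π.p.ts) ∩ pvtU (pvlmDel c m) (pvtN8 (↑π.Zs ∪ ↑π.Zt)))) (qf : ℝ≥0∞)
    (h : Pvn1yAg (pvieCc 𝔓 𝔈 m ε π.p) ζ ζ')
    (hB : pvilFo 𝔓 m π.p.zt π.p.tt (pvxnFl (𝔓.col π.p.ts) ζ') = pvilFo 𝔓 m π.p.zt π.p.tt (pvxnFl (𝔓.col π.p.ts) ζ) ∧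
      pvilZo 𝔓 m π.p.zt π.p.tt (pvxnFl (𝔓.col π.p.ts) ζ') = pvilZo 𝔓 m π.p.zt π.p.tt (pvxnFl (𝔓.col π.p.ts) ζ) ∧
      pvilFi 𝔓 m π.p.zs π.p.ts (pvxnFl (𝔓.col π.p.ts) ζ') = pvilFi 𝔓 m π.p.zs π.p.ts (pvxnFl (𝔓.col π.p.ts) ζ) ∧
      pvilZi 𝔓 m π.p.zs π.p.ts (pvxnFl (𝔓.col π.p.ts) ζ') = pvilZi 𝔓 m π.p.zs π.p.ts (pvxnFl (𝔓.col π.p.ts) ζ)) : ζ' ∈ pvn1yS 𝔓 𝔈 m π qf ε ↔ ζ ∈ pvn1yS 𝔓 𝔈 m π qf ε := by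
  have ha := h.fl (𝔓.col π.p.ts)
  obtain ⟨eFo, eZo, eFi, eZi⟩ := hB
  have i1 := pvn1y_Fo hk hdo hs (fun S hS => (hc S hS).1) qf ha eFo eZo
  have i2 := pvn1y_Fi hk hdi hs (fun S hS => (hc S hS).2) qf ha eFi eZi
  unfold pvn1yS
  simp only [mem_ofPred_eq]
  rw [eZo, eZi]
  constructor
  · rintro ⟨h1, h2, h3, h4⟩
    exact ⟨(i1 h3).1 h1, (i2 h4).1 h2, h3, h4⟩
  · rintro ⟨h1, h2, h3, h4⟩
    exact ⟨(i1 h3).2 h1, (i2 h4).2 h2, h3, h4⟩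

/-- the cell kit of the engine is well formed for small `ε`      (field (NUM) of 258) -/
theorem pvn1y_kit_wf (hE : PvnaWf 𝔓 𝔈) (m : ℕ) : ∀ᶠ ε in 𝓝[>] (0 : ℝ), (𝔈.kit m ε).WF := by
  obtain ⟨U, hU⟩ := hE.num
  rw [hU.kit]
  exact ((U.fam (pvlm_Del_pos c)).ok m).mono fun ε h => h.wf

/-- **(S2), THE BODY**, one `ε`, one `ω₂`: at a PRESENT DATUM (`Ok`, the colouring in its cylinder, `fzY` far from `C_c`) the guard does not read the resampled region.      Base data: (B) of 38 (`pvza_n1_rd`, `Exit/N1Dat` v3: twins + uniqueness of the half states; only the two gate discs are asked to be far) -/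
theorem pvn1y_rd {ε : ℝ} {ζ ω₂ : Conf PvPt} (hW : 𝔓.Wf) (hπ : π ∈ pvxPatSet 𝔓 x R m) (hk : (𝔈.kit m ε).WF) (hr : 0 < r)
    (hks : closedBall (𝔓.reg m π).zs ((𝔓.reg m π).ts.b * pvlmH m) ⊆ pvgeFar (pvieCc 𝔓 𝔈 m ε π.p) r) (hkt : closedBall (𝔓.reg m π).zt ((𝔓.reg m π).tt.b * pvlmH m) ⊆ pvgeFar (pvieCc 𝔓 𝔈 m ε π.p) r)
    (hs : PvieSimple 𝔓 𝔈 m ε π.p)
    (hc : ∀ S ∈ pvieTiles 𝔓 𝔈 m ε π.p, Disjoint S (pvieSh π.p.zt (pviwBox 𝔓 m π.p.tt) ∩ pvtU (pvlmDel c m) (pvtN8 (↑π.Zs ∪ ↑π.Zt))) ∧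
      Disjoint S (pvieSh π.p.zs (pviwBox 𝔓 m π.p.ts) ∩ pvtU (pvlmDel c m) (pvtN8 (↑π.Zs ∪ ↑π.Zt)))) (qf : ℝ≥0∞)
    (hg : DelGood (cfSites ζ)) (hg' : DelGood (cfSites ζ \ pvieCc 𝔓 𝔈 m ε π.p ∪ cfSites ω₂ ∩ pvieCc 𝔓 𝔈 m ε π.p)) (hm : VorDense (cfSites ζ) (pvgeCollar (pvieCc 𝔓 𝔈 m ε π.p) r) r)
    (h1 : ∀ p ∈ ζ.pts, ∀ q ∈ ζ.pts, p.1 = q.1 → p = q) (h2 : ∀ p ∈ ω₂.pts, ∀ q ∈ ω₂.pts, p.1 = q.1 → p = q)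
    {𝔇 : PvwDat (delbPl (cfSites ζ)).toMap} (hok : 𝔇.Ok Subtype.val 𝔓.num (pvlmH m) (𝔓.reg m π)) (hcyl : (fun v : ↥(cfSites ζ) => cfCol ζ v) ∈ 𝔇.Cyl)
    (hf : ∀ v ∈ 𝔇.fzY, (v : ℂ) ∈ pvgeFar (pvieCc 𝔓 𝔈 m ε π.p) r) :
    Conf.spl (pvdmU (pvieCc 𝔓 𝔈 m ε π.p)) (ζ, ω₂) ∈ pvn1yS 𝔓 𝔈 m π qf ε ↔ ζ ∈ pvn1yS 𝔓 𝔈 m π qf ε := by
  have hdo : (𝔓.Γ m).dout π.p.tt ≠ 0 := fun h => by
    have := (𝔓.Γ m).dout1 π.p.tt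
    rw [h, norm_zero] at this
    exact zero_ne_one this
  have hdi : (𝔓.Γ m).din π.p.ts ≠ 0 := fun h => by
    have h1 := pvt_norm_dir ((𝔓.Γ m).dout π.p.tt) π.p.l
    rw [hπ.1.1.2, h, norm_zero, (𝔓.Γ m).dout1] at h1
    exact zero_ne_one h1
  exact pvn1y_guard hk hdo hdi hs hc qf (pvn1y_ag_spl _ _ _) (pvza_n1_rd hW hπ hr hks hkt hg hg' hm h1 h2 hok hcyl hf)

/-- **(S2) = THE STATEMENT OF `exit_pvn1a_rd`** (159, `Exit/N1All.lean`) for ANY family of kits with `C = C_c`, collar radius `r`:   `exit_pvn1a_rd := pvn1y_rd_kit hW hE hπ G hs hc qf (pvn1aKs ..) (fun _ => rfl) (fun _ => rfl) 0 𝔜`.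
The datum, its `Ok`, `Cyl`, the far frozen sites: fields `ok cyl sub far` of `PvxnWit`, inside `A i`. -/
theorem pvn1y_rd_kit (hW : 𝔓.Wf) (hE : PvnaWf 𝔓 𝔈) (hπ : π ∈ pvxPatSet 𝔓 x R m)
    (G : ∀ᶠ ε in 𝓝[>] (0 : ℝ), PvknGeo 𝔓.num (pvlmH m) (𝔓.reg m π) x (5 * R) (6 * R) (pvieCc 𝔓 𝔈 m ε π.p) r) (hs : ∀ᶠ ε in 𝓝[>] (0 : ℝ), PvieSimple 𝔓 𝔈 m ε π.p)
    (hc : ∀ᶠ ε in 𝓝[>] (0 : ℝ), ∀ S ∈ pvieTiles 𝔓 𝔈 m ε π.p, Disjoint S (pvieSh π.p.zt (pviwBox 𝔓 m π.p.tt) ∩ pvtU (pvlmDel c m) (pvtN8 (↑π.Zs ∪ ↑π.Zt))) ∧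
      Disjoint S (pvieSh π.p.zs (pviwBox 𝔓 m π.p.ts) ∩ pvtU (pvlmDel c m) (pvtN8 (↑π.Zs ∪ ↑π.Zt)))) (qf : ℝ≥0∞)
    (𝔎s : ℝ → PvxnKit) (hC : ∀ ε, (𝔎s ε).C = pvieCc 𝔓 𝔈 m ε π.p) (hr : ∀ ε, (𝔎s ε).r = r) (a : ℂ) (𝔜 : PvxnYd) :
    ∀ᶠ ε in 𝓝[>] (0 : ℝ), ∀ Y, (pvxnSys 𝔓 m π a (𝔎s ε) 𝔜 ε).Ok Y → ∀ σ, ∀ᵐ ω₂ ∂pvP ε, ∀ i, cfOf Y σ ∈ (pvxnSys 𝔓 m π a (𝔎s ε) 𝔜 ε).A i →
      (Conf.spl (pvdmU (𝔎s ε).C) (cfOf Y σ, ω₂) ∈ pvn1yS 𝔓 𝔈 m π qf ε ↔ cfOf Y σ ∈ pvn1yS 𝔓 𝔈 m π qf ε) := by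
  filter_upwards [G, hs, hc, pvn1y_kit_wf hE m] with ε g1 g2 g3 g4 Y hY σ
  have hY1 : DelGood Y := hY.1
  have hY2 : ∀ᵐ ω₂ ∂pvP ε, DelGood (Y \ (𝔎s ε).C ∪ cfSites ω₂ ∩ (𝔎s ε).C) := hY.2
  filter_upwards [hY2, delgp_ae_conf ε] with ω₂ hg' h2 i hi
  obtain ⟨hm, ⟨𝔇, hD, -, -⟩, -⟩ : PvxnPA 𝔓 m π a (𝔎s ε) i (cfSites (cfOf Y σ)) (cfCol (cfOf Y σ)) := hi
  have hf : ∀ v ∈ 𝔇.fzY, (v : ℂ) ∈ pvgeFar (𝔎s ε).C (𝔎s ε).r := fun v hv => hD.far v (hD.sub (Or.inl (Or.inl hv)))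
  rw [hC ε, hr ε] at hm hf
  rw [hC ε] at hg' ⊢
  refine pvn1y_rd hW hπ g4 g1.r0 g1.ks g1.kt g2 g3 qf (by rw [cfOf_sites]; exact hY1) (by rw [cfOf_sites]; exact hg') hm ?_ h2.2.2 hD.ok hD.cyl hf
  rintro ⟨p1, p2⟩ ⟨-, hp⟩ ⟨q1, q2⟩ ⟨-, hq⟩ e
  have e' : p1 = q1 := e
  subst e'
  exact Prod.ext rfl (hp.trans hq.symm)

/-- **(S2) FROM THE REGIONS OF RECORD**: `PvieSimple` and the clearance of the hulls are paid by 148 (`Tr/SimpleE`) as soon as the mouths and the tiles of the two end links lie in the regions of 124 (`Exit/ParEng`; `Subset.rfl` at `pveaEng`).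
At `pvxParOf N hN c`: `hL := pvqh_lev c0 hm`, `hT := pvqh_tyOk c` (`Exit/ParGr`). -/
theorem pvn1y_rd_reg (hW : 𝔓.Wf) (hE : PvnaWf 𝔓 𝔈) (hπ : π ∈ pvxPatSet 𝔓 x R m) (hL : PvegLev 𝔓 m) (hT : ∀ t, pviwTyOk 𝔓 t)
    (hoM : ∀ t, 𝔈.oM m t ⊆ pvegOM 𝔓 m t) (hoK : ∀ t, 𝔈.oK m t ⊆ pvegOK 𝔓 m t) (hiM : ∀ t, 𝔈.iM m t ⊆ pvegIM 𝔓 m t) (hiK : ∀ t, 𝔈.iK m t ⊆ pvegIK 𝔓 m t)
    (G : ∀ᶠ ε in 𝓝[>] (0 : ℝ), PvknGeo 𝔓.num (pvlmH m) (𝔓.reg m π) x (5 * R) (6 * R) (pvieCc 𝔓 𝔈 m ε π.p) r) (qf : ℝ≥0∞)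
    (𝔎s : ℝ → PvxnKit) (hC : ∀ ε, (𝔎s ε).C = pvieCc 𝔓 𝔈 m ε π.p) (hr : ∀ ε, (𝔎s ε).r = r) (a : ℂ) (𝔜 : PvxnYd) :
    ∀ᶠ ε in 𝓝[>] (0 : ℝ), ∀ Y, (pvxnSys 𝔓 m π a (𝔎s ε) 𝔜 ε).Ok Y → ∀ σ, ∀ᵐ ω₂ ∂pvP ε, ∀ i, cfOf Y σ ∈ (pvxnSys 𝔓 m π a (𝔎s ε) 𝔜 ε).A i →
      (Conf.spl (pvdmU (𝔎s ε).C) (cfOf Y σ, ω₂) ∈ pvn1yS 𝔓 𝔈 m π qf ε ↔ cfOf Y σ ∈ pvn1yS 𝔓 𝔈 m π qf ε) := by
  obtain ⟨Cth, r', κs, H⟩ := hE.wf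
  exact pvn1y_rd_kit hW hE hπ G (Eventually.of_forall fun ε => pvzu_simple_pat hW.toWfB hL hT (H.kit_ref m ε) (H.kit_del m ε) hoM hoK hiM hiK hπ)
    (Eventually.of_forall fun ε => pvzu_clear_pat hW.toWfB hL hT (H.kit_ref m ε) (H.kit_del m ε) hoK hiK hπ) qf 𝔎s hC hr a 𝔜

end guard

end Claimed.Agent.R289
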