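import Claimed.Agent.R289.Exit.N1AllD
import Claimed.Agent.R289.Exit.N1RK
import Claimed.Agent.R289.Tr.AtUniq
import Claimed.Agent.R289.Tr.LocalX
import Claimed.Agent.R289.Tr.KitUni
import Claimed.Agent.R289.Exit.N1Meas
import Claimed.Agent.R289.Exit.N1CX
import Claimed.Agent.R289.Exit.N1QM
import Claimed.Agent.R289.Exit.N1Rd

/-!
# Row 289 (S0537), THE WALL, ROAD E, file Exit/N1All : `exit_pvie_in` = `PvnaIn` AS COMPILED GLUE, **v5, 0 sorry**      (helper159 v0 v1, 242 29 136 in place; v5 = helper170, pen of `exit_pvie_in`, RULING N1-B: ONE EDITOR = 170; prefix `pvn1a_`, `pvn1a`, `Pvn1a`)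

LEVELS.   `exit_pvie_in` (`Exit/Ana.lean` (4))  :=  `pvn1w_in` (143 `Exit/N1Wire`)  ⟸  `Exit/N1Lv` (THE LEAVES AT THE RECORD, junk splits)  ⟸  **`pvn1a_pat`** (HERE, PROVED, ONE PATTERN)  ⟸  `PvxnOk.toIn` (170 `Exit/N1`)  ⟸  `pvn1a_ok` (159 `Exit/N1Guard`)  ⟸  `Pvn1aX` `Pvn1aS` `Pvn1aY` AT THE OBJECTS OF RECORD (`Exit/N1AllD`).
**THIS FILE HAS NO SUB-EXIT OF ITS OWN ANY MORE: ALL THE DEBTS ARE THE HYPOTHESES OF `pvn1a_pat`:**   `hgood : PvjxGood` (209, junk split),   `L : Pvn1aLv` (numbers, regions, `Pvn1zGeo` of 107, `gen`),   `LY : Pvn1aLvY` (the `Y` side: 93 214 12),   `hB : PvnaBad`, `frc : Pvn1aFrc` (good part).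
WHAT IS CITED:   (X1) `pvn1c_xgeo`, `pvn1c_xfa` (292 `Exit/N1CX`; 209 60 169)   (X2) `pvn1a_kit` (29 242, in place)   (X3) `pvwh_qbx_free5` (5 `Exit/N1QM`; 155 60 252 130)   (S1) `pvn1z_stab_cl` (107 `Exit/N1Stab`; 141 197 71)   (S2) `pvn1y_rd_kit` (101 `Exit/N1Rd`; 38), `pvn1z_gn_Yc` (107)   (S3) `exit_pvn1a_hull` (242).
NEW IN v5:   layer 1 `= g5 ∧ Pvn1kMesh` (`frz c1 spl` below),   `μ = δ_m / 4`, `r = δ_m / 30`,   the two `Sq` clauses in the colour blind slot of 136 (`pvn1a_sq_ag`, `pvn1a_gn_Yc`).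
-/

set_option autoImplicit false
set_option linter.unusedVariables false
set_option linter.unusedSectionVars false

namespace Claimed.Agent.R289

open MeasureTheory Filter Topology Set Claims.C0465
open scoped ENNReal

/-! ## 1. the `X` side -/

section exits

variable {τ : Type} {c : ℝ} {𝔓 : PvxPar τ c} {𝔈 : PvieEng τ} {𝔊 : PvnaGd τ} {x : ℂ} {R : ℝ} {m : ℕ} {π : PvxIx τ}

/-- the cell kit of the engine is well formed, carries the field `Q`, is forced with constants which do not depend on `ε`, for small `ε`      (from the field (NUM) of 258) -/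
theorem pvn1a_kit_ok (hE : PvnaWf 𝔓 𝔈) (m : ℕ) : ∃ β' q : ℝ≥0∞, ∀ᶠ ε in 𝓝[>] (0 : ℝ), (𝔈.kit m ε).WF ∧ (𝔈.kit m ε).Fld (𝔈.XQ m ε) ∧ (𝔈.kit m ε).Forced (pvP ε) β' q := by
  obtain ⟨U, hU⟩ := hE.num
  refine ⟨U.β', U.q, ?_⟩
  rw [hU.kit, hU.XQ]
  exact ((U.fam (pvlm_Del_pos c)).ok m).mono fun ε h => ⟨h.wf, h.fQ, h.frc⟩

/-- **(X2)** the resampled region is Borel -/
theorem pvn1a_mC (hE : PvnaWf 𝔓 𝔈) (hπ : π ∈ pvxPatSet 𝔓 x R m) : ∀ᶠ ε in 𝓝[>] (0 : ℝ), MeasurableSet (pvieCc 𝔓 𝔈 m ε π.p) := by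
  obtain ⟨Cth, r, κs, hWf⟩ := hE.wf
  obtain ⟨β', q, hk⟩ := pvn1a_kit_ok hE m
  have hdo : (𝔓.Γ m).dout π.p.tt ≠ 0 := fun h => by
    have := (𝔓.Γ m).dout1 π.p.tt
    rw [h, norm_zero] at this
    exact zero_ne_one this
  have hdi : (𝔓.Γ m).din π.p.ts ≠ 0 := fun h => by
    have h1 := pvt_norm_dir ((𝔓.Γ m).dout π.p.tt) π.p.l
    rw [hπ.1.1.2, h, norm_zero, (𝔓.Γ m).dout1] at h1
    exact zero_ne_one h1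
  filter_upwards [hk] with ε hε
  have e : pvieCc 𝔓 𝔈 m ε π.p = ⋃ S ∈ {S | S ∈ pvieTiles 𝔓 𝔈 m ε π.p}, S := by
    ext w
    simp only [pvieCc, mem_ofPred_eq, mem_iUnion, exists_prop]
  rw [e]
  refine MeasurableSet.biUnion (List.finite_toSet _).countable fun S hS => ?_
  have hS' : S ∈ pvieTiles 𝔓 𝔈 m ε π.p := hS
  unfold pvieTiles at hS'
  simp only [List.mem_append, List.mem_cons, List.not_mem_nil, or_false, List.mem_map, List.mem_range] at hS'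
  rcases hS' with ((rfl | rfl | rfl) | ⟨j, -, rfl⟩) | ⟨j, -, rfl⟩
  · exact pvnm_sh _ (hWf.m_oK m _)
  · exact pvnm_sh _ (hWf.m_iK m _)
  · exact pvnm_door 𝔈 hε.1 _ hdi
  · exact pvnm_door 𝔈 hε.1 _ (pvthD_ne_zero hdo _ _)
  · exact pvnm_sim _ (pvthD_ne_zero hdo _ _) (hε.1.mK _)

/-- **(X2) THE CONTRACT OF 60 AT THE KIT OF 29**, any mesh `0 < μ < h`      [29 `Exit/N1RK` (`c1 := pvlx_act_fit` of 22, `sub fin far`, `uni := pvun_uni` of 145), `mu := pvn1b_mu_of`] -/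
theorem pvn1a_kit (hW : 𝔓.Wf) (hLR : 𝔓.𝔐.L * pvlmH m + pvlmH m ≤ R) (hR : 0 < R) (hπ : π ∈ pvxPatSet 𝔓 x R m) {r : ℝ} (q : ℝ≥0∞) {C : Set ℂ} {μ : ℝ} (hμ0 : 0 < μ) (hμ : μ < pvlmH m)
    (G : PvknGeo 𝔓.num (pvlmH m) (𝔓.reg m π) x (5 * R) (6 * R) C r) (Γ : PVSample → Prop)
    (hfa : ∀ ω : PVSample, PvqfGood (pvConf ω) → L9Fine (pvxY ω) (Metric.closedBall x (6 * R)) μ → ∀ 𝔇 : PvwDat (pvxT ω), Pvn1bAct 𝔓 x R m π ω 𝔇 →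
      (∀ v ∈ 𝔇.fz, (v : ℂ) ∈ pvgeFar C r) ∧ ∀ v ∈ 𝔇.apx, (v : ℂ) ∉ (𝔓.reg m π).Yin) :
    Pvn1bKit 𝔓 x R m π 0 (pvknKit 𝔓 x R m π C r (Metric.closedBall x (6 * R)) measurableSet_closedBall q) Γ μ := by
  have hh := pvlm_H_pos m
  have hb : ∀ t, (1 + (𝔓.ty t).b) * pvlmH m ≤ R := fun t => by
    have := mul_le_mul_of_nonneg_right (hW.b_le t) hh.le
    nlinarith
  refine ⟨pvn1b_mu_of 𝔓 hW hπ hLR hμ0 hμ, ?_, ?_, ?_, ?_, ?_⟩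
  · intro ω hg _ _ _ 𝔇 hA
    obtain ⟨hok, ⟨P, hP, j, hact, hin⟩, -, -⟩ := hA
    exact pvlx_act_fit hR hg.del hP (by rw [hW.reg_ts]; exact hb _) (by rw [hW.reg_tt]; exact hb _) hin hok hact (fun v hv => hv.2)
  · intro ω hg hf _ _ 𝔇 hA
    exact pvkn_subF (hfa ω hg hf 𝔇 hA).2
  · intro ω hg _ _ _ 𝔇 hA
    exact pvkn_finF hg.del.lf hA.1
  · intro ω hg hf _ _ 𝔇 hA v hv
    exact pvkn_farF (hfa ω hg hf 𝔇 hA).1 hv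
  · refine pvun_uni fun Y 𝔇 𝔇' hY _ hD τ' h => ?_
    exact pvun_W_resp (𝔓.reg m π) (fun Y gv dp _ σ => ∃ w : (delbPl Y).toMap.Cyc, PvknCirc (delbPl Y).toMap Subtype.val x (5 * R) (6 * R) σ w ∧ (∀ v ∈ gv, v ∈ (delbPl Y).toMap.Int w.Left) ∧ dp ∈ w.Left)
      Y 𝔇 𝔇' hY hD τ' h

theorem pvn1a_pin_pos (𝔓 : PvxPar τ c) (m : ℕ) (z : ℂ) (t : τ) (η : Conf PvPt) : (pvilPin 𝔓 m z t).pos η = Subtype.val := by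
  funext v
  simp [PvilPl.pos, pvilPin, PviePl.std, pviePos]

theorem pvn1a_pin_zf (𝔓 : PvxPar τ c) (m : ℕ) (z : ℂ) (t : τ) : (pvilPin 𝔓 m z t).zf = z := by
  simp [PvilPl.zf, pvilPin, PviePl.std, PvxPar.pl]

/-- BRIDGE: the exit half of the state of a candidate (`PvxAt`) is a half state of `Tr/InstL`      (242) -/
theorem pvn1a_out_of_at {ω : PVSample} {z : ℂ} {t : τ} {𝔖 : PvwSt (pvxT ω)} (h : PvxAt 𝔓 m ω z t 𝔖) :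
    PvilOut 𝔓.num (𝔓.col t) (pvilPin 𝔓 m z t) (pvConf ω) 𝔖 where
  good := h.good
  st := by
    rw [pvn1a_pin_pos, pvn1a_pin_zf]
    exact h.st.out
  tip := h.tip_p
  mask := h.mask_p
  mask_i := h.inn_p
  lev0 := h.lev0

/-- BRIDGE: the entrance half -/
theorem pvn1a_in_of_at {ω : PVSample} {z : ℂ} {t : τ} {𝔖 : PvwSt (pvxT ω)} (h : PvxAt 𝔓 m ω z t 𝔖) :
    PvilIn 𝔓.num (𝔓.col t) (pvilPin 𝔓 m z t) (pvConf ω) 𝔖 where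
  good := h.good
  st := by
    rw [pvn1a_pin_pos, pvn1a_pin_zf]
    exact h.st.inn
  tip := h.tip_m
  mask := h.mask_m
  mask_i := h.inn_m
  lev0 := h.lev0

/-- the hull of record of `Σ_out` at a usable candidate = the hull of TrModel v4 of ANY state of the candidate      (uniqueness of the half states: `pvuq_del_out` of 150) -/
theorem pvn1a_Zo_eq {ω : PVSample} {z : ℂ} {t : τ} {𝔖 : PvwSt (pvxT ω)} (h : PvxAt 𝔓 m ω z t 𝔖) :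
    pvilZo 𝔓 m z t (pvConf ω) = pvxHull (pvlmDel c m) 𝔖.fzOut ((𝔓.ty t).cp (pvlmH m) z) (𝔓.num.rho * pvlmH m) := by
  ext q
  constructor
  · rintro ⟨𝔖', h', hq⟩
    have h1 := h'.st
    rw [pvn1a_pin_pos, pvn1a_pin_zf] at h1
    obtain ⟨e1, e2⟩ := pvuq_del_out h.good h1 h.st.out
    have e : 𝔖'.fzOut = 𝔖.fzOut := e1.fzOut e2
    rw [e] at hq
    exact hq
  · intro hq
    exact ⟨𝔖, pvn1a_out_of_at h, hq⟩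

/-- the same for `Σ_in` -/
theorem pvn1a_Zi_eq {ω : PVSample} {z : ℂ} {t : τ} {𝔖 : PvwSt (pvxT ω)} (h : PvxAt 𝔓 m ω z t 𝔖) :
    pvilZi 𝔓 m z t (pvConf ω) = pvxHull (pvlmDel c m) 𝔖.fzIn ((𝔓.ty t).cm (pvlmH m) z) (𝔓.num.rho * pvlmH m) := by
  ext q
  constructor
  · rintro ⟨𝔖', h', hq⟩
    have h1 := h'.st
    rw [pvn1a_pin_pos, pvn1a_pin_zf] at h1
    obtain ⟨e1, e2⟩ := pvuq_del_in h.good h1 h.st.inn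
    have e : 𝔖'.fzIn = 𝔖.fzIn := e1.fzIn e2
    rw [e] at hq
    exact hq
  · intro hq
    exact ⟨𝔖, pvn1a_in_of_at h, hq⟩

/-- **(S3, HULLS) ON A FIT THE HULLS OF THE TWO HALF STATES ARE THOSE OF THE INDEX**      [bridge `PvxAt ⟹ PvilOut / PvilIn` 163 271; uniqueness of the half states 150 25; hull equalities of `pvxFit` v4] -/
theorem exit_pvn1a_hull (hW : 𝔓.Wf) (hR : 0 < R) (hm : 𝔓.m0 ≤ m) (hπ : π ∈ pvxPatSet 𝔓 x R m) {ω : PVSample} (hg : PvqfGood (pvConf ω)) {P : PvbRim} (hP : P ∈ pvhbAll x R ω) {s t : PvbPin τ}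
    (hfit : pvxFit 𝔓 x R m ω P s t π) :
    pvilZo 𝔓 m π.p.zt π.p.tt (pvConf ω) = (π.Zt : Set (ℤ × ℤ)) ∧ pvilZi 𝔓 m π.p.zs π.p.ts (pvConf ω) = (π.Zs : Set (ℤ × ℤ)) := by
  obtain ⟨-, -, -, -, 𝔇, j, -, -, hs, ht, -, -, -, eZs, eZt⟩ := hfit
  exact ⟨(pvn1a_Zo_eq ht).trans eZt.symm, (pvn1a_Zi_eq hs).trans eZs.symm⟩

/-! ## 2. the colour blind slot: the two `Sq` clauses -/

/-- **MODEL FREE**: the second moment of an end link in its own experiment, at two configurations which differ inside `C` only      (twin of `pvn1y_end` of 101) -/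
theorem pvn1a_sq_ag {kit : PvthKit} {ε : ℝ} {e : PvkyEnd} {z d : ℂ} {Wn C : Set ℂ} {η η' : Conf PvPt} (hy : ∀ ξ ξ', e.y ξ = e.y ξ')
    (rA : Conf.Reads (Wn ×ˢ (univ : Set Bool)) fun η => η ∈ e.A) (rX : Conf.Reads (Wn ×ˢ (univ : Set Bool)) e.X) (hW : C ∩ Wn ⊆ e.K ∪ pvkyDoor kit z d) (h : Pvn1yAg C η η') :
    η' ∈ pvueSq kit ε e z d ↔ η ∈ pvueSq kit ε e z d := by
  have dW : Disjoint Wn (C \ (e.K ∪ pvkyDoor kit z d)) := disjoint_left.2 fun w hw hc => hc.2 (hW ⟨hc.1, hw⟩)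
  have key : ∀ p, Conf.restr (Wn ×ˢ (univ : Set Bool)) (pvdyR (e.K ∪ pvkyDoor kit z d) e.y η' p) = Conf.restr (Wn ×ˢ (univ : Set Bool)) (pvdyR (e.K ∪ pvkyDoor kit z d) e.y η p) :=
    fun p => (h.R (e.K ∪ pvkyDoor kit z d) (hy η' η) p).restr dW
  have kX : ∀ p, e.X (pvdyR (e.K ∪ pvkyDoor kit z d) e.y η' p) = e.X (pvdyR (e.K ∪ pvkyDoor kit z d) e.y η p) := fun p => by
    have a := rX (pvdyR (e.K ∪ pvkyDoor kit z d) e.y η' p)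
    have b := rX (pvdyR (e.K ∪ pvkyDoor kit z d) e.y η p)
    rw [key p] at a
    exact a.symm.trans b
  have kA : ∀ p, (pvdyR (e.K ∪ pvkyDoor kit z d) e.y η' p ∈ e.A) = (pvdyR (e.K ∪ pvkyDoor kit z d) e.y η p ∈ e.A) := fun p => by
    have a : (Conf.restr (Wn ×ˢ (univ : Set Bool)) (pvdyR (e.K ∪ pvkyDoor kit z d) e.y η' p) ∈ e.A) = (pvdyR (e.K ∪ pvkyDoor kit z d) e.y η' p ∈ e.A) := rA _
    have b : (Conf.restr (Wn ×ˢ (univ : Set Bool)) (pvdyR (e.K ∪ pvkyDoor kit z d) e.y η p) ∈ e.A) = (pvdyR (e.K ∪ pvkyDoor kit z d) e.y η p ∈ e.A) := rA _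
    rw [key p] at a
    exact a.symm.trans b
  have kI : ∀ p, e.A.indicator (1 : Conf PvPt → ℝ≥0∞) (pvdyR (e.K ∪ pvkyDoor kit z d) e.y η' p) = e.A.indicator 1 (pvdyR (e.K ∪ pvkyDoor kit z d) e.y η p) := fun p => by
    by_cases hp : pvdyR (e.K ∪ pvkyDoor kit z d) e.y η p ∈ e.A
    · rw [indicator_of_mem hp, indicator_of_mem ((kA p).symm ▸ hp)]
      rfl
    · rw [indicator_of_notMem hp, indicator_of_notMem ((kA p).symm ▸ hp)]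
  unfold pvueSq
  simp only [mem_ofPred_eq, kX, kI]

/-- two colourings of two site sets which agree off `C` -/
theorem pvn1a_ag_cfOf (C Y Y₂ : Set ℂ) (σ : ℂ → Bool) : Pvn1yAg C (cfOf Y σ) (cfOf (Y \ C ∪ Y₂ ∩ C) σ) := by
  intro p hp
  simp only [cfOf, mem_ofPred_eq, mem_union, Set.mem_sdiff, mem_inter_iff]
  constructor
  · rintro ⟨⟨h1, -⟩ | ⟨-, h2⟩, h3⟩
    · exact ⟨h1, h3⟩
    · exact absurd h2 hp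
  · rintro ⟨h1, h3⟩
    exact ⟨Or.inl ⟨h1, hp⟩, h3⟩

/-- **the colour blind clauses do not read the resampled region** -/
theorem pvn1a_gn_Yc {ε : ℝ} (hg : Pvn1zGeo 𝔓 𝔈 m π ε) (Y Y₂ : Set ℂ) :
    pvn1aGn 𝔓 𝔈 m π ε (Y \ pvieCc 𝔓 𝔈 m ε π.p ∪ Y₂ ∩ pvieCc 𝔓 𝔈 m ε π.p) ↔ pvn1aGn 𝔓 𝔈 m π ε Y := by
  have wo : pvieCc 𝔓 𝔈 m ε π.p ∩ pvilWno 𝔓 𝔈 m ε π.p.zt π.p.tt ↑π.Zt ⊆ pvieSh π.p.zt (𝔈.oK m π.p.tt) ∪ pvkyDoor (𝔈.kit m ε) (pvieZo 𝔓 m π.p.zt π.p.tt) ((𝔓.Γ m).dout π.p.tt) := by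
    rw [hg.wino]; exact inter_subset_left
  have wi : pvieCc 𝔓 𝔈 m ε π.p ∩ pvilWni 𝔓 𝔈 m ε π.p.zs π.p.ts ↑π.Zs ⊆ pvieSh π.p.zs (𝔈.iK m π.p.ts) ∪ pvkyDoor (𝔈.kit m ε) (pvieZi 𝔓 m π.p.zs π.p.ts) ((𝔓.Γ m).din π.p.ts) := by
    rw [hg.wini]; exact inter_subset_left
  unfold pvn1aGn pvn1aSqO pvn1aSqI
  refine and_congr (pvn1z_gn_Yc hg Y Y₂) (and_congr ?_ ?_)
  · exact forall_congr' fun σ => forall_congr' fun F =>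
      pvn1a_sq_ag (e := pvilEo 𝔓 𝔈 m ε pvilQ π.p.zt π.p.tt ↑π.Zt F) (fun _ _ => rfl) pvn1z_rA_o pvn1z_rX_o wo (pvn1a_ag_cfOf _ Y Y₂ σ)
  · exact forall_congr' fun σ => forall_congr' fun F =>
      pvn1a_sq_ag (e := pvilEi 𝔓 𝔈 m ε pvilQ π.p.zs π.p.ts ↑π.Zs F) (fun _ _ => rfl) pvn1z_rA_i pvn1z_rX_i wi (pvn1a_ag_cfOf _ Y Y₂ σ)

/-! ## 3. the guard: `stab`, `rd` -/

/-- **(S1) THE GUARD DOES NOT READ THE COLOURS OFF THE FROZEN SITES OF A DATUM**      [107 `pvn1z_stab_cl`] -/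
theorem pvn1a_stab (hW : 𝔓.Wf) (hπ : π ∈ pvxPatSet 𝔓 x R m) (hg : ∀ᶠ ε in 𝓝[>] (0 : ℝ), Pvn1zGeo 𝔓 𝔈 m π ε) (r : ℝ) (q qf : ℝ≥0∞) :
    ∀ᶠ ε in 𝓝[>] (0 : ℝ), ∀ (Y : Set ℂ) (𝔇 : PvwDat (delbPl Y).toMap) (σ σ' : ↥Y → Bool), DelGood Y → 𝔇.Ok Subtype.val 𝔓.num (pvlmH m) (𝔓.reg m π) → σ ∈ 𝔇.Cyl →
      (∀ v ∈ 𝔇.fz, σ' v = σ v) → (∀ v ∈ (pvn1aKs 𝔓 𝔈 x R m π r q ε).N Y 𝔇, σ' v ≤ σ v) → (pvn1aKs 𝔓 𝔈 x R m π r q ε).E Y 𝔇 σ →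
      pvn1aCf Y σ ∈ pvn1aS 𝔓 𝔈 m π qf ε → pvn1aCf Y σ' ∈ pvn1aS 𝔓 𝔈 m π qf ε := by
  filter_upwards [hg] with ε hε Y 𝔇 σ σ' hY hOk hc hs _ _ hS
  obtain ⟨⟨h1, h2, h3, h4⟩, h5⟩ := hS
  have e5 : cfSites (pvn1aCf Y σ) = Y := cfOf_sites _ _
  have e5' : cfSites (pvn1aCf Y σ') = Y := cfOf_sites _ _
  rw [e5] at h5
  obtain ⟨a1, a2, a3, a4⟩ := pvn1z_stab_cl hW hπ.1.2.2.2.2.2.1 hε qf hY hOk hc (fun v hv => hs v (Or.inl (Or.inl hv))) h1 h2 h3 h4 h5.1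
  exact ⟨⟨a1, a2, a3, a4⟩, by show pvn1aGn 𝔓 𝔈 m π ε (cfSites (pvn1aCf Y σ')); rw [e5']; exact h5⟩

/-- **(S2) THE GUARD DOES NOT READ THE RESAMPLED REGION**, at a present datum, for almost every `ω₂`      [101 `pvn1y_rd_kit`; 107 `pvn1z_gn_Yc`] -/
theorem pvn1a_rdS (hW : 𝔓.Wf) (hE : PvnaWf 𝔓 𝔈) (hπ : π ∈ pvxPatSet 𝔓 x R m) {r : ℝ}
    (G : ∀ᶠ ε in 𝓝[>] (0 : ℝ), PvknGeo 𝔓.num (pvlmH m) (𝔓.reg m π) x (5 * R) (6 * R) (pvieCc 𝔓 𝔈 m ε π.p) r) (hs : ∀ᶠ ε in 𝓝[>] (0 : ℝ), PvieSimple 𝔓 𝔈 m ε π.p)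
    (hc : ∀ᶠ ε in 𝓝[>] (0 : ℝ), ∀ S ∈ pvieTiles 𝔓 𝔈 m ε π.p, Disjoint S (pvieSh π.p.zt (pviwBox 𝔓 m π.p.tt) ∩ pvtU (pvlmDel c m) (pvtN8 (↑π.Zs ∪ ↑π.Zt))) ∧
      Disjoint S (pvieSh π.p.zs (pviwBox 𝔓 m π.p.ts) ∩ pvtU (pvlmDel c m) (pvtN8 (↑π.Zs ∪ ↑π.Zt))))
    (hg : ∀ᶠ ε in 𝓝[>] (0 : ℝ), Pvn1zGeo 𝔓 𝔈 m π ε) (q qf : ℝ≥0∞) (𝔜 : PvxnYd) :
    ∀ᶠ ε in 𝓝[>] (0 : ℝ), ∀ Y, (pvxnSys 𝔓 m π 0 (pvn1aKs 𝔓 𝔈 x R m π r q ε) 𝔜 ε).Ok Y → ∀ σ, ∀ᵐ ω₂ ∂pvP ε, ∀ i, cfOf Y σ ∈ (pvxnSys 𝔓 m π 0 (pvn1aKs 𝔓 𝔈 x R m π r q ε) 𝔜 ε).A i →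
      (Conf.spl (pvdmU (pvn1aKs 𝔓 𝔈 x R m π r q ε).C) (cfOf Y σ, ω₂) ∈ pvn1aS 𝔓 𝔈 m π qf ε ↔ cfOf Y σ ∈ pvn1aS 𝔓 𝔈 m π qf ε) := by
  filter_upwards [pvn1y_rd_kit hW hE hπ G hs hc qf (pvn1aKs 𝔓 𝔈 x R m π r q) (fun _ => rfl) (fun _ => rfl) 0 𝔜, hg] with ε h hε Y hY σ
  filter_upwards [h Y hY σ] with ω₂ h2 i hi
  refine and_congr (h2 i hi) ?_
  rw [pvrd_spl_sites]
  exact pvn1a_gn_Yc hε (cfSites (cfOf Y σ)) (cfSites ω₂)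

/-! ## 4. the glue -/

theorem pvn1a_fl_fl (b : Bool) (ζ : Conf PvPt) : pvxnFl b (pvxnFl b ζ) = ζ := pvky_fl_fl b ζ

/-- (S3) on a good sample a fit puts the configuration into the guard -/
theorem pvn1a_fit (hW : 𝔓.Wf) (hR : 0 < R) (hm : 𝔓.m0 ≤ m) (hπ : π ∈ pvxPatSet 𝔓 x R m) {qf : ℕ → ℝ≥0∞}
    (hf : ∀ m, 𝔓.m0 ≤ m → ∀ (ε : ℝ) (z : ℂ) (t : τ), 𝔊.O m ε z t ⊆ pvrgFo 𝔓 𝔈 (qf m) m ε z t ∧ 𝔊.I m ε z t ⊆ pvrgFi 𝔓 𝔈 (qf m) m ε z t) {r ε : ℝ} {ω : PVSample}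
    (hg : PvqfGood (pvConf ω)) (hΓ : pvn1aGam 𝔓 𝔈 𝔊 x R m π r ε ω) {P : PvbRim} (hP : P ∈ pvhbAll x R ω) {s t : PvbPin τ} (hfit : pvxFit 𝔓 x R m ω P s t π) :
    pvxnFl (𝔓.col π.p.ts) (pvConf ω) ∈ pvn1aS 𝔓 𝔈 m π (qf m) ε := by
  obtain ⟨h1, h2⟩ := exit_pvn1a_hull hW hR hm hπ hg hP hfit
  have hs : ω ∈ 𝔊.all m ε π.p.zs π.p.ts := hΓ.2.2.1 (by have := hfit.2.2.1; rwa [hfit.1.1, hfit.1.2] at this)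
  have ht : ω ∈ 𝔊.all m ε π.p.zt π.p.tt := hΓ.2.1 (by have := hfit.2.2.2.1; rwa [hfit.2.1.1, hfit.2.1.2] at this)
  refine ⟨?_, ?_⟩
  · show _ ∧ _ ∧ _ ∧ _
    rw [pvn1a_fl_fl]
    exact ⟨(hf m hm ε _ _).1 ht.1.1, (hf m hm ε _ _).2 hs.1.2, h1, h2⟩
  · have e : cfSites (pvxnFl (𝔓.col π.p.ts) (pvConf ω)) = pvxY ω := by
      unfold pvxnFl pvxY
      split_ifs
      · rfl
      · exact pvqa_sites_flip _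
    show pvn1aGn 𝔓 𝔈 m π ε (cfSites (pvxnFl (𝔓.col π.p.ts) (pvConf ω)))
    rw [e]
    exact hΓ.2.2.2.1

/-- the resampled region lies in the patch -/
theorem pvn1a_C_sub {N : PvwNum} {h : ℝ} {ρ : PvwPat} {r₁ r₂ : ℝ} {C : Set ℂ} {r : ℝ} (G : PvknGeo N h ρ x r₁ r₂ C r) : C ⊆ Metric.closedBall x r₁ := by
  intro z hz
  rw [mem_closedBall_iff_norm]
  exact (pvkn_C_sub G z hz).le

/-- the free good event has high probability -/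
theorem pvn1a_bad (hB : PvnaBad 𝔓 𝔊 𝔓.m0) (hm : 𝔓.m0 ≤ m) (hπ : π ∈ pvxPatSet 𝔓 x R m) (mC : ∀ᶠ ε in 𝓝[>] (0 : ℝ), MeasurableSet (pvieCc 𝔓 𝔈 m ε π.p)) {r : ℝ} (hr : 0 < r)
    (hGn : Tendsto (fun ε => (pvhbUp ε).P {p | ¬ pvn1aGn 𝔓 𝔈 m π ε (pvxY (pvMerge p))}) (𝓝[>] (0 : ℝ)) (𝓝 0)) :
    Tendsto (fun ε => (pvhbUp ε).P {p | ¬ pvn1aGam 𝔓 𝔈 𝔊 x R m π r ε (pvMerge p)}) (𝓝[>] (0 : ℝ)) (𝓝 0) := by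
  have hmesh := pvn1k_mesh_lim x R (fun ε => pvieCc 𝔓 𝔈 m ε π.p) (fun _ => r) hr (Eventually.of_forall fun _ => le_rfl)
  have hsum := (hGn.add hmesh).add (pvna_bad_pat hB hm hπ)
  simp only [add_zero] at hsum
  refine tendsto_of_tendsto_of_tendsto_of_le_of_le' tendsto_const_nhds hsum (Eventually.of_forall fun _ => zero_le) ?_
  filter_upwards [mC, self_mem_nhdsWithin] with ε hC hε
  have h0 : (pvhbUp ε).P {p | ¬ ∀ᵐ ω₂ ∂pvP ε, DelGood (pvxY (pvMerge p) \ pvieCc 𝔓 𝔈 m ε π.p ∪ cfSites ω₂ ∩ pvieCc 𝔓 𝔈 m ε π.p)} = 0 := by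
    refine le_antisymm ((pvhb_up_P_conf ε {η | ¬ ∀ᵐ ω₂ ∂pvP ε, DelGood (cfSites η \ pvieCc 𝔓 𝔈 m ε π.p ∪ cfSites ω₂ ∩ pvieCc 𝔓 𝔈 m ε π.p)}).trans ?_) zero_le
    have h1 := pvxn_ok_ae 𝔓 m π 0 (pvn1aKs 𝔓 𝔈 x R m π 1 0 ε) ⟨fun _ _ => 0, fun _ _ => 0, fun _ _ _ => 0, 0⟩ hC hε
    exact le_of_eq (ae_iff.1 (h1.mono fun η h => h.2))
  have hsub : {p | ¬ pvn1aGam 𝔓 𝔈 𝔊 x R m π r ε (pvMerge p)} ⊆ ({p | ¬ pvn1aGn 𝔓 𝔈 m π ε (pvxY (pvMerge p))} ∪ {p | ¬ VorDense (pvxY (pvMerge p)) (pvn1kOff x R (pvieCc 𝔓 𝔈 m ε π.p) r) r}) ∪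
      ({p | ¬ ∀ᵐ ω₂ ∂pvP ε, DelGood (pvxY (pvMerge p) \ pvieCc 𝔓 𝔈 m ε π.p ∪ cfSites ω₂ ∩ pvieCc 𝔓 𝔈 m ε π.p)} ∪
      (pvMerge ⁻¹' (pvxU 𝔓 m π.p.zt π.p.tt \ 𝔊.all m ε π.p.zt π.p.tt) ∪ pvMerge ⁻¹' (pvxU 𝔓 m π.p.zs π.p.ts \ 𝔊.all m ε π.p.zs π.p.ts))) := by
    intro p hp
    by_cases h4 : pvn1aGn 𝔓 𝔈 m π ε (pvxY (pvMerge p))
    swap
    · exact Or.inl (Or.inl h4)
    by_cases h5 : VorDense (pvxY (pvMerge p)) (pvn1kOff x R (pvieCc 𝔓 𝔈 m ε π.p) r) r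
    swap
    · exact Or.inl (Or.inr h5)
    refine Or.inr ?_
    by_cases h1 : ∀ᵐ ω₂ ∂pvP ε, DelGood (pvxY (pvMerge p) \ pvieCc 𝔓 𝔈 m ε π.p ∪ cfSites ω₂ ∩ pvieCc 𝔓 𝔈 m ε π.p)
    · by_cases h2 : pvMerge p ∈ pvxU 𝔓 m π.p.zt π.p.tt → pvMerge p ∈ 𝔊.all m ε π.p.zt π.p.tt
      · by_cases h3 : pvMerge p ∈ pvxU 𝔓 m π.p.zs π.p.ts → pvMerge p ∈ 𝔊.all m ε π.p.zs π.p.ts
        · exact absurd ⟨h1, h2, h3, h4, h5⟩ hp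
        · exact Or.inr (Or.inr (Classical.not_imp.1 h3))
      · exact Or.inr (Or.inl (Classical.not_imp.1 h2))
    · exact Or.inl h1
  refine ((pvhbUp ε).P_mono hsub).trans (((pvhbUp ε).P_union_le _ _).trans (add_le_add ((pvhbUp ε).P_union_le _ _) ?_))
  refine ((pvhbUp ε).P_union_le _ _).trans (le_of_eq ?_)
  rw [h0, zero_add]

/-- the first clause of layer 1 of the guard holds at an actual datum -/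
theorem pvn1a_g5_act {ω : PVSample} {𝔇 : PvwDat (pvxT ω)} (hA : Pvn1bAct 𝔓 x R m π ω 𝔇) : ∀ k, k ≤ 𝔇.g.n → ‖((𝔇.g.v k : ↥(pvxY ω)) : ℂ) - x‖ ≤ 5 * R := by
  obtain ⟨-, ⟨P, -, j, hact, hin⟩, -, -⟩ := hA
  intro i hi
  show ‖pvxPos ω (𝔇.g.v i) - x‖ ≤ 5 * R
  rw [← hact.arc i hi]
  exact hin _ (by omega) (by omega)

/-- **(X) THE `X` SIDE AT THE KITS OF RECORD**, assembled -/
theorem pvn1a_X (hW : 𝔓.Wf) (hB : PvnaBad 𝔓 𝔊 𝔓.m0) (hR : 0 < R) (hm : 𝔓.m0 ≤ m) (hπ : π ∈ pvxPatSet 𝔓 x R m) {r μ : ℝ} {q : ℝ≥0∞} (hq : q ≠ 0)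
    (G : ∀ᶠ ε in 𝓝[>] (0 : ℝ), PvknGeo 𝔓.num (pvlmH m) (𝔓.reg m π) x (5 * R) (6 * R) (pvieCc 𝔓 𝔈 m ε π.p) r)
    (mC : ∀ᶠ ε in 𝓝[>] (0 : ℝ), MeasurableSet (pvieCc 𝔓 𝔈 m ε π.p))
    (hGn : Tendsto (fun ε => (pvhbUp ε).P {p | ¬ pvn1aGn 𝔓 𝔈 m π ε (pvxY (pvMerge p))}) (𝓝[>] (0 : ℝ)) (𝓝 0))
    (kit : ∀ᶠ ε in 𝓝[>] (0 : ℝ), Pvn1bKit 𝔓 x R m π 0 (pvknKit 𝔓 x R m π (pvieCc 𝔓 𝔈 m ε π.p) r (Metric.closedBall x (6 * R)) measurableSet_closedBall q) (pvn1aGam 𝔓 𝔈 𝔊 x R m π r ε) μ)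
    (qbx : Pvn1bQbx 𝔓 m π 0 (pvn1aKs 𝔓 𝔈 x R m π r q)) (𝔜 : PvxnYd) :
    Pvn1aX 𝔓 x R m π 0 𝔜 (pvn1aKs 𝔓 𝔈 x R m π r q) (pvn1aGam 𝔓 𝔈 𝔊 x R m π r) μ := by
  obtain ⟨ε₀, hε₀⟩ := G.exists
  refine pvn1a_X_guardE (𝔎s := fun ε => pvknKit 𝔓 x R m π (pvieCc 𝔓 𝔈 m ε π.p) r (Metric.closedBall x (6 * R)) measurableSet_closedBall q) (fun ε => pvn1aRg x R (pvieCc 𝔓 𝔈 m ε π.p) r) mC
    ⟨Metric.closedBall x (6 * R), Metric.isBounded_closedBall, Eventually.of_forall fun _ => subset_rfl⟩ ⟨q, hq, Eventually.of_forall fun _ => le_rfl⟩ ?_ ?_ kit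
    ⟨Metric.closedBall x (5 * R), r, r, Metric.isBounded_closedBall, hε₀.r0, G.mono fun ε h => ⟨pvn1a_C_sub h, le_rfl, le_rfl⟩⟩ (pvn1a_bad hB hm hπ mC hε₀.r0 hGn) qbx ?_ ?_ (G.mono fun ε h => pvkn_rdKit h) ?_
  · exact Eventually.of_forall fun ε Y 𝔇 σ σ' _ _ _ _ h5 h6 => pvkn_E_mono h5 h6
  · exact G.mono fun ε h Y 𝔇 σ σ' _ _ _ _ h5 h6 => pvkn_W_mono h h5 h6
  · exact Eventually.of_forall fun ε Y 𝔇 σ σ' _ _ _ _ _ _ h => h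
  · exact Eventually.of_forall fun ε ω _ _ _ hΓ 𝔇 hA => ⟨pvn1a_g5_act hA, hΓ.2.2.2.2⟩
  · refine Eventually.of_forall fun ε Y Y' H σ σ' _ 𝔇 𝔇' hT h => ⟨fun k hk => ?_, (pvn1k_mesh_congr H.eq).1 h.2⟩
    have hk' : k ≤ 𝔇.g.n := hT.1.g.n_eq ▸ hk
    rw [← pvge_loc_v (hT.1.g.v_rel k hk')]
    exact h.1 k hk'

/-- the named sets of 256 decrease with the constant -/
theorem pvn1a_Fo_anti {q q' : ℝ≥0∞} (h : q' ≤ q) (ε : ℝ) (z : ℂ) (t : τ) : pvrgFo 𝔓 𝔈 q m ε z t ⊆ pvrgFo 𝔓 𝔈 q' m ε z t := by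
  intro η hη
  unfold pvrgFo at hη ⊢
  rw [mem_ofPred_eq] at hη ⊢
  unfold pvrgEnd at hη ⊢
  exact pvrg_frc_anti _ _ _ _ _ h hη

theorem pvn1a_Fi_anti {q q' : ℝ≥0∞} (h : q' ≤ q) (ε : ℝ) (z : ℂ) (t : τ) : pvrgFi 𝔓 𝔈 q m ε z t ⊆ pvrgFi 𝔓 𝔈 q' m ε z t := by
  intro η hη
  unfold pvrgFi at hη ⊢
  rw [mem_ofPred_eq] at hη ⊢
  unfold pvrgEnd at hη ⊢
  exact pvrg_frc_anti _ _ _ _ _ h hη

/-- **(N1) FOR ONE PATTERN**: ALL THE DEBTS ARE HYPOTHESES -/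
theorem pvn1a_pat (hW : 𝔓.Wf) (hE : PvnaWf 𝔓 𝔈) (hB : PvnaBad 𝔓 𝔊 𝔓.m0) (frc : Pvn1aFrc 𝔓 𝔈 𝔊) (hR : 0 < R) (hm : 𝔓.m0 ≤ m) (hπ : π ∈ pvxPatSet 𝔓 x R m) (hgood : PvjxGood 𝔓 m π)
    (L : Pvn1aLv 𝔓 𝔈 R m π) (LY : Pvn1aLvY 𝔓 𝔈 𝔊 x R m π) : Nonempty (PvxnIn 𝔓 x R m π 0 (pvnaK 𝔓 (pvnaDatE 𝔓 𝔈) m π.p)) := by
  obtain ⟨qf₀, hq0₀, hf₀⟩ := frc
  obtain ⟨qf, hq0, hq1, hf⟩ : ∃ qf : ℕ → ℝ≥0∞, (∀ m, qf m ≠ 0) ∧ (∀ m, qf m ≤ 1) ∧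
      ∀ m, 𝔓.m0 ≤ m → ∀ (ε : ℝ) (z : ℂ) (t : τ), 𝔊.O m ε z t ⊆ pvrgFo 𝔓 𝔈 (qf m) m ε z t ∧ 𝔊.I m ε z t ⊆ pvrgFi 𝔓 𝔈 (qf m) m ε z t :=
    ⟨fun m => min (qf₀ m) 1, fun m => (lt_min (pos_iff_ne_zero.2 (hq0₀ m)) one_pos).ne', fun m => min_le_right _ _, fun m hm ε z t =>
      ⟨((hf₀ m hm ε z t).1).trans (pvn1a_Fo_anti (min_le_left _ _) ε z t), ((hf₀ m hm ε z t).2).trans (pvn1a_Fi_anti (min_le_left _ _) ε z t)⟩⟩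
  have hδ := pvlm_Del_pos c m
  have hh := pvlm_H_pos m
  have hr0 : 0 < pvn1aR c m := by unfold pvn1aR; positivity
  have hr30 : 30 * pvn1aR c m ≤ pvlmDel c m := by unfold pvn1aR; linarith
  have hμ0 : 0 < pvn1aMu c m := by unfold pvn1aMu; positivity
  have hμδ : pvn1aMu c m ≤ pvlmDel c m := by unfold pvn1aMu; linarith
  have hμh : pvn1aMu c m < pvlmH m := by have := L.dH; unfold pvn1aMu; linarith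
  have hfine : 32 * pvlmDel c m < 𝔓.num.rho * pvlmH m := by have := L.fine; linarith
  have hG : ∀ᶠ ε in 𝓝[>] (0 : ℝ), PvknGeo 𝔓.num (pvlmH m) (𝔓.reg m π) x (5 * R) (6 * R) (pvieCc 𝔓 𝔈 m ε π.p) (pvn1aR c m) :=
    L.reg.mono fun ε h => pvn1c_xgeo hW L.hF hfine hR hπ hgood h.1 h.2.1 hr0 hr30
  have hc := L.reg.mono fun ε h => h.2.2
  obtain ⟨q, hq, hqbx⟩ := pvwh_qbx_free5 (x := x) 0 hW L.hF L.fine L.h8 L.LR hR hπ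
  have hqbx' : Pvn1bQbx 𝔓 m π 0 (pvn1aKs 𝔓 𝔈 x R m π (pvn1aR c m) q) := by
    refine hqbx _ (Metric.closedBall x (5 * R)) Metric.isBounded_closedBall (pvn1aR c m) (pvn1aR c m) hr0 (hG.mono fun ε h => ⟨pvn1a_C_sub h, le_rfl, le_rfl⟩) (fun _ => le_rfl) ?_ (fun _ _ _ _ h => h)
    rintro ε Y 𝔇 σ hE' v ⟨k, hk, rfl⟩
    exact hE'.1.1 k hk
  have hkit : ∀ᶠ ε in 𝓝[>] (0 : ℝ), Pvn1bKit 𝔓 x R m π 0 (pvknKit 𝔓 x R m π (pvieCc 𝔓 𝔈 m ε π.p) (pvn1aR c m) (Metric.closedBall x (6 * R)) measurableSet_closedBall q)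
      (pvn1aGam 𝔓 𝔈 𝔊 x R m π (pvn1aR c m) ε) (pvn1aMu c m) := by
    filter_upwards [hG, L.reg] with ε h h'
    refine pvn1a_kit hW L.LR hR hπ q hμ0 hμh h _ fun ω _ hfn 𝔇 hA => ?_
    exact pvn1c_xfa hW L.hF hR h'.1 h'.2.1 hr0 hr30 hμδ (pvn1c_xclear fun S hS => (h'.2.2 S hS).2) (pvn1c_xclear fun S hS => (h'.2.2 S hS).1) hfn hA
  have hX := pvn1a_X (𝔊 := 𝔊) hW hB hR hm hπ hq hG (pvn1a_mC hE hπ) L.gen hkit hqbx'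
  obtain ⟨𝔜, hY⟩ := LY q (qf m) hq (hq0 m) (hq1 m)
  have hS : Pvn1aS 𝔓 x R m π 0 𝔜 (pvn1aKs 𝔓 𝔈 x R m π (pvn1aR c m) q) (pvn1aGam 𝔓 𝔈 𝔊 x R m π (pvn1aR c m)) (pvn1aMu c m) (pvn1aS 𝔓 𝔈 m π (qf m)) :=
    ⟨pvn1a_stab hW hπ L.zgeo _ q (qf m), pvn1a_rdS hW hE hπ hG L.simple hc L.zgeo q (qf m) 𝔜,
      Eventually.of_forall fun ε ω hω P hP s t hfit => pvn1a_fit hW hR hm hπ hf hω.good hω.ex hP hfit⟩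
  exact ⟨(pvn1a_ok hW hR hπ (hX 𝔜) hS hY).toIn⟩

end exits

end Claimed.Agent.R289
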