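-- KEEP
import Claimed.Agent.R289.Exit.GdRec
import Claimed.Agent.R289.Exit.N1All
import Claimed.Agent.R289.Exit.Cyc1M
import Claimed.Agent.R289.Exit.TrV
import Claimed.Agent.R289.Tr.SoftE

/-!
# Row 289 (S0537), THE WALL, ROAD E, file Exit/GdSeam : THE SEAM OF THE GOOD PART, READ BY COMPILATION      (helper200, post T13 of 24, vocabulary of RULING T14; prefix `pvgx_`, `pvgx`, `Pvgx`)

THE HUB.   `exit_pvie_gd` produces `𝔊 : PvnaGd τ` with `𝔊.Wf 𝔓 𝔈 ∧ PvguRec 𝔓 𝔈 𝔊` (238, `Exit/GdRec.lean`).      HERE: for each roof THE LEAN TERM which derives ITS hypothesis on the good part from `hGR : PvguRec 𝔓 𝔈 𝔊`.      0 sorry.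
* (in)     **`pvgx_in : PvguRec 𝔓 𝔈 𝔊 → Pvn1aFrc 𝔓 𝔈 𝔊`** = the hypothesis `frc` of `pvn1a_in` (159);   **`pvgx_in1`** = the same with `qf m ≤ 1` (asked by `pvkyl_chain` of 218 on the `Y` side);   `pvgx_Fo_anti _Fi_anti _Fe_anti`
* (cyc1)   **`pvgx_cyc`** : constants `qo m`, `qe` in `(0,1]` (`qe` free of the level) such that at EVERY base `ω ∈ pvc1B 𝔓 𝔊 m ε z t` the two end links are forced IN THEIR OWN EXPERIMENTS, in the shape `hf` of `pvcz1_frc_big` (37, `Exit/Cyc1T.lean`);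
           `pvgx_cyc_o`, `pvgx_cyc_e` (one end, constants of the record), `pvgx_cyc_o141` (the first link in the words of 141: `pvueForced`), `pvgx_end_eq`, `pvgx_end_mono`
* (V)      `PvekDat.pvgxCut D G'` = the datum with its good configurations CUT to `G'`;   **`PvyqPlug.Ok.pvgx_cut`**, `PvekDat.At.pvgx_cut`, `PvekDat.OkL.pvgx_cut` (the leaves are ANTITONE in the good configurations);
           **`pvgx_V`** : the conclusion of `exit_pvyq_pair` (283) from leaves at ANY datum whose good configurations contain those of `𝔊` AT THE LEVELS `m0 ≤ m` ONLY (as typed the exit asks the inclusion at all levels: false at `pvjtDat` below `m0`)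
* (thick)  the seam `U ∩ pvrgFe ∩ pvrgFf ⊆ pvjtGd` is held by 7 (`Exit/ThickGd.lean`); accessors `pvgu_all_Fe`, `pvgu_all_Ff` of 238.
-/

set_option autoImplicit false

namespace Claimed.Agent.R289

open MeasureTheory Filter Topology Set Claims.C0465
open scoped ENNReal

/-! ## 1. (in), (cyc1) -/

section seams

variable {τ : Type} {c : ℝ} {𝔓 : PvxPar τ c} {𝔈 : PvieEng τ} {𝔊 : PvnaGd τ}

/-- **(in)** the line of 159 -/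
theorem pvgx_in (hGR : PvguRec 𝔓 𝔈 𝔊) : Pvn1aFrc 𝔓 𝔈 𝔊 := by
  obtain ⟨q, qe, qf, hq, -, -, rfl⟩ := hGR
  exact ⟨q, hq, fun m _ ε z t => ⟨fun _ h => pvgu_O_Fo h, fun _ h => pvgu_I_Fi h⟩⟩

/-- the named set of 256 for an end link with a door plug of the kit IS the forced set of 141 -/
theorem pvgx_end_eq (kit : PvthKit) (ε : ℝ) (b : Bool) (e : PvkyEnd) (z d : ℂ) (q : ℝ≥0∞) : pvrgEnd ε e (pvkyDoor kit z d) (pvkyFl b ⁻¹' kit.G z d) q = pvueForced kit ε b e z d q := rfl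

/-- membership in the named set of 256, as the a.e. line along the OWN experiment of the end -/
theorem pvgx_mem_end {ε : ℝ} {e : PvkyEnd} {D : Set ℂ} {G : Set (Conf PvPt)} {q : ℝ≥0∞} {ω : Conf PvPt} :
    ω ∈ pvrgEnd ε e D G q ↔ ∀ᵐ p ∂pvdyNu ε, pvdyR (e.K ∪ D) e.y ω p ∈ G → q ≤ pvdyQ ε e.K e.y e.A (pvdyR (e.K ∪ D) e.y ω p) := by
  rw [pvrgEnd, pvrg_mem_frc]

/-- the named set of 256 is antitone in the constant -/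
theorem pvgx_end_mono {ε : ℝ} {e : PvkyEnd} {D : Set ℂ} {G : Set (Conf PvPt)} {q q' : ℝ≥0∞} (hq : q' ≤ q) {ω : Conf PvPt} (h : ω ∈ pvrgEnd ε e D G q) : ω ∈ pvrgEnd ε e D G q' := by
  rw [pvgx_mem_end] at h ⊢
  filter_upwards [h] with p hp hG
  exact hq.trans (hp hG)

/-- the three named sets of 256 are antitone in the constant -/
theorem pvgx_Fo_anti {q q' : ℝ≥0∞} (hq : q' ≤ q) (m : ℕ) (ε : ℝ) (z : ℂ) (t : τ) : pvrgFo 𝔓 𝔈 q m ε z t ⊆ pvrgFo 𝔓 𝔈 q' m ε z t := fun η h => by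
  rw [pvrgFo, mem_ofPred_eq] at h ⊢
  exact pvgx_end_mono hq h

theorem pvgx_Fi_anti {q q' : ℝ≥0∞} (hq : q' ≤ q) (m : ℕ) (ε : ℝ) (z : ℂ) (t : τ) : pvrgFi 𝔓 𝔈 q m ε z t ⊆ pvrgFi 𝔓 𝔈 q' m ε z t := fun η h => by
  rw [pvrgFi, mem_ofPred_eq] at h ⊢
  exact pvgx_end_mono hq h

theorem pvgx_Fe_anti {q q' : ℝ≥0∞} (hq : q' ≤ q) (m : ℕ) (ε : ℝ) (z : ℂ) (t : τ) : pvrgFe 𝔓 𝔈 q m ε z t ⊆ pvrgFe 𝔓 𝔈 q' m ε z t := fun η h => by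
  rw [pvrgFe, mem_ofPred_eq] at h ⊢
  exact pvgx_end_mono hq h

/-- **(in), WITH THE CONSTANTS IN `(0,1]`**: `pvkyl_chain` (218), `pvkyi_chain`, `PvkyChain` ask `qo ≤ 1`, `qi ≤ 1`, and the bound of the weight `pvyyD β' qc qf n` (12) is computed AT THE CONSTANT OF THE GUARD:
the guard of `in` must be taken at THESE constants (`PvguRec` knows `q m ≠ 0` only) -/
theorem pvgx_in1 (hGR : PvguRec 𝔓 𝔈 𝔊) : ∃ qf : ℕ → ℝ≥0∞, (∀ m, qf m ≠ 0) ∧ (∀ m, qf m ≤ 1) ∧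
    ∀ (m : ℕ) (ε : ℝ) (z : ℂ) (t : τ), 𝔊.O m ε z t ⊆ pvrgFo 𝔓 𝔈 (qf m) m ε z t ∧ 𝔊.I m ε z t ⊆ pvrgFi 𝔓 𝔈 (qf m) m ε z t := by
  obtain ⟨q, qe, qf, hq, -, -, rfl⟩ := hGR
  refine ⟨fun m => min (q m) 1, fun m => (lt_min (pos_iff_ne_zero.2 (hq m)) one_pos).ne', fun m => min_le_right _ _, fun m ε z t => ⟨fun _ h => ?_, fun _ h => ?_⟩⟩
  · exact pvgx_Fo_anti (min_le_left _ _) m ε z t (pvgu_O_Fo h)
  · exact pvgx_Fi_anti (min_le_left _ _) m ε z t (pvgu_I_Fi h)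

variable {q : ℕ → ℝ≥0∞} {qe qf : ℝ≥0∞} {m : ℕ} {ε : ℝ} {z : ℂ} {t : τ} {ω : Conf PvPt}

/-- **(cyc1)** at a base of the cycle the first link is forced, IN THE WORDS OF 141 -/
theorem pvgx_cyc_o141 (hω : ω ∈ pvc1B 𝔓 (pvguGd 𝔓 𝔈 q qe qf) m ε z t) :
    ω ∈ pvueForced (𝔈.kit m ε) ε (𝔓.col t) (pvilEoAt 𝔓 𝔈 m ε pvilQ z t ω) (pvieZo 𝔓 m z t) ((𝔓.Γ m).dout t) (q m) := by
  obtain ⟨o, ⟨-, ho⟩, rfl⟩ := hω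
  have h := pvgu_all_Fo ho
  rw [pvrgFo, mem_ofPred_eq, pvrgGk, pvgx_end_eq] at h
  exact h

/-- **(cyc1)** the first link, shape `hf` of `pvcz1_frc_big` (`D := pvkyDoor kit zo dout`, `G := kit.G zo dout`) -/
theorem pvgx_cyc_o (hω : ω ∈ pvc1B 𝔓 (pvguGd 𝔓 𝔈 q qe qf) m ε z t) :
    ∀ᵐ p ∂pvdyNu ε, pvkyFl (𝔓.col t) (pvdyR ((pvilEoAt 𝔓 𝔈 m ε pvilQ z t ω).K ∪ pvkyDoor (𝔈.kit m ε) (pvieZo 𝔓 m z t) ((𝔓.Γ m).dout t)) (pvilEoAt 𝔓 𝔈 m ε pvilQ z t ω).y ω p) ∈ (𝔈.kit m ε).G (pvieZo 𝔓 m z t) ((𝔓.Γ m).dout t) →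
      q m ≤ pvdyQ ε (pvilEoAt 𝔓 𝔈 m ε pvilQ z t ω).K (pvilEoAt 𝔓 𝔈 m ε pvilQ z t ω).y (pvilEoAt 𝔓 𝔈 m ε pvilQ z t ω).A
        (pvdyR ((pvilEoAt 𝔓 𝔈 m ε pvilQ z t ω).K ∪ pvkyDoor (𝔈.kit m ε) (pvieZo 𝔓 m z t) ((𝔓.Γ m).dout t)) (pvilEoAt 𝔓 𝔈 m ε pvilQ z t ω).y ω p) := by
  obtain ⟨o, ⟨-, ho⟩, rfl⟩ := hω
  have h := pvgu_all_Fo ho
  rw [pvrgFo, mem_ofPred_eq, pvrgGk, pvgx_mem_end] at h
  exact h

/-- **(cyc1)** the thick link, shape `hf` of `pvcz1_frc_big` (`D := zu + rO`, `G :=` the usable reference plugs placed at `zu`);   `pvueForced` of 141 does NOT apply: it is typed for a door plug of the kit -/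
theorem pvgx_cyc_e (hω : ω ∈ pvc1B 𝔓 (pvguGd 𝔓 𝔈 q qe qf) m ε z t) :
    ∀ᵐ p ∂pvdyNu ε, pvkyFl (𝔓.col t) (pvdyR ((pvilEeAt 𝔓 𝔈 m ε pvilQ z t ω).K ∪ pvieSh (pvieZu 𝔓 m z t) (𝔈.rO m)) (pvilEeAt 𝔓 𝔈 m ε pvilQ z t ω).y ω p) ∈ cfMap (pvthInv (pvieZu 𝔓 m z t) 1) ⁻¹' 𝔈.rG m ε →
      qe ≤ pvdyQ ε (pvilEeAt 𝔓 𝔈 m ε pvilQ z t ω).K (pvilEeAt 𝔓 𝔈 m ε pvilQ z t ω).y (pvilEeAt 𝔓 𝔈 m ε pvilQ z t ω).A
        (pvdyR ((pvilEeAt 𝔓 𝔈 m ε pvilQ z t ω).K ∪ pvieSh (pvieZu 𝔓 m z t) (𝔈.rO m)) (pvilEeAt 𝔓 𝔈 m ε pvilQ z t ω).y ω p) := by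
  obtain ⟨o, ⟨-, ho⟩, rfl⟩ := hω
  have h := pvgu_all_Fe ho
  rw [pvgu_mem_Fe, pvrgGr, pvgx_mem_end] at h
  exact h

end seams

section pack

variable {τ : Type} {c : ℝ} {𝔓 : PvxPar τ c} {𝔈 : PvieEng τ} {𝔊 : PvnaGd τ}

/-- **(cyc1) THE LEAF [FRC] OF (REC)**: constants in `(0,1]` (the fields `qo0 qo1 qe0 qe1` of `pvcz1_cyc`), `qe` FREE OF THE LEVEL, no mesh, no position, no type in them;   at EVERY base the two ends are forced in their own experiments -/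
theorem pvgx_cyc (hGR : PvguRec 𝔓 𝔈 𝔊) : ∃ (qo : ℕ → ℝ≥0∞) (qe : ℝ≥0∞), (∀ m, qo m ≠ 0) ∧ (∀ m, qo m ≤ 1) ∧ qe ≠ 0 ∧ qe ≤ 1 ∧
    ∀ (m : ℕ) (ε : ℝ) (z : ℂ) (t : τ), ∀ ω ∈ pvc1B 𝔓 𝔊 m ε z t,
      (∀ᵐ p ∂pvdyNu ε, pvkyFl (𝔓.col t) (pvdyR ((pvilEoAt 𝔓 𝔈 m ε pvilQ z t ω).K ∪ pvkyDoor (𝔈.kit m ε) (pvieZo 𝔓 m z t) ((𝔓.Γ m).dout t)) (pvilEoAt 𝔓 𝔈 m ε pvilQ z t ω).y ω p) ∈ (𝔈.kit m ε).G (pvieZo 𝔓 m z t) ((𝔓.Γ m).dout t) →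
        qo m ≤ pvdyQ ε (pvilEoAt 𝔓 𝔈 m ε pvilQ z t ω).K (pvilEoAt 𝔓 𝔈 m ε pvilQ z t ω).y (pvilEoAt 𝔓 𝔈 m ε pvilQ z t ω).A
          (pvdyR ((pvilEoAt 𝔓 𝔈 m ε pvilQ z t ω).K ∪ pvkyDoor (𝔈.kit m ε) (pvieZo 𝔓 m z t) ((𝔓.Γ m).dout t)) (pvilEoAt 𝔓 𝔈 m ε pvilQ z t ω).y ω p)) ∧
      (∀ᵐ p ∂pvdyNu ε, pvkyFl (𝔓.col t) (pvdyR ((pvilEeAt 𝔓 𝔈 m ε pvilQ z t ω).K ∪ pvieSh (pvieZu 𝔓 m z t) (𝔈.rO m)) (pvilEeAt 𝔓 𝔈 m ε pvilQ z t ω).y ω p) ∈ cfMap (pvthInv (pvieZu 𝔓 m z t) 1) ⁻¹' 𝔈.rG m ε →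
        qe ≤ pvdyQ ε (pvilEeAt 𝔓 𝔈 m ε pvilQ z t ω).K (pvilEeAt 𝔓 𝔈 m ε pvilQ z t ω).y (pvilEeAt 𝔓 𝔈 m ε pvilQ z t ω).A
          (pvdyR ((pvilEeAt 𝔓 𝔈 m ε pvilQ z t ω).K ∪ pvieSh (pvieZu 𝔓 m z t) (𝔈.rO m)) (pvilEeAt 𝔓 𝔈 m ε pvilQ z t ω).y ω p)) := by
  obtain ⟨q, qe, qf, hq, hqe, -, rfl⟩ := hGR
  have h0 : ∀ a : ℝ≥0∞, a ≠ 0 → min a 1 ≠ 0 := fun a ha => (lt_min (pos_iff_ne_zero.2 ha) one_pos).ne'
  refine ⟨fun m => min (q m) 1, min qe 1, fun m => h0 _ (hq m), fun m => min_le_right _ _, h0 _ hqe, min_le_right _ _, fun m ε z t ω hω => ⟨?_, ?_⟩⟩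
  · filter_upwards [pvgx_cyc_o hω] with p hp hG
    exact (min_le_left _ _).trans (hp hG)
  · filter_upwards [pvgx_cyc_e hω] with p hp hG
    exact (min_le_left _ _).trans (hp hG)

end pack

/-! ## 2. (V), (thick): the leaves are antitone in the good configurations -/

section cut

variable {τ : Type} {c : ℝ}

/-- **the datum with its good configurations replaced by `G'`** -/
def PvekDat.pvgxCut (D : PvekDat τ) (G' : ℕ → ℝ → ℂ → τ → Set (Conf PvPt)) : PvekDat τ := { D with Gd := G' }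

theorem pvgx_eqns_cite : True := by
  have := @PvekDat.pvgxCut.eq_1
  trivial

variable {D : PvekDat τ} {𝔓 : PvxPar τ c} {G' : ℕ → ℝ → ℂ → τ → Set (Conf PvPt)}

theorem pvgx_B_sub {m : ℕ} {ε : ℝ} {z : ℂ} {t : τ} (h : pvConf '' pvxU 𝔓 m z t ∩ G' m ε z t ⊆ D.Gd m ε z t) : (D.pvgxCut G').B 𝔓 m ε z t ⊆ D.B 𝔓 m ε z t :=
  fun _ hω => ⟨hω.1, h hω⟩

/-- the leaves of `thick` at one candidate -/
theorem PvekDat.At.pvgx_cut {W : Set ℂ → ℂ × ℂ → ℂ} {q q' : ℝ≥0∞} {m : ℕ} {ε : ℝ} {z : ℂ} {t : τ} (h : D.At 𝔓 W q q' m ε z t) (hs : pvConf '' pvxU 𝔓 m z t ∩ G' m ε z t ⊆ D.Gd m ε z t) :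
    (D.pvgxCut G').At 𝔓 W q q' m ε z t where
  mC := h.mC
  stop := h.stop
  norm := by filter_upwards [h.norm] with ω h1 hω using h1 (pvgx_B_sub hs hω)
  bd := by filter_upwards [h.bd] with ω h1 hω using h1 (pvgx_B_sub hs hω)
  ins := by filter_upwards [h.ins] with ω h1 hω using h1 (pvgx_B_sub hs hω)
  recog := h.recog

/-- the leaves of `thick` -/
theorem PvekDat.OkL.pvgx_cut {W : Set ℂ → ℂ × ℂ → ℂ} {q q' : ℝ≥0∞} {L : ℝ} {m0 : ℕ} (h : D.OkL 𝔓 W q q' L m0)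
    (hs : ∀ m, m0 ≤ m → ∀ ε z t, pvConf '' pvxU 𝔓 m z t ∩ G' m ε z t ⊆ D.Gd m ε z t) : (D.pvgxCut G').OkL 𝔓 W q q' L m0 where
  q0 := h.q0
  q'0 := h.q'0
  q't := h.q't
  mM := h.mM
  sub := h.sub
  ev := fun m hm p t => by filter_upwards [h.ev m hm p t] with ε hA using hA.pvgx_cut (hs m hm ε _ t)

/-- the leaves of `V` at one candidate -/
theorem PvyqPlug.At.pvgx_cut {𝔲 : PvyqPlug τ} {q : ℝ≥0∞} {m : ℕ} {ε : ℝ} {z : ℂ} {t : τ} (h : 𝔲.At D 𝔓 q m ε z t) (hs : pvConf '' pvxU 𝔓 m z t ∩ G' m ε z t ⊆ D.Gd m ε z t) :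
    𝔲.At (D.pvgxCut G') 𝔓 q m ε z t where
  mC := h.mC
  stop := h.stop
  recog := h.recog
  mO := h.mO
  mθ := h.mθ
  law := h.law
  frc := by filter_upwards [h.frc] with ω h1 hω using h1 (pvgx_B_sub hs hω)

/-- **the leaves of `V`** -/
theorem PvyqPlug.Ok.pvgx_cut {𝔲 : PvyqPlug τ} {q p3 : ℝ≥0∞} {L : ℝ} {m0 : ℕ} (h : 𝔲.Ok D 𝔓 q p3 L m0)
    (hs : ∀ m, m0 ≤ m → ∀ ε z t, pvConf '' pvxU 𝔓 m z t ∩ G' m ε z t ⊆ D.Gd m ε z t) : 𝔲.Ok (D.pvgxCut G') 𝔓 q p3 L m0 where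
  q0 := h.q0
  qt := h.qt
  p0 := h.p0
  mM := h.mM
  sub := h.sub
  adm := h.adm
  ev := fun m hm p t => by filter_upwards [h.ev m hm p t] with ε hA using hA.pvgx_cut (hs m hm ε _ t)

/-- the good configurations of a good part -/
def PvnaGd.pvgxC (𝔊 : PvnaGd τ) (m : ℕ) (ε : ℝ) (z : ℂ) (t : τ) : Set (Conf PvPt) := 𝔊.O m ε z t ∩ 𝔊.I m ε z t ∩ 𝔊.B m ε z t

theorem pvgx_eqns_cite2 : True := by
  have := @PvnaGd.pvgxC.eq_1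
  trivial

/-- **(V) THE CONCLUSION OF `exit_pvyq_pair`** from leaves at ANY datum `D` with: a USABLE good configuration of `𝔊` of a level `m0 ≤ m` is a good configuration of `D` -/
theorem pvgx_V {𝔲 : PvyqPlug τ} {q p3 : ℝ≥0∞} {L : ℝ} {𝔊 : PvnaGd τ} (h : 𝔲.Ok D 𝔓 q p3 L 𝔓.m0)
    (hs : ∀ m, 𝔓.m0 ≤ m → ∀ ε z t, ∀ ω ∈ pvxU 𝔓 m z t, ω ∈ 𝔊.all m ε z t → pvConf ω ∈ D.Gd m ε z t) :
    ∃ (𝔲 : PvyqPlug τ) (D : PvekDat τ) (q p3 : ℝ≥0∞) (L : ℝ), 𝔲.Ok D 𝔓 q p3 L 𝔓.m0 ∧ ∀ m ε z t, 𝔊.all m ε z t ⊆ pvConf ⁻¹' D.Gd m ε z t := by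
  refine ⟨𝔲, D.pvgxCut 𝔊.pvgxC, q, p3, L, h.pvgx_cut fun m hm ε z t => ?_, fun m ε z t ω hω => hω⟩
  rintro _ ⟨⟨ω, hU, rfl⟩, hG⟩
  exact hs m hm ε z t ω hU hG

end cut

end Claimed.Agent.R289
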