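-- KEEP
import Claimed.Agent.R289.Exit.TrV
import Claimed.Agent.R289.Tr.InstEKS

/-!
# Row 289 (S0537), THE WALL, ROAD E, file Exit/TrVF : THE LEAF (FRC) OF THE CLOSED THICK PAIR, MODEL FREE      (helper85, second of helper283; prefix `pvve`, `Pvve`)

`Exit/TrV.lean` (283): `cV_L2` from the ANCHOR LEMMA; the one new leaf is
      **(FRC)**   a.e. good base `ω`, a.e. usable plug `x`:   `q ≤ ν {p | R_ω (emb x p) ∈ A' ∧ Y (R_ω (emb x p)) = a - F x}`.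
HERE (FRC) IS PROVED from what `thick` owes anyway:
* (K5) the two lines of the good set of `thick` (`pvjtGd` of 223, `Defs/GdThick.lean`): for a.e. seed `p` with a usable reference plug `q ≤ pvdyQ ε eK (fun _ => ye) Ae (R p)` and `q' ≤ pvdyQ ε fK (fun _ => yf) Af (R p)`;
* readers: `Ae` reads a window which misses the atom `(fK, yf)` of the return;   the box `O` of the plug misses the two tiles;
* (T) TELE (189): for a.e. usable plug and a.e. seed, on `Ae ∩ Af` the pair is closed and its `V`-value is `a - F x`.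
THE ARGUMENT.   The plug is drawn separately (`pvyqEmb` of 283, law preserving: `pvyq_emb_ae`), it commutes with the mixes of the two atoms (`pvve_mix_emb`; `pvksMix` of 99), `pvdyQ` after the experiment = probability at the mixed seed (`pvks_Q_mix` of 99),
two insertions on the seed space (`pvve_two`; `pvks_insert_ae` of 99 / 223).
* sec. 1  `pvve_two` (seed space), `pvve_mix_emb`
* sec. 2  **`pvve_pair`** : `q * q' ≤ ν {p | R (emb x p) ∈ Ae ∩ Af}` for a.e. usable plug `x`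
          **`pvve_frc`** : the same for any property `T x η` which holds a.s. on `Ae ∩ Af` (outer measure)
* sec. 3  **`pvve_Frc`** = THE LEAF `PvyqPlug.Frc D 𝔓 (q * q') m ε z t ω` of `Exit/TrV.lean` v2 at one base
-/

set_option autoImplicit false

namespace Claimed.Agent.R289

open MeasureTheory Filter Topology Set Claims.C0465
open scoped ENNReal

/-! ## 1. the seed space -/

section seed

/-- **TWO INSERTIONS**: `E` has conditional probability `≥ q` after the mix `ρe`, `E'` conditional probability `≥ q'` after the mix `ρf`, which does not touch `E` -/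
theorem pvve_two {P : Type*} [MeasurableSpace P] {ν : Measure P} [IsProbabilityMeasure ν] {ρe ρf : P × P → P} (me : Measurable ρe) (le : (ν.prod ν).map ρe = ν)
    (mf : Measurable ρf) (lf : (ν.prod ν).map ρf = ν) {E E' : Set P} (mE : NullMeasurableSet E ν) (mE' : NullMeasurableSet E' ν) (hfix : ∀ p p', ρf (p, p') ∈ E ↔ p ∈ E)
    {q q' : ℝ≥0∞} (hq : ∀ᵐ p ∂ν, q ≤ ν {p' | ρe (p, p') ∈ E}) (hq' : ∀ᵐ p ∂ν, p ∈ E → q' ≤ ν {p' | ρf (p, p') ∈ E'}) :
    q * q' ≤ ν (E ∩ E') := by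
  have k1 : q * ∫⁻ _, (1 : ℝ≥0∞) ∂ν ≤ ∫⁻ p, 1 * E.indicator 1 p ∂ν :=
    pvks_insert_ae me le (φ := fun _ => 1) aemeasurable_const mE (fun _ _ => rfl) (hq.mono fun _ h _ => h)
  have k2 : q' * ∫⁻ p, E.indicator (1 : P → ℝ≥0∞) p ∂ν ≤ ∫⁻ p, E.indicator (1 : P → ℝ≥0∞) p * E'.indicator 1 p ∂ν := by
    refine pvks_insert_ae mf lf (aemeasurable_one.indicator₀ mE) mE' (fun p p' => ?_) (hq'.mono fun p h h0 => h ?_)
    · by_cases hp : p ∈ E
      · rw [indicator_of_mem hp, indicator_of_mem ((hfix p p').2 hp)]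
      · rw [indicator_of_notMem hp, indicator_of_notMem fun hh => hp ((hfix p p').1 hh)]
    · by_contra hh
      exact h0 (indicator_of_notMem hh _)
  simp only [lintegral_const, measure_univ, mul_one, one_mul] at k1
  rw [lintegral_indicator_one₀ mE] at k1 k2
  have e : ∫⁻ p, E.indicator (1 : P → ℝ≥0∞) p * E'.indicator 1 p ∂ν = ν (E ∩ E') := by
    rw [← lintegral_indicator_one₀ (mE.inter mE')]
    refine lintegral_congr fun p => ?_
    by_cases h1 : p ∈ E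
    · by_cases h2 : p ∈ E'
      · rw [indicator_of_mem h1, indicator_of_mem h2, indicator_of_mem (show p ∈ E ∩ E' from ⟨h1, h2⟩)]; simp
      · rw [indicator_of_notMem h2, indicator_of_notMem (fun hh : p ∈ E ∩ E' => h2 hh.2), mul_zero]
    · rw [indicator_of_notMem h1, indicator_of_notMem (fun hh : p ∈ E ∩ E' => h1 hh.1), zero_mul]
  rw [e] at k2
  calc q * q' = q' * q := mul_comm _ _
    _ ≤ q' * ν E := mul_le_mul' le_rfl k1
    _ ≤ ν (E ∩ E') := k2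

/-- the plug commutes with the mix of an atom whose tile misses the box of the plug -/
theorem pvve_mix_emb {O cK : Set ℂ} (yc : Set ℂ) (hd : Disjoint O cK) (θ : Conf PvPt → Conf PvPt) (x : Conf PvPt) (p p' : (ℂ → Bool) × Conf PvPt) :
    pvksMix cK yc (pvyqEmb O θ x p, p') = pvyqEmb O θ x (pvksMix cK yc (p, p')) := by
  refine Prod.ext rfl ?_
  ext u
  show u ∈ (Conf.spl (cKᶜ ×ˢ univ) (Conf.spl (O ×ˢ univ) (θ x, p.2), p'.2)).pts ↔ u ∈ (Conf.spl (O ×ˢ univ) (θ x, Conf.spl (cKᶜ ×ˢ univ) (p.2, p'.2))).pts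
  have hd' : u.1 ∈ O → u.1 ∉ cK := fun h => Set.disjoint_left.1 hd h
  simp only [Conf.spl, Conf.union, Conf.restr, mem_union, mem_inter_iff, mem_prod, mem_compl_iff, mem_univ, and_true, not_not]
  tauto

end seed

/-! ## 2. the two thick links succeed together, given the plug -/

section pair

variable {ε : ℝ} {C y eK ye fK yf O We : Set ℂ} {θ : Conf PvPt → Conf PvPt} {ω : Conf PvPt} {Ae Af Gu G : Set (Conf PvPt)} {q q' : ℝ≥0∞}

/-- **THE CLOSED THICK PAIR IS FORCED GIVEN THE PLUG** -/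
theorem pvve_pair (hε : 0 < ε) (hC : MeasurableSet C) (hO : MeasurableSet O) (meK : MeasurableSet eK) (mfK : MeasurableSet fK) (mθ : Measurable θ) (hθ : (pvP ε).map θ = pvP ε)
    (hc : (cfSites ω).Countable) (mAe : MeasurableSet Ae) (mAf : MeasurableSet Af)
    (rAe : Conf.ReadsSet (We ×ˢ univ) Ae) (d1 : Disjoint We fK) (d2 : Disjoint We yf)
    (heK : eK ⊆ C) (hye : ye ⊆ y) (hde : ∀ z ∈ ye, z ∈ C → z ∈ eK) (hfK : fK ⊆ C) (hyf : yf ⊆ y) (hdf : ∀ z ∈ yf, z ∈ C → z ∈ fK)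
    (hOe : Disjoint O eK) (hOf : Disjoint O fK)
    (hGu : ∀ x ∈ G, ∀ p, pvdyR C (fun _ => y) ω (pvyqEmb O θ x p) ∈ Gu)
    (hK5 : ∀ᵐ p ∂pvdyNu ε, pvdyR C (fun _ => y) ω p ∈ Gu →
      q ≤ pvdyQ ε eK (fun _ => ye) Ae (pvdyR C (fun _ => y) ω p) ∧ q' ≤ pvdyQ ε fK (fun _ => yf) Af (pvdyR C (fun _ => y) ω p)) :
    ∀ᵐ x ∂pvP ε, x ∈ G → q * q' ≤ pvdyNu ε {p | pvdyR C (fun _ => y) ω (pvyqEmb O θ x p) ∈ Ae ∩ Af} := by
  filter_upwards [pvyq_emb_ae ε hO mθ hθ hK5, pvyq_emb_ae ε hO mθ hθ (pvks_fn_ae hε)] with x h1 h2 hx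
  have mS : Measurable fun p => pvdyR C (fun _ => y) ω (pvyqEmb O θ x p) :=
    (pvdy_measurable_R hC _ hc).comp ((pvyq_emb_measurable hO mθ).comp (measurable_const.prodMk measurable_id))
  have k := pvve_two (ν := pvdyNu ε) (pvks_mix_measurable meK ye) (pvks_mix_law ε meK ye) (pvks_mix_measurable mfK yf) (pvks_mix_law ε mfK yf)
    (E := {p | pvdyR C (fun _ => y) ω (pvyqEmb O θ x p) ∈ Ae}) (E' := {p | pvdyR C (fun _ => y) ω (pvyqEmb O θ x p) ∈ Af}) (mS mAe).nullMeasurableSet (mS mAf).nullMeasurableSet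
    (fun p p' => ?_) (q := q) (q' := q') ?_ ?_
  · exact k
  · show pvdyR C (fun _ => y) ω (pvyqEmb O θ x (pvksMix fK yf (p, p'))) ∈ Ae ↔ pvdyR C (fun _ => y) ω (pvyqEmb O θ x p) ∈ Ae
    rw [← pvve_mix_emb yf hOf]
    exact iff_of_eq (pvks_reads_mix (Conf.readsSet_iff_reads.1 rAe) d1 d2 ω _ p')
  · filter_upwards [h1, h2] with p a1 a2
    have := (a1 (hGu x hx p)).1
    rw [pvks_Q_mix ε heK hye hde Ae ω a2] at this
    simpa only [pvve_mix_emb ye hOe] using this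
  · filter_upwards [h1, h2] with p a1 a2 _
    have := (a1 (hGu x hx p)).2
    rw [pvks_Q_mix ε hfK hyf hdf Af ω a2] at this
    simpa only [pvve_mix_emb yf hOf] using this

/-- **(FRC), MODEL FREE, OUTER MEASURE**: (K5) + readers + (T) -/
theorem pvve_frc (hε : 0 < ε) (hC : MeasurableSet C) (hO : MeasurableSet O) (meK : MeasurableSet eK) (mfK : MeasurableSet fK) (mθ : Measurable θ) (hθ : (pvP ε).map θ = pvP ε)
    (hc : (cfSites ω).Countable) (mAe : MeasurableSet Ae) (mAf : MeasurableSet Af)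
    (rAe : Conf.ReadsSet (We ×ˢ univ) Ae) (d1 : Disjoint We fK) (d2 : Disjoint We yf)
    (heK : eK ⊆ C) (hye : ye ⊆ y) (hde : ∀ z ∈ ye, z ∈ C → z ∈ eK) (hfK : fK ⊆ C) (hyf : yf ⊆ y) (hdf : ∀ z ∈ yf, z ∈ C → z ∈ fK)
    (hOe : Disjoint O eK) (hOf : Disjoint O fK)
    (hGu : ∀ x ∈ G, ∀ p, pvdyR C (fun _ => y) ω (pvyqEmb O θ x p) ∈ Gu)
    (hK5 : ∀ᵐ p ∂pvdyNu ε, pvdyR C (fun _ => y) ω p ∈ Gu →
      q ≤ pvdyQ ε eK (fun _ => ye) Ae (pvdyR C (fun _ => y) ω p) ∧ q' ≤ pvdyQ ε fK (fun _ => yf) Af (pvdyR C (fun _ => y) ω p))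
    {T : Conf PvPt → Conf PvPt → Prop}
    (hT : ∀ᵐ x ∂pvP ε, x ∈ G → ∀ᵐ p ∂pvdyNu ε, pvdyR C (fun _ => y) ω (pvyqEmb O θ x p) ∈ Ae → pvdyR C (fun _ => y) ω (pvyqEmb O θ x p) ∈ Af → T x (pvdyR C (fun _ => y) ω (pvyqEmb O θ x p))) :
    ∀ᵐ x ∂pvP ε, x ∈ G → q * q' ≤ pvdyNu ε {p | T x (pvdyR C (fun _ => y) ω (pvyqEmb O θ x p))} := by
  filter_upwards [pvve_pair hε hC hO meK mfK mθ hθ hc mAe mAf rAe d1 d2 heK hye hde hfK hyf hdf hOe hOf hGu hK5, hT] with x h1 h2 hx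
  refine (h1 hx).trans (measure_mono_ae ?_)
  filter_upwards [h2 hx] with p hp hm
  exact hp hm.1 hm.2

end pair

/-! ## 3. the leaf (FRC) of the record of 283 -/

section rec

variable {τ : Type} {c : ℝ} {𝔲 : PvyqPlug τ} {D : PvekDat τ} {𝔓 : PvxPar τ c} {m : ℕ} {ε : ℝ} {z : ℂ} {t : τ} {ω : Conf PvPt} {eK ye fK yf We : Set ℂ} {Ae Af Gu : Set (Conf PvPt)} {q q' : ℝ≥0∞}

/-- **THE LEAF `PvyqPlug.Frc` AT ONE BASE**.      `(eK, ye)`, `(fK, yf)` = the atoms of the thick link and of the thick return at the base data of `ω`;   `Ae`, `Af` = their (soft, measurable) successes;   `Gu` = the reference plug is usable;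
`hK5` = the two lines of the good set of `thick`;   `hT` = (T): on `Ae ∩ Af`, at a.e. usable plug and a.e. seed, the events of the record hold and the `V`-value telescopes. -/
theorem pvve_Frc (hε : 0 < ε) (hC : MeasurableSet (D.C m ε z t)) (hO : MeasurableSet (𝔲.O m ε z t)) (meK : MeasurableSet eK) (mfK : MeasurableSet fK)
    (mθ : Measurable (𝔲.θ m ε z t)) (hθ : (pvP ε).map (𝔲.θ m ε z t) = pvP ε) (hc : (cfSites ω).Countable) (mAe : MeasurableSet Ae) (mAf : MeasurableSet Af)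
    (rAe : Conf.ReadsSet (We ×ˢ univ) Ae) (d1 : Disjoint We fK) (d2 : Disjoint We yf)
    (heK : eK ⊆ D.C m ε z t) (hye : ye ⊆ D.y m ε z t (D.β m ε z t ω)) (hde : ∀ w ∈ ye, w ∈ D.C m ε z t → w ∈ eK)
    (hfK : fK ⊆ D.C m ε z t) (hyf : yf ⊆ D.y m ε z t (D.β m ε z t ω)) (hdf : ∀ w ∈ yf, w ∈ D.C m ε z t → w ∈ fK)
    (hOe : Disjoint (𝔲.O m ε z t) eK) (hOf : Disjoint (𝔲.O m ε z t) fK)
    (hGu : ∀ x ∈ 𝔲.G m ε, ∀ p, 𝔲.ex D m ε z t ω x p ∈ Gu)
    (hK5 : ∀ᵐ p ∂pvdyNu ε, D.R m ε z t ω p ∈ Gu → q ≤ pvdyQ ε eK (fun _ => ye) Ae (D.R m ε z t ω p) ∧ q' ≤ pvdyQ ε fK (fun _ => yf) Af (D.R m ε z t ω p))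
    (hT : ∀ᵐ x ∂pvP ε, x ∈ 𝔲.G m ε → ∀ᵐ p ∂pvdyNu ε, 𝔲.ex D m ε z t ω x p ∈ Ae → 𝔲.ex D m ε z t ω x p ∈ Af →
      𝔲.ex D m ε z t ω x p ∈ D.A m ε z t (D.β m ε z t ω) ∧ 𝔲.ex D m ε z t ω x p ∈ D.A' m ε z t (D.β m ε z t ω) ∧
        D.Y m ε z t (D.β m ε z t ω) (𝔲.ex D m ε z t ω x p) = pvyqX 𝔓 m z t ω - 𝔲.F m ε x) :
    𝔲.Frc D 𝔓 (q * q') m ε z t ω :=
  pvve_frc (G := 𝔲.G m ε) (T := fun x η => η ∈ D.A m ε z t (D.β m ε z t ω) ∧ η ∈ D.A' m ε z t (D.β m ε z t ω) ∧ D.Y m ε z t (D.β m ε z t ω) η = pvyqX 𝔓 m z t ω - 𝔲.F m ε x)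
    hε hC hO meK mfK mθ hθ hc mAe mAf rAe d1 d2 heK hye hde hfK hyf hdf hOe hOf hGu hK5 hT

end rec

end Claimed.Agent.R289
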