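-- KEEP
import Claimed.Agent.R289.Exit.TrV
import Claimed.Agent.R289.Exit.ThickL
import Claimed.Agent.R289.Tr.InvE
import Claimed.Agent.R289.Tr.KitGeoW
import Claimed.Agent.R289.Tr.TeleV

/-!
# Row 289 (S0537), THE WALL, ROAD E, file Exit/TrVU : ROOF `V`, THE INSTANCE OF THE REFERENCE PLUG `𝔲 : PvyqPlug τ` (`O θ G F`)      (helper61; split of 283, 12:12Z; prefix `pvvu`, `Pvvu`)

`Exit/TrV.lean` v2 (283): (7) `V` from `PvyqPlug.Ok` = three fields of `thick` + `mO mθ law` + ADMISSION + (FRC).      `Exit/TrVF.lean` (85): (FRC) from the two (K5) lines + readers + (T).      HERE: the plug.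
THE POINT.   The reference plug is a KIT PLUG `pvkdP r`, `r = pvilRu 𝔈 m` (`Tr/InstL` v2.1), cut IN SPACE.      The `V`-value of the thick link is `cV(t) - [pos g⁻(u) + V-mass of inn(u) in zu + rO \ Hp (zu,1)]` (85, `Tr/TeleV`).
THE BRACKET IS A FIELD OF 107 OVER THE TAGS OF THE INNER ARC OF THE GATE OF RECORD (`pvznTi`), with the summand
      `w(t) = 1_B(bary t) (t.1 - t.2.1) + ψ(t.1) - ψ(t.2.1)`,   `ψ(v) = - v 1_{Zm}(v)`      [the second part telescopes to `ψ(g⁺) - ψ(g⁻) = g⁻`: `g⁻ ∈ Zm`, `g⁺ ∈ Zp`, `Zm ∩ Zp = ∅`]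
so `pvzn_rep_Ti` (107, `Tr/PlugW`) gives ONE measurable `F`, read POINTWISE from the window `pvwSq 0 (3 r)`, equal to the bracket on the guard (nice + mesh): HARD locality, no `Sure / Loc` for `F`, no new admission.
* sec. 1  the summand `pvvuW B Zm`, `pvvu_W_meas`;   map level: `pvvu_psum` (`psum` of the summand `= pvwMass side B + ψ(end) - ψ(start)`)
* sec. 2  **`pvvu_gate`** : the field at THE gate of record;   `pvvu_door` : at THE state of the door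
* sec. 3  **`pvvuF r B`** = the representative, `pvvu_F_meas pvvu_F_reads pvvu_F_eq`
* sec. 4  covariance (246, `Tr/InvE`): **`pvvu_cut`** : the bracket read in `η`, colour `col t`, centre `zu`, is `zu + pvvuF r (rO \ Hp (0,1)) (pvilRef 𝔓 m z t η)`
* sec. 5  **`pvvuPlug 𝔓 𝔈`**, `pvvu_mO pvvu_mθ pvvu_law`, `pvvu_ref_θ`, `pvvu_ref_ex` (the reference frame of the experiment shows the plug), **`pvvu_F_ex`**, **`pvvu_Gu`** (`hGu` of `pvve_Frc`), `pvvu_adm`, (T4) **`pvvu_T4 pvvu_T4_ex`**, `pvvu_F_self`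
* sec. 6  (v1.1) AT A COMPLETION `ζ = Conf.spl (Ws ×ˢ univ) (ex, ξ)` OFF A WINDOW `Ws ⊇ zu + rO` (form of (T1) of 189, `Tr/GenP`): `pvvu_ex_restr`, `pvvu_spl_restr`, **`pvvu_T4_spl`** (in the name `pvvfCut` of 85);
          (T2) + (T4): **`pvvu_val`** : `PvvfLk` (85) ⟹ `(pvilLe ..).val 𝔓.num ζ (pvilV ζ) 𝔖 𝔖' y = pvdcCV 𝔖' (pviePos ζ) z (m h) - zu - F x`
-/

set_option autoImplicit false

namespace Claimed.Agent.R289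

open Set MeasureTheory Filter Topology Claims.C0465
open scoped ENNReal ComplexConjugate

/-! ## 1. the summand -/

/-- the potential `ψ(v) = - v 1_{Zm}(v)` -/
noncomputable def pvvuPsi (Zm : Set ℂ) (v : ℂ) : ℂ := Zm.indicator (fun v => -v) v

/-- **THE SUMMAND**, a function of the three sites `(src, tgt, apex)` of the face of the TAG (`= opp` of the edge of the arc) -/
noncomputable def pvvuW (B Zm : Set ℂ) (t : ℂ × ℂ × ℂ) : ℂ :=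
  B.indicator (1 : ℂ → ℂ) ((t.1 + t.2.1 + t.2.2) / 3) * (t.1 - t.2.1) + (pvvuPsi Zm t.1 - pvvuPsi Zm t.2.1)

theorem pvvu_eqns_cite : True := by
  have := @pvvuPsi.eq_1; have := @pvvuW.eq_1
  trivial

theorem pvvu_psi_meas {Zm : Set ℂ} (h : MeasurableSet Zm) : Measurable (pvvuPsi Zm) := measurable_neg.indicator h

theorem pvvu_W_meas {B Zm : Set ℂ} (hB : MeasurableSet B) (hZ : MeasurableSet Zm) : Measurable (pvvuW B Zm) := by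
  have m1 : Measurable fun t : ℂ × ℂ × ℂ => t.1 := measurable_fst
  have m2 : Measurable fun t : ℂ × ℂ × ℂ => t.2.1 := measurable_fst.comp measurable_snd
  have m3 : Measurable fun t : ℂ × ℂ × ℂ => t.2.2 := measurable_snd.comp measurable_snd
  have mb : Measurable fun t : ℂ × ℂ × ℂ => (t.1 + t.2.1 + t.2.2) / 3 := ((m1.add m2).add m3).div_const 3
  have mi : Measurable (B.indicator (1 : ℂ → ℂ)) := measurable_one.indicator hB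
  exact ((mi.comp mb).mul (m1.sub m2)).add (((pvvu_psi_meas hZ).comp m1).sub ((pvvu_psi_meas hZ).comp m2))

section map

variable {V D : Type} {T : PvMap V D}

/-- **the `psum` of the summand along a path**: the `V`-mass of the path in `B`, and the potential telescopes -/
theorem pvvu_psum (pos : V → ℂ) (B Zm : Set ℂ) (p : T.Pth) :
    p.psum (fun d => pvvuW B Zm (pos (T.src d), pos (T.tgt d), pos (T.apex d))) =
      pvwMass T pos (T.side pos) B p 0 p.n + (pvvuPsi Zm (pos (p.v p.n)) - pvvuPsi Zm (pos (p.v 0))) := by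
  classical
  unfold PvMap.Pth.psum pvwMass
  rw [← Finset.sum_range_sub (fun i => pvvuPsi Zm (pos (p.v i))) p.n, ← Finset.range_eq_Ico, ← Finset.sum_add_distrib]
  refine Finset.sum_congr rfl fun i hi => ?_
  have hi' : i < p.n := Finset.mem_range.1 hi
  have e1 : T.src (T.opp (p.e i)) = p.v (i + 1) := by rw [T.src_opp', p.tgt_e i hi']
  have e2 : T.tgt (T.opp (p.e i)) = p.v i := by rw [T.tgt_opp, p.src_e i hi']
  unfold pvvuW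
  simp only []
  rw [e1, e2]
  congr 1
  have eb : T.bary pos (T.opp (p.e i)) = (pos (p.v (i + 1)) + pos (p.v i) + pos (T.apex (T.opp (p.e i)))) / 3 := by
    unfold PvMap.bary
    rw [e1, e2]
  have es : T.side pos (T.opp (p.e i)) = pos (p.v (i + 1)) - pos (p.v i) := by
    unfold PvMap.side
    rw [e1, e2]
  rw [eb, es]
  by_cases h : (pos (p.v (i + 1)) + pos (p.v i) + pos (T.apex (T.opp (p.e i)))) / 3 ∈ B
  · rw [indicator_of_mem h, if_pos h, Pi.one_apply, one_mul]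
  · rw [indicator_of_notMem h, if_neg h, zero_mul]

end map

/-! ## 2. the field at THE gate of record -/

section gate

variable {𝔭 : PvkdPlug} {η : Conf PvPt} {z d : ℂ}

/-- a field of 107 over the plane map, vocabulary of 244 -/
theorem pvvu_pl (Ψ : PvzfPred ℂ) (w : ℂ × ℂ × ℂ → ℂ) (η : Conf PvPt) :
    pvzfPl id Ψ w η = ∑ᶠ e ∈ {e | Ψ _ _ (pvkiT η) Subtype.val (pvkiS η) e}, w (pvzfPlPos (cfSites η) e) := rfl

/-- **THE FIELD AT THE GATE OF RECORD**: `g⁻` + the `V`-mass in `B` of the inner arc -/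
theorem pvvu_gate (hN : PvatNice (cfSites η)) (hdis : Disjoint 𝔭.Zm 𝔭.Zp) (hd : d ≠ 0) {g : (pvkiT η).Gate (pvkiS η)} (hg : PvkdGate 𝔭 η z d g) (B : Set ℂ) :
    pvzfPl id (pvznTi (𝔭.pg z d)) (pvvuW B (pvkdAt z d 𝔭.Zm)) η =
      (g.vm : ℂ) + pvwMass (pvkiT η) Subtype.val ((pvkiT η).side Subtype.val) B (pvtArc (pvkiT η) (pvkiS η) g.aIn g.len) 0 (pvtArc (pvkiT η) (pvkiS η) g.aIn g.len).n := by
  have hT : (pvkiT η).IsSph := delb_plane_isSph hN.good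
  have hu : ∀ g₂, PvzlGt (pvkiT η) Subtype.val (pvkiS η) (𝔭.pg z d) g₂ → g₂ = g := fun g₂ h₂ => pvkx_uniq hN hdis h₂ hg
  have eS : {e | pvznTi (𝔭.pg z d) _ _ (pvkiT η) Subtype.val (pvkiS η) e} = {e | PvzlArc (pvkiT η) (pvkiS η) g.aIn g.len e} := pvkx_Ti_set hT hu hg
  rw [pvvu_pl, eS, pvkx_arc_sum]
  have e1 := pvvu_psum (T := pvkiT η) Subtype.val B (pvkdAt z d 𝔭.Zm) (pvtArc (pvkiT η) (pvkiS η) g.aIn g.len)
  have e0 : (pvtArc (pvkiT η) (pvkiS η) g.aIn g.len).psum (fun e => pvvuW B (pvkdAt z d 𝔭.Zm) (pvzfPlPos (cfSites η) e)) =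
      (pvtArc (pvkiT η) (pvkiS η) g.aIn g.len).psum (fun e => pvvuW B (pvkdAt z d 𝔭.Zm) (((pvkiT η).src e : ℂ), ((pvkiT η).tgt e : ℂ), ((pvkiT η).apex e : ℂ))) := rfl
  rw [e0, e1, pvt_sf_arc_v0, pvt_sf_arc_vn, pvtg_aIn_src]
  obtain ⟨N, hNN⟩ := hg.thru
  rw [(hNN.len hT).1, hNN.2.1, pvtg_aOut_src]
  have hm : (g.vm : ℂ) ∈ pvkdAt z d 𝔭.Zm := hg.vm
  have hp : (g.vp : ℂ) ∉ pvkdAt z d 𝔭.Zm := by
    rintro ⟨u, hu1, e⟩
    obtain ⟨u', hu', e'⟩ := hg.vp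
    have : u' = u := by
      have e2 : pvthSim z d u' = pvthSim z d u := e'.trans e.symm
      unfold pvthSim at e2
      exact mul_left_cancel₀ hd (add_left_cancel e2)
    exact Set.disjoint_left.1 hdis hu1 (this ▸ hu')
  unfold pvvuPsi
  rw [indicator_of_mem hm, indicator_of_notMem hp]
  ring

/-- **THE FIELD AT THE STATE OF THE DOOR** (black form, 34) -/
theorem pvvu_door (hdis : Disjoint 𝔭.Zm 𝔭.Zp) (hd : d ≠ 0) {𝔖 : PvwSt (pvkiT η)} (h : PvkdDoor 𝔭 η z d 𝔖) (B : Set ℂ) :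
    pvzfPl id (pvznTi (𝔭.pg z d)) (pvvuW B (pvkdAt z d 𝔭.Zm)) η = ((𝔖.inn.v 0 : ↥(cfSites η)) : ℂ) + pvwMass (pvkiT η) Subtype.val ((pvkiT η).side Subtype.val) B 𝔖.inn 0 𝔖.inn.n := by
  obtain ⟨hN, g, hg, rfl⟩ := h
  exact pvvu_gate hN.1 hdis hd hg B

end gate

/-! ## 3. the representative -/

section rep

/-- existence (107): measurable, read pointwise from the window, equal to the field on the guard -/
theorem pvvu_rep {r : ℝ} (hr : 0 < r) {B : Set ℂ} (hB : MeasurableSet B) :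
    ∃ F : Conf PvPt → ℂ, Measurable F ∧ Conf.Reads (pvwSq 0 (3 * r) ×ˢ univ) F ∧
      ∀ η ∈ (pvkdP r).N 0 1, F η = pvzfPl id (pvznTi ((pvkdP r).pg 0 1)) (pvvuW B (pvkdAt 0 1 (pvkdP r).Zm)) η := by
  have hK : pvznRd ((pvkdP r).pg 0 1) ⊆ pvtrCore (3 * (pvkdP r).ρ) (pvkdP r).Ew := by
    have := pvzn_pg_core (pvkdP r) (pvzn_P_cE hr) (d := 1) (by simp) 0
    rwa [pvzn_at_id] at this
  obtain ⟨F, h1, h2, h3⟩ := pvzn_rep_Ti (pvzn_pg_meas (pvkdP r) (pvzn_P_mZm r) (pvzn_P_mZp r) (pvzn_P_mTb r) one_ne_zero 0) (pvzn_P_wE r) (pvzn_P_bE r) (pvzn_P_rho hr) hK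
    (pvvu_W_meas hB (pvzn_at_meas one_ne_zero 0 (pvzn_P_mZm r)))
  refine ⟨F, h1, h2, fun η hη => h3 η ?_⟩
  have : η ∈ pvznN (pvkdP r).ρ (pvkdAt 0 1 (pvkdP r).Ew) := hη
  rwa [pvzn_at_id] at this

open Classical in
/-- **THE CUT POINT OF THE KIT PLUG `pvkdP r` IN THE REFERENCE FRAME `(0,1)`**, black form; `B` = the part of the region BEHIND the cut -/
noncomputable def pvvuF (r : ℝ) (B : Set ℂ) : Conf PvPt → ℂ :=
  if h : 0 < r ∧ MeasurableSet B then (pvvu_rep h.1 h.2).choose else 0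

theorem pvvu_eqns_cite2 : True := by
  have := @pvvuF.eq_1
  trivial

variable {r : ℝ} {B : Set ℂ}

theorem pvvu_F_spec (hr : 0 < r) (hB : MeasurableSet B) : Measurable (pvvuF r B) ∧ Conf.Reads (pvwSq 0 (3 * r) ×ˢ univ) (pvvuF r B) ∧
    ∀ η ∈ (pvkdP r).N 0 1, pvvuF r B η = pvzfPl id (pvznTi ((pvkdP r).pg 0 1)) (pvvuW B (pvkdAt 0 1 (pvkdP r).Zm)) η := by
  unfold pvvuF
  rw [dif_pos ⟨hr, hB⟩]
  exact (pvvu_rep hr hB).choose_spec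

theorem pvvu_F_meas (hr : 0 < r) (hB : MeasurableSet B) : Measurable (pvvuF r B) := (pvvu_F_spec hr hB).1

theorem pvvu_F_reads (hr : 0 < r) (hB : MeasurableSet B) : Conf.Reads (pvwSq 0 (3 * r) ×ˢ univ) (pvvuF r B) := (pvvu_F_spec hr hB).2.1

/-- **`F` AT THE STATE OF THE DOOR**, reference frame -/
theorem pvvu_F_eq (hr : 0 < r) (hB : MeasurableSet B) {η : Conf PvPt} {𝔖 : PvwSt (pvkiT η)} (h : PvkdDoor (pvkdP r) η 0 1 𝔖) :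
    pvvuF r B η = ((𝔖.inn.v 0 : ↥(cfSites η)) : ℂ) + pvwMass (pvkiT η) Subtype.val ((pvkiT η).side Subtype.val) B 𝔖.inn 0 𝔖.inn.n := by
  rw [(pvvu_F_spec hr hB).2.2 η h.1]
  exact pvvu_door (pviq_P_disj hr) one_ne_zero h B

end rep

/-! ## 4. covariance: the bracket read in `η` itself -/

section cov

variable {τ : Type} {c : ℝ} (𝔓 : PvxPar τ c) (𝔈 : PvieEng τ)

/-- the part of the region of the reference plug BEHIND the line through its centre, reference frame -/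
def pvvuB (m : ℕ) : Set ℂ := 𝔈.rO m \ pvilHp 0 1

theorem pvvu_eqns_cite3 : True := by
  have := @pvvuB.eq_1
  trivial

theorem pvvu_hp_meas (z d : ℂ) : MeasurableSet (pvilHp z d) := by
  have : IsClosed (pvilHp z d) := isClosed_le continuous_const (by fun_prop)
  exact this.measurableSet

theorem pvvu_B_meas {m : ℕ} (h : MeasurableSet (𝔈.rO m)) : MeasurableSet (pvvuB 𝔈 m) := h.diff (pvvu_hp_meas 0 1)

/-- the placed region behind the cut -/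
theorem pvvu_B_mem (m : ℕ) (zu w : ℂ) : pvthSim (-zu) 1 w ∈ pvvuB 𝔈 m ↔ w ∈ pvieSh zu (𝔈.rO m) \ pvilHp zu 1 := by
  have e : pvthSim (-zu) 1 w = w - zu := by unfold pvthSim; ring
  rw [e]
  unfold pvvuB pvilHp pvieSh
  simp only [Set.mem_sdiff, mem_ofPred_eq, mem_image, sub_zero]
  refine and_congr ⟨fun h => ⟨w - zu, h, by ring⟩, ?_⟩ Iff.rfl
  rintro ⟨u, hu, rfl⟩
  rwa [add_sub_cancel_left]

variable {𝔈}

/-- **THE CUT POINT OF THE REFERENCE PLUG OF `(z,t)`, READ IN `η` ITSELF** (colour `col t`, centre `zu`), is `zu + F` of the configuration seen from the plug.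
The left side is the bracket of (T-det) (85): `pos g⁻(u)` + the `V`-mass of the inner arc of `u` in `zu + rO \ Hp (zu,1)`. -/
theorem pvvu_cut {m : ℕ} (hr : 0 < pvilRu 𝔈 m) (hO : MeasurableSet (𝔈.rO m)) (z : ℂ) (t : τ) {η : Conf PvPt} (h1 : PviqOne η) {𝔖 : PvwSt (pvieT η)}
    (hD : PvilDoor (pvkdP (pvilRu 𝔈 m)) (𝔓.col t) η (pvieZu 𝔓 m z t) 1 𝔖) :
    pviePos η (𝔖.inn.v 0) + pvwMass (pvieT η) (pviePos η) (pvilV η) (pvieSh (pvieZu 𝔓 m z t) (𝔈.rO m) \ pvilHp (pvieZu 𝔓 m z t) 1) 𝔖.inn 0 𝔖.inn.n =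
      pvieZu 𝔓 m z t + pvvuF (pvilRu 𝔈 m) (pvvuB 𝔈 m) (pvilRef 𝔓 m z t η) := by
  have M := pviq_ref_mor 𝔓 m z t h1
  have hD' := pviq_door M (by norm_num) hD
  have e0 : pvthSim (-pvieZu 𝔓 m z t) 1 (pvieZu 𝔓 m z t) = 0 := by unfold pvthSim; ring
  rw [e0, one_mul] at hD'
  have hK : PvkdDoor (pvkdP (pvilRu 𝔈 m)) (pvilRef 𝔓 m z t η) 0 1 (pviqSt M.iso 𝔖) := (pvil_door_true _ _ _ _ _).1 hD'
  have em : pvwMass (pvieT (pvilRef 𝔓 m z t η)) (pviePos (pvilRef 𝔓 m z t η)) (pvilV (pvilRef 𝔓 m z t η)) (pvvuB 𝔈 m) (pviqPth M.iso 𝔖.inn) 0 𝔖.inn.n =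
      1 * pvwMass (pvieT η) (pviePos η) (pvilV η) (pvieSh (pvieZu 𝔓 m z t) (𝔈.rO m) \ pvilHp (pvieZu 𝔓 m z t) 1) 𝔖.inn 0 𝔖.inn.n :=
    pviq_mass M.iso (pviq_wV M) (fun d => by rw [pviq_bary M, pvvu_B_mem]) 𝔖.inn 0 𝔖.inn.n
  have ep : pviePos (pvilRef 𝔓 m z t η) (M.iso.fV (𝔖.inn.v 0)) = 1 * pviePos η (𝔖.inn.v 0) + -pvieZu 𝔓 m z t := M.pos _
  have eF : pvvuF (pvilRu 𝔈 m) (pvvuB 𝔈 m) (pvilRef 𝔓 m z t η) =
      pviePos (pvilRef 𝔓 m z t η) (M.iso.fV (𝔖.inn.v 0)) + pvwMass (pvieT (pvilRef 𝔓 m z t η)) (pviePos (pvilRef 𝔓 m z t η)) (pvilV (pvilRef 𝔓 m z t η)) (pvvuB 𝔈 m) (pviqPth M.iso 𝔖.inn) 0 𝔖.inn.n :=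
    pvvu_F_eq hr (pvvu_B_meas 𝔈 hO) hK
  rw [eF, em, ep]
  ring

end cov

/-! ## 5. the plug of record -/

section plug

variable {τ : Type} {c : ℝ} (𝔓 : PvxPar τ c) (𝔈 : PvieEng τ)

/-- **THE REFERENCE PLUG OF RECORD** next to the datum of `thick`: region `zu + rO`, placement = the inverse of `pvilRef`, usable plugs `𝔈.rG`, cut point `pvvuF` -/
noncomputable def pvvuPlug : PvyqPlug τ where
  O := fun m _ z t => pvieSh (pvieZu 𝔓 m z t) (𝔈.rO m)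
  θ := fun m _ z t => (pviqRefM 𝔓 m z t).symm
  G := 𝔈.rG
  F := fun m _ => pvvuF (pvilRu 𝔈 m) (pvvuB 𝔈 m)

theorem pvvu_eqns_cite4 : True := by
  have := @pvvuPlug.eq_1
  trivial

theorem pvvu_mO {m : ℕ} (h : MeasurableSet (𝔈.rO m)) (ε : ℝ) (z : ℂ) (t : τ) : MeasurableSet ((pvvuPlug 𝔓 𝔈).O m ε z t) := pvjt_sh_meas _ h

theorem pvvu_mθ (m : ℕ) (ε : ℝ) (z : ℂ) (t : τ) : Measurable ((pvvuPlug 𝔓 𝔈).θ m ε z t) := (pviqRefM 𝔓 m z t).symm.measurable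

/-- I.INV -/
theorem pvvu_law (m : ℕ) (ε : ℝ) (z : ℂ) (t : τ) : (pvP ε).map ((pvvuPlug 𝔓 𝔈).θ m ε z t) = pvP ε := by
  show (pvP ε).map (pviqRefM 𝔓 m z t).symm = pvP ε
  conv_lhs => rw [← pviq_ref_map 𝔓 m z t ε]
  rw [Measure.map_map (pviqRefM 𝔓 m z t).symm.measurable (pviqRefM 𝔓 m z t).measurable, MeasurableEquiv.symm_comp_self, Measure.map_id]

/-- seen from the plug, the placed plug is the plug -/
theorem pvvu_ref_θ (m : ℕ) (ε : ℝ) (z : ℂ) (t : τ) (x : Conf PvPt) : pvilRef 𝔓 m z t ((pvvuPlug 𝔓 𝔈).θ m ε z t x) = x := by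
  rw [← pviq_refM_apply]
  exact (pviqRefM 𝔓 m z t).apply_symm_apply x

/-- a function of the configuration seen from the plug which reads `S` reads `zu + S` -/
theorem pvvu_ref_reads {β : Type*} {S : Set ℂ} {f : Conf PvPt → β} (hf : Conf.Reads (S ×ˢ univ) f) (m : ℕ) (z : ℂ) (t : τ) :
    Conf.Reads (pvieSh (pvieZu 𝔓 m z t) S ×ˢ univ) (fun η => f (pvilRef 𝔓 m z t η)) := by
  have h1 := pvth_reads_map (g := pvthInv (pvieZu 𝔓 m z t) 1) hf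
  have eW : Prod.map (pvthInv (pvieZu 𝔓 m z t) 1) id ⁻¹' (S ×ˢ (univ : Set Bool)) = pvieSh (pvieZu 𝔓 m z t) S ×ˢ (univ : Set Bool) := by
    ext ⟨w, b⟩
    simp only [mem_preimage, Prod.map, mem_prod, mem_univ, and_true, pvieSh, mem_image, pvthInv, div_one, id]
    refine ⟨fun h => ⟨_, h, by ring⟩, ?_⟩
    rintro ⟨u, hu, rfl⟩
    rwa [add_sub_cancel_left]
  rw [eW] at h1
  intro η
  show f (cfMap _ (pvkyFl (𝔓.col t) (Conf.restr _ η))) = f (cfMap _ (pvkyFl (𝔓.col t) η))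
  rw [← pvky_fl_restr]
  exact h1 _

variable {𝔓 𝔈} {D : PvekDat τ} {m : ℕ} {ε : ℝ} {z : ℂ} {t : τ}

/-- **the experiment shows the placed plug in its region** -/
theorem pvvu_ex_reads {β : Type*} {f : Conf PvPt → β} (hf : Conf.Reads ((pvvuPlug 𝔓 𝔈).O m ε z t ×ˢ univ) f) (hO : (pvvuPlug 𝔓 𝔈).O m ε z t ⊆ D.C m ε z t)
    (ω x : Conf PvPt) (p : (ℂ → Bool) × Conf PvPt) : f ((pvvuPlug 𝔓 𝔈).ex D m ε z t ω x p) = f ((pvvuPlug 𝔓 𝔈).θ m ε z t x) := by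
  unfold PvyqPlug.ex PvekDat.R
  rw [hf.congr (pvky_restr_R hO _)]
  exact hf.spl_left Subset.rfl _ _

/-- a function of the configuration seen from the plug which reads `rO` sees the plug -/
theorem pvvu_ref_ex {β : Type*} {f : Conf PvPt → β} (hf : Conf.Reads (𝔈.rO m ×ˢ univ) f) (hO : (pvvuPlug 𝔓 𝔈).O m ε z t ⊆ D.C m ε z t)
    (ω x : Conf PvPt) (p : (ℂ → Bool) × Conf PvPt) : f (pvilRef 𝔓 m z t ((pvvuPlug 𝔓 𝔈).ex D m ε z t ω x p)) = f x := by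
  have := pvvu_ex_reads (D := D) (ε := ε) (pvvu_ref_reads 𝔓 hf m z t) hO ω x p
  rw [this, pvvu_ref_θ]

/-- **THE CUT POINT OF THE REFERENCE PLUG ALONG THE EXPERIMENT IS THE CUT POINT OF THE PLUG DRAWN SEPARATELY** -/
theorem pvvu_F_ex (hr : 0 < pvilRu 𝔈 m) (mO : MeasurableSet (𝔈.rO m)) (hw : pvwSq 0 (3 * pvilRu 𝔈 m) ⊆ 𝔈.rO m) (hO : (pvvuPlug 𝔓 𝔈).O m ε z t ⊆ D.C m ε z t)
    (ω x : Conf PvPt) (p : (ℂ → Bool) × Conf PvPt) :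
    pvvuF (pvilRu 𝔈 m) (pvvuB 𝔈 m) (pvilRef 𝔓 m z t ((pvvuPlug 𝔓 𝔈).ex D m ε z t ω x p)) = (pvvuPlug 𝔓 𝔈).F m ε x :=
  pvvu_ref_ex ((pvvu_F_reads hr (pvvu_B_meas 𝔈 mO)).mono (prod_mono hw Subset.rfl)) hO ω x p

/-- **`hGu` OF `pvve_Frc`** (85): a usable plug is usable along the experiment -/
theorem pvvu_Gu (rG : Conf.Reads (𝔈.rO m ×ˢ univ) (fun η => η ∈ 𝔈.rG m ε)) (hO : (pvvuPlug 𝔓 𝔈).O m ε z t ⊆ D.C m ε z t) (ω : Conf PvPt) :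
    ∀ x ∈ (pvvuPlug 𝔓 𝔈).G m ε, ∀ p, (pvvuPlug 𝔓 𝔈).ex D m ε z t ω x p ∈ pvjtGu 𝔓 𝔈 m ε z t := by
  intro x hx p
  show pvilRef 𝔓 m z t ((pvvuPlug 𝔓 𝔈).ex D m ε z t ω x p) ∈ 𝔈.rG m ε
  have := pvvu_ref_ex (𝔓 := 𝔓) (D := D) (ε := ε) (z := z) (t := t) rG hO ω x p
  exact this.symm ▸ hx

/-- **(T4) THE PLUG** (form of 189): `ζ` = ANY configuration which shows the placed plug `θ x` in `zu + rO`; the bracket of (T-det) read at THE door state of `ζ` is `zu + F x` -/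
theorem pvvu_T4 (hr : 0 < pvilRu 𝔈 m) (mO : MeasurableSet (𝔈.rO m)) (hw : pvwSq 0 (3 * pvilRu 𝔈 m) ⊆ 𝔈.rO m) {ζ x : Conf PvPt} (h1 : PviqOne ζ)
    (hζ : Conf.restr (pvieSh (pvieZu 𝔓 m z t) (𝔈.rO m) ×ˢ univ) ζ = Conf.restr (pvieSh (pvieZu 𝔓 m z t) (𝔈.rO m) ×ˢ univ) ((pvvuPlug 𝔓 𝔈).θ m ε z t x))
    {𝔖 : PvwSt (pvieT ζ)} (hD : PvilDoor (pvkdP (pvilRu 𝔈 m)) (𝔓.col t) ζ (pvieZu 𝔓 m z t) 1 𝔖) :
    pviePos ζ (𝔖.inn.v 0) + pvwMass (pvieT ζ) (pviePos ζ) (pvilV ζ) (pvieSh (pvieZu 𝔓 m z t) (𝔈.rO m) \ pvilHp (pvieZu 𝔓 m z t) 1) 𝔖.inn 0 𝔖.inn.n =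
      pvieZu 𝔓 m z t + (pvvuPlug 𝔓 𝔈).F m ε x := by
  rw [pvvu_cut 𝔓 hr mO z t h1 hD]
  have hf := pvvu_ref_reads 𝔓 ((pvvu_F_reads hr (pvvu_B_meas 𝔈 mO)).mono (prod_mono hw Subset.rfl)) m z t
  rw [hf.congr hζ, pvvu_ref_θ]
  rfl

/-- `F x` is the bracket read at THE door state of the plug `x` itself (reference frame, black) -/
theorem pvvu_F_self (hr : 0 < pvilRu 𝔈 m) (mO : MeasurableSet (𝔈.rO m)) {x : Conf PvPt} {𝔖₀ : PvwSt (pvieT x)} (h : PvilDoor (pvkdP (pvilRu 𝔈 m)) true x 0 1 𝔖₀) :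
    (pvvuPlug 𝔓 𝔈).F m ε x = pviePos x (𝔖₀.inn.v 0) + pvwMass (pvieT x) (pviePos x) (pvilV x) (𝔈.rO m \ pvilHp 0 1) 𝔖₀.inn 0 𝔖₀.inn.n :=
  pvvu_F_eq hr (pvvu_B_meas 𝔈 mO) ((pvil_door_true _ _ _ _ _).1 h)

/-- (T4) ALONG THE EXPERIMENT of the record of 283 -/
theorem pvvu_T4_ex (hr : 0 < pvilRu 𝔈 m) (mO : MeasurableSet (𝔈.rO m)) (hw : pvwSq 0 (3 * pvilRu 𝔈 m) ⊆ 𝔈.rO m) (hO : (pvvuPlug 𝔓 𝔈).O m ε z t ⊆ D.C m ε z t)
    (ω x : Conf PvPt) (p : (ℂ → Bool) × Conf PvPt) (h1 : PviqOne ((pvvuPlug 𝔓 𝔈).ex D m ε z t ω x p)) {𝔖 : PvwSt (pvieT ((pvvuPlug 𝔓 𝔈).ex D m ε z t ω x p))}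
    (hD : PvilDoor (pvkdP (pvilRu 𝔈 m)) (𝔓.col t) ((pvvuPlug 𝔓 𝔈).ex D m ε z t ω x p) (pvieZu 𝔓 m z t) 1 𝔖) :
    pviePos _ (𝔖.inn.v 0) + pvwMass (pvieT _) (pviePos _) (pvilV _) (pvieSh (pvieZu 𝔓 m z t) (𝔈.rO m) \ pvilHp (pvieZu 𝔓 m z t) 1) 𝔖.inn 0 𝔖.inn.n =
      pvieZu 𝔓 m z t + (pvvuPlug 𝔓 𝔈).F m ε x := by
  rw [pvvu_cut 𝔓 hr mO z t h1 hD, pvvu_F_ex hr mO hw hO]

/-- ADMISSION, from the contract of `thick` (223) -/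
theorem pvvu_adm {𝔯 : PvjtRet τ} {L : ℝ} {b0 : ℝ≥0∞} (H : PvjtWf 𝔓 𝔈 𝔯 L b0) (m : ℕ) (hm : 𝔓.m0 ≤ m) : ∀ᶠ ε in 𝓝[>] (0 : ℝ), b0 ≤ pvP ε ((pvvuPlug 𝔓 𝔈).G m ε) := H.adm m hm

/-- the region of the plug is resampled in the experiment of the datum of 223 -/
theorem pvvu_O_sub (𝔯 : PvjtRet τ) (wt : ∀ η : Conf PvPt, (delbPl (pvieY η)).Dart → ℂ) (L : ℝ) (q q' : ℝ≥0∞) (m : ℕ) (ε : ℝ) (z : ℂ) (t : τ) :
    (pvvuPlug 𝔓 𝔈).O m ε z t ⊆ (pvjtDat 𝔓 𝔈 𝔯 wt L q q').C m ε z t := fun _ h => Or.inl (Or.inr h)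

end plug

/-! ## 6. at a completion of the experiment off a window -/

section spl

variable {τ : Type} {c : ℝ} {𝔓 : PvxPar τ c} {𝔈 : PvieEng τ} {D : PvekDat τ} {m : ℕ} {ε : ℝ} {z : ℂ} {t : τ}

theorem pvvu_restr_reads (W : Set PvPt) : Conf.Reads W (Conf.restr W) := fun η => pvi_restr_idem W η

/-- in the region of the plug the experiment IS the placed plug -/
theorem pvvu_ex_restr (hO : (pvvuPlug 𝔓 𝔈).O m ε z t ⊆ D.C m ε z t) (ω x : Conf PvPt) (p : (ℂ → Bool) × Conf PvPt) :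
    Conf.restr ((pvvuPlug 𝔓 𝔈).O m ε z t ×ˢ univ) ((pvvuPlug 𝔓 𝔈).ex D m ε z t ω x p) = Conf.restr ((pvvuPlug 𝔓 𝔈).O m ε z t ×ˢ univ) ((pvvuPlug 𝔓 𝔈).θ m ε z t x) :=
  pvvu_ex_reads (pvvu_restr_reads _) hO ω x p

/-- the same for a completion off a window which contains the region of the plug -/
theorem pvvu_spl_restr (hO : (pvvuPlug 𝔓 𝔈).O m ε z t ⊆ D.C m ε z t) {Ws : Set ℂ} (hW : (pvvuPlug 𝔓 𝔈).O m ε z t ⊆ Ws) (ω x : Conf PvPt) (p : (ℂ → Bool) × Conf PvPt) (ξ : Conf PvPt) :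
    Conf.restr ((pvvuPlug 𝔓 𝔈).O m ε z t ×ˢ univ) (Conf.spl (Ws ×ˢ univ) ((pvvuPlug 𝔓 𝔈).ex D m ε z t ω x p, ξ)) = Conf.restr ((pvvuPlug 𝔓 𝔈).O m ε z t ×ˢ univ) ((pvvuPlug 𝔓 𝔈).θ m ε z t x) := by
  rw [(pvvu_restr_reads _).spl_left (prod_mono hW Subset.rfl)]
  exact pvvu_ex_restr hO ω x p

/-- **(T4) AT A COMPLETION**, in the name of 85: the cut point of the door `u` read in `ζ` is `zu + F x` -/
theorem pvvu_T4_spl (hr : 0 < pvilRu 𝔈 m) (mO : MeasurableSet (𝔈.rO m)) (hw : pvwSq 0 (3 * pvilRu 𝔈 m) ⊆ 𝔈.rO m) (hO : (pvvuPlug 𝔓 𝔈).O m ε z t ⊆ D.C m ε z t)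
    {Ws : Set ℂ} (hW : (pvvuPlug 𝔓 𝔈).O m ε z t ⊆ Ws) (ω x : Conf PvPt) (p : (ℂ → Bool) × Conf PvPt) (ξ : Conf PvPt)
    (h1 : PviqOne (Conf.spl (Ws ×ˢ univ) ((pvvuPlug 𝔓 𝔈).ex D m ε z t ω x p, ξ))) {𝔖 : PvwSt (pvieT (Conf.spl (Ws ×ˢ univ) ((pvvuPlug 𝔓 𝔈).ex D m ε z t ω x p, ξ)))}
    (hD : PvilDoor (pvkdP (pvilRu 𝔈 m)) (𝔓.col t) (Conf.spl (Ws ×ˢ univ) ((pvvuPlug 𝔓 𝔈).ex D m ε z t ω x p, ξ)) (pvieZu 𝔓 m z t) 1 𝔖) :
    pvvfCut 𝔖 (pviePos _) (pvieSh (pvieZu 𝔓 m z t) (𝔈.rO m) \ pvilHp (pvieZu 𝔓 m z t) 1) = pvieZu 𝔓 m z t + (pvvuPlug 𝔓 𝔈).F m ε x :=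
  pvvu_T4 hr mO hw h1 (pvvu_spl_restr hO hW ω x p ξ) hD

/-- **(T2) + (T4)**: the `V`-value of the thick link read at ANY configuration `ζ` which shows the placed plug `θ x` in `zu + rO` -/
theorem pvvu_val (hr : 0 < pvilRu 𝔈 m) (mO : MeasurableSet (𝔈.rO m)) (hw : pvwSq 0 (3 * pvilRu 𝔈 m) ⊆ 𝔈.rO m) {ζ x : Conf PvPt} (h1 : PviqOne ζ)
    (hζ : Conf.restr (pvieSh (pvieZu 𝔓 m z t) (𝔈.rO m) ×ˢ univ) ζ = Conf.restr (pvieSh (pvieZu 𝔓 m z t) (𝔈.rO m) ×ˢ univ) ((pvvuPlug 𝔓 𝔈).θ m ε z t x))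
    {𝔖 𝔖' : PvwSt (pvieT ζ)} {y : (pvieT ζ).Pth} (hD : PvilDoor (pvkdP (pvilRu 𝔈 m)) (𝔓.col t) ζ (pvieZu 𝔓 m z t) 1 𝔖)
    (H : PvvfLk (pviePos ζ) (pvieSh (pvieZu 𝔓 m z t) (𝔈.rO m) \ pvilHp (pvieZu 𝔓 m z t) 1) (Metric.closedBall z (𝔓.num.m * pvlmH m)) 𝔖 𝔖' y) :
    (pvilLe 𝔓 𝔈 m z t).val 𝔓.num ζ (pvilV ζ) 𝔖 𝔖' y = pvdcCV 𝔖' (pviePos ζ) z (𝔓.num.m * pvlmH m) - pvieZu 𝔓 m z t - (pvvuPlug 𝔓 𝔈).F m ε x := by
  have e := pvvf_val (L := pvilLe 𝔓 𝔈 m z t) rfl rfl (W := pvieSh (pvieZu 𝔓 m z t) (𝔈.rO m) \ pvilHp (pvieZu 𝔓 m z t) 1) rfl 𝔓.num H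
  have e4 : pvvfCut 𝔖 (pviePos ζ) (pvieSh (pvieZu 𝔓 m z t) (𝔈.rO m) \ pvilHp (pvieZu 𝔓 m z t) 1) = pvieZu 𝔓 m z t + (pvvuPlug 𝔓 𝔈).F m ε x := pvvu_T4 hr mO hw h1 hζ hD
  rw [e, e4]
  show pvdcCV 𝔖' (pviePos ζ) z (𝔓.num.m * pvlmH m) - _ = _
  ring

end spl

end Claimed.Agent.R289
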