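-- KEEP
import Claimed.Agent.R289.Exit.TrVF
import Claimed.Agent.R289.Exit.TrVU
import Claimed.Agent.R289.Exit.ThickLT
import Claimed.Agent.R289.Exit.ThickLR
import Claimed.Agent.R289.Exit.ThickLX
import Claimed.Agent.R289.Exit.GdSeam

/-!
# Row 289 (S0537), THE WALL, ROAD E, file Exit/TrVA : ROOF `V`, THE ASSEMBLY OF THE CLOSED THICK PAIR      (helper142, cutter of `exit_pvyq_pair`: T13 / T16 of 24; prefix `pvyu`, `Pvyu`)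

`Exit/TrV.lean` v2 (283): (7) `V` from `PvyqPlug.Ok 𝔲 D 𝔓 q p3 L m0`.      HERE: `PvyqPlug.Ok` AT THE OBJECTS OF RECORD
      `D := pvjtDat 𝔓 𝔈 𝔯 pvilV L q q'` (223, `Exit/ThickL`),      `𝔲 := pvvuPlug 𝔓 𝔈` (61, `Exit/TrVU`),      constants `(q * q', b0, L)`,
from   `PvjtWf` (contract of `thick`)   +   `PvjtRecog .. pvilV pvbeWV L` ((K4) at the weight `V`)   +   **(T)** `PvyuT` = THE ONE NEW LEAF (189 85 61 246 283 195).      0 sorry.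
* sec. 1  `pvyuEx` = the experiment with the plug drawn separately, at the names of 223;   **`PvyuT`** = (T) at one candidate, one mesh: a.e. good usable base, a.e. usable plug, a.e. seed, on (soft thick link) ∩ (soft thick return): soft value `= pvyqX ω - F x`
* sec. 2  Borel / readers / atoms: `pvyu_mAe pvyu_mAf` ..;   **`pvyu_Frc`** = the leaf (FRC) at one base (`pvve_Frc` of 85: all its hypotheses but (T) PAID)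
* sec. 3  **`pvyu_at`**, **`pvyu_ok`** : `PvyqPlug.At`, `PvyqPlug.Ok` at the objects of record
* sec. 4  THE GOOD PART OF RECORD (238, T14): `pvyu_gd_rec` (`𝔊.all ⊆ pvjtGd .. pvilV qe qf`: `pvguFeV`, `pvrgFf`, transfer `pvjt_gd_of` of 223 / 7);   **`pvyu_pair_rec`** = THE CONCLUSION OF `exit_pvyq_pair` and **`pvyu_V_rec`** = (7) `Nonempty (PvnaVL 𝔓 𝔓.m0 𝔊.all)`
          from `PvjtWf` + `PvjtRecog` at `V` + `PvguRec` + (T)      (mirror of `pvjt_thick_rec` of 223: SAME contracts, one more leaf)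
-/

set_option autoImplicit false

namespace Claimed.Agent.R289

open Set MeasureTheory Filter Topology Claims.C0465
open scoped ENNReal

/-! ## 1. (T) -/

section defs

variable {τ : Type} {c : ℝ} (𝔓 : PvxPar τ c) (𝔈 : PvieEng τ) (𝔯 : PvjtRet τ)

/-- the experiment of the closed thick pair at the base data `i`, base `ω`, plug `x` (reference frame), seed `p` -/
noncomputable def pvyuEx (m : ℕ) (ε : ℝ) (z : ℂ) (t : τ) (i : PvjtIx) (ω x : Conf PvPt) (p : (ℂ → Bool) × Conf PvPt) : Conf PvPt :=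
  pvjtR 𝔓 𝔈 𝔯 m z t (some i) ω (pvyqEmb ((pvvuPlug 𝔓 𝔈).O m ε z t) ((pvvuPlug 𝔓 𝔈).θ m ε z t) x p)

/-- **(T) TELE AT ONE CANDIDATE, ONE MESH**: at a.e. good usable base `ω` (base data `i`), a.e. usable plug `x`, a.e. seed `p`: if the two SOFT thick links succeed, the SOFT `V`-value of the thick link is
(cut point of `t` in `ω`, relative to the centre of the reference plug) `-` (cut point of the plug `x`) -/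
def PvyuT (q q' : ℝ≥0∞) (m : ℕ) (ε : ℝ) (z : ℂ) (t : τ) : Prop :=
  ∀ᵐ ω ∂pvP ε, ω ∈ pvConf '' pvxU 𝔓 m z t → ω ∈ pvjtGd 𝔓 𝔈 𝔯 pvilV q q' m ε z t → ∀ i, pvjtBeta 𝔓 m z t ω = some i → ∀ᵐ x ∂pvP ε, x ∈ 𝔈.rG m ε → ∀ᵐ p ∂pvdyNu ε,
    pvyuEx 𝔓 𝔈 𝔯 m ε z t i ω x p ∈ pvjtAe 𝔓 𝔈 pvilV m ε z t i.1.1 → pvyuEx 𝔓 𝔈 𝔯 m ε z t i ω x p ∈ pvjtAf 𝔓 𝔈 𝔯 m ε z t i.2.1 →
      pvjtX 𝔓 𝔈 pvilV m ε z t (some i) (pvyuEx 𝔓 𝔈 𝔯 m ε z t i ω x p) = pvyqX 𝔓 m z t ω - (pvvuPlug 𝔓 𝔈).F m ε x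

theorem pvyu_eqns_cite : True := by
  have := @pvyuEx.eq_1; have := @PvyuT.eq_1
  trivial

end defs

/-! ## 2. (FRC) at one base -/

section frc

variable {τ : Type} {c : ℝ} {𝔓 : PvxPar τ c} {𝔈 : PvieEng τ} {𝔯 : PvjtRet τ} {L : ℝ} {b0 q q' : ℝ≥0∞} {m : ℕ} {ε : ℝ} {z : ℂ} {t : τ}

/-- the soft success of the thick link is Borel -/
theorem pvyu_mAe (H : PvjtWf 𝔓 𝔈 𝔯 L b0) (wt : ∀ η : Conf PvPt, (delbPl (pvieY η)).Dart → ℂ) (m : ℕ) (ε : ℝ) (z : ℂ) (t : τ) (Z : Set (ℤ × ℤ)) : MeasurableSet (pvjtAe 𝔓 𝔈 wt m ε z t Z) := by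
  haveI := (pv_isPpp ε).prob
  exact pvks_fin_measurable Z (pvsu_sure_measurable ((pvjk_mWne H m z t Z).prod MeasurableSet.univ) _)

/-- the soft success of the thick return is Borel -/
theorem pvyu_mAf (H : PvjtWf 𝔓 𝔈 𝔯 L b0) (m : ℕ) (ε : ℝ) (z : ℂ) (t : τ) (Z : Set (ℤ × ℤ)) : MeasurableSet (pvjtAf 𝔓 𝔈 𝔯 m ε z t Z) := by
  haveI := (pv_isPpp ε).prob
  exact pvks_fin_measurable Z (pvsu_sure_measurable ((pvjk_mWnf H m z t Z).prod MeasurableSet.univ) _)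

/-- the experiment of the record of 283 at the datum of 223, at a base with base data `i` -/
theorem pvyu_ex_eq {ω : Conf PvPt} {i : PvjtIx} (hi : pvjtBeta 𝔓 m z t ω = some i) (x : Conf PvPt) (p : (ℂ → Bool) × Conf PvPt) :
    (pvvuPlug 𝔓 𝔈).ex (pvjtDat 𝔓 𝔈 𝔯 pvilV L q q') m ε z t ω x p = pvyuEx 𝔓 𝔈 𝔯 m ε z t i ω x p := by
  show pvdyR (pvjtC 𝔓 𝔈 𝔯 m z t) (fun _ => pvjtY 𝔈 𝔯 m z t (pvjtBeta 𝔓 m z t ω)) ω _ = pvdyR (pvjtC 𝔓 𝔈 𝔯 m z t) (fun _ => pvjtY 𝔈 𝔯 m z t (some i)) ω _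
  rw [hi]

/-- **THE LEAF (FRC) AT ONE BASE**, from the contract of `thick`, the good set of `thick` and (T) at that base -/
theorem pvyu_Frc (H : PvjtWf 𝔓 𝔈 𝔯 L b0) (hε : 0 < ε) {ω : Conf PvPt} (hLF : PvLF ω) {i : PvjtIx} (hi : pvjtBeta 𝔓 m z t ω = some i) (hG : ω ∈ pvjtGd 𝔓 𝔈 𝔯 pvilV q q' m ε z t)
    (hT : ∀ᵐ x ∂pvP ε, x ∈ 𝔈.rG m ε → ∀ᵐ p ∂pvdyNu ε,
      pvyuEx 𝔓 𝔈 𝔯 m ε z t i ω x p ∈ pvjtAe 𝔓 𝔈 pvilV m ε z t i.1.1 → pvyuEx 𝔓 𝔈 𝔯 m ε z t i ω x p ∈ pvjtAf 𝔓 𝔈 𝔯 m ε z t i.2.1 →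
        pvjtX 𝔓 𝔈 pvilV m ε z t (some i) (pvyuEx 𝔓 𝔈 𝔯 m ε z t i ω x p) = pvyqX 𝔓 m z t ω - (pvvuPlug 𝔓 𝔈).F m ε x) :
    (pvvuPlug 𝔓 𝔈).Frc (pvjtDat 𝔓 𝔈 𝔯 pvilV L q q') 𝔓 (q * q') m ε z t ω := by
  obtain ⟨hl, -, -⟩ := pvjt_beta_inv hi
  have hd := H.disj m t hl
  simp only [List.pairwise_cons, List.mem_cons, List.not_mem_nil, or_false, forall_eq_or_imp, forall_eq] at hd
  have hOs := pvvu_O_sub (𝔓 := 𝔓) (𝔈 := 𝔈) 𝔯 pvilV L q q' m ε z t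
  have hGu := pvvu_Gu (𝔓 := 𝔓) (D := pvjtDat 𝔓 𝔈 𝔯 pvilV L q q') (z := z) (t := t) (H.rG_reads m ε) hOs ω
  have eβ : (pvjtDat 𝔓 𝔈 𝔯 pvilV L q q').β m ε z t ω = some i := hi
  refine pvve_Frc (eK := pvieSh z (𝔈.eK m t)) (ye := pvjtYe 𝔈 m z t i) (fK := pvieSh z (𝔯.fK m t)) (yf := pvjtYf 𝔯 m z t i) (We := pvilWne 𝔓 𝔈 m z t i.1.1)
    (Ae := pvjtAe 𝔓 𝔈 pvilV m ε z t i.1.1) (Af := pvjtAf 𝔓 𝔈 𝔯 m ε z t i.2.1) (Gu := pvjtGu 𝔓 𝔈 m ε z t) hε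
    (((pvjt_sh_meas z (H.m_eK m t)).union (pvjt_sh_meas _ (H.m_rO m))).union (pvjt_sh_meas z (H.m_fK m t))) (pvvu_mO 𝔓 𝔈 (H.m_rO m) ε z t)
    (pvjt_sh_meas z (H.m_eK m t)) (pvjt_sh_meas z (H.m_fK m t)) (pvvu_mθ 𝔓 𝔈 m ε z t) (pvvu_law 𝔓 𝔈 m ε z t) (pvdy_countable_of_LF hLF)
    (pvyu_mAe H pvilV m ε z t _) (pvyu_mAf H m ε z t _) (pvks_Ee_A_reads 𝔓 𝔈 m ε pvilV z t i.1.1 ∅) (pvjt_d1 H hl z _) (pvjt_d2 H hi)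
    (fun _ h => Or.inl (Or.inl h)) ?_ ?_ (fun _ h => Or.inr h) ?_ ?_ ?_ ?_ hGu ?_ ?_
  · rw [eβ]; exact subset_union_left
  · rintro w hw ((h | h) | h)
    · exact h
    · rw [pvkt_jt_Ro] at h
      exact absurd h (disjoint_left.1 (pvkt_sh_disjoint z hd.1.2.2.2) hw.1)
    · exact absurd h (disjoint_left.1 (pvkt_sh_disjoint z hd.1.2.2.1) hw.1)
  · rw [eβ]; exact subset_union_right
  · rintro w hw ((h | h) | h)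
    · exact absurd h (disjoint_left.1 (pvkt_sh_disjoint z hd.2.1.1.symm) hw.1)
    · rw [pvkt_jt_Ro] at h
      exact absurd h (disjoint_left.1 (pvkt_sh_disjoint z hd.2.2.1.2) hw.1)
    · exact h
  · show Disjoint (pvieSh (pvieZu 𝔓 m z t) (𝔈.rO m)) _
    rw [pvkt_jt_Ro]
    exact pvkt_sh_disjoint z hd.2.1.2.2.symm
  · show Disjoint (pvieSh (pvieZu 𝔓 m z t) (𝔈.rO m)) _
    rw [pvkt_jt_Ro]
    exact pvkt_sh_disjoint z hd.2.2.2.1.symm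
  · have h5 := hG.2 i hi
    have eR : (pvjtDat 𝔓 𝔈 𝔯 pvilV L q q').R m ε z t ω = pvjtR 𝔓 𝔈 𝔯 m z t (some i) ω := by
      show pvdyR (pvjtC 𝔓 𝔈 𝔯 m z t) (fun _ => pvjtY 𝔈 𝔯 m z t (pvjtBeta 𝔓 m z t ω)) ω = _
      rw [hi]; rfl
    rw [eR]
    exact h5
  · filter_upwards [hT] with x hx hxG
    filter_upwards [hx hxG] with p hp hAe hAf
    have hgu := hGu x hxG p
    rw [pvyu_ex_eq hi] at hAe hAf hgu ⊢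
    rw [eβ]
    exact ⟨⟨⟨hl, pvjt_gi H hi⟩, hgu, hAe⟩, hAf, hp hAe hAf⟩

end frc

/-! ## 3. the leaves of `V` at the objects of record -/

section ok

variable {τ : Type} {c : ℝ} {𝔓 : PvxPar τ c} {𝔈 : PvieEng τ} {𝔯 : PvjtRet τ} {L : ℝ} {b0 q q' : ℝ≥0∞}

/-- **THE LEAVES OF 283 AT ONE CANDIDATE, ONE MESH** -/
theorem pvyu_at (H : PvjtWf 𝔓 𝔈 𝔯 L b0) {m : ℕ} {ε : ℝ} (hε : 0 < ε) (z : ℂ) (t : τ) (hR : pvjtLv 𝔓 m t → PvjtRecAt 𝔓 𝔈 𝔯 pvilV pvbeWV L m ε z t) (hT : pvjtLv 𝔓 m t → PvyuT 𝔓 𝔈 𝔯 q q' m ε z t) :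
    (pvvuPlug 𝔓 𝔈).At (pvjtDat 𝔓 𝔈 𝔯 pvilV L q q') 𝔓 (q * q') m ε z t where
  mC := ((pvjt_sh_meas z (H.m_eK m t)).union (pvjt_sh_meas _ (H.m_rO m))).union (pvjt_sh_meas z (H.m_fK m t))
  stop := exit_pvjt_stop H m ε z t
  recog := by
    by_cases hl : pvjtLv 𝔓 m t
    · filter_upwards [hR hl] with η hη i hA hA'
      cases i with
      | none => exact absurd hA (notMem_empty η)
      | some i => exact hη i hA hA'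
    · refine ae_of_all _ fun η i hA _ => ?_
      cases i with
      | none => exact absurd hA (notMem_empty η)
      | some i => exact absurd hA.1.1 hl
  mO := pvvu_mO 𝔓 𝔈 (H.m_rO m) ε z t
  mθ := pvvu_mθ 𝔓 𝔈 m ε z t
  law := pvvu_law 𝔓 𝔈 m ε z t
  frc := by
    by_cases hl : pvjtLv 𝔓 m t
    · filter_upwards [hT hl, pvcn_LF_ae ε] with ω h1 hLF hω
      obtain ⟨i, hi⟩ := pvjt_B_some hω
      exact pvyu_Frc H hε hLF hi hω.2 (h1 hω.1 hω.2 i hi)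
    · exact ae_of_all _ fun ω hω => absurd hω.2.1 hl

/-- **THE LEAVES OF `cV_L2` AT THE OBJECTS OF RECORD** -/
theorem pvyu_ok (H : PvjtWf 𝔓 𝔈 𝔯 L b0) (hR : PvjtRecog 𝔓 𝔈 𝔯 pvilV pvbeWV L) (hq : q ≠ 0) (hqt : q ≠ ∞) (hq0 : q' ≠ 0) (hq't : q' ≠ ∞)
    (hT : ∀ (m : ℕ) (p : ℤ × ℤ) (t : τ), pvjtLv 𝔓 m t → ∀ᶠ ε in 𝓝[>] (0 : ℝ), PvyuT 𝔓 𝔈 𝔯 q q' m ε (l9Pt (pvlmH m) p) t) :
    (pvvuPlug 𝔓 𝔈).Ok (pvjtDat 𝔓 𝔈 𝔯 pvilV L q q') 𝔓 (q * q') b0 L 𝔓.m0 where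
  q0 := mul_ne_zero hq hq0
  qt := ENNReal.mul_ne_top hqt hq't
  p0 := H.b00
  mM := fun m _ z t => pvjt_sh_meas z ((H.m_Mk m t).inter Metric.isClosed_closedBall.measurableSet)
  sub := by
    rintro m - z t _ ⟨w, hw, rfl⟩
    have := hw.2
    rw [mem_closedBall_zero_iff] at this
    rw [Metric.mem_closedBall, dist_eq_norm]
    simpa using this
  adm := fun m hm => pvvu_adm H m hm
  ev := by
    intro m _ p t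
    by_cases hl : pvjtLv 𝔓 m t
    · filter_upwards [self_mem_nhdsWithin, hR m p t hl, hT m p t hl] with ε hε h2 h3
      exact pvyu_at H hε _ t (fun _ => h2) fun _ => h3
    · filter_upwards [self_mem_nhdsWithin] with ε hε
      exact pvyu_at H hε _ t (fun h => absurd h hl) fun h => absurd h hl

end ok

/-! ## 4. the good part of record -/

section record

variable {τ : Type} {c : ℝ} {𝔓 : PvxPar τ c} {𝔈 : PvieEng τ} {Mk : ℕ → τ → Set ℂ} {L : ℝ} {b0 : ℝ≥0∞}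

/-- **THE GOOD PART OF RECORD (238) LIES IN THE GOOD SET OF THE CLOSED THICK PAIR AT THE WEIGHT `V`** -/
theorem pvyu_gd_rec (H : PvjtWf 𝔓 𝔈 (pvjtRetE 𝔈 Mk) L b0) {q : ℕ → ℝ≥0∞} {qe qf : ℝ≥0∞} {m : ℕ} {t : τ} (hl : pvjtLv 𝔓 m t) (ε : ℝ) (z : ℂ) :
    (pvguGd 𝔓 𝔈 q qe qf).all m ε z t ⊆ pvConf ⁻¹' pvjtGd 𝔓 𝔈 (pvjtRetE 𝔈 Mk) pvilV qe qf m ε z t :=
  fun _ hω => pvjt_gd_of H hl (pvgu_mem_FeV.1 (pvgu_all_FeV hω)) (pvgu_mem_Ff.1 (pvgu_all_Ff hω))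

/-- **THE CONCLUSION OF `exit_pvyq_pair`** (283, `Exit/TrV.lean`) from the two contracts of `thick` (the second one at the weight `V`), the good part of record and (T) -/
theorem pvyu_pair_rec (hTy : ∀ t, pviwTyOk 𝔓 t) (H : PvjtWf 𝔓 𝔈 (pvjtRetE 𝔈 Mk) L b0) (hR : PvjtRecog 𝔓 𝔈 (pvjtRetE 𝔈 Mk) pvilV pvbeWV L) {𝔊 : PvnaGd τ} (hG : PvguRec 𝔓 𝔈 𝔊)
    (hT : ∀ q q' : ℝ≥0∞, q ≠ 0 → q' ≠ 0 → ∀ (m : ℕ) (p : ℤ × ℤ) (t : τ), pvjtLv 𝔓 m t → ∀ᶠ ε in 𝓝[>] (0 : ℝ), PvyuT 𝔓 𝔈 (pvjtRetE 𝔈 Mk) q q' m ε (l9Pt (pvlmH m) p) t) :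
    ∃ (𝔲 : PvyqPlug τ) (D : PvekDat τ) (q p3 : ℝ≥0∞) (L : ℝ), 𝔲.Ok D 𝔓 q p3 L 𝔓.m0 ∧ ∀ m ε z t, 𝔊.all m ε z t ⊆ pvConf ⁻¹' D.Gd m ε z t := by
  obtain ⟨q, qe, qf, -, he, hf, rfl⟩ := hG
  have he1 : min qe 1 ≠ 0 := by simp [he]
  have hf1 : min qf 1 ≠ 0 := by simp [hf]
  refine pvgx_V (pvyu_ok H hR he1 (ne_top_of_le_ne_top ENNReal.one_ne_top (min_le_right _ _)) hf1 (ne_top_of_le_ne_top ENNReal.one_ne_top (min_le_right _ _)) (hT _ _ he1 hf1))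
    fun m hm ε z t ω _ hω => ?_
  exact pvjt_gd_anti (min_le_left _ _) (min_le_left _ _) (pvyu_gd_rec H ⟨hm, hTy t⟩ ε z hω)

/-- **(7) `V`** from the same hypotheses -/
theorem pvyu_V_rec (hW : 𝔓.Wf) (hb : ∀ t, (𝔓.ty t).b ≤ (𝔓.ty t).b2) (hTy : ∀ t, pviwTyOk 𝔓 t) (H : PvjtWf 𝔓 𝔈 (pvjtRetE 𝔈 Mk) L b0) (hR : PvjtRecog 𝔓 𝔈 (pvjtRetE 𝔈 Mk) pvilV pvbeWV L)
    {𝔊 : PvnaGd τ} (hG : PvguRec 𝔓 𝔈 𝔊)
    (hT : ∀ q q' : ℝ≥0∞, q ≠ 0 → q' ≠ 0 → ∀ (m : ℕ) (p : ℤ × ℤ) (t : τ), pvjtLv 𝔓 m t → ∀ᶠ ε in 𝓝[>] (0 : ℝ), PvyuT 𝔓 𝔈 (pvjtRetE 𝔈 Mk) q q' m ε (l9Pt (pvlmH m) p) t) :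
    Nonempty (PvnaVL 𝔓 𝔓.m0 𝔊.all) := by
  obtain ⟨𝔲, D, q, p3, L', hOk, hsub⟩ := pvyu_pair_rec hTy H hR hG hT
  exact ⟨hOk.toVL hW hb hsub⟩

end record

end Claimed.Agent.R289
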