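-- KEEP
import Claimed.Agent.R289.Exit.TrV
import Claimed.Agent.R289.Exit.ThickL
import Claimed.Agent.R289.Tr.GenP
import Claimed.Agent.R289.Tr.TeleV

/-!
# Row 289 (S0537), THE WALL, ROAD E, Exit/TrVC : (T) TELE = THE HYPOTHESIS `hT` OF `pvve_Frc` (85) AT THE DATUM `pvjtDat 𝔓 𝔈 𝔯 pvilV L q q'` OF 223      (helper189; prefix `pvyv`, `Pvyv`)

(T): at a.e. base `ω` with base data `i = ((Z, F), (Z', F'))`, a.e. usable plug `x`, a.e. seed `p`, `ex = D.R ω (pvyqEmb O θ x p)`:   `ex ∈ Ae Z → D.Y i ex = pvyqX 𝔓 m z t ω - 𝔲.F m ε x`.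
ROUTE (no `soft ⟹ plain` AT `ex`, no named set in `Gd`, the base stays `pvP`-a.e.):
* (T1) `Tr/GenP` (`pvyv_soft`): `Ae Z = Sure_Wn (Me Z ∩ {X = Loc})`, `D.Y i = Loc_Wn`: there is ONE completion `ζ = Conf.spl (Wne Z ×ˢ univ) (ex, ξ)` with `ζ ∈ pvilMe Z`, `Le.X ζ = D.Y i ex`, `Nice ζ`.      HERE: `pvyv_T1` at the thick link, `[MEAS]` = `PvyvMeas` (107 247 289).
* then everything is DETERMINISTIC AT `ζ` (`ζ = ex` on the window, sites and colours): `PvyvTele`, produced by **`pvyv_tele_of`** from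
      (H2) `PvvfLk` at `pvilLe` (85 `Tr/TeleV`, 195),   (H3) the cut point of `t` is not moved (85 window form, 283 `Tr/CutFix`),   (H4) the cut point of the door `u` is `zu + F x` (61 `pvvu_cut`, 246 `pviq_T4`).
* **`pvyv_T_val`** (the value), **`pvyv_T`** = `hT` of `pvve_Frc` verbatim.
-/

set_option autoImplicit false

namespace Claimed.Agent.R289

open MeasureTheory Filter Topology Set Claims.C0465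
open scoped ENNReal

section T

variable {τ : Type} {c : ℝ} (𝔓 : PvxPar τ c) (𝔈 : PvieEng τ) (wt : ∀ η : Conf PvPt, (delbPl (pvieY η)).Dart → ℂ)

/-- **[MEAS] OF THE THICK LINK**: the event under `pvilSA` is null measurable, at every finite hull -/
def PvyvMeas (m : ℕ) (ε : ℝ) (z : ℂ) (t : τ) : Prop :=
  ∀ Z : Set (ℤ × ℤ), Z.Finite → NullMeasurableSet (pvilMe 𝔓 𝔈 m z t Z ∩
    {η | (pvilLe 𝔓 𝔈 m z t).X 𝔓.num (𝔓.col t) wt η = pvilLoc ε (pvilWne 𝔓 𝔈 m z t Z) (pvilMe 𝔓 𝔈 m z t Z) ((pvilLe 𝔓 𝔈 m z t).X 𝔓.num (𝔓.col t) wt) η}) (pvP ε)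

/-- the dropped region of the thick link: the part of the region of the reference plug BEHIND the line through its centre -/
def pvyvW (m : ℕ) (z : ℂ) (t : τ) : Set ℂ := pvieSh (pvieZu 𝔓 m z t) (𝔈.rO m) \ pvilHp (pvieZu 𝔓 m z t) 1

/-- **(T) AT THE COMPLETIONS OF `η` OFF THE WINDOW** (deterministic): `a` = the relative cut point of `t` in the base minus the cut point of the plug -/
def PvyvTele (Nice : Conf PvPt → Prop) (m : ℕ) (z : ℂ) (t : τ) (Z : Set (ℤ × ℤ)) (η : Conf PvPt) (a : ℂ) : Prop :=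
  ∀ ζ, ζ ∈ pvilMe 𝔓 𝔈 m z t Z → Nice ζ → Conf.restr (pvilWne 𝔓 𝔈 m z t Z ×ˢ univ) ζ = Conf.restr (pvilWne 𝔓 𝔈 m z t Z ×ˢ univ) η →
    (pvilLe 𝔓 𝔈 m z t).X 𝔓.num (𝔓.col t) wt ζ = a

theorem pvyv_eqns_cite : True := by
  have := @PvyvMeas.eq_1; have := @pvyvW.eq_1; have := @PvyvTele.eq_1
  trivial

variable {𝔓 𝔈 wt}

/-- **(T1) AT THE THICK LINK**: a.e. base, EVERY choice of the recoloured sites, a.e. seed, every hull -/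
theorem pvyv_T1 {ε : ℝ} (hε : 0 < ε) {C : Set ℂ} (hC : MeasurableSet C) {m : ℕ} {z : ℂ} {t : τ} (hWm : ∀ Z : Set (ℤ × ℤ), Z.Finite → MeasurableSet (pvilWne 𝔓 𝔈 m z t Z))
    (hWb : ∀ Z : Set (ℤ × ℤ), Z.Finite → Bornology.IsBounded (pvilWne 𝔓 𝔈 m z t Z)) (hM : PvyvMeas 𝔓 𝔈 wt m ε z t) {Nice : Conf PvPt → Prop} (hN : ∀ᵐ η ∂pvP ε, Nice η) :
    ∀ᵐ ω ∂pvP ε, ∀ yf : Conf PvPt → Set ℂ, ∀ᵐ q ∂pvdyNu ε, ∀ Z, pvdyR C yf ω q ∈ pvjtAe 𝔓 𝔈 wt m ε z t Z →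
      ∃ ξ, Conf.spl (pvilWne 𝔓 𝔈 m z t Z ×ˢ univ) (pvdyR C yf ω q, ξ) ∈ pvilMe 𝔓 𝔈 m z t Z ∧
        (pvilLe 𝔓 𝔈 m z t).X 𝔓.num (𝔓.col t) wt (Conf.spl (pvilWne 𝔓 𝔈 m z t Z ×ˢ univ) (pvdyR C yf ω q, ξ))
          = pvilLoc ε (pvilWne 𝔓 𝔈 m z t Z) (pvilMe 𝔓 𝔈 m z t Z) ((pvilLe 𝔓 𝔈 m z t).X 𝔓.num (𝔓.col t) wt) (pvdyR C yf ω q) ∧
        Nice (Conf.spl (pvilWne 𝔓 𝔈 m z t Z ×ˢ univ) (pvdyR C yf ω q, ξ)) := by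
  have h := pvyv_soft hε (ι := Finset (ℤ × ℤ)) hC (Ws := fun k => pvilWne 𝔓 𝔈 m z t (k : Set (ℤ × ℤ))) (fun k => hWm _ k.finite_toSet) (fun k => hWb _ k.finite_toSet)
    (M := fun k => pvilMe 𝔓 𝔈 m z t (k : Set (ℤ × ℤ))) (F := fun _ => (pvilLe 𝔓 𝔈 m z t).X 𝔓.num (𝔓.col t) wt) (fun k => hM _ k.finite_toSet) hN
  filter_upwards [h] with ω h1 yf
  filter_upwards [h1 yf] with q h2 Z hZ
  have hZ' : pvdyR C yf ω q ∈ pvilFin Z (pvilSA ε (pvilWne 𝔓 𝔈 m z t Z) (pvilMe 𝔓 𝔈 m z t Z) ((pvilLe 𝔓 𝔈 m z t).X 𝔓.num (𝔓.col t) wt)) := hZ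
  unfold pvilFin at hZ'
  by_cases hf : Z.Finite
  · rw [if_pos hf] at hZ'
    have e : ((hf.toFinset : Finset (ℤ × ℤ)) : Set (ℤ × ℤ)) = Z := hf.coe_toFinset
    have h3 := h2 hf.toFinset
    simp only [e] at h3
    exact h3 hZ'
  · rw [if_neg hf] at hZ'
    exact absurd hZ' (notMem_empty _)

/-- **(T): THE VALUE**, along `ex = pvdyR C (fun _ => y) ω (pvyqEmb O θ x p)`:   the soft value of the thick link is the number given by the deterministic half at the completions -/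
theorem pvyv_T_val {ε : ℝ} (hε : 0 < ε) {C O : Set ℂ} (hC : MeasurableSet C) (hO : MeasurableSet O) {θ : Conf PvPt → Conf PvPt} (mθ : Measurable θ) (hθ : (pvP ε).map θ = pvP ε)
    {m : ℕ} {z : ℂ} {t : τ} (hWm : ∀ Z : Set (ℤ × ℤ), Z.Finite → MeasurableSet (pvilWne 𝔓 𝔈 m z t Z))
    (hWb : ∀ Z : Set (ℤ × ℤ), Z.Finite → Bornology.IsBounded (pvilWne 𝔓 𝔈 m z t Z)) (hM : PvyvMeas 𝔓 𝔈 wt m ε z t) {Nice : Conf PvPt → Prop} (hN : ∀ᵐ η ∂pvP ε, Nice η) :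
    ∀ᵐ ω ∂pvP ε, ∀ y : Set ℂ, ∀ᵐ x ∂pvP ε, ∀ᵐ p ∂pvdyNu ε, ∀ (i : PvjtIx) (a : ℂ), pvdyR C (fun _ => y) ω (pvyqEmb O θ x p) ∈ pvjtAe 𝔓 𝔈 wt m ε z t i.1.1 →
      PvyvTele 𝔓 𝔈 wt Nice m z t i.1.1 (pvdyR C (fun _ => y) ω (pvyqEmb O θ x p)) a → pvjtX 𝔓 𝔈 wt m ε z t (some i) (pvdyR C (fun _ => y) ω (pvyqEmb O θ x p)) = a := by
  filter_upwards [pvyv_T1 hε hC hWm hWb hM hN] with ω h1 y
  filter_upwards [pvyq_emb_ae ε hO mθ hθ (h1 fun _ => y)] with x h2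
  filter_upwards [h2] with p h3 i a hA hT
  obtain ⟨ξ, b1, b2, b3⟩ := h3 i.1.1 hA
  have e := hT _ b1 b3 (Conf.restr_spl _ _)
  rw [← e, b2]
  rfl

end T

/-! ## the deterministic half from the three leaves -/

section det

variable {τ : Type} {c : ℝ} {𝔓 : PvxPar τ c} {𝔈 : PvieEng τ}

/-- **THE DETERMINISTIC HALF OF (T) FROM (H2) (H3) (H4)**, all at a completion `ζ` of `η` off the window -/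
theorem pvyv_tele_of {Nice : Conf PvPt → Prop} {m : ℕ} {z : ℂ} {t : τ} {Z : Set (ℤ × ℤ)} {η ω : Conf PvPt} {Fx : ℂ}
    (H2 : ∀ ζ, ζ ∈ pvilMe 𝔓 𝔈 m z t Z → Nice ζ → ∀ (𝔖 𝔖' : PvwSt (pvieT ζ)) (y : (pvieT ζ).Pth), (pvilLe 𝔓 𝔈 m z t).Arc 𝔓.num (𝔓.col t) ζ 𝔖 𝔖' y →
      PvvfLk (pviePos ζ) (pvyvW 𝔓 𝔈 m z t) (Metric.closedBall (𝔓.pl m z t).z (𝔓.num.m * (𝔓.pl m z t).h)) 𝔖 𝔖' y)
    (H3 : ∀ ζ, ζ ∈ pvilMe 𝔓 𝔈 m z t Z → Nice ζ → Conf.restr (pvilWne 𝔓 𝔈 m z t Z ×ˢ univ) ζ = Conf.restr (pvilWne 𝔓 𝔈 m z t Z ×ˢ univ) η →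
      ∀ 𝔖' : PvwSt (pvieT ζ), PvilIn 𝔓.num (𝔓.col t) (pvilPin 𝔓 m z t) ζ 𝔖' → pvdcCV 𝔖' (pviePos ζ) (𝔓.pl m z t).z (𝔓.num.m * (𝔓.pl m z t).h) = pvyqC 𝔓.num (𝔓.col t) (𝔓.pl m z t) ω)
    (H4 : ∀ ζ, ζ ∈ pvilMe 𝔓 𝔈 m z t Z → Nice ζ → Conf.restr (pvilWne 𝔓 𝔈 m z t Z ×ˢ univ) ζ = Conf.restr (pvilWne 𝔓 𝔈 m z t Z ×ˢ univ) η →
      ∀ 𝔖 : PvwSt (pvieT ζ), PvilDoor (pvkdP (pvilRu 𝔈 m)) (𝔓.col t) ζ (pvieZu 𝔓 m z t) 1 𝔖 → pvvfCut 𝔖 (pviePos ζ) (pvyvW 𝔓 𝔈 m z t) = pvieZu 𝔓 m z t + Fx) :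
    PvyvTele 𝔓 𝔈 pvilV Nice m z t Z η (pvyqX 𝔓 m z t ω - Fx) := by
  intro ζ hζ hn hr
  have hex : ∃ (𝔖 𝔖' : PvwSt (pvieT ζ)) (y : (pvieT ζ).Pth), (pvilLe 𝔓 𝔈 m z t).Arc 𝔓.num (𝔓.col t) ζ 𝔖 𝔖' y := hζ.1.1
  unfold PvilLk.X
  rw [dif_pos hex]
  have hArc := hex.choose_spec.choose_spec.choose_spec
  have e1 := pvvf_val (L := pvilLe 𝔓 𝔈 m z t) rfl rfl (W := pvyvW 𝔓 𝔈 m z t) rfl 𝔓.num (H2 ζ hζ hn _ _ _ hArc)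
  rw [e1]
  have e3 := H3 ζ hζ hn hr _ ((PvilLk.atP'_pin (L := pvilLe 𝔓 𝔈 m z t) rfl _ _ _ _).1 hArc.at_p')
  have e4 := H4 ζ hζ hn hr _ ((PvilLk.atP_door (L := pvilLe 𝔓 𝔈 m z t) rfl _ _ _ _).1 hArc.at_p)
  have e3' : pvdcCV hex.choose_spec.choose (pviePos ζ) (pvilLe 𝔓 𝔈 m z t).p'.z (𝔓.num.m * (pvilLe 𝔓 𝔈 m z t).p'.h) = pvyqC 𝔓.num (𝔓.col t) (𝔓.pl m z t) ω := e3
  rw [e3', e4]
  unfold pvyqX pvieZu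
  ring

end det

/-! ## `hT` of `pvve_Frc`, verbatim, at the datum of 223 -/

section hT

variable {τ : Type} {c : ℝ} {𝔓 : PvxPar τ c} {𝔈 : PvieEng τ} {𝔯 : PvjtRet τ}

/-- **(T) = `hT` OF `pvve_Frc` (85) VERBATIM** at `D := pvjtDat 𝔓 𝔈 𝔯 pvilV L q q'`, `Ae := pvjtAe .. i.1.1`, `Af := pvjtAf .. i.2.1`, ANY plug `𝔲`, at a.e. base;   the deterministic half enters at a.e. usable plug, a.e. seed -/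
theorem pvyv_T (𝔲 : PvyqPlug τ) (L : ℝ) (q q' : ℝ≥0∞) {ε : ℝ} (hε : 0 < ε) {m : ℕ} {z : ℂ} {t : τ} (hC : MeasurableSet (pvjtC 𝔓 𝔈 𝔯 m z t)) (hO : MeasurableSet (𝔲.O m ε z t))
    (mθ : Measurable (𝔲.θ m ε z t)) (hθ : (pvP ε).map (𝔲.θ m ε z t) = pvP ε) (hWm : ∀ Z : Set (ℤ × ℤ), Z.Finite → MeasurableSet (pvilWne 𝔓 𝔈 m z t Z))
    (hWb : ∀ Z : Set (ℤ × ℤ), Z.Finite → Bornology.IsBounded (pvilWne 𝔓 𝔈 m z t Z)) (hM : PvyvMeas 𝔓 𝔈 pvilV m ε z t) {Nice : Conf PvPt → Prop} (hN : ∀ᵐ η ∂pvP ε, Nice η)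
    (hGi : ∀ (ω : Conf PvPt) (i : PvjtIx), pvjtBeta 𝔓 m z t ω = some i → pvjtGi 𝔓 m z t i) :
    ∀ᵐ ω ∂pvP ε, ∀ i : PvjtIx, pvjtBeta 𝔓 m z t ω = some i →
      (∀ᵐ x ∂pvP ε, x ∈ 𝔲.G m ε → ∀ᵐ p ∂pvdyNu ε, 𝔲.ex (pvjtDat 𝔓 𝔈 𝔯 pvilV L q q') m ε z t ω x p ∈ pvjtGu 𝔓 𝔈 m ε z t ∧
        PvyvTele 𝔓 𝔈 pvilV Nice m z t i.1.1 (𝔲.ex (pvjtDat 𝔓 𝔈 𝔯 pvilV L q q') m ε z t ω x p) (pvyqX 𝔓 m z t ω - 𝔲.F m ε x)) →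
      ∀ᵐ x ∂pvP ε, x ∈ 𝔲.G m ε → ∀ᵐ p ∂pvdyNu ε, 𝔲.ex (pvjtDat 𝔓 𝔈 𝔯 pvilV L q q') m ε z t ω x p ∈ pvjtAe 𝔓 𝔈 pvilV m ε z t i.1.1 →
        𝔲.ex (pvjtDat 𝔓 𝔈 𝔯 pvilV L q q') m ε z t ω x p ∈ pvjtAf 𝔓 𝔈 𝔯 m ε z t i.2.1 →
        𝔲.ex (pvjtDat 𝔓 𝔈 𝔯 pvilV L q q') m ε z t ω x p ∈ (pvjtDat 𝔓 𝔈 𝔯 pvilV L q q').A m ε z t ((pvjtDat 𝔓 𝔈 𝔯 pvilV L q q').β m ε z t ω) ∧
        𝔲.ex (pvjtDat 𝔓 𝔈 𝔯 pvilV L q q') m ε z t ω x p ∈ (pvjtDat 𝔓 𝔈 𝔯 pvilV L q q').A' m ε z t ((pvjtDat 𝔓 𝔈 𝔯 pvilV L q q').β m ε z t ω) ∧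
        (pvjtDat 𝔓 𝔈 𝔯 pvilV L q q').Y m ε z t ((pvjtDat 𝔓 𝔈 𝔯 pvilV L q q').β m ε z t ω) (𝔲.ex (pvjtDat 𝔓 𝔈 𝔯 pvilV L q q') m ε z t ω x p) = pvyqX 𝔓 m z t ω - 𝔲.F m ε x := by
  filter_upwards [pvyv_T_val (wt := pvilV) hε hC hO mθ hθ hWm hWb hM hN] with ω h1 i hi hdet
  have eβ : (pvjtDat 𝔓 𝔈 𝔯 pvilV L q q').β m ε z t ω = some i := hi
  have eex : ∀ x p, 𝔲.ex (pvjtDat 𝔓 𝔈 𝔯 pvilV L q q') m ε z t ω x p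
      = pvdyR (pvjtC 𝔓 𝔈 𝔯 m z t) (fun _ => pvjtY 𝔈 𝔯 m z t (some i)) ω (pvyqEmb (𝔲.O m ε z t) (𝔲.θ m ε z t) x p) := fun x p => by
    unfold PvyqPlug.ex PvekDat.R
    rw [eβ]
    rfl
  rw [eβ]
  filter_upwards [h1 (pvjtY 𝔈 𝔯 m z t (some i)), hdet] with x a b hx
  filter_upwards [a, b hx] with p a' b' hAe hAf
  refine ⟨⟨⟨(pvjt_beta_inv hi).1, hGi ω i hi⟩, b'.1, hAe⟩, hAf, ?_⟩
  rw [eex] at hAe b' ⊢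
  exact a' i _ hAe b'.2

end hT

end Claimed.Agent.R289
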