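-- KEEP
import Claimed.Agent.R289.Exit.TrVA
import Claimed.Agent.R289.Exit.TrVC
import Claimed.Agent.R289.Tr.CutWin
import Claimed.Agent.R289.Tr.DictL

/-!
# Row 289 (S0537), THE WALL, ROAD E, file Exit/TrVW : ROOF `V`, **(T) = `PvyuT` OF THE ASSEMBLY (142) COMPOSED** FROM (T1) 189, (T2) 85 / 195, (T3) 85, (T4) 61      (helper85, second of helper283; prefix `pvve`, `Pvve`)

0 sorry.      `Exit/TrVA` (142): `pvyu_ok : PvjtWf → PvjtRecog .. pvilV pvbeWV → (∀ m p t, pvjtLv → ∀ᶠ ε, PvyuT ..) → (pvvuPlug 𝔓 𝔈).Ok (pvjtDat ..) ..`.      HERE `PvyuT` is paid down to ONE deterministic contract, `PvveH2` = (H2) of 189 = `PvvfLk` at the thick link (195 `Tr/DictL`).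
* sec. 1  the experiment against a window: `pvve_R_sites` (the sites on a region off `C`), `pvve_R_col` (the colours at sites off `C`, off the recoloured set)
* sec. 2  **`pvve_H3`** = (H3) of `pvyv_tele_of` IN THE WORDS OF 189 at `η = pvjtR 𝔓 𝔈 𝔯 m z t (some i) ω seed`, ANY seed      [`pvvf_T3` of `Tr/CutWin`; `eK_off fK_off rO_off` (the window part `pvilWz` misses `C`), `pvjt_d2` (`F_in` misses the recoloured exit mouth)]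
* sec. 3  **`pvve_H4`** = (H4) at `η = pvyuEx ..`      [`pvvu_T4`, `pvvu_ex_restr` of 61]
* sec. 4  `PvveH2`, `PvveNum` (the numerals), **`pvve_T : PvyuT 𝔓 𝔈 𝔯 q q' m ε z t`**, **`pvve_ok`** (= `pvyu_ok` with (T) paid)
* sec. 5  (H2) PAID by `pvvd_lk` of 195 (`Tr/DictL`): `PvveReg` = ALL the region lines of the deterministic half (`PvllPin` of 74, `3 μ ≤ r`, `rp_win`, the collar (Rc) of `eY`, `PvvdReg` of 195, bounded windows), `pvve_H2_of`, `pvve_num_of`, **`pvve_T_reg`**, **`pvve_ok_reg`**: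
          `PvyqPlug.Ok` at the objects of record FROM `PvjtWf` + `PvjtRecog .. pvilV pvbeWV` + `𝔓.WfB` + `PvmlEngB 𝔈` + `PvveReg`.      NO PROBABILISTIC LEAF, NO DETERMINISTIC LEAF LEFT IN (T).
-/

set_option autoImplicit false

namespace Claimed.Agent.R289

open Set MeasureTheory Filter Topology Claims.C0465
open scoped ENNReal

/-! ## 1. the experiment against a window -/

section free

variable {C W F : Set ℂ} {yf : Conf PvPt → Set ℂ} {ω : Conf PvPt}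

/-- the sites of the experiment on a region which misses the resampled region -/
theorem pvve_R_sites (hd : Disjoint W C) (yf : Conf PvPt → Set ℂ) (ω : Conf PvPt) (p : (ℂ → Bool) × Conf PvPt) : cfSites (pvdyR C yf ω p) ∩ W = cfSites ω ∩ W := by
  rw [pvdy_sites_R]
  ext a
  constructor
  · rintro ⟨⟨h1, -⟩ | ⟨-, h1⟩, h2⟩
    · exact ⟨h1, h2⟩
    · exact absurd h1 (disjoint_left.1 hd h2)
  · rintro ⟨h1, h2⟩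
    exact ⟨Or.inl ⟨h1, disjoint_left.1 hd h2⟩, h2⟩

/-- the colours of the experiment at the sites which are neither resampled nor recoloured -/
theorem pvve_R_col (hF : F ⊆ cfSites ω) (hC : Disjoint F C) (hy : Disjoint F (yf ω)) (p : (ℂ → Bool) × Conf PvPt) : ∀ w ∈ F, cfCol (pvdyR C yf ω p) w = cfCol ω w := fun w hw => by
  rw [pvdy_cfCol_R yf p (hF hw) (disjoint_left.1 hC hw), pvfqMix_of_notMem (disjoint_left.1 hy hw)]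

end free

/-! ## 2. (H3) -/

section H3

variable {τ : Type} {c : ℝ} {𝔓 : PvxPar τ c} {𝔈 : PvieEng τ} {𝔯 : PvjtRet τ} {L : ℝ} {b0 : ℝ≥0∞} {m : ℕ} {z : ℂ} {t : τ}

/-- the window part of a half state misses the resampled region of the closed thick pair, ANY hull -/
theorem pvve_Wz_C (H : PvjtWf 𝔓 𝔈 𝔯 L b0) (hl : pvjtLv 𝔓 m t) (z : ℂ) (Z : Set (ℤ × ℤ)) : Disjoint (pvilWz 𝔓 m z t Z) (pvjtC 𝔓 𝔈 𝔯 m z t) := by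
  unfold pvjtC
  rw [pvkt_jt_Ro]
  exact ((pvza_off_Wz (H.eK_off m t hl) z Z).symm.union_right (pvza_off_Wz (H.rO_off m t hl) z Z).symm).union_right (pvza_off_Wz (H.fK_off m t hl) z Z).symm

/-- **(H3) OF 189**: the cut point of the pin read at ANY configuration `ζ ∈ pvilMe Z` which agrees with the experiment on the window of the thick link IS the cut point of record of the base -/
theorem pvve_H3 (H : PvjtWf 𝔓 𝔈 𝔯 L b0) (hρ : 0 < 𝔓.num.rho3 * pvlmH m) (hb : (𝔓.ty t).b * pvlmH m ≤ pviwRad 𝔓 m t) (hb1 : pvlmH m + 2 * pvilMu 𝔓 m ≤ (𝔓.ty t).b * pvlmH m)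
    {ω : Conf PvPt} {i : PvjtIx} (hi : pvjtBeta 𝔓 m z t ω = some i) (s : (ℂ → Bool) × Conf PvPt) {ζ : Conf PvPt} (hζ : ζ ∈ pvilMe 𝔓 𝔈 m z t i.1.1)
    (hr : Conf.restr (pvilWne 𝔓 𝔈 m z t i.1.1 ×ˢ univ) ζ = Conf.restr (pvilWne 𝔓 𝔈 m z t i.1.1 ×ˢ univ) (pvjtR 𝔓 𝔈 𝔯 m z t (some i) ω s))
    (𝔖' : PvwSt (pvieT ζ)) (h' : PvilIn 𝔓.num (𝔓.col t) (pvilPin 𝔓 m z t) ζ 𝔖') :
    pvdcCV 𝔖' (pviePos ζ) (𝔓.pl m z t).z (𝔓.num.m * (𝔓.pl m z t).h) = pvyqC 𝔓.num (𝔓.col t) (𝔓.pl m z t) ω := by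
  obtain ⟨hl, hU, ei⟩ := pvjt_beta_inv hi
  have hδ := (H.del_le m hl.1).1
  have eZ : pvilZi 𝔓 m z t ω = i.1.1 := by rw [ei]
  have eF : i.1.2 = pvilFi 𝔓 m z t ω := by rw [ei]
  have hWW : pvilWz 𝔓 m z t i.1.1 ⊆ pvilWne 𝔓 𝔈 m z t i.1.1 := fun _ hw => Or.inl (Or.inl (Or.inl hw))
  have hFW : pvilFi 𝔓 m z t ω ⊆ pvilWz 𝔓 m z t i.1.1 := eZ ▸ pvza_Fi_Wz hb hδ z ω
  have hs1 := pvge_conf_sites hr
  have hs2 := pvve_R_sites (pvve_Wz_C H hl z i.1.1) (fun _ => pvjtY 𝔈 𝔯 m z t (some i)) ω s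
  have hs : cfSites ζ ∩ pvilWz 𝔓 m z t i.1.1 = cfSites ω ∩ pvilWz 𝔓 m z t i.1.1 := by
    rw [← hs2]
    ext a
    constructor
    · rintro ⟨h1, h2⟩
      exact ⟨((Set.ext_iff.1 hs1 a).1 ⟨h1, hWW h2⟩).1, h2⟩
    · rintro ⟨h1, h2⟩
      exact ⟨((Set.ext_iff.1 hs1 a).2 ⟨h1, hWW h2⟩).1, h2⟩
  have hy : Disjoint (pvilFi 𝔓 m z t ω) (pvjtY 𝔈 𝔯 m z t (some i)) := by
    refine Disjoint.union_right ?_ ((pvjt_d2 H hi).mono_left (hFW.trans hWW))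
    unfold pvjtYe
    rw [eF]
    exact disjoint_sdiff_right
  have hc : ∀ w ∈ pvilFi 𝔓 m z t ω, cfCol ζ w = cfCol ω w := fun w hw => by
    rw [pvge_conf_col hr w (hWW (hFW hw))]
    exact pvve_R_col (yf := fun _ => pvjtY 𝔈 𝔯 m z t (some i)) (pvza_FzI_sites _ ω) ((pvve_Wz_C H hl z i.1.1).mono_left hFW) hy s w hw
  exact pvvf_T3 𝔓 𝔈 hδ hρ hb hb1 hU eZ hζ hs hc h'

end H3

/-! ## 3. (H4) -/

section H4

variable {τ : Type} {c : ℝ} {𝔓 : PvxPar τ c} {𝔈 : PvieEng τ} {𝔯 : PvjtRet τ} {m : ℕ} {ε : ℝ} {z : ℂ} {t : τ}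

/-- **(H4) OF 189**: the cut point of the door `u` read at ANY configuration which agrees with the experiment on the window of the thick link is `zu + F x` -/
theorem pvve_H4 (hr0 : 0 < pvilRu 𝔈 m) (mO : MeasurableSet (𝔈.rO m)) (hw : pvwSq 0 (3 * pvilRu 𝔈 m) ⊆ 𝔈.rO m) {ω : Conf PvPt} {i : PvjtIx} (hi : pvjtBeta 𝔓 m z t ω = some i)
    (x : Conf PvPt) (p : (ℂ → Bool) × Conf PvPt) {Z : Set (ℤ × ℤ)} {ζ : Conf PvPt} (h1 : PviqOne ζ)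
    (hr : Conf.restr (pvilWne 𝔓 𝔈 m z t Z ×ˢ univ) ζ = Conf.restr (pvilWne 𝔓 𝔈 m z t Z ×ˢ univ) (pvyuEx 𝔓 𝔈 𝔯 m ε z t i ω x p))
    (𝔖 : PvwSt (pvieT ζ)) (hD : PvilDoor (pvkdP (pvilRu 𝔈 m)) (𝔓.col t) ζ (pvieZu 𝔓 m z t) 1 𝔖) :
    pvvfCut 𝔖 (pviePos ζ) (pvyvW 𝔓 𝔈 m z t) = pvieZu 𝔓 m z t + (pvvuPlug 𝔓 𝔈).F m ε x := by
  have hOW : (pvvuPlug 𝔓 𝔈).O m ε z t ⊆ pvilWne 𝔓 𝔈 m z t Z := fun _ h => Or.inr h
  have e1 := ((pvvu_restr_reads ((pvvuPlug 𝔓 𝔈).O m ε z t ×ˢ (univ : Set Bool))).mono (prod_mono hOW Subset.rfl)).congr hr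
  have e2 := pvvu_ex_restr (pvvu_O_sub (𝔓 := 𝔓) (𝔈 := 𝔈) 𝔯 pvilV 0 0 0 m ε z t) ω x p
  rw [pvyu_ex_eq hi] at e2
  exact pvvu_T4 hr0 mO hw h1 (e1.trans e2) hD

end H4

/-! ## 4. (T) -/

section T

variable {τ : Type} {c : ℝ} (𝔓 : PvxPar τ c) (𝔈 : PvieEng τ)

/-- **(H2) = THE ONE DETERMINISTIC CONTRACT LEFT** (195, `Tr/DictL`; producer `pvvf_lk_of` of `Tr/TeleV`): at a nice configuration with the plain success of the thick link, the hull `Z`, the mesh of the window: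
the tags of the three pieces miss what `PvvfLk` says, at ALL witnesses -/
def PvveH2 (Nice : Conf PvPt → Prop) (m : ℕ) (z : ℂ) (t : τ) : Prop :=
  ∀ (Z : Set (ℤ × ℤ)) (ζ : Conf PvPt), ζ ∈ pvilMe 𝔓 𝔈 m z t Z → Nice ζ → ∀ (𝔖 𝔖' : PvwSt (pvieT ζ)) (y : (pvieT ζ).Pth), (pvilLe 𝔓 𝔈 m z t).Arc 𝔓.num (𝔓.col t) ζ 𝔖 𝔖' y →
    PvvfLk (pviePos ζ) (pvyvW 𝔓 𝔈 m z t) (Metric.closedBall (𝔓.pl m z t).z (𝔓.num.m * (𝔓.pl m z t).h)) 𝔖 𝔖' y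

/-- the numerals of (T) at one level, one type -/
structure PvveNum (m : ℕ) (t : τ) : Prop where
  rho3 : 0 < 𝔓.num.rho3 * pvlmH m
  /-- the disc of the gate lies in the own-level box -/
  b_box : (𝔓.ty t).b * pvlmH m ≤ pviwRad 𝔓 m t
  /-- the marked vertex lies in the shrunk disc -/
  b_one : pvlmH m + 2 * pvilMu 𝔓 m ≤ (𝔓.ty t).b * pvlmH m
  /-- the reference plug (`rp_h`, `rp_win` of `PvieEng.Wf`) -/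
  ru : 0 < pvilRu 𝔈 m
  ru_win : pvwSq 0 (3 * pvilRu 𝔈 m) ⊆ 𝔈.rO m

theorem pvve_eqns_cite2 : True := by
  have := @PvveH2.eq_1
  trivial

variable {𝔓 𝔈} {𝔯 : PvjtRet τ} {L : ℝ} {b0 q q' : ℝ≥0∞}

/-- **(T) COMPOSED** -/
theorem pvve_T (H : PvjtWf 𝔓 𝔈 𝔯 L b0) (h𝔓 : 𝔓.WfB) (HE : PvmlEngB 𝔈) {m : ℕ} {ε : ℝ} (hε : 0 < ε) {z : ℂ} {t : τ} (hn : PvveNum 𝔓 𝔈 m t)
    (hWb : ∀ Z : Set (ℤ × ℤ), Z.Finite → Bornology.IsBounded (pvilWne 𝔓 𝔈 m z t Z)) {Nice : Conf PvPt → Prop} (hN : ∀ᵐ η ∂pvP ε, Nice η) (hN1 : ∀ η, Nice η → PviqOne η)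
    (H2 : PvveH2 𝔓 𝔈 Nice m z t) : PvyuT 𝔓 𝔈 𝔯 q q' m ε z t := by
  have hC : MeasurableSet (pvjtC 𝔓 𝔈 𝔯 m z t) := ((pvjt_sh_meas z (H.m_eK m t)).union (pvjt_sh_meas _ (H.m_rO m))).union (pvjt_sh_meas z (H.m_fK m t))
  have hM : PvyvMeas 𝔓 𝔈 pvilV m ε z t := fun Z _ => pvml_SAe_null h𝔓 HE hε pvml_wm_V m z t Z (pvjk_mWne H m z t Z)
  filter_upwards [pvyv_T_val (wt := pvilV) hε hC (pvvu_mO 𝔓 𝔈 (H.m_rO m) ε z t) (pvvu_mθ 𝔓 𝔈 m ε z t) (pvvu_law 𝔓 𝔈 m ε z t) (fun Z _ => pvjk_mWne H m z t Z) hWb hM hN] with ω h1 _ _ i hi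
  filter_upwards [h1 (pvjtY 𝔈 𝔯 m z t (some i))] with x hx _
  filter_upwards [hx] with p hp hAe _
  refine hp i _ hAe (pvyv_tele_of (fun ζ hζ hnz => H2 _ ζ hζ hnz) (fun ζ hζ _ hr => pvve_H3 H hn.rho3 hn.b_box hn.b_one hi _ hζ hr) fun ζ _ hnz hr => pvve_H4 hn.ru (H.m_rO m) hn.ru_win hi x p (hN1 ζ hnz) hr)

/-- **THE LEAVES OF `cV_L2` AT THE OBJECTS OF RECORD, (T) PAID**: what is left = the contract of `thick`, (K4) at the weight `V`, the numerals, bounded windows, (H2) -/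
theorem pvve_ok (H : PvjtWf 𝔓 𝔈 𝔯 L b0) (hR : PvjtRecog 𝔓 𝔈 𝔯 pvilV pvbeWV L) (hq : q ≠ 0) (hqt : q ≠ ∞) (hq0 : q' ≠ 0) (hq't : q' ≠ ∞) (h𝔓 : 𝔓.WfB) (HE : PvmlEngB 𝔈)
    (hn : ∀ m t, pvjtLv 𝔓 m t → PvveNum 𝔓 𝔈 m t) (hWb : ∀ m t, pvjtLv 𝔓 m t → ∀ z, ∀ Z : Set (ℤ × ℤ), Z.Finite → Bornology.IsBounded (pvilWne 𝔓 𝔈 m z t Z))
    {Nice : Conf PvPt → Prop} (hN : ∀ ε : ℝ, 0 < ε → ∀ᵐ η ∂pvP ε, Nice η) (hN1 : ∀ η, Nice η → PviqOne η) (H2 : ∀ m (p : ℤ × ℤ) t, pvjtLv 𝔓 m t → PvveH2 𝔓 𝔈 Nice m (l9Pt (pvlmH m) p) t) :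
    (pvvuPlug 𝔓 𝔈).Ok (pvjtDat 𝔓 𝔈 𝔯 pvilV L q q') 𝔓 (q * q') b0 L 𝔓.m0 :=
  pvyu_ok H hR hq hqt hq0 hq't fun m p t hl => by
    filter_upwards [self_mem_nhdsWithin] with ε hε
    exact pvve_T H h𝔓 HE hε (hn m t hl) (hWb m t hl _) (hN ε hε) hN1 (H2 m p t hl)

end T

/-! ## 5. (H2) paid -/

section reg

variable {τ : Type} {c : ℝ} (𝔓 : PvxPar τ c) (𝔈 : PvieEng τ)

/-- **ALL THE REGION LINES OF THE DETERMINISTIC HALF OF (T)**, one level, one type -/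
structure PvveReg (m : ℕ) (t : τ) : Prop where
  pin : PvllPin 𝔓 m t
  ru3 : 3 * pvilMu 𝔓 m ≤ pvilRu 𝔈 m
  ru_win : pvwSq 0 (3 * pvilRu 𝔈 m) ⊆ 𝔈.rO m
  /-- the collar (Rc) of R22 -/
  col : ∀ z, pvieSh z (𝔈.eY m t) ⊆ pvtrCore (3 * pvilMu 𝔓 m) (pvieSh z (𝔈.eM m t) ∪ pvieSh z (𝔈.eK m t) ∪ pvieSh (pvieZu 𝔓 m z t) (𝔈.rO m))
  reg : PvvdReg 𝔓 𝔈 m t
  bdd : ∀ z, ∀ Z : Set (ℤ × ℤ), Z.Finite → Bornology.IsBounded (pvilWne 𝔓 𝔈 m z t Z)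

variable {𝔓 𝔈} {𝔯 : PvjtRet τ} {L : ℝ} {b0 q q' : ℝ≥0∞} {m : ℕ} {t : τ}

/-- (H2) from the lemma of 195 -/
theorem pvve_H2_of (R : PvveReg 𝔓 𝔈 m t) (Nice : Conf PvPt → Prop) (z : ℂ) : PvveH2 𝔓 𝔈 Nice m z t :=
  fun _ _ hζ _ _ _ _ hA => pvvd_lk R.pin R.ru3 R.ru_win (R.col z) R.reg hζ.1.2 hζ.2 hA

theorem pvve_num_of (R : PvveReg 𝔓 𝔈 m t) : PvveNum 𝔓 𝔈 m t where
  rho3 := mul_pos R.pin.r3 (pvlm_H_pos m)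
  b_box := R.pin.bR
  b_one := R.pin.b1
  ru := by linarith [R.ru3, pvll_mu_pos R.pin.r3 (c := c) (𝔓 := 𝔓) m]
  ru_win := R.ru_win

/-- **(T) FROM THE CONTRACTS ALONE** -/
theorem pvve_T_reg (H : PvjtWf 𝔓 𝔈 𝔯 L b0) (h𝔓 : 𝔓.WfB) (HE : PvmlEngB 𝔈) {ε : ℝ} (hε : 0 < ε) (R : PvveReg 𝔓 𝔈 m t) (z : ℂ) : PvyuT 𝔓 𝔈 𝔯 q q' m ε z t :=
  pvve_T H h𝔓 HE hε (pvve_num_of R) (R.bdd z) (pviq_ae_one ε) (fun _ h => h) (pvve_H2_of R _ z)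

/-- **THE LEAVES OF `cV_L2` AT THE OBJECTS OF RECORD FROM THE CONTRACTS ALONE** -/
theorem pvve_ok_reg (H : PvjtWf 𝔓 𝔈 𝔯 L b0) (hR : PvjtRecog 𝔓 𝔈 𝔯 pvilV pvbeWV L) (hq : q ≠ 0) (hqt : q ≠ ∞) (hq0 : q' ≠ 0) (hq't : q' ≠ ∞) (h𝔓 : 𝔓.WfB) (HE : PvmlEngB 𝔈)
    (R : ∀ m t, pvjtLv 𝔓 m t → PvveReg 𝔓 𝔈 m t) : (pvvuPlug 𝔓 𝔈).Ok (pvjtDat 𝔓 𝔈 𝔯 pvilV L q q') 𝔓 (q * q') b0 L 𝔓.m0 :=
  pvyu_ok H hR hq hqt hq0 hq't fun m _ t hl => by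
    filter_upwards [self_mem_nhdsWithin] with ε hε
    exact pvve_T_reg H h𝔓 HE hε (R m t hl) _

end reg

end Claimed.Agent.R289
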