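-- KEEP
import Claimed.Agent.R289.Exit.TrV
import Claimed.Agent.R289.Exit.ThickL
import Claimed.Agent.R289.Exit.ThickLW
import Claimed.Agent.R289.Tr.InstLB
import Claimed.Agent.R289.Exit.TrVW
import Claimed.Agent.R289.Exit.Par
import Claimed.Agent.R289.Exit.AnaDefs
import Claimed.Agent.R289.Tr.CycI

/-!
# Row 289 (S0537), THE WALL, ROAD E, file Exit/TrVH : ROOF `V`, THE TWO LINES `hs` `hc` OF (T3) (`pvvf_T3` of 85, `Tr/CutWin`) AT THE EXPERIMENT OF THE DATUM OF 223      (helper61; offer of 85, id 96049; prefix `pvvu`)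

0 sorry.      `ex = pvjtR 𝔓 𝔈 𝔯 m z t (some i) ω p` (`Defs/GdThick`), `i` = the base data of `ω`.      FROM `PvjtWf` (`Exit/ThickL`) ALONE + the numeral `b h ≤ pviwRad` (the same as in `pvvf_T3`):
* `pvvu_Wz_C` : the state part `pvilWz Z` of EVERY window (any `Z`) misses the resampled region `pvjtC` (`eK_off rO_off fK_off`, `pvjtw_Wz_tile` of 265)
* **`pvvu_ex_hs`** : `cfSites ex ∩ pvilWz Z = cfSites ω ∩ pvilWz Z`      (ANY index, ANY `Z`, EVERY seed)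
* **`pvvu_ex_hc`** : `∀ w ∈ pvilFi ω, cfCol ex w = cfCol ω w`      (`w ∈ pvilWz Z_in`: not resampled;   `w ∈ F_in`: not in the own mouth minus `F_in`;   `pvilWz Z_in` misses the exit mouth: `far_p`, `pvjtw_Wzi_mouth` of 265, `fM_cen`)
* `pvvu_ex_hc_o` : the mirror (`pvilFo`)
* sec. 2  the same AT A CONFIGURATION `ζ` WHICH AGREES WITH `ex` ON A WINDOW `Wn ⊇ pvilWz Z` (`Conf.restr`: the form of `PvyvTele` of 189): **`pvvu_hs` `pvvu_hc`**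
* sec. 3  at the experiment of the record of 283: `pvvu_ex_eq` : `𝔲.ex (pvjtDat ..) m ε z t ω x p = pvjtR .. (pvjtBeta ω) ω (pvyqEmb ..)` (ANY plug), **`pvvu_rec_hs` `pvvu_rec_hc`**
          (sec. 1-3 = a twin of `pvve_R_sites pvve_R_col pvve_Wz_C` inside `pvve_H3` of 85, `Exit/TrVW`: crossing of 13:40Z; harmless)
* sec. 4  (v2) THE NUMERALS AND THE BOUNDED WINDOWS OF `pvve_T`, `pvve_ok` (85, `Exit/TrVW`) AT THE PARAMETERS OF RECORD: **`pvvu_num`** : `PvnaWf (pvxParOf N hN c) 𝔈 → m0 ≤ m → PvveNum (pvxParOf N hN c) 𝔈 m t`,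
          **`pvvu_Wb`** (`hWb`), `pvvu_engB` (`PvmlEngB`), **`pvvu_T_rec`** = the hypothesis `hT` of `pvyu_pair_rec` / `pvyu_V_rec` (142, `Exit/TrVA`) from `PvjtWf` + (H2) ALONE
-/

set_option autoImplicit false

namespace Claimed.Agent.R289

open Set MeasureTheory Claims.C0465
open scoped ENNReal

/-! ## 1. at the experiment -/

section ex

variable {τ : Type} {c : ℝ} {𝔓 : PvxPar τ c} {𝔈 : PvieEng τ} {𝔯 : PvjtRet τ} {L : ℝ} {b0 : ℝ≥0∞} {m : ℕ} {z : ℂ} {t : τ}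

/-- the state part of every window misses the resampled region of the experiment -/
theorem pvvu_Wz_C (H : PvjtWf 𝔓 𝔈 𝔯 L b0) (hl : pvjtLv 𝔓 m t) (z : ℂ) (Z : Set (ℤ × ℤ)) : Disjoint (pvilWz 𝔓 m z t Z) (pvjtC 𝔓 𝔈 𝔯 m z t) := by
  unfold pvjtC
  rw [pvjtw_ro]
  exact ((pvjtw_Wz_tile 𝔓 m z t Z (H.eK_off m t hl)).union_right (pvjtw_Wz_tile 𝔓 m z t Z (H.rO_off m t hl))).union_right (pvjtw_Wz_tile 𝔓 m z t Z (H.fK_off m t hl))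

/-- **(hs) AT THE EXPERIMENT**: any index, any hull, every seed -/
theorem pvvu_ex_hs (H : PvjtWf 𝔓 𝔈 𝔯 L b0) (hl : pvjtLv 𝔓 m t) (i : Option PvjtIx) (ω : Conf PvPt) (p : (ℂ → Bool) × Conf PvPt) (Z : Set (ℤ × ℤ)) :
    cfSites (pvjtR 𝔓 𝔈 𝔯 m z t i ω p) ∩ pvilWz 𝔓 m z t Z = cfSites ω ∩ pvilWz 𝔓 m z t Z := by
  unfold pvjtR
  rw [pvdy_sites_R]
  have hd := Set.disjoint_left.1 (pvvu_Wz_C H hl z Z)
  ext w
  simp only [mem_inter_iff, mem_union, mem_sdiff]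
  constructor
  · rintro ⟨⟨h1, -⟩ | ⟨-, h2⟩, hw⟩
    · exact ⟨h1, hw⟩
    · exact absurd h2 (hd hw)
  · rintro ⟨h1, hw⟩
    exact ⟨Or.inl ⟨h1, hd hw⟩, hw⟩

/-- **(hc) AT THE EXPERIMENT**: the colours of the positions frozen by `Σ_in` are kept -/
theorem pvvu_ex_hc (H : PvjtWf 𝔓 𝔈 𝔯 L b0) (hb : (𝔓.ty t).b * pvlmH m ≤ pviwRad 𝔓 m t) {ω : Conf PvPt} {i : PvjtIx} (hi : pvjtBeta 𝔓 m z t ω = some i) (p : (ℂ → Bool) × Conf PvPt) :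
    ∀ w ∈ pvilFi 𝔓 m z t ω, cfCol (pvjtR 𝔓 𝔈 𝔯 m z t (some i) ω p) w = cfCol ω w := by
  obtain ⟨hl, hU, rfl⟩ := pvjt_beta_inv hi
  intro w hw
  have hδ := H.del_le m hl.1
  have hWz := pvza_Fi_Wz hb hδ.1 z ω hw
  have hC : w ∉ pvjtC 𝔓 𝔈 𝔯 m z t := Set.disjoint_left.1 (pvvu_Wz_C H hl z _) hWz
  have hs : w ∈ cfSites ω := by
    obtain ⟨𝔖, -, u, -, rfl⟩ := hw
    exact u.2
  unfold pvjtR
  rw [pvdy_cfCol_R _ p hs hC, pvfqMix_of_notMem]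
  rintro (⟨-, h2⟩ | ⟨h1, -⟩)
  · exact h2 hw
  · exact Set.disjoint_left.1 (pvjtw_Wzi_mouth (by linarith [hδ.1, hδ.2]) hl.2.2.2 hU (H.fM_cen m t hl)) hWz h1

/-- the mirror: the colours of the positions frozen by `Σ_out` are kept -/
theorem pvvu_ex_hc_o (H : PvjtWf 𝔓 𝔈 𝔯 L b0) (hb : (𝔓.ty t).b * pvlmH m ≤ pviwRad 𝔓 m t) {ω : Conf PvPt} {i : PvjtIx} (hi : pvjtBeta 𝔓 m z t ω = some i) (p : (ℂ → Bool) × Conf PvPt) :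
    ∀ w ∈ pvilFo 𝔓 m z t ω, cfCol (pvjtR 𝔓 𝔈 𝔯 m z t (some i) ω p) w = cfCol ω w := by
  obtain ⟨hl, hU, rfl⟩ := pvjt_beta_inv hi
  intro w hw
  have hδ := H.del_le m hl.1
  have hWz := pvza_Fo_Wz hb hδ.1 z ω hw
  have hC : w ∉ pvjtC 𝔓 𝔈 𝔯 m z t := Set.disjoint_left.1 (pvvu_Wz_C H hl z _) hWz
  have hs : w ∈ cfSites ω := by
    obtain ⟨𝔖, -, u, -, rfl⟩ := hw
    exact u.2
  unfold pvjtR
  rw [pvdy_cfCol_R _ p hs hC, pvfqMix_of_notMem]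
  rintro (⟨h1, -⟩ | ⟨-, h2⟩)
  · exact Set.disjoint_left.1 (pvjtw_Wzo_mouth (by linarith [hδ.1, hδ.2]) hl.2.2.2 hU (H.eM_cen m t hl)) hWz h1
  · exact h2 hw

/-! ## 2. at a configuration which agrees with the experiment on a window -/

/-- **(hs)** at `ζ = ex` on a window `Wn ⊇ pvilWz Z` -/
theorem pvvu_hs (H : PvjtWf 𝔓 𝔈 𝔯 L b0) (hl : pvjtLv 𝔓 m t) (i : Option PvjtIx) (ω : Conf PvPt) (p : (ℂ → Bool) × Conf PvPt) {Z : Set (ℤ × ℤ)} {Wn : Set ℂ} (hW : pvilWz 𝔓 m z t Z ⊆ Wn)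
    {ζ : Conf PvPt} (hζ : Conf.restr (Wn ×ˢ univ) ζ = Conf.restr (Wn ×ˢ univ) (pvjtR 𝔓 𝔈 𝔯 m z t i ω p)) :
    cfSites ζ ∩ pvilWz 𝔓 m z t Z = cfSites ω ∩ pvilWz 𝔓 m z t Z := by
  rw [← pvvu_ex_hs H hl i ω p Z]
  have h := pvat_restr_sites hζ
  ext u
  constructor
  · rintro ⟨h1, h2⟩
    exact ⟨((h ▸ (⟨h1, hW h2⟩ : u ∈ cfSites ζ ∩ Wn) : u ∈ cfSites (pvjtR 𝔓 𝔈 𝔯 m z t i ω p) ∩ Wn)).1, h2⟩
  · rintro ⟨h1, h2⟩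
    exact ⟨((h.symm ▸ (⟨h1, hW h2⟩ : u ∈ cfSites (pvjtR 𝔓 𝔈 𝔯 m z t i ω p) ∩ Wn) : u ∈ cfSites ζ ∩ Wn)).1, h2⟩

/-- **(hc)** at `ζ = ex` on a window `Wn ⊇ pvilWz Z_in(ω)` -/
theorem pvvu_hc (H : PvjtWf 𝔓 𝔈 𝔯 L b0) (hb : (𝔓.ty t).b * pvlmH m ≤ pviwRad 𝔓 m t) {ω : Conf PvPt} {i : PvjtIx} (hi : pvjtBeta 𝔓 m z t ω = some i) (p : (ℂ → Bool) × Conf PvPt)
    {Wn : Set ℂ} (hW : pvilWz 𝔓 m z t i.1.1 ⊆ Wn) {ζ : Conf PvPt} (hζ : Conf.restr (Wn ×ˢ univ) ζ = Conf.restr (Wn ×ˢ univ) (pvjtR 𝔓 𝔈 𝔯 m z t (some i) ω p)) :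
    ∀ w ∈ pvilFi 𝔓 m z t ω, cfCol ζ w = cfCol ω w := by
  intro w hw
  rw [← pvvu_ex_hc H hb hi p w hw]
  obtain ⟨hl, -, e⟩ := pvjt_beta_inv hi
  have hWz : w ∈ pvilWz 𝔓 m z t i.1.1 := by
    rw [e]
    exact pvza_Fi_Wz hb (H.del_le m hl.1).1 z ω hw
  exact pvat_restr_col hζ.symm (hW hWz)

end ex

/-! ## 3. at the experiment of the record of 283 -/

section rec

variable {τ : Type} {c : ℝ} {𝔓 : PvxPar τ c} {𝔈 : PvieEng τ} {𝔯 : PvjtRet τ} {L : ℝ} {b0 : ℝ≥0∞} {m : ℕ} {ε : ℝ} {z : ℂ} {t : τ}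

/-- the experiment of the record at the datum of 223, ANY plug -/
theorem pvvu_ex_eq (𝔲 : PvyqPlug τ) (wt : ∀ η : Conf PvPt, (delbPl (pvieY η)).Dart → ℂ) (L : ℝ) (q q' : ℝ≥0∞) (m : ℕ) (ε : ℝ) (z : ℂ) (t : τ) (ω x : Conf PvPt) (p : (ℂ → Bool) × Conf PvPt) :
    𝔲.ex (pvjtDat 𝔓 𝔈 𝔯 wt L q q') m ε z t ω x p = pvjtR 𝔓 𝔈 𝔯 m z t (pvjtBeta 𝔓 m z t ω) ω (pvyqEmb (𝔲.O m ε z t) (𝔲.θ m ε z t) x p) := rfl

/-- **(hs) IN THE WORDS OF `PvyvTele`** (189): `ζ` agrees with the experiment of the record on the window of the thick link -/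
theorem pvvu_rec_hs (H : PvjtWf 𝔓 𝔈 𝔯 L b0) (hl : pvjtLv 𝔓 m t) (𝔲 : PvyqPlug τ) (wt : ∀ η : Conf PvPt, (delbPl (pvieY η)).Dart → ℂ) (q q' : ℝ≥0∞) (ω x : Conf PvPt) (p : (ℂ → Bool) × Conf PvPt)
    (Z : Set (ℤ × ℤ)) {ζ : Conf PvPt} (hζ : Conf.restr (pvilWne 𝔓 𝔈 m z t Z ×ˢ univ) ζ = Conf.restr (pvilWne 𝔓 𝔈 m z t Z ×ˢ univ) (𝔲.ex (pvjtDat 𝔓 𝔈 𝔯 wt L q q') m ε z t ω x p)) :
    cfSites ζ ∩ pvilWz 𝔓 m z t Z = cfSites ω ∩ pvilWz 𝔓 m z t Z :=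
  pvvu_hs H hl _ ω _ (fun _ hw => Or.inl (Or.inl (Or.inl hw))) hζ

/-- **(hc) IN THE WORDS OF `PvyvTele`** (189) -/
theorem pvvu_rec_hc (H : PvjtWf 𝔓 𝔈 𝔯 L b0) (hb : (𝔓.ty t).b * pvlmH m ≤ pviwRad 𝔓 m t) (𝔲 : PvyqPlug τ) (wt : ∀ η : Conf PvPt, (delbPl (pvieY η)).Dart → ℂ) (q q' : ℝ≥0∞)
    {ω : Conf PvPt} {i : PvjtIx} (hi : pvjtBeta 𝔓 m z t ω = some i) (x : Conf PvPt) (p : (ℂ → Bool) × Conf PvPt)
    {ζ : Conf PvPt} (hζ : Conf.restr (pvilWne 𝔓 𝔈 m z t i.1.1 ×ˢ univ) ζ = Conf.restr (pvilWne 𝔓 𝔈 m z t i.1.1 ×ˢ univ) (𝔲.ex (pvjtDat 𝔓 𝔈 𝔯 wt L q q') m ε z t ω x p)) :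
    ∀ w ∈ pvilFi 𝔓 m z t ω, cfCol ζ w = cfCol ω w := by
  rw [pvvu_ex_eq, hi] at hζ
  exact pvvu_hc H hb hi _ (fun _ hw => Or.inl (Or.inl (Or.inl hw))) hζ

end rec

/-! ## 4. the numerals and the bounded windows at the parameters of record -/

section num

variable {c : ℝ} {N : PvxNums} {hN : N.Ok} {𝔈 : PvieEng (pvxTau N)}

/-- **THE NUMERALS OF (T) AT THE PARAMETERS OF RECORD**, every level of the engine, every type -/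
theorem pvvu_num (hE : PvnaWf (pvxParOf N hN c) 𝔈) {m : ℕ} (hm : (pvxParOf N hN c).m0 ≤ m) (t : pvxTau N) : PvveNum (pvxParOf N hN c) 𝔈 m t := by
  obtain ⟨Cth, r, κs, H⟩ := hE.wf
  have hh := pvlm_H_pos m
  have h3 : 0 < N.rho3 := hN.msk0
  have hg : (0 : ℝ) ≤ N.g := Nat.cast_nonneg _
  have h31 : N.rho3 ≤ 1 := by
    have h1 := hN.msk
    have h2 : 100 * N.rho3 ≤ 100 * ((N.g : ℝ) + 1) * N.rho3 := by nlinarith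
    linarith [hN.rho1, hN.rho2, hN.rho3, hN.rho0]
  have hb1 : (2 : ℝ) ≤ N.b1 := by linarith [hN.m_gt, hN.m_lt, hN.B_lt, hN.ab1]
  have hb2 : N.b1 ≤ N.b2 := by linarith [hN.gap, hN.ab2]
  have hr1 : 0 ≤ N.rho1 := by linarith [hN.rho1, hN.rho0]
  refine ⟨mul_pos h3 hh, ?_, ?_, H.rp_h m hm, H.rp_win m hm⟩
  · show N.b1 * pvlmH m ≤ (2 * N.b2 + (pvxoK t : ℝ) * N.rho1) * pvlmH m
    have hk : (0 : ℝ) ≤ (pvxoK t : ℝ) * N.rho1 := mul_nonneg (Nat.cast_nonneg _) hr1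
    exact mul_le_mul_of_nonneg_right (by linarith) hh.le
  · show pvlmH m + 2 * pvilMu (pvxParOf N hN c) m ≤ N.b1 * pvlmH m
    have hμ : pvilMu (pvxParOf N hN c) m ≤ N.rho3 * pvlmH m / 1000 := by
      unfold pvilMu
      exact div_le_div_of_nonneg_right (min_le_right _ _) (by norm_num)
    have h4 : N.rho3 * pvlmH m ≤ pvlmH m := by nlinarith
    nlinarith

/-- **`hWb`**: the windows of the thick link are bounded -/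
theorem pvvu_Wb (hE : PvnaWf (pvxParOf N hN c) 𝔈) {m : ℕ} {t : pvxTau N} (hl : pvjtLv (pvxParOf N hN c) m t) (z : ℂ) (Z : Set (ℤ × ℤ)) : Bornology.IsBounded (pvilWne (pvxParOf N hN c) 𝔈 m z t Z) := by
  obtain ⟨Cth, r, κs, H⟩ := hE.wf
  exact pvcyi_b_Wne H hl.1 hl.2 z Z

/-- the Borel data of 289 -/
theorem pvvu_engB {τ : Type} {𝔓 : PvxPar τ c} {𝔈 : PvieEng τ} (hE : PvnaWf 𝔓 𝔈) : PvmlEngB 𝔈 := by
  obtain ⟨Cth, r, κs, H⟩ := hE.wf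
  exact pvml_engB H

/-- **(T) AT THE RECORD** = the hypothesis `hT` of `pvyu_pair_rec`, `pvyu_V_rec` (142) from the contract of `thick` and (H2) alone -/
theorem pvvu_T_rec (hE : PvnaWf (pvxParOf N hN c) 𝔈) {𝔯 : PvjtRet (pvxTau N)} {L : ℝ} {b0 : ℝ≥0∞} (H : PvjtWf (pvxParOf N hN c) 𝔈 𝔯 L b0)
    {Nice : Conf PvPt → Prop} (hNc : ∀ ε : ℝ, 0 < ε → ∀ᵐ η ∂pvP ε, Nice η) (hN1 : ∀ η, Nice η → PviqOne η)
    (H2 : ∀ m (p : ℤ × ℤ) t, pvjtLv (pvxParOf N hN c) m t → PvveH2 (pvxParOf N hN c) 𝔈 Nice m (l9Pt (pvlmH m) p) t) (q q' : ℝ≥0∞) (m : ℕ) (p : ℤ × ℤ) (t : pvxTau N)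
    (hl : pvjtLv (pvxParOf N hN c) m t) : ∀ᶠ ε in nhdsWithin (0 : ℝ) (Ioi 0), PvyuT (pvxParOf N hN c) 𝔈 𝔯 q q' m ε (l9Pt (pvlmH m) p) t := by
  filter_upwards [self_mem_nhdsWithin] with ε hε
  exact pvve_T H (pvxo_wf N hN c).toWfB (pvvu_engB hE) hε (pvvu_num hE hl.1 t) (fun Z _ => pvvu_Wb hE hl _ Z) (hNc ε hε) hN1 (H2 m p t hl)

end num

end Claimed.Agent.R289
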