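import Claimed.Agent.R289.Exit.TrVW
import Claimed.Agent.R289.Exit.LocRec
import Claimed.Agent.R289.Exit.ParEngC
import Claimed.Agent.R289.Tr.CycI
import Claimed.Agent.R289.Exit.EngU4
import Claimed.Agent.R289.Exit.EngYe

/-!
# Row 289 (S0537), THE WALL, ROAD E, file Exit/TrVK : ROOF `V`, **`PvveReg` (ALL THE REGION LINES OF (T)) AT THE PARAMETERS / THE ENGINE OF RECORD**      (helper246, second rope of 195; prefix `pvvk_`)

0 sorry.      `Exit/TrVW` (85): `pvve_ok_reg : PvjtWf → PvjtRecog .. pvilV pvbeWV → WfB → PvmlEngB → (∀ m t, pvjtLv → PvveReg 𝔓 𝔈 m t) → (pvvuPlug 𝔓 𝔈).Ok ..`.      HERE `PvveReg` is paid, in a form WHICH SURVIVES THE SWAPS OF THE ENGINE (T22, R25):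
* sec. 1  `pvvk_reg_mono` : `PvvdReg` of 195 is ANTITONE in the room `eY` and in the region `rO`
* sec. 2  FROM THE CONTRACT `PvieEng.Wf` (any engine): `pvvk_off` (`res_off`), **`pvvk_far`** (`eY_sub res_off eM_half pviwTyOk` + two numerals), `pvvk_front_of` (the margin at the cut line from: `rO` in the open square `Δ/4`, the room is `κ` in front of the plane INSIDE THE OPEN BLOCK `Δ/2`)
* sec. 3  THE OLD ROOM `pveheY 𝔓 (pvegIM 𝔓) m t ∪ pvegIK 𝔓 m t` (166 124): **`pvvk_old_blk`** = W-7 in the OPEN BLOCK of the reference plug (`pvej_eY_front` of 166 has it in `zu + rO` only)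
* sec. 4  **`pvvk_reg_of`** : `PvvdReg (pvxParOf N hN c) 𝔈 m t` for ANY engine with the contract, `eY ⊆` the old room, `rO ⊆` the old region;   **`pvvk_all_of`** : `PvveReg` from the same + (Rc) + `3 μ ≤ r_u`
* sec. 5  AT THE ENGINE OF RECORD (binders `𝔈 hE hR` of `Exit/AnaV`) : **`pvvk_reg_at`** = the statement `exit_pvyu_reg` of `Exit/AnaV` v2.1 (142) VERBATIM (`PvvdReg`, no hypothesis), **`pvvk_all_at`** (`PvveReg` from (Rc) in the relative form of 22 = `pvet_rce` = `exit_pvzj_v_room` = `exit_pvly_col_e`)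
v3: the two inclusions `pvvk_eY_old`, `pvvk_rO_old` carry BOTH branches (engine v2: `Subset.rfl`;   engine v3 = L2: `pvvz_eY_old` of 118, `pvnu4_RO_sub` of 84): the file is green before and after L2.
-/

set_option autoImplicit false

namespace Claimed.Agent.R289

open Set Metric MeasureTheory Filter Topology Claims.C0465
open scoped ENNReal

/-! ## 1. antitone -/

section mono

variable {τ : Type} {c : ℝ} {𝔓 : PvxPar τ c} {𝔈 𝔈' : PvieEng τ} {m : ℕ} {t : τ}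

/-- the four metric lines of 195 are antitone in the room and in the region of the reference plug -/
theorem pvvk_reg_mono (hY : 𝔈'.eY m t ⊆ 𝔈.eY m t) (hO : 𝔈'.rO m ⊆ 𝔈.rO m) (R : PvvdReg 𝔓 𝔈 m t) : PvvdReg 𝔓 𝔈' m t where
  num := R.num
  off := R.off.mono_left (Set.image_mono hO)
  far := fun v hv => R.far v (hY hv)
  front := fun a ha x hx => R.front a (hY ha) x (Set.image_mono hO hx)

end mono

/-! ## 2. from the contract -/

section wf

variable {τ : Type} {c : ℝ} {𝔓 : PvxPar τ c} {𝔈 : PvieEng τ} {m0 : ℕ} {Cth : ℝ} {r κs : ℕ → ℝ} {m : ℕ} {t : τ}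

theorem pvvk_off (H : PvieEng.Wf 𝔓 𝔈 m0 Cth r κs) (hm : m0 ≤ m) (hT : pviwTyOk 𝔓 t) : Disjoint (pviwRo 𝔓 𝔈 m t) (pviwBox 𝔓 m t) :=
  H.res_off m hm 0 t hT _ (by simp [pviwRes])

theorem pvvk_eK_off (H : PvieEng.Wf 𝔓 𝔈 m0 Cth r κs) (hm : m0 ≤ m) (hT : pviwTyOk 𝔓 t) : Disjoint (𝔈.eK m t) (pviwBox 𝔓 m t) :=
  H.res_off m hm 0 t hT _ (by simp [pviwRes])

/-- a point off the closed square is far from its centre -/
theorem pvvk_off_sq {v : ℂ} {ρ : ℝ} (h : v ∉ pvwSq 0 ρ) : ρ < ‖v‖ := by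
  by_contra hc
  rw [not_lt] at hc
  refine h ⟨?_, ?_⟩
  · rw [sub_zero]; exact (Complex.abs_re_le_norm v).trans hc
  · rw [sub_zero]; exact (Complex.abs_im_le_norm v).trans hc

theorem pvvk_N_le (w : ℂ) : pvccN w ≤ ‖w‖ := max_le (Complex.abs_re_le_norm w) (Complex.abs_im_le_norm w)

/-- **`far`**: the room of the thick link stays outside the gate annulus of the pin -/
theorem pvvk_far (H : PvieEng.Wf 𝔓 𝔈 m0 Cth r κs) (hm : m0 ≤ m) (hT : pviwTyOk 𝔓 t)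
    (ha : (𝔓.ty t).a + 3 * 𝔓.num.rho / 5 ≤ 2 * (𝔓.ty t).b2 + (𝔓.ty t).k * 𝔓.num.rho1) (hρ : 0 ≤ 𝔓.num.rho) : ∀ v ∈ 𝔈.eY m t, (𝔓.ty t).a * pvlmH m ≤ ‖v‖ := by
  intro v hv
  have hh := pvlm_H_pos m
  have hδ := pvlm_Del_pos c m
  have hR : (𝔓.ty t).a * pvlmH m ≤ pviwRad 𝔓 m t + pvlmDel c m := by
    unfold pviwRad pvwRad
    nlinarith
  rcases H.eY_sub m hm t hT hv with (h | h) | h
  · have h1 := H.eM_half m hm t hT h
    rw [mem_closedBall_iff_norm] at h1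
    have h2 := (abs_le.1 hT.2.1).1
    have h3 := pvvk_N_le (𝔓.ty t).ym
    have h4 : ‖(pvlmH m : ℂ) * (𝔓.ty t).ym‖ = pvlmH m * ‖(𝔓.ty t).ym‖ := by
      rw [norm_mul, Complex.norm_real, Real.norm_of_nonneg hh.le]
    have h5 := norm_sub_norm_le ((pvlmH m : ℂ) * (𝔓.ty t).ym) ((pvlmH m : ℂ) * (𝔓.ty t).ym - v)
    rw [sub_sub_cancel, norm_sub_rev, h4] at h5
    nlinarith
  · exact hR.trans (pvvk_off_sq (disjoint_left.1 (pvvk_eK_off H hm hT) h)).le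
  · exact hR.trans (pvvk_off_sq (disjoint_left.1 (pvvk_off H hm hT) h)).le

/-- **`front`** from: the region of the plug in the open square `Δ/4`; inside the OPEN BLOCK `Δ/2` the room is `κ` in front of the plane of the plug -/
theorem pvvk_front_of {Δ κ : ℝ} (hO : 𝔈.rO m ⊆ pvccSq 0 (Δ / 4)) (hb : ∀ a ∈ 𝔈.eY m t, a ∈ pvccSq ((𝔓.Γ m).zu t) (Δ / 2) → κ ≤ (a - (𝔓.Γ m).zu t).re)
    (hκ : 4 * pvilMu 𝔓 m / 3 < κ) (hΔ : 4 * pvilMu 𝔓 m / 3 < Δ / 4) :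
    ∀ a ∈ 𝔈.eY m t, ∀ x ∈ pviwRo 𝔓 𝔈 m t, (x - (𝔓.Γ m).zu t).re < 0 → 4 * pvilMu 𝔓 m / 3 < ‖x - a‖ := by
  intro a ha x hx hx0
  have hx1 : x - (𝔓.Γ m).zu t ∈ pvccSq 0 (Δ / 4) := hO (pveh_mem_sh.1 hx)
  rw [pvccm_mem_sq] at hx1
  simp only [Complex.zero_re, Complex.zero_im, Complex.sub_re, Complex.sub_im, zero_sub, zero_add] at hx1 hx0
  obtain ⟨⟨x1, x2⟩, x3, x4⟩ := hx1
  have n1 := Complex.abs_re_le_norm (x - a)
  have n2 := Complex.abs_im_le_norm (x - a)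
  rw [Complex.sub_re] at n1
  rw [Complex.sub_im] at n2
  have n1a := (abs_le.1 n1).1
  have n1b := (abs_le.1 n1).2
  have n2a := (abs_le.1 n2).1
  have n2b := (abs_le.1 n2).2
  by_cases hc : a ∈ pvccSq ((𝔓.Γ m).zu t) (Δ / 2)
  · have := hb a ha hc
    rw [Complex.sub_re] at this
    linarith
  · rw [pvccm_mem_sq] at hc
    by_contra hlt
    rw [not_lt] at hlt
    exact hc ⟨⟨by linarith, by linarith⟩, by linarith, by linarith⟩

end wf

/-! ## 3. the old room in the open block of the reference plug -/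

section old

variable {τ : Type} {c : ℝ} {𝔓 : PvxPar τ c}

/-- W-7 in the open block, model free -/
theorem pvvk_EY_blk {Δ : ℝ} (hΔ : 0 < Δ) (cu : ℂ) {lb : List PvtTurn} (hW : PvehW lb) {Mi : Set ℂ} {w : ℂ} (hw : w ∈ pvehEY Δ cu lb Mi) (hO : w ∈ pvccSq cu (Δ / 2)) (hM : w ∉ Mi) :
    cu.re + Δ / 64 ≤ w.re := by
  rw [pvccm_mem_sq] at hO
  obtain ⟨⟨a1, a2⟩, a3, a4⟩ := hO
  rcases hw with (h | h) | h
  · exact h.1
  · unfold pvfeLanes at h
    simp only [mem_iUnion, exists_prop] at h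
    obtain ⟨j, hj, hw⟩ := h
    have hj' : j < lb.length := Finset.mem_range.1 hj
    have hb := pveh_lane_sub hΔ cu lb j (by norm_num) (by norm_num) hw
    unfold pvehB at hb
    rw [pveh_C_eq, pveh_mem_sq] at hb
    have e1 : (cu + (Δ : ℂ) * pvtZ (pvehV lb j)).re = cu.re + Δ * ((pvehV lb j).1 : ℝ) := by simp [pvtZ]
    have e2 : (cu + (Δ : ℂ) * pvtZ (pvehV lb j)).im = cu.im + Δ * ((pvehV lb j).2 : ℝ) := by simp [pvtZ]
    rw [e1, e2] at hb
    obtain ⟨⟨b1, b2⟩, b3, b4⟩ := hb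
    rcases hW j hj' with hv | hv | hv
    · rw [hv] at b1
      push_cast at b1
      linarith
    · rcases le_abs'.1 hv with hv | hv
      · have : ((pvehV lb j).1 : ℝ) ≤ -2 := by exact_mod_cast hv
        nlinarith
      · have : (2 : ℝ) ≤ ((pvehV lb j).1 : ℝ) := by exact_mod_cast hv
        nlinarith
    · rcases le_abs'.1 hv with hv | hv
      · have : ((pvehV lb j).2 : ℝ) ≤ -2 := by exact_mod_cast hv
        nlinarith
      · have : (2 : ℝ) ≤ ((pvehV lb j).2 : ℝ) := by exact_mod_cast hv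
        nlinarith
  · exact absurd h hM

/-- **W-7 IN THE OPEN BLOCK OF THE REFERENCE PLUG**, at the old room of record -/
theorem pvvk_old_blk {m : ℕ} {t : τ} (hL : PvegLev 𝔓 m) (hf : 1000 * pvlmDel c m ≤ 𝔓.num.rho * pvlmH m) (hT : pviwTyOk 𝔓 t) (Z : PvehGeo 𝔓 m t) {v : ℂ}
    (hv : v ∈ pveheY 𝔓 (pvegIM 𝔓) m t ∪ pvegIK 𝔓 m t) (hO : v ∈ pvccSq ((pvxrGam 𝔓 m).zu t) (pvehDl 𝔓 m / 2)) : pvehDl 𝔓 m / 64 ≤ (v - (pvxrGam 𝔓 m).zu t).re := by
  have J := pvej_geo_at (m := m) hL.rho0 hf hT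
  have hb : v ∈ pvehSq ((pvxrGam 𝔓 m).zu t) (pvehDl 𝔓 m / 2) := pveh_open_sub _ _ hO
  rw [Z.zu'] at hb
  have hoff := pvej_plug_off2 J hb
  rcases hv with hv | hv
  · have := pvvk_EY_blk (pveh_Dl_pos Z.n0) _ (pveh_W_le _) hv hO (fun h => hoff (pveg_M_ball (pveg_door_i hL hT) h))
    rw [Complex.sub_re]
    linarith
  · exact absurd (pveg_K_ball (pveg_door_i hL hT) hv) hoff

end old

/-! ## 4. any engine with the contract, inside the old room -/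

section any

variable {N : PvxNums} (hN : N.Ok) {c : ℝ} {𝔈 : PvieEng (pvxTau N)} {Cth : ℝ} {r κs : ℕ → ℝ} {m : ℕ} {t : pvxTau N}

/-- **`PvvdReg` OF 195 AT THE PARAMETERS OF RECORD**, any engine with the contract whose room `eY` lies in the old room and whose region `rO` lies in the old region -/
theorem pvvk_reg_of (c0 : 0 < c) (H : PvieEng.Wf (pvxParOf N hN c) 𝔈 N.m0 Cth r κs) (hm : N.m0 ≤ m) (hT : pviwTyOk (pvxParOf N hN c) t)
    (hY : 𝔈.eY m t ⊆ pveheY (pvxParOf N hN c) (pvegIM (pvxParOf N hN c)) m t ∪ pvegIK (pvxParOf N hN c) m t) (hO : 𝔈.rO m ⊆ pvehrO (pvxParOf N hN c) m) :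
    PvvdReg (pvxParOf N hN c) 𝔈 m t := by
  have P := pvea_par hN c0
  have hh := pvlm_H_pos m
  have hδ := pvlm_Del_pos c m
  have hμ := pvll_mu_del (pvxParOf N hN c) m
  have hμh := pvll_mu_h (pvxParOf N hN c) m
  have Z := P.geo m hm t hT
  have hD := pveh_Del_le_Dl Z.n0
  have h31 : N.rho3 ≤ 1 := by
    have a1 := hN.msk
    have a2 := hN.rho_lt_one
    have a3 : (0 : ℝ) ≤ N.g := Nat.cast_nonneg _
    nlinarith
  refine ⟨?_, pvvk_off H hm hT, pvvk_far H hm hT ?_ hN.rho0.le, pvvk_front_of (Δ := pvehDl (pvxParOf N hN c) m) (κ := pvehDl (pvxParOf N hN c) m / 64) hO ?_ (by linarith) (by linarith)⟩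
  · show N.m * pvlmH m + 4 * pvilMu (pvxParOf N hN c) m / 3 < N.a1 * pvlmH m
    have h1 : 1000 * pvilMu (pvxParOf N hN c) m ≤ N.rho3 * pvlmH m := hμh
    have h2 : N.m + 1 < N.a1 := by linarith [hN.m_gt, hN.m_lt, hN.B_lt]
    nlinarith
  · show N.a1 + 3 * N.rho / 5 ≤ 2 * N.b2 + (pvxoK t : ℝ) * N.rho1
    have a1 : (0 : ℝ) ≤ (pvxoK t : ℝ) * N.rho1 := mul_nonneg (Nat.cast_nonneg _) hN.rho1_pos.le
    linarith [hN.gap, hN.ab2, hN.b2_pos, hN.ab1, hN.rho_lt_one]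
  · intro a ha hb
    exact pvvk_old_blk (P.lev hm) (by linarith [P.fine m hm]) hT Z (hY ha) hb

/-- **`PvveReg` OF 85 AT THE PARAMETERS OF RECORD**: same hypotheses + (Rc) in the relative form of 22 + `3 μ ≤ r_u` -/
theorem pvvk_all_of (c0 : 0 < c) (H : PvieEng.Wf (pvxParOf N hN c) 𝔈 N.m0 Cth r κs) (hm : N.m0 ≤ m) (hT : pviwTyOk (pvxParOf N hN c) t)
    (hY : 𝔈.eY m t ⊆ pveheY (pvxParOf N hN c) (pvegIM (pvxParOf N hN c)) m t ∪ pvegIK (pvxParOf N hN c) m t) (hO : 𝔈.rO m ⊆ pvehrO (pvxParOf N hN c) m)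
    (hu : 3 * pvilMu (pvxParOf N hN c) m ≤ pvilRu 𝔈 m)
    (hc : ∀ v ∈ 𝔈.eY m t, closedBall v (3 * pvilMu (pvxParOf N hN c) m) ⊆ 𝔈.eM m t ∪ 𝔈.eK m t ∪ pviwRo (pvxParOf N hN c) 𝔈 m t) :
    PvveReg (pvxParOf N hN c) 𝔈 m t where
  pin := pvll_rec_pin N hN c m t
  ru3 := hu
  ru_win := H.rp_win m hm
  col := fun z => pvll_col_e hc z
  reg := pvvk_reg_of hN c0 H hm hT hY hO
  bdd := fun z Z _ => pvcyi_b_Wne H hm hT z Z

end any

/-! ## 5. at the engine of record, in the binders of `Exit/AnaV` (the type of the free numbers is not named: neutral for (B) of 9) -/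

section rec

variable {c : ℝ} {N : PvxNums} {hN : N.Ok} {𝔈 : PvieEng (pvxTau N)}

/-- [L2-PROOF: first branch = engine v2, second branch = `eY := pvvzEY` of 118] the room of record lies in the old room -/
theorem pvvk_eY_old (hR : PvnaRec N hN c 𝔈) (m : ℕ) (t : pvxTau N) : 𝔈.eY m t ⊆ pveheY (pvxParOf N hN c) (pvegIM (pvxParOf N hN c)) m t ∪ pvegIK (pvxParOf N hN c) m t := by
  obtain ⟨nb, rfl⟩ := hR
  first
    | exact Subset.rfl
    | exact pvvz_eY_old (pvvz_mu0 _ (fun m => (pvlm_Del_pos c m).le) hN.msk0.le m) t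

/-- [U4-PROOF: first branch = engine v2, second branch = `rO := pvnuRO` of 84] the region of the reference plug of record lies in the old region -/
theorem pvvk_rO_old (hR : PvnaRec N hN c 𝔈) (m : ℕ) : 𝔈.rO m ⊆ pvehrO (pvxParOf N hN c) m := by
  obtain ⟨nb, rfl⟩ := hR
  first
    | exact Subset.rfl
    | exact pvnu4_RO_sub hN.rho0 m

/-- **`PvvdReg` AT THE ENGINE OF RECORD** = the statement `exit_pvyu_reg` of `Exit/AnaV` v2.1 (142) VERBATIM -/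
theorem pvvk_reg_at (c0 : 0 < c) (N : PvxNums) (hN : N.Ok) (𝔈 : PvieEng (pvxTau N)) (hE : PvnaWf (pvxParOf N hN c) 𝔈) (hR : PvnaRec N hN c 𝔈) (m : ℕ) (t : pvxTau N)
    (hl : pvjtLv (pvxParOf N hN c) m t) : PvvdReg (pvxParOf N hN c) 𝔈 m t := by
  obtain ⟨Cth, r, κs, H⟩ := hE.wf
  exact pvvk_reg_of hN c0 H hl.1 hl.2 (pvvk_eY_old hR m t) (pvvk_rO_old hR m)

/-- **`PvveReg` AT THE ENGINE OF RECORD**, from (Rc) in the relative form of 22 -/
theorem pvvk_all_at (c0 : 0 < c) (N : PvxNums) (hN : N.Ok) (𝔈 : PvieEng (pvxTau N)) (hE : PvnaWf (pvxParOf N hN c) 𝔈) (hR : PvnaRec N hN c 𝔈) (m : ℕ) (t : pvxTau N)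
    (hl : pvjtLv (pvxParOf N hN c) m t)
    (hc : ∀ v ∈ 𝔈.eY m t, closedBall v (3 * pvilMu (pvxParOf N hN c) m) ⊆ 𝔈.eM m t ∪ 𝔈.eK m t ∪ pviwRo (pvxParOf N hN c) 𝔈 m t) : PvveReg (pvxParOf N hN c) 𝔈 m t := by
  obtain ⟨Cth, r, κs, H⟩ := hE.wf
  refine pvvk_all_of hN c0 H hl.1 hl.2 (pvvk_eY_old hR m t) (pvvk_rO_old hR m) ?_ hc
  obtain ⟨nb, rfl⟩ := hR
  exact pvll_rec_ru N hN c0 nb m

end rec

end Claimed.Agent.R289
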