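-- KEEP
import Claimed.Agent.R289.Tr.InstL
import Claimed.Agent.R289.Tr.LinkG
import Claimed.Agent.R289.Arm.Stat
import Claimed.Agent.R289.Defs.GdReg

/-!
# Row 289 (S0537), THE WALL, ROAD E, file Exit/FrcDefs : E10 AT THE MODEL = THE HYBRID ENDS ARE FORCED, DEFINITIONS AND CONTRACTS OF THE CUT      (helper35, cutter below (b) of `exit_pvie_gd`; prefix `pvje`, `Pvje`)

DEFS ONLY, AT THE NAMES OF `Tr/InstL` v2.2 (163) AND `Defs/GdReg` (256).   A leaf file (`Tr/FrcPr` 167, `Tr/FrcDet` 228, `Tr/FrcCar` 71, `Tr/LinkDet` 22, `Tr/HookT` 165 ..) imports THIS file;   the glue `Exit/FrcE.lean` states the sub-exits.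
THE THREE HYBRID ENDS of `Tr/InstL`: first link `t → door` (`pvilEo`), last link `door → t` (`pvilEi`), thick link `reference plug → t` (`pvilEe`) have ONE shape: one TIP of a half state (kept geometry, mouth recoloured), one resampled TILE, one DOOR TYPE PLUG.
* sec. 1  `PvjeEnd` = the data of one placed end (`Wz K D M G U Fz Hu Pl X`);   `E.y η₀ = M \ F`, window `E.Wn Z = Wz Z ∪ M ∪ K ∪ D`, kept part `E.Kp Z`, success `E.A ε η₀ = pvilFin Z (pvilSA ε (Wn Z) (Pl Z) X)` (v2.1: a.s. plain success AND plain value = soft value),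
          own experiment `E.R η₀ p`,   **`E.Frc ε q`** = the base configurations at which the end is FORCED: for a.e. seed of the own experiment, plug usable ⟹ `q ≤ pvdyQ ε K y A` (`= pvrgEnd` of 256 by `rfl`, sec. 5);   `PvjeEnd.Wf`
* sec. 2  `PvjeTest` = the tests of one end: copy pattern `𝒦` (window `O ⊆ M ∪ K`, threshold `t`), side event `ℋ` of the plug (read over `D ∪ K`, propensity `b`), plain plug `Cd`;   contract `PvjeTest.Ok` (PROBABILITY SIDE)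
* sec. 3  `PvjeFin E T η₀ η` = `η` IS A FINAL CONFIGURATION over the base `η₀` (no seed, no measure): nice, same sites as `η₀` on the kept part of the window, same colours on the kept sites which are not recoloured, plug usable AND plain, side event, copy pattern;
          **`PvjeDet E T η₀`** = DET: `ev` every final configuration has plain success with the hull of `η₀`;   `val` two final configurations which agree on the window have the same plain value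
* sec. 4  THE NICE EVENT OF THE ROOF OF 250 (`Tr/LinkG`: `pvlhg_forced`, `pvlhg_nice_up`, 0 sorry): `pvjeReg` (nice, one colour per site, usable ⟹ plain), `pvjeS` (final configurations at the hull `Z`), `pvjeN0` (+ soft value = plain value on `pvjeS`), `pvjeN` (measurable version)
          `pvjeCert` = the certificate of one end
* sec. 5  THE THREE ENDS AT THE MODEL, weight `w` generic: `pvjeO pvjeI pvjeE 𝔓 𝔈 w m ε z t`, identification with `pvilEoAt pvilEiAt pvilEeAt` and with `pvrgFo pvrgFi pvrgFe` by `rfl`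
-/

set_option autoImplicit false

namespace Claimed.Agent.R289

open Set MeasureTheory Filter Topology Claims.C0465
open scoped ENNReal

/-! ## 1. one hybrid end -/

/-- **ONE HYBRID END, PLACED**: `Wz Z` = the part of the window which carries the half state, resampled tile `K`, region `D` of the door type plug, recoloured mouth `M`, `G` = the plug is usable (colour form included), `U` = the half state exists,
base data `Fz` (frozen positions), `Hu` (hull), `Pl Z` = plain success of the link with the hull `Z` prescribed, `X` = the plain value -/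
structure PvjeEnd where
  Wz : Set (ℤ × ℤ) → Set ℂ
  K : Set ℂ
  D : Set ℂ
  M : Set ℂ
  G : Set (Conf PvPt)
  U : Set (Conf PvPt)
  Fz : Conf PvPt → Set ℂ
  Hu : Conf PvPt → Set (ℤ × ℤ)
  Pl : Set (ℤ × ℤ) → Set (Conf PvPt)
  X : Conf PvPt → ℂ

namespace PvjeEnd

variable (E : PvjeEnd)

/-- the recoloured sites at the base `η₀` (CONSTANT along the experiment) -/
def y (η₀ : Conf PvPt) : Set ℂ := E.M \ E.Fz η₀
/-- the window of the link -/
def Wn (Z : Set (ℤ × ℤ)) : Set ℂ := E.Wz Z ∪ E.M ∪ E.K ∪ E.D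
/-- the KEPT part of the window -/
def Kp (Z : Set (ℤ × ℤ)) : Set ℂ := (E.Wz Z ∪ E.M) \ (E.K ∪ E.D)
/-- success, local by definition, at the base data of `η₀` -/
def A (ε : ℝ) (η₀ : Conf PvPt) : Set (Conf PvPt) := pvilFin (E.Hu η₀) (pvilSA ε (E.Wn (E.Hu η₀)) (E.Pl (E.Hu η₀)) E.X)
/-- the own experiment of the end: tile and plug resampled, mouth recoloured -/
noncomputable def R (η₀ : Conf PvPt) (p : (ℂ → Bool) × Conf PvPt) : Conf PvPt := pvdyR (E.K ∪ E.D) (fun _ => E.y η₀) η₀ p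
/-- **THE END IS FORCED AT THE BASE `η₀`** -/
def Frc (ε : ℝ) (q : ℝ≥0∞) : Set (Conf PvPt) :=
  {η₀ | ∀ᵐ p ∂pvdyNu ε, E.R η₀ p ∈ E.G → q ≤ pvdyQ ε E.K (fun _ => E.y η₀) (E.A ε η₀) (E.R η₀ p)}

/-- the regions of one end, measurability, stopping -/
structure Wf (ε : ℝ) : Prop where
  mK : MeasurableSet E.K
  mD : MeasurableSet E.D
  mM : MeasurableSet E.M
  mWz : ∀ Z, MeasurableSet (E.Wz Z)
  bK : Bornology.IsBounded E.K
  bD : Bornology.IsBounded E.D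
  bM : Bornology.IsBounded E.M
  KD : Disjoint E.K E.D
  MK : Disjoint E.M E.K
  MD : Disjoint E.M E.D
  /-- the hull of a half state is finite -/
  fin : ∀ η₀ ∈ E.U, (E.Hu η₀).Finite
  /-- [MEAS] the plain value on the plain success -/
  mX : ∀ Z : Set (ℤ × ℤ), Z.Finite → AEMeasurable ((E.Pl Z).indicator E.X) (pvP ε)
  /-- the usable plug is read in its region -/
  rG : Conf.ReadsSet (E.D ×ˢ (univ : Set Bool)) E.G
  /-- [STOP] on `U` the own experiment is the experiment of a stopping choice (GUARDED: off `U` the choice `M \ ∅` is not stopping) -/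
  stop : ∃ yf : Conf PvPt → Set ℂ, PvdyStop yf ∧ ∀ η₀ ∈ E.U, ∀ p, pvdyR (E.K ∪ E.D) yf η₀ p = E.R η₀ p

end PvjeEnd

/-! ## 2. the tests of one end -/

/-- **THE TESTS OF ONE END**: `𝒦` = the copy pattern (ALL the lanes, arms and C-shapes, both colours), window `O`, threshold `t`;   `ℋ` = the side event of the plug (its two half lanes on the side of the link), propensity `b`;   `Cd` = the plain plug -/
structure PvjeTest where
  O : Set ℂ
  𝒦 : Set (Conf PvPt)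
  ℋ : Set (Conf PvPt)
  Cd : Set (Conf PvPt)
  t : ℝ≥0∞
  b : ℝ≥0∞

/-- **THE CONTRACT ON THE TESTS, PROBABILITY SIDE** -/
structure PvjeTest.Ok (T : PvjeTest) (E : PvjeEnd) (ε : ℝ) : Prop where
  mO : MeasurableSet T.O
  bO : Bornology.IsBounded T.O
  /-- the window of the pattern lies in mouth ∪ tile (so it misses the plug) -/
  O_sub : T.O ⊆ E.M ∪ E.K
  mK : MeasurableSet T.𝒦
  rK : Conf.ReadsSet (T.O ×ˢ (univ : Set Bool)) T.𝒦
  mH : MeasurableSet T.ℋ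
  rH : Conf.ReadsSet ((E.D ∪ E.K) ×ˢ (univ : Set Bool)) T.ℋ
  /-- soft threshold of the usable plugs -/
  thr : ∀ η ∈ E.G, T.b ≤ pvtiP (pvP ε) (E.D ×ˢ (univ : Set Bool)) T.ℋ η
  /-- a.s. a usable plug is a plain plug (`Sure ⟹ plain`) -/
  loc : ∀ᵐ η ∂pvP ε, η ∈ E.G → η ∈ T.Cd
  /-- ONE mixed order for the section of the side event (sites of the plug frozen, sites of the tile fresh) and for the copy pattern, at every site set whose window extends to a nice site set -/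
  up : ∀ (η₀ : Conf PvPt) (Y Fz : Set ℂ) (σ : ℂ → Bool), Y.Countable → (∃ η, PvatNice (cfSites η) ∧ cfSites η ∩ E.Wn (E.Hu η₀) = Y ∩ E.Wn (E.Hu η₀)) → Fz ⊆ Y → (∀ v ∈ Y, v ∈ E.D → v ∈ Fz) →
    (∀ v ∈ Fz, v ∉ E.K ∧ v ∉ E.y η₀) → ∃ s : ℂ → Option Bool, {z | s z ≠ none}.Countable ∧ PvlhUp s (pvlhSec Y Fz σ T.ℋ) ∧ PvlhUp s (pvlhCp Y T.𝒦)

/-! ## 3. DET on final configurations -/

/-- **`η` IS A FINAL CONFIGURATION OVER THE BASE `η₀`** (tile, plug, everything off the window arbitrary) -/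
structure PvjeFin (E : PvjeEnd) (T : PvjeTest) (η₀ η : Conf PvPt) : Prop where
  nice : PvatNice (cfSites η)
  one : ∀ p ∈ η.pts, ∀ q ∈ η.pts, p.1 = q.1 → p = q
  /-- the sites of the kept part of the window -/
  sites : cfSites η ∩ E.Kp (E.Hu η₀) = cfSites η₀ ∩ E.Kp (E.Hu η₀)
  /-- the colours of the kept sites which are not recoloured -/
  cols : ∀ v ∈ cfSites η₀ ∩ E.Kp (E.Hu η₀), v ∉ E.y η₀ → cfCol η v = cfCol η₀ v
  use : η ∈ E.G
  plug : η ∈ T.Cd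
  side : η ∈ T.ℋ
  /-- the fresh colours (tile, recoloured mouth) are those of a copy which carries the pattern -/
  copy : ∃ τ : ℂ → Bool, cfOf (cfSites η) τ ∈ T.𝒦 ∧ ∀ v ∈ cfSites η, v ∈ E.K ∪ E.y η₀ → cfCol η v = τ v

/-- **DET** at the base `η₀` -/
structure PvjeDet (E : PvjeEnd) (T : PvjeTest) (η₀ : Conf PvPt) : Prop where
  /-- plain success, with the hull of the base -/
  ev : ∀ η, PvjeFin E T η₀ η → η ∈ E.Pl (E.Hu η₀)
  /-- the plain value is read in the window -/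
  val : ∀ η η', PvjeFin E T η₀ η → PvjeFin E T η₀ η' →
    Conf.restr (E.Wn (E.Hu η₀) ×ˢ (univ : Set Bool)) η = Conf.restr (E.Wn (E.Hu η₀) ×ˢ (univ : Set Bool)) η' → E.X η = E.X η'

/-! ## 4. the nice event, the certificate -/

/-- the a.s. properties of ONE configuration: nice, one colour per site, a usable plug is plain -/
def pvjeReg (E : PvjeEnd) (T : PvjeTest) : Set (Conf PvPt) :=
  {η | PvatNice (cfSites η) ∧ (∀ p ∈ η.pts, ∀ q ∈ η.pts, p.1 = q.1 → p = q) ∧ (η ∈ E.G → η ∈ T.Cd)}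

/-- the final configurations over the bases with the hull `Z` at which DET holds -/
def pvjeS (E : PvjeEnd) (T : PvjeTest) (Z : Set (ℤ × ℤ)) : Set (Conf PvPt) := {η | ∃ η₀, E.Hu η₀ = Z ∧ PvjeDet E T η₀ ∧ PvjeFin E T η₀ η}

/-- regular, and on the final configurations the soft value is the plain value -/
def pvjeN0 (E : PvjeEnd) (T : PvjeTest) (ε : ℝ) : Set (Conf PvPt) :=
  {η | η ∈ pvjeReg E T ∧ ∀ Z : Finset (ℤ × ℤ), η ∈ pvjeS E T ↑Z → E.X η = pvilLoc ε (E.Wn ↑Z) (E.Pl ↑Z) E.X η}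

/-- **THE NICE EVENT** (measurable, almost sure, colour dependent) -/
def pvjeN (E : PvjeEnd) (T : PvjeTest) (ε : ℝ) : Set (Conf PvPt) := (toMeasurable (pvP ε) (pvjeN0 E T ε)ᶜ)ᶜ

/-- **THE CERTIFICATE OF ONE END**: good configuration, soft threshold of the copy pattern (196), nice along the own experiment at every finite hull, own certificate `Mc` of DET (meshes) -/
def pvjeCert (E : PvjeEnd) (T : PvjeTest) (ε : ℝ) (θ : ℝ≥0∞) (yf : Conf PvPt → Set ℂ) (Mc : Set (Conf PvPt)) : Set (Conf PvPt) :=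
  {η₀ | CfOK η₀ ∧ (cfSites η₀).Countable ∧ η₀ ∈ pvayGood2 ε E.K T.O T.𝒦 T.t θ ∧ η₀ ∈ Mc ∧
    ∀ Z : Finset (ℤ × ℤ), ∀ᵐ p ∂pvdyNu ε, ∀ᵐ ξ ∂pvP ε, Conf.spl (E.Wn ↑Z ×ˢ (univ : Set Bool)) (pvdyR (E.K ∪ E.D) yf η₀ p, ξ) ∈ pvjeN E T ε}

theorem pvje_eqns_cite : True := by
  have := @PvjeEnd.y.eq_1; have := @PvjeEnd.Wn.eq_1; have := @PvjeEnd.Kp.eq_1; have := @PvjeEnd.A.eq_1; have := @PvjeEnd.R.eq_1; have := @PvjeEnd.Frc.eq_1
  have := @pvjeReg.eq_1; have := @pvjeS.eq_1; have := @pvjeN0.eq_1; have := @pvjeN.eq_1; have := @pvjeCert.eq_1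
  trivial

/-! ## 5. the three ends at the model -/

section model

variable {τ : Type} {c : ℝ} (𝔓 : PvxPar τ c) (𝔈 : PvieEng τ) (w : ∀ η : Conf PvPt, (delbPl (pvieY η)).Dart → ℂ)

/-- **the first link `t → door`** -/
noncomputable def pvjeO (m : ℕ) (ε : ℝ) (z : ℂ) (t : τ) : PvjeEnd where
  Wz := pvilWz 𝔓 m z t
  K := pvieSh z (𝔈.oK m t)
  D := pvieDoor 𝔈 m ε (pvieZo 𝔓 m z t) ((𝔓.Γ m).dout t)
  M := pvieSh z (𝔈.oM m t)
  G := pvrgGk 𝔈 m ε (𝔓.col t) (pvieZo 𝔓 m z t) ((𝔓.Γ m).dout t)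
  U := pvilUo 𝔓.num (𝔓.col t) (pvilPin 𝔓 m z t)
  Fz := pvilFo 𝔓 m z t
  Hu := pvilZo 𝔓 m z t
  Pl := pvilMo 𝔓 𝔈 m ε z t
  X := (pvilLo 𝔓 𝔈 m z t).X 𝔓.num (𝔓.col t) w

/-- **the last link `door → t`** -/
noncomputable def pvjeI (m : ℕ) (ε : ℝ) (z : ℂ) (t : τ) : PvjeEnd where
  Wz := pvilWz 𝔓 m z t
  K := pvieSh z (𝔈.iK m t)
  D := pvieDoor 𝔈 m ε (pvieZi 𝔓 m z t) ((𝔓.Γ m).din t)
  M := pvieSh z (𝔈.iM m t)
  G := pvrgGk 𝔈 m ε (𝔓.col t) (pvieZi 𝔓 m z t) ((𝔓.Γ m).din t)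
  U := pvilUi 𝔓.num (𝔓.col t) (pvilPin 𝔓 m z t)
  Fz := pvilFi 𝔓 m z t
  Hu := pvilZi 𝔓 m z t
  Pl := pvilMi 𝔓 𝔈 m ε z t
  X := (pvilLi 𝔓 𝔈 m z t).X 𝔓.num (𝔓.col t) w

/-- **the thick link `reference plug → t`** -/
noncomputable def pvjeE (m : ℕ) (ε : ℝ) (z : ℂ) (t : τ) : PvjeEnd where
  Wz := pvilWz 𝔓 m z t
  K := pvieSh z (𝔈.eK m t)
  D := pvieSh (pvieZu 𝔓 m z t) (𝔈.rO m)
  M := pvieSh z (𝔈.eM m t)
  G := pvrgGr 𝔈 m ε (𝔓.col t) (pvieZu 𝔓 m z t)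
  U := pvilUi 𝔓.num (𝔓.col t) (pvilPin 𝔓 m z t)
  Fz := pvilFi 𝔓 m z t
  Hu := pvilZi 𝔓 m z t
  Pl := pvilMe 𝔓 𝔈 m z t
  X := (pvilLe 𝔓 𝔈 m z t).X 𝔓.num (𝔓.col t) w

variable (m : ℕ) (ε : ℝ) (z : ℂ) (t : τ) (η₀ : Conf PvPt)

theorem pvje_O_K : (pvilEoAt 𝔓 𝔈 m ε w z t η₀).K = (pvjeO 𝔓 𝔈 w m ε z t).K := rfl
theorem pvje_O_y : (pvilEoAt 𝔓 𝔈 m ε w z t η₀).y = fun _ => (pvjeO 𝔓 𝔈 w m ε z t).y η₀ := rfl
theorem pvje_O_A : (pvilEoAt 𝔓 𝔈 m ε w z t η₀).A = (pvjeO 𝔓 𝔈 w m ε z t).A ε η₀ := rfl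
theorem pvje_I_K : (pvilEiAt 𝔓 𝔈 m ε w z t η₀).K = (pvjeI 𝔓 𝔈 w m ε z t).K := rfl
theorem pvje_I_y : (pvilEiAt 𝔓 𝔈 m ε w z t η₀).y = fun _ => (pvjeI 𝔓 𝔈 w m ε z t).y η₀ := rfl
theorem pvje_I_A : (pvilEiAt 𝔓 𝔈 m ε w z t η₀).A = (pvjeI 𝔓 𝔈 w m ε z t).A ε η₀ := rfl
theorem pvje_E_K : (pvilEeAt 𝔓 𝔈 m ε w z t η₀).K = (pvjeE 𝔓 𝔈 w m ε z t).K := rfl
theorem pvje_E_y : (pvilEeAt 𝔓 𝔈 m ε w z t η₀).y = fun _ => (pvjeE 𝔓 𝔈 w m ε z t).y η₀ := rfl
theorem pvje_E_A : (pvilEeAt 𝔓 𝔈 m ε w z t η₀).A = (pvjeE 𝔓 𝔈 w m ε z t).A ε η₀ := rfl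

/-- **the named sets of 256 ARE the forced sets of the three ends** -/
theorem pvje_Fo (q : ℝ≥0∞) : pvrgFo 𝔓 𝔈 q m ε z t = (pvjeO 𝔓 𝔈 pvilQ m ε z t).Frc ε q := rfl
theorem pvje_Fi (q : ℝ≥0∞) : pvrgFi 𝔓 𝔈 q m ε z t = (pvjeI 𝔓 𝔈 pvilQ m ε z t).Frc ε q := rfl
theorem pvje_Fe (q : ℝ≥0∞) : pvrgFe 𝔓 𝔈 q m ε z t = (pvjeE 𝔓 𝔈 pvilQ m ε z t).Frc ε q := rfl

theorem pvje_eqns_cite2 : True := by
  have := @pvjeO.eq_1; have := @pvjeI.eq_1; have := @pvjeE.eq_1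
  trivial

end model

end Claimed.Agent.R289
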