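-- KEEP
import Claimed.Agent.R289.Exit.TrVH
import Claimed.Agent.R289.Exit.LocRec
import Claimed.Agent.R289.Tr.LinkDet
import Claimed.Agent.R289.Exit.AnaW
import Claimed.Agent.R289.Exit.TrVK

/-!
# Row 289 (S0537), THE WALL, ROAD E, file Exit/AnaV : THE SEAM (7) `V` OF `Exit/Ana` v4      (helper142, cutter of `exit_pvyq_pair`: T13 / T16 of 24; prefix `pvyu`)      v2 (14:15Z): (T) IS PAID

COMPILED GLUE from the cut on main to the statement (7) `pvna_V_at` of `Exit/Ana.lean` v4.1 VERBATIM (binders `hR hGR` of T12, T14).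
* **`pvyu_V_at`** = (7) VERBATIM := `pvyu_V_rec` (`Exit/TrVA`) at [W] `exit_pvww_jtwf` (13) and [R] `exit_pvww_recog` (132; its SECOND conjunct: weight `V`) of `Exit/AnaW.lean` (helper2: the two leaves of (6) `thick`, SHARED) and (T);
  `pvyu_pair_at` = the statement `exit_pvyq_pair` of `Exit/TrV.lean` (283) VERBATIM, from the same leaves.
* **`pvyu_T_at`** = (T) at the engine of record := **`pvve_T_reg`** of 85 (`Exit/TrVW`, 0 sorry: (T3) `pvve_H3`, (T4) `pvve_H4`, (T2) `pvvd_lk` of 195) at `pvyu_reg_at : PvveReg` at the engine of record.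
  v1 of this file had two leaves `exit_pvyu_lk` (T2), `exit_pvyu_fix` (T3): BOTH ARE GONE (no probability, no configuration is left under (T)).
* **`pvyu_reg_at`** : `PvveReg (pvxParOf N hN c) 𝔈 m t` under `hE hR` (the file does not name the type of `nb`: neutral for (B) of 9) = `pin` (`pvll_rec_pin`, 74), `ru3` (`pvll_rec_ru`, 74), `ru_win` (`pvll_rec_rp`, 74), `bdd` (`pvvu_Wb`, 61), and
  * `col` := **`exit_pvly_col_e`** (`Tr/LinkDet`, SHARED with `gd`: (Rc) of R22 for the room `eY`; moves with the swap L2 of the rooms)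
  * `reg` := **`exit_pvyu_reg`** = `PvvdReg` of 195 (`Tr/DictL`) at the engine of record: FOUR METRIC LINES ON REGIONS (`num off far front`), no configuration.      THE ONLY LEAF TYPED HERE      [195; 246 `Exit/TrVK`; 61]
A pen proves the leaf under HIS name in HIS file (imports: `Tr/DictL` + `Exit/EngRec`), tells 142 / 2 / 271: the sorry here becomes a citation.
-/

set_option autoImplicit false

namespace Claimed.Agent.R289

open Set MeasureTheory Filter Topology Claims.C0465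
open scoped ENNReal

section exits

variable {c : ℝ}

/-- **THE FOUR METRIC LINES OF (T2) AT THE ENGINE OF RECORD** (`PvvdReg` of 195): `num` the cut-off disc is inside the gate annulus, `off` = `res_off`, `far` the room `eY` stays outside the gate annulus of the pin,
`front` the margin `4 μ / 3` between the room and the WEST half of the region of the reference plug (W-7 of 208).      ANTITONE IN `eY`: survives the swap L2 (the new room is a subset of the old one)      **CLOSED (246, 14:30Z)** := `pvvk_reg_at` of `Exit/TrVK` (0 sorry; after L2 / U4 only `pvvk_eY_old pvvk_rO_old` move)      [195;  246;  61] -/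
theorem exit_pvyu_reg (c0 : 0 < c) (N : PvxNums) (hN : N.Ok) (𝔈 : PvieEng (pvxTau N)) (hE : PvnaWf (pvxParOf N hN c) 𝔈) (hR : PvnaRec N hN c 𝔈) (m : ℕ) (t : pvxTau N)
    (hl : pvjtLv (pvxParOf N hN c) m t) : PvvdReg (pvxParOf N hN c) 𝔈 m t :=
  pvvk_reg_at c0 N hN 𝔈 hE hR m t hl

/-- **ALL THE REGION LINES OF THE DETERMINISTIC HALF OF (T) AT THE ENGINE OF RECORD** -/
theorem pvyu_reg_at (c0 : 0 < c) (N : PvxNums) (hN : N.Ok) (𝔈 : PvieEng (pvxTau N)) (hE : PvnaWf (pvxParOf N hN c) 𝔈) (hR : PvnaRec N hN c 𝔈) (m : ℕ) (t : pvxTau N)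
    (hl : pvjtLv (pvxParOf N hN c) m t) : PvveReg (pvxParOf N hN c) 𝔈 m t := by
  have hreg := exit_pvyu_reg c0 N hN 𝔈 hE hR m t hl
  obtain ⟨nb, rfl⟩ := hR
  exact ⟨pvll_rec_pin N hN c m t, pvll_rec_ru N hN c0 nb m, pvll_rec_rp N hN c0 nb hl.1, pvll_col_e (exit_pvly_col_e N hN nb c0 hl.1 t), hreg, fun z Z _ => pvvu_Wb hE hl z Z⟩

/-- **(T) AT THE ENGINE OF RECORD** -/
theorem pvyu_T_at (c0 : 0 < c) (N : PvxNums) (hN : N.Ok) (𝔈 : PvieEng (pvxTau N)) (hE : PvnaWf (pvxParOf N hN c) 𝔈) (hR : PvnaRec N hN c 𝔈)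
    (Mk : ℕ → pvxTau N → Set ℂ) (hM : ∀ m t, MeasurableSet (Mk m t)) (q q' : ℝ≥0∞) (m : ℕ) (p : ℤ × ℤ) (t : pvxTau N) (hl : pvjtLv (pvxParOf N hN c) m t) :
    ∀ᶠ ε in 𝓝[>] (0 : ℝ), PvyuT (pvxParOf N hN c) 𝔈 (pvjtRetE 𝔈 Mk) q q' m ε (l9Pt (pvlmH m) p) t := by
  obtain ⟨b0, H⟩ := exit_pvww_jtwf c0 N hN 𝔈 hE hR
  filter_upwards [self_mem_nhdsWithin] with ε hε
  exact pvve_T_reg (H Mk 1 hM) (pvxo_wf N hN c).toWfB (pvvu_engB hE) hε (pvyu_reg_at c0 N hN 𝔈 hE hR m t hl) _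

/-- **the statement `exit_pvyq_pair` of `Exit/TrV.lean`** (283), VERBATIM -/
theorem pvyu_pair_at (c0 : 0 < c) (N : PvxNums) (hN : N.Ok) (𝔈 : PvieEng (pvxTau N)) (hE : PvnaWf (pvxParOf N hN c) 𝔈) (hR : PvnaRec N hN c 𝔈)
    (𝔊 : PvnaGd (pvxTau N)) (_hG : 𝔊.Wf (pvxParOf N hN c) 𝔈) (hGR : PvguRec (pvxParOf N hN c) 𝔈 𝔊) :
    ∃ (𝔲 : PvyqPlug (pvxTau N)) (D : PvekDat (pvxTau N)) (q p3 : ℝ≥0∞) (L : ℝ), 𝔲.Ok D (pvxParOf N hN c) q p3 L (pvxParOf N hN c).m0 ∧ ∀ m ε z t, 𝔊.all m ε z t ⊆ pvConf ⁻¹' D.Gd m ε z t := by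
  obtain ⟨b0, H⟩ := exit_pvww_jtwf c0 N hN 𝔈 hE hR
  obtain ⟨Mk, L, hM, -, hV⟩ := exit_pvww_recog c0 N hN 𝔈 hE hR
  exact pvyu_pair_rec (fun t => pvea_tyOk hN t) (H Mk L hM) hV hGR fun q q' _ _ m p t hl => pvyu_T_at c0 N hN 𝔈 hE hR Mk hM q q' m p t hl

/-- **(7) `V`** = the statement `pvna_V_at` of `Exit/Ana.lean` v4.1, VERBATIM -/
theorem pvyu_V_at (c0 : 0 < c) (N : PvxNums) (hN : N.Ok) (𝔈 : PvieEng (pvxTau N)) (hE : PvnaWf (pvxParOf N hN c) 𝔈) (hR : PvnaRec N hN c 𝔈)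
    (𝔊 : PvnaGd (pvxTau N)) (hG : 𝔊.Wf (pvxParOf N hN c) 𝔈) (hGR : PvguRec (pvxParOf N hN c) 𝔈 𝔊) :
    Nonempty (PvnaVL (pvxParOf N hN c) (pvxParOf N hN c).m0 𝔊.all) := by
  obtain ⟨𝔲, D, q, p3, L, hOk, hsub⟩ := pvyu_pair_at c0 N hN 𝔈 hE hR 𝔊 hG hGR
  exact ⟨hOk.toVL (pvxo_wf N hN c) (pvyq_hb N hN c) hsub⟩

end exits

end Claimed.Agent.R289
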