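-- KEEP
import Claimed.Agent.R289.Exit.Cyc1M
import Claimed.Agent.R289.Tr.ChainI
import Claimed.Agent.R289.Defs.GdReg

/-!
# Row 289 (S0537), THE WALL, ROAD E, Exit/Cyc1T : (REC) OF `cyc1`
-/

set_option autoImplicit false
set_option linter.unusedSectionVars false

namespace Claimed.Agent.R289

open MeasureTheory ProbabilityTheory Filter Topology Set Claims.C0465
open scoped ENNReal

/-! ## 1. model free: two window ends, a.e. forcing, the kit, the reference block give the record of 102 -/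

/-- **THE REFERENCE BLOCK** (fields of `PvjgCyc` which speak of `R` alone) -/
structure Pvcz1Ref (kit : PvthKit) (ε : ℝ) (R : PvjgRef) (qr : ℝ≥0∞) : Prop where
  mO : MeasurableSet R.O
  mK : MeasurableSet R.K
  mG : MeasurableSet R.G
  mA : MeasurableSet R.A
  mX : Measurable R.X
  rG : Conf.Reads (R.O ×ˢ univ) fun η => η ∈ R.G
  rA : Conf.Reads (R.Or kit ∪ R.K ×ˢ univ) fun η => η ∈ R.A
  rX : Conf.Reads (R.Or kit ∪ R.K ×ˢ univ) R.X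
  admr : pvP ε R.G ≠ 0
  qr0 : qr ≠ 0
  qr1 : qr ≤ 1
  frcr : ∀ᵐ η ∂(pvP ε), η ∈ kit.G R.p R.d → η ∈ R.G → qr ≤ pvtiP (pvP ε) (R.Or kit) R.A η
  sqr : ∫⁻ η, ‖R.X η‖ₑ ^ 2 * (kit.g (pvP ε) R.p R.d η * R.gr ε 0 η * R.wr kit ε η) ∂(pvP ε) ≠ ∞

section free

variable {kit : PvthKit} {ε : ℝ} {b : Bool} {X₀ : PvtTurn → Conf PvPt → ℂ} {z d : ℂ} {l : List PvtTurn} {R : PvjgRef} {u : ℂ} {ω : Conf PvPt} {C : Set ℂ} {yf : Conf PvPt → Set ℂ}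
  {eo ee : PvkyEnd} {Wo We : Set ℂ} {β' q qr qo qe : ℝ≥0∞}

/-- the usable states of the reference plug placed at `u` are read in its region -/
theorem pvcz1_rG (R : PvjgRef) (u : ℂ) (h : Conf.Reads (R.O ×ˢ univ) fun η => η ∈ R.G) : Conf.Reads (pvieSh u R.O ×ˢ univ) fun η => η ∈ cfMap (pvthInv u 1) ⁻¹' R.G := by
  rw [← pvjg_img]
  exact pvci_T_reads (pvciAff 1 u one_ne_zero).toEquiv h

/-- the weight of a forced funnel with ANY plug `1_G / c` is bounded -/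
theorem pvcz1_gw_le {Z : Type} {μ : Measure (Conf PvPt)} {f : PvkeFun Z} {G : Set (Conf PvPt)} {q : ℝ≥0∞} (hF : f.Frc μ G q) (c : ℝ≥0∞) (x : PvkeX Z PvPt) :
    G.indicator 1 x.2 / c * f.w μ x ≤ (c⁻¹ * q⁻¹) * (G.indicator 1 x.2 * f.A.indicator 1 x) := by
  by_cases hx : x.2 ∈ G
  · rw [indicator_of_mem hx, Pi.one_apply, one_div, mul_assoc, one_mul]
    exact mul_le_mul_right (pvtk_W_le (hF.frc x hx)) _
  · rw [indicator_of_notMem hx, ENNReal.zero_div, zero_mul]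
    exact zero_le

/-- second moment of a forced funnel with ANY plug `1_G / c`, `c ≠ 0`, from the plain second moment ON `G ∩ A` -/
theorem pvcz1_sq {Z : Type} {μ : Measure (Conf PvPt)} {f : PvkeFun Z} {G : Set (Conf PvPt)} {q c : ℝ≥0∞} (hF : f.Frc μ G q) (hc : c ≠ 0)
    (h2 : ∫⁻ x, ‖f.X x‖ₑ ^ 2 * (G.indicator 1 x.2 * f.A.indicator 1 x) ∂(pvkeLaw Z μ) ≠ ∞) :
    ∫⁻ x, ‖f.X x‖ₑ ^ 2 * (G.indicator 1 x.2 / c * f.w μ x) ∂(pvkeLaw Z μ) ≠ ∞ := by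
  have hc' : c⁻¹ * q⁻¹ ≠ ∞ := ENNReal.mul_ne_top (ENNReal.inv_ne_top.2 hc) (ENNReal.inv_ne_top.2 hF.q0)
  refine ne_top_of_le_ne_top (ENNReal.mul_ne_top h2 hc') ?_
  rw [← lintegral_mul_const' _ _ hc']
  refine lintegral_mono fun x => ?_
  calc ‖f.X x‖ₑ ^ 2 * (G.indicator 1 x.2 / c * f.w μ x) ≤ ‖f.X x‖ₑ ^ 2 * ((c⁻¹ * q⁻¹) * (G.indicator 1 x.2 * f.A.indicator 1 x)) := mul_le_mul_right (pvcz1_gw_le hF c x) _
    _ = ‖f.X x‖ₑ ^ 2 * (G.indicator 1 x.2 * f.A.indicator 1 x) * (c⁻¹ * q⁻¹) := by ring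

/-- the plain second moment on `G ∩ A` is not changed by the forced modification -/
theorem pvcz1_sq_frc {Z : Type} {μ : Measure (Conf PvPt)} {f : PvkeFun Z} {G : Set (Conf PvPt)} {q : ℝ≥0∞} (hb : ∀ᵐ x ∂(pvkeLaw Z μ), x.2 ∈ G → q ≤ pvueP μ f x) :
    ∫⁻ x, ‖(pvueFrc μ f G q).X x‖ₑ ^ 2 * (G.indicator 1 x.2 * (pvueFrc μ f G q).A.indicator 1 x) ∂(pvkeLaw Z μ) = ∫⁻ x, ‖f.X x‖ₑ ^ 2 * (G.indicator 1 x.2 * f.A.indicator 1 x) ∂(pvkeLaw Z μ) := by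
  refine lintegral_congr_ae ?_
  filter_upwards [pvue_frc_ae hb] with x hx
  show ‖f.X x‖ₑ ^ 2 * _ = _
  congr 2
  by_cases h : x ∈ f.A
  · rw [indicator_of_mem h, indicator_of_mem (hx.2 h)]
  · rw [indicator_of_notMem h, indicator_of_notMem fun hh => h (hx.1 hh)]

/-- the plain second moment on `G ∩ A` of the canonical funnel, on configurations;   `G` is read inside `C` -/
theorem pvcz1_sq_fun (ε : ℝ) (b : Bool) (C : Set ℂ) (yf : Conf PvPt → Set ℂ) (ω : Conf PvPt) (e : PvkyEnd) {G : Set (Conf PvPt)} {O : Set PvPt} (rG : Conf.Reads O fun η => η ∈ G) (hO : O ⊆ C ×ˢ univ) :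
    ∫⁻ x, ‖(pvkyFun b C yf ω e).X x‖ₑ ^ 2 * (G.indicator 1 x.2 * (pvkyFun b C yf ω e).A.indicator 1 x) ∂(pvkeLaw ℂ (pvP ε)) =
      ∫⁻ p, ‖e.X (pvdyR C yf ω p)‖ₑ ^ 2 * (G.indicator 1 (pvkyFl b (pvdyR C yf ω p)) * e.A.indicator 1 (pvdyR C yf ω p)) ∂pvdyNu ε := by
  rw [pvky_lintegral_phi b ε C yf (fun η => ‖e.X η‖ₑ ^ 2 * (G.indicator 1 (pvkyFl b η) * e.A.indicator 1 η))]
  refine lintegral_congr fun x => ?_
  have e1 : G.indicator (1 : Conf PvPt → ℝ≥0∞) (pvkyFl b (pvkyPhi b C yf ω x)) = G.indicator 1 x.2 := pvky_reads_phi (pvti_ind_reads rG) hO x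
  rw [e1]
  rfl

/-- **FORCING, FROM THE OWN EXPERIMENT TO THE EXPERIMENT OF THE CYCLE** (through its window the end link does not see which experiment is run; 218 `PvkyiGd.frc_big` for ANY plug) -/
theorem pvcz1_frc_big {e : PvkyEnd} {D Wn : Set ℂ} {G : Set (Conf PvPt)} (h : PvueWin ω C yf e D Wn) (rG : Conf.Reads (D ×ˢ univ) fun η => η ∈ G)
    (hf : ∀ᵐ p ∂pvdyNu ε, pvkyFl b (pvdyR (e.K ∪ D) e.y ω p) ∈ G → q ≤ pvdyQ ε e.K e.y e.A (pvdyR (e.K ∪ D) e.y ω p)) :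
    ∀ᵐ p ∂pvdyNu ε, pvkyFl b (pvdyR C yf ω p) ∈ G → q ≤ pvdyQ ε e.K e.y e.A (pvdyR C yf ω p) := by
  filter_upwards [hf] with p hp hG
  have e1 : (pvkyFl b (pvdyR C yf ω p) ∈ G) = (pvkyFl b (pvdyR (e.K ∪ D) e.y ω p) ∈ G) := h.pvkyi_door b rG p
  rw [h.pvkyi_own (h.pvkyi_rQ ε) p]
  exact hp (e1 ▸ hG)

/-- **SECOND MOMENT, FROM THE OWN EXPERIMENT TO THE EXPERIMENT OF THE CYCLE** -/
theorem pvcz1_sq_big {e : PvkyEnd} {D Wn : Set ℂ} {G : Set (Conf PvPt)} (h : PvueWin ω C yf e D Wn) (rG : Conf.Reads (D ×ˢ univ) fun η => η ∈ G)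
    (hs : ∫⁻ p, ‖e.X (pvdyR (e.K ∪ D) e.y ω p)‖ₑ ^ 2 * (G.indicator 1 (pvkyFl b (pvdyR (e.K ∪ D) e.y ω p)) * e.A.indicator 1 (pvdyR (e.K ∪ D) e.y ω p)) ∂pvdyNu ε ≠ ∞) :
    ∫⁻ p, ‖e.X (pvdyR C yf ω p)‖ₑ ^ 2 * (G.indicator 1 (pvkyFl b (pvdyR C yf ω p)) * e.A.indicator 1 (pvdyR C yf ω p)) ∂pvdyNu ε ≠ ∞ := by
  have e1 : ∀ p, ‖e.X (pvdyR C yf ω p)‖ₑ ^ 2 * (G.indicator 1 (pvkyFl b (pvdyR C yf ω p)) * e.A.indicator 1 (pvdyR C yf ω p)) =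
      ‖e.X (pvdyR (e.K ∪ D) e.y ω p)‖ₑ ^ 2 * (G.indicator 1 (pvkyFl b (pvdyR (e.K ∪ D) e.y ω p)) * e.A.indicator 1 (pvdyR (e.K ∪ D) e.y ω p)) := fun p => by
    rw [h.pvkyi_own h.rX p, h.pvkyi_own (pvti_ind_reads h.rA) p, h.pvkyi_door b (pvti_ind_reads rG) p]
  simp_rw [e1]
  exact hs

/-- **THE RECORD OF THE CYCLE (102) FROM TWO WINDOW ENDS (141)**: what is left to the model = the kit, the reference block, the geometry, the a.e. forcing along the experiment, two plain second moments -/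
theorem pvcz1_cyc (hk : kit.WF) (hX : kit.Fld X₀) (hF : kit.Forced (pvP ε) β' q) (hd : d ^ 4 = 1) (q1 : q ≤ 1)
    (sq : ∀ τ, ∫⁻ η, ‖X₀ τ η‖ₑ ^ 2 * kit.w2 (pvP ε) 0 1 τ η ∂(pvP ε) ≠ ∞) (hR : Pvcz1Ref kit ε R qr)
    (last_z : pvthZ kit.δ z d l l.length = u + R.p) (last_d : pvthD d l l.length = R.d)
    (wo : PvueWin ω C yf eo (pvkyDoor kit z d) Wo) (we : PvueWin ω C yf ee (pvieSh u R.O) We)
    (geo : PvkeGeo kit z d l (pvkyFun b C yf ω eo) (pvkyFun b C yf ω ee))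
    (rO_O : ∀ i ≤ l.length, Disjoint (pvkeO kit z d l i) (pvieSh u R.O ×ˢ univ)) (rO_K : ∀ j < l.length, Disjoint (pvieSh u R.O ×ˢ (univ : Set Bool)) (pvkeK kit z d l j))
    (rK_O : ∀ i ≤ l.length, Disjoint (pvkeO kit z d l i) (pvieSh u R.K ×ˢ univ)) (rK_K : ∀ j < l.length, Disjoint (pvkeK kit z d l j) (pvieSh u R.K ×ˢ univ))
    (rO_rK : Disjoint (pvieSh u R.O) (pvieSh u R.K)) (rO_o : Disjoint (pvieSh u R.O) eo.K) (rO_e : Disjoint (pvieSh u R.O) ee.K)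
    (rK_o : Disjoint (pvieSh u R.K) eo.K) (rK_e : Disjoint (pvieSh u R.K) ee.K)
    (CO : ∀ j ≤ l.length, pvkeO kit z d l j ⊆ C ×ˢ univ) (CK : ∀ j < l.length, pvkeK kit z d l j ⊆ C ×ˢ univ) (CrK : pvieSh u R.K ⊆ C)
    (qo0 : qo ≠ 0) (qo1 : qo ≤ 1) (qe0 : qe ≠ 0) (qe1 : qe ≤ 1)
    (Qo : ∀ᵐ p ∂pvdyNu ε, pvkyFl b (pvdyR C yf ω p) ∈ kit.G z d → qo ≤ pvdyQ ε eo.K eo.y eo.A (pvdyR C yf ω p))
    (Qe : ∀ᵐ p ∂pvdyNu ε, pvkyFl b (pvdyR C yf ω p) ∈ cfMap (pvthInv u 1) ⁻¹' R.G → qe ≤ pvdyQ ε ee.K ee.y ee.A (pvdyR C yf ω p))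
    (so : ∫⁻ p, ‖eo.X (pvdyR C yf ω p)‖ₑ ^ 2 * ((kit.G z d).indicator 1 (pvkyFl b (pvdyR C yf ω p)) * eo.A.indicator 1 (pvdyR C yf ω p)) ∂pvdyNu ε ≠ ∞)
    (se : ∫⁻ p, ‖ee.X (pvdyR C yf ω p)‖ₑ ^ 2 * ((cfMap (pvthInv u 1) ⁻¹' R.G).indicator 1 (pvkyFl b (pvdyR C yf ω p)) * ee.A.indicator 1 (pvdyR C yf ω p)) ∂pvdyNu ε ≠ ∞) :
    PvjgCyc kit ε b X₀ z d l R u ω C yf eo ee (pvueFrc (pvP ε) (pvkyFun b C yf ω eo) (kit.G z d) qo)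
      (pvueFrc (pvP ε) (pvkyFun b C yf ω ee) (cfMap (pvthInv u 1) ⁻¹' R.G) qe) β' q qr qo qe := by
  have hd0 : d ≠ 0 := pvth_ne_zero (pvth_norm_of_pow hd)
  have hG0 : pvP ε kit.G₀ ≠ 0 := fun h0 => hF.β0 (le_antisymm (h0 ▸ hF.adm) zero_le)
  have eZ : pvthZ kit.δ z d l 0 = z := pvthx_Z_zero _ _ _ _
  have eD : pvthD d l 0 = d := pvthx_D_zero _ _
  have eO : pvkeO kit z d l 0 = kit.O z d := by show kit.O _ _ = _; rw [eZ, eD]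
  have CrO : pvieSh u R.O ⊆ C := subset_union_right.trans we.sub
  have oko : (pvkyFun b C yf ω eo).Ok (kit.O z d) := (wo.rd b).ok
  have oke : (pvkyFun b C yf ω ee).Ok (pvieSh u R.O ×ˢ univ) := (we.rd b).ok
  have rGo := pvth_rG hk z d hd0
  have rGe := pvcz1_rG R u hR.rG
  have mGe : MeasurableSet (cfMap (pvthInv u 1) ⁻¹' R.G) := measurable_cfMap (pvth_measurable_inv u 1) hR.mG
  have hbo : ∀ᵐ x ∂(pvkeLaw ℂ (pvP ε)), x.2 ∈ kit.G z d → qo ≤ pvueP (pvP ε) (pvkyFun b C yf ω eo) x :=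
    pvue_ae_of_Q ((wo.rd b).ag ε) oko.mK oko.mA rGo (eO ▸ CO 0 (Nat.zero_le _)) Qo
  have hbe : ∀ᵐ x ∂(pvkeLaw ℂ (pvP ε)), x.2 ∈ cfMap (pvthInv u 1) ⁻¹' R.G → qe ≤ pvueP (pvP ε) (pvkyFun b C yf ω ee) x :=
    pvue_ae_of_Q ((we.rd b).ag ε) oke.mK oke.mA rGe (prod_mono CrO subset_rfl) Qe
  have fro : (pvueFrc (pvP ε) (pvkyFun b C yf ω eo) (kit.G z d) qo).Frc (pvP ε) (kit.G z d) qo :=
    pvue_frc_frc (pv_isPpp ε) oko rGo (eO ▸ geo.oO 0 (Nat.zero_le _)) qo0 qo1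
  have fre : (pvueFrc (pvP ε) (pvkyFun b C yf ω ee) (cfMap (pvthInv u 1) ⁻¹' R.G) qe).Frc (pvP ε) (cfMap (pvthInv u 1) ⁻¹' R.G) qe :=
    pvue_frc_frc (pv_isPpp ε) oke rGe (pvkyi_disj_prod rO_e) qe0 qe1
  exact
    { wf := hk, fld := hX, frc := hF, dir := hd, sq := sq, last_z := last_z, last_d := last_d
      mO := hR.mO, mK := hR.mK, mG := hR.mG, mA := hR.mA, mX := hR.mX, rG := hR.rG, rA := hR.rA, rX := hR.rX, admr := hR.admr, q1 := q1, qr0 := hR.qr0, qr1 := hR.qr1, frcr := hR.frcr, sqr := hR.sqr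
      geo := ⟨geo.OO, geo.KK, geo.OK, geo.oO, geo.iO, geo.oK, geo.iK, geo.oi, geo.UU⟩
      rO_O := rO_O, rO_K := rO_K, rK_O := rK_O, rK_K := rK_K
      rO_rK := pvkyi_disj_prod rO_rK, rO_o := pvkyi_disj_prod rO_o, rO_e := pvkyi_disj_prod rO_e, rK_o := pvkyi_disj_prod rK_o, rK_e := pvkyi_disj_prod rK_e
      ok_o := by rw [eO]; exact pvue_frc_ok (pv_isPpp ε) oko (pvth_mG hk z d) rGo qo
      ok_e := pvue_frc_ok (pv_isPpp ε) oke mGe rGe qe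
      frc_o := by rw [eZ, eD]; exact fro
      frc_e := fre
      sq_o := by
        rw [eZ, eD]
        refine pvcz1_sq fro hG0 ?_
        rw [pvcz1_sq_frc hbo, pvcz1_sq_fun ε b C yf ω eo rGo (eO ▸ CO 0 (Nat.zero_le _))]
        exact so
      sq_e := by
        refine pvcz1_sq fre hR.admr ?_
        rw [pvcz1_sq_frc hbe, pvcz1_sq_fun ε b C yf ω ee rGe (prod_mono CrO subset_rfl)]
        exact se
      CO := CO, CK := CK, CrO := CrO, CrK := CrK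
      ag_o := pvue_frc_ag ((wo.rd b).ag ε) hbo, ag_e := pvue_frc_ag ((we.rd b).ag ε) hbe
      loc_o := pvue_frc_ag ((wo.rd b).loc ε) hbo, loc_e := pvue_frc_ag ((we.rd b).loc ε) hbe }

end free

end Claimed.Agent.R289
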