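-- KEEP
import Claimed.Agent.R289.Exit.ParEngY
import Claimed.Agent.R289.Exit.ParEngR

/-!
# Row 289 (S0537), THE WALL, ROAD E, file Exit/ParEngZ : THE COLLAR OF THE LANES OF A CORRIDOR OF BLOCKS      (helper245; prefix `pvez_`, `pvez`)      0 sorry

TOOL for (Rc) / (Re) of R22 / R23 (1') at the thick rooms `eY fY` (pens 285 `Exit/ParRoom`, 118 `Exit/ThickCR`; 124 13:37Z: this file stops here).
* `pvez_ref` : in the reference cell, a point within `κ ≤ 1/10` of the lane `[-1/10, 4/10]` of a letter lies in the closed cell, or in the strip of depth `κ` behind the entrance, or in the strip of depth `κ` beyond the exit (in the frame of the next door)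
* **`pvez_lane_collar`** (MODEL FREE, any corridor of blocks `(z, Δ u, l)`, `u ^ 4 = 1`): the closed ball of radius `μ ≤ Δ / 10` round a point of `pvfeLanes (-(1/10)) (4/10) z (Δ u) l` lies in
  the closed blocks `pvehSq (pvccC ..) (Δ / 2)` ∪ the strip `pvezSm (μ / Δ)` behind the first door ∪ the strip `pvezSp (μ / Δ)` beyond the last door
* sec. 2  **(Rc) OF THE ROOM `rY` OF 166: TRUE AS IT STANDS** (R25 of 234): `pvezWest Δ` (west half of the closed block), `pvez_west_collar`, `pvez_west_sub`, `pvez_RY_collar` (ROBUST: start of the room at `δ/64` or `δ/160`; the west half is the union `rK ∪ rO ∪ door` before AND after (U4)),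
  at the parameters **`pvez_rY_west`**, **`pvez_rY_collar`**, `pvez_rY_core` (form of 22 / 74: `rY ⊆ pvtrCore (3 μ₀) W` for every `W ⊇` west half)
-/

set_option autoImplicit false

namespace Claimed.Agent.R289

open Set Metric Complex

/-! ## 1. the collar of a lane -/

/-- the strip of depth `κ` behind a door (reference frame) -/
def pvezSm (κ : ℝ) : Set ℂ := {w | -κ ≤ w.re ∧ w.re ≤ 0 ∧ |w.im| ≤ 1 / 2}

/-- the strip of depth `κ` beyond a door (reference frame) -/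
def pvezSp (κ : ℝ) : Set ℂ := {w | 0 ≤ w.re ∧ w.re ≤ κ ∧ |w.im| ≤ 1 / 2}

theorem pvez_Sm_sub {κ : ℝ} (h : κ ≤ 1) : pvezSm κ ⊆ pvehSq (-(1 / 2)) (1 / 2) := by
  rintro w ⟨h1, h2, h3⟩
  rw [abs_le] at h3
  rw [pveh_mem_sq]
  simp only [neg_re, neg_im, div_ofNat_re, div_ofNat_im, one_re, one_im]
  exact ⟨⟨by linarith, by linarith⟩, by linarith [h3.1], by linarith [h3.2]⟩

theorem pvez_Sp_sub {κ : ℝ} (h : κ ≤ 1) : pvezSp κ ⊆ pvehSq (1 / 2) (1 / 2) := by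
  rintro w ⟨h1, h2, h3⟩
  rw [abs_le] at h3
  rw [pveh_mem_sq]
  simp only [div_ofNat_re, div_ofNat_im, one_re, one_im]
  exact ⟨⟨by linarith, by linarith⟩, by linarith [h3.1], by linarith [h3.2]⟩

/-- **in the reference cell** -/
theorem pvez_ref (τ : PvtTurn) {κ : ℝ} (h1 : κ ≤ 1 / 10) {w w' : ℂ} (hw : w ∈ pvfeLane (-(1 / 10)) (4 / 10) τ) (hd : ‖w' - w‖ ≤ κ) :
    w' ∈ pvehSq (1 / 2) (1 / 2) ∨ w' ∈ pvezSm κ ∨ ∃ w'', w'' ∈ pvezSp κ ∧ w' = τ.mid + τ.rot * w'' := by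
  have hre := abs_le.1 ((Complex.abs_re_le_norm _).trans hd)
  have him := abs_le.1 ((Complex.abs_im_le_norm _).trans hd)
  rw [sub_re] at hre
  rw [sub_im] at him
  have cell : (0 ≤ w'.re ∧ w'.re ≤ 1 ∧ -(1 / 2) ≤ w'.im ∧ w'.im ≤ 1 / 2) → w' ∈ pvehSq (1 / 2) (1 / 2) := by
    rintro ⟨a1, a2, a3, a4⟩
    rw [pveh_mem_sq]
    simp only [div_ofNat_re, div_ofNat_im, one_re, one_im]
    exact ⟨⟨by linarith, by linarith⟩, by linarith, by linarith⟩
  cases τ with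
  | S =>
    obtain ⟨a1, a2, a3, a4⟩ := hw
    by_cases c1 : w'.re < 0
    · exact Or.inr (Or.inl ⟨by linarith [hre.1], c1.le, abs_le.2 ⟨by linarith [him.1], by linarith [him.2]⟩⟩)
    by_cases c2 : 1 < w'.re
    · refine Or.inr (Or.inr ⟨w' - 1, ⟨?_, ?_, ?_⟩, ?_⟩)
      · simp only [sub_re, one_re]; linarith
      · simp only [sub_re, one_re]; linarith [hre.2]
      · simp only [sub_im, one_im, sub_zero]; exact abs_le.2 ⟨by linarith [him.1], by linarith [him.2]⟩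
      · simp only [PvtTurn.mid, PvtTurn.rot]; ring
    · exact Or.inl (cell ⟨by linarith, by linarith, by linarith [him.1], by linarith [him.2]⟩)
  | L =>
    by_cases c1 : w'.re < 0
    · rcases hw with ⟨a1, a2, a3, a4⟩ | ⟨a1, a2, a3, a4⟩
      · exact Or.inr (Or.inl ⟨by linarith [hre.1], c1.le, abs_le.2 ⟨by linarith [him.1], by linarith [him.2]⟩⟩)
      · exfalso; linarith [hre.1]
    by_cases c2 : 1 / 2 < w'.im
    · rcases hw with ⟨a1, a2, a3, a4⟩ | ⟨a1, a2, a3, a4⟩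
      · exfalso; linarith [him.2]
      · refine Or.inr (Or.inr ⟨-I * (w' - (1 + I) / 2), ⟨?_, ?_, ?_⟩, ?_⟩)
        · simp [Complex.mul_re]; linarith
        · simp [Complex.mul_re]; linarith [him.2]
        · simp [Complex.mul_im]; exact abs_le.2 ⟨by linarith [hre.2], by linarith [hre.1]⟩
        · simp only [PvtTurn.mid, PvtTurn.rot]
          linear_combination (w' - (1 + I) / 2) * Complex.I_mul_I
    · refine Or.inl (cell ⟨by linarith, ?_, ?_, by linarith⟩)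
      · rcases hw with ⟨a1, a2, a3, a4⟩ | ⟨a1, a2, a3, a4⟩ <;> linarith [hre.2]
      · rcases hw with ⟨a1, a2, a3, a4⟩ | ⟨a1, a2, a3, a4⟩ <;> linarith [him.1]
  | R =>
    by_cases c1 : w'.re < 0
    · rcases hw with ⟨a1, a2, a3, a4⟩ | ⟨a1, a2, a3, a4⟩
      · exact Or.inr (Or.inl ⟨by linarith [hre.1], c1.le, abs_le.2 ⟨by linarith [him.1], by linarith [him.2]⟩⟩)
      · exfalso; linarith [hre.1]
    by_cases c2 : w'.im < -(1 / 2)
    · rcases hw with ⟨a1, a2, a3, a4⟩ | ⟨a1, a2, a3, a4⟩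
      · exfalso; linarith [him.1]
      · refine Or.inr (Or.inr ⟨I * (w' - (1 - I) / 2), ⟨?_, ?_, ?_⟩, ?_⟩)
        · simp [Complex.mul_re]; linarith
        · simp [Complex.mul_re]; linarith [him.1]
        · simp [Complex.mul_im]; exact abs_le.2 ⟨by linarith [hre.1], by linarith [hre.2]⟩
        · simp only [PvtTurn.mid, PvtTurn.rot]
          linear_combination (w' - (1 - I) / 2) * Complex.I_mul_I
    · refine Or.inl (cell ⟨by linarith, ?_, by linarith, ?_⟩)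
      · rcases hw with ⟨a1, a2, a3, a4⟩ | ⟨a1, a2, a3, a4⟩ <;> linarith [hre.2]
      · rcases hw with ⟨a1, a2, a3, a4⟩ | ⟨a1, a2, a3, a4⟩ <;> linarith [him.2]

theorem pvez_D (Δ : ℝ) {u : ℂ} (hu : u ^ 4 = 1) (l : List PvtTurn) (j : ℕ) : pvccD u l j ^ 4 = 1 ∧ pvccD ((Δ : ℂ) * u) l j = (Δ : ℂ) * pvccD u l j :=
  ⟨pvccD_pow_four hu l j, by rw [pvccD_cov, pvccD_cov u]; ring⟩

/-- **THE COLLAR OF THE LANES OF A CORRIDOR OF BLOCKS** -/
theorem pvez_lane_collar {Δ : ℝ} (hΔ : 0 < Δ) {u : ℂ} (hu : u ^ 4 = 1) (z : ℂ) (l : List PvtTurn) {μ : ℝ} (h1 : μ ≤ Δ / 10) {v : ℂ}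
    (hv : v ∈ pvfeLanes (-(1 / 10)) (4 / 10) z ((Δ : ℂ) * u) l) :
    closedBall v μ ⊆ (⋃ j ∈ Finset.range l.length, pvehSq (pvccC z ((Δ : ℂ) * u) l j) (Δ / 2)) ∪ pvccPl z ((Δ : ℂ) * u) (pvezSm (μ / Δ)) ∪
      pvccPl (pvccZ z ((Δ : ℂ) * u) l l.length) (pvccD ((Δ : ℂ) * u) l l.length) (pvezSp (μ / Δ)) := by
  unfold pvfeLanes at hv
  simp only [mem_iUnion, exists_prop, Finset.mem_range] at hv
  obtain ⟨j, hj, w, hw, rfl⟩ := hv
  intro x hx
  rw [mem_closedBall_iff_norm] at hx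
  have hκ : μ / Δ ≤ 1 / 10 := by rw [div_le_iff₀ hΔ]; linarith
  have hκ1 : μ / Δ ≤ 1 := by linarith
  obtain ⟨hU, hD⟩ := pvez_D Δ hu l j
  have hΔc : (Δ : ℂ) ≠ 0 := by exact_mod_cast hΔ.ne'
  have hU0 : pvccD u l j ≠ 0 := by
    intro h
    rw [h] at hU
    norm_num at hU
  have hD0 : pvccD ((Δ : ℂ) * u) l j ≠ 0 := by rw [hD]; exact mul_ne_zero hΔc hU0
  have hDn : ‖pvccD ((Δ : ℂ) * u) l j‖ = Δ := by
    rw [hD, norm_mul, pveg_norm_unit hU, mul_one, Complex.norm_real, Real.norm_of_nonneg hΔ.le]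
  set Z := pvccZ z ((Δ : ℂ) * u) l j with hZ
  set D := pvccD ((Δ : ℂ) * u) l j with hDD
  set w' : ℂ := (x - Z) / D with hw'
  have ex : x = Z + D * w' := by rw [hw']; field_simp; ring
  have hd : ‖w' - w‖ ≤ μ / Δ := by
    have e : w' - w = (x - (Z + D * w)) / D := by rw [hw']; field_simp; ring
    rw [e, norm_div, hDn]
    exact div_le_div_of_nonneg_right hx hΔ.le
  have blk : ∀ k, k < l.length → ∀ y, y ∈ pvehSq (pvccC z ((Δ : ℂ) * u) l k) (Δ / 2) →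
      y ∈ (⋃ j ∈ Finset.range l.length, pvehSq (pvccC z ((Δ : ℂ) * u) l j) (Δ / 2)) ∪ pvccPl z ((Δ : ℂ) * u) (pvezSm (μ / Δ)) ∪
        pvccPl (pvccZ z ((Δ : ℂ) * u) l l.length) (pvccD ((Δ : ℂ) * u) l l.length) (pvezSp (μ / Δ)) := by
    intro k hk y hy
    refine Or.inl (Or.inl ?_)
    simp only [mem_iUnion, exists_prop, Finset.mem_range]
    exact ⟨k, hk, hy⟩
  rcases pvez_ref (pvccT l j) hκ hw hd with h | h | ⟨w'', h, e⟩
  · refine blk j hj x ?_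
    have : x ∈ pvccPl Z ((Δ : ℂ) * pvccD u l j) (pvehSq (1 / 2) (1 / 2)) := ⟨w', h, by rw [← hD]; exact ex.symm⟩
    rw [pveh_pl_sq hΔ _ hU] at this
    have e1 : pvccC z ((Δ : ℂ) * u) l j = Z + (Δ : ℂ) * pvccD u l j * (1 / 2) := by rw [pvccC, ← hD]; ring
    have e2 : Δ / 2 = Δ * (1 / 2) := by ring
    rw [e1, e2]
    exact this
  · rcases Nat.eq_zero_or_pos j with rfl | hj0
    · refine Or.inl (Or.inr ⟨w', h, ?_⟩)
      have a1 : Z = z := by rw [hZ, pvccZ_zero]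
      have a2 : D = (Δ : ℂ) * u := by rw [hDD, pvccD_zero]
      show z + (Δ : ℂ) * u * w' = x
      rw [ex, a1, a2]
    · obtain ⟨k, rfl⟩ : ∃ k, j = k + 1 := ⟨j - 1, by omega⟩
      refine blk k (by omega) x ?_
      have : x ∈ pvccPl Z ((Δ : ℂ) * pvccD u l (k + 1)) (pvehSq (-(1 / 2)) (1 / 2)) := ⟨w', pvez_Sm_sub hκ1 h, by rw [← hD]; exact ex.symm⟩
      rw [pveh_pl_sq hΔ _ hU] at this
      have e1 : pvccC z ((Δ : ℂ) * u) l k = Z + (Δ : ℂ) * pvccD u l (k + 1) * (-(1 / 2)) := by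
        rw [← pvccC_prev z ((Δ : ℂ) * u) l (show k < l.length by omega), ← hD]; ring
      have e2 : Δ / 2 = Δ * (1 / 2) := by ring
      rw [e1, e2]
      exact this
  · have ex' : x = pvccZ z ((Δ : ℂ) * u) l (j + 1) + pvccD ((Δ : ℂ) * u) l (j + 1) * w'' := by
      rw [pvccZ_succ z _ l hj, pvccD_succ _ l hj, ex, e]; ring
    rcases Nat.lt_or_ge (j + 1) l.length with hlt | hge
    · refine blk (j + 1) hlt x ?_
      obtain ⟨hU', hD'⟩ := pvez_D Δ hu l (j + 1)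
      have : x ∈ pvccPl (pvccZ z ((Δ : ℂ) * u) l (j + 1)) ((Δ : ℂ) * pvccD u l (j + 1)) (pvehSq (1 / 2) (1 / 2)) := ⟨w'', pvez_Sp_sub hκ1 h, by rw [← hD']; exact ex'.symm⟩
      rw [pveh_pl_sq hΔ _ hU'] at this
      have e1 : pvccC z ((Δ : ℂ) * u) l (j + 1) = pvccZ z ((Δ : ℂ) * u) l (j + 1) + (Δ : ℂ) * pvccD u l (j + 1) * (1 / 2) := by rw [pvccC, ← hD']; ring
      have e2 : Δ / 2 = Δ * (1 / 2) := by ring
      rw [e1, e2]
      exact this
    · have hl : j + 1 = l.length := by omega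
      refine Or.inr ⟨w'', h, ?_⟩
      rw [← hl]
      exact ex'.symm

theorem pvez_eqns_cite : True := by
  have := @pvezSm.eq_1; have := @pvezSp.eq_1
  trivial

/-! ## 2. (Rc) for the room `rY` -/

/-- the WEST half of the closed block of the reference plug (centre `0`) -/
def pvezWest (Δ : ℝ) : Set ℂ := {w | w ∈ pvehSq 0 (Δ / 2) ∧ w.re < 0}

theorem pvez_west_collar {Δ μ : ℝ} {v : ℂ} (h1 : -(Δ / 2) + μ ≤ v.re) (h2 : v.re < -μ) (h3 : -(Δ / 2) + μ ≤ v.im) (h4 : v.im ≤ Δ / 2 - μ) : closedBall v μ ⊆ pvezWest Δ := by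
  intro w hw
  rw [mem_closedBall_iff_norm] at hw
  have hre := abs_le.1 ((Complex.abs_re_le_norm _).trans hw)
  have him := abs_le.1 ((Complex.abs_im_le_norm _).trans hw)
  rw [sub_re] at hre
  rw [sub_im] at him
  refine ⟨?_, by linarith [hre.2]⟩
  rw [pveh_mem_sq]
  simp only [zero_re, zero_im]
  exact ⟨⟨by linarith [hre.1], by linarith [hre.2]⟩, by linarith [him.1], by linarith [him.2]⟩

/-- the west half is tile ∪ plug region ∪ door region, WHATEVER the door region -/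
theorem pvez_west_sub (Dr : Set ℂ) (Δ : ℝ) : pvezWest Δ ⊆ pvehRK Dr Δ ∪ pvehO Δ ∪ Dr := by
  rintro w ⟨h1, h2⟩
  by_cases a1 : w ∈ pvehO Δ
  · exact Or.inl (Or.inr a1)
  by_cases a2 : w ∈ Dr
  · exact Or.inr a2
  exact Or.inl (Or.inl ⟨h1, h2, a1, a2⟩)

/-- **(Rc) for `rY`**, all numbers arguments -/
theorem pvez_RY_collar {δ Δ μ : ℝ} (hδ : 0 < δ) (h1 : μ ≤ δ / 160) (h2 : δ ≤ Δ) {v : ℂ} (hv : v ∈ pvehRY δ Δ) : closedBall v μ ⊆ pvezWest Δ := by
  obtain ⟨a1, a2, a3, a4⟩ := hv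
  exact pvez_west_collar (by linarith) (by linarith) (by linarith) (by linarith)

section par

variable {τ : Type} {c : ℝ} {𝔓 : PvxPar τ c}

theorem pvez_del_le_Dl {m : ℕ} (hn : 0 ≤ pvxrNw 𝔓 m) : pvlmDel c m ≤ pvehDl 𝔓 m := by
  have h1 : (0 : ℝ) ≤ (pvxrNw 𝔓 m : ℝ) := by exact_mod_cast hn
  have h2 := pvlm_Del_pos c m
  unfold pvehDl
  nlinarith

/-- **(Rc) for `rY` at the parameters**, robust form -/
theorem pvez_rY_west {m : ℕ} (hn : 0 ≤ pvxrNw 𝔓 m) (O0 : ℕ → Set ℂ) {v : ℂ} (hv : v ∈ pvehrY 𝔓 O0 m) : closedBall v (3 * pvilMu 𝔓 m) ⊆ pvezWest (pvehDl 𝔓 m) := by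
  have hμ := pvey_mu_le (𝔓 := 𝔓) m
  have hδ := pvlm_Del_pos c m
  exact pvez_RY_collar hδ (by linarith) (pvez_del_le_Dl hn) hv

/-- **(Rc) for `rY` at the parameters**, regions of 166 -/
theorem pvez_rY_collar {m : ℕ} (hn : 0 ≤ pvxrNw 𝔓 m) (O0 : ℕ → Set ℂ) {v : ℂ} (hv : v ∈ pvehrY 𝔓 O0 m) :
    closedBall v (3 * pvilMu 𝔓 m) ⊆ pvehrK 𝔓 O0 m ∪ pvehrO 𝔓 m ∪ pvehDr 𝔓 O0 m := (pvez_rY_west hn O0 hv).trans (pvez_west_sub _ _)

/-- the form of 22 / 74 (`pvly_reg_r`, `pvll_tr_r`): every window which contains the west half -/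
theorem pvez_rY_core {m : ℕ} (hn : 0 ≤ pvxrNw 𝔓 m) (O0 : ℕ → Set ℂ) {W : Set ℂ} (hW : pvezWest (pvehDl 𝔓 m) ⊆ W) : pvehrY 𝔓 O0 m ⊆ pvtrCore (3 * pvilMu 𝔓 m) W :=
  fun _ hv => (pvez_rY_west hn O0 hv).trans hW

end par

theorem pvez_eqns_cite2 : True := by
  have := @pvezWest.eq_1
  trivial

end Claimed.Agent.R289
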