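-- KEEP
import Claimed.Agent.R289.Exit.EngU4
import Claimed.Agent.R289.Exit.ParEngZ

/-!
# Row 289 (S0537), THE WALL, ROAD E, file Exit/EngU4L : THE REGIONS OF U4, LEMMAS FOR THE CONSUMERS      (pen helper84; lemmas `pvnu5_*`; `Exit/EngU4` does not move)

`Δ = pvehDl 𝔓 m`, `u = pvurRu 𝔓 m = Δ/20`, `rO' = pvnuRO 𝔓 m = pvccSq 0 (13 Δ / 80)`, `zu = (pvxrGam 𝔓 m).zu t`.
* HALVES: **`pvnu5_west_sub`** : `pvezWest Δ ⊆ rK' ∪ rO' ∪ Dr` (245);   **`pvnu5_east_sub`** : `pvehEast Δ zu ⊆ eK' ∪ (zu + rO') ∪ iM`;   **`pvnu5_westF_sub`** : `pvefWest Δ zu ⊆ fK' ∪ (zu + rO') ∪ oM`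
* EXPLICIT: `pvnu5_mem_RK` (`rK'` = West half of the closed block minus `rO'` minus the door region), `pvnu5_mem_AW`, `pvnu5_mem_AE`
* ROOM OF `r`: `pvnu5_RY_west`, **`pvnu5_RY_collar`** ((Rc): `closedBall v (3 pvilMu) ⊆ rK' ∪ rO' ∪ Dr`), `pvnu5_RY_core`, `pvnu5_RY_closed _convex _bdd`
-/

set_option autoImplicit false

namespace Claimed.Agent.R289

open Set Metric Complex

section lem

variable {τ : Type} {c : ℝ} {𝔓 : PvxPar τ c}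

theorem pvnu5_mem_AW {O O' : Set ℂ} {w : ℂ} : w ∈ pvnuAW O O' ↔ w ∈ O ∧ w ∉ O' ∧ w.re < 0 := ⟨fun h => ⟨h.1.1, h.1.2, h.2⟩, fun h => ⟨⟨h.1, h.2.1⟩, h.2.2⟩⟩

theorem pvnu5_mem_AE {O O' : Set ℂ} {w : ℂ} : w ∈ pvnuAE O O' ↔ w ∈ O ∧ w ∉ O' ∧ 0 ≤ w.re := ⟨fun h => ⟨h.1.1, h.1.2, h.2⟩, fun h => ⟨⟨h.1, h.2.1⟩, h.2.2⟩⟩

/-- **the West half of the closed block of the plug is tile ∪ window ∪ door region, AFTER U4** -/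
theorem pvnu5_west_sub (O0 : ℕ → Set ℂ) (m : ℕ) : pvezWest (pvehDl 𝔓 m) ⊆ pvnuRK 𝔓 O0 m ∪ pvnuRO 𝔓 m ∪ pvehDr 𝔓 O0 m := by
  intro w hw
  rcases pvez_west_sub (pvehDr 𝔓 O0 m) _ hw with (h | h) | h
  · exact Or.inl (Or.inl (Or.inl h))
  · by_cases h1 : w ∈ pvnuRO 𝔓 m
    · exact Or.inl (Or.inr h1)
    · exact Or.inl (Or.inl (Or.inr ⟨⟨h, h1⟩, hw.2⟩))
  · exact Or.inr h

/-- **the East half of the closed block of the plug is tile ∪ window ∪ mouth, AFTER U4** -/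
theorem pvnu5_east_sub {m : ℕ} (hΓ : 𝔓.Γ m = pvxrGam 𝔓 m) (t : τ) :
    pvehEast (pvehDl 𝔓 m) ((pvxrGam 𝔓 m).zu t) ⊆ pvnuEK 𝔓 m t ∪ pvieSh ((pvxrGam 𝔓 m).zu t) (pvnuRO 𝔓 m) ∪ pvegIM 𝔓 m t := by
  intro w hw
  unfold pvnuEK
  rw [hΓ]
  by_cases h1 : w ∈ pvegIM 𝔓 m t
  · exact Or.inr h1
  by_cases h2 : w ∈ pvccSq ((pvxrGam 𝔓 m).zu t) (pvehDl 𝔓 m / 4)
  · rw [← pveh_sh_rO (𝔓 := 𝔓)] at h2
    by_cases h3 : w ∈ pvieSh ((pvxrGam 𝔓 m).zu t) (pvnuRO 𝔓 m)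
    · exact Or.inl (Or.inr h3)
    · refine Or.inl (Or.inl (Or.inr (pveh_mem_sh.2 ⟨⟨pveh_mem_sh.1 h2, fun h => h3 (pveh_mem_sh.2 h)⟩, ?_⟩)))
      show 0 ≤ (w - (pvxrGam 𝔓 m).zu t).re
      rw [sub_re]
      linarith [hw.2]
  · exact Or.inl (Or.inl (Or.inl (Or.inl ⟨Or.inl hw, fun h => h.elim h2 h1⟩)))

/-- **the West half of the closed block of the plug is tile of `f` ∪ window ∪ exit mouth, AFTER U4** -/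
theorem pvnu5_westF_sub {m : ℕ} (hΓ : 𝔓.Γ m = pvxrGam 𝔓 m) (t : τ) :
    pvefWest (pvehDl 𝔓 m) ((pvxrGam 𝔓 m).zu t) ⊆ pvnuFK 𝔓 m t ∪ pvieSh ((pvxrGam 𝔓 m).zu t) (pvnuRO 𝔓 m) ∪ pvegOM 𝔓 m t := by
  intro w hw
  unfold pvnuFK
  rw [hΓ]
  by_cases h1 : w ∈ pvegOM 𝔓 m t
  · exact Or.inr h1
  by_cases h2 : w ∈ pvccSq ((pvxrGam 𝔓 m).zu t) (pvehDl 𝔓 m / 4)
  · rw [← pveh_sh_rO (𝔓 := 𝔓)] at h2
    by_cases h3 : w ∈ pvieSh ((pvxrGam 𝔓 m).zu t) (pvnuRO 𝔓 m)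
    · exact Or.inl (Or.inr h3)
    · refine Or.inl (Or.inl (Or.inr (pveh_mem_sh.2 ⟨⟨pveh_mem_sh.1 h2, fun h => h3 (pveh_mem_sh.2 h)⟩, ?_⟩)))
      show (w - (pvxrGam 𝔓 m).zu t).re < 0
      rw [sub_re]
      linarith [hw.2]
  · exact Or.inl (Or.inl (Or.inl ⟨Or.inr hw, fun h => h.elim h2 h1⟩))

/-- **`rK'`, explicit**: the West half of the closed block, minus the window, minus the door region -/
theorem pvnu5_mem_RK (hρ : 0 < 𝔓.num.rho) {O0 : ℕ → Set ℂ} {m : ℕ} (hD : Disjoint (pvehrO 𝔓 m) (pvehDr 𝔓 O0 m)) {w : ℂ} :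
    w ∈ pvnuRK 𝔓 O0 m ↔ w ∈ pvehSq 0 (pvehDl 𝔓 m / 2) ∧ w.re < 0 ∧ w ∉ pvnuRO 𝔓 m ∧ w ∉ pvehDr 𝔓 O0 m := by
  have hΔ := pvur_Dl_pos hρ m
  constructor
  · rintro (h | h)
    · exact ⟨h.1, h.2.1, fun h1 => h.2.2.1 (pvnu4_RO_sub hρ m h1), h.2.2.2⟩
    · exact ⟨pveh_O_sub hΔ.le h.1.1, h.2, h.1.2, Set.disjoint_left.1 hD h.1.1⟩
  · rintro ⟨h1, h2, h3, h4⟩
    by_cases h5 : w ∈ pvehrO 𝔓 m
    · exact Or.inr ⟨⟨h5, h3⟩, h2⟩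
    · exact Or.inl ⟨h1, h2, h5, h4⟩

/-- the collar of the room of `r` stays in the West half of the block -/
theorem pvnu5_RY_west {m : ℕ} (hn : 0 ≤ pvxrNw 𝔓 m) {v : ℂ} (hv : v ∈ pvnuRY 𝔓 m) : closedBall v (3 * pvilMu 𝔓 m) ⊆ pvezWest (pvehDl 𝔓 m) := by
  have hμ := pvey_mu_le (𝔓 := 𝔓) m
  have hδ := pvlm_Del_pos c m
  have h2 := pvez_del_le_Dl (𝔓 := 𝔓) hn
  obtain ⟨a1, a2, a3, a4⟩ := pvnu4_mem_RY.1 hv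
  exact pvez_west_collar (by linarith) (by linarith) (by linarith) (by linarith)

/-- **(Rc) for `rY`, AFTER U4** -/
theorem pvnu5_RY_collar {m : ℕ} (hn : 0 ≤ pvxrNw 𝔓 m) (O0 : ℕ → Set ℂ) {v : ℂ} (hv : v ∈ pvnuRY 𝔓 m) :
    closedBall v (3 * pvilMu 𝔓 m) ⊆ pvnuRK 𝔓 O0 m ∪ pvnuRO 𝔓 m ∪ pvehDr 𝔓 O0 m := (pvnu5_RY_west hn hv).trans (pvnu5_west_sub O0 m)

/-- the form of 22 / 74: every window which contains the West half -/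
theorem pvnu5_RY_core {m : ℕ} (hn : 0 ≤ pvxrNw 𝔓 m) {W : Set ℂ} (hW : pvezWest (pvehDl 𝔓 m) ⊆ W) : pvnuRY 𝔓 m ⊆ pvtrCore (3 * pvilMu 𝔓 m) W :=
  fun _ hv => (pvnu5_RY_west hn hv).trans hW

theorem pvnu5_RY_closed (m : ℕ) : IsClosed (pvnuRY 𝔓 m) :=
  (isClosed_le continuous_const continuous_re).inter ((isClosed_le continuous_re continuous_const).inter
    ((isClosed_le continuous_const continuous_im).inter (isClosed_le continuous_im continuous_const)))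

theorem pvnu5_RY_convex (m : ℕ) : Convex ℝ (pvnuRY 𝔓 m) :=
  (convex_halfSpace_re_ge _).inter ((convex_halfSpace_re_le _).inter ((convex_halfSpace_im_ge _).inter (convex_halfSpace_im_le _)))

theorem pvnu5_RY_bdd (m : ℕ) : Bornology.IsBounded (pvnuRY 𝔓 m) := by
  refine (Metric.isBounded_closedBall (x := (0 : ℂ)) (r := max |-(pvehDl 𝔓 m / 2) + pvlmDel c m / 160| |-(pvehDl 𝔓 m / 64)| + max |-(pvehDl 𝔓 m / 10)| |4 * pvehDl 𝔓 m / 10|)).subset ?_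
  intro w hw
  obtain ⟨h1, h2, h3, h4⟩ := pvnu4_mem_RY.1 hw
  rw [mem_closedBall_zero_iff]
  exact (Complex.norm_le_abs_re_add_abs_im w).trans (add_le_add (abs_le_max_abs_abs h1 h2) (abs_le_max_abs_abs h3 h4))

end lem

end Claimed.Agent.R289
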