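-- KEEP
import Claimed.Agent.R289.Tr.InstL
import Claimed.Agent.R289.Tr.ForceP
import Claimed.Agent.R289.Tr.Sure
import Claimed.Agent.R289.Exit.LaneQ
import Claimed.Agent.R289.Tr.FrcM
import Claimed.Agent.R289.Tr.FrcDetL
import Claimed.Agent.R289.Tr.PlugFrcR
import Claimed.Agent.R289.Tr.HookGI
import Claimed.Agent.R289.Tr.LinkDet
import Claimed.Agent.R289.Tr.DilK

/-!
# Row 289 (S0537), THE WALL, ROAD E, file Exit/FrcR : THE LINK `door plug → reference plug` IS FORCED, THE ROOF      (helper233, post T11 of 24; prefix `pvr2_`, `Pvr2`)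

TARGET (161 id 90399; consumers `Tr/CycI` 161, `PvjgCyc.frcr` 102, `Pvl3CycOkF.frc` 214, mass `= 1`, `kin0`):
  `∃ q ≠ 0, ∀ᶠ ε in 𝓝[>] 0, ∀ᵐ η ∂pvP ε, η ∈ (𝔈.kit m ε).G pin0 din0 → η ∈ 𝔈.rG m ε → q ≤ pvtiP (pvP ε) (pvieOr 𝔓 𝔈 m ε) (pvilAr 𝔓 𝔈 m ε w) η`
BOTH plugs are KEPT (states), everything else is fresh: no base configuration, no certificate: NOT an instance of `PvjeEnd` (35), but of the forced connector `pvfp_forced_ev` (`Tr/ForceP`).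
* sec. 1  MODEL FREE, PROVED: `pvr2_sure` (`ev` + `val` + [MEAS] of the value ⟹ a.s. `S ⊆ Sure_Wn (M ∩ {F = Loc})`; NO measurability of `M`),   `pvr2_abs` (forced connector with a target `T ⊇ A` a.s. on the usable pairs)
* sec. 2  THE CONTRACT `Pvr2Ok 𝔓 𝔈 m w X` on the data `X : Pvr2Dat` (one connector `D`, the two plain plugs `C₁ C₂`, `n`, `β`) AND THE ROOF **`pvr2_frc`** (PROVED): `Pvr2Ok ⟹ TARGET`
* sec. 3  [SC] side events of 174 under a similarity `w ↦ z + a w`, `a ≠ 0` (FRAME AND SCALE): `PvhfReg.sim`, **`PvhfReg.Wf.sim`**, **`PvhfIs.sim`** : `PvhfIs 𝔯 σ L → PvhfIs (𝔯.sim z a) σ (cfMap (pvthInv z a) ⁻¹' L)`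
* sec. 4  THE LAYOUT `Λ : Pvr2Lay` (regions `𝔯 𝔯'` of the two sides in absolute position, ANY side events `Lp Lm`, state regions `O O'`, fine cells `s`, full walks `L β`, zones `K β`, tile `Et`, fine mesh `μ`, window `W`, room `KE`), connector `Λ.D`,
          contract `Λ.Ok` (REGIONS AND WALKS + `is is' wf wf'`);   PROVED from it: `pvr2_lay_ok` (`D.Ok`), `pvr2_lay_up_ae`, `pvr2_lay_rA`, `pvr2_lay_cost`, **`pvr2_lay_det`** (fine mesh of `W`, gates of record, `PvzlRun` in `KE`; over `pvdt_det` of 294)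
* sec. 5  `Pvr2Fit 𝔓 𝔈 m Λ` (the layout sits on the data of record), `pvr2_ev` (over `pvhg_il_Lr` of 90), **`pvr2_ok_of_lay`** : `Λ.Ok + Pvr2Fit + ENDS (rG thr loc) + [MEAS] (mW mX: 146 `Exit/MeasM`) ⟹ Pvr2Ok 𝔓 𝔈 m w ⟨Λ.D, Λ.Cm Λ.O, Λ.Cm Λ.O', n, β⟩`   (`val` over `pvly_tr_r` of 22)
-/

set_option autoImplicit false

namespace Claimed.Agent.R289

open Set MeasureTheory Filter Topology Metric Claims.C0465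
open scoped ENNReal

/-! ## 1. model free -/

/-- **SOFT LOCALISATION WITHOUT MEASURABILITY OF `M`**: `N` = a.s. regular configurations, `S` stable under a change off the window among them, `ev : S ⊆ M`, `val` : the value is read in the window on `S` -/
theorem pvr2_sure {ε : ℝ} {Wn : Set ℂ} (hW : MeasurableSet Wn) {N M S : Set (Conf PvPt)} {F : Conf PvPt → ℂ} (hN : ∀ᵐ η ∂pvP ε, η ∈ N)
    (hF : AEMeasurable (M.indicator F) (pvP ε))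
    (st : ∀ η η', η ∈ N → η' ∈ N → η ∈ S → Conf.restr (Wn ×ˢ (univ : Set Bool)) η = Conf.restr (Wn ×ˢ (univ : Set Bool)) η' → η' ∈ S)
    (ev : ∀ η, η ∈ N → η ∈ S → η ∈ M)
    (val : ∀ η η', η ∈ N → η' ∈ N → η ∈ S → η' ∈ S → Conf.restr (Wn ×ˢ (univ : Set Bool)) η = Conf.restr (Wn ×ˢ (univ : Set Bool)) η' → F η = F η') :
    ∀ᵐ σ ∂pvP ε, σ ∈ S → σ ∈ pvilSA ε Wn M F := by
  have hp := pv_isPpp ε
  have := hp.prob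
  have mW : MeasurableSet (Wn ×ˢ (univ : Set Bool)) := hW.prod MeasurableSet.univ
  have hd : PvsuDet (pvP ε) (Wn ×ˢ (univ : Set Bool)) S (M.indicator F) := by
    refine pvsu_det_of_nice hp mW hN ?_
    intro η η' h1 h2 h3 e
    have h4 := st η η' h1 h2 h3 e
    rw [indicator_of_mem (ev η h1 h3), indicator_of_mem (ev η' h2 h4)]
    exact val η η' h1 h2 h3 h4 e
  have hall : ∀ᵐ η ∂pvP ε, η ∈ N ∧ (η ∈ S → η ∈ M ∩ {η | F η = pvilLoc ε Wn M F η}) := by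
    filter_upwards [hN, pvsu_loc_eq hp mW hF hd] with η h1 h2
    refine ⟨h1, fun hS => ⟨ev η h1 hS, ?_⟩⟩
    have h3 := h2 hS
    rw [indicator_of_mem (ev η h1 hS)] at h3
    exact h3.symm
  filter_upwards [hN, pvsu_ae_spl hp mW hall] with σ h1 h2 hS
  show pvtiP (pvP ε) (Wn ×ˢ univ) (toMeasurable (pvP ε) (M ∩ {η | F η = pvilLoc ε Wn M F η})) σ = 1
  refine pvsu_P_of_ae ?_
  filter_upwards [h2] with ξ h3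
  exact subset_toMeasurable _ _ (h3.2 (st σ _ h1 h3.1 hS (Conf.restr_spl_of_subset subset_rfl σ ξ).symm))

/-- **THE FORCED CONNECTOR WITH A TARGET**, eventually in `ε`, uniformly over the connectors whose walks have at most `n` cells -/
theorem pvr2_abs {q0 : ℝ} (hq0 : 0 < q0) (hq1 : q0 ≤ 1) (hQ : PvlqQbx q0) (n : ℕ) {β : ℝ} (hβ : 0 < β) :
    ∃ U : ℝ, 1 ≤ U ∧ ∀ ε : ℝ, 0 < ε → ∀ D : PvfpConn, D.Ok → U * ε ≤ D.δ → D.L₁.length ≤ n → D.L₂.length ≤ n → ∀ G T : Set (Conf PvPt),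
      Conf.ReadsSet D.OO G → (∀ᵐ σ ∂pvP ε, D.Up ε σ) →
      (∀ σ ∈ G, ENNReal.ofReal β ≤ pvtiP (pvP ε) D.O D.Lp σ) → (∀ σ ∈ G, ENNReal.ofReal β ≤ pvtiP (pvP ε) D.O' D.Lm σ) →
      (∀ᵐ σ ∂pvP ε, pvtiP (pvP ε) D.OO D.Eᶜ σ ≤ ENNReal.ofReal (β ^ 2 / 4)) →
      (∀ᵐ η ∂pvP ε, η ∈ G → η ∈ D.A → η ∈ T) →
      ∀ᵐ σ ∂pvP ε, σ ∈ G → ENNReal.ofReal ((q0 ^ (15 * n) / 2) ^ 2 * (β ^ 2 / 2)) ≤ pvtiP (pvP ε) D.OO T σ := by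
  obtain ⟨U, hU1, hU⟩ := pvfp_forced_ev hq0 hq1 hQ n hβ
  refine ⟨U, hU1, fun ε hε D hD hδ n1 n2 G T rG up t1 t2 cost tgt => ?_⟩
  have mOO : MeasurableSet D.OO := hD.mO.union hD.mO'
  filter_upwards [up, cost, pvsu_P_mono_on (pv_isPpp ε) mOO (fun η => propext (rG η)) tgt] with σ a1 a2 a3 hG
  exact (hU ε hε D hD hδ n1 n2 σ a1 (t1 σ hG) (t2 σ hG) a2).trans (a3 hG)

/-! ## 2. the contract and the roof -/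

/-- **THE DATA OF THE FORCED `r`-LINK AT THE LEVEL `m`** (free of `ε`): one connector, the two plain plugs, the length of the walks, the propensity -/
structure Pvr2Dat where
  D : PvfpConn
  /-- the plain door plug, the plain reference plug (gate of record, lanes, mesh of the region) -/
  C₁ : Set (Conf PvPt)
  C₂ : Set (Conf PvPt)
  n : ℕ
  β : ℝ

section roof

variable {τ : Type} {c : ℝ} (𝔓 : PvxPar τ c) (𝔈 : PvieEng τ)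

/-- the usable pairs of states of the `r`-link -/
def pvr2G (m : ℕ) (ε : ℝ) : Set (Conf PvPt) := (𝔈.kit m ε).G (𝔓.Γ m).pin0 (𝔓.Γ m).din0 ∩ 𝔈.rG m ε

/-- the regular configurations: nice, good, a usable plug is plain -/
def pvr2N (X : Pvr2Dat) (m : ℕ) (ε : ℝ) : Set (Conf PvPt) :=
  {η | PvatNice (cfSites η) ∧ CfOK η ∧ (η ∈ (𝔈.kit m ε).G (𝔓.Γ m).pin0 (𝔓.Γ m).din0 → η ∈ X.C₁) ∧ (η ∈ 𝔈.rG m ε → η ∈ X.C₂)}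

theorem pvr2_eqns_cite : True := by
  have := @pvr2G.eq_1; have := @pvr2N.eq_1
  trivial

/-- **THE CONTRACT** (all fields at ONE level `m`, eventually in `ε`) -/
structure Pvr2Ok (m : ℕ) (w : ∀ η : Conf PvPt, (delbPl (pvieY η)).Dart → ℂ) (X : Pvr2Dat) : Prop where
  β_pos : 0 < X.β
  /-- [GEO] the connector (regions, walks, zones; `glue` is free: take `A := Lp ∩ Lm ∩ Net ∩ E`) -/
  ok : X.D.Ok
  len₁ : X.D.L₁.length ≤ X.n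
  len₂ : X.D.L₂.length ≤ X.n
  /-- [GEO] the two state regions are those of record -/
  hO : ∀ᶠ ε in 𝓝[>] (0 : ℝ), X.D.O = pvieDoor 𝔈 m ε (𝔓.Γ m).pin0 (𝔓.Γ m).din0 ×ˢ univ
  hO' : X.D.O' = 𝔈.rO m ×ˢ univ
  /-- [GEO] the window -/
  mW : ∀ᶠ ε in 𝓝[>] (0 : ℝ), MeasurableSet (pvilWnr 𝔓 𝔈 m ε)
  /-- [GEO + readers of the ends] the bare success is read in the window -/
  rA : ∀ᶠ ε in 𝓝[>] (0 : ℝ), Conf.ReadsSet (pvilWnr 𝔓 𝔈 m ε ×ˢ univ) X.D.A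
  /-- [ENDS] the usable states are read in their regions -/
  rG₁ : ∀ᶠ ε in 𝓝[>] (0 : ℝ), Conf.ReadsSet X.D.O ((𝔈.kit m ε).G (𝔓.Γ m).pin0 (𝔓.Γ m).din0)
  rG₂ : ∀ᶠ ε in 𝓝[>] (0 : ℝ), Conf.ReadsSet X.D.O' (𝔈.rG m ε)
  /-- [ENDS] soft thresholds of the side events -/
  thr₁ : ∀ᶠ ε in 𝓝[>] (0 : ℝ), ∀ σ ∈ (𝔈.kit m ε).G (𝔓.Γ m).pin0 (𝔓.Γ m).din0, ENNReal.ofReal X.β ≤ pvtiP (pvP ε) X.D.O X.D.Lp σ
  thr₂ : ∀ᶠ ε in 𝓝[>] (0 : ℝ), ∀ σ ∈ 𝔈.rG m ε, ENNReal.ofReal X.β ≤ pvtiP (pvP ε) X.D.O' X.D.Lm σ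
  /-- [ENDS] a.s. a usable plug is plain -/
  loc₁ : ∀ᶠ ε in 𝓝[>] (0 : ℝ), ∀ᵐ η ∂pvP ε, η ∈ (𝔈.kit m ε).G (𝔓.Γ m).pin0 (𝔓.Γ m).din0 → η ∈ X.C₁
  loc₂ : ∀ᶠ ε in 𝓝[>] (0 : ℝ), ∀ᵐ η ∂pvP ε, η ∈ 𝔈.rG m ε → η ∈ X.C₂
  /-- [ENDS] the side events are up in the mixed order -/
  up : ∀ᶠ ε in 𝓝[>] (0 : ℝ), ∀ᵐ σ ∂pvP ε, X.D.Up ε σ
  /-- [MESH] the cost of the mesh of the tile -/
  cost : ∀ᶠ ε in 𝓝[>] (0 : ℝ), ∀ᵐ σ ∂pvP ε, pvtiP (pvP ε) X.D.OO X.D.Eᶜ σ ≤ ENNReal.ofReal (X.β ^ 2 / 4)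
  /-- [MEAS] the plain value on the plain success -/
  mX : ∀ᶠ ε in 𝓝[>] (0 : ℝ), AEMeasurable ((pvilMr 𝔓 𝔈 m ε).indicator ((pvilLr 𝔓 𝔈 m).X 𝔓.num true w)) (pvP ε)
  /-- [DET] plain success -/
  ev : ∀ᶠ ε in 𝓝[>] (0 : ℝ), ∀ η, PvatNice (cfSites η) → CfOK η → η ∈ X.C₁ → η ∈ X.C₂ → η ∈ X.D.A → η ∈ pvilMr 𝔓 𝔈 m ε
  /-- [DET] the plain value is read in the window -/
  val : ∀ᶠ ε in 𝓝[>] (0 : ℝ), ∀ η η', PvatNice (cfSites η) → CfOK η → η ∈ X.C₁ → η ∈ X.C₂ → η ∈ X.D.A → PvatNice (cfSites η') → CfOK η' → η' ∈ X.C₁ → η' ∈ X.C₂ → η' ∈ X.D.A →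
    Conf.restr (pvilWnr 𝔓 𝔈 m ε ×ˢ (univ : Set Bool)) η = Conf.restr (pvilWnr 𝔓 𝔈 m ε ×ˢ (univ : Set Bool)) η' → (pvilLr 𝔓 𝔈 m).X 𝔓.num true w η = (pvilLr 𝔓 𝔈 m).X 𝔓.num true w η'

variable {𝔓 𝔈}

/-- **THE `r`-LINK IS FORCED** -/
theorem pvr2_frc {m : ℕ} {w : ∀ η : Conf PvPt, (delbPl (pvieY η)).Dart → ℂ} {X : Pvr2Dat} (H : Pvr2Ok 𝔓 𝔈 m w X) :
    ∃ q : ℝ≥0∞, q ≠ 0 ∧ ∀ᶠ ε in 𝓝[>] (0 : ℝ), ∀ᵐ η ∂pvP ε, η ∈ (𝔈.kit m ε).G (𝔓.Γ m).pin0 (𝔓.Γ m).din0 → η ∈ 𝔈.rG m ε →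
      q ≤ pvtiP (pvP ε) (pvieOr 𝔓 𝔈 m ε) (pvilAr 𝔓 𝔈 m ε w) η := by
  obtain ⟨q0, h0, h1, hQ⟩ := exit_pvlq_q
  obtain ⟨U, hU1, hU⟩ := pvr2_abs h0 h1 hQ X.n H.β_pos
  refine ⟨ENNReal.ofReal ((q0 ^ (15 * X.n) / 2) ^ 2 * (X.β ^ 2 / 2)), ?_, ?_⟩
  · have hβ := H.β_pos
    rw [Ne, ENNReal.ofReal_eq_zero, not_le]
    positivity
  have hsm : ∀ᶠ ε in 𝓝[>] (0 : ℝ), U * ε ≤ X.D.δ := by
    have hU0 : 0 < U := lt_of_lt_of_le one_pos hU1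
    have : Ioo (0 : ℝ) (X.D.δ / U) ∈ 𝓝[>] (0 : ℝ) := Ioo_mem_nhdsGT (div_pos H.ok.δ_pos hU0)
    filter_upwards [this] with ε hε
    have := hε.2.le
    rwa [le_div_iff₀ hU0, mul_comm] at this
  filter_upwards [self_mem_nhdsWithin, hsm, H.hO, H.mW, H.rA, H.rG₁, H.rG₂, H.thr₁, H.thr₂, H.loc₁, H.loc₂, H.up, H.cost, H.mX, H.ev, H.val]
    with ε hε a0 aO aW aA aG1 aG2 at1 at2 al1 al2 aup acost amX aev aval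
  have eOO : X.D.OO = pvieOr 𝔓 𝔈 m ε := by
    rw [PvfpConn.OO, aO, H.hO', pvieOr, Set.union_prod]
  have sO : X.D.O ⊆ pvilWnr 𝔓 𝔈 m ε ×ˢ univ := by
    rw [aO]; exact Set.prod_mono (fun _ h => Or.inr h) Subset.rfl
  have sO' : X.D.O' ⊆ pvilWnr 𝔓 𝔈 m ε ×ˢ univ := by
    rw [H.hO']; exact Set.prod_mono (fun _ h => Or.inl (Or.inr h)) Subset.rfl
  have rG : Conf.ReadsSet X.D.OO (pvr2G 𝔓 𝔈 m ε) := (aG1.mono subset_union_left).inter (aG2.mono subset_union_right)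
  have rS : Conf.ReadsSet (pvilWnr 𝔓 𝔈 m ε ×ˢ univ) (pvr2G 𝔓 𝔈 m ε ∩ X.D.A) := ((aG1.mono sO).inter (aG2.mono sO')).inter aA
  have hN : ∀ᵐ η ∂pvP ε, η ∈ pvr2N 𝔓 𝔈 X m ε := by
    filter_upwards [pvat_nice_ae (ne_of_gt hε), dls_ae_conf hε, al1, al2] with η b1 b2 b3 b4
    exact ⟨b1, b2, b3, b4⟩
  have tgt : ∀ᵐ η ∂pvP ε, η ∈ pvr2G 𝔓 𝔈 m ε → η ∈ X.D.A → η ∈ pvilAr 𝔓 𝔈 m ε w := by
    have := pvr2_sure (ε := ε) aW (N := pvr2N 𝔓 𝔈 X m ε) (M := pvilMr 𝔓 𝔈 m ε) (S := pvr2G 𝔓 𝔈 m ε ∩ X.D.A) (F := (pvilLr 𝔓 𝔈 m).X 𝔓.num true w) hN amX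
      (fun η η' _ _ hS e => by rw [← rS η', ← e, rS η]; exact hS)
      (fun η hn hS => aev η hn.1 hn.2.1 (hn.2.2.1 hS.1.1) (hn.2.2.2 hS.1.2) hS.2)
      (fun η η' hn hn' hS hS' e => aval η η' hn.1 hn.2.1 (hn.2.2.1 hS.1.1) (hn.2.2.2 hS.1.2) hS.2 hn'.1 hn'.2.1 (hn'.2.2.1 hS'.1.1) (hn'.2.2.2 hS'.1.2) hS'.2 e)
    filter_upwards [this] with η h hG hA
    exact h ⟨hG, hA⟩
  have key := hU ε hε X.D H.ok a0 H.len₁ H.len₂ (pvr2G 𝔓 𝔈 m ε) (pvilAr 𝔓 𝔈 m ε w) rG aup (fun σ h => at1 σ h.1) (fun σ h => at2 σ h.2) acost tgt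
  rw [eOO] at key
  filter_upwards [key] with η h g1 g2
  exact h ⟨g1, g2⟩

end roof

/-! ## 3. side events under a similarity (frame AND scale) -/

/-- the regions carried by `w ↦ z + a w` (`a ≠ 0`: frame and scale in one map) -/
noncomputable def PvhfReg.sim (𝔯 : PvhfReg) (z a : ℂ) : PvhfReg :=
  ⟨𝔯.sd.comap (pvthInv z a), pvthInv z a ⁻¹' 𝔯.E, pvthInv z a ⁻¹' 𝔯.Ef, ‖a‖ * 𝔯.ρ, ‖a‖ * 𝔯.μ, pvthInv z a ⁻¹' 𝔯.W⟩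

theorem pvr2_eqns_cite3 : True := by
  have := @PvhfReg.sim.eq_1
  trivial

section sim

variable {𝔯 : PvhfReg} {σ : Bool} {L : Set (Conf PvPt)}

theorem pvr2_inv_sub {a : ℂ} (z u w : ℂ) : ‖pvthInv z a u - pvthInv z a w‖ = ‖u - w‖ / ‖a‖ := by
  unfold pvthInv
  rw [← sub_div, norm_div]
  congr 2
  ring

theorem pvr2_inv_surj {a : ℂ} (ha : a ≠ 0) (z : ℂ) : Function.Surjective (pvthInv z a) := by
  rw [pvzf_inv_eq]; exact vorSim_surjective (inv_ne_zero ha) _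

theorem pvr2_inv_inj {a : ℂ} (ha : a ≠ 0) (z : ℂ) : Function.Injective (pvthInv z a) := by
  rw [pvzf_inv_eq]; exact vorSim_injective (inv_ne_zero ha) _

/-- closed balls and the inverse similarity -/
theorem pvr2_ball_iff {a : ℂ} (ha : a ≠ 0) (z w : ℂ) (t : ℝ) (E : Set ℂ) : closedBall w (‖a‖ * t) ⊆ pvthInv z a ⁻¹' E ↔ closedBall (pvthInv z a w) t ⊆ E := by
  have hn : 0 < ‖a‖ := norm_pos_iff.2 ha
  constructor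
  · intro h u hu
    obtain ⟨u', rfl⟩ := pvr2_inv_surj ha z u
    refine h ?_
    rw [mem_closedBall, dist_eq_norm] at hu ⊢
    rw [pvr2_inv_sub, div_le_iff₀ hn] at hu
    linarith
  · intro h u hu
    refine h ?_
    rw [mem_closedBall, dist_eq_norm] at hu ⊢
    rw [pvr2_inv_sub, div_le_iff₀ hn]
    linarith

theorem pvr2_core_pre {a : ℂ} (ha : a ≠ 0) (z : ℂ) (t : ℝ) (E : Set ℂ) : pvthInv z a ⁻¹' pvtrCore t E = pvtrCore (‖a‖ * t) (pvthInv z a ⁻¹' E) := by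
  ext w
  exact (pvr2_ball_iff ha z w t E).symm

theorem pvr2_win_sim {E : Set ℂ} (hE : PvplWin E) (z : ℂ) {a : ℂ} (ha : a ≠ 0) : PvplWin (pvthInv z a ⁻¹' E) := by
  refine ⟨pvth_inv_meas z a hE.1, ?_⟩
  have hn : 0 < ‖a‖ := norm_pos_iff.2 ha
  have e : {q : ℂ × ℝ | closedBall q.1 q.2 ⊆ pvthInv z a ⁻¹' E} = (fun q : ℂ × ℝ => (pvthInv z a q.1, q.2 / ‖a‖)) ⁻¹' {q : ℂ × ℝ | closedBall q.1 q.2 ⊆ E} := by
    ext q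
    have := pvr2_ball_iff ha z q.1 (q.2 / ‖a‖) E
    rw [mul_div_cancel₀ _ hn.ne'] at this
    exact this
  rw [e]
  exact (((pvhf_inv_cont z a).measurable.comp measurable_fst).prodMk (measurable_snd.div_const _)) hE.2

theorem pvr2_mesh_sim {a : ℂ} (ha : a ≠ 0) (z : ℂ) (ρ : ℝ) (E : Set ℂ) (η : Conf PvPt) :
    PvtrMesh ρ E (cfSites (cfMap (pvthInv z a) η)) ↔ PvtrMesh (‖a‖ * ρ) (pvthInv z a ⁻¹' E) (cfSites η) := by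
  have hα : a⁻¹ ≠ 0 := inv_ne_zero ha
  have hn : ‖a‖ ≠ 0 := norm_ne_zero_iff.2 ha
  have h := pvtr_mesh_sim (ρ := ‖a‖ * ρ) (E := pvthInv z a ⁻¹' E) (Y := cfSites η) hα (-(a⁻¹ * z))
  rw [← pvzf_inv_eq, image_preimage_eq _ (pvr2_inv_surj ha z), norm_inv, inv_mul_cancel_left₀ hn] at h
  rw [← h]
  have e1 : cfSites (cfMap (pvthInv z a) η) = pvthInv z a '' cfSites η := by
    rw [pvzf_inv_eq]; exact pvcv_sites _ _ η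
  rw [e1]

theorem PvhfReg.Wf.sim (hW : 𝔯.Wf) (z : ℂ) {a : ℂ} (ha : a ≠ 0) : (𝔯.sim z a).Wf where
  ρ0 := mul_pos (norm_pos_iff.2 ha) hW.ρ0
  mR i := by
    show MeasurableSet ((𝔯.sd.comap (pvthInv z a)).reg i)
    rw [pvhf_reg_comap]
    exact pvth_inv_meas z a (hW.mR i)
  wE := pvr2_win_sim hW.wE z ha
  bE := by
    obtain ⟨R, hR⟩ := hW.bE.subset_closedBall (pvthInv z a z)
    refine (isBounded_closedBall (x := z) (r := ‖a‖ * R)).subset fun w hw => ?_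
    have := hR hw
    rw [mem_closedBall, dist_eq_norm] at this ⊢
    rw [pvr2_inv_sub, div_le_iff₀ (norm_pos_iff.2 ha)] at this
    linarith
  sub := preimage_mono hW.sub
  core := by
    show pvthInv z a ⁻¹' 𝔯.sd.K ⊆ pvtrCore (3 * (‖a‖ * 𝔯.ρ)) (pvthInv z a ⁻¹' 𝔯.E)
    rw [show 3 * (‖a‖ * 𝔯.ρ) = ‖a‖ * (3 * 𝔯.ρ) by ring, ← pvr2_core_pre ha]
    exact preimage_mono hW.core
  coreG := by
    show pvthInv z a ⁻¹' 𝔯.sd.KG ⊆ pvtrCore (3 * (‖a‖ * 𝔯.ρ)) (pvthInv z a ⁻¹' 𝔯.Ef)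
    rw [show 3 * (‖a‖ * 𝔯.ρ) = ‖a‖ * (3 * 𝔯.ρ) by ring, ← pvr2_core_pre ha]
    exact preimage_mono hW.coreG
  μ0 := mul_pos (norm_pos_iff.2 ha) hW.μ0
  mW := pvth_inv_meas z a hW.mW
  subW := preimage_mono hW.subW

theorem pvr2_ms_sim (𝔯 : PvhfReg) (z : ℂ) {a : ℂ} (ha : a ≠ 0) : cfMap (pvthInv z a) ⁻¹' pvhfMs 𝔯 = pvhfMs (𝔯.sim z a) := by
  ext η
  refine and_congr (and_congr ?_ (pvr2_mesh_sim ha z _ _ η)) (pvr2_mesh_sim ha z _ _ η)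
  show ((cfMap (pvthInv z a) η).pts ∩ 𝔯.E ×ˢ univ).Finite ↔ (η.pts ∩ (pvthInv z a ⁻¹' 𝔯.E) ×ˢ univ).Finite
  have e : (cfMap (pvthInv z a) η).pts ∩ 𝔯.E ×ˢ univ = Prod.map (pvthInv z a) id '' (η.pts ∩ (pvthInv z a ⁻¹' 𝔯.E) ×ˢ univ) := by
    ext p
    constructor
    · rintro ⟨⟨q, hq, rfl⟩, hp⟩
      exact ⟨q, ⟨hq, ⟨hp.1, mem_univ _⟩⟩, rfl⟩
    · rintro ⟨q, ⟨hq, hqE⟩, rfl⟩
      exact ⟨⟨q, hq, rfl⟩, ⟨hqE.1, mem_univ _⟩⟩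
  rw [e]
  exact Set.finite_image_iff (((pvr2_inv_inj ha z).prodMap Function.injective_id).injOn)

/-- **[SC] THE PLACED AND SCALED COPY OF A SIDE EVENT IS A SIDE EVENT OF THE PLACED AND SCALED REGIONS** -/
theorem PvhfIs.sim (h : PvhfIs 𝔯 σ L) (z : ℂ) {a : ℂ} (ha : a ≠ 0) : PvhfIs (𝔯.sim z a) σ (cfMap (pvthInv z a) ⁻¹' L) := by
  obtain ⟨B, hB, rfl⟩ := h
  refine ⟨cfMap (pvthInv z a) ⁻¹' B, ⟨measurable_cfMap (pvth_inv_meas z a) hB.meas, fun η => ?_, ?_⟩, ?_⟩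
  · show cfMap (pvthInv z a) (Conf.restr ((pvthInv z a ⁻¹' 𝔯.E) ×ˢ univ) η) ∈ B ↔ cfMap (pvthInv z a) η ∈ B
    rw [pvzf_restr_map, hB.reads]
  · have h1 : PvplRep (pvhfTest 𝔯.sd) (pvhfPhi σ pvhfSdB) pvhfSdB.K 𝔯.E 𝔯.ρ B := hB.dict
    have h2 := h1.sim (inv_ne_zero ha) (-(a⁻¹ * z))
    rw [← pvzf_inv_eq, norm_inv, div_inv_eq_mul, mul_comm] at h2
    show PvplRep (pvhfTest (𝔯.sd.comap (pvthInv z a))) (pvhfPhi σ pvhfSdB) pvhfSdB.K (pvthInv z a ⁻¹' 𝔯.E) (‖a‖ * 𝔯.ρ) (cfMap (pvthInv z a) ⁻¹' B)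
    rw [pvhf_test_comap]
    exact h2
  · rw [preimage_inter, pvr2_ms_sim 𝔯 z ha]

end sim

/-! ### the dictionary of the scaled regions: `a = d * s`, `‖d‖ = 1`, `s > 0` -/

/-- room, target of the colour `β` of one side -/
def PvhfSd.Rm (S : PvhfSd ℂ) (β : Bool) : Set ℂ := if β then S.Lb else S.Lw
def PvhfSd.Tg (S : PvhfSd ℂ) (β : Bool) : Set ℂ := if β then S.Db else S.Dw

section dict

variable {s : ℝ} {d : ℂ}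

theorem pvr2_ds_ne (hs : 0 < s) (hd : ‖d‖ = 1) : d * (s : ℂ) ≠ 0 := mul_ne_zero (pvhf_ne_zero hd) (pvbe_sc_ne hs)

theorem pvr2_ds_norm (hs : 0 < s) (hd : ‖d‖ = 1) : ‖d * (s : ℂ)‖ = s := by
  rw [norm_mul, hd, one_mul, Complex.norm_real, Real.norm_eq_abs, abs_of_pos hs]

/-- the preimage under the scaled frame = the dilated region, placed -/
theorem pvr2_pre_sc (hs : 0 < s) (hd : ‖d‖ = 1) (z : ℂ) (S : Set ℂ) : pvthInv z (d * (s : ℂ)) ⁻¹' S = pvkdAt z d (pvdilS s S) := by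
  rw [pvhf_at_eq z (pvr2_ds_ne hs hd)]
  unfold pvkdAt pvdilS
  rw [image_image]
  refine image_congr fun w _ => ?_
  simp only [pvthSim, vorSim]; ring

theorem pvr2_pre_ball (hs : 0 < s) (hd : ‖d‖ = 1) (z : ℂ) (r : ℝ) : pvthInv z (d * (s : ℂ)) ⁻¹' ball 0 r = ball z (s * r) := by
  ext w
  rw [mem_preimage, mem_ball, mem_ball, dist_zero_right, dist_eq_norm]
  unfold pvthInv
  rw [norm_div, pvr2_ds_norm hs hd, div_lt_iff₀ hs, mul_comm]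

variable (𝔭 : PvkdPlug) (𝔱 : PvhfTr) (σ : Bool) (z : ℂ)

theorem pvr2_sim_p (hs : 0 < s) (hd : ‖d‖ = 1) : ((pvhfR 𝔭 𝔱 σ).sim z (d * (s : ℂ))).sd.p = (𝔭.sc s).pg z d := by
  show (⟨pvthInv z (d * (s : ℂ)) ⁻¹' ball 0 𝔭.a, pvthInv z (d * (s : ℂ)) ⁻¹' ball 0 𝔭.b, pvthInv z (d * (s : ℂ)) ⁻¹' 𝔭.Zm, pvthInv z (d * (s : ℂ)) ⁻¹' 𝔭.Zp,
    pvthInv z (d * (s : ℂ)) ⁻¹' 𝔭.Tb⟩ : PvzlPg ℂ) = _
  rw [pvr2_pre_ball hs hd, pvr2_pre_ball hs hd, pvr2_pre_sc hs hd, pvr2_pre_sc hs hd, pvr2_pre_sc hs hd]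
  rfl

theorem pvr2_sim_Rm (hs : 0 < s) (hd : ‖d‖ = 1) (β : Bool) : ((pvhfR 𝔭 𝔱 σ).sim z (d * (s : ℂ))).sd.Rm β = pvkdAt z d (pvdilS s (𝔱.Ln σ β)) := by
  rw [← pvr2_pre_sc hs hd]
  cases β <;> rfl

theorem pvr2_sim_Tg (hs : 0 < s) (hd : ‖d‖ = 1) (β : Bool) : ((pvhfR 𝔭 𝔱 σ).sim z (d * (s : ℂ))).sd.Tg β = pvkdAt z d (pvdilS s (𝔱.Dr σ β)) := by
  rw [← pvr2_pre_sc hs hd]
  cases β <;> rfl

theorem pvr2_sim_E (hs : 0 < s) (hd : ‖d‖ = 1) : ((pvhfR 𝔭 𝔱 σ).sim z (d * (s : ℂ))).E = pvkdAt z d (pvdilS s (𝔱.Es σ)) := pvr2_pre_sc hs hd z _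

theorem pvr2_sim_Ef (hs : 0 < s) (hd : ‖d‖ = 1) : ((pvhfR 𝔭 𝔱 σ).sim z (d * (s : ℂ))).Ef = pvkdAt z d (𝔭.sc s).Ew := pvr2_pre_sc hs hd z _

theorem pvr2_sim_W (hs : 0 < s) (hd : ‖d‖ = 1) : ((pvhfR 𝔭 𝔱 σ).sim z (d * (s : ℂ))).W = pvkdAt z d (pvdilS s 𝔱.W) := pvr2_pre_sc hs hd z _

theorem pvr2_sim_rho (hs : 0 < s) (hd : ‖d‖ = 1) : ((pvhfR 𝔭 𝔱 σ).sim z (d * (s : ℂ))).ρ = (𝔭.sc s).ρ := by
  show ‖d * (s : ℂ)‖ * 𝔭.ρ = s * 𝔭.ρ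
  rw [pvr2_ds_norm hs hd]

theorem pvr2_sim_mu (hs : 0 < s) (hd : ‖d‖ = 1) : ((pvhfR 𝔭 𝔱 σ).sim z (d * (s : ℂ))).μ = s * 𝔱.μ := by
  show ‖d * (s : ℂ)‖ * 𝔱.μ = s * 𝔱.μ
  rw [pvr2_ds_norm hs hd]

/-- the rooms and the targets of record are scale covariant -/
theorem pvr2_T_Ln (hs : 0 < s) (r : ℝ) (σ β : Bool) : pvdilS s ((pvhfT r).Ln σ β) = (pvhfT (s * r)).Ln σ β := by
  unfold pvhfT
  cases β
  · simp only [Bool.false_eq_true, if_false]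
    rw [pvdil_S_union, pvdil_krect hs, pvdil_krect hs]
    congr 2 <;> ring
  · simp only [if_true]
    rw [pvdil_S_union, pvdil_krect hs, pvdil_krect hs]
    congr 2 <;> ring

theorem pvr2_T_Dr (hs : 0 < s) (r : ℝ) (σ β : Bool) : pvdilS s ((pvhfT r).Dr σ β) = (pvhfT (s * r)).Dr σ β := by
  unfold pvhfT
  cases β
  · simp only [Bool.false_eq_true, if_false]
    rw [pvdil_krect hs]
    congr 1 <;> ring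
  · simp only [if_true]
    rw [pvdil_krect hs]
    congr 1 <;> ring

/-- **the fine mesh of a side event** (DEFECT M): on `L` the window `𝔯.W` has the mesh `𝔯.μ` -/
theorem PvhfIs.fine {𝔯 : PvhfReg} {σ : Bool} {L : Set (Conf PvPt)} (h : PvhfIs 𝔯 σ L) {η : Conf PvPt} (hη : η ∈ L) : PvtrMesh 𝔯.μ 𝔯.W (cfSites η) := (h.sub_ms hη).1.2

/-- a positive conditional probability has a witness -/
theorem pvr2_P_witness {μ : Measure (Conf PvPt)} {O : Set PvPt} {S : Set (Conf PvPt)} {σ₀ : Conf PvPt} (h : pvtiP μ O S σ₀ ≠ 0) : ∃ ξ, Conf.spl O (σ₀, ξ) ∈ S := by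
  by_contra hc
  refine h ?_
  unfold pvtiP
  have : (fun ξ => S.indicator (1 : Conf PvPt → ℝ≥0∞) (Conf.spl O (σ₀, ξ))) = fun _ => 0 := by
    funext ξ
    exact indicator_of_notMem (fun hx => hc ⟨ξ, hx⟩) _
  rw [this]; simp

/-- **USABLE ⟹ FINE MESH, POINTWISE**: a state at which a side event has a positive propensity has the fine mesh of every region `O ⊆ 𝔯.W` of the state region -/
theorem PvhfIs.fine_of_thr {𝔯 : PvhfReg} {σ : Bool} {L : Set (Conf PvPt)} (h : PvhfIs 𝔯 σ L) {μ : Measure (Conf PvPt)} {O : Set ℂ} (hO : O ⊆ 𝔯.W) {σ₀ : Conf PvPt}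
    (ht : pvtiP μ (O ×ˢ univ) L σ₀ ≠ 0) : PvtrMesh 𝔯.μ O (cfSites σ₀) := by
  obtain ⟨ξ, hξ⟩ := pvr2_P_witness ht
  have h1 : PvtrMesh 𝔯.μ O (cfSites (Conf.spl (O ×ˢ univ) (σ₀, ξ))) := fun z hz => h.fine hξ z (pvtr_core_mono hO hz)
  have h2 := (pvtr_reads_mesh 𝔯.μ O).spl_left subset_rfl σ₀ ξ
  rw [← h2]
  exact h1

end dict

/-! ## 4. the layout: two plugs of DIFFERENT units, two full walks, one fine mesh -/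

/-- **THE LAYOUT OF THE `r`-LINK**, data (`β = true` black).      `𝔯` = regions of the EXIT side of the plug left behind, `𝔯'` = regions of the ENTRANCE side of the plug ahead, ABSOLUTE position (174);   `Lp Lm` = ANY side events of these regions (`PvhfIs`) -/
structure Pvr2Lay where
  𝔯 : PvhfReg
  𝔯' : PvhfReg
  /-- the two side events -/
  Lp : Set (Conf PvPt)
  Lm : Set (Conf PvPt)
  /-- the two state regions -/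
  O : Set ℂ
  O' : Set ℂ
  /-- side of the fine cells, the two full walks, the zones of the mixed order -/
  s : ℝ
  L : Bool → List (ℤ × ℤ)
  K : Bool → Set ℂ
  /-- the tile (window of its mesh event), the fine mesh, the window of the link, the room of the run -/
  Et : Set ℂ
  μ : ℝ
  W : Set ℂ
  KE : Set ℂ

namespace Pvr2Lay

variable (Λ : Pvr2Lay)

/-- the connector -/
noncomputable def D : PvfpConn where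
  O := Λ.O ×ˢ univ
  O' := Λ.O' ×ˢ univ
  T := Λ.𝔯.E ×ˢ univ
  T' := Λ.𝔯'.E ×ˢ univ
  Lp := Λ.Lp
  Lm := Λ.Lm
  E := pvjoMesh (Λ.μ / 3) Λ.Et
  A := Λ.Lp ∩ Λ.Lm ∩ (pvlnLaneEv Λ.s true (Λ.L true) ∩ pvlnLaneEv Λ.s false (Λ.L false)) ∩ pvjoMesh (Λ.μ / 3) Λ.Et
  c := true
  K₁ := Λ.K true
  K₂ := Λ.K false
  δ := Λ.s
  L₁ := Λ.L true
  L₂ := Λ.L false

/-- the fine mesh of a state region -/
def Cm (O : Set ℂ) : Set (Conf PvPt) := {η | PvtrMesh (Λ.μ / 3) O (cfSites η)}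

/-- **WHAT THE LAYOUT OWES**: `is is'` = [SC] (`PvhfIs.sim`), `wf wf'` (`PvhfReg.Wf.sim`), everything else = REGIONS AND WALKS -/
structure Ok : Prop where
  wf : Λ.𝔯.Wf
  wf' : Λ.𝔯'.Wf
  is : PvhfIs Λ.𝔯 true Λ.Lp
  is' : PvhfIs Λ.𝔯' false Λ.Lm
  mO : MeasurableSet Λ.O
  mO' : MeasurableSet Λ.O'
  /-- the windows of the two plugs are frozen -/
  EO : Λ.𝔯.Ef ⊆ Λ.O
  EO' : Λ.𝔯'.Ef ⊆ Λ.O'
  /-- the two plugs with the windows of their side events are apart -/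
  dj : Disjoint (Λ.O ∪ Λ.𝔯.E) (Λ.O' ∪ Λ.𝔯'.E)
  /-- the mixed order -/
  djK : Disjoint (Λ.K true) (Λ.K false)
  w : ∀ β, pvlnW Λ.s (Λ.L β) ⊆ Λ.K β
  off : ∀ β, Disjoint (pvlnW Λ.s (Λ.L β)) (Λ.O ∪ Λ.O')
  zp : ∀ β, Λ.𝔯.sd.Rm β ⊆ Λ.O ∪ Λ.K β
  zm : ∀ β, Λ.𝔯'.sd.Rm β ⊆ Λ.O' ∪ Λ.K β
  /-- the tile -/
  mEt : MeasurableSet Λ.Et
  bEt : Bornology.IsBounded Λ.Et
  dEt : Disjoint Λ.Et (Λ.O ∪ Λ.O')
  /-- everything is read in the window -/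
  sW : Λ.O ∪ Λ.O' ∪ Λ.Et ∪ Λ.𝔯.E ∪ Λ.𝔯'.E ∪ pvlnW Λ.s (Λ.L true) ∪ pvlnW Λ.s (Λ.L false) ⊆ Λ.W
  /-- THE SEAM (206 `pvmj_seam`) -/
  seam : ∀ Y : Set ℂ, PvtrMesh (Λ.μ / 3) Λ.O Y → PvtrMesh (Λ.μ / 3) Λ.O' Y → PvtrMesh (Λ.μ / 3) Λ.Et Y → PvtrMesh Λ.μ Λ.W Y
  /-- the layout of 294 AT THE FINE MESH on the whole window -/
  lay : PvdtLay Λ.μ Λ.W Λ.𝔯.sd.p Λ.𝔯'.sd.p Λ.KE Λ.s Λ.L Λ.𝔯.sd.Rm Λ.𝔯'.sd.Rm Λ.𝔯.sd.Tg Λ.𝔯'.sd.Tg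

end Pvr2Lay

theorem pvr2_eqns_cite2 : True := by
  have := @Pvr2Lay.D.eq_1; have := @Pvr2Lay.Cm.eq_1; have := @PvhfSd.Rm.eq_1; have := @PvhfSd.Tg.eq_1
  trivial

section lay

variable {Λ : Pvr2Lay}

theorem pvr2_OO (Λ : Pvr2Lay) : Λ.D.OO = (Λ.O ∪ Λ.O') ×ˢ univ := by
  show Λ.O ×ˢ univ ∪ Λ.O' ×ˢ univ = _
  rw [Set.union_prod]

/-- the connector is well formed -/
theorem pvr2_lay_ok (H : Λ.Ok) : Λ.D.Ok where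
  mO := H.mO.prod MeasurableSet.univ
  mO' := H.mO'.prod MeasurableSet.univ
  mT := H.wf.wE.1.prod MeasurableSet.univ
  mT' := H.wf'.wE.1.prod MeasurableSet.univ
  dj := by
    show Disjoint (Λ.O ×ˢ univ ∪ Λ.𝔯.E ×ˢ univ) (Λ.O' ×ˢ univ ∪ Λ.𝔯'.E ×ˢ univ)
    rw [← Set.union_prod, ← Set.union_prod]
    exact pvnk_prod_disj H.dj
  mLp := H.is.meas H.wf
  mLm := H.is'.meas H.wf'
  mE := pvjo_mesh_meas _ H.mEt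
  rLp := (H.is.reads H.wf).mono subset_union_right
  rLm := (H.is'.reads H.wf').mono subset_union_right
  δ_pos := H.lay.δ_pos
  ne₁ := H.lay.ne true
  ne₂ := H.lay.ne false
  ch₁ := H.lay.ch true
  ch₂ := H.lay.ch false
  djK := H.djK
  w₁ := H.w true
  w₂ := H.w false
  off₁ := by rw [pvr2_OO]; exact pvnk_prod_disj (H.off true)
  off₂ := by rw [pvr2_OO]; exact pvnk_prod_disj (H.off false)
  geo := fun σ => pvjo_mesh_geo _ (by rw [pvr2_OO]; exact pvnk_prod_disj H.dEt) σ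
  glue := fun η hη => hη

/-- quenched up-ness at every pair of regular states -/
theorem pvr2_lay_up (H : Λ.Ok) {ε : ℝ} {σ : Conf PvPt} (h1 : σ ∈ pvnkRg ε Λ.O) (h2 : σ ∈ pvnkRg ε Λ.O') : Λ.D.Up ε σ := by
  have hOk := pvr2_lay_ok H
  have s1 : pvhkSec Λ.D.OO σ Λ.D.Lp = pvhkSec (Λ.O ×ˢ univ) σ Λ.Lp := pvfn_sec_left (hOk.dj.mono_right subset_union_left) σ hOk.rLp
  have s2 : pvhkSec Λ.D.OO σ Λ.D.Lm = pvhkSec (Λ.O' ×ˢ univ) σ Λ.Lm := pvfn_sec_right (hOk.dj.mono_left subset_union_left) σ hOk.rLm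
  have u1 := H.is.up_ae H.wf H.djK (F := Λ.O) H.EO (H.zp true) (H.zp false) h1
  have u2 := H.is'.up_ae H.wf' H.djK (F := Λ.O') H.EO' (H.zm true) (H.zm false) h2
  unfold PvfpConn.Up
  filter_upwards [u1, u2] with g a1 a2 _
  rw [s1, s2]
  exact ⟨a1, a2⟩

theorem pvr2_lay_up_ae (H : Λ.Ok) {ε : ℝ} (hε : 0 < ε) : ∀ᵐ σ ∂pvP ε, Λ.D.Up ε σ := by
  filter_upwards [pvnk_rg_full hε H.mO, pvnk_rg_full hε H.mO'] with σ h1 h2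
  exact pvr2_lay_up H h1 h2

/-- the bare success is read in the window -/
theorem pvr2_lay_rA (H : Λ.Ok) : Conf.ReadsSet (Λ.W ×ˢ univ) Λ.D.A := by
  have m : ∀ {S : Set ℂ}, S ⊆ Λ.O ∪ Λ.O' ∪ Λ.Et ∪ Λ.𝔯.E ∪ Λ.𝔯'.E ∪ pvlnW Λ.s (Λ.L true) ∪ pvlnW Λ.s (Λ.L false) →
      S ×ˢ (univ : Set Bool) ⊆ Λ.W ×ˢ univ := fun h => prod_mono (h.trans H.sW) Subset.rfl
  refine ((((H.is.reads H.wf).mono (m ?_)).inter ((H.is'.reads H.wf').mono (m ?_))).inter (((pvlq_lane_reads _ _ _).mono (m ?_)).inter ((pvlq_lane_reads _ _ _).mono (m ?_)))).inter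
    ((pvjo_mesh_reads _ _).mono (m ?_))
  · exact fun x hx => Or.inl (Or.inl (Or.inl (Or.inr hx)))
  · exact fun x hx => Or.inl (Or.inl (Or.inr hx))
  · exact fun x hx => Or.inl (Or.inr hx)
  · exact fun x hx => Or.inr hx
  · exact fun x hx => Or.inl (Or.inl (Or.inl (Or.inl (Or.inr hx))))

/-- the cost of the mesh of the tile -/
theorem pvr2_lay_cost (H : Λ.Ok) {θ : ℝ≥0∞} (hθ : 0 < θ) : ∀ᶠ ε in 𝓝[>] (0 : ℝ), ∀ σ, pvtiP (pvP ε) Λ.D.OO Λ.D.Eᶜ σ ≤ θ := by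
  have hμ : 0 < Λ.μ / 3 := by have := H.lay.ρ_pos; positivity
  filter_upwards [(pvjo_mesh_lim hμ H.bEt).eventually (gt_mem_nhds hθ)] with ε hε σ
  have hW : Disjoint (Λ.Et ×ˢ (univ : Set Bool)) Λ.D.OO := by rw [pvr2_OO]; exact pvnk_prod_disj H.dEt
  rw [pvhk_P_of_disjoint _ hW σ (pvr2_lay_ok H).mE.compl (pvjo_mesh_reads _ _).compl]
  exact hε.le

/-- **(DET)**, deterministic: the fine mesh of the window, the meshes of the two side windows, the two gates of record, the run in the room `KE` -/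
theorem pvr2_lay_det (H : Λ.Ok) {η : Conf PvPt} (hn : CfOK η) (h1 : η ∈ Λ.Cm Λ.O) (h2 : η ∈ Λ.Cm Λ.O') (hA : η ∈ Λ.D.A) :
    PvtrMesh Λ.μ Λ.W (cfSites η) ∧ PvtrMesh Λ.𝔯.ρ Λ.𝔯.E (cfSites η) ∧ PvtrMesh Λ.𝔯'.ρ Λ.𝔯'.E (cfSites η) ∧
    ∃ (g g' : (pvkiT η).Gate (pvkiS η)) (N : ℕ), PvzlGt (pvkiT η) Subtype.val (pvkiS η) Λ.𝔯.sd.p g ∧ PvzlGt (pvkiT η) Subtype.val (pvkiS η) Λ.𝔯'.sd.p g' ∧
      PvzlRun (pvkiT η) Subtype.val (pvkiS η) Λ.KE g g' N := by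
  obtain ⟨⟨⟨hp, hm⟩, hnet⟩, hE⟩ := hA
  have hmW : PvtrMesh Λ.μ Λ.W (cfSites η) := H.seam _ h1 h2 (pvjo_mesh_of hE)
  obtain ⟨⟨-, m1⟩, g, hg, lb, lw⟩ := (H.is.plane H.wf hn.del).1 hp
  obtain ⟨⟨-, m2⟩, g', hg', lb', lw'⟩ := (H.is'.plane H.wf' hn.del).1 hm
  obtain ⟨N, hN⟩ := pvdt_det hn hmW H.lay (fun β => by
    cases β
    · exact hnet.2
    · exact hnet.1) hg hg' (fun β => by
    cases β
    · exact lw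
    · exact lb) (fun β => by
    cases β
    · exact lw'
    · exact lb')
  exact ⟨hmW, m1, m2, g, g', N, hg, hg', hN⟩

end lay

/-! ## 5. layout + ends ⟹ the contract -/

section inst

variable {τ : Type} {c : ℝ} {𝔓 : PvxPar τ c} {𝔈 : PvieEng τ} {m : ℕ} {Λ : Pvr2Lay}

/-- **the layout sits on the data of record of the level `m`** (REGIONS, ε-free but for the name of the door square) -/
structure Pvr2Fit (𝔓 : PvxPar τ c) (𝔈 : PvieEng τ) (m : ℕ) (Λ : Pvr2Lay) : Prop where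
  hO : ∀ᶠ ε in 𝓝[>] (0 : ℝ), Λ.O = pvieDoor 𝔈 m ε (𝔓.Γ m).pin0 (𝔓.Γ m).din0
  hO' : Λ.O' = 𝔈.rO m
  hW : ∀ᶠ ε in 𝓝[>] (0 : ℝ), Λ.W = pvilWnr 𝔓 𝔈 m ε
  hμ : Λ.μ = pvilMu 𝔓 m
  /-- the marks of the two gates, the meshes and the windows of the two plugs -/
  hp : Λ.𝔯.sd.p = (pvkdP (pvilRd 𝔓 m)).pg (𝔓.Γ m).pin0 (𝔓.Γ m).din0
  hρ : Λ.𝔯.ρ = (pvkdP (pvilRd 𝔓 m)).ρ
  hEw : pvkdAt (𝔓.Γ m).pin0 (𝔓.Γ m).din0 (pvkdP (pvilRd 𝔓 m)).Ew ⊆ Λ.𝔯.E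
  hp' : Λ.𝔯'.sd.p = (pvkdP (pvilRu 𝔈 m)).pg 0 1
  hρ' : Λ.𝔯'.ρ = (pvkdP (pvilRu 𝔈 m)).ρ
  hEw' : pvkdAt 0 1 (pvkdP (pvilRu 𝔈 m)).Ew ⊆ Λ.𝔯'.E
  /-- the room -/
  hKE : Λ.KE ⊆ 𝔈.rY m
  /-- the record of 22 (`pvly_reg_r`) -/
  reg : ∀ᶠ ε in 𝓝[>] (0 : ℝ), PvlyReg (pvilLr 𝔓 𝔈 m) (pvilMu 𝔓 m) (pvilWnr 𝔓 𝔈 m ε)
  δ_pos : 0 < pvlmDel c m

/-- **[DET] `ev`** at one `ε` -/
theorem pvr2_ev (H : Λ.Ok) (F : Pvr2Fit 𝔓 𝔈 m Λ) {ε : ℝ} (hW : Λ.W = pvilWnr 𝔓 𝔈 m ε) {η : Conf PvPt} (hN : PvatNice (cfSites η)) (hn : CfOK η)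
    (h1 : η ∈ Λ.Cm Λ.O) (h2 : η ∈ Λ.Cm Λ.O') (hA : η ∈ Λ.D.A) : η ∈ pvilMr 𝔓 𝔈 m ε := by
  obtain ⟨hmW, m1, m2, g, g', N, hg, hg', hrun⟩ := pvr2_lay_det H hn h1 h2 hA
  rw [F.hp] at hg
  rw [F.hp'] at hg'
  rw [F.hρ] at m1
  rw [F.hρ'] at m2
  refine ⟨?_, by show PvtrMesh (pvilMu 𝔓 m) (pvilWnr 𝔓 𝔈 m ε) (cfSites η); rw [← F.hμ, ← hW]; exact hmW⟩
  have hd : PvilDoor (pvkdP (pvilRd 𝔓 m)) true η (𝔓.Γ m).pin0 (𝔓.Γ m).din0 (pvkdSt (pvkdP (pvilRd 𝔓 m)) η (𝔓.Γ m).pin0 g) :=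
    (pvil_door_true _ _ _ _ _).2 ⟨⟨hN, fun z hz => m1 z (pvtr_core_mono F.hEw hz)⟩, g, hg, rfl⟩
  have hd' : PvilDoor (pvkdP (pvilRu 𝔈 m)) true η 0 1 (pvkdSt (pvkdP (pvilRu 𝔈 m)) η 0 g') :=
    (pvil_door_true _ _ _ _ _).2 ⟨⟨hN, fun z hz => m2 z (pvtr_core_mono F.hEw' hz)⟩, g', hg', rfl⟩
  have hne : (pvkdSt (pvkdP (pvilRu 𝔈 m)) η 0 g').gm ≠ (pvkdSt (pvkdP (pvilRd 𝔓 m)) η (𝔓.Γ m).pin0 g).gp := by
    show (pvkiT η).src g'.aIn ≠ (pvkiT η).src g.aOut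
    rw [pvtg_aOut_src, pvtg_aIn_src]
    intro e
    have vpO : ((g.vp : ↥(cfSites η)) : ℂ) ∈ ((pvkdP (pvilRd 𝔓 m)).pg (𝔓.Γ m).pin0 (𝔓.Γ m).din0).KO := hg.least.reg.rim g.m
    have vmO' : ((g'.vm : ↥(cfSites η)) : ℂ) ∈ ((pvkdP (pvilRu 𝔈 m)).pg 0 1).KO := hg'.least.reg.rim 0
    rw [e] at vmO'
    have far := H.lay.geo.far
    rw [F.hp, F.hp'] at far
    exact disjoint_left.1 far vpO vmO'
  have hr : PvldRun (pvieT η) (pvieCol η true) (pvzlKS (pvkiT η) Subtype.val Λ.KE g g') g.aOut g'.aIn := by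
    rw [pvkk_col]
    exact hrun.run
  exact pvhg_il_Lr hd hd' hne (fun v hv => F.hKE hv.1) hr

/-- **LAYOUT + FIT + ENDS + [MEAS] ⟹ THE CONTRACT** -/
theorem pvr2_ok_of_lay (H : Λ.Ok) (F : Pvr2Fit 𝔓 𝔈 m Λ) {w : ∀ η : Conf PvPt, (delbPl (pvieY η)).Dart → ℂ} (hw : PvlyWt w) {n : ℕ} {β : ℝ} (hβ : 0 < β)
    (n1 : (Λ.L true).length ≤ n) (n2 : (Λ.L false).length ≤ n)
    (mW : ∀ᶠ ε in 𝓝[>] (0 : ℝ), MeasurableSet (pvilWnr 𝔓 𝔈 m ε))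
    (rG₁ : ∀ᶠ ε in 𝓝[>] (0 : ℝ), Conf.ReadsSet (Λ.O ×ˢ univ) ((𝔈.kit m ε).G (𝔓.Γ m).pin0 (𝔓.Γ m).din0))
    (rG₂ : ∀ᶠ ε in 𝓝[>] (0 : ℝ), Conf.ReadsSet (Λ.O' ×ˢ univ) (𝔈.rG m ε))
    (thr₁ : ∀ᶠ ε in 𝓝[>] (0 : ℝ), ∀ σ ∈ (𝔈.kit m ε).G (𝔓.Γ m).pin0 (𝔓.Γ m).din0, ENNReal.ofReal β ≤ pvtiP (pvP ε) (Λ.O ×ˢ univ) Λ.Lp σ)
    (thr₂ : ∀ᶠ ε in 𝓝[>] (0 : ℝ), ∀ σ ∈ 𝔈.rG m ε, ENNReal.ofReal β ≤ pvtiP (pvP ε) (Λ.O' ×ˢ univ) Λ.Lm σ)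
    (loc₁ : ∀ᶠ ε in 𝓝[>] (0 : ℝ), ∀ᵐ η ∂pvP ε, η ∈ (𝔈.kit m ε).G (𝔓.Γ m).pin0 (𝔓.Γ m).din0 → PvtrMesh (pvilMu 𝔓 m / 3) Λ.O (cfSites η))
    (loc₂ : ∀ᶠ ε in 𝓝[>] (0 : ℝ), ∀ᵐ η ∂pvP ε, η ∈ 𝔈.rG m ε → PvtrMesh (pvilMu 𝔓 m / 3) Λ.O' (cfSites η))
    (mX : ∀ᶠ ε in 𝓝[>] (0 : ℝ), AEMeasurable ((pvilMr 𝔓 𝔈 m ε).indicator ((pvilLr 𝔓 𝔈 m).X 𝔓.num true w)) (pvP ε)) :
    Pvr2Ok 𝔓 𝔈 m w ⟨Λ.D, Λ.Cm Λ.O, Λ.Cm Λ.O', n, β⟩ where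
  β_pos := hβ
  ok := pvr2_lay_ok H
  len₁ := n1
  len₂ := n2
  hO := F.hO.mono fun ε h => by show Λ.O ×ˢ univ = _; rw [h]
  hO' := by show Λ.O' ×ˢ univ = _; rw [F.hO']
  mW := mW
  rA := F.hW.mono fun ε h => by rw [← h]; exact pvr2_lay_rA H
  rG₁ := rG₁
  rG₂ := rG₂
  thr₁ := thr₁
  thr₂ := thr₂
  loc₁ := loc₁.mono fun ε h => h.mono fun η h1 hG => by show PvtrMesh (Λ.μ / 3) Λ.O (cfSites η); rw [F.hμ]; exact h1 hG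
  loc₂ := loc₂.mono fun ε h => h.mono fun η h1 hG => by show PvtrMesh (Λ.μ / 3) Λ.O' (cfSites η); rw [F.hμ]; exact h1 hG
  up := by
    filter_upwards [self_mem_nhdsWithin] with ε hε
    exact pvr2_lay_up_ae H hε
  cost := (pvr2_lay_cost H (θ := ENNReal.ofReal (β ^ 2 / 4)) (ENNReal.ofReal_pos.2 (by positivity))).mono fun ε h => Eventually.of_forall h
  mX := mX
  ev := F.hW.mono fun ε hW η hN hn h1 h2 hA => pvr2_ev H F hW hN hn h1 h2 hA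
  val := by
    filter_upwards [F.hW, F.reg] with ε hW hR η η' hN hn h1 h2 hA hN' hn' h1' h2' hA' e
    exact (pvly_tr_r 𝔓 𝔈 hR F.δ_pos hw (pvr2_ev H F hW hN hn h1 h2 hA) (pvly_gd_of_A (pvr2_ev H F hW hN' hn' h1' h2' hA').1) e).2.symm

end inst

end Claimed.Agent.R289
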