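-- KEEP
import Claimed.Agent.R289.Exit.FrcR
import Claimed.Agent.R289.Exit.RefPlug
import Claimed.Agent.R289.Tr.FrcDoor
import Claimed.Agent.R289.Tr.MeasL
import Claimed.Agent.R289.Tr.LinkMeas

/-!
# Row 289 (S0537), THE WALL, ROAD E, file Exit/FrcRI : THE LINK `door plug → reference plug` IS FORCED, **THE ENDS**      (helper250, order of 233 13:37Z, `notes/R289/FRCR_233.md`; prefix `pvr3_`, `pvr3`, `Pvr3`)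

CONSUMER: `pvr2_ok_of_lay` of 233 (`Exit/FrcR.lean` sec. 5): the hypotheses `hβ mW rG₁ rG₂ thr₁ thr₂ loc₁ loc₂ mX`, the fields `hO hW` of `Pvr2Fit`.
* sec. 1  MODEL FREE: `pvr3_thr_ex` (a positive propensity has a completion), **`pvr3_mesh_of_thr`** (usable ⟹ mesh of the state region, POINTWISE: the side event contains the mesh, the mesh is read in the region), `pvr3_mesh_mono`
* sec. 2  THE DOOR PLUG, any engine whose kit is the scaled soft kit of a datum `𝔊` (`PvkmEng 𝔈 c U`, `U.kit e = 𝔊.kit (pvP e) b q`): `pvr3Pl 𝔓 m S` (an event of the unit frame placed at the last door), `pvr3_door`, `pvr3_G`, `pvr3_rG₁`, `pvr3_thr₁`, `pvr3_loc₁`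
* sec. 3  THE REFERENCE PLUG, any engine with `rG m ε ⊆ pvurG 𝔊 b s (rO m) ε` (31): `pvr3_thr₂`, `pvr3_loc₂`
* sec. 4  **`Pvr3Eng 𝔓 𝔈 m U 𝔊 b q s`** = what the ends read of the engine (9 lines);   `.β_pos .door .win .mW .rG₁ .rG₂ .thr₁ .thr₂ .loc₁ .loc₂ .mX` (EVERY `ε`, POINTWISE);
          **`Pvr3Eng.ok_of_lay`** = `pvr2_ok_of_lay` of 233 with all the ends discharged,   **`Pvr3Eng.frc`** = the target (`PvjgAna.frcr`) from `Λ.Ok`, `Pvr2Fit`, three equations on `Λ`, the two fine meshes `hM₁ hM₂`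
* (sec. 5 AT THE ENGINE OF RECORD, `pvr3_rec_eng` `pvr3_rec_b`, MOVED to the end of `Exit/FrcRS.lean`: this file is MODEL FREE and follows no swap of the engine)
-/

set_option autoImplicit false

namespace Claimed.Agent.R289

open Set MeasureTheory Filter Topology Claims.C0465
open scoped ENNReal

/-! ## 1. model free -/

/-- a positive propensity has a completion -/
theorem pvr3_thr_ex {μ : Measure (Conf PvPt)} {W : Set PvPt} {M : Set (Conf PvPt)} {σ : Conf PvPt} {b : ℝ≥0∞} (b0 : b ≠ 0) (h : b ≤ pvtiP μ W M σ) : ∃ ξ, Conf.spl W (σ, ξ) ∈ M := by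
  by_contra hcon
  have h0 : pvtiP μ W M σ = 0 := by
    unfold pvtiP
    have : ∀ ξ, M.indicator (1 : Conf PvPt → ℝ≥0∞) (Conf.spl W (σ, ξ)) = 0 := fun ξ => indicator_of_notMem (fun hx => hcon ⟨ξ, hx⟩) _
    simp only [this, lintegral_zero]
  rw [h0] at h
  exact b0 (le_antisymm h zero_le)

/-- **USABLE ⟹ MESH OF THE STATE REGION, POINTWISE**: the side event `M` contains the mesh `ρ` of `O`, `O` lies in the state region `W` -/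
theorem pvr3_mesh_of_thr {μ : Measure (Conf PvPt)} {W O : Set ℂ} {M : Set (Conf PvPt)} {σ : Conf PvPt} {b : ℝ≥0∞} {ρ : ℝ} (b0 : b ≠ 0) (h : b ≤ pvtiP μ (W ×ˢ univ) M σ)
    (hO : O ⊆ W) (hM : ∀ η ∈ M, PvtrMesh ρ O (cfSites η)) : PvtrMesh ρ O (cfSites σ) := by
  obtain ⟨ξ, hξ⟩ := pvr3_thr_ex b0 h
  have h1 := hM _ hξ
  have h2 := pvtr_reads_mesh ρ O (Conf.spl (W ×ˢ univ) (σ, ξ))
  have h3 := pvtr_reads_mesh ρ O σ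
  rw [Conf.restr_spl_of_subset (prod_mono hO Subset.rfl)] at h2
  simp only at h2 h3
  rw [← h3, h2]
  exact h1

/-- a finer mesh is a mesh -/
theorem pvr3_mesh_mono {ρ ρ' : ℝ} (h : ρ ≤ ρ') {E Y : Set ℂ} (hm : PvtrMesh ρ E Y) : PvtrMesh ρ' E Y := by
  intro z hz
  obtain ⟨y, hy, hd⟩ := hm z (fun w hw => hz (Metric.closedBall_subset_closedBall h hw))
  exact ⟨y, hy, hd.trans h⟩

/-! ## 2. the door plug -/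

section door

variable {τ : Type} {c : ℝ} (𝔓 : PvxPar τ c) {𝔈 : PvieEng τ} {U : PvkmUnit} {𝔊 : PvpgGlob} {b q : ℝ≥0∞}

/-- **an event of the unit frame** (door `0`, direction `1`, cells of side `1`, black form) **placed at the last door of the thin chain of level `m`** -/
noncomputable def pvr3Pl (m : ℕ) (S : Set (Conf PvPt)) : Set (Conf PvPt) := cfMap (pvthInv (𝔓.Γ m).pin0 ((𝔓.Γ m).din0 * pvlmDel c m)) ⁻¹' S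

/-- a region of the unit frame placed at the last door -/
noncomputable def pvr3At (m : ℕ) (S : Set ℂ) : Set ℂ := pvthSim (𝔓.Γ m).pin0 ((𝔓.Γ m).din0 * pvlmDel c m) '' S

theorem pvr3_eqns_cite : True := by
  have := @pvr3Pl.eq_1; have := @pvr3At.eq_1
  trivial

/-- the form of 77 -/
theorem pvr3_Pl_eq (m : ℕ) (S : Set (Conf PvPt)) : pvr3Pl 𝔓 m S = pvdpPl (𝔓.Γ m).pin0 ((𝔓.Γ m).din0 * pvlmDel c m) true S := rfl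

/-- the region of the last door plug does not depend on `ε` -/
theorem pvr3_door (hU : PvkmEng 𝔈 c U) (hk : ∀ e, U.kit e = 𝔊.kit (pvP e) b q) (m : ℕ) (ε : ℝ) : pvieDoor 𝔈 m ε (𝔓.Γ m).pin0 (𝔓.Γ m).din0 = pvr3At 𝔓 m 𝔊.O₀ := by
  have h := pvdp_door hU m ε (𝔓.Γ m).pin0 (𝔓.Γ m).din0
  rw [hk] at h
  exact h

/-- the usable states of the last door plug = the usable states of the datum at the mesh `ε / δ_m`, placed -/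
theorem pvr3_G (hU : PvkmEng 𝔈 c U) (hk : ∀ e, U.kit e = 𝔊.kit (pvP e) b q) {m : ℕ} (hd : (𝔓.Γ m).din0 ≠ 0) (ε : ℝ) :
    (𝔈.kit m ε).G (𝔓.Γ m).pin0 (𝔓.Γ m).din0 = pvr3Pl 𝔓 m (𝔊.G₀ (pvP (ε / pvlmDel c m)) b) := by
  have h := pvdp_Gk hU m ε true (𝔓.Γ m).pin0 (𝔓.Γ m).din0 hd
  rw [hk] at h
  exact h

/-- **`rG₁`**, every `ε` -/
theorem pvr3_rG₁ (hU : PvkmEng 𝔈 c U) (hk : ∀ e, U.kit e = 𝔊.kit (pvP e) b q) {m : ℕ} (hd : ‖(𝔓.Γ m).din0‖ = 1) (ε : ℝ) :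
    Conf.ReadsSet (pvieDoor 𝔈 m ε (𝔓.Γ m).pin0 (𝔓.Γ m).din0 ×ˢ univ) ((𝔈.kit m ε).G (𝔓.Γ m).pin0 (𝔓.Γ m).din0) := by
  rw [pvr3_door 𝔓 hU hk, pvr3_G 𝔓 hU hk (pvth_ne_zero hd), pvr3_Pl_eq]
  refine pvdp_reads _ _ (pvdp_a_ne hd c m) true ?_
  intro η
  have h := pvpg_rG0 (𝔊 := 𝔊) (b := b) (pvP (ε / pvlmDel c m)) η
  rw [pvdp_pre_O] at h
  exact iff_of_eq h

/-- **`thr₁`**, every `ε`, POINTWISE, every half lane of the datum -/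
theorem pvr3_thr₁ (hU : PvkmEng 𝔈 c U) (hk : ∀ e, U.kit e = 𝔊.kit (pvP e) b q) {m : ℕ} (hd : ‖(𝔓.Γ m).din0‖ = 1) (ε : ℝ) (i : Fin 4) :
    ∀ σ ∈ (𝔈.kit m ε).G (𝔓.Γ m).pin0 (𝔓.Γ m).din0, b ≤ pvtiP (pvP ε) (pvieDoor 𝔈 m ε (𝔓.Γ m).pin0 (𝔓.Γ m).din0 ×ˢ univ) (pvr3Pl 𝔓 m (𝔊.H i)) σ := by
  intro σ hσ
  have h := pvdp_thr_k hU m ε true (𝔓.Γ m).pin0 (𝔓.Γ m).din0 hd (S := 𝔊.H i) (b₀ := b) (by rw [hk]; exact pvdp_glob_thr 𝔊 _ b q i)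
  exact h hσ

/-- **`loc₁`**, every `ε`, POINTWISE: a usable door plug has the mesh that ONE of its side events contains -/
theorem pvr3_loc₁ (hU : PvkmEng 𝔈 c U) (hk : ∀ e, U.kit e = 𝔊.kit (pvP e) b q) (b0 : b ≠ 0) {m : ℕ} (hd : ‖(𝔓.Γ m).din0‖ = 1) (ε : ℝ) (i : Fin 4) {ρ : ℝ}
    (hM : ∀ η ∈ pvr3Pl 𝔓 m (𝔊.H i), PvtrMesh ρ (pvr3At 𝔓 m 𝔊.O₀) (cfSites η)) :
    ∀ σ ∈ (𝔈.kit m ε).G (𝔓.Γ m).pin0 (𝔓.Γ m).din0, PvtrMesh ρ (pvr3At 𝔓 m 𝔊.O₀) (cfSites σ) := by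
  intro σ hσ
  have h := pvr3_thr₁ 𝔓 hU hk hd ε i σ hσ
  rw [pvr3_door 𝔓 hU hk] at h
  exact pvr3_mesh_of_thr b0 h Subset.rfl hM

end door

/-! ## 3. the reference plug -/

section ref

variable {τ : Type} {𝔈 : PvieEng τ} {𝔊 : PvpgGlob} {b : ℝ≥0∞} {s : ℝ} {m : ℕ} {ε : ℝ}

/-- **`thr₂`**, POINTWISE, every half lane of the datum -/
theorem pvr3_thr₂ (hr : 𝔈.rG m ε ⊆ pvurG 𝔊 b s (𝔈.rO m) ε) (i : Fin 4) : ∀ σ ∈ 𝔈.rG m ε, b ≤ pvtiP (pvP ε) (𝔈.rO m ×ˢ univ) (pvurSc s (𝔊.H i)) σ :=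
  fun _ hσ => pvur_G_thr (hr hσ) i

/-- **`loc₂`**, POINTWISE, from the mesh inside ONE side event -/
theorem pvr3_loc₂ (hr : 𝔈.rG m ε ⊆ pvurG 𝔊 b s (𝔈.rO m) ε) (b0 : b ≠ 0) (i : Fin 4) {ρ : ℝ} {O : Set ℂ} (hO : O ⊆ 𝔈.rO m)
    (hM : ∀ η ∈ pvurSc s (𝔊.H i), PvtrMesh ρ O (cfSites η)) : ∀ σ ∈ 𝔈.rG m ε, PvtrMesh ρ O (cfSites σ) :=
  fun σ hσ => pvr3_mesh_of_thr b0 (pvr3_thr₂ hr i σ hσ) hO hM

end ref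

/-! ## 4. what the ends read of the engine; layout + fit ⟹ the contract, the target -/

section ends

variable {τ : Type} {c : ℝ}

/-- **WHAT THE ENDS OF THE `r`-LINK READ OF THE ENGINE AT THE LEVEL `m`**: the kit is the scaled soft kit of the datum `𝔊` (thresholds `b q`), the reference plug is the plug of `𝔊` at the scale `s`, region `rO m` -/
structure Pvr3Eng (𝔓 : PvxPar τ c) (𝔈 : PvieEng τ) (m : ℕ) (U : PvkmUnit) (𝔊 : PvpgGlob) (b q : ℝ≥0∞) (s : ℝ) : Prop where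
  wf : ∃ (m0 : ℕ) (Cth : ℝ) (r κs : ℕ → ℝ), PvieEng.Wf 𝔓 𝔈 m0 Cth r κs
  hU : PvkmEng 𝔈 c U
  hk : ∀ e, U.kit e = 𝔊.kit (pvP e) b q
  mO : MeasurableSet 𝔊.O₀
  b0 : b ≠ 0
  bt : b ≠ ∞
  hd : ‖(𝔓.Γ m).din0‖ = 1
  hr : ∀ ε, 𝔈.rG m ε ⊆ pvurG 𝔊 b s (𝔈.rO m) ε
  rr : ∀ ε, Conf.Reads (𝔈.rO m ×ˢ univ) (fun η => η ∈ 𝔈.rG m ε)

variable {𝔓 : PvxPar τ c} {𝔈 : PvieEng τ} {m : ℕ} {U : PvkmUnit} {𝔊 : PvpgGlob} {b q : ℝ≥0∞} {s : ℝ}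

theorem Pvr3Eng.β_pos (E : Pvr3Eng 𝔓 𝔈 m U 𝔊 b q s) : 0 < b.toReal := ENNReal.toReal_pos E.b0 E.bt

/-- `hO` (also the field `hO` of `Pvr2Fit`), every `ε` -/
theorem Pvr3Eng.door (E : Pvr3Eng 𝔓 𝔈 m U 𝔊 b q s) (ε : ℝ) : pvieDoor 𝔈 m ε (𝔓.Γ m).pin0 (𝔓.Γ m).din0 = pvr3At 𝔓 m 𝔊.O₀ := pvr3_door 𝔓 E.hU E.hk m ε

/-- the window does not depend on `ε` (the field `hW` of `Pvr2Fit`) -/
theorem Pvr3Eng.win (E : Pvr3Eng 𝔓 𝔈 m U 𝔊 b q s) (ε : ℝ) : pvilWnr 𝔓 𝔈 m ε = 𝔈.rK m ∪ 𝔈.rO m ∪ pvr3At 𝔓 m 𝔊.O₀ := by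
  unfold pvilWnr
  rw [E.door]

theorem Pvr3Eng.mAt (E : Pvr3Eng 𝔓 𝔈 m U 𝔊 b q s) : MeasurableSet (pvr3At 𝔓 m 𝔊.O₀) := pvzi2_sim _ _ E.mO

/-- `mW`, every `ε` -/
theorem Pvr3Eng.mW (E : Pvr3Eng 𝔓 𝔈 m U 𝔊 b q s) (ε : ℝ) : MeasurableSet (pvilWnr 𝔓 𝔈 m ε) := by
  obtain ⟨m0, Cth, r, κs, H⟩ := E.wf
  rw [E.win]
  exact ((H.m_rK m).union (H.m_rO m)).union E.mAt

/-- `rG₁`, every `ε` -/
theorem Pvr3Eng.rG₁ (E : Pvr3Eng 𝔓 𝔈 m U 𝔊 b q s) (ε : ℝ) : Conf.ReadsSet (pvr3At 𝔓 m 𝔊.O₀ ×ˢ univ) ((𝔈.kit m ε).G (𝔓.Γ m).pin0 (𝔓.Γ m).din0) := by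
  rw [← E.door ε]
  exact pvr3_rG₁ 𝔓 E.hU E.hk E.hd ε

/-- `rG₂`, every `ε` -/
theorem Pvr3Eng.rG₂ (E : Pvr3Eng 𝔓 𝔈 m U 𝔊 b q s) (ε : ℝ) : Conf.ReadsSet (𝔈.rO m ×ˢ univ) (𝔈.rG m ε) := fun η => iff_of_eq (E.rr ε η)

/-- `thr₁`, every `ε`, POINTWISE, every half lane -/
theorem Pvr3Eng.thr₁ (E : Pvr3Eng 𝔓 𝔈 m U 𝔊 b q s) (ε : ℝ) (i : Fin 4) :
    ∀ σ ∈ (𝔈.kit m ε).G (𝔓.Γ m).pin0 (𝔓.Γ m).din0, ENNReal.ofReal b.toReal ≤ pvtiP (pvP ε) (pvr3At 𝔓 m 𝔊.O₀ ×ˢ univ) (pvr3Pl 𝔓 m (𝔊.H i)) σ := by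
  rw [ENNReal.ofReal_toReal E.bt, ← E.door ε]
  exact pvr3_thr₁ 𝔓 E.hU E.hk E.hd ε i

/-- `thr₂`, every `ε`, POINTWISE, every half lane -/
theorem Pvr3Eng.thr₂ (E : Pvr3Eng 𝔓 𝔈 m U 𝔊 b q s) (ε : ℝ) (j : Fin 4) : ∀ σ ∈ 𝔈.rG m ε, ENNReal.ofReal b.toReal ≤ pvtiP (pvP ε) (𝔈.rO m ×ˢ univ) (pvurSc s (𝔊.H j)) σ := by
  rw [ENNReal.ofReal_toReal E.bt]
  exact pvr3_thr₂ (E.hr ε) j

/-- `loc₁`, every `ε`, POINTWISE -/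
theorem Pvr3Eng.loc₁ (E : Pvr3Eng 𝔓 𝔈 m U 𝔊 b q s) (ε : ℝ) (i : Fin 4) {ρ : ℝ} (hM : ∀ η ∈ pvr3Pl 𝔓 m (𝔊.H i), PvtrMesh ρ (pvr3At 𝔓 m 𝔊.O₀) (cfSites η)) :
    ∀ σ ∈ (𝔈.kit m ε).G (𝔓.Γ m).pin0 (𝔓.Γ m).din0, PvtrMesh ρ (pvr3At 𝔓 m 𝔊.O₀) (cfSites σ) := pvr3_loc₁ 𝔓 E.hU E.hk E.b0 E.hd ε i hM

/-- `loc₂`, every `ε`, POINTWISE, from the mesh inside one side event (the other source = a mesh conjunct of `rG`) -/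
theorem Pvr3Eng.loc₂ (E : Pvr3Eng 𝔓 𝔈 m U 𝔊 b q s) (ε : ℝ) (j : Fin 4) {ρ : ℝ} {O : Set ℂ} (hO : O ⊆ 𝔈.rO m) (hM : ∀ η ∈ pvurSc s (𝔊.H j), PvtrMesh ρ O (cfSites η)) :
    ∀ σ ∈ 𝔈.rG m ε, PvtrMesh ρ O (cfSites σ) := pvr3_loc₂ (E.hr ε) E.b0 j hO hM

/-- `mX` -/
theorem Pvr3Eng.mX (E : Pvr3Eng 𝔓 𝔈 m U 𝔊 b q s) {w : ∀ η : Conf PvPt, (delbPl (pvieY η)).Dart → ℂ} (hw : PvmlWm w) {ε : ℝ} (hε : 0 < ε) :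
    AEMeasurable ((pvilMr 𝔓 𝔈 m ε).indicator ((pvilLr 𝔓 𝔈 m).X 𝔓.num true w)) (pvP ε) := by
  obtain ⟨m0, Cth, r, κs, H⟩ := E.wf
  exact pvml_IXr_aem 𝔓 (pvml_engB H) hε hw m

/-- **LAYOUT + FIT ⟹ THE CONTRACT**: `pvr2_ok_of_lay` of 233 with ALL the ends discharged.      `i j` = the half lanes used (exit side of the door plug, entrance side of the reference plug);
`hM₁` = the fine mesh inside the side event of the door plug (R24 of 234: `pvna_Hf_mesh`), `hM₂` = the fine mesh of the usable reference plugs (mesh conjunct of `rG`, U4; or `Pvr3Eng.loc₂`) -/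
theorem Pvr3Eng.ok_of_lay (E : Pvr3Eng 𝔓 𝔈 m U 𝔊 b q s) {Λ : Pvr2Lay} (H : Λ.Ok) (F : Pvr2Fit 𝔓 𝔈 m Λ) {w : ∀ η : Conf PvPt, (delbPl (pvieY η)).Dart → ℂ} (hw : PvlyWt w) (hw' : PvmlWm w) (i j : Fin 4)
    (eO : Λ.O = pvr3At 𝔓 m 𝔊.O₀) (eLp : Λ.Lp = pvr3Pl 𝔓 m (𝔊.H i)) (eLm : Λ.Lm = pvurSc s (𝔊.H j))
    (hM₁ : ∀ η ∈ pvr3Pl 𝔓 m (𝔊.H i), PvtrMesh (pvilMu 𝔓 m / 3) (pvr3At 𝔓 m 𝔊.O₀) (cfSites η)) (hM₂ : ∀ ε, ∀ η ∈ 𝔈.rG m ε, PvtrMesh (pvilMu 𝔓 m / 3) (𝔈.rO m) (cfSites η)) :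
    Pvr2Ok 𝔓 𝔈 m w ⟨Λ.D, Λ.Cm Λ.O, Λ.Cm Λ.O', max (Λ.L true).length (Λ.L false).length, b.toReal⟩ := by
  refine pvr2_ok_of_lay H F hw E.β_pos (le_max_left _ _) (le_max_right _ _) (Eventually.of_forall E.mW) ?_ ?_ ?_ ?_ ?_ ?_ ?_
  · rw [eO]; exact Eventually.of_forall E.rG₁
  · rw [F.hO']; exact Eventually.of_forall E.rG₂
  · rw [eO, eLp]; exact Eventually.of_forall fun ε => E.thr₁ ε i
  · rw [F.hO', eLm]; exact Eventually.of_forall fun ε => E.thr₂ ε j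
  · rw [eO]; exact Eventually.of_forall fun ε => Eventually.of_forall (E.loc₁ ε i hM₁)
  · rw [F.hO']; exact Eventually.of_forall fun ε => Eventually.of_forall (hM₂ ε)
  · filter_upwards [self_mem_nhdsWithin] with ε hε
    exact E.mX hw' hε

/-- **LAYOUT + FIT ⟹ THE `r`-LINK IS FORCED** (the target of 161 102 214: `PvjgAna.frcr`) -/
theorem Pvr3Eng.frc (E : Pvr3Eng 𝔓 𝔈 m U 𝔊 b q s) {Λ : Pvr2Lay} (H : Λ.Ok) (F : Pvr2Fit 𝔓 𝔈 m Λ) {w : ∀ η : Conf PvPt, (delbPl (pvieY η)).Dart → ℂ} (hw : PvlyWt w) (hw' : PvmlWm w) (i j : Fin 4)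
    (eO : Λ.O = pvr3At 𝔓 m 𝔊.O₀) (eLp : Λ.Lp = pvr3Pl 𝔓 m (𝔊.H i)) (eLm : Λ.Lm = pvurSc s (𝔊.H j))
    (hM₁ : ∀ η ∈ pvr3Pl 𝔓 m (𝔊.H i), PvtrMesh (pvilMu 𝔓 m / 3) (pvr3At 𝔓 m 𝔊.O₀) (cfSites η)) (hM₂ : ∀ ε, ∀ η ∈ 𝔈.rG m ε, PvtrMesh (pvilMu 𝔓 m / 3) (𝔈.rO m) (cfSites η)) :
    ∃ q' : ℝ≥0∞, q' ≠ 0 ∧ ∀ᶠ ε in 𝓝[>] (0 : ℝ), ∀ᵐ η ∂pvP ε, η ∈ (𝔈.kit m ε).G (𝔓.Γ m).pin0 (𝔓.Γ m).din0 → η ∈ 𝔈.rG m ε →
      q' ≤ pvtiP (pvP ε) (pvieOr 𝔓 𝔈 m ε) (pvilAr 𝔓 𝔈 m ε w) η :=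
  pvr2_frc (E.ok_of_lay H F hw hw' i j eO eLp eLm hM₁ hM₂)

end ends

end Claimed.Agent.R289
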