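-- KEEP
import Claimed.Agent.R289.Exit.FrcRI
import Claimed.Agent.R289.Tr.FrcRG
import Claimed.Agent.R289.Exit.EngU4L
import Claimed.Agent.R289.Exit.EngRec
import Claimed.Agent.R289.Exit.NumS

/-!
# Row 289 (S0537), THE WALL, ROAD E, file Exit/FrcRS : THE LINK `door plug → reference plug`, **THE TWO SIDES AT THE `.sim` REGIONS**      (helper250, asked by 262 14:12 box; prefix `pvr5_`, `pvr5`)

GENERIC IN THE TRUNCATION `𝔱` (so it survives R24) AND IN THE SCALE `s` OF THE REFERENCE PLUG (so it survives U4).      Plug of record of the unit frame = `pvkdP (1/40) = pvkgG.toPvkdPlug` (rfl).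
* `pvr5R 𝔓 m 𝔱`  := `(pvhfR (pvkdP (1/40)) 𝔱 true).sim pin0 (din0 * δ_m)`      = `Λ.𝔯`  (EXIT side of the last door plug of the thin chain of level `m`)
* `pvr5R' s 𝔱`   := `(pvhfR (pvkdP (1/40)) 𝔱 false).sim 0 (1 * s)`            = `Λ.𝔯'` (ENTRANCE side of the reference plug, scale `s`)
* fields of `Pvr2Lay.Ok`: **`pvr5_wf` `pvr5_wf'` `pvr5_is` `pvr5_is'`** (side events `pvr3Pl 𝔓 m (pvhfH _ 𝔱 i)`, `i < 2`; `pvurSc s (pvhfH _ 𝔱 j)`, `2 ≤ j`)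
* fields of `Pvr2Fit`: **`pvr5_hp` `pvr5_hρ` `pvr5_hEw` `pvr5_hp'` `pvr5_hρ'` `pvr5_hEw'`** (`s / 40 = pvilRu 𝔈 m`)
* dictionary of the regions: `pvr5_Rm _Tg _E _Ef _W _mu` and primes (in the words `pvkdAt z d (pvdilS s ·)` of 233)
* the engine after U4 (`rG = pvurGM ..`): **`pvr5_eng_GM`** (`Pvr3Eng`), **`pvr5_hM₂`** (= `hM₂`)
* THE LINES OF `Pvr6In` (129 `Exit/FrcRA`) ON REGIONS AND NUMBERS, generic (names of U4 `pvnuRO pvnuRK pvnuRY pvurS`, regions of 262): `pvr5_Z pvr5_at_sq pvr5_Dr`, **`pvr5_hO hO' hW hKE hE hE' fit`**, numbers `pvr5s pvr5N pvr5M`, `pvr5_Ms Ns N1 M1 M2 mu_s u1`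
* LAST SECTION, AT THE ENGINE OF RECORD: `pvr3_rec_b`, **`pvr3_rec_eng`** (the only statements which follow a swap of the engine)
* the fine mesh inside the side event of the door plug: **`pvr5_hM₁`** (= `hM₁` of `Pvr3Eng.ok_of_lay`), inside the side event of the reference plug: `pvr5_hM₂'`
-/

set_option autoImplicit false

namespace Claimed.Agent.R289

open Set MeasureTheory Filter Topology Metric Claims.C0465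
open scoped ENNReal

section defs

variable {τ : Type} {c : ℝ} (𝔓 : PvxPar τ c)

/-- regions of the EXIT side of the last door plug of the thin chain of level `m` -/
noncomputable def pvr5R (m : ℕ) (𝔱 : PvhfTr) : PvhfReg := (pvhfR (pvkdP (1 / 40)) 𝔱 true).sim (𝔓.Γ m).pin0 ((𝔓.Γ m).din0 * ((pvlmDel c m : ℝ) : ℂ))

/-- regions of the ENTRANCE side of the reference plug at the scale `s` -/
noncomputable def pvr5R' (s : ℝ) (𝔱 : PvhfTr) : PvhfReg := (pvhfR (pvkdP (1 / 40)) 𝔱 false).sim 0 (1 * (s : ℂ))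

theorem pvr5_eqns_cite : True := by
  have := @pvr5R.eq_1; have := @pvr5R'.eq_1
  trivial

end defs

section door

variable {τ : Type} {c : ℝ} (𝔓 : PvxPar τ c) {m : ℕ} {𝔱 : PvhfTr}

theorem pvr5_wf (hG : PvhfGeo (pvkdP (1 / 40)) 𝔱) (hd : ‖(𝔓.Γ m).din0‖ = 1) : (pvr5R 𝔓 m 𝔱).Wf :=
  (hG.wf true).sim _ (pvr2_ds_ne (pvlm_Del_pos c m) hd)

theorem pvr5_is (hG : PvhfGeo (pvkdP (1 / 40)) 𝔱) (hd : ‖(𝔓.Γ m).din0‖ = 1) {i : Fin 4} (hi : i.1 < 2) :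
    PvhfIs (pvr5R 𝔓 m 𝔱) true (pvr3Pl 𝔓 m (pvhfH (pvkdP (1 / 40)) 𝔱 i)) := by
  have e : pvhfH (pvkdP (1 / 40)) 𝔱 i = pvhfS (pvkdP (1 / 40)) 𝔱 true := by
    unfold pvhfH
    rw [decide_eq_true hi]
  rw [e]
  exact (pvhf_S_is hG true).sim _ (pvr2_ds_ne (pvlm_Del_pos c m) hd)

theorem pvr5_sc (m : ℕ) : (pvkdP (1 / 40)).sc (pvlmDel c m) = pvkdP (pvilRd 𝔓 m) := by
  rw [pvdil_P (pvlm_Del_pos c m)]
  congr 1
  unfold pvilRd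
  ring

theorem pvr5_hp (hd : ‖(𝔓.Γ m).din0‖ = 1) : (pvr5R 𝔓 m 𝔱).sd.p = (pvkdP (pvilRd 𝔓 m)).pg (𝔓.Γ m).pin0 (𝔓.Γ m).din0 := by
  unfold pvr5R
  rw [pvr2_sim_p _ _ _ _ (pvlm_Del_pos c m) hd, pvr5_sc]

theorem pvr5_hρ (hd : ‖(𝔓.Γ m).din0‖ = 1) : (pvr5R 𝔓 m 𝔱).ρ = (pvkdP (pvilRd 𝔓 m)).ρ := by
  unfold pvr5R
  rw [pvr2_sim_rho _ _ _ _ (pvlm_Del_pos c m) hd, pvr5_sc]

theorem pvr5_Ef (hd : ‖(𝔓.Γ m).din0‖ = 1) : (pvr5R 𝔓 m 𝔱).Ef = pvkdAt (𝔓.Γ m).pin0 (𝔓.Γ m).din0 (pvkdP (pvilRd 𝔓 m)).Ew := by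
  unfold pvr5R
  rw [pvr2_sim_Ef _ _ _ _ (pvlm_Del_pos c m) hd, pvr5_sc]

theorem pvr5_hEw (hG : PvhfGeo (pvkdP (1 / 40)) 𝔱) (hd : ‖(𝔓.Γ m).din0‖ = 1) : pvkdAt (𝔓.Γ m).pin0 (𝔓.Γ m).din0 (pvkdP (pvilRd 𝔓 m)).Ew ⊆ (pvr5R 𝔓 m 𝔱).E := by
  rw [← pvr5_Ef 𝔓 hd (𝔱 := 𝔱)]
  exact (pvr5_wf 𝔓 hG hd).sub

theorem pvr5_Rm (hd : ‖(𝔓.Γ m).din0‖ = 1) (β : Bool) : (pvr5R 𝔓 m 𝔱).sd.Rm β = pvkdAt (𝔓.Γ m).pin0 (𝔓.Γ m).din0 (pvdilS (pvlmDel c m) (𝔱.Ln true β)) :=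
  pvr2_sim_Rm _ _ _ _ (pvlm_Del_pos c m) hd β

theorem pvr5_Tg (hd : ‖(𝔓.Γ m).din0‖ = 1) (β : Bool) : (pvr5R 𝔓 m 𝔱).sd.Tg β = pvkdAt (𝔓.Γ m).pin0 (𝔓.Γ m).din0 (pvdilS (pvlmDel c m) (𝔱.Dr true β)) :=
  pvr2_sim_Tg _ _ _ _ (pvlm_Del_pos c m) hd β

theorem pvr5_E (hd : ‖(𝔓.Γ m).din0‖ = 1) : (pvr5R 𝔓 m 𝔱).E = pvkdAt (𝔓.Γ m).pin0 (𝔓.Γ m).din0 (pvdilS (pvlmDel c m) (𝔱.Es true)) :=
  pvr2_sim_E _ _ _ _ (pvlm_Del_pos c m) hd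

theorem pvr5_W (hd : ‖(𝔓.Γ m).din0‖ = 1) : (pvr5R 𝔓 m 𝔱).W = pvkdAt (𝔓.Γ m).pin0 (𝔓.Γ m).din0 (pvdilS (pvlmDel c m) 𝔱.W) :=
  pvr2_sim_W _ _ _ _ (pvlm_Del_pos c m) hd

theorem pvr5_mu (hd : ‖(𝔓.Γ m).din0‖ = 1) : (pvr5R 𝔓 m 𝔱).μ = pvlmDel c m * 𝔱.μ :=
  pvr2_sim_mu _ _ _ _ (pvlm_Del_pos c m) hd

/-- the window of the fine mesh in the words of `Exit/FrcRI` -/
theorem pvr5_W_at (hd : ‖(𝔓.Γ m).din0‖ = 1) : (pvr5R 𝔓 m 𝔱).W = pvr3At 𝔓 m 𝔱.W := by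
  show pvthInv _ _ ⁻¹' 𝔱.W = pvthSim _ _ '' 𝔱.W
  exact pvhf_at_eq _ (pvr2_ds_ne (pvlm_Del_pos c m) hd) _

/-- **`hM₁`**: the fine mesh inside the side event of the door plug -/
theorem pvr5_hM₁ (hG : PvhfGeo (pvkdP (1 / 40)) 𝔱) (hd : ‖(𝔓.Γ m).din0‖ = 1) {i : Fin 4} (hi : i.1 < 2) {O : Set ℂ} (hO : O ⊆ 𝔱.W) {μ : ℝ} (hμ : 𝔱.μ * pvlmDel c m ≤ μ) :
    ∀ η ∈ pvr3Pl 𝔓 m (pvhfH (pvkdP (1 / 40)) 𝔱 i), PvtrMesh μ (pvr3At 𝔓 m O) (cfSites η) := by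
  intro η hη
  have h := (pvr5_is 𝔓 hG hd hi).fine hη
  rw [pvr5_W_at 𝔓 hd, pvr5_mu 𝔓 hd] at h
  refine pvr3_mesh_mono (by rw [mul_comm]; exact hμ) fun z hz => h z (pvtr_core_mono (image_mono hO) hz)

end door

section ref

variable {s : ℝ} {𝔱 : PvhfTr}

theorem pvr5_wf' (hG : PvhfGeo (pvkdP (1 / 40)) 𝔱) (hs : 0 < s) : (pvr5R' s 𝔱).Wf :=
  (hG.wf false).sim _ (pvr2_ds_ne hs norm_one)

theorem pvr5_is' (hG : PvhfGeo (pvkdP (1 / 40)) 𝔱) (hs : 0 < s) {j : Fin 4} (hj : ¬ j.1 < 2) :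
    PvhfIs (pvr5R' s 𝔱) false (pvurSc s (pvhfH (pvkdP (1 / 40)) 𝔱 j)) := by
  have e : pvhfH (pvkdP (1 / 40)) 𝔱 j = pvhfS (pvkdP (1 / 40)) 𝔱 false := by
    unfold pvhfH
    rw [decide_eq_false hj]
  have h := (pvhf_S_is hG false).sim 0 (pvr2_ds_ne hs norm_one)
  rw [e]
  unfold pvurSc pvr5R'
  rw [one_mul] at h ⊢
  exact h

theorem pvr5_hp' (hs : 0 < s) {r : ℝ} (hr : s / 40 = r) : (pvr5R' s 𝔱).sd.p = (pvkdP r).pg 0 1 := by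
  unfold pvr5R'
  rw [pvr2_sim_p _ _ _ _ hs norm_one, pvdil_P hs, ← hr]
  congr 2
  ring

theorem pvr5_hρ' (hs : 0 < s) {r : ℝ} (hr : s / 40 = r) : (pvr5R' s 𝔱).ρ = (pvkdP r).ρ := by
  unfold pvr5R'
  rw [pvr2_sim_rho _ _ _ _ hs norm_one, pvdil_P hs, ← hr]
  congr 2
  ring

theorem pvr5_Ef' (hs : 0 < s) {r : ℝ} (hr : s / 40 = r) : (pvr5R' s 𝔱).Ef = pvkdAt 0 1 (pvkdP r).Ew := by
  unfold pvr5R'
  rw [pvr2_sim_Ef _ _ _ _ hs norm_one, pvdil_P hs, ← hr]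
  congr 3
  ring

theorem pvr5_hEw' (hG : PvhfGeo (pvkdP (1 / 40)) 𝔱) (hs : 0 < s) {r : ℝ} (hr : s / 40 = r) : pvkdAt 0 1 (pvkdP r).Ew ⊆ (pvr5R' s 𝔱).E := by
  rw [← pvr5_Ef' hs hr (𝔱 := 𝔱)]
  exact (pvr5_wf' hG hs).sub

theorem pvr5_Rm' (hs : 0 < s) (β : Bool) : (pvr5R' s 𝔱).sd.Rm β = pvkdAt 0 1 (pvdilS s (𝔱.Ln false β)) := pvr2_sim_Rm _ _ _ _ hs norm_one β

theorem pvr5_Tg' (hs : 0 < s) (β : Bool) : (pvr5R' s 𝔱).sd.Tg β = pvkdAt 0 1 (pvdilS s (𝔱.Dr false β)) := pvr2_sim_Tg _ _ _ _ hs norm_one β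

theorem pvr5_E' (hs : 0 < s) : (pvr5R' s 𝔱).E = pvkdAt 0 1 (pvdilS s (𝔱.Es false)) := pvr2_sim_E _ _ _ _ hs norm_one

theorem pvr5_W' (hs : 0 < s) : (pvr5R' s 𝔱).W = pvkdAt 0 1 (pvdilS s 𝔱.W) := pvr2_sim_W _ _ _ _ hs norm_one

theorem pvr5_mu' (hs : 0 < s) : (pvr5R' s 𝔱).μ = s * 𝔱.μ := pvr2_sim_mu _ _ _ _ hs norm_one

/-- the fine mesh inside the side event of the reference plug (scale `s`: it is NOT the fine mesh of the link, which is the mesh conjunct of `rG`) -/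
theorem pvr5_hM₂' (hG : PvhfGeo (pvkdP (1 / 40)) 𝔱) (hs : 0 < s) {j : Fin 4} (hj : ¬ j.1 < 2) :
    ∀ η ∈ pvurSc s (pvhfH (pvkdP (1 / 40)) 𝔱 j), PvtrMesh (s * 𝔱.μ) (pvkdAt 0 1 (pvdilS s 𝔱.W)) (cfSites η) := by
  intro η hη
  have h := (pvr5_is' hG hs hj).fine hη
  rw [pvr5_W' hs, pvr5_mu' hs] at h
  exact h

end ref

/-! ## the engine after U4: `rG m ε = pvurGM 𝔊 b s (rO m) μ' ε` (84 `Exit/EngU4`: `pvnu4_A_rG`, by `rfl`) -/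

section engGM

variable {τ : Type} {c : ℝ} {𝔓 : PvxPar τ c} {𝔈 : PvieEng τ} {m : ℕ} {U : PvkmUnit} {𝔊 : PvpgGlob} {b q : ℝ≥0∞} {s μ' : ℝ}

/-- **`Pvr3Eng` for every engine whose usable reference plugs are `pvurGM`** (the two lines `hr rr` paid) -/
theorem pvr5_eng_GM (wf : ∃ (m0 : ℕ) (Cth : ℝ) (r κs : ℕ → ℝ), PvieEng.Wf 𝔓 𝔈 m0 Cth r κs) (hU : PvkmEng 𝔈 c U) (hk : ∀ e, U.kit e = 𝔊.kit (pvP e) b q) (mO : MeasurableSet 𝔊.O₀)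
    (b0 : b ≠ 0) (bt : b ≠ ∞) (hd : ‖(𝔓.Γ m).din0‖ = 1) (hG : ∀ ε, 𝔈.rG m ε = pvurGM 𝔊 b s (𝔈.rO m) μ' ε) : Pvr3Eng 𝔓 𝔈 m U 𝔊 b q s where
  wf := wf
  hU := hU
  hk := hk
  mO := mO
  b0 := b0
  bt := bt
  hd := hd
  hr := fun ε => by rw [hG]; exact inter_subset_left
  rr := fun ε => by rw [hG]; exact pvur_GM_reads 𝔊 b s (𝔈.rO m) μ' ε

/-- **`hM₂`**: the fine mesh of the usable reference plugs = the mesh conjunct of `pvurGM` -/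
theorem pvr5_hM₂ (hG : ∀ ε, 𝔈.rG m ε = pvurGM 𝔊 b s (𝔈.rO m) μ' ε) (hμ : μ' ≤ pvilMu 𝔓 m / 3) : ∀ ε, ∀ η ∈ 𝔈.rG m ε, PvtrMesh (pvilMu 𝔓 m / 3) (𝔈.rO m) (cfSites η) := by
  intro ε η hη
  rw [hG] at hη
  exact pvr3_mesh_mono hμ hη.2.2

end engGM

/-! ## the regions of the engine after U4 (names of 84 `Exit/EngU4`) against the regions of 262 (`Tr/FrcRG`): GENERIC, no engine of record -/

section reg

variable {τ : Type} {c : ℝ} {𝔓 : PvxPar τ c} {m : ℕ} {s : ℝ} {N M : ℤ}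

/-- the last door of the thin chain = the door of 262 -/
theorem pvr5_Z (hΓ : 𝔓.Γ m = pvxrGam 𝔓 m) (hM : (M : ℝ) * s = pvehDl 𝔓 m / 2) : (𝔓.Γ m).pin0 = pvr4Z s M := by
  rw [hΓ, pvxr_gam_pin0]
  unfold pvr4Z
  rw [hM]
  unfold pvehDl
  push_cast
  ring

/-- a placed open square -/
theorem pvr5_at_sq (hΓ : 𝔓.Γ m = pvxrGam 𝔓 m) (r : ℝ) : pvr3At 𝔓 m (pvccSq 0 r) = pvccSq (𝔓.Γ m).pin0 (pvlmDel c m * r) := by
  have hδ := pvlm_Del_pos c m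
  have hd : (𝔓.Γ m).din0 = 1 := by rw [hΓ]; rfl
  ext w
  have h1 : w ∈ pvr3At 𝔓 m (pvccSq 0 r) ↔ (w - (𝔓.Γ m).pin0) / ((𝔓.Γ m).din0 * (pvlmDel c m : ℂ)) ∈ pvccSq 0 r :=
    pvkx_mem_at (by rw [hd, one_mul]; exact_mod_cast hδ.ne') _ w
  rw [h1, hd, one_mul, pvccm_mem_sq, pvccm_mem_sq, Complex.div_ofReal_re, Complex.div_ofReal_im]
  simp only [Complex.zero_re, Complex.zero_im, zero_sub, zero_add, Complex.sub_re, Complex.sub_im]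
  rw [lt_div_iff₀ hδ, div_lt_iff₀ hδ, lt_div_iff₀ hδ, div_lt_iff₀ hδ]
  constructor
  · rintro ⟨⟨a1, a2⟩, a3, a4⟩
    exact ⟨⟨by linarith, by linarith⟩, by linarith, by linarith⟩
  · rintro ⟨⟨a1, a2⟩, a3, a4⟩
    exact ⟨⟨by linarith, by linarith⟩, by linarith, by linarith⟩

/-- **`hO`** -/
theorem pvr5_hO (hΓ : 𝔓.Γ m = pvxrGam 𝔓 m) (hs : s = pvlmDel c m / 320) (hM : (M : ℝ) * s = pvehDl 𝔓 m / 2) : pvr4O s M = pvr3At 𝔓 m pvkgO := by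
  rw [pvkgg_O_sq, pvr5_at_sq hΓ, pvr5_Z hΓ hM]
  unfold pvr4O
  congr 1
  rw [hs]
  ring

/-- **`hO'`** -/
theorem pvr5_hO' (hρ : 0 < 𝔓.num.rho) (hN : (N : ℝ) * s = pvehDl 𝔓 m / 160) : pvr4O' s N = pvnuRO 𝔓 m := by
  rw [pvnu4_RO_sq hρ]
  unfold pvr4O'
  congr 1
  rw [hN]
  ring

/-- the door region of 84 / 124 = the placed door square -/
theorem pvr5_Dr (hΓ : 𝔓.Γ m = pvxrGam 𝔓 m) {O0 : ℕ → Set ℂ} {S : Set ℂ} (h0 : O0 m = pvthSim 0 (pvlmDel c m) '' S) : pvehDr 𝔓 O0 m = pvr3At 𝔓 m S := by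
  unfold pvehDr pvr3At
  rw [h0, ← hΓ, ← image_comp]
  refine image_congr fun w _ => ?_
  simp only [Function.comp, pvthSim]
  ring

/-- **`hW`** -/
theorem pvr5_hW (hΓ : 𝔓.Γ m = pvxrGam 𝔓 m) (hρ : 0 < 𝔓.num.rho) (hn : 0 ≤ pvxrNw 𝔓 m) (hs : s = pvlmDel c m / 320) (hM : (M : ℝ) * s = pvehDl 𝔓 m / 2) (hN : (N : ℝ) * s = pvehDl 𝔓 m / 160)
    {O0 : ℕ → Set ℂ} (h0 : O0 m = pvthSim 0 (pvlmDel c m) '' pvkgO) : pvr4W s N M = pvnuRK 𝔓 O0 m ∪ pvnuRO 𝔓 m ∪ pvr3At 𝔓 m pvkgO := by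
  have hΔ := pvur_Dl_pos hρ m
  have hδ := pvlm_Del_pos c m
  have hδΔ := pvez_del_le_Dl (𝔓 := 𝔓) hn
  have eD := pvr5_Dr hΓ h0
  have eO := pvr5_hO hΓ hs hM
  have eO' := pvr5_hO' (N := N) (s := s) hρ hN
  have hD : Disjoint (pvehrO 𝔓 m) (pvehDr 𝔓 O0 m) := by
    rw [eD, ← eO]
    refine Set.disjoint_left.2 fun w h1 h2 => ?_
    have a1 := (pvccm_mem_sq.1 h1).1.1
    have a2 := (pvccm_mem_sq.1 h2).1.2
    have e : (pvr4Z s M).re = -(pvehDl 𝔓 m / 2) := by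
      unfold pvr4Z
      rw [Complex.ofReal_re, hM]
    rw [e, hs] at a2
    simp only [Complex.zero_re] at a1
    linarith
  have eK : pvr4Et s N M = pvnuRK 𝔓 O0 m := by
    ext w
    rw [pvnu5_mem_RK hρ hD, eD, ← eO, ← eO', pveh_mem_sq]
    simp only [pvr4Et, pvr4H, Set.mem_sdiff, Set.mem_ofPred_eq, Complex.zero_re, Complex.zero_im, hM]
    constructor
    · rintro ⟨⟨⟨a1, a2, a3, a4⟩, a5⟩, a6⟩
      exact ⟨⟨⟨by linarith, by linarith⟩, by linarith, by linarith⟩, a2, a5, a6⟩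
    · rintro ⟨⟨⟨a1, -⟩, a3, a4⟩, a2, a5, a6⟩
      exact ⟨⟨⟨by linarith, a2, by linarith, by linarith⟩, a5⟩, a6⟩
  unfold pvr4W
  rw [eK, eO', eO]

/-- **`hKE`** -/
theorem pvr5_hKE (hρ : 0 < 𝔓.num.rho) (hn : 0 ≤ pvxrNw 𝔓 m) (hs : s = pvlmDel c m / 320) (hM : (M : ℝ) * s = pvehDl 𝔓 m / 2) :
    pverRY (8 * s) (pvehDl 𝔓 m / 16) (2 * ((M : ℝ) * s)) ⊆ pvnuRY 𝔓 m := by
  have hΔ := pvur_Dl_pos hρ m
  have hδ := pvlm_Del_pos c m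
  have hδΔ := pvez_del_le_Dl (𝔓 := 𝔓) hn
  rw [hM, hs]
  rintro w (⟨a1, a2, a3, a4⟩ | ⟨a1, a2, a3, a4⟩)
  · exact pvnu4_mem_RY.2 ⟨by linarith, by linarith, by linarith, by linarith⟩
  · exact pvnu4_mem_RY.2 ⟨by linarith, by linarith, by linarith, by linarith⟩

/-- **`hE`**: the window of the exit side event of the door plug (`hT` = `pvk2_Es_sub true` of 125) -/
theorem pvr5_hE (hΓ : 𝔓.Γ m = pvxrGam 𝔓 m) (hs : s = pvlmDel c m / 320) (hM : (M : ℝ) * s = pvehDl 𝔓 m / 2) {T : PvhfTr}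
    (hT : T.Es true ⊆ pvkgO ∪ {w : ℂ | (13 / 160 ≤ w.re ∧ w.re < 11 / 80) ∧ -(1 / 16) < w.im ∧ w.im < 1 / 16}) : (pvr5R 𝔓 m T).E ⊆ pvr4T s M := by
  have hδ := pvlm_Del_pos c m
  have hd : (𝔓.Γ m).din0 = 1 := by rw [hΓ]; rfl
  have ha : (𝔓.Γ m).din0 * (pvlmDel c m : ℂ) ≠ 0 := by rw [hd, one_mul]; exact_mod_cast hδ.ne'
  intro w hw
  have hw' : (w - (𝔓.Γ m).pin0) / ((𝔓.Γ m).din0 * (pvlmDel c m : ℂ)) ∈ T.Es true := hw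
  rcases hT hw' with h | ⟨⟨a1, a2⟩, a3, a4⟩
  · left
    rw [pvr5_hO hΓ hs hM]
    exact (pvkx_mem_at ha _ w).2 h
  · right
    rw [hd, one_mul, pvr5_Z hΓ hM, Complex.div_ofReal_re] at a1 a2
    rw [hd, one_mul, pvr5_Z hΓ hM, Complex.div_ofReal_im] at a3 a4
    have e1 : (pvr4Z s M).re = -((M : ℝ) * s) := by unfold pvr4Z; rw [Complex.ofReal_re]
    have e2 : (pvr4Z s M).im = 0 := by unfold pvr4Z; rw [Complex.ofReal_im]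
    rw [Complex.sub_re, e1] at a1 a2
    rw [Complex.sub_im, e2] at a3 a4
    rw [le_div_iff₀ hδ] at a1
    rw [div_lt_iff₀ hδ] at a2 a4
    rw [lt_div_iff₀ hδ] at a3
    exact ⟨by linarith, by linarith, by linarith, by linarith⟩

/-- **`hE'`**: the window of the entrance side event of the reference plug, scale `2 Δ` (`hT` = `pvk2_Es_sub false` of 125) -/
theorem pvr5_hE' (hρ : 0 < 𝔓.num.rho) (hN : (N : ℝ) * s = pvehDl 𝔓 m / 160) {T : PvhfTr}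
    (hT : T.Es false ⊆ pvkgO ∪ {w : ℂ | (-(11 / 80) < w.re ∧ w.re ≤ -(13 / 160)) ∧ -(1 / 16) < w.im ∧ w.im < 1 / 16}) : (pvr5R' (pvurS 𝔓 m) T).E ⊆ pvr4T' s N := by
  have hΔ := pvur_Dl_pos hρ m
  have hS : 0 < pvurS 𝔓 m := pvur_S_pos hρ m
  have eS : pvurS 𝔓 m = 2 * pvehDl 𝔓 m := rfl
  have ha : ((pvurS 𝔓 m : ℝ) : ℂ) ≠ 0 := by exact_mod_cast hS.ne'
  intro w hw
  have hw' : (w - 0) / (1 * ((pvurS 𝔓 m : ℝ) : ℂ)) ∈ T.Es false := hw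
  rw [one_mul] at hw'
  rcases hT hw' with h | ⟨⟨a1, a2⟩, a3, a4⟩
  · left
    rw [pvr5_hO' hρ hN]
    exact (pvkx_mem_at ha _ w).2 h
  · right
    rw [sub_zero, Complex.div_ofReal_re] at a1 a2
    rw [sub_zero, Complex.div_ofReal_im] at a3 a4
    rw [lt_div_iff₀ hS] at a1 a3
    rw [div_le_iff₀ hS] at a2
    rw [div_lt_iff₀ hS] at a4
    rw [eS] at a1 a2 a3 a4
    exact ⟨by rw [hN]; linarith, by linarith, by rw [hN]; linarith, by rw [hN]; linarith⟩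

/-- **`fit`** (278 `pvui_fit_sim`): rooms and targets of `T` = those of `pvhfT (1/40)` -/
theorem pvr5_fit (hΓ : 𝔓.Γ m = pvxrGam 𝔓 m) (hρ : 0 < 𝔓.num.rho) (hs : s = pvlmDel c m / 320) (hM : (M : ℝ) * s = pvehDl 𝔓 m / 2) (hN : (N : ℝ) * s = pvehDl 𝔓 m / 160)
    (hN1 : 1 ≤ N) (hM1 : 44 * (N + 1) < M) {T : PvhfTr} (hL : T.Ln = (pvhfT (1 / 40)).Ln) (hD : T.Dr = (pvhfT (1 / 40)).Dr) : PvuiFit s N M (pvr5R 𝔓 m T) (pvr5R' (pvurS 𝔓 m) T) := by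
  have hδ := pvlm_Del_pos c m
  have hd : (𝔓.Γ m).din0 = 1 := by rw [hΓ]; rfl
  have eS : pvurS 𝔓 m = 2 * pvehDl 𝔓 m := rfl
  exact pvui_fit_sim (by rw [hs]; positivity) hN1 hM1 (r₀ := 1 / 40) (α := pvlmDel c m) (α' := pvurS 𝔓 m) hδ (pvur_S_pos hρ m) (by rw [hd, one_mul]) (one_mul _)
    (by rw [hs]; ring) (by rw [hN, eS]; ring) (pvr5_Z hΓ hM) (fun β => by rw [hL]) (fun β => by rw [hD]) (fun β => by rw [hL]) (fun β => by rw [hD])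

/-! ### the numbers of the funnel at the level `m` -/

/-- fine side -/
noncomputable def pvr5s (c : ℝ) (m : ℕ) : ℝ := pvlmDel c m / 320
/-- unit of the reference plug in units of the door plug -/
noncomputable def pvr5N (𝔓 : PvxPar τ c) (m : ℕ) : ℤ := 2 * (2 * pvxrNw 𝔓 m + 1)
/-- distance of the two plugs in fine cells -/
noncomputable def pvr5M (𝔓 : PvxPar τ c) (m : ℕ) : ℤ := 160 * (2 * pvxrNw 𝔓 m + 1)

theorem pvr5_eqns_cite2 : True := by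
  have := @pvr5s.eq_1; have := @pvr5N.eq_1; have := @pvr5M.eq_1
  trivial

theorem pvr5_Ms (𝔓 : PvxPar τ c) (m : ℕ) : (pvr5M 𝔓 m : ℝ) * pvr5s c m = pvehDl 𝔓 m / 2 := by
  unfold pvr5M pvr5s pvehDl
  push_cast
  ring

theorem pvr5_Ns (𝔓 : PvxPar τ c) (m : ℕ) : (pvr5N 𝔓 m : ℝ) * pvr5s c m = pvehDl 𝔓 m / 160 := by
  unfold pvr5N pvr5s pvehDl
  push_cast
  ring

theorem pvr5_N1 (hn : 0 ≤ pvxrNw 𝔓 m) : 1 ≤ pvr5N 𝔓 m := by unfold pvr5N; omega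
theorem pvr5_M1 (hn : 0 ≤ pvxrNw 𝔓 m) : 44 * (pvr5N 𝔓 m + 1) < pvr5M 𝔓 m := by unfold pvr5N pvr5M; omega
theorem pvr5_M2 (hn : 0 ≤ pvxrNw 𝔓 m) : 60 * pvr5N 𝔓 m + 15 ≤ pvr5M 𝔓 m := by unfold pvr5N pvr5M; omega

theorem pvr5_mu_s (𝔓 : PvxPar τ c) (m : ℕ) : 3 * pvilMu 𝔓 m ≤ pvr5s c m := by
  have h := pvll_mu_del 𝔓 m
  have hδ := pvlm_Del_pos c m
  unfold pvr5s
  linarith

theorem pvr5_u1 (hn : 0 ≤ pvxrNw 𝔓 m) : pvehDl 𝔓 m / 16 / 4 + 4 * pvilMu 𝔓 m ≤ 4 * ((pvr5N 𝔓 m : ℝ) * pvr5s c m) := by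
  have h := pvll_mu_del 𝔓 m
  have hδ := pvlm_Del_pos c m
  have hδΔ := pvez_del_le_Dl (𝔓 := 𝔓) hn
  rw [pvr5_Ns]
  linarith

end reg

/-! ## at the engine of record (moved here from `Exit/FrcRI` sec. 5): the ONLY section of the `r`-link ends which follows a swap of `pvnaEngRec` -/

section rec

variable {N : PvxNums} (hN : N.Ok) {c : ℝ} (nb : PvnaNb N)

include nb in
theorem pvr3_rec_b : nb.b ≠ 0 ∧ nb.b ≠ ∞ := by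
  obtain ⟨ε, hε⟩ := nb.H.ok.exists
  refine ⟨hε.b0, fun h => ?_⟩
  have h1 := hε.adm
  rw [h] at h1
  have h2 : pvP ε ((pvkgG.glob (pvnaHf N)).C ∩ ⋂ i, (pvkgG.glob (pvnaHf N)).H i) ≤ 1 := by
    have := (pv_isPpp ε).prob
    exact prob_le_one
  have h3 : (⊤ : ℝ≥0∞) ≤ 1 := by
    calc (⊤ : ℝ≥0∞) = nb.β' + 4 * ⊤ := by simp
      _ ≤ _ := h1
      _ ≤ 1 := h2
  exact absurd h3 (by simp)

/-- **THE ENGINE OF RECORD IS READ BY THE ENDS** (after U4 of 84: scale `pvurS = 2 Δ_m`, `rG = pvurGM ..` by `rfl`) -/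
theorem pvr3_rec_eng (c0 : 0 < c) (m : ℕ) : Pvr3Eng (pvxParOf N hN c) (pvnaEngRec N hN c nb) m nb.unit nb.glob nb.b nb.q (pvurS (pvxParOf N hN c) m) :=
  pvr5_eng_GM (by
    obtain ⟨Cth, r, κs, H⟩ := (pvnr_wf hN c0 nb).wf
    exact ⟨_, Cth, r, κs, H⟩) (pvnr_num N hN c nb) (fun e => pvku_unit_kit nb.H e) pvkgg_ze.mO (pvr3_rec_b nb).1 (pvr3_rec_b nb).2 (pvly_rec_din0 N hN m) (fun _ => rfl)

/-- **`hM₂` AT THE ENGINE OF RECORD** -/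
theorem pvr3_rec_hM₂ (m : ℕ) : ∀ ε, ∀ η ∈ (pvnaEngRec N hN c nb).rG m ε, PvtrMesh (pvilMu (pvxParOf N hN c) m / 3) ((pvnaEngRec N hN c nb).rO m) (cfSites η) :=
  pvr5_hM₂ (𝔊 := nb.glob) (b := nb.b) (s := pvurS (pvxParOf N hN c) m) (μ' := pvilMu (pvxParOf N hN c) m / 8) (fun _ => rfl) (by
    have h : 0 < pvilMu (pvxParOf N hN c) m := pvly_mu_pos _ (pvlm_Del_pos c m) (mul_pos hN.msk0 (pvlm_H_pos m))
    linarith)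

/-- the scale of the reference plug against its unit -/
theorem pvr3_rec_s (m : ℕ) : pvurS (pvxParOf N hN c) m / 40 = pvilRu (pvnaEngRec N hN c nb) m := by
  show pvurS (pvxParOf N hN c) m / 40 = pvurRu (pvxParOf N hN c) m
  unfold pvurS pvurRu
  ring

end rec

section rec2

variable {N : PvxNums} (hN : N.Ok) {c : ℝ} (nb : PvnaNb N)

theorem pvr3_rec_Gam (m : ℕ) : (pvxParOf N hN c).Γ m = pvxrGam (pvxParOf N hN c) m := rfl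

theorem pvr3_rec_Nw (m : ℕ) : 0 ≤ pvxrNw (pvxParOf N hN c) m := by
  unfold pvxrNw
  refine Int.ceil_nonneg ?_
  have : 0 < (pvxParOf N hN c).num.rho := hN.rho0
  positivity

/-- **`reg` AT THE ENGINE OF RECORD**, every `ε` -/
theorem pvr3_rec_reg (c0 : 0 < c) {m : ℕ} (hm : (pvxParOf N hN c).m0 ≤ m) (ε : ℝ) :
    PvlyReg (pvilLr (pvxParOf N hN c) (pvnaEngRec N hN c nb) m) (pvilMu (pvxParOf N hN c) m) (pvilWnr (pvxParOf N hN c) (pvnaEngRec N hN c nb) m ε) := by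
  have hδ := pvlm_Del_pos c m
  have hΔ : 0 < pvehDl (pvxParOf N hN c) m := pvur_Dl_pos hN.rho0 m
  have hδΔ := pvez_del_le_Dl (𝔓 := pvxParOf N hN c) (pvr3_rec_Nw hN m)
  have hμ := pvll_mu_del (pvxParOf N hN c) m
  have eu : pvilRu (pvnaEngRec N hN c nb) m = pvehDl (pvxParOf N hN c) m / 20 := rfl
  refine pvly_reg_r (pvxParOf N hN c) (pvnaEngRec N hN c nb) hδ (mul_pos hN.msk0 (pvlm_H_pos m)) (pvly_rec_din0 N hN m) (pvly_rec_dp N hN nb c0 hm ε) (by rw [eu]; positivity) (by rw [eu]; linarith)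
    (pvly_rec_rp N hN nb c0 hm) ?_
  rw [(pvr3_rec_eng hN nb c0 m).win ε]
  refine pvnu5_RY_core (pvr3_rec_Nw hN m) ?_
  have h := pvnu5_west_sub (𝔓 := pvxParOf N hN c) (pvnaInRec N hN c nb).O0 m
  rw [pvr5_Dr (pvr3_rec_Gam hN m) (pvnr_O0 N hN c nb m)] at h
  exact h

end rec2

end Claimed.Agent.R289
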