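-- KEEP
import Claimed.Agent.R289.Exit.FrcRS
import Claimed.Agent.R289.Tr.FrcRG

/-!
# Row 289 (S0537), THE WALL, ROAD E, file Exit/FrcRA : THE LINK `door plug → reference plug` IS FORCED, **THE FINAL TERM**      (helper129, order of 233 13:59Z; prefix `pvr6_`, `pvr6`, `Pvr6`)

ASSEMBLY of: `Exit/FrcR` (233: roof `pvr2_frc`, layout `Pvr2Lay`, `Pvr2Fit`), `Exit/FrcRI` (250: the ends, `Pvr3Eng.frc`), `Exit/FrcRS` (250: the two `.sim` regions `pvr5R pvr5R'`, `wf wf' is is'`, `hp hρ hEw` twice, `hM₁ hM₂`),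
`Tr/FrcRG` (262: `pvr4Lam`, `pvr4_ok`), `Tr/FrcFun`, `Tr/FrcFunS` (278: the net, `PvuiFit`).
GENERIC IN THE ENGINE: nothing of sec. 1 follows a swap of the engine of record.
* sec. 1  `pvr6Lam 𝔓 m 𝔊 su T s u₁ N M` = THE LAYOUT;   **`Pvr6In 𝔓 𝔈 m 𝔊 su T s u₁ N M`** = ALL THAT IS LEFT (numbers, regions of the engine, truncation: NO probability, NO configuration but in `hM₂`);
          `Pvr6In.ok` (`Pvr2Lay.Ok`), `Pvr6In.fit` (`Pvr2Fit`), **`pvr6_frc`** : `Pvr3Eng` + `Pvr6In` ⟹ THE TARGET (`Pvc1rFrcr` of `Exit/Cyc1R` unfolded, any weight)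
-/

set_option autoImplicit false

namespace Claimed.Agent.R289

open Set MeasureTheory Filter Topology Claims.C0465
open scoped ENNReal

/-! ## 1. generic in the engine -/

section gen

variable {τ : Type} {c : ℝ}

/-- **THE LAYOUT OF THE `r`-LINK**: regions of 250, layout of 262, side events = the half lanes `0` (exit side of the last door plug) and `2` (entrance side of the reference plug) of the datum -/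
noncomputable def pvr6Lam (𝔓 : PvxPar τ c) (m : ℕ) (𝔊 : PvpgGlob) (su : ℝ) (T : PvhfTr) (s u₁ : ℝ) (N M : ℤ) : Pvr2Lay :=
  pvr4Lam s (pvilMu 𝔓 m) u₁ N M (pvr5R 𝔓 m T) (pvr5R' su T) (pvr3Pl 𝔓 m (𝔊.H 0)) (pvurSc su (𝔊.H 2))

theorem pvr6_eqns_cite : True := by
  have := @pvr6Lam.eq_1
  trivial

/-- **ALL THAT IS LEFT OF THE `r`-LINK**: `su` = scale of the reference plug, `T` = truncation of the side events of the datum, `(s, N, M)` = the funnel of 278, `u₁` = the cut of the room of 166 -/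
structure Pvr6In (𝔓 : PvxPar τ c) (𝔈 : PvieEng τ) (m : ℕ) (𝔊 : PvpgGlob) (su : ℝ) (T : PvhfTr) (s u₁ : ℝ) (N M : ℤ) : Prop where
  /-- the truncation -/
  hG : PvhfGeo (pvkdP (1 / 40)) T
  hH : ∀ i, 𝔊.H i = pvhfH (pvkdP (1 / 40)) T i
  /-- the scale of the reference plug -/
  su0 : 0 < su
  hu : su / 40 = pvilRu 𝔈 m
  /-- the funnel -/
  fit : PvuiFit s N M (pvr5R 𝔓 m T) (pvr5R' su T)
  hM2 : 60 * N + 15 ≤ M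
  μ0 : 0 < pvilMu 𝔓 m
  hμ : 3 * pvilMu 𝔓 m ≤ s
  hu0 : 0 < u₁
  hu1 : u₁ / 4 + 4 * pvilMu 𝔓 m ≤ 4 * ((N : ℝ) * s)
  /-- the windows of the two side events -/
  hE : (pvr5R 𝔓 m T).E ⊆ pvr4T s M
  hE' : (pvr5R' su T).E ⊆ pvr4T' s N
  /-- the regions of the engine -/
  hO : pvr4O s M = pvr3At 𝔓 m 𝔊.O₀
  hO' : pvr4O' s N = 𝔈.rO m
  hW : pvr4W s N M = 𝔈.rK m ∪ 𝔈.rO m ∪ pvr3At 𝔓 m 𝔊.O₀
  hKE : pverRY (8 * s) u₁ (2 * ((M : ℝ) * s)) ⊆ 𝔈.rY m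
  reg : ∀ᶠ ε in 𝓝[>] (0 : ℝ), PvlyReg (pvilLr 𝔓 𝔈 m) (pvilMu 𝔓 m) (pvilWnr 𝔓 𝔈 m ε)
  /-- the fine meshes -/
  hTW : 𝔊.O₀ ⊆ T.W
  hTμ : T.μ * pvlmDel c m ≤ pvilMu 𝔓 m / 3
  hM₂ : ∀ ε, ∀ η ∈ 𝔈.rG m ε, PvtrMesh (pvilMu 𝔓 m / 3) (𝔈.rO m) (cfSites η)

variable {𝔓 : PvxPar τ c} {𝔈 : PvieEng τ} {m : ℕ} {U : PvkmUnit} {𝔊 : PvpgGlob} {b q : ℝ≥0∞} {su : ℝ} {T : PvhfTr} {s u₁ : ℝ} {N M : ℤ}

/-- **`Pvr2Lay.Ok`** -/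
theorem Pvr6In.ok (I : Pvr6In 𝔓 𝔈 m 𝔊 su T s u₁ N M) (hd : ‖(𝔓.Γ m).din0‖ = 1) : (pvr6Lam 𝔓 m 𝔊 su T s u₁ N M).Ok := by
  refine pvr4_ok I.fit I.hM2 I.μ0 I.hμ I.hu0 I.hu1 (pvr5_wf 𝔓 I.hG hd) (pvr5_wf' I.hG I.su0) ?_ ?_ I.hE I.hE'
  · rw [I.hH]
    exact pvr5_is 𝔓 I.hG hd (by norm_num)
  · rw [I.hH]
    exact pvr5_is' I.hG I.su0 (by norm_num)

/-- **`Pvr2Fit`** -/
theorem Pvr6In.fit' (I : Pvr6In 𝔓 𝔈 m 𝔊 su T s u₁ N M) (E : Pvr3Eng 𝔓 𝔈 m U 𝔊 b q su) : Pvr2Fit 𝔓 𝔈 m (pvr6Lam 𝔓 m 𝔊 su T s u₁ N M) where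
  hO := Eventually.of_forall fun ε => by rw [E.door]; exact I.hO
  hO' := I.hO'
  hW := Eventually.of_forall fun ε => by rw [E.win]; exact I.hW
  hμ := rfl
  hp := pvr5_hp 𝔓 E.hd
  hρ := pvr5_hρ 𝔓 E.hd
  hEw := pvr5_hEw 𝔓 I.hG E.hd
  hp' := pvr5_hp' I.su0 I.hu
  hρ' := pvr5_hρ' I.su0 I.hu
  hEw' := pvr5_hEw' I.hG I.su0 I.hu
  hKE := I.hKE
  reg := I.reg
  δ_pos := pvlm_Del_pos c m

/-- **THE `r`-LINK IS FORCED** -/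
theorem pvr6_frc (E : Pvr3Eng 𝔓 𝔈 m U 𝔊 b q su) (I : Pvr6In 𝔓 𝔈 m 𝔊 su T s u₁ N M) {w : ∀ η : Conf PvPt, (delbPl (pvieY η)).Dart → ℂ} (hw : PvlyWt w) (hw' : PvmlWm w) :
    ∃ q' : ℝ≥0∞, q' ≠ 0 ∧ ∀ᶠ ε in 𝓝[>] (0 : ℝ), ∀ᵐ η ∂pvP ε, η ∈ (𝔈.kit m ε).G (𝔓.Γ m).pin0 (𝔓.Γ m).din0 → η ∈ 𝔈.rG m ε →
      q' ≤ pvtiP (pvP ε) (pvieOr 𝔓 𝔈 m ε) (pvilAr 𝔓 𝔈 m ε w) η := by
  refine E.frc (I.ok E.hd) (I.fit' E) hw hw' 0 2 I.hO rfl rfl ?_ I.hM₂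
  rw [I.hH]
  exact pvr5_hM₁ 𝔓 I.hG E.hd (by norm_num) I.hTW I.hTμ

end gen

end Claimed.Agent.R289
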