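-- KEEP
import Claimed.Agent.R289.Tr.FrcRG
import Claimed.Agent.R289.Exit.EngU4
import Claimed.Agent.R289.Tr.SideOpen
import Claimed.Agent.R289.Exit.FrcRA

/-!
# Row 289 (S0537), THE WALL, ROAD E, E10, file Exit/FrcRN : **THE r-LINK, THE NUMBERS OF THE MODEL AND THE FIT**      (helper262; order of 233; prefix `pvr4_`, `pvr4`; over `Tr/FrcRG` 262, `Tr/FrcFunS` 278, `Exit/FrcR` 233, `Exit/EngU4` 84, `Exit/RoomRE` 166)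

`s = pvr4s c m = δ_m / 320`, `g = 2 pvxrNw + 1`, `N = pvr4N 𝔓 m = 2 g`, `M = pvr4M 𝔓 m = 160 g`, `u₁ = pvr4U 𝔓 m = Δ / 16`, `μ = pvilMu 𝔓 m`.
* sec. 1  arithmetic: `pvr4_Ms` (`M s = Δ/2`), `pvr4_Ns` (`N s = Δ/160`), `pvr4_pin0`, `pvr4_N1 _M1 _M2`, `pvr4_mu3`, `pvr4_U`
* sec. 2  the regions of the two sides `pvr4R 𝔓 m T`, `pvr4R' 𝔓 m T` (`.sim` of 233), **`pvr4_fit`** (`PvuiFit` of 278), `pvr4_hE`, `pvr4_hE'` (windows of 258)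
* sec. 3  **`pvr4L 𝔓 m T Lp Lm : Pvr2Lay`**, **`pvr4_L_ok`** (`Λ.Ok` from `PvhfGeo` of the truncation), squares: `pvr4_O_eq`, `pvr4_O'_eq`, room: `pvr4_KE_nu`, `pvr4_KE_er`
* sec. 4  **`Pvr4Eng 𝔓 𝔈 m`** = what the fit reads of the engine (10 lines: door square, `rO`, `rK`, `rY`, `rp.h`), `.door .win .reg`, **`Pvr4Eng.fit : Pvr2Fit 𝔓 𝔈 m (pvr4L 𝔓 m T su)`**
* sec. 6  **`Pvr4Eng.in6`** : the record `Pvr6In` of 129 (`Exit/FrcRA`) from `Pvr4Eng`, `Pvr4Tr T`, `su = 2 Δ` and the lines on the datum / the fine meshes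
* sec. 7  AT THE RECORD: `pvr4_tr_rec : Pvr4Tr (pvnaT N)`, **`pvr4_eng_rec`** : `Pvr4Eng` at `pvnuEngA P (pvnaInRec ..) (pvnuRY P) nb.glob nb.b` (= `pvnaEngRec` after the swap L2 of 84)
* sec. 5  **`pvr4_eng_A`** : `Pvr4Eng 𝔓 (pvnuEngA 𝔓 J rY' 𝔊 b) m` (the engine after U4 of 84), any room `rY'` with `pverRY (δ/40) (Δ/16) Δ ⊆ rY' m ⊆ pvnuRY 𝔓 m`
-/

set_option autoImplicit false
set_option linter.unusedSectionVars false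
set_option linter.unusedVariables false

namespace Claimed.Agent.R289

open Set Metric Filter Topology

/-! ## 1. arithmetic -/

/-- the side of the fine cells -/
noncomputable def pvr4s (c : ℝ) (m : ℕ) : ℝ := pvlmDel c m / 320

section numbers

variable {τ : Type} {c : ℝ} (𝔓 : PvxPar τ c) (m : ℕ)

/-- size of the reference plug in fine cells (`r' = 8 N s`) -/
noncomputable def pvr4N : ℤ := 2 * (2 * pvxrNw 𝔓 m + 1)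

/-- the column of the door -/
noncomputable def pvr4M : ℤ := 160 * (2 * pvxrNw 𝔓 m + 1)

/-- the cut of the room of the run at the reference plug -/
noncomputable def pvr4U : ℝ := pvehDl 𝔓 m / 16

theorem pvr4_eqns_cite4 : True := by
  have := @pvr4s.eq_1; have := @pvr4N.eq_1; have := @pvr4M.eq_1; have := @pvr4U.eq_1
  trivial

theorem pvr4_s_pos (c : ℝ) (m : ℕ) : 0 < pvr4s c m := by
  have := pvlm_Del_pos c m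
  unfold pvr4s
  positivity

theorem pvr4_Ms : (pvr4M 𝔓 m : ℝ) * pvr4s c m = pvehDl 𝔓 m / 2 := by
  unfold pvr4M pvr4s pvehDl
  push_cast
  ring

theorem pvr4_Ns : (pvr4N 𝔓 m : ℝ) * pvr4s c m = pvehDl 𝔓 m / 160 := by
  unfold pvr4N pvr4s pvehDl
  push_cast
  ring

theorem pvr4_pin0 : (pvxrGam 𝔓 m).pin0 = pvr4Z (pvr4s c m) (pvr4M 𝔓 m) := by
  rw [pvxr_gam_pin0, pvr4Z, pvr4_Ms, pvehDl]
  push_cast
  ring

variable {𝔓 m}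

theorem pvr4_N1 (hn : 0 ≤ pvxrNw 𝔓 m) : 1 ≤ pvr4N 𝔓 m := by unfold pvr4N; omega
theorem pvr4_M1 (hn : 0 ≤ pvxrNw 𝔓 m) : 44 * (pvr4N 𝔓 m + 1) < pvr4M 𝔓 m := by unfold pvr4N pvr4M; omega
theorem pvr4_M2 (hn : 0 ≤ pvxrNw 𝔓 m) : 60 * pvr4N 𝔓 m + 15 ≤ pvr4M 𝔓 m := by unfold pvr4N pvr4M; omega

theorem pvr4_Dl_pos (hn : 0 ≤ pvxrNw 𝔓 m) : pvlmDel c m ≤ pvehDl 𝔓 m := by
  have h1 := pvlm_Del_pos c m
  have h2 : (0 : ℝ) ≤ pvxrNw 𝔓 m := by exact_mod_cast hn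
  unfold pvehDl
  nlinarith

theorem pvr4_mu3 (𝔓 : PvxPar τ c) (m : ℕ) : 3 * pvilMu 𝔓 m ≤ pvr4s c m := by
  have h1 := pvlm_Del_pos c m
  have := min_le_left (pvlmDel c m) (𝔓.num.rho3 * pvlmH m)
  unfold pvilMu pvr4s
  linarith

theorem pvr4_U_pos (hn : 0 ≤ pvxrNw 𝔓 m) : 0 < pvr4U 𝔓 m := by
  have h1 := pvlm_Del_pos c m
  have h2 := pvr4_Dl_pos hn
  unfold pvr4U
  linarith

theorem pvr4_U_le (hn : 0 ≤ pvxrNw 𝔓 m) : pvr4U 𝔓 m / 4 + 4 * pvilMu 𝔓 m ≤ 4 * ((pvr4N 𝔓 m : ℝ) * pvr4s c m) := by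
  have h1 := pvlm_Del_pos c m
  have h2 := pvr4_Dl_pos hn
  have h3 := pvr4_mu3 𝔓 m
  rw [pvr4_Ns]
  unfold pvr4U
  unfold pvr4s at h3
  linarith

end numbers

/-! ## 2. the regions of the two sides -/

section regions

variable {τ : Type} {c : ℝ} {𝔓 : PvxPar τ c} {m : ℕ} {T T' : PvhfTr} {su : ℝ}

/-- **`PvuiFit` OF 278 AT THE TWO SCALED REGIONS** -/
theorem pvr4_fit (hΓ : 𝔓.Γ m = pvxrGam 𝔓 m) (hn : 0 ≤ pvxrNw 𝔓 m) (hsu : su = 2 * pvehDl 𝔓 m)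
    (Ln : ∀ β, T.Ln true β = (pvhfT (1 / 40)).Ln true β) (Dr : ∀ β, T.Dr true β = (pvhfT (1 / 40)).Dr true β)
    (Ln' : ∀ β, T'.Ln false β = (pvhfT (1 / 40)).Ln false β) (Dr' : ∀ β, T'.Dr false β = (pvhfT (1 / 40)).Dr false β) :
    PvuiFit (pvr4s c m) (pvr4N 𝔓 m) (pvr4M 𝔓 m) ((pvhfR pvkgG.toPvkdPlug T true).sim (𝔓.Γ m).pin0 ((𝔓.Γ m).din0 * (pvlmDel c m : ℂ))) ((pvhfR pvkgG.toPvkdPlug T' false).sim 0 (su : ℂ)) := by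
  have hD := pvr4_Dl_pos hn
  have hδ := pvlm_Del_pos c m
  refine pvui_fit_sim (r₀ := 1 / 40) (α := pvlmDel c m) (α' := su) (pvr4_s_pos c m) (pvr4_N1 hn) (pvr4_M1 hn) hδ (by rw [hsu]; linarith) ?_ rfl ?_ ?_ ?_ Ln Dr Ln' Dr'
  · rw [hΓ, pvxr_gam_din0, one_mul]
  · unfold pvr4s; ring
  · rw [pvr4_Ns, hsu]; ring
  · rw [hΓ]; exact pvr4_pin0 𝔓 m

/-- a point of a placed and dilated region -/
theorem pvr4_mem_sc {z : ℂ} {α : ℝ} {S : Set ℂ} {w : ℂ} (hw : w ∈ pvkdAt z 1 (pvdilS α S)) : ∃ v ∈ S, w.re = z.re + α * v.re ∧ w.im = z.im + α * v.im := by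
  obtain ⟨_, ⟨v, hv, rfl⟩, rfl⟩ := hw
  refine ⟨v, hv, ?_, ?_⟩
  · simp [pvthSim, vorSim]
  · simp [pvthSim, vorSim]

/-- the window of the exit side event of the last door plug -/
theorem pvr4_hE (hΓ : 𝔓.Γ m = pvxrGam 𝔓 m) (hEs : T.Es true ⊆ pvkgEp) :
    ((pvhfR pvkgG.toPvkdPlug T true).sim (𝔓.Γ m).pin0 ((𝔓.Γ m).din0 * (pvlmDel c m : ℂ))).E ⊆ pvr4T (pvr4s c m) (pvr4M 𝔓 m) := by
  have hδ := pvlm_Del_pos c m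
  have hd : ‖(𝔓.Γ m).din0‖ = 1 := by rw [hΓ, pvxr_gam_din0, norm_one]
  rw [pvr2_sim_E _ _ _ _ hδ hd, hΓ, pvxr_gam_din0, pvr4_pin0]
  intro w hw
  obtain ⟨v, hv, e1, e2⟩ := pvr4_mem_sc hw
  rw [pvr4_Z_re] at e1
  rw [pvr4_Z_im] at e2
  have es : pvlmDel c m = 320 * pvr4s c m := by unfold pvr4s; ring
  have hs := pvr4_s_pos c m
  rw [es] at e1 e2
  rcases hEs hv with h | h
  · obtain ⟨a, b, c', d⟩ := h
    refine Or.inl (pvr4_mem_O.2 ⟨⟨?_, ?_⟩, ?_, ?_⟩) <;> nlinarith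
  · obtain ⟨a, b, c', d⟩ := h
    refine Or.inr ⟨?_, ?_, ?_, ?_⟩ <;> nlinarith

/-- the window of the entrance side event of the reference plug -/
theorem pvr4_hE' (hn : 0 ≤ pvxrNw 𝔓 m) (hsu : su = 2 * pvehDl 𝔓 m) (hEs : T'.Es false ⊆ pvkgEm) :
    ((pvhfR pvkgG.toPvkdPlug T' false).sim 0 (su : ℂ)).E ⊆ pvr4T' (pvr4s c m) (pvr4N 𝔓 m) := by
  have hD := pvr4_Dl_pos hn
  have hδ := pvlm_Del_pos c m
  have hsu0 : 0 < su := by rw [hsu]; linarith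
  have e0 : ((pvhfR pvkgG.toPvkdPlug T' false).sim 0 (su : ℂ)) = ((pvhfR pvkgG.toPvkdPlug T' false).sim 0 (1 * (su : ℂ))) := by rw [one_mul]
  rw [e0, pvr2_sim_E _ _ _ _ hsu0 norm_one]
  intro w hw
  obtain ⟨v, hv, e1, e2⟩ := pvr4_mem_sc hw
  rw [Complex.zero_re, zero_add] at e1
  rw [Complex.zero_im, zero_add] at e2
  have es : su = 320 * ((pvr4N 𝔓 m : ℝ) * pvr4s c m) := by rw [pvr4_Ns, hsu]; ring
  have hs : 0 < (pvr4N 𝔓 m : ℝ) * pvr4s c m := by rw [pvr4_Ns]; linarith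
  rw [es] at e1 e2
  rcases hEs hv with h | h
  · obtain ⟨a, b, c', d⟩ := h
    refine Or.inl (pvr4_mem_O'.2 ⟨⟨?_, ?_⟩, ?_, ?_⟩) <;> nlinarith
  · obtain ⟨a, b, c', d⟩ := h
    refine Or.inr ⟨?_, ?_, ?_, ?_⟩ <;> nlinarith

end regions

/-! ## 3. the layout at the model -/

section layout

variable {τ : Type} {c : ℝ} (𝔓 : PvxPar τ c) (m : ℕ) (T : PvhfTr) (su : ℝ)

/-- **THE LAYOUT OF THE r-LINK AT THE LEVEL `m`**: `T` = the truncation of the side events (unit frame), `su` = the scale of the reference plug -/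
noncomputable def pvr4L : Pvr2Lay :=
  pvr4Lam (pvr4s c m) (pvilMu 𝔓 m) (pvr4U 𝔓 m) (pvr4N 𝔓 m) (pvr4M 𝔓 m)
    ((pvhfR pvkgG.toPvkdPlug T true).sim (𝔓.Γ m).pin0 ((𝔓.Γ m).din0 * (pvlmDel c m : ℂ))) ((pvhfR pvkgG.toPvkdPlug T false).sim 0 (su : ℂ))
    (cfMap (pvthInv (𝔓.Γ m).pin0 ((𝔓.Γ m).din0 * (pvlmDel c m : ℂ))) ⁻¹' pvhfS pvkgG.toPvkdPlug T true) (cfMap (pvthInv 0 (su : ℂ)) ⁻¹' pvhfS pvkgG.toPvkdPlug T false)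

theorem pvr4_eqns_cite5 : True := by
  have := @pvr4L.eq_1
  trivial

variable {𝔓 m T su}

/-- what is asked of the truncation: rooms and targets of 174, windows of 258 -/
structure Pvr4Tr (T : PvhfTr) : Prop where
  geo : PvhfGeo pvkgG.toPvkdPlug T
  Ln : ∀ σ β, T.Ln σ β = (pvhfT (1 / 40)).Ln σ β
  Dr : ∀ σ β, T.Dr σ β = (pvhfT (1 / 40)).Dr σ β
  Ep : T.Es true ⊆ pvkgEp
  Em : T.Es false ⊆ pvkgEm

theorem pvr4_L_fit (hΓ : 𝔓.Γ m = pvxrGam 𝔓 m) (hn : 0 ≤ pvxrNw 𝔓 m) (hsu : su = 2 * pvehDl 𝔓 m) (hT : Pvr4Tr T) :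
    PvuiFit (pvr4s c m) (pvr4N 𝔓 m) (pvr4M 𝔓 m) (pvr4L 𝔓 m T su).𝔯 (pvr4L 𝔓 m T su).𝔯' :=
  pvr4_fit hΓ hn hsu (hT.Ln true) (hT.Dr true) (hT.Ln false) (hT.Dr false)

/-- **`Λ.Ok` AT THE MODEL** -/
theorem pvr4_L_ok (hΓ : 𝔓.Γ m = pvxrGam 𝔓 m) (hn : 0 ≤ pvxrNw 𝔓 m) (hsu : su = 2 * pvehDl 𝔓 m) (hμ : 0 < pvilMu 𝔓 m) (hT : Pvr4Tr T) : (pvr4L 𝔓 m T su).Ok := by
  have hD := pvr4_Dl_pos hn
  have hδ := pvlm_Del_pos c m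
  have ha : (𝔓.Γ m).din0 * (pvlmDel c m : ℂ) ≠ 0 := by
    rw [hΓ, pvxr_gam_din0, one_mul]
    exact_mod_cast hδ.ne'
  have ha' : (su : ℂ) ≠ 0 := by
    have : su ≠ 0 := by rw [hsu]; linarith
    exact_mod_cast this
  exact pvr4_ok (pvr4_L_fit hΓ hn hsu hT) (pvr4_M2 hn) hμ (pvr4_mu3 𝔓 m) (pvr4_U_pos hn) (pvr4_U_le hn) ((hT.geo.wf true).sim _ ha) ((hT.geo.wf false).sim _ ha')
    ((pvhf_S_is hT.geo true).sim _ ha) ((pvhf_S_is hT.geo false).sim _ ha') (pvr4_hE hΓ hT.Ep) (pvr4_hE' hn hsu hT.Em)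

/-- a placed and scaled open square -/
theorem pvr4_sim_sq (z : ℂ) {α : ℝ} (hα : 0 < α) (a : ℝ) : pvthSim z (α : ℂ) '' pvccSq 0 a = pvccSq z (α * a) := by
  have hα' : (α : ℂ) ≠ 0 := by exact_mod_cast hα.ne'
  ext w
  have h := pvkx_mem_at (z := z) hα' (pvccSq 0 a) w
  unfold pvkdAt at h
  rw [h, pvccm_mem_sq, pvccm_mem_sq, Complex.div_ofReal_re, Complex.div_ofReal_im, Complex.sub_re, Complex.sub_im, Complex.zero_re, Complex.zero_im, zero_sub, zero_add,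
    lt_div_iff₀ hα, div_lt_iff₀ hα, lt_div_iff₀ hα, div_lt_iff₀ hα]
  constructor
  · rintro ⟨⟨a1, a2⟩, a3, a4⟩
    exact ⟨⟨by linarith, by linarith⟩, by linarith, by linarith⟩
  · rintro ⟨⟨a1, a2⟩, a3, a4⟩
    exact ⟨⟨by linarith, by linarith⟩, by linarith, by linarith⟩

/-- the state region of the last door plug -/
theorem pvr4_O_eq (hΓ : 𝔓.Γ m = pvxrGam 𝔓 m) : pvr4O (pvr4s c m) (pvr4M 𝔓 m) = pvthSim (𝔓.Γ m).pin0 ((𝔓.Γ m).din0 * (pvlmDel c m : ℂ)) '' pvkgO := by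
  rw [hΓ, pvxr_gam_din0, one_mul, pvkgg_O_sq, pvr4_sim_sq _ (pvlm_Del_pos c m), pvr4_pin0, pvr4O]
  congr 1
  unfold pvr4s
  ring

/-- the state region of the reference plug -/
theorem pvr4_O'_eq (𝔓 : PvxPar τ c) (m : ℕ) : pvr4O' (pvr4s c m) (pvr4N 𝔓 m) = pvccSq 0 (13 * pvehDl 𝔓 m / 80) := by
  rw [pvr4O', pvr4_Ns]
  congr 1
  ring

/-- the west half of the closed block -/
theorem pvr4_mem_H {w : ℂ} : w ∈ pvr4H (pvr4s c m) (pvr4M 𝔓 m) ↔ -(pvehDl 𝔓 m / 2) ≤ w.re ∧ w.re < 0 ∧ -(pvehDl 𝔓 m / 2) ≤ w.im ∧ w.im ≤ pvehDl 𝔓 m / 2 := by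
  unfold pvr4H
  rw [pvr4_Ms]
  rfl

/-- the room of the run lies in the rectangle of 84 -/
theorem pvr4_KE_nu (hn : 0 ≤ pvxrNw 𝔓 m) : (pvr4L 𝔓 m T su).KE ⊆ pvnuRY 𝔓 m := by
  have hD := pvr4_Dl_pos hn
  have hδ := pvlm_Del_pos c m
  show pverRY (8 * pvr4s c m) (pvr4U 𝔓 m) (2 * ((pvr4M 𝔓 m : ℝ) * pvr4s c m)) ⊆ _
  rw [pvr4_Ms]
  unfold pvr4s pvr4U
  rintro w (⟨a, b, c', d⟩ | ⟨a, b, c', d⟩)
  · exact pvnu4_mem_RY.2 ⟨by linarith, by linarith, by linarith, by linarith⟩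
  · exact pvnu4_mem_RY.2 ⟨by linarith, by linarith, by linarith, by linarith⟩

/-- the room of the run lies in the room of 166 -/
theorem pvr4_KE_er (hn : 0 ≤ pvxrNw 𝔓 m) (O0 : ℕ → Set ℂ) : (pvr4L 𝔓 m T su).KE ⊆ pverrY 𝔓 O0 m := by
  have hD := pvr4_Dl_pos hn
  have hδ := pvlm_Del_pos c m
  show pverRY (8 * pvr4s c m) (pvr4U 𝔓 m) (2 * ((pvr4M 𝔓 m : ℝ) * pvr4s c m)) ⊆ pverRY (pverRd c m) (pverRu 𝔓 m) (pvehDl 𝔓 m)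
  rw [pvr4_Ms]
  unfold pvr4s pvr4U pverRd pverRu
  rintro w (⟨a, b, c', d⟩ | ⟨a, b, c', d⟩)
  · exact Or.inl ⟨by linarith, by linarith, by linarith, by linarith⟩
  · exact Or.inr ⟨by linarith, by linarith, by linarith, by linarith⟩

/-- the collar of the rectangle of 84 (hence of every room inside it) -/
theorem pvr4_nu_core (hn : 0 ≤ pvxrNw 𝔓 m) : pvnuRY 𝔓 m ⊆ pvtrCore (3 * pvilMu 𝔓 m) (pvr4H (pvr4s c m) (pvr4M 𝔓 m)) := by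
  have hD := pvr4_Dl_pos hn
  have hδ := pvlm_Del_pos c m
  have h3 := pvr4_mu3 𝔓 m
  unfold pvr4s at h3
  intro v hv w hw
  obtain ⟨a, b, c', d⟩ := pvnu4_mem_RY.1 hv
  obtain ⟨p1, p2, p3, p4⟩ := pvkgg_ball_box hw
  exact pvr4_mem_H.2 ⟨by linarith, by linarith, by linarith, by linarith⟩

end layout

/-! ## 4. the fit -/

section fit

variable {τ : Type} {c : ℝ} {𝔓 : PvxPar τ c} {𝔈 : PvieEng τ} {m : ℕ} {T : PvhfTr} {su : ℝ}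

/-- **WHAT THE FIT READS OF THE ENGINE** (regions and the unit of the reference plug, level `m`) -/
structure Pvr4Eng (𝔓 : PvxPar τ c) (𝔈 : PvieEng τ) (m : ℕ) : Prop where
  hΓ : 𝔓.Γ m = pvxrGam 𝔓 m
  hn : 0 ≤ pvxrNw 𝔓 m
  hρ : 0 < 𝔓.num.rho3 * pvlmH m
  kO : ∀ ε, (𝔈.kit m ε).O₀ = pvthSim 0 (pvlmDel c m) '' pvkgO
  rO : 𝔈.rO m = pvccSq 0 (13 * pvehDl 𝔓 m / 80)
  /-- the tile lies in the west half of the closed block -/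
  rK : ∀ w ∈ 𝔈.rK m, -(pvehDl 𝔓 m / 2) ≤ w.re ∧ w.re < 0 ∧ -(pvehDl 𝔓 m / 2) ≤ w.im ∧ w.im ≤ pvehDl 𝔓 m / 2
  /-- the west half of the closed block is covered -/
  cov : ∀ w : ℂ, -(pvehDl 𝔓 m / 2) ≤ w.re → w.re < 0 → -(pvehDl 𝔓 m / 2) ≤ w.im → w.im ≤ pvehDl 𝔓 m / 2 → w ∉ 𝔈.rO m → w ∉ pvthSim (𝔓.Γ m).pin0 (𝔓.Γ m).din0 '' (pvthSim 0 (pvlmDel c m) '' pvkgO) → w ∈ 𝔈.rK m
  rY : 𝔈.rY m ⊆ pvnuRY 𝔓 m
  KE : pverRY (pvlmDel c m / 40) (pvehDl 𝔓 m / 16) (pvehDl 𝔓 m) ⊆ 𝔈.rY m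
  ru : (𝔈.rp m).h = pvehDl 𝔓 m / 20

theorem Pvr4Eng.door (E : Pvr4Eng 𝔓 𝔈 m) (ε : ℝ) : pvieDoor 𝔈 m ε (𝔓.Γ m).pin0 (𝔓.Γ m).din0 = pvr4O (pvr4s c m) (pvr4M 𝔓 m) := by
  have hδ := pvlm_Del_pos c m
  unfold pvieDoor
  rw [E.kO, pvkgg_O_sq, pvr4_sim_sq _ hδ, E.hΓ, pvxr_gam_din0, pvr4_pin0]
  have h1 := pvr4_sim_sq (pvr4Z (pvr4s c m) (pvr4M 𝔓 m)) one_pos (pvlmDel c m * (13 / 160))
  rw [Complex.ofReal_one] at h1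
  rw [h1, pvr4O]
  congr 1
  unfold pvr4s
  ring

theorem Pvr4Eng.win (E : Pvr4Eng 𝔓 𝔈 m) (ε : ℝ) : pvr4W (pvr4s c m) (pvr4N 𝔓 m) (pvr4M 𝔓 m) = pvilWnr 𝔓 𝔈 m ε := by
  unfold pvilWnr
  rw [E.door ε]
  have eO' : pvr4O' (pvr4s c m) (pvr4N 𝔓 m) = 𝔈.rO m := by rw [E.rO, pvr4_O'_eq]
  apply Subset.antisymm
  · rintro w ((h | h) | h)
    · obtain ⟨a, b, c', d⟩ := pvr4_mem_H.1 h.1.1
      refine Or.inl (Or.inl (E.cov w a b c' d (by rw [← eO']; exact h.1.2) ?_))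
      have := E.door ε
      unfold pvieDoor at this
      rw [E.kO] at this
      rw [this]
      exact h.2
    · exact Or.inl (Or.inr (eO' ▸ h))
    · exact Or.inr h
  · rintro w ((h | h) | h)
    · exact pvr4_H_sub_W _ _ _ (pvr4_mem_H.2 (E.rK w h))
    · exact Or.inl (Or.inr (eO' ▸ h))
    · exact Or.inr h

theorem Pvr4Eng.mu_pos (E : Pvr4Eng 𝔓 𝔈 m) : 0 < pvilMu 𝔓 m := pvly_mu_pos 𝔓 (pvlm_Del_pos c m) E.hρ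

theorem Pvr4Eng.reg (E : Pvr4Eng 𝔓 𝔈 m) (ε : ℝ) : PvlyReg (pvilLr 𝔓 𝔈 m) (pvilMu 𝔓 m) (pvilWnr 𝔓 𝔈 m ε) := by
  have hδ := pvlm_Del_pos c m
  have hD := pvr4_Dl_pos E.hn
  have h3 := pvr4_mu3 𝔓 m
  unfold pvr4s at h3
  have hru : pvilRu 𝔈 m = pvehDl 𝔓 m / 20 := E.ru
  refine pvly_reg_r 𝔓 𝔈 (ε := ε) hδ E.hρ (by rw [E.hΓ, pvxr_gam_din0, norm_one]) ?_ (by rw [hru]; linarith) (by rw [hru]; linarith) ?_ ?_
  · rw [E.kO, pvkgg_O_sq, pvr4_sim_sq _ hδ]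
    rintro w ⟨h1, h2⟩
    rw [sub_zero, abs_le] at h1 h2
    unfold pvilRd at h1 h2
    rw [pvccm_mem_sq, Complex.zero_re, Complex.zero_im]
    exact ⟨⟨by linarith [h1.1], by linarith [h1.2]⟩, by linarith [h2.1], by linarith [h2.2]⟩
  · rw [E.rO, hru]
    rintro w ⟨h1, h2⟩
    rw [sub_zero, abs_le] at h1 h2
    rw [pvccm_mem_sq, Complex.zero_re, Complex.zero_im]
    exact ⟨⟨by linarith [h1.1], by linarith [h1.2]⟩, by linarith [h2.1], by linarith [h2.2]⟩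
  · rw [← E.win ε]
    exact (E.rY.trans (pvr4_nu_core E.hn)).trans (pvtr_core_mono (pvr4_H_sub_W _ _ _))

/-- **THE LAYOUT SITS ON THE DATA OF RECORD** -/
theorem Pvr4Eng.fit (E : Pvr4Eng 𝔓 𝔈 m) (hsu : su = 2 * pvehDl 𝔓 m) (hT : Pvr4Tr T) : Pvr2Fit 𝔓 𝔈 m (pvr4L 𝔓 m T su) := by
  have hδ := pvlm_Del_pos c m
  have hD := pvr4_Dl_pos E.hn
  have F := pvr4_L_fit (su := su) E.hΓ E.hn hsu hT
  have H := pvr4_L_ok (su := su) E.hΓ E.hn hsu E.mu_pos hT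
  have e8 : 8 * pvr4s c m = pvilRd 𝔓 m := by unfold pvr4s pvilRd; ring
  have e8' : 8 * ((pvr4N 𝔓 m : ℝ) * pvr4s c m) = pvilRu 𝔈 m := by
    rw [pvr4_Ns]
    show _ = (𝔈.rp m).h
    rw [E.ru]; ring
  have ez : (((-((pvr4M 𝔓 m : ℝ) * pvr4s c m) : ℝ)) : ℂ) = (𝔓.Γ m).pin0 := by rw [E.hΓ, pvr4_pin0]; rfl
  have ed : (𝔓.Γ m).din0 = 1 := by rw [E.hΓ, pvxr_gam_din0]
  refine ⟨Eventually.of_forall fun ε => (E.door ε).symm, ?_, Eventually.of_forall fun ε => E.win ε, rfl, ?_, ?_, ?_, ?_, ?_, ?_, ?_, Eventually.of_forall fun ε => E.reg ε, hδ⟩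
  · show pvr4O' (pvr4s c m) (pvr4N 𝔓 m) = _
    rw [E.rO, pvr4_O'_eq]
  · rw [F.p, e8, ez, ed]
  · have h := H.wf.ρ0
    show ‖(𝔓.Γ m).din0 * (pvlmDel c m : ℂ)‖ * (1 / 40 / 16) = pvilRd 𝔓 m / 16
    rw [ed, one_mul, Complex.norm_real, Real.norm_eq_abs, abs_of_pos hδ]
    unfold pvilRd
    ring
  · refine Subset.trans (le_of_eq ?_) H.wf.sub
    rw [F.Ef, ed, ← ez]
    show pvkdAt _ 1 (pvwSq 0 (3 * pvilRd 𝔓 m)) = _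
    rw [pvui_at_sq, ← e8]
    congr 1
    ring
  · rw [F.p', e8']
  · show ‖(su : ℂ)‖ * (1 / 40 / 16) = pvilRu 𝔈 m / 16
    rw [Complex.norm_real, Real.norm_eq_abs, abs_of_pos (by rw [hsu]; linarith), ← e8', pvr4_Ns, hsu]
    ring
  · refine Subset.trans (le_of_eq ?_) H.wf'.sub
    rw [F.Ef']
    show pvkdAt _ 1 (pvwSq 0 (3 * pvilRu 𝔈 m)) = _
    rw [pvui_at_sq, ← e8']
    congr 1
    ring
  · refine Subset.trans (le_of_eq ?_) E.KE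
    show pverRY (8 * pvr4s c m) (pvr4U 𝔓 m) (2 * ((pvr4M 𝔓 m : ℝ) * pvr4s c m)) = _
    rw [pvr4_Ms]
    unfold pvr4s pvr4U
    congr 1
    ring

end fit

/-! ## 5. at the engine after U4 (84) -/

section u4

open scoped ENNReal

variable {τ : Type} {c : ℝ} {𝔓 : PvxPar τ c} {J : PveaIn} {rY' : ℕ → Set ℂ} {𝔊 : PvpgGlob} {b : ℝ≥0∞} {m : ℕ}

/-- **`Pvr4Eng` AT THE ENGINE AFTER U4**, any room `rY'` between the room of the run and the rectangle of 84 -/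
theorem pvr4_eng_A (hΓ : 𝔓.Γ m = pvxrGam 𝔓 m) (hρ0 : 0 < 𝔓.num.rho) (hn : 0 ≤ pvxrNw 𝔓 m) (hρ : 0 < 𝔓.num.rho3 * pvlmH m) (hk : ∀ ε, (J.kit m ε).O₀ = pvthSim 0 (pvlmDel c m) '' pvkgO)
    (hY₁ : rY' m ⊆ pvnuRY 𝔓 m) (hY₂ : pverRY (pvlmDel c m / 40) (pvehDl 𝔓 m / 16) (pvehDl 𝔓 m) ⊆ rY' m) : Pvr4Eng 𝔓 (pvnuEngA 𝔓 J rY' 𝔊 b) m where
  hΓ := hΓ
  hn := hn
  hρ := hρ
  kO := hk
  rO := pvnu4_RO_sq hρ0 m
  rK := by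
    have hD := pvr4_Dl_pos hn
    have hδ := pvlm_Del_pos c m
    rintro w (h | h)
    · have h1 : w ∈ pvehSq 0 (pvehDl 𝔓 m / 2) := h.1
      have h2 : w.re < 0 := h.2.1
      rw [pveh_mem_sq, Complex.zero_re, Complex.zero_im] at h1
      exact ⟨by linarith [h1.1.1], h2, by linarith [h1.2.1], by linarith [h1.2.2]⟩
    · have h1 : w ∈ pvccSq 0 (pvehDl 𝔓 m / 4) := h.1.1
      have h2 : w.re < 0 := h.2
      rw [pvccm_mem_sq, Complex.zero_re, Complex.zero_im] at h1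
      exact ⟨by linarith [h1.1.1], h2, by linarith [h1.2.1], by linarith [h1.2.2]⟩
  cov := by
    intro w a1 a2 a3 a4 hO hD
    by_cases h : w ∈ pvehrO 𝔓 m
    · exact Or.inr ⟨⟨h, hO⟩, a2⟩
    · refine Or.inl ⟨?_, a2, h, ?_⟩
      · rw [pveh_mem_sq, Complex.zero_re, Complex.zero_im]
        exact ⟨⟨by linarith, by linarith⟩, by linarith, by linarith⟩
      · rw [hΓ] at hD
        show w ∉ pvthSim (pvxrGam 𝔓 m).pin0 (pvxrGam 𝔓 m).din0 '' (J.kit m 1).O₀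
        rw [hk]
        exact hD
  rY := hY₁
  KE := hY₂
  ru := rfl

end u4

/-! ## 6. the record of 129 (`Exit/FrcRA`) -/

section in6

variable {τ : Type} {c : ℝ} {𝔓 : PvxPar τ c} {𝔈 : PvieEng τ} {m : ℕ} {T : PvhfTr} {su : ℝ} {𝔊 : PvpgGlob}

/-- **`Pvr6In` OF 129**: regions and numbers paid; left = the datum (`hO₀ hH`), the fine meshes (`hTW hTμ hM₂`) -/
theorem Pvr4Eng.in6 (E : Pvr4Eng 𝔓 𝔈 m) (hT : Pvr4Tr T) (hsu : su = 2 * pvehDl 𝔓 m) (hO₀ : 𝔊.O₀ = pvkgO) (hH : ∀ i, 𝔊.H i = pvhfH (pvkdP (1 / 40)) T i)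
    (hTW : 𝔊.O₀ ⊆ T.W) (hTμ : T.μ * pvlmDel c m ≤ pvilMu 𝔓 m / 3) (hM₂ : ∀ ε, ∀ η ∈ 𝔈.rG m ε, PvtrMesh (pvilMu 𝔓 m / 3) (𝔈.rO m) (cfSites η)) :
    Pvr6In 𝔓 𝔈 m 𝔊 su T (pvr4s c m) (pvr4U 𝔓 m) (pvr4N 𝔓 m) (pvr4M 𝔓 m) := by
  have hδ := pvlm_Del_pos c m
  have hD := pvr4_Dl_pos E.hn
  have e' : pvr5R' su T = (pvhfR pvkgG.toPvkdPlug T false).sim 0 (su : ℂ) := by
    unfold pvr5R'
    rw [one_mul]
    rfl
  have eO : pvr4O (pvr4s c m) (pvr4M 𝔓 m) = pvr3At 𝔓 m 𝔊.O₀ := by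
    rw [hO₀]
    exact pvr4_O_eq E.hΓ
  refine ⟨hT.geo, hH, by rw [hsu]; linarith, ?_, ?_, pvr4_M2 E.hn, E.mu_pos, pvr4_mu3 𝔓 m, pvr4_U_pos E.hn, pvr4_U_le E.hn, pvr4_hE E.hΓ hT.Ep, ?_, eO, ?_, ?_, ?_,
    Eventually.of_forall fun ε => E.reg ε, hTW, hTμ, hM₂⟩
  · show su / 40 = (𝔈.rp m).h
    rw [E.ru, hsu]; ring
  · rw [e']
    exact pvr4_fit E.hΓ E.hn hsu (hT.Ln true) (hT.Dr true) (hT.Ln false) (hT.Dr false)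
  · rw [e']
    exact pvr4_hE' E.hn hsu hT.Em
  · rw [E.rO, pvr4_O'_eq]
  · rw [E.win 1, ← eO, ← E.door 1]
    rfl
  · exact (E.fit (su := su) hsu hT).hKE

end in6

/-! ## 7. at the record -/

section record

variable {N : PvxNums} (hN : N.Ok) {c : ℝ}

/-- the truncation of record (R24) -/
theorem pvr4_tr_rec {N : PvxNums} (hN : N.Ok) : Pvr4Tr (pvnaT N) := ⟨pvna_geo hN, fun _ _ => rfl, fun _ _ => rfl, Subset.rfl, Subset.rfl⟩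

/-- the room of the run, in the words of `Pvr4Eng.KE` -/
theorem pvr4_KE_nu' {τ : Type} {𝔓 : PvxPar τ c} {m : ℕ} (hn : 0 ≤ pvxrNw 𝔓 m) : pverRY (pvlmDel c m / 40) (pvehDl 𝔓 m / 16) (pvehDl 𝔓 m) ⊆ pvnuRY 𝔓 m := by
  have hD := pvr4_Dl_pos hn
  have hδ := pvlm_Del_pos c m
  rintro w (⟨a, b, c', d⟩ | ⟨a, b, c', d⟩)
  · exact pvnu4_mem_RY.2 ⟨by linarith, by linarith, by linarith, by linarith⟩
  · exact pvnu4_mem_RY.2 ⟨by linarith, by linarith, by linarith, by linarith⟩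

/-- **`Pvr4Eng` AT THE ENGINE OF RECORD AFTER THE SWAP L2 OF 84** (`pvnaEngRec := pvnuEngA P (pvnaInRec ..) (pvnuRY P) nb.glob nb.b`) -/
theorem pvr4_eng_rec (c0 : 0 < c) (nb : PvnaNb N) (m : ℕ) :
    Pvr4Eng (pvxParOf N hN c) (pvnuEngA (pvxParOf N hN c) (pvnaInRec N hN c nb) (pvnuRY (pvxParOf N hN c)) nb.glob nb.b) m :=
  pvr4_eng_A rfl hN.rho0 (pvea_Nw_nonneg (pvea_par hN c0) m) (mul_pos hN.msk0 (pvlm_H_pos m)) (fun _ => rfl) Subset.rfl (pvr4_KE_nu' (pvea_Nw_nonneg (pvea_par hN c0) m))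

end record

end Claimed.Agent.R289
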