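-- KEEP
import Claimed.Agent.R289.Exit.FrcRN
import Claimed.Agent.R289.Exit.FrcRS
import Claimed.Agent.R289.Tr.LinkDet
import Claimed.Agent.R289.Tr.MeasL

/-!
# Row 289 (S0537), THE WALL, ROAD E, file Exit/FrcRW : THE LINK `door plug → reference plug` IS FORCED **AT THE ENGINE OF RECORD**      (helper129; prefix `pvr6_`)

ONE TERM: `pvr6_frc` (129, `Exit/FrcRA`) at `pvr3_rec_eng` (250, `Exit/FrcRS`: the ends), `(pvr4_eng_rec ..).in6` (262, `Exit/FrcRN`: numbers, regions, funnel of 278), `pvr4_tr_rec` (truncation of record, R24 of 9),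
`pvna_hmu` (10), `pvr5_hM₂` (250: the mesh conjunct of `rG` after U4 of 84 / 31).
* **`pvr6_in_rec`** : `Pvr6In` at the engine of record      [engine v3 = L2 (U4)]
* **`pvr6_rec`**    : the target at `w := pvilQ` (= `Pvc1rFrcr` of `Exit/Cyc1R`, unfolded)
-/

set_option autoImplicit false

namespace Claimed.Agent.R289

open Set MeasureTheory Filter Topology Claims.C0465
open scoped ENNReal

section rec

variable {N : PvxNums} (hN : N.Ok) {c : ℝ}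

/-- **ALL THAT WAS LEFT OF THE `r`-LINK, AT THE ENGINE OF RECORD** -/
theorem pvr6_in_rec (c0 : 0 < c) (nb : PvnaNb N) (m : ℕ) :
    Pvr6In (pvxParOf N hN c) (pvnaEngRec N hN c nb) m nb.glob (pvurS (pvxParOf N hN c) m) (pvnaT N) (pvr4s c m) (pvr4U (pvxParOf N hN c) m) (pvr4N (pvxParOf N hN c) m) (pvr4M (pvxParOf N hN c) m) := by
  exact (pvr4_eng_rec hN c0 nb m).in6 (pvr4_tr_rec hN) rfl rfl (fun _ => rfl) Subset.rfl (pvna_hmu hN c m)
    (pvr5_hM₂ (𝔊 := nb.glob) (b := nb.b) (s := pvurS (pvxParOf N hN c) m) (μ' := pvilMu (pvxParOf N hN c) m / 8) (fun _ => rfl)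
      (by have := pvly_mu_pos (pvxParOf N hN c) (pvlm_Del_pos c m) (mul_pos hN.msk0 (pvlm_H_pos m)); linarith))

/-- **THE `r`-LINK IS FORCED AT THE ENGINE OF RECORD** -/
theorem pvr6_rec (c0 : 0 < c) (nb : PvnaNb N) (m : ℕ) :
    ∃ q' : ℝ≥0∞, q' ≠ 0 ∧ ∀ᶠ ε in 𝓝[>] (0 : ℝ), ∀ᵐ η ∂pvP ε, η ∈ ((pvnaEngRec N hN c nb).kit m ε).G ((pvxParOf N hN c).Γ m).pin0 ((pvxParOf N hN c).Γ m).din0 → η ∈ (pvnaEngRec N hN c nb).rG m ε →
      q' ≤ pvtiP (pvP ε) (pvieOr (pvxParOf N hN c) (pvnaEngRec N hN c nb) m ε) (pvilAr (pvxParOf N hN c) (pvnaEngRec N hN c nb) m ε pvilQ) η :=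
  pvr6_frc (pvr3_rec_eng hN nb c0 m) (pvr6_in_rec hN c0 nb m) pvly_wt_Q pvml_wm_Q

end rec

end Claimed.Agent.R289
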