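-- KEEP
import Claimed.Agent.R289.Exit.Cyc1T
import Claimed.Agent.R289.Tr.CycDI
import Claimed.Agent.R289.Exit.GdRec
import Claimed.Agent.R289.Exit.EngRec
import Claimed.Agent.R289.Exit.RefRec
import Claimed.Agent.R289.Exit.ParBd
import Claimed.Agent.R289.Tr.CycEL
import Claimed.Agent.R289.Tr.CycI
import Claimed.Agent.R289.Exit.FrcRW

/-!
# Row 289 (S0537), THE WALL, ROAD E, Exit/Cyc1R : THE LEAVES [PIN], [WIN], [FRC] OF (REC) OF `cyc1`      (helper129, under 37 `Exit/Cyc1T`; prefix `pvc1r_`)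

0 sorry (sec. 6: `exit_pvc1r_frcr := pvr6_rec` of `Exit/FrcRW`, which closes by itself at L2).      Every statement is in the words of the arguments of `pvcz1_cyc` (37) at the names of `PvjgCycL` (102).
* sec. 1  [PIN]  a base `ω ∈ pvc1B` is the configuration of a sample: `pvc1r_cnt` (countably many sites), `pvc1r_at` (the FULL state `PvilAt` of the candidate)
* sec. 2  [WIN]  any engine: `pvc1r_win_o`, `pvc1r_win_e` = the two `PvueWin` of 180 at a base;   `pvc1r_mh` = `PvjhMh` AT THE ENGINE OF RECORD (T12), `pvc1r_ty`, `pvc1r_fine`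
* sec. 3  [FRC]  the good part of record (T14): `pvc1r_Qo_own`, `pvc1r_Qe_own` (own experiment, constants capped at `1`), **`pvc1r_Qo`, `pvc1r_Qe`** = the arguments `Qo Qe` of `pvcz1_cyc` VERBATIM (along the experiment of the cycle)
* sec. 4  at the parameters of record: **`pvc1r_base`** = all of the above for `hR : PvnaRec`, `hGR : PvguRec` in one statement
* sec. 5  **`pvc1r_rec`** = THE STATEMENT OF `exit_pvc1_rec` (115, `Exit/Cyc1M`) VERBATIM + ONE HYPOTHESIS `Pvc1rFrcr` (the link `door plug → reference plug` is forced, = the conclusion of `pvr2_frc` of 233, `Exit/FrcR`):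
          := `pvjg_rec_of` (102) over `pvc1_kit` (115), `pvjh_disj` (180), `pvur_rec_ref` (31), `pvbd_rec` (73), `pvcyi_sqr_L pvcyi_so pvcyi_se` (161, 193), the windows and the forced ends above
* sec. 6  THE EXIT: `exit_pvc1r_frcr` (`:= pvr6_rec`, `Exit/FrcRW`: 233 250 262 278 129), **`pvc1r_main`** = `exit_pvie_cyc1` (`Exit/Ana`) VERBATIM
-/

set_option autoImplicit false

namespace Claimed.Agent.R289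

open MeasureTheory Filter Topology Set Metric Claims.C0465
open scoped ENNReal

/-! ## 1. [PIN] -/

section pin

variable {τ : Type} {c : ℝ} {𝔓 : PvxPar τ c} {𝔈 : PvieEng τ} {𝔊 : PvnaGd τ} {m : ℕ} {ε : ℝ} {z : ℂ} {t : τ} {ω : Conf PvPt}

/-- the configuration of a sample has countably many sites -/
theorem pvc1r_cnt_conf (ω : PVSample) : (cfSites (pvConf ω)).Countable := by
  have h : (pvConf ω).pts ⊆ range fun kj : (ℤ × ℤ) × ℕ => pvPt ω kj.1 kj.2 := by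
    rintro p ⟨k, j, -, rfl⟩
    exact ⟨(k, j), rfl⟩
  exact ((countable_range _).mono h).image _

theorem pvc1r_cnt (h : ω ∈ pvc1B 𝔓 𝔊 m ε z t) : (cfSites ω).Countable := by
  obtain ⟨ω', -, rfl⟩ := h
  exact pvc1r_cnt_conf ω'

/-- **[PIN]** a base carries the full state of its candidate -/
theorem pvc1r_at (h : ω ∈ pvc1B 𝔓 𝔊 m ε z t) : ∃ 𝔖 : PvwSt (pvieT ω), PvilAt 𝔓.num (𝔓.col t) (pvilPin 𝔓 m z t) ω 𝔖 := by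
  obtain ⟨ω', h', rfl⟩ := h
  exact pvju_U 𝔓 m z t h'.1

end pin

/-! ## 2. [WIN] -/

section win

variable {τ : Type} {c : ℝ} {𝔓 : PvxPar τ c} {𝔈 : PvieEng τ} {𝔊 : PvnaGd τ} {m : ℕ} {ε : ℝ} {z : ℂ} {t : τ} {ω : Conf PvPt}

/-- **[WIN.o]** the first link is a window end of the experiment of the cycle at every base      (180 `pvjh_win_o`; the shape of the argument `wo` of `pvcz1_cyc`) -/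
theorem pvc1r_win_o {m0 : ℕ} {Cth : ℝ} {r κs : ℕ → ℝ} (H : PvieEng.Wf 𝔓 𝔈 m0 Cth r κs) (hm : m0 ≤ m) (hk : (𝔈.kit m ε).WF) (ht : pviwTyOk 𝔓 t)
    (hδ : 0 ≤ pvlmDel c m) (fine : 32 * pvlmDel c m ≤ 𝔓.num.rho * pvlmH m) (hρ : 0 < 𝔓.num.rho) (hM : PvjhMh 𝔓 𝔈 m t) (h : ω ∈ pvc1B 𝔓 𝔊 m ε z t) :
    PvueWin ω (pvilCcyc 𝔓 𝔈 m ε z t) (fun _ => pvilYfcyc 𝔓 𝔈 m z t ω) (pvilEoAt 𝔓 𝔈 m ε pvilQ z t ω) (pvkyDoor (𝔈.kit m ε) (pvieZo 𝔓 m z t) ((𝔓.Γ m).dout t))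
      (pvilWno 𝔓 𝔈 m ε z t (pvilZo 𝔓 m z t ω)) := by
  obtain ⟨𝔖, hS⟩ := pvc1r_at h
  exact pvjh_win_o H hm hk ht hδ fine hρ hM (pvc1r_cnt h) hS pvilQ

/-- **[WIN.e]** the thick link is a window end of the experiment of the cycle at every base      (180 `pvjh_win_e`; the shape of the argument `we` of `pvcz1_cyc`) -/
theorem pvc1r_win_e {m0 : ℕ} {Cth : ℝ} {r κs : ℕ → ℝ} (H : PvieEng.Wf 𝔓 𝔈 m0 Cth r κs) (hm : m0 ≤ m) (hk : (𝔈.kit m ε).WF) (ht : pviwTyOk 𝔓 t)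
    (hδ : 0 ≤ pvlmDel c m) (fine : 32 * pvlmDel c m ≤ 𝔓.num.rho * pvlmH m) (hρ : 0 < 𝔓.num.rho) (hM : PvjhMh 𝔓 𝔈 m t) (h : ω ∈ pvc1B 𝔓 𝔊 m ε z t) :
    PvueWin ω (pvilCcyc 𝔓 𝔈 m ε z t) (fun _ => pvilYfcyc 𝔓 𝔈 m z t ω) (pvilEeAt 𝔓 𝔈 m ε pvilQ z t ω) (pvieSh (pvieZu 𝔓 m z t) (pvjgRefW 𝔓 𝔈 pvilQ m ε).O)
      (pvilWne 𝔓 𝔈 m z t (pvilZi 𝔓 m z t ω)) := by
  obtain ⟨𝔖, hS⟩ := pvc1r_at h
  exact pvjh_win_e H hm hk ht hδ fine hρ hM (pvc1r_cnt h) hS pvilQ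

end win

/-! ### the numbers and the mouths of record -/

section par

variable {c : ℝ} {N : PvxNums} (hN : N.Ok)

/-- every type of record is admissible -/
theorem pvc1r_ty (t : pvxTau N) : pviwTyOk (pvxParOf N hN c) t := by
  refine ⟨pvxo_nd_p t, pvxo_nd_m t, ?_⟩
  have := pvxo_nd_far t
  show 7 * N.rho / 4 ≤ ‖pvxoYp t - pvxoYm t‖
  linarith

theorem pvc1r_fine (c0 : 0 < c) {m : ℕ} (hm : (pvxParOf N hN c).m0 ≤ m) : 32 * pvlmDel c m ≤ (pvxParOf N hN c).num.rho * pvlmH m := by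
  have h1 : 1000000 * pvlmDel c m ≤ N.rho * pvlmH m := pvxo_fine hN c0 hm
  have h2 : 0 < pvlmDel c m := pvlm_Del_pos c m
  show 32 * pvlmDel c m ≤ N.rho * pvlmH m
  linarith

theorem pvc1r_rho : 0 < (pvxParOf N hN c).num.rho := hN.rho0

/-- **`PvjhMh` AT THE ENGINE OF RECORD** (T12): the mouths are the closed balls of radius `5 ρ h / 16` round the grid centres of the tip cells -/
theorem pvc1r_mh (nb : PvnaNb N) (m : ℕ) (t : pvxTau N) : PvjhMh (pvxParOf N hN c) (pvnaEngRec N hN c nb) m t := by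
  have hh : 0 < pvlmH m := pvlm_H_pos m
  have hρ : 0 < (pvxParOf N hN c).num.rho := pvc1r_rho hN
  have h0 : 5 * pvegR (pvxParOf N hN c) m / 16 ≤ (pvxParOf N hN c).num.rho * pvlmH m / 2 := by
    unfold pvegR
    nlinarith [mul_pos hρ hh]
  exact ⟨closedBall_subset_closedBall h0, closedBall_subset_closedBall h0⟩

end par

/-! ## 3. [FRC] -/

section frc

variable {τ : Type} {c : ℝ} {𝔓 : PvxPar τ c} {𝔈 : PvieEng τ} {q : ℕ → ℝ≥0∞} {qe qf : ℝ≥0∞} {m : ℕ} {ε : ℝ} {z : ℂ} {t : τ} {ω : Conf PvPt}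

/-- **[FRC.o], OWN EXPERIMENT** = the hypothesis `hf` of `pvcz1_frc_big` -/
theorem pvc1r_Qo_own (h : ω ∈ pvc1B 𝔓 (pvguGd 𝔓 𝔈 q qe qf) m ε z t) :
    ∀ᵐ p ∂pvdyNu ε, pvkyFl (𝔓.col t) (pvdyR ((pvilEoAt 𝔓 𝔈 m ε pvilQ z t ω).K ∪ pvkyDoor (𝔈.kit m ε) (pvieZo 𝔓 m z t) ((𝔓.Γ m).dout t)) (pvilEoAt 𝔓 𝔈 m ε pvilQ z t ω).y ω p) ∈ (𝔈.kit m ε).G (pvieZo 𝔓 m z t) ((𝔓.Γ m).dout t) →
      min (q m) 1 ≤ pvdyQ ε (pvilEoAt 𝔓 𝔈 m ε pvilQ z t ω).K (pvilEoAt 𝔓 𝔈 m ε pvilQ z t ω).y (pvilEoAt 𝔓 𝔈 m ε pvilQ z t ω).A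
        (pvdyR ((pvilEoAt 𝔓 𝔈 m ε pvilQ z t ω).K ∪ pvkyDoor (𝔈.kit m ε) (pvieZo 𝔓 m z t) ((𝔓.Γ m).dout t)) (pvilEoAt 𝔓 𝔈 m ε pvilQ z t ω).y ω p) := by
  obtain ⟨ω', h', rfl⟩ := h
  have h1 : pvConf ω' ∈ pvrgFo 𝔓 𝔈 (q m) m ε z t := pvgu_all_Fo h'.2
  rw [pvrgFo, mem_ofPred_eq] at h1
  filter_upwards [pvrg_mem_frc.1 h1] with p hp hG
  exact (min_le_left _ _).trans (hp hG)

/-- **[FRC.e], OWN EXPERIMENT** = the hypothesis `hf` of `pvcz1_frc_big` -/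
theorem pvc1r_Qe_own (h : ω ∈ pvc1B 𝔓 (pvguGd 𝔓 𝔈 q qe qf) m ε z t) :
    ∀ᵐ p ∂pvdyNu ε, pvkyFl (𝔓.col t) (pvdyR ((pvilEeAt 𝔓 𝔈 m ε pvilQ z t ω).K ∪ pvieSh (pvieZu 𝔓 m z t) (pvjgRefW 𝔓 𝔈 pvilQ m ε).O) (pvilEeAt 𝔓 𝔈 m ε pvilQ z t ω).y ω p) ∈ cfMap (pvthInv (pvieZu 𝔓 m z t) 1) ⁻¹' (pvjgRefW 𝔓 𝔈 pvilQ m ε).G →
      min qe 1 ≤ pvdyQ ε (pvilEeAt 𝔓 𝔈 m ε pvilQ z t ω).K (pvilEeAt 𝔓 𝔈 m ε pvilQ z t ω).y (pvilEeAt 𝔓 𝔈 m ε pvilQ z t ω).A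
        (pvdyR ((pvilEeAt 𝔓 𝔈 m ε pvilQ z t ω).K ∪ pvieSh (pvieZu 𝔓 m z t) (pvjgRefW 𝔓 𝔈 pvilQ m ε).O) (pvilEeAt 𝔓 𝔈 m ε pvilQ z t ω).y ω p) := by
  obtain ⟨ω', h', rfl⟩ := h
  have h1 : pvConf ω' ∈ pvrgFe 𝔓 𝔈 qe m ε z t := pvgu_all_Fe h'.2
  rw [pvrgFe, mem_ofPred_eq] at h1
  filter_upwards [pvrg_mem_frc.1 h1] with p hp hG
  exact (min_le_left _ _).trans (hp hG)

/-- **[FRC.o]** = the argument `Qo` of `pvcz1_cyc`, VERBATIM, `qo := min (q m) 1` -/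
theorem pvc1r_Qo {Wo : Set ℂ} (hk : (𝔈.kit m ε).WF)
    (wo : PvueWin ω (pvilCcyc 𝔓 𝔈 m ε z t) (fun _ => pvilYfcyc 𝔓 𝔈 m z t ω) (pvilEoAt 𝔓 𝔈 m ε pvilQ z t ω) (pvkyDoor (𝔈.kit m ε) (pvieZo 𝔓 m z t) ((𝔓.Γ m).dout t)) Wo)
    (h : ω ∈ pvc1B 𝔓 (pvguGd 𝔓 𝔈 q qe qf) m ε z t) :
    ∀ᵐ p ∂pvdyNu ε, pvkyFl (𝔓.col t) (pvdyR (pvilCcyc 𝔓 𝔈 m ε z t) (fun _ => pvilYfcyc 𝔓 𝔈 m z t ω) ω p) ∈ (𝔈.kit m ε).G (pvieZo 𝔓 m z t) ((𝔓.Γ m).dout t) →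
      min (q m) 1 ≤ pvdyQ ε (pvilEoAt 𝔓 𝔈 m ε pvilQ z t ω).K (pvilEoAt 𝔓 𝔈 m ε pvilQ z t ω).y (pvilEoAt 𝔓 𝔈 m ε pvilQ z t ω).A (pvdyR (pvilCcyc 𝔓 𝔈 m ε z t) (fun _ => pvilYfcyc 𝔓 𝔈 m z t ω) ω p) :=
  pvcz1_frc_big wo (pvth_rG hk _ _ (pvth_ne_zero ((𝔓.Γ m).dout1 t))) (pvc1r_Qo_own h)

/-- **[FRC.e]** = the argument `Qe` of `pvcz1_cyc`, VERBATIM, `qe := min qe 1` -/
theorem pvc1r_Qe {We : Set ℂ} (rG : Conf.Reads ((pvjgRefW 𝔓 𝔈 pvilQ m ε).O ×ˢ univ) fun η => η ∈ (pvjgRefW 𝔓 𝔈 pvilQ m ε).G)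
    (we : PvueWin ω (pvilCcyc 𝔓 𝔈 m ε z t) (fun _ => pvilYfcyc 𝔓 𝔈 m z t ω) (pvilEeAt 𝔓 𝔈 m ε pvilQ z t ω) (pvieSh (pvieZu 𝔓 m z t) (pvjgRefW 𝔓 𝔈 pvilQ m ε).O) We)
    (h : ω ∈ pvc1B 𝔓 (pvguGd 𝔓 𝔈 q qe qf) m ε z t) :
    ∀ᵐ p ∂pvdyNu ε, pvkyFl (𝔓.col t) (pvdyR (pvilCcyc 𝔓 𝔈 m ε z t) (fun _ => pvilYfcyc 𝔓 𝔈 m z t ω) ω p) ∈ cfMap (pvthInv (pvieZu 𝔓 m z t) 1) ⁻¹' (pvjgRefW 𝔓 𝔈 pvilQ m ε).G →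
      min qe 1 ≤ pvdyQ ε (pvilEeAt 𝔓 𝔈 m ε pvilQ z t ω).K (pvilEeAt 𝔓 𝔈 m ε pvilQ z t ω).y (pvilEeAt 𝔓 𝔈 m ε pvilQ z t ω).A (pvdyR (pvilCcyc 𝔓 𝔈 m ε z t) (fun _ => pvilYfcyc 𝔓 𝔈 m z t ω) ω p) :=
  pvcz1_frc_big we (pvcz1_rG _ _ rG) (pvc1r_Qe_own h)

theorem pvc1r_min0 {a : ℝ≥0∞} (h : a ≠ 0) : min a 1 ≠ 0 := by
  intro h0
  rcases min_eq_iff.1 h0 with h1 | h1
  · exact h h1.1
  · exact one_ne_zero h1.1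

end frc

/-! ## 4. at the parameters of record -/

section record

variable {c : ℝ} {N : PvxNums} {hN : N.Ok} {𝔈 : PvieEng (pvxTau N)} {𝔊 : PvnaGd (pvxTau N)}

/-- **[PIN] + [WIN] + [FRC] AT THE PARAMETERS OF RECORD**: constants `qo qe ∈ (0,1]` (`qo` of the level, `qe` free of the level) such that at EVERY base, every mesh at which the kit is well formed and the reference plug is read in its region,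
the two window ends and the two forcing lines of `pvcz1_cyc` hold -/
theorem pvc1r_base (c0 : 0 < c) (hE : PvnaWf (pvxParOf N hN c) 𝔈) (hR : PvnaRec N hN c 𝔈) (hGR : PvguRec (pvxParOf N hN c) 𝔈 𝔊) :
    ∃ (qo : ℕ → ℝ≥0∞) (qe : ℝ≥0∞), (∀ m, qo m ≠ 0 ∧ qo m ≤ 1) ∧ qe ≠ 0 ∧ qe ≤ 1 ∧ ∀ (m : ℕ), (pvxParOf N hN c).m0 ≤ m → ∀ (ε : ℝ), (𝔈.kit m ε).WF →
      (Conf.Reads ((pvjgRefW (pvxParOf N hN c) 𝔈 pvilQ m ε).O ×ˢ univ) fun η => η ∈ (pvjgRefW (pvxParOf N hN c) 𝔈 pvilQ m ε).G) → ∀ (z : ℂ) (t : pvxTau N) (ω : Conf PvPt), ω ∈ pvc1B (pvxParOf N hN c) 𝔊 m ε z t →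
      PvueWin ω (pvilCcyc (pvxParOf N hN c) 𝔈 m ε z t) (fun _ => pvilYfcyc (pvxParOf N hN c) 𝔈 m z t ω) (pvilEoAt (pvxParOf N hN c) 𝔈 m ε pvilQ z t ω)
        (pvkyDoor (𝔈.kit m ε) (pvieZo (pvxParOf N hN c) m z t) (((pvxParOf N hN c).Γ m).dout t)) (pvilWno (pvxParOf N hN c) 𝔈 m ε z t (pvilZo (pvxParOf N hN c) m z t ω)) ∧
      PvueWin ω (pvilCcyc (pvxParOf N hN c) 𝔈 m ε z t) (fun _ => pvilYfcyc (pvxParOf N hN c) 𝔈 m z t ω) (pvilEeAt (pvxParOf N hN c) 𝔈 m ε pvilQ z t ω)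
        (pvieSh (pvieZu (pvxParOf N hN c) m z t) (pvjgRefW (pvxParOf N hN c) 𝔈 pvilQ m ε).O) (pvilWne (pvxParOf N hN c) 𝔈 m z t (pvilZi (pvxParOf N hN c) m z t ω)) ∧
      (∀ᵐ p ∂pvdyNu ε, pvkyFl ((pvxParOf N hN c).col t) (pvdyR (pvilCcyc (pvxParOf N hN c) 𝔈 m ε z t) (fun _ => pvilYfcyc (pvxParOf N hN c) 𝔈 m z t ω) ω p) ∈ (𝔈.kit m ε).G (pvieZo (pvxParOf N hN c) m z t) (((pvxParOf N hN c).Γ m).dout t) →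
        qo m ≤ pvdyQ ε (pvilEoAt (pvxParOf N hN c) 𝔈 m ε pvilQ z t ω).K (pvilEoAt (pvxParOf N hN c) 𝔈 m ε pvilQ z t ω).y (pvilEoAt (pvxParOf N hN c) 𝔈 m ε pvilQ z t ω).A
          (pvdyR (pvilCcyc (pvxParOf N hN c) 𝔈 m ε z t) (fun _ => pvilYfcyc (pvxParOf N hN c) 𝔈 m z t ω) ω p)) ∧
      (∀ᵐ p ∂pvdyNu ε, pvkyFl ((pvxParOf N hN c).col t) (pvdyR (pvilCcyc (pvxParOf N hN c) 𝔈 m ε z t) (fun _ => pvilYfcyc (pvxParOf N hN c) 𝔈 m z t ω) ω p) ∈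
          cfMap (pvthInv (pvieZu (pvxParOf N hN c) m z t) 1) ⁻¹' (pvjgRefW (pvxParOf N hN c) 𝔈 pvilQ m ε).G →
        qe ≤ pvdyQ ε (pvilEeAt (pvxParOf N hN c) 𝔈 m ε pvilQ z t ω).K (pvilEeAt (pvxParOf N hN c) 𝔈 m ε pvilQ z t ω).y (pvilEeAt (pvxParOf N hN c) 𝔈 m ε pvilQ z t ω).A
          (pvdyR (pvilCcyc (pvxParOf N hN c) 𝔈 m ε z t) (fun _ => pvilYfcyc (pvxParOf N hN c) 𝔈 m z t ω) ω p)) := by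
  obtain ⟨Cth, r, κs, hW⟩ := hE.wf
  obtain ⟨nb, rfl⟩ := hR
  obtain ⟨q, qe, qf, hq, hqe, -, rfl⟩ := hGR
  refine ⟨fun m => min (q m) 1, min qe 1, fun m => ⟨pvc1r_min0 (hq m), min_le_right _ _⟩, pvc1r_min0 hqe, min_le_right _ _, fun m hm ε hk rG z t ω h => ?_⟩
  have wo := pvc1r_win_o hW hm hk (pvc1r_ty hN t) (pvlm_Del_pos c m).le (pvc1r_fine hN c0 hm) (pvc1r_rho hN) (pvc1r_mh hN nb m t) h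
  have we := pvc1r_win_e hW hm hk (pvc1r_ty hN t) (pvlm_Del_pos c m).le (pvc1r_fine hN c0 hm) (pvc1r_rho hN) (pvc1r_mh hN nb m t) h
  exact ⟨wo, we, pvc1r_Qo hk wo h, pvc1r_Qe rG we h⟩

end record

/-! ## 5. (REC) -/

section rec

variable {τ : Type} {c : ℝ}

/-- **THE ONLY LINE OF (REC) WHICH IS STILL OWED**: at the level `m` the link `door plug → reference plug` is forced at almost every pair of usable states, with a constant free of the mesh      (= the conclusion of `pvr2_frc` of 233 at `w := pvilQ`) -/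
def Pvc1rFrcr (𝔓 : PvxPar τ c) (𝔈 : PvieEng τ) (m : ℕ) : Prop :=
  ∃ q : ℝ≥0∞, q ≠ 0 ∧ ∀ᶠ ε in 𝓝[>] (0 : ℝ), ∀ᵐ η ∂pvP ε, η ∈ (𝔈.kit m ε).G (𝔓.Γ m).pin0 (𝔓.Γ m).din0 → η ∈ 𝔈.rG m ε →
    q ≤ pvtiP (pvP ε) (pvieOr 𝔓 𝔈 m ε) (pvilAr 𝔓 𝔈 m ε pvilQ) η

theorem pvc1r_eqns_cite : True := by
  have := @Pvc1rFrcr.eq_1
  trivial

theorem pvc1r_forced_min {kit : PvthKit} {μ : Measure (Conf PvPt)} {β' q : ℝ≥0∞} (h : kit.Forced μ β' q) : kit.Forced μ β' (min q 1) :=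
  ⟨h.β0, pvc1r_min0 h.q0, h.adm, fun τ σ h1 h2 => (min_le_left _ _).trans (h.frc τ σ h1 h2)⟩

theorem pvc1r_Fo_anti (𝔓 : PvxPar τ c) (𝔈 : PvieEng τ) {q q' : ℝ≥0∞} (h : q' ≤ q) (m : ℕ) (ε : ℝ) (z : ℂ) (t : τ) : pvrgFo 𝔓 𝔈 q m ε z t ⊆ pvrgFo 𝔓 𝔈 q' m ε z t := by
  intro η hη
  rw [pvrgFo, mem_ofPred_eq] at hη ⊢
  exact pvrg_frc_anti ε _ _ _ _ h hη

theorem pvc1r_Fe_anti (𝔓 : PvxPar τ c) (𝔈 : PvieEng τ) {q q' : ℝ≥0∞} (h : q' ≤ q) (m : ℕ) (ε : ℝ) (z : ℂ) (t : τ) : pvrgFe 𝔓 𝔈 q m ε z t ⊆ pvrgFe 𝔓 𝔈 q' m ε z t := by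
  intro η hη
  rw [pvrgFe, mem_ofPred_eq] at hη ⊢
  exact pvrg_frc_anti ε _ _ _ _ h hη

/-- what one mesh owes (`PvjgMesh` of 102) -/
theorem pvc1r_mesh {𝔓 : PvxPar τ c} {𝔈 : PvieEng τ} {m0 : ℕ} {Cth : ℝ} {r κs : ℕ → ℝ} (hW : PvieEng.Wf 𝔓 𝔈 m0 Cth r κs) (hδ : ∀ m, (𝔓.Γ m).δ = pvlmDel c m)
    {m : ℕ} (hm : m0 ≤ m) {t : τ} (hT : pviwTyOk 𝔓 t) (hBd : PvcyiBd 𝔈 m t) (z : ℂ) {ε : ℝ} {β' q B b0 qr : ℝ≥0∞} {r' : ℝ} (a1 : PvcnOkQ (𝔈.kit m ε) ε (𝔈.XQ m ε) β' q B r')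
    (mG : MeasurableSet (𝔈.rG m ε)) (rG : Conf.Reads (𝔈.rO m ×ˢ univ) fun η => η ∈ 𝔈.rG m ε) (b00 : b0 ≠ 0) (a3 : b0 ≤ pvP ε (𝔈.rG m ε)) (hqr : qr ≠ 0)
    (a2 : ∀ᵐ η ∂pvP ε, η ∈ (𝔈.kit m ε).G (𝔓.Γ m).pin0 (𝔓.Γ m).din0 → η ∈ 𝔈.rG m ε → qr ≤ pvtiP (pvP ε) (pvieOr 𝔓 𝔈 m ε) (pvilAr 𝔓 𝔈 m ε pvilQ) η) :
    PvjgMesh 𝔓 𝔈 m ε z t β' b0 (min q 1) (min qr 1) := by
  have admr : pvP ε (𝔈.rG m ε) ≠ 0 := fun h0 => b00 (le_antisymm (h0 ▸ a3) zero_le)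
  have frcr : ∀ᵐ η ∂pvP ε, η ∈ (𝔈.kit m ε).G (𝔓.Γ m).pin0 (𝔓.Γ m).din0 → η ∈ 𝔈.rG m ε → min qr 1 ≤ pvtiP (pvP ε) (pvieOr 𝔓 𝔈 m ε) (pvilAr 𝔓 𝔈 m ε pvilQ) η := by
    filter_upwards [a2] with η h g1 g2
    exact (min_le_left _ _).trans (h g1 g2)
  exact
    { geo := pvjh_disj hW hm ε _ hT
      adm := a3
      ana :=
        { wf := a1.wf, fld := a1.fQ, frc := pvc1r_forced_min a1.frc
          sq := fun σ => ne_top_of_le_ne_top (ENNReal.mul_ne_top (pvcn_D_ne_top a1.frc) a1.B_fin) (pvcn_bound a1.wf a1.ref a1.fQ a1.frc a1.besQ σ).1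
          q1 := min_le_right _ _
          del := (hW.kit_del m ε).trans (hδ m).symm
          mO := hW.m_rO m, mK := hW.m_rK m, mG := mG, rG := rG, admr := admr
          qr0 := pvc1r_min0 hqr, qr1 := min_le_right _ _, frcr := frcr
          sqr := pvcyi_sqr_L hW hm hT hBd a1.wf (pvth_G0_ne a1.frc) admr (pvc1r_min0 hqr) frcr } }

/-- what a base owes (`PvjgBase` of 102), at almost every base -/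
theorem pvc1r_baseL {𝔓 : PvxPar τ c} {𝔈 : PvieEng τ} {𝔊 : PvnaGd τ} {m0 : ℕ} {Cth : ℝ} {r κs : ℕ → ℝ} (hW : PvieEng.Wf 𝔓 𝔈 m0 Cth r κs)
    {m : ℕ} (hm : m0 ≤ m) {t : τ} (hT : pviwTyOk 𝔓 t) (hBd : PvcyiBd 𝔈 m t) (hM : PvjhMh 𝔓 𝔈 m t) (fine : 32 * pvlmDel c m ≤ 𝔓.num.rho * pvlmH m) (hρ : 0 < 𝔓.num.rho)
    {qo qe : ℝ≥0∞} (z : ℂ) {ε : ℝ} (hk : (𝔈.kit m ε).WF)
    (hFo : ∀ ω ∈ pvc1B 𝔓 𝔊 m ε z t, ω ∈ pvrgFo 𝔓 𝔈 qo m ε z t) (hFe : ∀ ω ∈ pvc1B 𝔓 𝔊 m ε z t, ω ∈ pvrgFe 𝔓 𝔈 qe m ε z t) :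
    ∀ᵐ ω ∂pvP ε, ω ∈ pvc1B 𝔓 𝔊 m ε z t → PvjgBase 𝔓 𝔈 m ε z t qo qe ω := by
  have h1 := pvcyi_so hW hm hT hBd hk z
  have h2 := pvcyi_se (ε := ε) hW hm hT z
  refine (h1.and h2).mono fun ω b hω => ?_
  exact ⟨⟨_, pvc1r_win_o hW hm hk hT (pvlm_Del_pos c m).le fine hρ hM hω⟩, ⟨_, pvc1r_win_e hW hm hk hT (pvlm_Del_pos c m).le fine hρ hM hω⟩, hFo ω hω, hFe ω hω, b.1, b.2⟩

/-- **(REC), ANY PARAMETERS, ANY ENGINE, ANY GOOD PART** -/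
theorem pvc1r_rec_gen {𝔓 : PvxPar τ c} {𝔈 : PvieEng τ} {𝔊 : PvnaGd τ} (hE : PvnaWf 𝔓 𝔈) (hδ : ∀ m, (𝔓.Γ m).δ = pvlmDel c m) {b0 : ℝ≥0∞} (hRef : PveuRef 𝔓 𝔈 b0)
    {m : ℕ} (hm : 𝔓.m0 ≤ m) {t : τ} (hT : pviwTyOk 𝔓 t) (hBd : PvcyiBd 𝔈 m t) (hM : PvjhMh 𝔓 𝔈 m t) (fine : 32 * pvlmDel c m ≤ 𝔓.num.rho * pvlmH m) (hρ : 0 < 𝔓.num.rho)
    (h4 : (𝔓.Γ m).dout t ^ 4 = 1) {qo qe : ℝ≥0∞} (qo0 : qo ≠ 0) (qo1 : qo ≤ 1) (qe0 : qe ≠ 0) (qe1 : qe ≤ 1) (z : ℂ)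
    (hFo : ∀ ε, ∀ ω ∈ pvc1B 𝔓 𝔊 m ε z t, ω ∈ pvrgFo 𝔓 𝔈 qo m ε z t) (hFe : ∀ ε, ∀ ω ∈ pvc1B 𝔓 𝔊 m ε z t, ω ∈ pvrgFe 𝔓 𝔈 qe m ε z t)
    (hF : Pvc1rFrcr 𝔓 𝔈 m) : Pvc1Rec 𝔓 𝔈 𝔊 m z t := by
  obtain ⟨Cth, r, κs, hW⟩ := hE.wf
  obtain ⟨β', q, B, r', hk⟩ := pvc1_kit hE
  obtain ⟨qr, hqr, hfr⟩ := hF
  have hM' : ∀ᶠ ε in 𝓝[>] (0 : ℝ), PvjgMesh 𝔓 𝔈 m ε z t β' b0 (min q 1) (min qr 1) := by
    filter_upwards [hk m, hfr, hRef.adm m hm] with ε a1 a2 a3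
    exact pvc1r_mesh hW hδ hm hT hBd z a1 (hRef.rG_meas m ε) (hRef.rG_reads m ε) hRef.b00 a3 hqr a2
  have hB' : ∀ᶠ ε in 𝓝[>] (0 : ℝ), ∀ᵐ ω ∂pvP ε, ω ∈ pvc1B 𝔓 𝔊 m ε z t → PvjgBase 𝔓 𝔈 m ε z t qo qe ω := by
    filter_upwards [hk m] with ε a1
    exact pvc1r_baseL hW hm hT hBd hM fine hρ z a1.wf (hFo ε) (hFe ε)
  exact pvjg_rec_of (B := fun ε => pvc1B 𝔓 𝔊 m ε z t) h4 hRef.b00 qo0 qo1 qe0 qe1 hM' hB'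

/-- the forced ends on the bases of the good part of record, constants capped at `1` -/
theorem pvc1r_gd {𝔓 : PvxPar τ c} {𝔈 : PvieEng τ} {𝔊 : PvnaGd τ} (hGR : PvguRec 𝔓 𝔈 𝔊) :
    ∃ (qo : ℕ → ℝ≥0∞) (qe : ℝ≥0∞), (∀ m, qo m ≠ 0 ∧ qo m ≤ 1) ∧ qe ≠ 0 ∧ qe ≤ 1 ∧ ∀ (m : ℕ) (ε : ℝ) (z : ℂ) (t : τ), ∀ ω ∈ pvc1B 𝔓 𝔊 m ε z t,
      ω ∈ pvrgFo 𝔓 𝔈 (qo m) m ε z t ∧ ω ∈ pvrgFe 𝔓 𝔈 qe m ε z t := by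
  obtain ⟨qo, qe, qf, hqo, hqe, -, rfl⟩ := hGR
  refine ⟨fun m => min (qo m) 1, min qe 1, fun m => ⟨pvc1r_min0 (hqo m), min_le_right _ _⟩, pvc1r_min0 hqe, min_le_right _ _, ?_⟩
  rintro m ε z t _ ⟨ω', h', rfl⟩
  exact ⟨pvc1r_Fo_anti _ _ (min_le_left _ _) m ε _ t (pvgu_all_Fo h'.2), pvc1r_Fe_anti _ _ (min_le_left _ _) m ε _ t (pvgu_all_Fe h'.2)⟩

variable {N : PvxNums} {hN : N.Ok} {𝔈 : PvieEng (pvxTau N)} {𝔊 : PvnaGd (pvxTau N)}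

/-- what (REC) reads in the engine of record -/
theorem pvc1r_eng (hR : PvnaRec N hN c 𝔈) : ∃ b0 : ℝ≥0∞, PveuRef (pvxParOf N hN c) 𝔈 b0 ∧ PvbdEng 𝔈 ∧ ∀ m t, PvjhMh (pvxParOf N hN c) 𝔈 m t := by
  obtain ⟨nb, rfl⟩ := hR
  exact ⟨_, pvur_rec_ref hN c nb, pvbd_rec N hN c nb, pvc1r_mh hN nb⟩

/-- **(5.1) REC** = `exit_pvc1_rec` VERBATIM, over the forced `r`-link -/
theorem pvc1r_rec (c0 : 0 < c) (hE : PvnaWf (pvxParOf N hN c) 𝔈) (hR : PvnaRec N hN c 𝔈) (hGR : PvguRec (pvxParOf N hN c) 𝔈 𝔊)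
    (m : ℕ) (hm : (pvxParOf N hN c).m0 ≤ m) (hF : Pvc1rFrcr (pvxParOf N hN c) 𝔈 m) (p : ℤ × ℤ) (t : pvxTau N) : Pvc1Rec (pvxParOf N hN c) 𝔈 𝔊 m (l9Pt (pvlmH m) p) t := by
  obtain ⟨b0, hRef, hB, hM⟩ := pvc1r_eng hR
  obtain ⟨qo, qe, hqo, qe0, qe1, hFr⟩ := pvc1r_gd hGR
  exact pvc1r_rec_gen hE (pvxo_wf N hN c).del hRef hm (pvc1r_ty hN t) ⟨hB.oK m t, hB.rK m⟩ (hM m t) (pvc1r_fine hN c0 hm) (pvc1r_rho hN)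
    (pveg_dout4 ((pvea_par hN c0).lev hm) t) (hqo m).1 (hqo m).2 qe0 qe1 _ (fun ε ω h => (hFr m ε _ t ω h).1) (fun ε ω h => (hFr m ε _ t ω h).2) hF

end rec

/-! ## 6. the exit -/

section exit

variable {c : ℝ}

/-- **(5.1.r) THE LINK `door plug → reference plug` IS FORCED AT THE ENGINE OF RECORD**, constant free of the mesh      [233 = pen (`Exit/FrcR.lean`: `pvr2_frc : Pvr2Ok 𝔓 𝔈 m w X → ` THIS LINE, PROVED);  the instance `X : Pvr2Dat` at `pvnaEngRec` + `Pvr2Ok`: 262 (GEO) 257 (DET) 31 84 77 (ENDS) 289 (MEAS)] -/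
theorem exit_pvc1r_frcr (c0 : 0 < c) (N : PvxNums) (hN : N.Ok) (𝔈 : PvieEng (pvxTau N)) (hE : PvnaWf (pvxParOf N hN c) 𝔈) (hR : PvnaRec N hN c 𝔈)
    (m : ℕ) (hm : (pvxParOf N hN c).m0 ≤ m) : Pvc1rFrcr (pvxParOf N hN c) 𝔈 m := by
  obtain ⟨nb, rfl⟩ := hR
  exact pvr6_rec hN c0 nb m

/-- **(5) CYC1** = the statement of `exit_pvie_cyc1` (`Exit/Ana`), VERBATIM -/
theorem pvc1r_main (c0 : 0 < c) (N : PvxNums) (hN : N.Ok) (𝔈 : PvieEng (pvxTau N)) (hE : PvnaWf (pvxParOf N hN c) 𝔈) (hR : PvnaRec N hN c 𝔈)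
    (𝔊 : PvnaGd (pvxTau N)) (hG : 𝔊.Wf (pvxParOf N hN c) 𝔈) (hGR : PvguRec (pvxParOf N hN c) 𝔈 𝔊) :
    PvnaCyc1 (pvxParOf N hN c) (pvnaDatE (pvxParOf N hN c) 𝔈) 𝔊 (pvxParOf N hN c).m0 :=
  pvc1_main c0 N hN 𝔈 hE hR 𝔊 hG hGR fun m hm p t => pvc1r_rec c0 hE hR hGR m hm (exit_pvc1r_frcr c0 N hN 𝔈 hE hR m hm) p t

end exit

end Claimed.Agent.R289
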