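-- KEEP
import Claimed.Agent.R289.Tr.LinkMF
import Claimed.Agent.R289.Tr.LinkME
import Claimed.Agent.R289.Exit.ParEngF
import Claimed.Agent.R289.Tr.LinkRv

/-!
# Row 289 (S0537), THE WALL, ROAD E, E10 = LINK BOUND, file Exit/GoodFM : THE PATTERN OF RECORD OF THE THICK RETURN `f` (exit tip ⟹ reference plug)      (helper296; prefix `pvyr_`, continuation of `Tr/LinkMF`;   MIRROR OF `Tr/LinkME` OF 21)

`Tr/LinkMF` (model free: `pvyr_fit`, `PvyrGeo`) × `Tr/LinkME` (21: arms of record `PvmvRec.num₁ num₂`, shifts) × `Exit/ParEngF` (182: word `pvefW`, first door `pvefZ`, frame `pvefD`, regions `pveffK`, mouth `pvegOM`).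

* sec. 1  THE NUMBERS OF RECORD `PvyrRec r Δ ρ b μ Sc lam` (the first block is only ROUNDED to the grid of blocks: `Sc ∈ 3r/8 ± (r/32 + r/500)`, `|lam| ≤ r/32 + r/500`), `pvyr_num_rec`, pattern `pvyrPatRec … tb c₀ …` (`tb` = abscissa of the bar in front of the plug beyond the last door, `c₀` = depth of the cap: FREE, so that (U4) is a change of two numerals), `pvyr_rec_fit`, `pvyr_rec_win`, `pvyr_pat_meas`;
* sec. 2  AT THE MODEL: `pvyrSc`, `pvyrLam`, **`pvyrPatF 𝔓 m zc t up cl`**, `PvyrWd 𝔓 m t` (the three facts on the word: simple, back, weak front), `pvyr_rec_f`, `pvyr_geo_f`,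
  **`pvyr_fit_f`**, **`pvyr_win_f`**, **`pvyr_meas_f`**, `pvyr_patF_len`;   ANY NUMERALS `(tb, c₀)` OF THE BAR: `pvyrPatG`, `pvyr_fit_g`, `pvyr_win_g` (window off the open square of half side `(1/2 - c₀) Δ` of the plug), `pvyr_meas_g`;
* sec. 3  at the parameters of record: **`pvyr_rt_rec`** = the four fields of `PvifRtOk` (196), `Mq = pvyrMq N`, `Kq = 6`, `Lq = 2`.
-/

set_option autoImplicit false
set_option linter.unusedSectionVars false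
set_option linter.unusedVariables false
set_option linter.unusedSimpArgs false

namespace Claimed.Agent.R289

open Set Metric Complex

/-! ## 1. THE NUMBERS OF RECORD -/

/-- **the data of the mouth of a thick return**: as `PvmvRec` of 21, but the centre `(Sc, lam)` of the FIRST block is only known up to half a block -/
structure PvyrRec (r Δ ρ b μ Sc lam : ℝ) : Prop where
  r0 : 0 < r
  Δlo : r ≤ 16 * Δ
  Δhi : 14 * Δ ≤ r
  ρ0 : 0 ≤ ρ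
  ρ1 : 1000 * ρ ≤ r
  bμ0 : 0 ≤ b + μ
  bμ : b + μ ≤ r / 8
  s_lo : 11 * r / 32 - r / 500 ≤ Sc
  s_hi : Sc ≤ 13 * r / 32 + r / 500
  lat : |lam| ≤ r / 32 + r / 500

section record

variable {Y u : ℂ} {up : Bool} {z d : ℂ} {l : List PvtTurn} {r Δ ρ b μ Sc lam tb c₀ : ℝ}

theorem PvyrRec.flip (R : PvyrRec r Δ ρ b μ Sc lam) : PvyrRec r Δ ρ b μ Sc (-lam) :=
  { R with lat := by rw [abs_neg]; exact R.lat }

theorem PvyrRec.Δ0 (R : PvyrRec r Δ ρ b μ Sc lam) : 0 < Δ := by have := R.r0; have := R.Δlo; linarith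

/-- the record of 21 with the nominal centre: gives the arms of 298 -/
theorem PvyrRec.toE (R : PvyrRec r Δ ρ b μ Sc lam) : PvmvRec r Δ ρ b μ (3 * r / 8) 0 :=
  ⟨R.r0, R.Δlo, R.Δhi, R.ρ0, R.ρ1, R.bμ0, R.bμ, by have := R.r0; linarith, by have := R.r0; linarith, by rw [abs_zero]; have := R.r0; linarith⟩

/-- **the corridor part**: the numerals of the lanes of `e` (21/165);   bar in front of the plug of abscissa `tb` beyond the last door, cap `c₀` -/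
theorem pvyr_num_rec (hΔ : 0 < Δ) (h1 : 1 / 128 + tb ≤ c₀) (h2 : c₀ ≤ 1) (h3 : 1 / 128 ≤ tb) : PvmvNum Δ (Δ / 512) (19 / 256) (23 / 256) (21 / 256) (1 / 128) tb (1 / 128) (1 / 100) c₀ (1 / 2) (51 / 100) := by
  refine ⟨by linarith, ?_, ?_, ?_, ?_, ?_, ?_, by linarith, ?_, by linarith, ?_, ?_, h1, h2, h3, ?_, ?_, ?_⟩ <;> norm_num

theorem PvyrRec.arm₁ (R : PvyrRec r Δ ρ b μ Sc lam) : PvmvArm Δ (Δ / 512) (21 / 256) (1 / 2) (51 / 100) (27 * r / 200) (r / 200) (23 * r / 200) (23 * r / 200) (3 * r / 20) (Δ / 100) (Sc - Δ / 2) lam := by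
  have h1 := R.r0; have h2 := R.Δ0; have h3 := R.Δhi; have h8 := R.s_lo; have h9 := abs_le.1 R.lat
  exact ⟨by linarith, by linarith, by linarith, by linarith, by linarith, by linarith, by linarith, by linarith [h9.2], by linarith [h9.2]⟩

theorem PvyrRec.arm₂ (R : PvyrRec r Δ ρ b μ Sc lam) : PvmvArm Δ (Δ / 512) (21 / 256) (1 / 2) (51 / 100) (4 * r / 25) (r / 200) (23 * r / 200) (23 * r / 200) (3 * r / 20) (Δ / 100) (Sc - Δ / 2) lam := by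
  have h1 := R.r0; have h2 := R.Δ0; have h3 := R.Δhi; have h8 := R.s_lo; have h9 := abs_le.1 R.lat
  exact ⟨by linarith, by linarith, by linarith, by linarith, by linarith, by linarith, by linarith, by linarith [h9.2], by linarith [h9.2]⟩

end record

/-- **THE PATTERN OF RECORD OF A THICK RETURN**: colour `c` on the side `up` of the mouth;   `tb`, `c₀` = bar and cap beyond the last door -/
noncomputable def pvyrPatRec (Y u : ℂ) (up c : Bool) (r Δ Sc lam tb c₀ : ℝ) (z d : ℂ) (l : List PvtTurn) : List (Bool × List (Set ℂ × ℂ × ℂ)) :=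
  pvyrPat Y u up c (27 * r / 200) (4 * r / 25) (r / 200) (23 * r / 200) (23 * r / 200) (3 * r / 20) (Sc - Δ / 2 - Δ * (1 / 2)) (Δ / 100) (lam + Δ * (21 / 256)) (-lam + Δ * (21 / 256))
    (19 / 256) (23 / 256) (21 / 256) tb (1 / 128) (1 / 100) c₀ (51 / 100) z d l

theorem pvyr_eqns_cite4 : True := by
  have := @pvyrPatRec.eq_1
  trivial

section recfit

variable {Y u : ℂ} {up : Bool} {z d : ℂ} {l : List PvtTurn} {r Δ ρ b μ Sc lam tb c₀ : ℝ}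

/-- **THE PATTERN OF RECORD FITS**: mesh `Δ/512`, `M = 512 (L + 3) + 6144` for a word of at most `L` letters, `6` legs -/
theorem pvyr_rec_fit (G : PvyrGeo Y u up z d l Δ (Sc - Δ / 2) lam c₀ (3 * r / 16)) (R : PvyrRec r Δ ρ b μ Sc lam) (h1 : 1 / 128 + tb ≤ c₀) (h2 : c₀ ≤ 1) (h3 : 1 / 128 ≤ tb) {L : ℕ} (hl : l.length ≤ L) (c : Bool) :
    PvkqFit (Δ / 512) (512 * (L + 3) + 6144) 6 (pvyrPatRec Y u up c r Δ Sc lam tb c₀ z d l) := by
  have g1 := R.r0; have g2 := R.Δ0; have g3 := R.Δhi; have g4 := R.Δlo; have g8 := R.s_hi; have g9 := R.lat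
  have hl' : (l.length : ℝ) ≤ L := by exact_mod_cast hl
  have hL0 : (0 : ℝ) ≤ L := Nat.cast_nonneg L
  refine pvyr_fit G R.toE.num₁ R.toE.num₂ (pvyr_num_rec g2 h1 h2 h3) R.arm₁ R.flip.arm₂ (by linarith) c (by linarith) (by linarith) (W' := r / 2) (by linarith) (by linarith) ?_ ?_ ?_
  · push_cast; nlinarith
  · push_cast; nlinarith
  · push_cast; nlinarith

/-- **THE WINDOW OF THE PATTERN OF RECORD**: small mouth `∪` a rectangle of the funnel `∪` lanes of offsets `[-23/256, 23/256]` of the blocks `∪` the same lane of depth `c₀` beyond the last door -/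
theorem pvyr_rec_win (G : PvyrGeo Y u up z d l Δ (Sc - Δ / 2) lam c₀ (3 * r / 16)) (R : PvyrRec r Δ ρ b μ Sc lam) (h1 : 1 / 128 + tb ≤ c₀) (h3 : 1 / 128 ≤ tb) (c : Bool) :
    pvkqPatR (pvyrPatRec Y u up c r Δ Sc lam tb c₀ z d l) ⊆ closedBall Y (r / 4) ∪ pvge2R Y u up (29 * r / 200) (Sc - Δ / 2) (-(33 * r / 200)) (33 * r / 200) ∪
      (pvfeLanes (-(23 / 256)) (23 / 256) z d l ∪ pvccPl (pvccZ z d l l.length) (pvccD d l l.length) (pvljRect 0 c₀ (-(23 / 256)) (23 / 256))) := by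
  have g1 := R.r0; have g2 := R.Δ0; have g3 := R.Δhi; have g4 := R.Δlo; have g8 := R.s_lo; have g9 := abs_le.1 R.lat
  have hball : ∀ (sd : Bool) (a : ℝ), Pvge2Num a (r / 200) (23 * r / 200) (23 * r / 200) (3 * r / 20) (Δ / 512) ρ (r / 10) b μ (r / 4) →
      pvge2RC Y u sd a (r / 200) (23 * r / 200) (23 * r / 200) ∪ pvge2RN Y u sd a (r / 200) (23 * r / 200) (3 * r / 20) ⊆ closedBall Y (r / 4) := fun sd a N v hv => by
    rw [mem_closedBall_iff_norm]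
    exact pvge2_arm_near G.hu N ⟨v, Or.inl hv, by rw [sub_self, norm_zero]; exact N.ρ0⟩
  have lo : ∀ (sd : Bool) (g : ℝ), 0 ≤ g → -(23 / 256) ≤ pvmvLo sd g (23 / 256) := fun sd g hg => by cases sd <;> simp only [pvmvLo, if_true, Bool.false_eq_true, if_false] <;> linarith
  have hi : ∀ (sd : Bool) (g : ℝ), 0 ≤ g → pvmvHi sd g (23 / 256) ≤ 23 / 256 := fun sd g hg => by cases sd <;> simp only [pvmvHi, if_true, Bool.false_eq_true, if_false] <;> linarith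
  -- the corridor pieces of one colour
  have hcor : ∀ (sd : Bool) (lm : ℝ), PvyrGeo Y u sd z d l Δ (Sc - Δ / 2) lm c₀ (3 * r / 16) → |lm| ≤ r / 32 + r / 500 → ∀ v, v ∈ pvmvLeg sd (19 / 256) (23 / 256) (51 / 100) c₀ z d l ∪ pvyrBar sd (23 / 256) tb (1 / 128) (1 / 100) z d l →
      (29 * r / 200 ≤ pvge2S Y u v ∧ pvge2S Y u v ≤ Sc - Δ / 2 ∧ -(33 * r / 200) ≤ pvge2T Y u sd v ∧ pvge2T Y u sd v ≤ 33 * r / 200) ∨
        v ∈ pvfeLanes (-(23 / 256)) (23 / 256) z d l ∪ pvccPl (pvccZ z d l l.length) (pvccD d l l.length) (pvljRect 0 c₀ (-(23 / 256)) (23 / 256)) := by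
    intro sd lm G' hlm v hv
    have hl9 := abs_le.1 hlm
    rcases hv with ((hv | hv) | hv) | hv
    · obtain ⟨q1, q2, q3, q4⟩ := G'.cap hv
      exact Or.inl ⟨by linarith, by linarith, by linarith [hl9.1], by linarith [hl9.2]⟩
    · exact Or.inr (Or.inl (pvlj_lanes_mono (lo _ _ (by norm_num)) (hi _ _ (by norm_num)) _ _ _ hv))
    · exact Or.inr (Or.inr (pvccPl_mono _ _ (pvlj_rect_mono le_rfl le_rfl (lo _ _ (by norm_num)) (hi _ _ (by norm_num))) hv))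
    · exact Or.inr (Or.inr (pvccPl_mono _ _ (pvlj_rect_mono (by linarith) (by linarith) (lo _ _ (by norm_num)) (hi _ _ (by norm_num))) hv))
  intro v hv
  unfold pvyrPatRec at hv
  rw [pvyr_pat_R] at hv
  rcases hv with (hv | (((hv | hv) | hv) | hv)) | (hv | (((hv | hv) | hv) | hv))
  · exact Or.inl (Or.inl (hball _ _ R.toE.num₁ hv))
  · exact Or.inl (Or.inr (pvge2_R_mono (by linarith) (by linarith) (by linarith) (by linarith) hv))
  · exact Or.inl (Or.inr (pvge2_R_mono (by linarith) (by linarith) (by linarith [g9.1]) (by linarith) hv))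
  · rcases hcor up lam G R.lat v (Or.inl hv) with h | h
    · exact Or.inl (Or.inr h)
    · exact Or.inr h
  · rcases hcor up lam G R.lat v (Or.inr hv) with h | h
    · exact Or.inl (Or.inr h)
    · exact Or.inr h
  · exact Or.inl (Or.inl (hball _ _ R.toE.num₂ hv))
  · unfold pvmvRH at hv
    rw [pvge2_R_flip] at hv
    exact Or.inl (Or.inr (pvge2_R_mono (by linarith) (by linarith) (by linarith) (by linarith) hv))
  · unfold pvmvRV at hv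
    rw [pvge2_R_flip] at hv
    exact Or.inl (Or.inr (pvge2_R_mono (by linarith) (by linarith) (by linarith) (by linarith [g9.2]) hv))
  · rcases hcor (!up) (-lam) G.flip R.flip.lat v (Or.inl hv) with ⟨q1, q2, q3, q4⟩ | h
    · rw [pvge2_T_flip] at q3 q4
      exact Or.inl (Or.inr ⟨q1, q2, by linarith, by linarith⟩)
    · exact Or.inr h
  · rcases hcor (!up) (-lam) G.flip R.flip.lat v (Or.inr hv) with ⟨q1, q2, q3, q4⟩ | h
    · rw [pvge2_T_flip] at q3 q4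
      exact Or.inl (Or.inr ⟨q1, q2, by linarith, by linarith⟩)
    · exact Or.inr h

end recfit

theorem pvyr_bar_meas (pos : Bool) (b₀ tb wb ob : ℝ) (z : ℂ) {d : ℂ} (hd : d ≠ 0) (l : List PvtTurn) : MeasurableSet (pvyrBar pos b₀ tb wb ob z d l) :=
  (pvlj_pl_closed _ (pvlj_D_ne hd l _) (pvmv_rect_closed _ _ _ _)).measurableSet

/-- the window of the pattern of a thick return is Borel -/
theorem pvyr_pat_meas (Y u : ℂ) (up c : Bool) (a₁ a₂ t e₁ s₁ x₂ sb t₂ lb₁ lb₂ a₀ b₀ u₀ tb wb ob c₀ c₁ : ℝ) (z : ℂ) {d : ℂ} (hd : d ≠ 0) (l : List PvtTurn) :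
    MeasurableSet (pvkqPatR (pvyrPat Y u up c a₁ a₂ t e₁ s₁ x₂ sb t₂ lb₁ lb₂ a₀ b₀ u₀ tb wb ob c₀ c₁ z d l)) := by
  rw [pvyr_pat_R]
  have one : ∀ (sd : Bool) (a lb : ℝ), MeasurableSet (pvge2RC Y u sd a t e₁ s₁ ∪ pvge2RN Y u sd a t s₁ x₂ ∪ (pvmvRH Y u sd a t x₂ sb t₂ ∪ pvmvRV Y u sd a t sb t₂ lb ∪ pvmvLeg sd a₀ b₀ c₁ c₀ z d l ∪ pvyrBar sd b₀ tb wb ob z d l)) := by
    intro sd a lb
    exact ((((pvge2_R_meas _ _ _ _ _ _ _).union (pvge2_R_meas _ _ _ _ _ _ _)).union (pvge2_R_meas _ _ _ _ _ _ _)).union (pvge2_R_meas _ _ _ _ _ _ _)).union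
      ((((pvge2_R_meas _ _ _ _ _ _ _).union (pvge2_R_meas _ _ _ _ _ _ _)).union (pvmv_leg_meas _ _ _ _ _ z hd l)).union (pvyr_bar_meas _ _ _ _ _ z hd l))
  exact (one _ _ _).union (one _ _ _)

/-! ## 2. AT THE MODEL: the thick return `f` of the pin `(zc, t)` of level `m` -/

section model

variable {τ : Type} {c : ℝ} (𝔓 : PvxPar τ c)

/-- distance of the centre of the FIRST block in front of the centre of the exit tip cell -/
noncomputable def pvyrSc (m : ℕ) (t : τ) : ℝ := pvge2S (pvegYp 𝔓 m t) (I ^ pvxrA 𝔓 t) (pvefC0 𝔓 m t)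

/-- its lateral coordinate, counted on the side `up` -/
noncomputable def pvyrLam (m : ℕ) (t : τ) (up : Bool) : ℝ := pvge2T (pvegYp 𝔓 m t) (I ^ pvxrA 𝔓 t) up (pvefC0 𝔓 m t)

/-- **THE PATTERN OF THE THICK RETURN `f`** of the pin `(zc, t)` of level `m`, colour `cl` on the side `up` of the exit mouth;   bar in front of the plug at `tb Δ` beyond the west door of the block of `u`, cap `c₀ Δ` -/
noncomputable def pvyrPatG (tb c₀ : ℝ) (m : ℕ) (zc : ℂ) (t : τ) (up cl : Bool) : List (Bool × List (Set ℂ × ℂ × ℂ)) :=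
  pvyrPatRec (zc + pvegYp 𝔓 m t) (I ^ pvxrA 𝔓 t) up cl (pvegR 𝔓 m) (pvehDl 𝔓 m) (pvyrSc 𝔓 m t) (pvyrLam 𝔓 m t up) tb c₀ (zc + pvefZ 𝔓 m t) (pvefD 𝔓 m t) (pvefW 𝔓 m t)

/-- **THE PATTERN OF RECORD OF `f`**: the numerals of `e` (21): bar at `9/40` (`= 11 Δ / 40` from the centre of the plug), cap `1/4` (= the side of the region `rO` of half side `Δ / 4`) -/
noncomputable def pvyrPatF (m : ℕ) (zc : ℂ) (t : τ) (up cl : Bool) : List (Bool × List (Set ℂ × ℂ × ℂ)) := pvyrPatG 𝔓 (9 / 40) (1 / 4) m zc t up cl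

/-- a bound of the number of blocks, free of the level -/
noncomputable def pvyrL (t : τ) : ℕ := ⌈(2 * (16 * (2 * (𝔓.ty t).b2 + 𝔓.num.K * 𝔓.num.rho1 + 1) / 𝔓.num.rho + 3) + 1) ^ 2⌉₊

theorem pvyr_eqns_cite5 : True := by
  have := @pvyrSc.eq_1; have := @pvyrLam.eq_1; have := @pvyrPatG.eq_1; have := @pvyrPatF.eq_1; have := @pvyrL.eq_1
  trivial

variable {𝔓} {m : ℕ} {t : τ} {tb c₀ : ℝ}

theorem pvyr_len_f (h : PvefNdg 𝔓 m t) : (pvefW 𝔓 m t).length ≤ pvyrL 𝔓 t := by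
  have h1 := pvef_W_len h
  have h2 := Nat.le_ceil ((2 * (16 * (2 * (𝔓.ty t).b2 + 𝔓.num.K * 𝔓.num.rho1 + 1) / 𝔓.num.rho + 3) + 1) ^ 2)
  have h3 : ((pvefW 𝔓 m t).length : ℝ) ≤ (pvyrL 𝔓 t : ℝ) := by unfold pvyrL; linarith
  exact_mod_cast h3

/-- the first door in the frame of the mouth -/
theorem pvyr_Z_S (𝔓 : PvxPar τ c) (m : ℕ) (t : τ) : pvge2S (pvegYp 𝔓 m t) (I ^ pvxrA 𝔓 t) (pvefZ 𝔓 m t) = pvyrSc 𝔓 m t - pvehDl 𝔓 m / 2 := by
  have h := (pvef_q217_pt (𝔓 := 𝔓) m t 0).1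
  rw [mul_zero, add_zero] at h
  show pvegS _ _ _ = pvegS _ _ _ - _
  rw [h]
  simp only [zero_re]
  ring

theorem pvyr_Z_T (𝔓 : PvxPar τ c) (m : ℕ) (t : τ) (up : Bool) : pvge2T (pvegYp 𝔓 m t) (I ^ pvxrA 𝔓 t) up (pvefZ 𝔓 m t) = pvyrLam 𝔓 m t up := by
  have h := (pvef_q217_pt (𝔓 := 𝔓) m t 0).2
  rw [mul_zero, add_zero] at h
  show pvge2Sg up * pvegL _ _ _ = pvge2Sg up * pvegL _ _ _
  rw [h]
  simp only [zero_im, mul_zero, add_zero]

/-- **THE NUMBERS OF RECORD HOLD AT THE MODEL**, for every mesh `ρ ≤ r/1000` of the sites and every size `b + μ ≤ r/8` of the tip face -/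
theorem pvyr_rec_f (h : PvefNdg 𝔓 m t) (up : Bool) {ρ b μ : ℝ} (hρ0 : 0 ≤ ρ) (hρ1 : 1000 * ρ ≤ pvegR 𝔓 m) (hb0 : 0 ≤ b + μ) (hb : b + μ ≤ pvegR 𝔓 m / 8) :
    PvyrRec (pvegR 𝔓 m) (pvehDl 𝔓 m) ρ b μ (pvyrSc 𝔓 m t) (pvyrLam 𝔓 m t up) := by
  have hf := pvmv_fine h
  have hr := pvmv_R_pos h
  obtain ⟨d1, d2⟩ := pvmv_Dl_bounds h
  obtain ⟨f1, f2, f3⟩ := pvef_C0_frame h
  have e : |pvyrLam 𝔓 m t up| = |pvegL (pvegYp 𝔓 m t) (I ^ pvxrA 𝔓 t) (pvefC0 𝔓 m t)| := by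
    show |pvge2Sg up * pvegL _ _ _| = _
    rw [abs_mul, pvge2_sg_abs, one_mul]
  refine ⟨hr, d1, by linarith, hρ0, hρ1, hb0, hb, ?_, ?_, ?_⟩
  · show _ ≤ pvegS _ _ _
    linarith
  · show pvegS _ _ _ ≤ _
    linarith
  · rw [e]; linarith

/-- **THE GEOMETRY OF RECORD AT THE MODEL** (215 `pvmu_rv_geo`) -/
theorem pvyr_geo_f (h : PvefNdg 𝔓 m t) (zc : ℂ) (up : Bool) (hc : c₀ ≤ 1) :
    PvyrGeo (zc + pvegYp 𝔓 m t) (I ^ pvxrA 𝔓 t) up (zc + pvefZ 𝔓 m t) (pvefD 𝔓 m t) (pvefW 𝔓 m t) (pvehDl 𝔓 m) (pvyrSc 𝔓 m t - pvehDl 𝔓 m / 2) (pvyrLam 𝔓 m t up) c₀ (3 * pvegR 𝔓 m / 16) := by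
  have G := pvmu_rv_geo h zc up (W := 3 * pvegR 𝔓 m / 16) (c₀ := c₀) le_rfl hc
  rwa [pvyr_Z_S, pvyr_Z_T] at G

/-- **(FIT), any numerals of the bar** -/
theorem pvyr_fit_g (h : PvefNdg 𝔓 m t) (h1 : 1 / 128 + tb ≤ c₀) (h2 : c₀ ≤ 1) (h3 : 1 / 128 ≤ tb) {L : ℕ} (hL : pvyrL 𝔓 t ≤ L) (zc : ℂ) (up cl : Bool) :
    PvkqFit (pvehDl 𝔓 m / 512) (512 * (L + 3) + 6144) 6 (pvyrPatG 𝔓 tb c₀ m zc t up cl) :=
  pvyr_rec_fit (pvyr_geo_f h zc up h2) (pvyr_rec_f h up (ρ := 0) (b := 0) (μ := 0) le_rfl (by have := pvmv_R_pos h; linarith) (by norm_num) (by have := pvmv_R_pos h; linarith)) h1 h2 h3 ((pvyr_len_f h).trans hL) cl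

/-- **(FIT) THE PATTERN OF RECORD OF `f` FITS, CONSTANTS FREE OF THE LEVEL AND OF THE PIN** -/
theorem pvyr_fit_f (h : PvefNdg 𝔓 m t) {L : ℕ} (hL : pvyrL 𝔓 t ≤ L) (zc : ℂ) (up cl : Bool) : PvkqFit (pvehDl 𝔓 m / 512) (512 * (L + 3) + 6144) 6 (pvyrPatF 𝔓 m zc t up cl) :=
  pvyr_fit_g h (by norm_num) (by norm_num) (by norm_num) hL zc up cl

/-- **(WIN), any numerals**: the window lies in mouth `∪` body of `f`, off the OPEN SQUARE OF HALF SIDE `(1/2 - c₀) Δ` of the plug -/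
theorem pvyr_win_g (h : PvefNdg 𝔓 m t) (h1 : 1 / 128 + tb ≤ c₀) (h2 : c₀ ≤ 2 / 5) (h3 : 1 / 128 ≤ tb) (zc : ℂ) (up cl : Bool) :
    pvkqPatR (pvyrPatG 𝔓 tb c₀ m zc t up cl) ⊆ pvieSh zc (closedBall (pvegYp 𝔓 m t) (pvegR 𝔓 m / 4) ∪
      pvefBody (pvehDl 𝔓 m) ((pvxrGam 𝔓 m).zu t) (pvefZ 𝔓 m t) (pvefD 𝔓 m t) (pvefW 𝔓 m t) (pvefF 𝔓 m t) \ pvccSq ((pvxrGam 𝔓 m).zu t) ((1 / 2 - c₀) * pvehDl 𝔓 m)) := by
  have hf := pvmv_fine h
  have hr := pvmv_R_pos h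
  have hd := pvlm_Del_pos c m
  obtain ⟨d1, d2⟩ := pvmv_Dl_bounds h
  have hΔ : 0 < pvehDl 𝔓 m := by linarith
  obtain ⟨f1, f2, f3⟩ := pvef_C0_frame h
  have f3' := abs_le.1 f3
  have R := pvyr_rec_f h up (ρ := 0) (b := 0) (μ := 0) le_rfl (by linarith) (by norm_num) (by linarith)
  intro v hv
  rw [pveh_mem_sh]
  rcases pvyr_rec_win (pvyr_geo_f h zc up (by linarith)) R h1 h3 cl hv with (hv | hv) | (hv | hv)
  · left
    rw [mem_closedBall_iff_norm] at hv ⊢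
    rwa [show v - zc - pvegYp 𝔓 m t = v - (zc + pvegYp 𝔓 m t) by ring]
  · obtain ⟨q1, q2, q3, q4⟩ := hv
    rw [pvmv_S_sh] at q1 q2
    rw [pvmv_T_sh] at q3 q4
    have lv : |pvegL (pvegYp 𝔓 m t) (I ^ pvxrA 𝔓 t) (v - zc)| ≤ 33 * pvegR 𝔓 m / 200 := by
      have : |pvge2T (pvegYp 𝔓 m t) (I ^ pvxrA 𝔓 t) up (v - zc)| = |pvegL (pvegYp 𝔓 m t) (I ^ pvxrA 𝔓 t) (v - zc)| := by
        unfold pvge2T pvegL
        rw [abs_mul, pvge2_sg_abs, one_mul]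
      rw [← this, abs_le]
      exact ⟨q3, q4⟩
    have lv' := abs_le.1 lv
    have hF : v - zc ∈ pvefF 𝔓 m t := by
      refine ⟨?_, ?_, ?_⟩
      · show pvegR 𝔓 m / 10 + 2 * pvlmDel c m ≤ pvge2S (pvegYp 𝔓 m t) (I ^ pvxrA 𝔓 t) (v - zc)
        linarith
      · show pvge2S (pvegYp 𝔓 m t) (I ^ pvxrA 𝔓 t) (v - zc) ≤ pvyrSc 𝔓 m t - pvlmDel c m / 4
        linarith
      · rw [abs_le]
        constructor <;> linarith [lv'.1, lv'.2, f3'.1, f3'.2]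
    refine Or.inr ⟨Or.inl (Or.inl hF), fun hq => ?_⟩
    have k1 := pvef_e_far h (Or.inl (pveh_sq_mono _ (by nlinarith) (pveh_open_sub _ _ hq)))
    have k2 := pvef_F_ball h hF
    rw [mem_closedBall_iff_norm] at k2
    linarith
  · have hB : v - zc ∈ pvefBlocks (pvehDl 𝔓 m) (pvefZ 𝔓 m t) (pvefD 𝔓 m t) (pvefW 𝔓 m t) :=
      pvmu_rv_lanes_blocks (pvef_n0 h) t (pvlj_lanes_mono (by norm_num) (by norm_num) _ _ _ (pvmv_lanes_sh hv))
    refine Or.inr ⟨Or.inl (Or.inr hB), fun hq => ?_⟩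
    have hq' : pvccN (v - zc - (pvxrGam 𝔓 m).zu t) < (1 / 2 - c₀) * pvehDl 𝔓 m := hq
    rcases pvef_q296_block_u h hB with k | k
    · have := k ((pvxrGam 𝔓 m).zu t) (by rw [pveh_mem_sq]; refine ⟨⟨?_, ?_⟩, ?_, ?_⟩ <;> linarith)
      nlinarith
    · have h5 : |(v - zc - (pvxrGam 𝔓 m).zu t).re| ≤ pvccN (v - zc - (pvxrGam 𝔓 m).zu t) := le_max_left _ _
      rw [sub_re] at h5
      have h6 := neg_abs_le ((v - zc).re - ((pvxrGam 𝔓 m).zu t).re)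
      nlinarith
  · have e : pvccZ (zc + pvefZ 𝔓 m t) (pvefD 𝔓 m t) (pvefW 𝔓 m t) (pvefW 𝔓 m t).length = zc + pvccZ (pvefZ 𝔓 m t) (pvefD 𝔓 m t) (pvefW 𝔓 m t) (pvefW 𝔓 m t).length := by
      unfold pvccZ
      ring
    rw [e] at hv
    have hv' := pvmv_pl_sh hv
    have hWs := pvef_cap_west h (pvccPl_mono _ _ (pvlj_rect_mono le_rfl h2 (by norm_num) (by norm_num)) hv')
    refine Or.inr ⟨Or.inr hWs, fun hq => ?_⟩
    have hq' : pvccN (v - zc - (pvxrGam 𝔓 m).zu t) < (1 / 2 - c₀) * pvehDl 𝔓 m := hq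
    rw [pvef_last_door h, pvef_last_dir h] at hv'
    obtain ⟨w, ⟨w1, w2, w3, w4⟩, hw⟩ := hv'
    have e1 : (v - zc - (pvxrGam 𝔓 m).zu t).re = -(pvehDl 𝔓 m / 2) + pvehDl 𝔓 m * w.re := by
      rw [← hw]
      show ((pvxrGam 𝔓 m).zu t - (pvehDl 𝔓 m : ℂ) / 2 + (pvehDl 𝔓 m : ℂ) * w - (pvxrGam 𝔓 m).zu t).re = _
      simp [Complex.re_ofReal_mul]
      ring
    have h5 : |(v - zc - (pvxrGam 𝔓 m).zu t).re| ≤ pvccN (v - zc - (pvxrGam 𝔓 m).zu t) := le_max_left _ _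
    rw [e1] at h5
    have h6 := neg_abs_le (-(pvehDl 𝔓 m / 2) + pvehDl 𝔓 m * w.re)
    nlinarith

/-- **(WIN) THE WINDOW OF THE PATTERN OF RECORD OF `f` LIES IN MOUTH ∪ TILE** (regions of record `fM = pvegOM`, `fK = pveffK` of 182) -/
theorem pvyr_win_f (h : PvefNdg 𝔓 m t) (zc : ℂ) (up cl : Bool) : pvkqPatR (pvyrPatF 𝔓 m zc t up cl) ⊆ pvieSh zc (pvegOM 𝔓 m t) ∪ pvieSh zc (pveffK 𝔓 m t) := by
  have hr := pvmv_R_pos h
  intro v hv
  have h1 := pvyr_win_g h (tb := 9 / 40) (c₀ := 1 / 4) (by norm_num) (by norm_num) (by norm_num) zc up cl hv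
  rw [pveh_mem_sh] at h1
  by_cases hM : v - zc ∈ pvegOM 𝔓 m t
  · exact Or.inl (pveh_mem_sh.2 hM)
  rcases h1 with h1 | ⟨h1, h2⟩
  · exact absurd (closedBall_subset_closedBall (by linarith) h1) hM
  · refine Or.inr (pveh_mem_sh.2 ⟨h1, fun hq => hq.elim (fun hq => h2 ?_) hM⟩)
    rwa [show (1 / 2 - 1 / 4 : ℝ) * pvehDl 𝔓 m = pvehDl 𝔓 m / 4 by ring]

theorem pvyr_patG_len (𝔓 : PvxPar τ c) (tb c₀ : ℝ) (m : ℕ) (zc : ℂ) (t : τ) (up cl : Bool) : (pvyrPatG 𝔓 tb c₀ m zc t up cl).length = 2 := rfl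

theorem pvyr_patF_len (𝔓 : PvxPar τ c) (m : ℕ) (zc : ℂ) (t : τ) (up cl : Bool) : (pvyrPatF 𝔓 m zc t up cl).length = 2 := rfl

/-- (MEAS) the window of the pattern of `f` is Borel -/
theorem pvyr_meas_g (h : PvefNdg 𝔓 m t) (tb c₀ : ℝ) (zc : ℂ) (up cl : Bool) : MeasurableSet (pvkqPatR (pvyrPatG 𝔓 tb c₀ m zc t up cl)) :=
  pvyr_pat_meas _ _ _ _ _ _ _ _ _ _ _ _ _ _ _ _ _ _ _ _ _ _ _ (pvef_D_ne (pvef_n0 h) t) _

theorem pvyr_meas_f (h : PvefNdg 𝔓 m t) (zc : ℂ) (up cl : Bool) : MeasurableSet (pvkqPatR (pvyrPatF 𝔓 m zc t up cl)) := pvyr_meas_g h _ _ zc up cl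

end model

/-! ## 3. AT THE PARAMETERS OF RECORD: the four fields of `PvifRtOk` (196 `Exit/FrcF`), numbers free of the level, of the pin and of the type -/

/-- the size of a leg in cells of the pattern grid, at the numbers `N` -/
noncomputable def pvyrMq (N : PvxNums) : ℕ := 512 * (⌈(2 * (16 * (2 * N.b2 + N.K * N.rho1 + 1) / N.rho + 3) + 1) ^ 2⌉₊ + 3) + 6144

theorem pvyr_eqns_cite6 : True := by
  have := @pvyrMq.eq_1
  trivial

/-- **THE ROUTES OF THE THICK RETURN AT THE PARAMETERS OF RECORD**: (fit) (len) (meas) (win), regions `fM = pvegOM`, `fK = pveffK` -/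
theorem pvyr_rt_rec {c : ℝ} (c0 : 0 < c) (N : PvxNums) (hN : N.Ok) {m : ℕ} (hm : (pvxParOf N hN c).m0 ≤ m) (zc : ℂ) (t : pvxTau N) (up cl : Bool) :
    PvkqFit (pvehDl (pvxParOf N hN c) m / 512) (pvyrMq N) 6 (pvyrPatF (pvxParOf N hN c) m zc t up cl) ∧ (pvyrPatF (pvxParOf N hN c) m zc t up cl).length ≤ 2 ∧
      MeasurableSet (pvkqPatR (pvyrPatF (pvxParOf N hN c) m zc t up cl)) ∧
      pvkqPatR (pvyrPatF (pvxParOf N hN c) m zc t up cl) ⊆ pvieSh zc (pvegOM (pvxParOf N hN c) m t) ∪ pvieSh zc (pveffK (pvxParOf N hN c) m t) := by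
  have h := pvxr_ndg_par hN c0 hm t
  exact ⟨pvyr_fit_f h (L := pvyrL (pvxParOf N hN c) t) le_rfl zc up cl, le_of_eq rfl, pvyr_meas_f h zc up cl, pvyr_win_f h zc up cl⟩

end Claimed.Agent.R289
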