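-- KEEP
import Claimed.Agent.R289.Tr.FrcUp
import Claimed.Agent.R289.Tr.FrcEnd
import Claimed.Agent.R289.Exit.GoodFM

/-!
# Row 289 (S0537), THE WALL, ROAD E, E10, file Exit/FrcFU : THE (UP) HALF OF `PvifTest.Ok.det` AT THE THICK RETURN `f`      (helper52; prefix `pvj5_`)      0 sorry

CONSUMER: the leaf `pvif_l_up` of `Exit/FrcF.lean` (196).      TOOLS: `Tr/FrcUp` (232: `pvut_sec`, `pvut_mono_pl`, `pvut_pl_sc`, `pvut_cp_mesh`), `Tr/FrcPat` (248: `pvjp_pat_up`, `pvjp_rm_disj`), `Tr/FrcEnd` (`pvhn_mono`), `Exit/GoodFM` (296: the pattern of record).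
* sec. 1  **`pvj5_up`** : ONE MIXED ORDER, sets only (no record of an end): `ℋ` read in `Es ⊆ Wn`, `PvjoMono ℋ b O Z₁ Z₂`, `O ⊆ D`, pattern `pvkqPat dl F ∩ pvjoMesh μ C`;   `pvj5_sep` (the ONE disjointness from three small ones)
* sec. 2  THE HALF LANES OF `pvhfT r` OFF THE SQUARE `3r` : `pvj5_ln` (black = UPPER strip, white = LOWER strip, both sides `σ`);   placed: `pvj5_ln_pl`
* sec. 3  THE PATTERN OF 296 INSIDE THE OPEN BLOCK OF `u` : **`pvj5_side`** : a route stays on its side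
* sec. 4  **`pvj5_up_f`** : (UP) at the routes of record `pvyrPatG 𝔓 tb c₀ m z t true col`, ANY scale `s` with `5 s / 40 < Δ / 2`, ANY region `D ⊇` the placed square `3r`
-/

set_option autoImplicit false

namespace Claimed.Agent.R289

open Set MeasureTheory Metric Complex Claims.C0465
open scoped ENNReal

/-! ## 1. one mixed order -/

/-- the ONE disjointness of `pvut_up` from three small ones -/
theorem pvj5_sep {dl : ℝ} {M K : ℕ} {F : List (Bool × List (Set ℂ × ℂ × ℂ))} (hfit : PvkqFit dl M K F) {Pb Pw : Set ℂ} (hz : Disjoint Pb Pw)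
    (h1 : Disjoint (pvjpRm true F) Pw) (h2 : Disjoint (pvjpRm false F) Pb) : Disjoint (pvjpRm true F ∪ Pb) (pvjpRm false F ∪ Pw) :=
  Disjoint.union_left (Disjoint.union_right (pvjp_rm_disj hfit) h1) (Disjoint.union_right h2.symm hz)

/-- **ONE MIXED ORDER** for the section of a side event and for a copy pattern with its mesh clause (sets only) -/
theorem pvj5_up {ℋ : Set (Conf PvPt)} {b : Bool} {O Z₁ Z₂ Es Wn D : Set ℂ} (hr : Conf.ReadsSet (Es ×ˢ (univ : Set Bool)) ℋ) (hm : PvjoMono ℋ b O Z₁ Z₂)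
    (hEs : Es ⊆ Wn) (hO : O ⊆ D) {dl : ℝ} {M K : ℕ} {F : List (Bool × List (Set ℂ × ℂ × ℂ))} (hfit : PvkqFit dl M K F) (μ : ℝ) (C : Set ℂ)
    (sep : Disjoint (pvjpRm true F ∪ cond b Z₁ Z₂ \ D) (pvjpRm false F ∪ cond b Z₂ Z₁ \ D))
    {Y Fz : Set ℂ} (σ : ℂ → Bool) (hY : Y.Countable) (hn : ∃ η, PvatNice (cfSites η) ∧ cfSites η ∩ Wn = Y ∩ Wn) (hD : ∀ v ∈ Y, v ∈ D → v ∈ Fz) :
    ∃ s : ℂ → Option Bool, {z | s z ≠ none}.Countable ∧ PvlhUp s (pvlhSec Y Fz σ ℋ) ∧ PvlhUp s (pvlhCp Y (pvkqPat dl F ∩ pvjoMesh μ C)) := by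
  refine ⟨_, pvlh_sg_countable hY _ _, pvut_sec hr hm hEs hO sep ?_ ?_ σ hn hD, ?_⟩
  · cases b
    · exact subset_union_right
    · exact subset_union_right
  · cases b
    · exact subset_union_right
    · exact subset_union_right
  · intro c c' hle hc
    exact ⟨pvjp_pat_up hfit Y sep (inter_subset_right.trans subset_union_left) (inter_subset_right.trans subset_union_left) c c' hle hc.1, pvut_cp_mesh _ μ C Y c c' hle hc.2⟩

/-! ## 2. the half lanes of `pvhfT r` off the square `3r` -/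

/-- **off the window `[-3r, 3r]²` of the plug the half lane of the colour `β` is a strip**: UPPER for black, LOWER for white -/
theorem pvj5_ln {r : ℝ} (hr : 0 < r) (σ β : Bool) {w : ℂ} (hw : w ∈ (pvhfT r).Ln σ β) (hs : w ∉ pvwSq 0 (3 * r)) :
    |w.re| ≤ 5 * r ∧ r / 2 ≤ pvge2Sg β * w.im ∧ pvge2Sg β * w.im ≤ 3 * r / 2 := by
  have hs' : ¬ (|w.re| ≤ 3 * r ∧ |w.im| ≤ 3 * r) := fun h => hs (by
    show |(w - 0).re| ≤ 3 * r ∧ |(w - 0).im| ≤ 3 * r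
    rw [sub_zero]; exact h)
  cases β <;> cases σ <;> simp only [pvhfT, pvkdRect, if_true, Bool.false_eq_true, if_false, pvge2Sg] at hw ⊢ <;> rcases hw with ⟨a1, a2, a3, a4⟩ | ⟨a1, a2, a3, a4⟩
  all_goals first
    | (exfalso; apply hs'; constructor <;> rw [abs_le] <;> constructor <;> linarith)
    | (refine ⟨by rw [abs_le]; constructor <;> linarith, by linarith, by linarith⟩)

/-! ## 3. the pattern of 296 inside the open block of `u` -/

section route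

variable {Y u : ℂ} {z d : ℂ} {l : List PvtTurn} {r Δ ρ b μ Sc lm tb c₀ a : ℝ}

/-- **THE WINDOW OF ONE ROUTE** of the pattern of record of a thick return (side `sd`, arm `a`): as `pvyr_rec_win` of 296, but beyond the last door THE SIDE IS KEPT -/
theorem pvj5_route_win (sd : Bool) (G : PvyrGeo Y u sd z d l Δ (Sc - Δ / 2) lm c₀ (3 * r / 16)) (R : PvyrRec r Δ ρ b μ Sc lm)
    (N : Pvge2Num a (r / 200) (23 * r / 200) (23 * r / 200) (3 * r / 20) (Δ / 512) ρ (r / 10) b μ (r / 4)) (ha1 : 27 * r / 200 ≤ a) (ha2 : a ≤ 4 * r / 25)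
    (h1 : 1 / 128 + tb ≤ c₀) (h3 : 1 / 128 ≤ tb) :
    pvge2RC Y u sd a (r / 200) (23 * r / 200) (23 * r / 200) ∪ pvge2RN Y u sd a (r / 200) (23 * r / 200) (3 * r / 20) ∪
        (pvmvRH Y u sd a (r / 200) (3 * r / 20) (Sc - Δ / 2 - Δ * (1 / 2)) (Δ / 100) ∪ pvmvRV Y u sd a (r / 200) (Sc - Δ / 2 - Δ * (1 / 2)) (Δ / 100) (lm + Δ * (21 / 256)) ∪
          pvmvLeg sd (19 / 256) (23 / 256) (51 / 100) c₀ z d l ∪ pvyrBar sd (23 / 256) tb (1 / 128) (1 / 100) z d l) ⊆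
      closedBall Y (r / 4) ∪ pvge2R Y u sd (29 * r / 200) (Sc - Δ / 2) (-(33 * r / 200)) (33 * r / 200) ∪
        (pvfeLanes (-(23 / 256)) (23 / 256) z d l ∪
          pvccPl (pvccZ z d l l.length) (pvccD d l l.length) (pvljRect 0 c₀ (pvmvLo sd (1 / 100 - 1 / 128) (23 / 256)) (pvmvHi sd (1 / 100 - 1 / 128) (23 / 256)))) := by
  have g1 := R.r0; have g2 := R.Δ0; have g3 := R.Δhi; have g4 := R.Δlo; have g8 := R.s_lo; have g9 := abs_le.1 R.lat
  have lo : ∀ g : ℝ, 0 ≤ g → -(23 / 256) ≤ pvmvLo sd g (23 / 256) := fun g hg => by cases sd <;> simp only [pvmvLo, if_true, Bool.false_eq_true, if_false] <;> linarith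
  have hi : ∀ g : ℝ, 0 ≤ g → pvmvHi sd g (23 / 256) ≤ 23 / 256 := fun g hg => by cases sd <;> simp only [pvmvHi, if_true, Bool.false_eq_true, if_false] <;> linarith
  have lo' : pvmvLo sd (1 / 100 - 1 / 128) (23 / 256) ≤ pvmvLo sd (19 / 256) (23 / 256) := by cases sd <;> simp only [pvmvLo, if_true, Bool.false_eq_true, if_false] <;> norm_num
  have hi' : pvmvHi sd (19 / 256) (23 / 256) ≤ pvmvHi sd (1 / 100 - 1 / 128) (23 / 256) := by cases sd <;> simp only [pvmvHi, if_true, Bool.false_eq_true, if_false] <;> norm_num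
  rintro v (hv | (((hv | hv) | ((hv | hv) | hv)) | hv))
  · refine Or.inl (Or.inl ?_)
    rw [mem_closedBall_iff_norm]
    exact pvge2_arm_near G.hu N ⟨v, Or.inl hv, by rw [sub_self, norm_zero]; exact N.ρ0⟩
  · exact Or.inl (Or.inr (pvge2_R_mono (by linarith) (by linarith) (by linarith) (by linarith) hv))
  · exact Or.inl (Or.inr (pvge2_R_mono (by linarith) (by linarith) (by linarith [g9.1]) (by linarith) hv))
  · obtain ⟨q1, q2, q3, q4⟩ := G.cap hv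
    exact Or.inl (Or.inr ⟨by linarith, by linarith, by linarith [g9.1], by linarith [g9.2]⟩)
  · exact Or.inr (Or.inl (pvlj_lanes_mono (lo _ (by norm_num)) (hi _ (by norm_num)) _ _ _ hv))
  · exact Or.inr (Or.inr (pvccPl_mono _ _ (pvlj_rect_mono le_rfl le_rfl lo' hi') hv))
  · exact Or.inr (Or.inr (pvccPl_mono _ _ (pvlj_rect_mono (by linarith) (by linarith) le_rfl le_rfl) hv))

end route

section side

variable {τ : Type} {c : ℝ} {𝔓 : PvxPar τ c} {m : ℕ} {t : τ} {tb c₀ : ℝ}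

/-- the four parts of the window of a route against the open block of `u` -/
theorem pvj5_side_aux (h : PvefNdg 𝔓 m t) (zc : ℂ) (sd : Bool) {v : ℂ}
    (hv : v ∈ closedBall (zc + pvegYp 𝔓 m t) (pvegR 𝔓 m / 4) ∪ pvge2R (zc + pvegYp 𝔓 m t) (I ^ pvxrA 𝔓 t) sd (29 * pvegR 𝔓 m / 200) (pvyrSc 𝔓 m t - pvehDl 𝔓 m / 2) (-(33 * pvegR 𝔓 m / 200)) (33 * pvegR 𝔓 m / 200) ∪
      (pvfeLanes (-(23 / 256)) (23 / 256) (zc + pvefZ 𝔓 m t) (pvefD 𝔓 m t) (pvefW 𝔓 m t) ∪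
        pvccPl (pvccZ (zc + pvefZ 𝔓 m t) (pvefD 𝔓 m t) (pvefW 𝔓 m t) (pvefW 𝔓 m t).length) (pvccD (pvefD 𝔓 m t) (pvefW 𝔓 m t) (pvefW 𝔓 m t).length)
          (pvljRect 0 c₀ (pvmvLo sd (1 / 100 - 1 / 128) (23 / 256)) (pvmvHi sd (1 / 100 - 1 / 128) (23 / 256)))))
    (hq : pvccN (v - zc - (pvxrGam 𝔓 m).zu t) < pvehDl 𝔓 m / 2) : 0 < pvge2Sg sd * (v - zc - (pvxrGam 𝔓 m).zu t).im := by
  have hf := pvmv_fine h
  have hr := pvmv_R_pos h
  have hd := pvlm_Del_pos c m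
  obtain ⟨d1, d2⟩ := pvmv_Dl_bounds h
  have hΔ : 0 < pvehDl 𝔓 m := by linarith
  obtain ⟨f1, f2, f3⟩ := pvef_C0_frame h
  have f3' := abs_le.1 f3
  have k1 := pvef_e_far h (v := v - zc) (Or.inl (pveh_open_sub _ _ hq))
  rcases hv with (hv | hv) | (hv | hv)
  · exfalso
    rw [mem_closedBall_iff_norm] at hv
    rw [show v - (zc + pvegYp 𝔓 m t) = v - zc - pvegYp 𝔓 m t by ring] at hv
    linarith
  · exfalso
    obtain ⟨q1, q2, q3, q4⟩ := hv
    rw [pvmv_S_sh] at q1 q2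
    rw [pvmv_T_sh] at q3 q4
    have lv : |pvegL (pvegYp 𝔓 m t) (I ^ pvxrA 𝔓 t) (v - zc)| ≤ 33 * pvegR 𝔓 m / 200 := by
      have : |pvge2T (pvegYp 𝔓 m t) (I ^ pvxrA 𝔓 t) sd (v - zc)| = |pvegL (pvegYp 𝔓 m t) (I ^ pvxrA 𝔓 t) (v - zc)| := by
        unfold pvge2T pvegL
        rw [abs_mul, pvge2_sg_abs, one_mul]
      rw [← this, abs_le]
      exact ⟨q3, q4⟩
    have lv' := abs_le.1 lv
    have hF : v - zc ∈ pvefF 𝔓 m t := by
      refine ⟨?_, ?_, ?_⟩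
      · show pvegR 𝔓 m / 10 + 2 * pvlmDel c m ≤ pvge2S (pvegYp 𝔓 m t) (I ^ pvxrA 𝔓 t) (v - zc)
        linarith
      · show pvge2S (pvegYp 𝔓 m t) (I ^ pvxrA 𝔓 t) (v - zc) ≤ pvyrSc 𝔓 m t - pvlmDel c m / 4
        linarith
      · rw [abs_le]
        constructor <;> linarith [lv'.1, lv'.2, f3'.1, f3'.2]
    have k2 := pvef_F_ball h hF
    rw [mem_closedBall_iff_norm] at k2
    linarith
  · exfalso
    have hB : v - zc ∈ pvefBlocks (pvehDl 𝔓 m) (pvefZ 𝔓 m t) (pvefD 𝔓 m t) (pvefW 𝔓 m t) :=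
      pvmu_rv_lanes_blocks (pvef_n0 h) t (pvlj_lanes_mono (by norm_num) (by norm_num) _ _ _ (pvmv_lanes_sh hv))
    rcases pvef_q296_block_u h hB with k | k
    · have := k ((pvxrGam 𝔓 m).zu t) (by rw [pveh_mem_sq]; refine ⟨⟨?_, ?_⟩, ?_, ?_⟩ <;> linarith)
      linarith
    · have h5 : |(v - zc - (pvxrGam 𝔓 m).zu t).re| ≤ pvccN (v - zc - (pvxrGam 𝔓 m).zu t) := le_max_left _ _
      rw [sub_re] at h5
      have h6 := neg_abs_le ((v - zc).re - ((pvxrGam 𝔓 m).zu t).re)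
      linarith
  · have e : pvccZ (zc + pvefZ 𝔓 m t) (pvefD 𝔓 m t) (pvefW 𝔓 m t) (pvefW 𝔓 m t).length = zc + pvccZ (pvefZ 𝔓 m t) (pvefD 𝔓 m t) (pvefW 𝔓 m t) (pvefW 𝔓 m t).length := by
      unfold pvccZ
      ring
    rw [e] at hv
    have hv' := pvmv_pl_sh hv
    rw [pvef_last_door h, pvef_last_dir h] at hv'
    obtain ⟨w, ⟨w1, w2, w3, w4⟩, hw⟩ := hv'
    have e1 : (v - zc - (pvxrGam 𝔓 m).zu t).im = pvehDl 𝔓 m * w.im := by
      rw [← hw]
      show ((pvxrGam 𝔓 m).zu t - (pvehDl 𝔓 m : ℂ) / 2 + (pvehDl 𝔓 m : ℂ) * w - (pvxrGam 𝔓 m).zu t).im = _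
      simp [Complex.im_ofReal_mul]
    rw [e1]
    cases sd
    · simp only [pvmvLo, pvmvHi, pvge2Sg, if_true, Bool.false_eq_true, if_false] at w3 w4 ⊢
      nlinarith
    · simp only [pvmvLo, pvmvHi, pvge2Sg, if_true, Bool.false_eq_true, if_false] at w3 w4 ⊢
      nlinarith

/-- **INSIDE THE OPEN BLOCK OF `u` A ROUTE OF THE PATTERN OF 296 STAYS ON ITS SIDE**: the route of the colour `cl` on the side `up`, the other one on the other side (`true` = UPPER = left of the direction of travel: the last door is entered heading East) -/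
theorem pvj5_side (h : PvefNdg 𝔓 m t) (h1 : 1 / 128 + tb ≤ c₀) (h2 : c₀ ≤ 2 / 5) (h3 : 1 / 128 ≤ tb) (zc : ℂ) (up cl β : Bool) {v : ℂ}
    (hv : v ∈ pvjpRm β (pvyrPatG 𝔓 tb c₀ m zc t up cl)) (hq : pvccN (v - zc - (pvxrGam 𝔓 m).zu t) < pvehDl 𝔓 m / 2) :
    0 < pvge2Sg (up == (β == cl)) * (v - zc - (pvxrGam 𝔓 m).zu t).im := by
  have hr := pvmv_R_pos h
  have R := pvyr_rec_f h up (ρ := 0) (b := 0) (μ := 0) le_rfl (by linarith) (by norm_num) (by linarith)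
  have G := pvyr_geo_f h zc up (c₀ := c₀) (by linarith)
  obtain ⟨e1, e2⟩ := pvjp_rm_two cl
    (pvge2LegsO (zc + pvegYp 𝔓 m t) (I ^ pvxrA 𝔓 t) up (27 * pvegR 𝔓 m / 200) (pvegR 𝔓 m / 200) (23 * pvegR 𝔓 m / 200) (23 * pvegR 𝔓 m / 200) (3 * pvegR 𝔓 m / 20) ++
      pvyrMid (zc + pvegYp 𝔓 m t) (I ^ pvxrA 𝔓 t) up (27 * pvegR 𝔓 m / 200) (pvegR 𝔓 m / 200) (3 * pvegR 𝔓 m / 20) (pvyrSc 𝔓 m t - pvehDl 𝔓 m / 2 - pvehDl 𝔓 m * (1 / 2)) (pvehDl 𝔓 m / 100)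
        (pvyrLam 𝔓 m t up + pvehDl 𝔓 m * (21 / 256)) (19 / 256) (23 / 256) (21 / 256) tb (1 / 128) (1 / 100) c₀ (51 / 100) (zc + pvefZ 𝔓 m t) (pvefD 𝔓 m t) (pvefW 𝔓 m t))
    (pvge2LegsO (zc + pvegYp 𝔓 m t) (I ^ pvxrA 𝔓 t) (!up) (4 * pvegR 𝔓 m / 25) (pvegR 𝔓 m / 200) (23 * pvegR 𝔓 m / 200) (23 * pvegR 𝔓 m / 200) (3 * pvegR 𝔓 m / 20) ++
      pvyrMid (zc + pvegYp 𝔓 m t) (I ^ pvxrA 𝔓 t) (!up) (4 * pvegR 𝔓 m / 25) (pvegR 𝔓 m / 200) (3 * pvegR 𝔓 m / 20) (pvyrSc 𝔓 m t - pvehDl 𝔓 m / 2 - pvehDl 𝔓 m * (1 / 2)) (pvehDl 𝔓 m / 100)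
        (-pvyrLam 𝔓 m t up + pvehDl 𝔓 m * (21 / 256)) (19 / 256) (23 / 256) (21 / 256) tb (1 / 128) (1 / 100) c₀ (51 / 100) (zc + pvefZ 𝔓 m t) (pvefD 𝔓 m t) (pvefW 𝔓 m t))
  by_cases hβ : β = cl
  · subst hβ
    have hv' : v ∈ pvjpRm β [(β, _), (!β, _)] := hv
    rw [e1, pvmv_RtR_append, pvmv_legsO_R, pvyr_mid_R] at hv'
    have hs : (up == (β == β)) = up := by cases up <;> cases β <;> rfl
    rw [hs]
    exact pvj5_side_aux h zc up (pvj5_route_win up G R R.toE.num₁ le_rfl (by linarith) h1 h3 hv') hq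
  · have hβ' : β = !cl := by cases β <;> cases cl <;> simp_all
    subst hβ'
    have hv' : v ∈ pvjpRm (!cl) [(cl, _), (!cl, _)] := hv
    rw [e2, pvmv_RtR_append, pvmv_legsO_R, pvyr_mid_R] at hv'
    have hs : (up == ((!cl) == cl)) = !up := by cases up <;> cases cl <;> rfl
    rw [hs]
    exact pvj5_side_aux h zc (!up) (pvj5_route_win (!up) G.flip R.flip R.toE.num₂ (by linarith) le_rfl h1 h3 hv') hq

end side

/-! ## 4. (UP) at the thick return -/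

/-- **the placed half lane of the colour `β`, off a region which contains the placed window `3r` of the plug**: a strip on the side `β` of the axis of the plug -/
theorem pvj5_ln_pl {r s : ℝ} (hr : 0 < r) (hs : 0 < s) (σ β : Bool) (zu : ℂ) {D : Set ℂ} (hD : pvthSim zu (1 * (s : ℂ)) '' pvwSq 0 (3 * r) ⊆ D) {v : ℂ}
    (hv : v ∈ pvthSim zu (1 * (s : ℂ)) '' (pvhfT r).Ln σ β \ D) : pvccN (v - zu) ≤ 5 * (s * r) ∧ 0 < pvge2Sg β * (v - zu).im := by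
  obtain ⟨⟨w, hw, rfl⟩, hvD⟩ := hv
  obtain ⟨a1, a2, a3⟩ := pvj5_ln hr σ β hw fun h => hvD (hD ⟨w, h, rfl⟩)
  have e : pvthSim zu (1 * (s : ℂ)) w - zu = (s : ℂ) * w := by unfold pvthSim; ring
  rw [e]
  have e1 : ((s : ℂ) * w).re = s * w.re := Complex.re_ofReal_mul s w
  have e2 : ((s : ℂ) * w).im = s * w.im := Complex.im_ofReal_mul s w
  have hsr : 0 < s * r := mul_pos hs hr
  have b3 : |w.im| ≤ 3 * r / 2 := by
    have : |pvge2Sg β * w.im| = |w.im| := by rw [abs_mul, pvge2_sg_abs, one_mul]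
    rw [← this, abs_le]
    constructor <;> linarith
  refine ⟨?_, ?_⟩
  · unfold pvccN
    rw [e1, e2, abs_mul, abs_mul, abs_of_pos hs]
    refine max_le ?_ ?_
    · calc s * |w.re| ≤ s * (5 * r) := mul_le_mul_of_nonneg_left a1 hs.le
        _ = 5 * (s * r) := by ring
    · calc s * |w.im| ≤ s * (3 * r / 2) := mul_le_mul_of_nonneg_left b3 hs.le
        _ ≤ 5 * (s * r) := by nlinarith
  · rw [e2]
    have : pvge2Sg β * (s * w.im) = s * (pvge2Sg β * w.im) := by ring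
    rw [this]
    exact mul_pos hs (by linarith)

section up

variable {τ : Type} {c : ℝ} {𝔓 : PvxPar τ c} {m : ℕ} {t : τ} {tb c₀ : ℝ}

/-- the rooms of the plane colour `β` of the routes of record miss the placed half lane of the other colour, off the region of the plug -/
theorem pvj5_zone (h : PvefNdg 𝔓 m t) (h1 : 1 / 128 + tb ≤ c₀) (h2 : c₀ ≤ 2 / 5) (h3 : 1 / 128 ≤ tb) (z : ℂ) (col : Bool) {r s : ℝ} (hr : 0 < r) (hs : 0 < s)
    (hsr : 5 * (s * r) < pvehDl 𝔓 m / 2) (σ : Bool) {D : Set ℂ} (hD : pvthSim (z + (pvxrGam 𝔓 m).zu t) (1 * (s : ℂ)) '' pvwSq 0 (3 * r) ⊆ D) (β : Bool) :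
    Disjoint (pvjpRm β (pvyrPatG 𝔓 tb c₀ m z t true col)) (pvthSim (z + (pvxrGam 𝔓 m).zu t) (1 * (s : ℂ)) '' (pvhfT r).Ln σ (!(β == col)) \ D) := by
  rw [Set.disjoint_left]
  intro v hv hv'
  obtain ⟨a1, a2⟩ := pvj5_ln_pl hr hs σ _ _ hD hv'
  have e : v - (z + (pvxrGam 𝔓 m).zu t) = v - z - (pvxrGam 𝔓 m).zu t := by ring
  rw [e] at a1 a2
  have a3 := pvj5_side h h1 h2 h3 z true col β hv (lt_of_le_of_lt a1 hsr)
  have hs1 : (true == (β == col)) = (β == col) := by cases (β == col) <;> rfl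
  rw [hs1] at a3
  cases hb : (β == col) <;> rw [hb] at a2 a3 <;> simp only [pvge2Sg, Bool.not_true, Bool.not_false, if_true, Bool.false_eq_true, if_false] at a2 a3 <;> linarith

/-- **(UP) AT THE THICK RETURN**: ONE MIXED ORDER for the section of the side event `S` (reference frame, black form: monotone with the window `3r` frozen, black kept on the black half lane of the side `σ`, white on the white one), scaled by `s`, placed at `(zu, 1)` in the colour `col`,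
and for the copy pattern of record of 296 (colour `col` on the side `true` = LEFT of the direction of travel) with its mesh clause.      `Es` = ANY reader of the placed event inside the window `Wn`;   `D` = ANY region which contains the placed window `3r` -/
theorem pvj5_up_f (h : PvefNdg 𝔓 m t) (h1 : 1 / 128 + tb ≤ c₀) (h2 : c₀ ≤ 2 / 5) (h3 : 1 / 128 ≤ tb) (z : ℂ) (col : Bool) {r s : ℝ} (hr : 0 < r) (hs : 0 < s)
    (hsr : 5 * (s * r) < pvehDl 𝔓 m / 2) (σ : Bool) {S : Set (Conf PvPt)} (mS : PvjoMono S true (pvwSq 0 (3 * r)) ((pvhfT r).Ln σ true) ((pvhfT r).Ln σ false))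
    {Es Wn D : Set ℂ} (rH : Conf.ReadsSet (Es ×ˢ (univ : Set Bool)) (pvdpPl (z + (pvxrGam 𝔓 m).zu t) 1 col (cfMap (pvthInv 0 (s : ℂ)) ⁻¹' S))) (hEs : Es ⊆ Wn)
    (hD : pvthSim (z + (pvxrGam 𝔓 m).zu t) (1 * (s : ℂ)) '' pvwSq 0 (3 * r) ⊆ D)
    {dl : ℝ} {M K : ℕ} (hfit : PvkqFit dl M K (pvyrPatG 𝔓 tb c₀ m z t true col)) (μ : ℝ) (C : Set ℂ)
    {Y Fz : Set ℂ} (σ' : ℂ → Bool) (hY : Y.Countable) (hn : ∃ η, PvatNice (cfSites η) ∧ cfSites η ∩ Wn = Y ∩ Wn) (hDz : ∀ v ∈ Y, v ∈ D → v ∈ Fz) :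
    ∃ sg : ℂ → Option Bool, {v | sg v ≠ none}.Countable ∧ PvlhUp sg (pvlhSec Y Fz σ' (pvdpPl (z + (pvxrGam 𝔓 m).zu t) 1 col (cfMap (pvthInv 0 (s : ℂ)) ⁻¹' S))) ∧
      PvlhUp sg (pvlhCp Y (pvkqPat dl (pvyrPatG 𝔓 tb c₀ m z t true col) ∩ pvjoMesh μ C)) := by
  have ha : (1 : ℂ) * (s : ℂ) ≠ 0 := by
    rw [one_mul, Ne, Complex.ofReal_eq_zero]
    exact hs.ne'
  have e := pvut_pl_sc (z + (pvxrGam 𝔓 m).zu t) 1 (s : ℂ) one_ne_zero col S
  rw [e] at rH ⊢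
  have hm := pvut_mono_pl (z + (pvxrGam 𝔓 m).zu t) ha col mS
  have Z := pvj5_zone h h1 h2 h3 z col hr hs hsr σ hD
  have hz : Disjoint (pvthSim (z + (pvxrGam 𝔓 m).zu t) (1 * (s : ℂ)) '' (pvhfT r).Ln σ true \ D) (pvthSim (z + (pvxrGam 𝔓 m).zu t) (1 * (s : ℂ)) '' (pvhfT r).Ln σ false \ D) := by
    rw [Set.disjoint_left]
    intro v hv hv'
    have a2 := (pvj5_ln_pl hr hs σ true _ hD hv).2
    have a3 := (pvj5_ln_pl hr hs σ false _ hD hv').2
    simp only [pvge2Sg, if_true, Bool.false_eq_true, if_false] at a2 a3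
    linarith
  refine pvj5_up rH hm hEs hD hfit μ C ?_ σ' hY hn hDz
  cases col
  · exact pvj5_sep hfit hz.symm (Z true) (Z false)
  · exact pvj5_sep hfit hz (Z true) (Z false)

end up

end Claimed.Agent.R289
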