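-- KEEP
import Claimed.Agent.R289.Exit.FrcDefs
import Claimed.Agent.R289.Exit.ParBd
import Claimed.Agent.R289.Tr.AtCylL
import Claimed.Agent.R289.Tr.MeasL
import Claimed.Agent.R289.Tr.FrcDoor
import Claimed.Agent.R289.Exit.RefPlug

/-!
# Row 289 (S0537), THE WALL, ROAD E, E10 level 2, file Exit/FrcWf : `PvjeEnd.Wf` AT THE MODEL, FOR THE THREE HYBRID ENDS `pvjeO pvjeI pvjeE`      (helper1; orphan `PvjeEnd.Wf` of `Exit/FrcDefs` (35); prefix `pvji_`, `Pvji`)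

CONSUMERS: the integrators of E10 (o 35 / 100, i 116, e 54): hypothesis `hE : ∀ᶠ ε in 𝓝[>] 0, (E ε).Wf ε` of `pvje_cut` (`Exit/FrcE.lean`).
* sec. 1  small tools: placed regions Borel, `Reads` ⟹ `ReadsSet`, the guarded choice
* sec. 2  `PvjiX 𝔓 𝔈 m ε` = what the ends read BEYOND `PvieEng.Wf` + `PvbdEng` (73): `kit.WF`, `rG` read in `rO`, directions of the two doors `≠ 0`
* sec. 3  **`pvji_O_wf`, `pvji_I_wf`, `pvji_E_wf`** : all the 14 fields, ANY admissible weight `w` (`PvmlWm` of 289: `pvml_wm_Q`, `pvml_wm_V`), any `𝔓 𝔈`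
* sec. 4  AT THE PARAMETERS AND THE ENGINE OF RECORD: `pvji_kit_wf` (eventually in `ε`, from `PvnaWf.num`), **`pvji_O_rec`, `pvji_I_rec`, `pvji_E_rec`** : `∀ᶠ ε in 𝓝[>] 0, (pvjeO ..).Wf ε` from `hE : PvnaWf ..`, `hR : PvnaRec ..`;   `pvji_U_o`, `pvji_U_i` = hypothesis `hU` of `pvje_cut`
-/

set_option autoImplicit false

namespace Claimed.Agent.R289

open Set MeasureTheory Filter Topology Claims.C0465
open scoped ENNReal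

/-! ## 1. tools -/

theorem pvji_sim_meas (z : ℂ) {d : ℂ} (hd : d ≠ 0) {S : Set ℂ} (hS : MeasurableSet S) : MeasurableSet (pvthSim z d '' S) := by
  have e : pvthSim z d '' S = (fun w => z + w) '' ((fun w => d * w) '' S) := by
    rw [image_image]
    rfl
  rw [e]
  exact (MeasurableEquiv.addLeft z).measurableSet_image.2 ((MeasurableEquiv.mulLeft₀ d hd).measurableSet_image.2 hS)

theorem pvji_fat_meas (δ : ℝ) (Z : Set (ℤ × ℤ)) : MeasurableSet (pvilFat δ Z) :=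
  MeasurableSet.biUnion (Set.to_countable _) fun _ _ => pvt_sq_closed.measurableSet

theorem pvji_Wz_meas {τ : Type} {c : ℝ} (𝔓 : PvxPar τ c) (m : ℕ) (z : ℂ) (t : τ) (Z : Set (ℤ × ℤ)) : MeasurableSet (pvilWz 𝔓 m z t Z) :=
  (pvji_fat_meas _ Z).inter (pvzk_sq_meas _ _)

theorem pvji_readsSet {W : Set PvPt} {A : Set (Conf PvPt)} (h : Conf.Reads W (fun η => η ∈ A)) : Conf.ReadsSet W A := fun η => iff_of_eq (h η)

/-- the usable states of a placed kit plug are read in the placed region -/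
theorem pvji_kit_reads {kit : PvthKit} (hk : kit.WF) (b : Bool) (z : ℂ) {d : ℂ} (hd : d ≠ 0) : Conf.ReadsSet ((pvthSim z d '' kit.O₀) ×ˢ (univ : Set Bool)) (pvkyFl b ⁻¹' kit.G z d) := by
  have h0 : Conf.ReadsSet (kit.O₀ ×ˢ (univ : Set Bool)) kit.G₀ := by
    have h1 := pvji_readsSet hk.rG
    unfold PvthKit.O at h1
    rwa [pvdp_sim01] at h1
  exact pvdp_reads z d hd b h0

/-- the own experiment with a guarded choice -/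
theorem pvji_R_gd (C : Set ℂ) {U : Set (Conf PvPt)} (y : Conf PvPt → Set ℂ) {η₀ : Conf PvPt} (h : η₀ ∈ U) (p : (ℂ → Bool) × Conf PvPt) :
    pvdyR C (pvsmGd U y) η₀ p = pvdyR C (fun _ => y η₀) η₀ p :=
  congrFun (pvsm_R_congr C (yf := pvsmGd U y) (yf' := fun _ => y η₀) (pvsm_gd_mem h y)) p

/-! ## 2. what the ends read beyond `PvieEng.Wf` -/

section model

variable {τ : Type} {c : ℝ} {𝔓 : PvxPar τ c} {𝔈 : PvieEng τ}

/-- **what the three ends read beyond `PvieEng.Wf` and `PvbdEng`**, level `m`, mesh `ε` -/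
structure PvjiX (𝔓 : PvxPar τ c) (𝔈 : PvieEng τ) (m : ℕ) (ε : ℝ) : Prop where
  wf : (𝔈.kit m ε).WF
  rG : Conf.Reads (𝔈.rO m ×ˢ (univ : Set Bool)) (fun η => η ∈ 𝔈.rG m ε)
  d_o : ∀ t, (𝔓.Γ m).dout t ≠ 0
  d_i : ∀ t, (𝔓.Γ m).din t ≠ 0

variable {m0 : ℕ} {Cth : ℝ} {r κs : ℕ → ℝ} {w : ∀ η : Conf PvPt, (delbPl (pvieY η)).Dart → ℂ}

/-! ## 3. the three ends -/

/-- **THE FIRST LINK `t → door`** -/
theorem pvji_O_wf (h𝔓 : 𝔓.WfB) (H : PvieEng.Wf 𝔓 𝔈 m0 Cth r κs) (B : PvbdEng 𝔈) {m : ℕ} (hm : m0 ≤ m) {ε : ℝ} (hε : 0 < ε) (X : PvjiX 𝔓 𝔈 m ε) (hw : PvmlWm w) (z : ℂ) {t : τ} (ht : pviwTyOk 𝔓 t) :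
    (pvjeO 𝔓 𝔈 w m ε z t).Wf ε where
  mK := pvml_sh_meas z (H.m_oK m t)
  mD := pvji_sim_meas _ (X.d_o t) X.wf.mO
  mM := pvml_sh_meas z (H.m_oM m t)
  mWz := pvji_Wz_meas 𝔓 m z t
  bK := B.sh_oK z m t
  bD := B.door m ε _ _
  bM := B.sh_oM z m t
  KD := (pvdp_o_disj H hm ε z ht).1.symm
  MK := (pvjh_disj H hm ε z ht).MoKo
  MD := (pvdp_o_disj H hm ε z ht).2.symm
  fin := fun η₀ _ => pvkfl_Zo_finite 𝔓 m z t (pvlm_Del_pos c m) η₀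
  mX := fun Z _ => pvml_IXo_aem h𝔓 (pvml_engB H) hε hw m z t Z
  rG := pvji_kit_reads X.wf (𝔓.col t) _ (X.d_o t)
  stop := ⟨pvsmGd (pvilUo 𝔓.num (𝔓.col t) (pvilPin 𝔓 m z t)) fun η => pvieSh z (𝔈.oM m t) \ pvilFo 𝔓 m z t η,
    pvkfl_stop_out (pvkfl_pin_fr 𝔓 m z t) (B.sh_oM z m t), fun _ hU p => pvji_R_gd _ _ hU p⟩

/-- **THE LAST LINK `door → t`** -/
theorem pvji_I_wf (h𝔓 : 𝔓.WfB) (H : PvieEng.Wf 𝔓 𝔈 m0 Cth r κs) (B : PvbdEng 𝔈) {m : ℕ} (hm : m0 ≤ m) {ε : ℝ} (hε : 0 < ε) (X : PvjiX 𝔓 𝔈 m ε) (hw : PvmlWm w) (z : ℂ) {t : τ} (ht : pviwTyOk 𝔓 t) :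
    (pvjeI 𝔓 𝔈 w m ε z t).Wf ε where
  mK := pvml_sh_meas z (H.m_iK m t)
  mD := pvji_sim_meas _ (X.d_i t) X.wf.mO
  mM := pvml_sh_meas z (H.m_iM m t)
  mWz := pvji_Wz_meas 𝔓 m z t
  bK := B.sh_iK z m t
  bD := B.door m ε _ _
  bM := B.sh_iM z m t
  KD := (pvdp_i_disj H hm ε z ht).1.symm
  MK := by
    have h := H.i_disj m hm ε t ht
    simp only [List.pairwise_cons, List.mem_cons, forall_eq_or_imp, List.not_mem_nil, IsEmpty.forall_iff, implies_true, List.Pairwise.nil, and_true] at h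
    exact (pvjh_sh_disj z).2 h.1.1
  MD := (pvdp_i_disj H hm ε z ht).2.symm
  fin := fun η₀ _ => pvkfl_Zi_finite 𝔓 m z t (pvlm_Del_pos c m) η₀
  mX := fun Z _ => pvml_IXi_aem h𝔓 (pvml_engB H) hε hw m z t Z
  rG := pvji_kit_reads X.wf (𝔓.col t) _ (X.d_i t)
  stop := ⟨pvsmGd (pvilUi 𝔓.num (𝔓.col t) (pvilPin 𝔓 m z t)) fun η => pvieSh z (𝔈.iM m t) \ pvilFi 𝔓 m z t η,
    pvkfl_stop_in (pvkfl_pin_fr 𝔓 m z t) (B.sh_iM z m t), fun _ hU p => pvji_R_gd _ _ hU p⟩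

/-- **THE THICK LINK `reference plug → t`** -/
theorem pvji_E_wf (h𝔓 : 𝔓.WfB) (H : PvieEng.Wf 𝔓 𝔈 m0 Cth r κs) (B : PvbdEng 𝔈) {m : ℕ} (hm : m0 ≤ m) {ε : ℝ} (hε : 0 < ε) (X : PvjiX 𝔓 𝔈 m ε) (hw : PvmlWm w) (z : ℂ) {t : τ} (ht : pviwTyOk 𝔓 t) :
    (pvjeE 𝔓 𝔈 w m ε z t).Wf ε where
  mK := pvml_sh_meas z (H.m_eK m t)
  mD := pvml_sh_meas _ (H.m_rO m)
  mM := pvml_sh_meas z (H.m_eM m t)
  mWz := pvji_Wz_meas 𝔓 m z t
  bK := B.sh_eK z m t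
  bD := B.sh_rO _ m
  bM := B.sh_eM z m t
  KD := (pvdp_e_disj H hm ε z ht).1.symm
  MK := (pvjh_disj H hm ε z ht).MeKe
  MD := (pvdp_e_disj H hm ε z ht).2.symm
  fin := fun η₀ _ => pvkfl_Zi_finite 𝔓 m z t (pvlm_Del_pos c m) η₀
  mX := fun Z _ => pvml_IXe_aem h𝔓 (pvml_engB H) hε hw m z t Z
  rG := by
    have h := pvdp_reads (pvieZu 𝔓 m z t) 1 one_ne_zero (𝔓.col t) (pvji_readsSet X.rG)
    rw [← pvdp_sh_eq] at h
    exact h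
  stop := ⟨pvsmGd (pvilUi 𝔓.num (𝔓.col t) (pvilPin 𝔓 m z t)) fun η => pvieSh z (𝔈.eM m t) \ pvilFi 𝔓 m z t η,
    pvkfl_stop_in (pvkfl_pin_fr 𝔓 m z t) (B.sh_eM z m t), fun _ hU p => pvji_R_gd _ _ hU p⟩

end model

/-! ## 4. at the parameters and the engine of record -/

section record

variable {τ : Type} {c : ℝ}

/-- the cell kit of the engine is well formed, eventually in the mesh      (from the field (NUM) of `PvnaWf`) -/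
theorem pvji_kit_wf {𝔈 : PvieEng τ} {U : PvkmUnit} (hU : PvkmEng 𝔈 c U) (m : ℕ) : ∀ᶠ ε in 𝓝[>] (0 : ℝ), (𝔈.kit m ε).WF := by
  have hd := pvlm_Del_pos c m
  filter_upwards [(pvkm_tendsto_div hd).eventually U.ok] with ε h
  rw [hU.kit]
  exact (h.sc hd).wf

variable {N : PvxNums} {hN : N.Ok}

/-- the usable states of the reference plug of record are read in `rO` -/
theorem pvji_rec_rG (nb : PvnaNb N) (m : ℕ) (ε : ℝ) : Conf.Reads ((pvnaEngRec N hN c nb).rO m ×ˢ (univ : Set Bool)) (fun η => η ∈ (pvnaEngRec N hN c nb).rG m ε) :=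
  pvur_GM_reads _ _ _ _ _ _

theorem pvji_rec_do (m : ℕ) (t : pvxTau N) : ((pvxParOf N hN c).Γ m).dout t ≠ 0 := pow_ne_zero _ Complex.I_ne_zero

theorem pvji_rec_di (m : ℕ) (t : pvxTau N) : ((pvxParOf N hN c).Γ m).din t ≠ 0 := neg_ne_zero.2 (pow_ne_zero _ Complex.I_ne_zero)

/-- **`PvjiX` at the record**, eventually in the mesh -/
theorem pvji_rec_X {𝔈 : PvieEng (pvxTau N)} (hE : PvnaWf (pvxParOf N hN c) 𝔈) (hR : PvnaRec N hN c 𝔈) (m : ℕ) : ∀ᶠ ε in 𝓝[>] (0 : ℝ), PvjiX (pvxParOf N hN c) 𝔈 m ε := by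
  obtain ⟨U, hU⟩ := hE.num
  obtain ⟨nb, rfl⟩ := hR
  filter_upwards [pvji_kit_wf hU m] with ε h
  exact ⟨h, pvji_rec_rG nb m ε, pvji_rec_do m, pvji_rec_di m⟩

variable {w : ∀ η : Conf PvPt, (delbPl (pvieY η)).Dart → ℂ}

/-- **`hE` of `pvje_cut` for the first link** -/
theorem pvji_O_rec {𝔈 : PvieEng (pvxTau N)} (hE : PvnaWf (pvxParOf N hN c) 𝔈) (hR : PvnaRec N hN c 𝔈) (hw : PvmlWm w) {m : ℕ} (hm : (pvxParOf N hN c).m0 ≤ m) (z : ℂ) (t : pvxTau N) :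
    ∀ᶠ ε in 𝓝[>] (0 : ℝ), (pvjeO (pvxParOf N hN c) 𝔈 w m ε z t).Wf ε := by
  obtain ⟨Cth, r, κs, H⟩ := hE.wf
  filter_upwards [pvji_rec_X hE hR m, self_mem_nhdsWithin] with ε X hε
  exact pvji_O_wf (pvxo_wf N hN c).toWfB H (pvbd_of_rec hR) hm hε X hw z (pvea_tyOk hN t)

/-- **`hE` of `pvje_cut` for the last link** -/
theorem pvji_I_rec {𝔈 : PvieEng (pvxTau N)} (hE : PvnaWf (pvxParOf N hN c) 𝔈) (hR : PvnaRec N hN c 𝔈) (hw : PvmlWm w) {m : ℕ} (hm : (pvxParOf N hN c).m0 ≤ m) (z : ℂ) (t : pvxTau N) :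
    ∀ᶠ ε in 𝓝[>] (0 : ℝ), (pvjeI (pvxParOf N hN c) 𝔈 w m ε z t).Wf ε := by
  obtain ⟨Cth, r, κs, H⟩ := hE.wf
  filter_upwards [pvji_rec_X hE hR m, self_mem_nhdsWithin] with ε X hε
  exact pvji_I_wf (pvxo_wf N hN c).toWfB H (pvbd_of_rec hR) hm hε X hw z (pvea_tyOk hN t)

/-- **`hE` of `pvje_cut` for the thick link** -/
theorem pvji_E_rec {𝔈 : PvieEng (pvxTau N)} (hE : PvnaWf (pvxParOf N hN c) 𝔈) (hR : PvnaRec N hN c 𝔈) (hw : PvmlWm w) {m : ℕ} (hm : (pvxParOf N hN c).m0 ≤ m) (z : ℂ) (t : pvxTau N) :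
    ∀ᶠ ε in 𝓝[>] (0 : ℝ), (pvjeE (pvxParOf N hN c) 𝔈 w m ε z t).Wf ε := by
  obtain ⟨Cth, r, κs, H⟩ := hE.wf
  filter_upwards [pvji_rec_X hE hR m, self_mem_nhdsWithin] with ε X hε
  exact pvji_E_wf (pvxo_wf N hN c).toWfB H (pvbd_of_rec hR) hm hε X hw z (pvea_tyOk hN t)

/-- `hU` of `pvje_cut`: a usable candidate carries both half states -/
theorem pvji_U_o (𝔓 : PvxPar τ c) (m : ℕ) (z : ℂ) (t : τ) : ∀ ω ∈ pvxU 𝔓 m z t, pvConf ω ∈ pvilUo 𝔓.num (𝔓.col t) (pvilPin 𝔓 m z t) := fun ω hω => by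
  rw [pvkfl_U_model] at hω
  exact pvkfl_U_sub_o hω

theorem pvji_U_i (𝔓 : PvxPar τ c) (m : ℕ) (z : ℂ) (t : τ) : ∀ ω ∈ pvxU 𝔓 m z t, pvConf ω ∈ pvilUi 𝔓.num (𝔓.col t) (pvilPin 𝔓 m z t) := fun ω hω => by
  rw [pvkfl_U_model] at hω
  exact pvkfl_U_sub_i hω

end record

end Claimed.Agent.R289
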