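-- KEEP
import Claimed.Agent.R289.Exit.GoodFM
import Claimed.Agent.R289.Exit.EngU4

/-!
# Row 289 (S0537), THE WALL, ROAD E, E10 = LINK BOUND, file Exit/GoodFU : THE PATTERN OF THE THICK RETURN `f`: (MID-f) = THE ROUTES LIE IN THE ROOM WITH A COLLAR;   THE PATTERN OF RECORD AFTER (U4)      (helper296; prefix `pvyr_`, continuation of `Exit/GoodFM`)

* **`pvyr_ln_fat`** (MODEL FREE; `pvlj_fat` of `Tr/LinkT` with the two end cells): the `s ‖d‖`-ball of a point of the lane `[a,b]` of a corridor, or of its cap of depth `c` beyond the last door, lies in the lane `[a - s, b + s]` with caps of depth `s` (behind the first door) and `c + s` (beyond the last door);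
* **`pvyr_mid_g`** (test `mid` of 209, R27 (3) of 234): every `w` of the window of `pvyrPatG 𝔓 tb c₀ ..` has `closedBall w (Δ / 128) ⊆ zc + pveffY0`;   **`pvyr_mid_core`**, `pvyr_mid_256`: `closedBall w s ⊆ zc + pveffY` (`s + 3 δ / 1000 ≤ Δ / 128`; `s = Δ / 256`);
* `pvyr_body_west`;   **`pvyrPatU`** `= pvyrPatG 𝔓 (51/160) (21/64)`, `pvyr_fit_u`, **`pvyr_win_u`** (`⊆ zc + pvegOM ∪ zc + pvnuFK`, tile of 84 after (U4)), `pvyr_meas_u`, `pvyr_patU_len`, **`pvyr_rt_u`** = the four fields of `PvifRtOk` after L2.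
-/

set_option autoImplicit false
set_option linter.unusedSectionVars false
set_option linter.unusedVariables false
set_option linter.unusedSimpArgs false

namespace Claimed.Agent.R289

open Set Metric Complex

/-! ## 4. (MID-f): the routes lie in the room with a collar -/

/-- **FATTENING, DOOR TO DOOR** (`pvlj_fat` of `Tr/LinkT` with the two end cells): the `s ‖d‖`-ball of a point of the lane `[a,b]`, or of its cap of depth `c` beyond the last door, lies in the lane `[a - s, b + s]` with caps of depth `s`, `c + s` -/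
theorem pvyr_ln_fat {a b s c : ℝ} (ha : -(1 / 2) ≤ a - s) (hb : b + s ≤ 1 / 2) (hs0 : 0 ≤ s) (hs : s ≤ 1 / 2) (hc : 0 ≤ c) (z : ℂ) {d : ℂ} (hd : d ≠ 0) {l : List PvtTurn} (hl : 0 < l.length) {p : ℂ}
    (hp : p ∈ pvfeLanes a b z d l ∪ pvccPl (pvccZ z d l l.length) (pvccD d l l.length) (pvljRect 0 c a b)) :
    closedBall p (s * ‖d‖) ⊆ pvccPl z d (pvljRect (-s) 0 (a - s) (b + s)) ∪ pvfeLanes (a - s) (b + s) z d l ∪ pvccPl (pvccZ z d l l.length) (pvccD d l l.length) (pvljRect 0 (c + s) (a - s) (b + s)) := by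
  -- the piece behind a door
  have back : ∀ j, j ≤ l.length → ∀ x : ℝ, a ≤ b → (∀ i, i + 1 = j → x ≤ pvljLen (a - s) (b + s) (pvccT l i)) → (j = 0 → x ≤ s) →
      pvccPl (pvccZ z d l j) (pvccD d l j) (pvljRect (-x) 0 (a - s) (b + s)) ⊆ pvccPl z d (pvljRect (-s) 0 (a - s) (b + s)) ∪ pvfeLanes (a - s) (b + s) z d l := by
    intro j hj x hab h1 h2
    rcases Nat.eq_zero_or_pos j with rfl | hj0
    · rw [pvccZ_zero, pvccD_zero]
      exact fun w hw => Or.inl (pvccPl_mono _ _ (pvlj_rect_mono (by linarith [h2 rfl]) le_rfl le_rfl le_rfl) hw)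
    · obtain ⟨i, rfl⟩ : ∃ i, j = i + 1 := ⟨j - 1, by omega⟩
      exact fun w hw => Or.inr (pvlj_exit_sub (a - s) (b + s) z d l (by omega : i < l.length) (pvccPl_mono _ _ (pvlj_rect_mono (by linarith [h1 i rfl]) le_rfl le_rfl le_rfl) hw))
  -- the piece beyond a door
  have front : ∀ j, j ≤ l.length → ∀ x : ℝ, (j < l.length → x ≤ pvljLen (a - s) (b + s) (pvccT l j)) → (j = l.length → x ≤ c + s) →
      pvccPl (pvccZ z d l j) (pvccD d l j) (pvljRect 0 x (a - s) (b + s)) ⊆ pvfeLanes (a - s) (b + s) z d l ∪ pvccPl (pvccZ z d l l.length) (pvccD d l l.length) (pvljRect 0 (c + s) (a - s) (b + s)) := by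
    intro j hj x h1 h2
    rcases Nat.lt_or_ge j l.length with hj' | hj'
    · exact fun w hw => Or.inl (pvlj_entry_sub (a - s) (b + s) z d l hj' (pvccPl_mono _ _ (pvlj_rect_mono le_rfl (h1 hj') le_rfl le_rfl) hw))
    · obtain rfl : j = l.length := le_antisymm hj hj'
      exact fun w hw => Or.inr (pvccPl_mono _ _ (pvlj_rect_mono le_rfl (h2 rfl) le_rfl le_rfl) hw)
  -- a rectangle through a door
  have thru : ∀ j, j ≤ l.length → ∀ x y : ℝ, a ≤ b → (∀ i, i + 1 = j → x ≤ pvljLen (a - s) (b + s) (pvccT l i)) → (j = 0 → x ≤ s) → (j < l.length → y ≤ pvljLen (a - s) (b + s) (pvccT l j)) → (j = l.length → y ≤ c + s) →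
      pvccPl (pvccZ z d l j) (pvccD d l j) (pvljRect (-x) y (a - s) (b + s)) ⊆
        pvccPl z d (pvljRect (-s) 0 (a - s) (b + s)) ∪ pvfeLanes (a - s) (b + s) z d l ∪ pvccPl (pvccZ z d l l.length) (pvccD d l l.length) (pvljRect 0 (c + s) (a - s) (b + s)) := by
    intro j hj x y hab h1 h2 h3 h4 w hw
    rcases pvlj_rect_split _ _ _ _ _ _ hw with hw | hw
    · exact Or.inl (back j hj x hab h1 h2 hw)
    · rcases front j hj y h3 h4 hw with h | h
      · exact Or.inl (Or.inr h)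
      · exact Or.inr h
  rcases hp with hp | hp
  · obtain ⟨j, hj, hpj⟩ := mem_iUnion₂.1 hp
    have hj' : j < l.length := Finset.mem_range.1 hj
    obtain ⟨w, hw, rfl⟩ := hpj
    have hab : a ≤ b := by
      obtain h | ⟨v, h, -⟩ := pvlj_lane_split _ hw
      · exact h.2.2.1.trans h.2.2.2
      · exact h.2.2.1.trans h.2.2.2
    have n1 := pvfe_norm_frame d l j
    have n2 := pvfe_norm_frame d l (j + 1)
    have len : ∀ τ : PvtTurn, s ≤ pvljLen (a - s) (b + s) τ := pvlj_le_len (by linarith) (by linarith) hab hs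
    rcases pvlj_lane_split _ hw with h | ⟨v, hv, rfl⟩
    · have h1 := pvlj_ball_fat (pvccZ z d l j) (pvlj_D_ne hd l j) s h
      rw [n1, zero_sub] at h1
      exact h1.trans (thru j hj'.le s _ hab (fun i _ => len _) (fun _ => le_rfl) (fun _ => pvlj_half_len hs _) (fun e => absurd e hj'.ne))
    · have e : pvccZ z d l j + pvccD d l j * ((pvccT l j).mid + (pvccT l j).rot * v) = pvccZ z d l (j + 1) + pvccD d l (j + 1) * v := by
        rw [pvccZ_succ z d l hj', pvccD_succ d l hj']; ring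
      show closedBall (pvccZ z d l j + pvccD d l j * ((pvccT l j).mid + (pvccT l j).rot * v)) _ ⊆ _
      rw [e]
      have h1 := pvlj_ball_fat (pvccZ z d l (j + 1)) (pvlj_D_ne hd l (j + 1)) s hv
      rw [n2, zero_add, show -pvljHalf a b (pvccT l j) - s = -(pvljHalf a b (pvccT l j) + s) by ring] at h1
      refine h1.trans (thru (j + 1) hj' _ s hab (fun i hi => ?_) (fun e => absurd e (Nat.succ_ne_zero j)) (fun _ => len _) (fun _ => by linarith))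
      obtain rfl : i = j := by omega
      exact pvlj_half_len hs _
  · obtain ⟨w, hw, rfl⟩ := hp
    have hab : a ≤ b := hw.2.2.1.trans hw.2.2.2
    have len : ∀ τ : PvtTurn, s ≤ pvljLen (a - s) (b + s) τ := pvlj_le_len (by linarith) (by linarith) hab hs
    have h1 := pvlj_ball_fat (pvccZ z d l l.length) (pvlj_D_ne hd l l.length) s hw
    rw [pvfe_norm_frame, zero_sub] at h1
    exact h1.trans (thru l.length le_rfl s _ hab (fun i _ => len _) (fun e => absurd e hl.ne') (fun e => absurd e (lt_irrefl _)) (fun _ => le_rfl))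

theorem pvyr_SL_lip {u : ℂ} (hu : ‖u‖ = 1) (Y q w : ℂ) : |pvegS Y u q - pvegS Y u w| ≤ ‖q - w‖ ∧ |pvegL Y u q - pvegL Y u w| ≤ ‖q - w‖ := by
  have e : (q - Y) * (starRingEnd ℂ) u - (w - Y) * (starRingEnd ℂ) u = (q - w) * (starRingEnd ℂ) u := by ring
  have n : ‖(q - w) * (starRingEnd ℂ) u‖ = ‖q - w‖ := by rw [norm_mul, RCLike.norm_conj, hu, mul_one]
  unfold pvegS pvegL
  rw [← sub_re, ← sub_im, e, ← n]
  exact ⟨Complex.abs_re_le_norm _, Complex.abs_im_le_norm _⟩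

section mid

variable {τ : Type} {c : ℝ} {𝔓 : PvxPar τ c} {m : ℕ} {t : τ} {tb c₀ : ℝ}

/-- **(MID-f), any numerals: EVERY POINT OF THE WINDOW OF THE PATTERN HAS ITS `Δ/128`-BALL IN THE ROOM `fY0`** (test of 209) -/
theorem pvyr_mid_g (h : PvefNdg 𝔓 m t) (h1 : 1 / 128 + tb ≤ c₀) (h2 : c₀ + 1 / 128 ≤ 2 / 5) (h3 : 1 / 128 ≤ tb) (zc : ℂ) (up cl : Bool) :
    ∀ w ∈ pvkqPatR (pvyrPatG 𝔓 tb c₀ m zc t up cl), closedBall w (pvehDl 𝔓 m / 128) ⊆ pvieSh zc (pveffY0 𝔓 m t) := by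
  have hf := pvmv_fine h
  have hr := pvmv_R_pos h
  have hd := pvlm_Del_pos c m
  obtain ⟨d1, d2⟩ := pvmv_Dl_bounds h
  have hΔ : 0 < pvehDl 𝔓 m := by linarith
  obtain ⟨f1, f2, f3⟩ := pvef_C0_frame h
  have f3' := abs_le.1 f3
  have R := pvyr_rec_f h up (ρ := 0) (b := 0) (μ := 0) le_rfl (by linarith) (by norm_num) (by linarith)
  have G := pvyr_geo_f h zc up (c₀ := c₀) (by linarith)
  have hu := pvmv_norm_I (pvxrA 𝔓 t)
  intro w hw q hq
  rw [mem_closedBall_iff_norm] at hq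
  rw [pveh_mem_sh]
  have corr : w - zc ∈ pvfeLanes (-(23 / 256)) (23 / 256) (pvefZ 𝔓 m t) (pvefD 𝔓 m t) (pvefW 𝔓 m t) ∪
      pvccPl (pvccZ (pvefZ 𝔓 m t) (pvefD 𝔓 m t) (pvefW 𝔓 m t) (pvefW 𝔓 m t).length) (pvccD (pvefD 𝔓 m t) (pvefW 𝔓 m t) (pvefW 𝔓 m t).length) (pvljRect 0 c₀ (-(23 / 256)) (23 / 256)) → q - zc ∈ pveffY0 𝔓 m t := by
    intro hc
    have k := pvyr_ln_fat (a := -(23 / 256)) (b := 23 / 256) (s := 1 / 128) (c := c₀) (by norm_num) (by norm_num) (by norm_num) (by norm_num) (by linarith) (pvefZ 𝔓 m t) G.d0 (pvef_W_pos h) hc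
    rw [G.hd] at k
    have hq' : q - zc ∈ closedBall (w - zc) (1 / 128 * pvehDl 𝔓 m) := by
      rw [mem_closedBall_iff_norm, show q - zc - (w - zc) = q - w by ring]
      linarith
    refine pvef_Ln_fY0 h (a' := -(23 / 256) - 1 / 128) (b' := 23 / 256 + 1 / 128) (by norm_num) (by norm_num) ?_
    rcases k hq' with (k | k) | k
    · exact Or.inl (Or.inl (pvccPl_mono _ _ (pvlj_rect_mono (by norm_num) le_rfl le_rfl le_rfl) k))
    · exact Or.inl (Or.inr k)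
    · exact Or.inr (pvccPl_mono _ _ (pvlj_rect_mono le_rfl h2 le_rfl le_rfl) k)
  rcases pvyr_rec_win G R h1 h3 cl hw with (hv | hv) | (hv | hv)
  · refine Or.inr ?_
    rw [mem_closedBall_iff_norm] at hv
    show q - zc ∈ closedBall _ _
    rw [mem_closedBall_iff_norm]
    have k := norm_add_le (q - w) (w - (zc + pvegYp 𝔓 m t))
    rw [show q - w + (w - (zc + pvegYp 𝔓 m t)) = q - zc - pvegYp 𝔓 m t by ring] at k
    linarith
  · obtain ⟨q1, q2, q3, q4⟩ := hv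
    rw [pvmv_S_sh] at q1 q2
    rw [pvmv_T_sh] at q3 q4
    have lv : |pvegL (pvegYp 𝔓 m t) (I ^ pvxrA 𝔓 t) (w - zc)| ≤ 33 * pvegR 𝔓 m / 200 := by
      have : |pvge2T (pvegYp 𝔓 m t) (I ^ pvxrA 𝔓 t) up (w - zc)| = |pvegL (pvegYp 𝔓 m t) (I ^ pvxrA 𝔓 t) (w - zc)| := by
        unfold pvge2T pvegL
        rw [abs_mul, pvge2_sg_abs, one_mul]
      rw [← this, abs_le]
      exact ⟨q3, q4⟩
    have lv' := abs_le.1 lv
    obtain ⟨k1, k2⟩ := pvyr_SL_lip hu (pvegYp 𝔓 m t) (q - zc) (w - zc)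
    rw [show q - zc - (w - zc) = q - w by ring] at k1 k2
    have k1' := abs_le.1 (k1.trans hq)
    have k2' := abs_le.1 (k2.trans hq)
    have q1' : 29 * pvegR 𝔓 m / 200 ≤ pvegS (pvegYp 𝔓 m t) (I ^ pvxrA 𝔓 t) (w - zc) := q1
    have q2' : pvegS (pvegYp 𝔓 m t) (I ^ pvxrA 𝔓 t) (w - zc) ≤ pvegS (pvegYp 𝔓 m t) (I ^ pvxrA 𝔓 t) (pvefC0 𝔓 m t) - pvehDl 𝔓 m / 2 := q2
    refine Or.inl (Or.inl (Or.inl ⟨?_, ?_, ?_⟩))
    · linarith [k1'.1]
    · linarith [k1'.2]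
    · rw [abs_le]
      constructor <;> linarith [lv'.1, lv'.2, f3'.1, f3'.2, k2'.1, k2'.2]
  · exact corr (Or.inl (pvmv_lanes_sh hv))
  · have e : pvccZ (zc + pvefZ 𝔓 m t) (pvefD 𝔓 m t) (pvefW 𝔓 m t) (pvefW 𝔓 m t).length = zc + pvccZ (pvefZ 𝔓 m t) (pvefD 𝔓 m t) (pvefW 𝔓 m t) (pvefW 𝔓 m t).length := by
      unfold pvccZ
      ring
    rw [e] at hv
    exact corr (Or.inr (pvmv_pl_sh hv))

/-- **(MID-f) in the room of record `fY = pveffY`** (core of collar `pvefKa = 3 δ / 1000` of `fY0`) -/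
theorem pvyr_mid_core (h : PvefNdg 𝔓 m t) (h1 : 1 / 128 + tb ≤ c₀) (h2 : c₀ + 1 / 128 ≤ 2 / 5) (h3 : 1 / 128 ≤ tb) (zc : ℂ) (up cl : Bool) {s : ℝ} (hs : s + pvefKa c m ≤ pvehDl 𝔓 m / 128) :
    ∀ w ∈ pvkqPatR (pvyrPatG 𝔓 tb c₀ m zc t up cl), closedBall w s ⊆ pvieSh zc (pveffY 𝔓 m t) := by
  intro w hw q hq
  rw [pveh_mem_sh]
  refine pvef_fY_of fun x hx => ?_
  have hb : x + zc ∈ closedBall w (pvehDl 𝔓 m / 128) := by
    rw [mem_closedBall_iff_norm] at hq hx ⊢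
    have k := norm_add_le (x - (q - zc)) (q - w)
    rw [show x - (q - zc) + (q - w) = x + zc - w by ring] at k
    linarith
  have k := pvyr_mid_g h h1 h2 h3 zc up cl w hw hb
  rwa [pveh_mem_sh, add_sub_cancel_right] at k

/-- the collar `Δ / 256` -/
theorem pvyr_mid_256 (h : PvefNdg 𝔓 m t) (h1 : 1 / 128 + tb ≤ c₀) (h2 : c₀ + 1 / 128 ≤ 2 / 5) (h3 : 1 / 128 ≤ tb) (zc : ℂ) (up cl : Bool) :
    ∀ w ∈ pvkqPatR (pvyrPatG 𝔓 tb c₀ m zc t up cl), closedBall w (pvehDl 𝔓 m / 256) ⊆ pvieSh zc (pveffY 𝔓 m t) := by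
  refine pvyr_mid_core h h1 h2 h3 zc up cl ?_
  have hf := pvmv_fine h
  have hd := pvlm_Del_pos c m
  obtain ⟨d1, d2⟩ := pvmv_Dl_bounds h
  unfold pvefKa
  linarith

/-- a point of the body of `f` in the open block of the plug lies in its west half -/
theorem pvyr_body_west (h : PvefNdg 𝔓 m t) {w : ℂ} (hw : w ∈ pvefBody (pvehDl 𝔓 m) ((pvxrGam 𝔓 m).zu t) (pvefZ 𝔓 m t) (pvefD 𝔓 m t) (pvefW 𝔓 m t) (pvefF 𝔓 m t))
    (hq : w ∈ pvccSq ((pvxrGam 𝔓 m).zu t) (pvehDl 𝔓 m / 2)) : w ∈ pvefWest (pvehDl 𝔓 m) ((pvxrGam 𝔓 m).zu t) := by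
  have hΔ := pveh_Dl_pos (𝔓 := 𝔓) (pvef_n0 h)
  have hq' : pvccN (w - (pvxrGam 𝔓 m).zu t) < pvehDl 𝔓 m / 2 := hq
  rcases hw with (hw | hw) | hw
  · exfalso
    have k1 := pvef_e_far h (Or.inl (pveh_open_sub _ _ hq))
    have k2 := pvef_F_ball h hw
    rw [mem_closedBall_iff_norm] at k2
    linarith
  · exfalso
    rcases pvef_q296_block_u h hw with k | k
    · have := k ((pvxrGam 𝔓 m).zu t) (by rw [pveh_mem_sq]; refine ⟨⟨?_, ?_⟩, ?_, ?_⟩ <;> linarith)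
      linarith
    · have h5 : |(w - (pvxrGam 𝔓 m).zu t).re| ≤ pvccN (w - (pvxrGam 𝔓 m).zu t) := le_max_left _ _
      rw [sub_re] at h5
      have h6 := neg_abs_le (w.re - ((pvxrGam 𝔓 m).zu t).re)
      linarith
  · exact hw

variable (𝔓) in
/-- **THE PATTERN OF RECORD OF `f` AFTER (U4)** (R27 (3) of 234): bar at `51/160` beyond the west door of the block of `u` (`= 29 Δ / 160 = 3.625 u` from the centre of the plug, `u = Δ / 20`), cap `21/64` (`11 Δ / 64 > 13 Δ / 80` from the centre; = the numerals of `e`, 21 `Tr/LinkME` v3.1) -/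
noncomputable def pvyrPatU (m : ℕ) (zc : ℂ) (t : τ) (up cl : Bool) : List (Bool × List (Set ℂ × ℂ × ℂ)) := pvyrPatG 𝔓 (51 / 160) (21 / 64) m zc t up cl

theorem pvyr_eqns_cite7 : True := by
  have := @pvyrPatU.eq_1
  trivial

theorem pvyr_fit_u (h : PvefNdg 𝔓 m t) {L : ℕ} (hL : pvyrL 𝔓 t ≤ L) (zc : ℂ) (up cl : Bool) : PvkqFit (pvehDl 𝔓 m / 512) (512 * (L + 3) + 6144) 6 (pvyrPatU 𝔓 m zc t up cl) :=
  pvyr_fit_g h (by norm_num) (by norm_num) (by norm_num) hL zc up cl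

theorem pvyr_meas_u (h : PvefNdg 𝔓 m t) (zc : ℂ) (up cl : Bool) : MeasurableSet (pvkqPatR (pvyrPatU 𝔓 m zc t up cl)) := pvyr_meas_g h _ _ zc up cl

theorem pvyr_patU_len (𝔓 : PvxPar τ c) (m : ℕ) (zc : ℂ) (t : τ) (up cl : Bool) : (pvyrPatU 𝔓 m zc t up cl).length = 2 := rfl

/-- **(WIN) AFTER (U4)**: mouth `∪` tile `fK' = pvnuFK` of 84 (`fK ∪` west half of the ring `rO \ rO'`) -/
theorem pvyr_win_u (h : PvefNdg 𝔓 m t) (hΓ : 𝔓.Γ m = pvxrGam 𝔓 m) (zc : ℂ) (up cl : Bool) : pvkqPatR (pvyrPatU 𝔓 m zc t up cl) ⊆ pvieSh zc (pvegOM 𝔓 m t) ∪ pvieSh zc (pvnuFK 𝔓 m t) := by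
  have hr := pvmv_R_pos h
  have hΔ := pveh_Dl_pos (𝔓 := 𝔓) (pvef_n0 h)
  intro v hv
  have h1 := pvyr_win_g h (tb := 51 / 160) (c₀ := 21 / 64) (by norm_num) (by norm_num) (by norm_num) zc up cl hv
  rw [pveh_mem_sh] at h1
  by_cases hM : v - zc ∈ pvegOM 𝔓 m t
  · exact Or.inl (pveh_mem_sh.2 hM)
  rcases h1 with h1 | ⟨h1, h2⟩
  · exact absurd (closedBall_subset_closedBall (by linarith) h1) hM
  refine Or.inr (pveh_mem_sh.2 ?_)
  by_cases hq : v - zc ∈ pvccSq ((pvxrGam 𝔓 m).zu t) (pvehDl 𝔓 m / 4)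
  · right
    have hq' : pvccN (v - zc - (pvxrGam 𝔓 m).zu t) < pvehDl 𝔓 m / 4 := hq
    have hW := pvyr_body_west h h1 (show pvccN (v - zc - (pvxrGam 𝔓 m).zu t) < pvehDl 𝔓 m / 2 by linarith)
    rw [hΓ, pveh_mem_sh]
    refine ⟨⟨?_, ?_⟩, ?_⟩
    · rw [← pveh_mem_sh, pveh_sh_rO]
      exact hq
    · rw [pvnu4_RO_sq h.rho0]
      intro hn
      have hn' : pvccN (v - zc - (pvxrGam 𝔓 m).zu t - 0) < 13 * pvehDl 𝔓 m / 80 := hn
      rw [sub_zero] at hn'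
      exact h2 (show pvccN (v - zc - (pvxrGam 𝔓 m).zu t) < (1 / 2 - 21 / 64) * pvehDl 𝔓 m by linarith)
    · show (v - zc - (pvxrGam 𝔓 m).zu t).re < 0
      rw [sub_re]
      linarith [hW.2]
  · exact Or.inl ⟨h1, fun hx => hx.elim hq hM⟩

end mid

/-- **THE ROUTES OF THE THICK RETURN AT THE PARAMETERS OF RECORD, AFTER (U4)**: (fit) (len) (meas) (win), regions `fM = pvegOM`, `fK' = pvnuFK` -/
theorem pvyr_rt_u {c : ℝ} (c0 : 0 < c) (N : PvxNums) (hN : N.Ok) {m : ℕ} (hm : (pvxParOf N hN c).m0 ≤ m) (zc : ℂ) (t : pvxTau N) (up cl : Bool) :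
    PvkqFit (pvehDl (pvxParOf N hN c) m / 512) (pvyrMq N) 6 (pvyrPatU (pvxParOf N hN c) m zc t up cl) ∧ (pvyrPatU (pvxParOf N hN c) m zc t up cl).length ≤ 2 ∧
      MeasurableSet (pvkqPatR (pvyrPatU (pvxParOf N hN c) m zc t up cl)) ∧
      pvkqPatR (pvyrPatU (pvxParOf N hN c) m zc t up cl) ⊆ pvieSh zc (pvegOM (pvxParOf N hN c) m t) ∪ pvieSh zc (pvnuFK (pvxParOf N hN c) m t) := by
  have h := pvxr_ndg_par hN c0 hm t
  exact ⟨pvyr_fit_u h (L := pvyrL (pvxParOf N hN c) t) le_rfl zc up cl, le_of_eq rfl, pvyr_meas_u h zc up cl, pvyr_win_u h (congrFun (pvxo_gam N hN c) m) zc up cl⟩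

end Claimed.Agent.R289
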