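-- KEEP
import Claimed.Agent.R289.Exit.GoodFM
import Claimed.Agent.R289.Tr.HookColF
import Claimed.Agent.R289.Tr.HookYB
import Claimed.Agent.R289.Tr.HookFA

/-!
# Row 289 (S0537), THE WALL, ROAD E, E10, (b3) DET OF THE THICK RETURN `f`, file Exit/HookTF : THE TIP SIDE OF THE ROUTES OF RECORD, STATE FREE      (helper276, post of 165; prefix `pvoh_`, `pvoh`)

PAYER of the fields `he dl route arm1 arm2 rl mul sgW jN4 jS4 sN sS leg` of the D form of the layout record of an out-type link (`Pvj8LayD` of 284 `Tr/HookFA`; `= PvhoLay` of 266 mirrored; `R₁ R₂ hSN hSS hr hD` of `pvva_A` of 281, `pvdd_link_o` of 228)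
AT THE LEGS OF THE PATTERN OF RECORD `pvyrPatG 𝔓 tb c₀ m zc t true cl` OF 296 (`Exit/GoodFM`; `tb c₀` = the two numerals which (U4) moves: FREE here), and of the test line `hpat`.
SIDES: the relative colour `β` runs on the side `β` of the exit mouth (`true` = left of the outward normal `u = I ^ pvxrA 𝔓 t`), inner arm `27 R / 200` for `β = true`, outer arm `4 R / 25` for `β = false`.
NUMBERS OF RECORD: `R = pvegR 𝔓 m = ρ h`, `δ = Δ / 512`, `rs = R / 4`, **`e₀ = 21 R / 200`** (`he : rt + 2 ρ < e₀` is FALSE at `e₀ = R / 10`, since `rt ≥ R / 10 + 4 ρ`), any `ρl ≤ R / 1000`, any `rt + 2 ρ ≤ R / 8`.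
* sec. 1  `pvoh_num₁`, `pvoh_num₂` : `Pvge2Num` of 298 at `e₀ = 21 R / 200`
* sec. 2  the legs `pvohC pvohN pvohT pvohD`, closing sets `pvohSg`;   **`pvoh_pat`** (the pattern of 296 IS the two routes: `rfl`), **`pvoh_hpat`** (relative colours)
* sec. 3  **`pvoh_route`**, **`pvoh_arm`** (ANY box side `xB` within `21 R / 200` of the tip centre: gives `arm1`, `arm2`), `pvoh_arm1`, `pvoh_arm2`, `pvoh_sN`, `pvoh_sS`, `pvoh_Sg_ball`, `pvoh_sgW`, `pvoh_leg`, `pvoh_dl`, `pvoh_rl`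
* sec. 4  `PvohRm` (room fields: 47), `PvohDr` (door fields: 215), **`pvoh_layD`** : `Pvj8LayD` of 284 at the legs of record from the two small records;   **`pvoh_tip`** : `PvhoTip` of 266 at `μ₀ = pvilMu / 8`, `rs = R / 4`, `rt = R / 10 + pvilMu / 2`
0 SORRY.
-/

set_option autoImplicit false
set_option linter.unusedSectionVars false
set_option linter.unusedVariables false

namespace Claimed.Agent.R289

open Set Metric Complex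

/-! ## 1. the numbers of the two arms at `e₀ = 21 R / 200` -/

section num

variable {r Δ ρl b μ : ℝ}

/-- the inner arm of 298 (`a = 27 r / 200`), zone of the side of the box `|s| ≤ 21 r / 200` -/
theorem pvoh_num₁ (r0 : 0 < r) (Δ0 : 0 < Δ) (Δhi : 14 * Δ ≤ r) (ρ0 : 0 ≤ ρl) (ρ1 : 1000 * ρl ≤ r) (bμ0 : 0 ≤ b + μ) (bμ : b + μ ≤ r / 8) :
    Pvge2Num (27 * r / 200) (r / 200) (23 * r / 200) (23 * r / 200) (3 * r / 20) (Δ / 512) ρl (21 * r / 200) b μ (r / 4) := by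
  refine ⟨by linarith, by linarith, ρ0, by linarith, bμ0, by linarith, by linarith, by linarith, by linarith, by linarith, by linarith, by linarith, ?_, ?_⟩
  · exact pvmv_sq_aux (A := 83 / 500) (B := 83 / 500) (by linarith) (by linarith) (by linarith) (by linarith) (by norm_num)
  · exact pvmv_sq_aux (A := 83 / 500) (B := 83 / 500) (by linarith) (by linarith) (by linarith) (by linarith) (by norm_num)

/-- the outer arm of 298 (`a = 4 r / 25`) -/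
theorem pvoh_num₂ (r0 : 0 < r) (Δ0 : 0 < Δ) (Δhi : 14 * Δ ≤ r) (ρ0 : 0 ≤ ρl) (ρ1 : 1000 * ρl ≤ r) (bμ0 : 0 ≤ b + μ) (bμ : b + μ ≤ r / 8) :
    Pvge2Num (4 * r / 25) (r / 200) (23 * r / 200) (23 * r / 200) (3 * r / 20) (Δ / 512) ρl (21 * r / 200) b μ (r / 4) := by
  refine ⟨by linarith, by linarith, ρ0, by linarith, bμ0, by linarith, by linarith, by linarith, by linarith, by linarith, by linarith, by linarith, ?_, ?_⟩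
  · exact pvmv_sq_aux (A := 83 / 500) (B := 83 / 500) (by linarith) (by linarith) (by linarith) (by linarith) (by norm_num)
  · exact pvmv_sq_aux (A := 83 / 500) (B := 83 / 500) (by linarith) (by linarith) (by linarith) (by linarith) (by norm_num)

end num

/-! ## 2. the legs of the pattern of record -/

section legs

variable {τ : Type} {c : ℝ} (𝔓 : PvxPar τ c)

/-- the radius of the arm of the relative colour `β` -/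
noncomputable def pvohA (m : ℕ) (β : Bool) : ℝ := cond β (27 * pvegR 𝔓 m / 200) (4 * pvegR 𝔓 m / 25)

/-- the lateral coordinate (counted on the side `β`) of the line of the corridor of the relative colour `β` -/
noncomputable def pvohLb (m : ℕ) (t : τ) (β : Bool) : ℝ := cond β (pvyrLam 𝔓 m t true + pvehDl 𝔓 m * (21 / 256)) (-pvyrLam 𝔓 m t true + pvehDl 𝔓 m * (21 / 256))

/-- **the C** of the relative colour `β` -/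
noncomputable def pvohC (m : ℕ) (zc : ℂ) (t : τ) (β : Bool) : Set ℂ × ℂ × ℂ :=
  (pvge2RC (zc + pvegYp 𝔓 m t) (I ^ pvxrA 𝔓 t) β (pvohA 𝔓 m β) (pvegR 𝔓 m / 200) (23 * pvegR 𝔓 m / 200) (23 * pvegR 𝔓 m / 200),
    pvge2P (zc + pvegYp 𝔓 m t) (I ^ pvxrA 𝔓 t) β (23 * pvegR 𝔓 m / 200) (-pvohA 𝔓 m β), pvge2P (zc + pvegYp 𝔓 m t) (I ^ pvxrA 𝔓 t) β (23 * pvegR 𝔓 m / 200) (pvohA 𝔓 m β))

/-- **the arm of the lane** of the relative colour `β` -/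
noncomputable def pvohN (m : ℕ) (zc : ℂ) (t : τ) (β : Bool) : Set ℂ × ℂ × ℂ :=
  (pvge2RN (zc + pvegYp 𝔓 m t) (I ^ pvxrA 𝔓 t) β (pvohA 𝔓 m β) (pvegR 𝔓 m / 200) (23 * pvegR 𝔓 m / 200) (3 * pvegR 𝔓 m / 20),
    pvge2P (zc + pvegYp 𝔓 m t) (I ^ pvxrA 𝔓 t) β (23 * pvegR 𝔓 m / 200) (pvohA 𝔓 m β), pvge2P (zc + pvegYp 𝔓 m t) (I ^ pvxrA 𝔓 t) β (3 * pvegR 𝔓 m / 20) (pvohA 𝔓 m β))

/-- **the mid legs** of the relative colour `β`: lane and bar of the mouth, corridor leg, bar in front of the plug -/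
noncomputable def pvohT (tb c₀ : ℝ) (m : ℕ) (zc : ℂ) (t : τ) (β : Bool) : List (Set ℂ × ℂ × ℂ) :=
  pvyrMid (zc + pvegYp 𝔓 m t) (I ^ pvxrA 𝔓 t) β (pvohA 𝔓 m β) (pvegR 𝔓 m / 200) (3 * pvegR 𝔓 m / 20) (pvyrSc 𝔓 m t - pvehDl 𝔓 m / 2 - pvehDl 𝔓 m * (1 / 2)) (pvehDl 𝔓 m / 100) (pvohLb 𝔓 m t β)
    (19 / 256) (23 / 256) (21 / 256) tb (1 / 128) (1 / 100) c₀ (51 / 100) (zc + pvefZ 𝔓 m t) (pvefD 𝔓 m t) (pvefW 𝔓 m t)

/-- **the bar in front of the plug** (the leg across the room of the half lane `β` of the entrance side of `u`) -/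
noncomputable def pvohD (tb : ℝ) (m : ℕ) (zc : ℂ) (t : τ) (β : Bool) : Set ℂ × ℂ × ℂ :=
  (pvyrBar β (23 / 256) tb (1 / 128) (1 / 100) (zc + pvefZ 𝔓 m t) (pvefD 𝔓 m t) (pvefW 𝔓 m t),
    pvljPt (zc + pvefZ 𝔓 m t) (pvefD 𝔓 m t) (pvefW 𝔓 m t) (pvefW 𝔓 m t).length tb (pvge2Sg β * (21 / 256)), pvljPt (zc + pvefZ 𝔓 m t) (pvefD 𝔓 m t) (pvefW 𝔓 m t) (pvefW 𝔓 m t).length tb (pvge2Sg β * (1 / 100)))

/-- **the closing set** of the arm of the relative colour `β` -/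
noncomputable def pvohSg (m : ℕ) (zc : ℂ) (t : τ) (β : Bool) : Set ℂ :=
  pvge2Cl (zc + pvegYp 𝔓 m t) (I ^ pvxrA 𝔓 t) β (pvohA 𝔓 m β) (23 * pvegR 𝔓 m / 200) (3 * pvegR 𝔓 m / 20) (pvehDl 𝔓 m / 512)

theorem pvoh_eqns_cite : True := by
  have := @pvohA.eq_1; have := @pvohLb.eq_1; have := @pvohC.eq_1; have := @pvohN.eq_1; have := @pvohT.eq_1; have := @pvohD.eq_1; have := @pvohSg.eq_1
  trivial

/-- **THE PATTERN OF 296 IS THE TWO ROUTES** -/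
theorem pvoh_pat (tb c₀ : ℝ) (m : ℕ) (zc : ℂ) (t : τ) (cl : Bool) : pvyrPatG 𝔓 tb c₀ m zc t true cl =
    [(cl, pvohC 𝔓 m zc t true :: pvohN 𝔓 m zc t true :: pvohT 𝔓 tb c₀ m zc t true), (!cl, pvohC 𝔓 m zc t false :: pvohN 𝔓 m zc t false :: pvohT 𝔓 tb c₀ m zc t false)] := rfl

/-- **THE TEST LINE `hpat`**: the copy pattern gives the two route events in relative colours -/
theorem pvoh_hpat {tb c₀ δ : ℝ} {m : ℕ} {zc : ℂ} {t : τ} {Y : Set ℂ} {κ : ℂ → Bool} (b : Bool) (h : cfOf Y κ ∈ pvkqPat δ (pvyrPatG 𝔓 tb c₀ m zc t true b)) (β : Bool) :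
    cfOf Y (pvhcK κ b) ∈ pvkqRtEv δ β (pvohC 𝔓 m zc t β :: pvohN 𝔓 m zc t β :: pvohT 𝔓 tb c₀ m zc t β) := by
  rw [pvoh_pat] at h
  cases β
  · have h1 := pvw7_pat_col' b h (a := !b) (ℓ := pvohC 𝔓 m zc t false :: pvohN 𝔓 m zc t false :: pvohT 𝔓 tb c₀ m zc t false) (by simp)
    have e : ((!b) == b) = false := by cases b <;> rfl
    rwa [e] at h1
  · have h1 := pvw7_pat_col' b h (a := b) (ℓ := pvohC 𝔓 m zc t true :: pvohN 𝔓 m zc t true :: pvohT 𝔓 tb c₀ m zc t true) (by simp)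
    have e : (b == b) = true := by cases b <;> rfl
    rwa [e] at h1

theorem pvoh_leg (tb c₀ : ℝ) (m : ℕ) (zc : ℂ) (t : τ) (β : Bool) : pvohD 𝔓 tb m zc t β ∈ pvohN 𝔓 m zc t β :: pvohT 𝔓 tb c₀ m zc t β := by
  simp [pvohT, pvyrMid, pvohD]

end legs

/-! ## 3. the fields -/

section fields

variable {τ : Type} {c : ℝ} {𝔓 : PvxPar τ c} {m : ℕ} {t : τ} {tb c₀ : ℝ}

theorem pvoh_u (𝔓 : PvxPar τ c) (t : τ) : ‖(I : ℂ) ^ pvxrA 𝔓 t‖ = 1 := by rw [norm_pow, Complex.norm_I, one_pow]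

theorem pvoh_Dl (h : PvefNdg 𝔓 m t) : 0 < pvehDl 𝔓 m ∧ 14 * pvehDl 𝔓 m ≤ pvegR 𝔓 m := by
  have hf := pvmv_fine h
  have hr := pvmv_R_pos h
  have hd := pvlm_Del_pos c m
  obtain ⟨d1, d2⟩ := pvmv_Dl_bounds h
  exact ⟨by linarith, by linarith⟩

/-- field `dl` -/
theorem pvoh_dl (h : PvefNdg 𝔓 m t) : 0 < pvehDl 𝔓 m / 512 := by have := (pvoh_Dl h).1; positivity

/-- field `rl` at `ρl = R / 1000` (and above) -/
theorem pvoh_rl (h : PvefNdg 𝔓 m t) {ρl : ℝ} (hl : pvegR 𝔓 m / 1000 ≤ ρl) : pvehDl 𝔓 m / 512 / 16 ≤ ρl := by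
  obtain ⟨d0, d1⟩ := pvoh_Dl h
  linarith

/-- **field `route`** -/
theorem pvoh_route (h : PvefNdg 𝔓 m t) (h1 : 1 / 128 + tb ≤ c₀) (h2 : c₀ ≤ 1) (h3 : 1 / 128 ≤ tb) (zc : ℂ) (β : Bool) :
    PvkqRoute (pvehDl 𝔓 m / 512) (pvohC 𝔓 m zc t β :: pvohN 𝔓 m zc t β :: pvohT 𝔓 tb c₀ m zc t β) := by
  have F := pvyr_fit_g h h1 h2 h3 le_rfl zc true true
  rw [pvoh_pat] at F
  cases β
  · exact F.route (!true, pvohC 𝔓 m zc t false :: pvohN 𝔓 m zc t false :: pvohT 𝔓 tb c₀ m zc t false) (by simp)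
  · exact F.route (true, pvohC 𝔓 m zc t true :: pvohN 𝔓 m zc t true :: pvohT 𝔓 tb c₀ m zc t true) (by simp)

/-- the numbers of the arm of the relative colour `β` -/
theorem pvoh_num (h : PvefNdg 𝔓 m t) {ρl b μ : ℝ} (ρ0 : 0 ≤ ρl) (ρ1 : 1000 * ρl ≤ pvegR 𝔓 m) (bμ0 : 0 ≤ b + μ) (bμ : b + μ ≤ pvegR 𝔓 m / 8) (β : Bool) :
    Pvge2Num (pvohA 𝔓 m β) (pvegR 𝔓 m / 200) (23 * pvegR 𝔓 m / 200) (23 * pvegR 𝔓 m / 200) (3 * pvegR 𝔓 m / 20) (pvehDl 𝔓 m / 512) ρl (21 * pvegR 𝔓 m / 200) b μ (pvegR 𝔓 m / 4) := by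
  obtain ⟨d0, d1⟩ := pvoh_Dl h
  cases β
  · exact pvoh_num₂ (pvmv_R_pos h) d0 d1 ρ0 ρ1 bμ0 bμ
  · exact pvoh_num₁ (pvmv_R_pos h) d0 d1 ρ0 ρ1 bμ0 bμ

/-- **THE ARM RECORD**, any side `xB` within `21 R / 200` of the centre of the tip cell, tip face `rt`, edges `2 ρ`, `rt + 2 ρ ≤ R / 8` -/
theorem pvoh_arm (h : PvefNdg 𝔓 m t) (zc : ℂ) {ρl rt ρ xB : ℝ} (ρ0 : 0 ≤ ρl) (ρ1 : 1000 * ρl ≤ pvegR 𝔓 m) (h0 : 0 ≤ rt + 2 * ρ) (h1 : rt + 2 * ρ ≤ pvegR 𝔓 m / 8)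
    (hB : xB ≤ ((starRingEnd ℂ) (I ^ pvxrA 𝔓 t) * (zc + pvegYp 𝔓 m t)).re + 21 * pvegR 𝔓 m / 200) (hB' : ((starRingEnd ℂ) (I ^ pvxrA 𝔓 t) * (zc + pvegYp 𝔓 m t)).re - 21 * pvegR 𝔓 m / 200 ≤ xB) (β : Bool) :
    PvhzArmReg ((starRingEnd ℂ) (I ^ pvxrA 𝔓 t)) xB (((starRingEnd ℂ) (I ^ pvxrA 𝔓 t) * (zc + pvegYp 𝔓 m t)).im - rt) (((starRingEnd ℂ) (I ^ pvxrA 𝔓 t) * (zc + pvegYp 𝔓 m t)).im + rt) (2 * ρ)
      (zc + pvegYp 𝔓 m t) (pvegR 𝔓 m / 4) ρl β (pvohN 𝔓 m zc t β).1 (pvohC 𝔓 m zc t β).1 (pvohSg 𝔓 m zc t β) :=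
  pvge2_armReg (pvoh_u 𝔓 t) (pvoh_num h ρ0 ρ1 h0 h1 β) hB hB' le_rfl le_rfl Subset.rfl Subset.rfl

/-- **field `arm1`** at `e₀ = 21 R / 200` -/
theorem pvoh_arm1 (h : PvefNdg 𝔓 m t) (zc : ℂ) {ρl rt ρ : ℝ} (ρ0 : 0 ≤ ρl) (ρ1 : 1000 * ρl ≤ pvegR 𝔓 m) (h0 : 0 ≤ rt + 2 * ρ) (h1 : rt + 2 * ρ ≤ pvegR 𝔓 m / 8) (β : Bool) :
    PvhzArmReg ((starRingEnd ℂ) (I ^ pvxrA 𝔓 t)) (((starRingEnd ℂ) (I ^ pvxrA 𝔓 t) * (zc + pvegYp 𝔓 m t)).re - 21 * pvegR 𝔓 m / 200)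
      (((starRingEnd ℂ) (I ^ pvxrA 𝔓 t) * (zc + pvegYp 𝔓 m t)).im - rt) (((starRingEnd ℂ) (I ^ pvxrA 𝔓 t) * (zc + pvegYp 𝔓 m t)).im + rt) (2 * ρ)
      (zc + pvegYp 𝔓 m t) (pvegR 𝔓 m / 4) ρl β (pvohN 𝔓 m zc t β).1 (pvohC 𝔓 m zc t β).1 (pvohSg 𝔓 m zc t β) :=
  pvoh_arm h zc ρ0 ρ1 h0 h1 (by have := pvmv_R_pos h; linarith) le_rfl β

/-- **field `arm2`** at `e₀ = 21 R / 200` -/
theorem pvoh_arm2 (h : PvefNdg 𝔓 m t) (zc : ℂ) {ρl rt ρ : ℝ} (ρ0 : 0 ≤ ρl) (ρ1 : 1000 * ρl ≤ pvegR 𝔓 m) (h0 : 0 ≤ rt + 2 * ρ) (h1 : rt + 2 * ρ ≤ pvegR 𝔓 m / 8) (β : Bool) :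
    PvhzArmReg ((starRingEnd ℂ) (I ^ pvxrA 𝔓 t)) (((starRingEnd ℂ) (I ^ pvxrA 𝔓 t) * (zc + pvegYp 𝔓 m t)).re + 21 * pvegR 𝔓 m / 200)
      (((starRingEnd ℂ) (I ^ pvxrA 𝔓 t) * (zc + pvegYp 𝔓 m t)).im - rt) (((starRingEnd ℂ) (I ^ pvxrA 𝔓 t) * (zc + pvegYp 𝔓 m t)).im + rt) (2 * ρ)
      (zc + pvegYp 𝔓 m t) (pvegR 𝔓 m / 4) ρl β (pvohN 𝔓 m zc t β).1 (pvohC 𝔓 m zc t β).1 (pvohSg 𝔓 m zc t β) :=
  pvoh_arm h zc ρ0 ρ1 h0 h1 le_rfl (by have := pvmv_R_pos h; linarith) β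

/-- **field `sN`** (`jN := 0`) -/
theorem pvoh_sN (𝔓 : PvxPar τ c) (m : ℕ) (zc : ℂ) (t : τ) (β : Bool) : pvhzSd (pvehDl 𝔓 m / 512) (pvkqCell (pvehDl 𝔓 m / 512) (pvohN 𝔓 m zc t β).2.2) 0 ⊆ pvohSg 𝔓 m zc t β :=
  (pvge2_sd_sub _ _ 0).trans (pvge2_Cl_cellN _)

/-- **field `sS`** (`jS := 0`) -/
theorem pvoh_sS (𝔓 : PvxPar τ c) (m : ℕ) (zc : ℂ) (t : τ) (β : Bool) : pvhzSd (pvehDl 𝔓 m / 512) (pvkqCell (pvehDl 𝔓 m / 512) (pvohC 𝔓 m zc t β).2.1) 0 ⊆ pvohSg 𝔓 m zc t β :=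
  (pvge2_sd_sub _ _ 0).trans (pvge2_Cl_cellS _)

/-- arm, C and closing set lie in the small mouth -/
theorem pvoh_arm_ball (h : PvefNdg 𝔓 m t) (zc : ℂ) (β : Bool) : (pvohC 𝔓 m zc t β).1 ∪ (pvohN 𝔓 m zc t β).1 ∪ pvohSg 𝔓 m zc t β ⊆ closedBall (zc + pvegYp 𝔓 m t) (pvegR 𝔓 m / 4) := by
  have hr := pvmv_R_pos h
  intro v hv
  rw [mem_closedBall_iff_norm]
  exact pvge2_arm_near (pvoh_u 𝔓 t) (pvoh_num h (ρl := 0) (b := 0) (μ := 0) le_rfl (by linarith) (by norm_num) (by linarith) β) ⟨v, hv, by rw [sub_self, norm_zero]⟩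

theorem pvoh_Sg_ball (h : PvefNdg 𝔓 m t) (zc : ℂ) (β : Bool) : pvohSg 𝔓 m zc t β ⊆ closedBall (zc + pvegYp 𝔓 m t) (pvegR 𝔓 m / 4) :=
  fun v hv => pvoh_arm_ball h zc β (Or.inr hv)

/-- **field `sgW`**: any window which contains the small mouth with the collar `μ` -/
theorem pvoh_sgW (h : PvefNdg 𝔓 m t) (zc : ℂ) {μ : ℝ} {W : Set ℂ} (hW : closedBall (zc + pvegYp 𝔓 m t) (pvegR 𝔓 m / 4 + μ) ⊆ W) (β : Bool) : pvohSg 𝔓 m zc t β ⊆ pvtrCore μ W := by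
  intro v hv w hw
  refine hW ?_
  have h1 := pvoh_Sg_ball h zc β hv
  rw [mem_closedBall, dist_eq_norm] at h1 hw ⊢
  calc ‖w - (zc + pvegYp 𝔓 m t)‖ = ‖(w - v) + (v - (zc + pvegYp 𝔓 m t))‖ := by congr 1; ring
    _ ≤ ‖w - v‖ + ‖v - (zc + pvegYp 𝔓 m t)‖ := norm_add_le _ _
    _ ≤ pvegR 𝔓 m / 4 + μ := by linarith

/-- field `sgc` (A form) -/
theorem pvoh_sgc (h : PvefNdg 𝔓 m t) (zc : ℂ) {μ' : ℝ} (hμ' : 0 ≤ μ') (β : Bool) : ∀ x ∈ pvohSg 𝔓 m zc t β, ‖x - (zc + pvegYp 𝔓 m t)‖ ≤ pvegR 𝔓 m / 4 + μ' := by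
  intro x hx
  have h1 := pvoh_Sg_ball h zc β hx
  rw [mem_closedBall, dist_eq_norm] at h1
  linarith

end fields

/-! ## 4. the record of 284 at the legs of record -/

/-- **THE ROOM FIELDS** of `Pvj8LayD` (payer 47 `Exit/GoodFY`) -/
structure PvohRm (L : PvilLk) (W Fr : Set ℂ) (μ ρ rs : ℝ) (c : ℂ) (eN : Bool → Set ℂ × ℂ × ℂ) (t : Bool → List (Set ℂ × ℂ × ℂ)) : Prop where
  bdd : Bornology.IsBounded L.Yin
  co : IsPreconnected L.Yinᶜ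
  collar : ∀ v ∈ L.Yin, closedBall v (3 * μ) ⊆ W
  core : ∀ w ∈ L.Yin, L.p.ty.b * L.p.h ≤ ‖w - L.p.z‖
  mouth : closedBall c (rs + 4 * ρ + μ) ⊆ L.Yin
  mid : ∀ β, ∀ w ∈ pvkqRtR (eN β :: t β), closedBall w (2 * μ) ⊆ L.Yin ∧ closedBall w μ ⊆ Fr

/-- **THE DOOR FIELDS** of `Pvj8LayD` (payer 215 `Exit/LayF`) -/
structure PvohDr (L : PvilLk) (N : PvwNum) (Fr : Set ℂ) (μ δ : ℝ) (eD : Bool → Set ℂ × ℂ × ℂ) (ζd : ℂ) (Rm Dr : Bool → Set ℂ) (xc xa xb y0 y1 : Bool → ℝ) : Prop where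
  nz : ‖ζd‖ = 1
  door : ∀ β, Pvge4DoorReg ζd δ μ (xc β) (xa β) (xb β) (y0 β) (y1 β) (Rm β) (eD β)
  foot : ∀ β, ∀ w ∈ ball L.p'.z (pvkdP L.p'.h).b, (ζd * w).re ≤ xc β
  tgt : ∀ β, ∀ w ∈ Dr β, xb β ≤ (ζd * w).re
  room : ∀ β, ∀ w ∈ Rm β, closedBall w μ ⊆ L.Yin
  roomF : ∀ β, ∀ w ∈ Rm β, xc β < (ζd * w).re → w ∈ Fr
  offBox : Disjoint (ball L.p'.z (pvkdP L.p'.h).b) (pvhaBx N L.p)

section lay

variable {τ : Type} {c : ℝ} {𝔓 : PvxPar τ c} {m : ℕ} {t : τ} {tb c₀ : ℝ} {L : PvilLk} {N : PvwNum} {W Fr : Set ℂ} {μ μ₀ rt : ℝ} {z ζd : ℂ} {Rm Dr : Bool → Set ℂ} {xc xa xb y0 y1 : Bool → ℝ}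

/-- **`Pvj8LayD` OF 284 AT THE LEGS OF THE PATTERN OF RECORD** `pvyrPatG 𝔓 tb c₀ m z t true cl` -/
theorem pvoh_layD (h : PvefNdg 𝔓 m t) (hΓ : (𝔓.Γ m).dout t = I ^ pvxrA 𝔓 t) (h1 : 1 / 128 + tb ≤ c₀) (h2 : c₀ ≤ 1) (h3 : 1 / 128 ≤ tb)
    (hμ : 0 < μ) (hμl : 1000 * μ ≤ pvegR 𝔓 m) (hμ₀ : 0 ≤ μ₀) (hrt0 : 0 ≤ rt) (hrt : rt + 2 * μ₀ < 21 * pvegR 𝔓 m / 200)
    (hW : closedBall (z + pvegYp 𝔓 m t) (pvegR 𝔓 m / 4 + μ) ⊆ W)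
    (A : PvohRm L W Fr μ μ₀ (pvegR 𝔓 m / 4) (z + pvegYp 𝔓 m t) (pvohN 𝔓 m z t) (pvohT 𝔓 tb c₀ m z t))
    (D : PvohDr L N Fr μ (pvehDl 𝔓 m / 512) (pvohD 𝔓 tb m z t) ζd Rm Dr xc xa xb y0 y1) :
    Pvj8LayD L N W Fr μ ((starRingEnd ℂ) ((𝔓.Γ m).dout t)) ((𝔓.ty t).cp (pvlmH m) z) (pvegR 𝔓 m / 4) μ₀ rt (21 * pvegR 𝔓 m / 200) (pvegR 𝔓 m / 1000) (pvehDl 𝔓 m / 512)
      (pvohC 𝔓 m z t) (pvohN 𝔓 m z t) (pvohD 𝔓 tb m z t) (pvohT 𝔓 tb c₀ m z t) (pvohSg 𝔓 m z t) (fun _ => 0) (fun _ => 0) ζd Rm Dr xc xa xb y0 y1 := by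
  have hr := pvmv_R_pos h
  rw [hΓ]
  exact
    { mu := hμ
      rho := hμ₀
      he := hrt
      bdd := A.bdd
      co := A.co
      collar := A.collar
      core := A.core
      dl := pvoh_dl h
      route := pvoh_route h h1 h2 h3 z
      arm1 := pvoh_arm1 h z (by positivity) (by linarith) (by linarith) (by linarith)
      arm2 := pvoh_arm2 h z (by positivity) (by linarith) (by linarith) (by linarith)
      rl := pvoh_rl h le_rfl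
      mul := by linarith
      sgW := pvoh_sgW h z hW
      jN4 := fun _ => by norm_num
      jS4 := fun _ => by norm_num
      sN := pvoh_sN 𝔓 m z t
      sS := pvoh_sS 𝔓 m z t
      mouth := A.mouth
      mid := A.mid
      leg := pvoh_leg 𝔓 tb c₀ m z t
      nz := D.nz
      door := D.door
      foot := D.foot
      tgt := D.tgt
      room := D.room
      roomF := D.roomF
      offBox := D.offBox }

/-- **THE NUMBERS AT THE TIP** (`PvhoTip` of 266) at the mesh of record `μ₀ = pvilMu / 8`, `rs = R / 4`, `rt = R / 10 + pvilMu / 2` -/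
theorem pvoh_tip (hL : PvegLev 𝔓 m) (h3 : 0 < 𝔓.num.rho3) (hb : pvlmDel c m ≤ (𝔓.ty t).b * pvlmH m) :
    PvhoTip 𝔓 m t (pvilMu 𝔓 m / 8) (𝔓.num.rho * pvlmH m / 4) (𝔓.num.rho * pvlmH m / 10 + pvilMu 𝔓 m / 2) := by
  obtain ⟨a1, a2, a3⟩ := pvho_mu hL h3
  have hd := pvlm_Del_pos c m
  exact ⟨a1, by linarith, by linarith, by linarith, le_rfl, by linarith, by linarith, by linarith⟩

/-- the two number lines of `pvoh_layD` at the numbers of `pvoh_tip` -/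
theorem pvoh_tip_lay (hL : PvegLev 𝔓 m) (h3 : 0 < 𝔓.num.rho3) : 0 < pvilMu 𝔓 m ∧ 1000 * pvilMu 𝔓 m ≤ pvegR 𝔓 m ∧ 0 ≤ pvegR 𝔓 m / 10 + pvilMu 𝔓 m / 2 ∧
    pvegR 𝔓 m / 10 + pvilMu 𝔓 m / 2 + 2 * (pvilMu 𝔓 m / 8) < 21 * pvegR 𝔓 m / 200 := by
  obtain ⟨a1, a2, a3⟩ := pvho_mu hL h3
  have e : pvegR 𝔓 m = 𝔓.num.rho * pvlmH m := rfl
  rw [e]
  exact ⟨by linarith, by linarith, by linarith, by linarith⟩

end lay

end Claimed.Agent.R289
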