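-- KEEP
import Claimed.Agent.R289.Exit.GoodFM
import Claimed.Agent.R289.Exit.HookTF
import Claimed.Agent.R289.Exit.EngU4
import Claimed.Agent.R289.Exit.ParEngH
import Claimed.Agent.R289.Tr.FrcDetO

/-!
# Row 289 (S0537), THE WALL, ROAD E, file Exit/GoodFY : THE ROOM FIELDS OF THE LAYOUT OF THE THICK RETURN `f` AT THE PATTERN OF RECORD      (helper47; prefix `pvei_`, defs `pvei…`)

PAYER FILE (split of 276, id 99800): the fields **`bdd co core collar mouth mid`** of `Pvj8Lay` / `Pvj8LayD` (284, `Tr/HookFA`) / `PvohLayD` (276, `Tr/HookFM`), and `ball` of `Pvj8Tip`, at the room `z + pveffY` of 182 and the pattern `pvyrPatG 𝔓 tb c₀` of 296.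
ONE STANDALONE LEMMA PER FIELD.   The numbers `μ ρ rs tb c₀` are ARGUMENTS (their inequalities are hypotheses), the window of the plug `O'` is an ARGUMENT (`O' ⊆ pvccSq 0 (σ Δ)`, `c₀ + s ≤ 1/2 - σ`): the old engine is `O' = pvehrO` (`σ = 1/4`), (U4) is `O' = pvnuRO` (`σ = 13/80`).
* sec. 1  MODEL FREE: the lane with its two caps `pveiLn`, **`pvei_fat`** (fattening, first and last cell and caps included), `pvei_win_sd` (where the legs `eN :: t` of one colour are)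
* sec. 2  AT THE MODEL: the thin room: `pvei_R_F`, `pvei_ln_fY0`, `pvei_thin_body`, `pvei_body_west`, `pvei_thin_fr`
* sec. 3  THE FIELDS: `pvei_bdd pvei_co pvei_co' pvei_core pvei_collar pvei_mouth pvei_ball pvei_mid`, **`pvei_rm`** = the record `PvohRm` of 276 (`Exit/HookTF`), `pvei_num`
-/

set_option autoImplicit false
set_option linter.unusedSectionVars false
set_option linter.unusedVariables false
set_option linter.unusedSimpArgs false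

namespace Claimed.Agent.R289

open Set Metric Complex

/-! ## 1. MODEL FREE -/

/-- **the lane of offsets `[a,b]` with its two caps**: depth `-x₀` behind the first door, depth `x₁` beyond the last door -/
def pveiLn (x₀ x₁ a b : ℝ) (z d : ℂ) (l : List PvtTurn) : Set ℂ :=
  pvccPl z d (pvljRect x₀ 0 a b) ∪ pvfeLanes a b z d l ∪ pvccPl (pvccZ z d l l.length) (pvccD d l l.length) (pvljRect 0 x₁ a b)

theorem pvei_eqns_cite : True := by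
  have := @pveiLn.eq_1
  trivial

theorem pvei_ln_mono {x₀ x₁ a b x₀' x₁' a' b' : ℝ} (h1 : x₀' ≤ x₀) (h2 : x₁ ≤ x₁') (h3 : a' ≤ a) (h4 : b ≤ b') (z d : ℂ) (l : List PvtTurn) : pveiLn x₀ x₁ a b z d l ⊆ pveiLn x₀' x₁' a' b' z d l :=
  union_subset_union (union_subset_union (pvccPl_mono _ _ (pvlj_rect_mono h1 le_rfl h3 h4)) (pvlj_lanes_mono h3 h4 _ _ _)) (pvccPl_mono _ _ (pvlj_rect_mono le_rfl h2 h3 h4))

/-- **a rectangle through the door `j`** lies in the lane with its caps -/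
theorem pvei_door (a b : ℝ) (z d : ℂ) (l : List PvtTurn) {j : ℕ} (hj : j ≤ l.length) {X₀ X₁ u v : ℝ}
    (h0 : j = 0 → X₀ ≤ u) (h0' : ∀ i, j = i + 1 → -(pvljLen a b (pvccT l i)) ≤ u) (h1 : j = l.length → v ≤ X₁) (h1' : j < l.length → v ≤ pvljLen a b (pvccT l j)) :
    pvccPl (pvccZ z d l j) (pvccD d l j) (pvljRect u v a b) ⊆ pveiLn X₀ X₁ a b z d l := by
  refine (pvlj_rect_split _ _ _ _ _ _).trans (union_subset ?_ ?_)
  · rcases Nat.eq_zero_or_pos j with rfl | hpos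
    · rw [pvccZ_zero, pvccD_zero]
      exact (pvccPl_mono _ _ (pvlj_rect_mono (h0 rfl) le_rfl le_rfl le_rfl)).trans (subset_union_left.trans subset_union_left)
    · obtain ⟨i, rfl⟩ : ∃ i, j = i + 1 := ⟨j - 1, by omega⟩
      exact ((pvccPl_mono _ _ (pvlj_rect_mono (h0' i rfl) le_rfl le_rfl le_rfl)).trans (pvlj_exit_sub a b z d l (by omega))).trans (subset_union_right.trans subset_union_left)
  · rcases hj.eq_or_lt with rfl | hlt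
    · exact (pvccPl_mono _ _ (pvlj_rect_mono le_rfl (h1 rfl) le_rfl le_rfl)).trans subset_union_right
    · exact ((pvccPl_mono _ _ (pvlj_rect_mono le_rfl (h1' hlt) le_rfl le_rfl)).trans (pvlj_entry_sub a b z d l hlt)).trans (subset_union_right.trans subset_union_left)

/-- **FATTENING, ALL CELLS AND THE CAPS**: the `s ‖d‖`-ball of a point of the lane `[a,b]` with caps `[x₀, 0]`, `[0, x₁]` lies in the lane `[a - s, b + s]` with caps `[x₀ - s, 0]`, `[0, x₁ + s]` -/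
theorem pvei_fat {x₀ x₁ a b s : ℝ} (ha : -(1 / 2) ≤ a - s) (hb : b + s ≤ 1 / 2) (hs0 : 0 ≤ s) (hs : s ≤ 1 / 2) (hx0 : x₀ ≤ 0) (hx1 : 0 ≤ x₁) (z : ℂ) {d : ℂ} (hd : d ≠ 0) {l : List PvtTurn}
    {p : ℂ} (hp : p ∈ pveiLn x₀ x₁ a b z d l) : closedBall p (s * ‖d‖) ⊆ pveiLn (x₀ - s) (x₁ + s) (a - s) (b + s) z d l := by
  have len : a ≤ b → ∀ τ : PvtTurn, s ≤ pvljLen (a - s) (b + s) τ := fun hab τ => pvlj_le_len (by linarith) (by linarith) hab hs τ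
  rcases hp with (⟨w, hw, rfl⟩ | hp) | ⟨w, hw, rfl⟩
  · have hab : a ≤ b := hw.2.2.1.trans hw.2.2.2
    have h1 := pvlj_ball_fat z hd s hw
    have h2 := pvei_door (a - s) (b + s) z d l (j := 0) (Nat.zero_le _) (X₀ := x₀ - s) (X₁ := x₁ + s) (u := x₀ - s) (v := 0 + s) (fun _ => le_rfl) (fun i hi => by omega)
      (fun _ => by linarith) (fun _ => by linarith [len hab (pvccT l 0)])
    rw [pvccZ_zero, pvccD_zero] at h2
    exact h1.trans h2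
  · obtain ⟨j, hj, hp⟩ := mem_iUnion₂.1 hp
    have hj : j < l.length := Finset.mem_range.1 hj
    obtain ⟨w, hw, rfl⟩ := hp
    have hab : a ≤ b := by
      obtain h | ⟨v, h, -⟩ := pvlj_lane_split _ hw
      · exact h.2.2.1.trans h.2.2.2
      · exact h.2.2.1.trans h.2.2.2
    rcases pvlj_lane_split _ hw with h | ⟨v, hv, rfl⟩
    · have h1 := pvlj_ball_fat (pvccZ z d l j) (pvlj_D_ne hd l j) s h
      rw [pvfe_norm_frame] at h1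
      exact h1.trans (pvei_door (a - s) (b + s) z d l hj.le (fun _ => by linarith) (fun i _ => by linarith [len hab (pvccT l i)]) (fun e => by omega) (fun _ => pvlj_half_len hs _))
    · have e : pvccZ z d l j + pvccD d l j * ((pvccT l j).mid + (pvccT l j).rot * v) = pvccZ z d l (j + 1) + pvccD d l (j + 1) * v := by
        rw [pvccZ_succ z d l hj, pvccD_succ d l hj]; ring
      show closedBall (pvccZ z d l j + pvccD d l j * ((pvccT l j).mid + (pvccT l j).rot * v)) _ ⊆ _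
      rw [e]
      have h1 := pvlj_ball_fat (pvccZ z d l (j + 1)) (pvlj_D_ne hd l (j + 1)) s hv
      rw [pvfe_norm_frame] at h1
      refine h1.trans (pvei_door (a - s) (b + s) z d l (Nat.succ_le_of_lt hj) (fun e => by omega) (fun i hi => ?_) (fun _ => by linarith) (fun _ => by linarith [len hab (pvccT l (j + 1))]))
      obtain rfl : j = i := by omega
      linarith [pvlj_half_len (a := a) (b := b) hs (pvccT l j)]
  · have hab : a ≤ b := hw.2.2.1.trans hw.2.2.2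
    have h1 := pvlj_ball_fat (pvccZ z d l l.length) (pvlj_D_ne hd l l.length) s hw
    rw [pvfe_norm_frame] at h1
    exact h1.trans (pvei_door (a - s) (b + s) z d l le_rfl (fun _ => by linarith) (fun i _ => by linarith [len hab (pvccT l i)]) (fun _ => le_rfl) (fun e => by omega))

/-- the region of a route with one more leg -/
theorem pvei_RtR_cons (e : Set ℂ × ℂ × ℂ) (ℓ : List (Set ℂ × ℂ × ℂ)) : pvkqRtR (e :: ℓ) = e.1 ∪ pvkqRtR ℓ := by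
  ext v
  simp only [pvkqRtR, List.mem_cons, mem_iUnion, mem_ofPred_eq, exists_prop, mem_union]
  constructor
  · rintro ⟨x, (rfl | hx), hv⟩
    · exact Or.inl hv
    · exact Or.inr ⟨x, hx, hv⟩
  · rintro (hv | ⟨x, hx, hv⟩)
    · exact ⟨e, Or.inl rfl, hv⟩
    · exact ⟨x, Or.inr hx, hv⟩

section window

variable {Y u : ℂ} {sd : Bool} {z d : ℂ} {l : List PvtTurn} {r Δ ρ b μ Sc lm tb c₀ a W : ℝ}

/-- **WHERE THE LEGS `eN :: t` OF ONE COLOUR ARE** (arm `a ∈ [27r/200, 4r/25]` on the side `sd`): in a rectangle of the funnel, `11 r / 100` in front of the centre of the tip cell, or in the lane `[-23/256, 23/256]` with the cap `[0, c₀]` beyond the last door -/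
theorem pvei_win_sd (G : PvyrGeo Y u sd z d l Δ (Sc - Δ / 2) lm c₀ W) (R : PvyrRec r Δ ρ b μ Sc lm) (ha1 : 27 * r / 200 ≤ a) (ha2 : a ≤ 4 * r / 25) (h1 : 1 / 128 + tb ≤ c₀) (h3 : 1 / 128 ≤ tb) :
    pvge2RN Y u sd a (r / 200) (23 * r / 200) (3 * r / 20) ∪
      pvkqRtR (pvyrMid Y u sd a (r / 200) (3 * r / 20) (Sc - Δ / 2 - Δ * (1 / 2)) (Δ / 100) (lm + Δ * (21 / 256)) (19 / 256) (23 / 256) (21 / 256) tb (1 / 128) (1 / 100) c₀ (51 / 100) z d l) ⊆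
      pvge2R Y u sd (11 * r / 100) (Sc - Δ / 2) (-(33 * r / 200)) (33 * r / 200) ∪ pveiLn 0 c₀ (-(23 / 256)) (23 / 256) z d l := by
  have g1 := R.r0; have g2 := R.Δ0; have g3 := R.Δhi; have g4 := R.Δlo; have g8 := R.s_lo; have g9 := abs_le.1 R.lat
  have lo : ∀ (g : ℝ), 0 ≤ g → -(23 / 256) ≤ pvmvLo sd g (23 / 256) := fun g hg => by cases sd <;> simp only [pvmvLo, if_true, Bool.false_eq_true, if_false] <;> linarith
  have hi : ∀ (g : ℝ), 0 ≤ g → pvmvHi sd g (23 / 256) ≤ 23 / 256 := fun g hg => by cases sd <;> simp only [pvmvHi, if_true, Bool.false_eq_true, if_false] <;> linarith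
  rw [pvyr_mid_R]
  rintro v (hv | (((hv | hv) | ((hv | hv) | hv)) | hv))
  · exact Or.inl (pvge2_R_mono (by linarith) (by linarith) (by linarith) (by linarith) hv)
  · exact Or.inl (pvge2_R_mono (by linarith) (by linarith) (by linarith) (by linarith) hv)
  · exact Or.inl (pvge2_R_mono (by linarith) (by linarith) (by linarith [g9.1]) (by linarith) hv)
  · obtain ⟨q1, q2, q3, q4⟩ := G.cap hv
    exact Or.inl ⟨by linarith, by linarith, by linarith [g9.1], by linarith [g9.2]⟩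
  · exact Or.inr (Or.inl (Or.inr (pvlj_lanes_mono (lo _ (by norm_num)) (hi _ (by norm_num)) _ _ _ hv)))
  · exact Or.inr (Or.inr (pvccPl_mono _ _ (pvlj_rect_mono le_rfl le_rfl (lo _ (by norm_num)) (hi _ (by norm_num))) hv))
  · exact Or.inr (Or.inr (pvccPl_mono _ _ (pvlj_rect_mono (by linarith) (by linarith) (lo _ (by norm_num)) (hi _ (by norm_num))) hv))

/-- **THE SAME WITH A COLLAR** `q ≤ s Δ` -/
theorem pvei_win_fat (G : PvyrGeo Y u sd z d l Δ (Sc - Δ / 2) lm c₀ W) (R : PvyrRec r Δ ρ b μ Sc lm) (ha1 : 27 * r / 200 ≤ a) (ha2 : a ≤ 4 * r / 25) (h1 : 1 / 128 + tb ≤ c₀) (h3 : 1 / 128 ≤ tb)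
    {s q : ℝ} (hs0 : 0 ≤ s) (hs : s ≤ 1 / 100) (hq : q ≤ s * Δ) {w : ℂ}
    (hw : w ∈ pvge2RN Y u sd a (r / 200) (23 * r / 200) (3 * r / 20) ∪
      pvkqRtR (pvyrMid Y u sd a (r / 200) (3 * r / 20) (Sc - Δ / 2 - Δ * (1 / 2)) (Δ / 100) (lm + Δ * (21 / 256)) (19 / 256) (23 / 256) (21 / 256) tb (1 / 128) (1 / 100) c₀ (51 / 100) z d l)) :
    closedBall w q ⊆ pvge2R Y u sd (11 * r / 100 - q) (Sc - Δ / 2 + q) (-(33 * r / 200) - q) (33 * r / 200 + q) ∪ pveiLn (-s) (c₀ + s) (-(23 / 256) - s) (23 / 256 + s) z d l := by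
  rcases pvei_win_sd G R ha1 ha2 h1 h3 hw with hw | hw
  · exact fun v hv => Or.inl (pvge2_R_nbd G.hu hw (mem_closedBall_iff_norm.1 hv))
  · have h := pvei_fat (s := s) (by linarith) (by linarith) hs0 (by linarith) le_rfl (by linarith) z G.d0 hw
    rw [G.hd, zero_sub] at h
    exact ((closedBall_subset_closedBall hq).trans h).trans subset_union_right

end window

/-! ## 2. AT THE MODEL: the thin room -/

theorem pvei_ln_sh {x₀ x₁ a b : ℝ} {zc z d w : ℂ} {l : List PvtTurn} (h : w ∈ pveiLn x₀ x₁ a b (zc + z) d l) : w - zc ∈ pveiLn x₀ x₁ a b z d l := by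
  have e : pvccZ (zc + z) d l l.length = zc + pvccZ z d l l.length := by
    unfold pvccZ
    ring
  rcases h with (h | h) | h
  · exact Or.inl (Or.inl (pvmv_pl_sh h))
  · exact Or.inl (Or.inr (pvmv_lanes_sh h))
  · rw [e] at h
    exact Or.inr (pvmv_pl_sh h)

section model

variable {τ : Type} {c : ℝ} {𝔓 : PvxPar τ c} {m : ℕ} {t : τ}

/-- **a rectangle of the frame of the mouth, with a collar `q ≤ δ`, lies in the funnel** -/
theorem pvei_R_F (h : PvefNdg 𝔓 m t) (zc : ℂ) (sd : Bool) {q : ℝ} (hq : q ≤ pvlmDel c m) :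
    pvge2R (zc + pvegYp 𝔓 m t) (I ^ pvxrA 𝔓 t) sd (11 * pvegR 𝔓 m / 100 - q) (pvyrSc 𝔓 m t - pvehDl 𝔓 m / 2 + q) (-(33 * pvegR 𝔓 m / 200) - q) (33 * pvegR 𝔓 m / 200 + q) ⊆ pvieSh zc (pvefF 𝔓 m t) := by
  have hf := pvmv_fine h
  have hr := pvmv_R_pos h
  have hd := pvlm_Del_pos c m
  obtain ⟨d1, d2⟩ := pvmv_Dl_bounds h
  obtain ⟨f1, f2, f3⟩ := pvef_C0_frame h
  have f3' := abs_le.1 f3
  rintro v ⟨q1, q2, q3, q4⟩
  rw [pveh_mem_sh]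
  rw [pvmv_S_sh] at q1 q2
  rw [pvmv_T_sh] at q3 q4
  have lv : |pvegL (pvegYp 𝔓 m t) (I ^ pvxrA 𝔓 t) (v - zc)| ≤ 33 * pvegR 𝔓 m / 200 + q := by
    have : |pvge2T (pvegYp 𝔓 m t) (I ^ pvxrA 𝔓 t) sd (v - zc)| = |pvegL (pvegYp 𝔓 m t) (I ^ pvxrA 𝔓 t) (v - zc)| := by
      unfold pvge2T pvegL
      rw [abs_mul, pvge2_sg_abs, one_mul]
    rw [← this, abs_le]
    exact ⟨by linarith, q4⟩
  have lv' := abs_le.1 lv
  refine ⟨?_, ?_, ?_⟩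
  · show pvegR 𝔓 m / 10 + 2 * pvlmDel c m ≤ pvge2S (pvegYp 𝔓 m t) (I ^ pvxrA 𝔓 t) (v - zc)
    linarith
  · show pvge2S (pvegYp 𝔓 m t) (I ^ pvxrA 𝔓 t) (v - zc) ≤ pvyrSc 𝔓 m t - pvlmDel c m / 4
    linarith
  · rw [abs_le]
    constructor <;> linarith [lv'.1, lv'.2, f3'.1, f3'.2]

/-- the lane with its caps lies in the outer room -/
theorem pvei_ln_fY0 (h : PvefNdg 𝔓 m t) {x₀ x₁ a b : ℝ} (h0 : -3 ≤ x₀) (h1 : x₁ ≤ 2 / 5) (ha : -(1 / 10) ≤ a) (hb : b ≤ 4 / 10) :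
    pveiLn x₀ x₁ a b (pvefZ 𝔓 m t) (pvefD 𝔓 m t) (pvefW 𝔓 m t) ⊆ pveffY0 𝔓 m t :=
  (pvei_ln_mono h0 h1 le_rfl le_rfl _ _ _).trans (pvef_Ln_fY0 h ha hb)

/-- the funnel lies in the body, off the block of the plug -/
theorem pvei_F_body (h : PvefNdg 𝔓 m t) {σ : ℝ} (hσ : σ ≤ 1 / 2) :
    pvefF 𝔓 m t ⊆ pvefBody (pvehDl 𝔓 m) ((pvxrGam 𝔓 m).zu t) (pvefZ 𝔓 m t) (pvefD 𝔓 m t) (pvefW 𝔓 m t) (pvefF 𝔓 m t) \ pvccSq ((pvxrGam 𝔓 m).zu t) (σ * pvehDl 𝔓 m) := by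
  have hΔ := pveh_Dl_pos (pvef_n0 h)
  intro v hF
  refine ⟨Or.inl (Or.inl hF), fun hq => ?_⟩
  have k1 := pvef_e_far h (Or.inl (pveh_sq_mono _ (by nlinarith) (pveh_open_sub _ _ hq)))
  have k2 := pvef_F_ball h hF
  rw [mem_closedBall_iff_norm] at k2
  linarith

/-- **the lane with its caps lies in the body, off the open square of half side `(1/2 - x₁) Δ` of the plug** -/
theorem pvei_ln_body (h : PvefNdg 𝔓 m t) {x₀ x₁ a b : ℝ} (h0 : -3 ≤ x₀) (hx : 0 ≤ x₁) (h1 : x₁ ≤ 2 / 5) (ha : -(1 / 2) ≤ a) (hb : b ≤ 1 / 2) :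
    pveiLn x₀ x₁ a b (pvefZ 𝔓 m t) (pvefD 𝔓 m t) (pvefW 𝔓 m t) ⊆
      pvefBody (pvehDl 𝔓 m) ((pvxrGam 𝔓 m).zu t) (pvefZ 𝔓 m t) (pvefD 𝔓 m t) (pvefW 𝔓 m t) (pvefF 𝔓 m t) \ pvccSq ((pvxrGam 𝔓 m).zu t) ((1 / 2 - x₁) * pvehDl 𝔓 m) := by
  have hΔ := pveh_Dl_pos (pvef_n0 h)
  rintro v ((hv | hv) | hv)
  · exact pvei_F_body h (by linarith) (pvef_cap h (pvccPl_mono _ _ (pvlj_rect_mono h0 le_rfl ha hb) hv))
  · have hB : v ∈ pvefBlocks (pvehDl 𝔓 m) (pvefZ 𝔓 m t) (pvefD 𝔓 m t) (pvefW 𝔓 m t) := pvmu_rv_lanes_blocks (pvef_n0 h) t (pvlj_lanes_mono ha hb _ _ _ hv)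
    refine ⟨Or.inl (Or.inr hB), fun hq => ?_⟩
    have hq' : pvccN (v - (pvxrGam 𝔓 m).zu t) < (1 / 2 - x₁) * pvehDl 𝔓 m := hq
    rcases pvef_q296_block_u h hB with k | k
    · have := k ((pvxrGam 𝔓 m).zu t) (by rw [pveh_mem_sq]; refine ⟨⟨?_, ?_⟩, ?_, ?_⟩ <;> linarith)
      nlinarith
    · have h5 : |(v - (pvxrGam 𝔓 m).zu t).re| ≤ pvccN (v - (pvxrGam 𝔓 m).zu t) := le_max_left _ _
      rw [sub_re] at h5
      have h6 := neg_abs_le (v.re - ((pvxrGam 𝔓 m).zu t).re)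
      nlinarith
  · have hWs := pvef_cap_west h (pvccPl_mono _ _ (pvlj_rect_mono le_rfl h1 ha hb) hv)
    refine ⟨Or.inr hWs, fun hq => ?_⟩
    have hq' : pvccN (v - (pvxrGam 𝔓 m).zu t) < (1 / 2 - x₁) * pvehDl 𝔓 m := hq
    rw [pvef_last_door h, pvef_last_dir h] at hv
    obtain ⟨w, ⟨w1, w2, w3, w4⟩, hw⟩ := hv
    have e1 : (v - (pvxrGam 𝔓 m).zu t).re = -(pvehDl 𝔓 m / 2) + pvehDl 𝔓 m * w.re := by
      rw [← hw]
      show ((pvxrGam 𝔓 m).zu t - (pvehDl 𝔓 m : ℂ) / 2 + (pvehDl 𝔓 m : ℂ) * w - (pvxrGam 𝔓 m).zu t).re = _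
      simp [Complex.re_ofReal_mul]
      ring
    have h5 : |(v - (pvxrGam 𝔓 m).zu t).re| ≤ pvccN (v - (pvxrGam 𝔓 m).zu t) := le_max_left _ _
    rw [e1] at h5
    have h6 := neg_abs_le (-(pvehDl 𝔓 m / 2) + pvehDl 𝔓 m * w.re)
    nlinarith

/-- **the body meets the old window of the plug in its West half only** -/
theorem pvei_body_west (h : PvefNdg 𝔓 m t) {v : ℂ} (hv : v ∈ pvefBody (pvehDl 𝔓 m) ((pvxrGam 𝔓 m).zu t) (pvefZ 𝔓 m t) (pvefD 𝔓 m t) (pvefW 𝔓 m t) (pvefF 𝔓 m t))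
    (hq : v ∈ pvccSq ((pvxrGam 𝔓 m).zu t) (pvehDl 𝔓 m / 2)) : (v - (pvxrGam 𝔓 m).zu t).re < 0 := by
  have hΔ := pveh_Dl_pos (pvef_n0 h)
  rcases hv with (hv | hv) | hv
  · exact absurd (by rwa [show (1 / 2 : ℝ) * pvehDl 𝔓 m = pvehDl 𝔓 m / 2 by ring]) (pvei_F_body h (σ := 1 / 2) le_rfl hv).2
  · have hq' : pvccN (v - (pvxrGam 𝔓 m).zu t) < pvehDl 𝔓 m / 2 := hq
    rcases pvef_q296_block_u h hv with k | k
    · have := k ((pvxrGam 𝔓 m).zu t) (by rw [pveh_mem_sq]; refine ⟨⟨?_, ?_⟩, ?_, ?_⟩ <;> linarith)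
      linarith
    · rw [sub_re]; linarith
  · rw [sub_re]; linarith [hv.2]

/-- **THE FRESH PART**: a point of the body off the square `σ Δ` of the plug lies in mouth `∪` tile `∪` West half of the ring (`O'` = the window of the plug, `O' ⊆ pvccSq 0 (σ Δ)`;   `O' = pvehrO`: the ring is empty) -/
theorem pvei_body_fr (h : PvefNdg 𝔓 m t) {σ : ℝ} {O' : Set ℂ} (hO : O' ⊆ pvccSq 0 (σ * pvehDl 𝔓 m)) {v : ℂ}
    (hv : v ∈ pvefBody (pvehDl 𝔓 m) ((pvxrGam 𝔓 m).zu t) (pvefZ 𝔓 m t) (pvefD 𝔓 m t) (pvefW 𝔓 m t) (pvefF 𝔓 m t) \ pvccSq ((pvxrGam 𝔓 m).zu t) (σ * pvehDl 𝔓 m)) :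
    v ∈ pvegOM 𝔓 m t ∪ (pveffK 𝔓 m t ∪ pvieSh ((pvxrGam 𝔓 m).zu t) (pvnuAW (pvehrO 𝔓 m) O')) := by
  have hΔ := pveh_Dl_pos (pvef_n0 h)
  by_cases hM : v ∈ pvegOM 𝔓 m t
  · exact Or.inl hM
  by_cases hq : v ∈ pvccSq ((pvxrGam 𝔓 m).zu t) (pvehDl 𝔓 m / 4)
  · refine Or.inr (Or.inr (pveh_mem_sh.2 ⟨⟨?_, fun hO' => hv.2 ?_⟩, ?_⟩))
    · rw [← pveh_mem_sh, pveh_sh_rO]; exact hq
    · have := hO hO'
      show pvccN (v - (pvxrGam 𝔓 m).zu t) < σ * pvehDl 𝔓 m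
      have h2 : pvccN (v - (pvxrGam 𝔓 m).zu t - 0) < σ * pvehDl 𝔓 m := this
      rwa [sub_zero] at h2
    · exact pvei_body_west h hv.1 (lt_of_lt_of_le (show pvccN (v - (pvxrGam 𝔓 m).zu t) < pvehDl 𝔓 m / 4 from hq) (by linarith))
  · exact Or.inr (Or.inl ⟨hv.1, fun hh => hh.elim hq hM⟩)

/-- the body is off the own-level box with its collar -/
theorem pvei_body_box (h : PvefNdg 𝔓 m t) : Disjoint (pvefBody (pvehDl 𝔓 m) ((pvxrGam 𝔓 m).zu t) (pvefZ 𝔓 m t) (pvefD 𝔓 m t) (pvefW 𝔓 m t) (pvefF 𝔓 m t)) (pviwBox 𝔓 m t) := by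
  rw [Set.disjoint_left]
  rintro w ((hw | hw) | hw) hb
  · exact Set.disjoint_left.1 (pvef_F_box h) hw hb
  · exact Set.disjoint_left.1 (pvef_blocks_box h) (Or.inl hw) hb
  · exact Set.disjoint_left.1 (pvef_blocks_box h) (Or.inr hw) hb

/-! ## 3. THE FIELDS -/

/-- **field `bdd`** -/
theorem pvei_bdd (h : PvefNdg 𝔓 m t) (z : ℂ) : Bornology.IsBounded (pvieSh z (pveffY 𝔓 m t)) := by
  have h1 : pvieSh z (pveffY 𝔓 m t) ⊆ pvieSh z (closedBall 0 _) := Set.image_mono (pvef_fY_bdd h)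
  rw [pveg_sh_ball] at h1
  exact isBounded_closedBall.subset h1

/-- **field `co`**, from the hole of the outer room (182: `Exit/ParEngFH`) -/
theorem pvei_co (h0 : IsPreconnected (pveffY0 𝔓 m t)ᶜ) (z : ℂ) : IsPreconnected (pvieSh z (pveffY 𝔓 m t))ᶜ := pvho_sh_co z (pvef_fY_hole h0)

/-- a point off the own-level box is off the disc of the core -/
theorem pvei_core_box (n : PvhoNum 𝔓) {z w : ℂ} (hw : w ∉ pvwSq z (pvwRad 𝔓.num (pvlmH m) (𝔓.ty t) (𝔓.ty t).k)) : (𝔓.ty t).b * pvlmH m ≤ ‖w - z‖ := by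
  have h1 := pvho_rad n m t
  have hh := pvlm_H_pos m
  by_contra hcon
  rw [not_le] at hcon
  exact hw ⟨(Complex.abs_re_le_norm _).trans (by linarith), (Complex.abs_im_le_norm _).trans (by linarith)⟩

/-- **field `core`** -/
theorem pvei_core (n : PvhoNum 𝔓) (hL : PvegLev 𝔓 m) (hT : pviwTyOk 𝔓 t) (h : PvefNdg 𝔓 m t) (z : ℂ) : ∀ w ∈ pvieSh z (pveffY 𝔓 m t), (𝔓.ty t).b * pvlmH m ≤ ‖w - z‖ := by
  have hΔ := pveh_Dl_pos (pvef_n0 h)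
  have hr := pvmv_R_pos h
  rintro _ ⟨v, hv, rfl⟩
  have hv0 := pvef_fY_sub0 m t hv
  rcases pvef_fY0_sub (pvef_n0 h) t hv0 with (h1 | h1) | h1
  · refine pvho_core_o n hL hT z ?_
    have h2 : ‖v - pvegYp 𝔓 m t‖ ≤ 5 * pvegR 𝔓 m / 16 := mem_closedBall_iff_norm.1 h1
    have e : z + v - (𝔓.ty t).cp (pvlmH m) z = v - pvegYp 𝔓 m t := by unfold PvwTy.cp pvegYp; ring
    show ‖z + v - (𝔓.ty t).cp (pvlmH m) z‖ ≤ pvegR 𝔓 m / 2
    rw [e]; linarith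
  · exact pvei_core_box n (pvho_box_off (pvef_fK_box h) ⟨v, h1, rfl⟩)
  · have h2 := pvef_fY0_back h v hv0 h1
    rw [pveh_sh_rO] at h1
    have h3 : v ∈ pvefWest (pvehDl 𝔓 m) ((pvxrGam 𝔓 m).zu t) := ⟨pveh_sq_mono _ (by linarith) (pveh_open_sub _ _ h1), by rw [sub_re] at h2; linarith⟩
    exact pvei_core_box n (pvho_box_off (pvef_blocks_box h) ⟨v, Or.inr h3, rfl⟩)

/-- **field `collar`**: window `:= mouth ∪ tile (with the West half of the ring) ∪ window of the plug` -/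
theorem pvei_collar (h : PvefNdg 𝔓 m t) (z : ℂ) {μ : ℝ} (hμ : 3 * μ ≤ pvefKa c m) {O' Mo Kt Dd : Set ℂ} (hM : pvieSh z (pvegOM 𝔓 m t) ⊆ Mo)
    (hK : pvieSh z (pveffK 𝔓 m t ∪ pvieSh ((pvxrGam 𝔓 m).zu t) (pvnuAW (pvehrO 𝔓 m) O')) ⊆ Kt) (hD : pvieSh z (pvieSh ((pvxrGam 𝔓 m).zu t) O') ⊆ Dd) :
    ∀ v ∈ pvieSh z (pveffY 𝔓 m t), closedBall v (3 * μ) ⊆ Mo ∪ Kt ∪ Dd := by
  have hΔ := pveh_Dl_pos (pvef_n0 h)
  rintro _ ⟨v, hv, rfl⟩ x hx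
  have hx' : x - z ∈ closedBall v (pvefKa c m) := by
    rw [mem_closedBall_iff_norm] at hx ⊢
    rw [show x - z - v = x - (z + v) by ring]
    linarith
  rcases pvef_fY_col h v hv hx' with (h1 | h1) | ⟨h1, h2⟩
  · exact Or.inl (Or.inl (hM (pveh_mem_sh.2 h1)))
  · exact Or.inl (Or.inr (hK (pveh_mem_sh.2 (Or.inl h1))))
  · by_cases hO : x - z - (pvxrGam 𝔓 m).zu t ∈ O'
    · exact Or.inr (hD (pveh_mem_sh.2 (pveh_mem_sh.2 hO)))
    · refine Or.inl (Or.inr (hK (pveh_mem_sh.2 (Or.inr (pveh_mem_sh.2 ⟨⟨pveh_mem_sh.1 h1, hO⟩, ?_⟩)))))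
      have h3 : (x - z - (pvxrGam 𝔓 m).zu t).re ≤ -(pvehDl 𝔓 m / 64) := h2
      show (x - z - (pvxrGam 𝔓 m).zu t).re < 0
      linarith

/-- **field `mouth`** -/
theorem pvei_mouth (𝔓 : PvxPar τ c) (m : ℕ) (t : τ) (z : ℂ) {a : ℝ} (ha : a ≤ 5 * pvegR 𝔓 m / 16 - pvefKa c m) : closedBall ((𝔓.ty t).cp (pvlmH m) z) a ⊆ pvieSh z (pveffY 𝔓 m t) := by
  have h1 : pvieSh z (closedBall (pvegYp 𝔓 m t) (5 * pvegR 𝔓 m / 16 - pvefKa c m)) ⊆ pvieSh z (pveffY 𝔓 m t) := Set.image_mono (pvef_fY_ball m t)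
  rw [pveg_sh_ball] at h1
  exact (closedBall_subset_closedBall ha).trans h1

/-- **field `ball` of the tip** -/
theorem pvei_ball (𝔓 : PvxPar τ c) (m : ℕ) (t : τ) (z : ℂ) {a : ℝ} (ha : a ≤ 5 * pvegR 𝔓 m / 16) : closedBall ((𝔓.ty t).cp (pvlmH m) z) a ⊆ pvieSh z (pvegOM 𝔓 m t) := by
  rw [pvho_oM]
  exact closedBall_subset_closedBall ha

theorem pvei_Lb (𝔓 : PvxPar τ c) (m : ℕ) (t : τ) (β : Bool) : pvohLb 𝔓 m t β = pvyrLam 𝔓 m t β + pvehDl 𝔓 m * (21 / 256) := by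
  cases β
  · have e : pvyrLam 𝔓 m t false = -pvyrLam 𝔓 m t true := pvge2_T_flip _ _ true _
    rw [e]; rfl
  · rfl

/-- **THE LEGS `eN :: t` WITH A COLLAR `q` LIE IN THE THIN ROOM**: funnel `∪` lane `[-23/256 - s, 23/256 + s]` with the caps `[-s, 0]`, `[0, c₀ + s]` -/
theorem pvei_thin (h : PvefNdg 𝔓 m t) (z : ℂ) {tb c₀ s q : ℝ} (h1 : 1 / 128 + tb ≤ c₀) (h2 : c₀ ≤ 1) (h3 : 1 / 128 ≤ tb) (hs0 : 0 ≤ s) (hs : s ≤ 1 / 100) (hq : q ≤ s * pvehDl 𝔓 m) (hq' : q ≤ pvlmDel c m)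
    (β : Bool) {w : ℂ} (hw : w ∈ pvkqRtR (pvohN 𝔓 m z t β :: pvohT 𝔓 tb c₀ m z t β)) :
    closedBall w q ⊆ pvieSh z (pvefF 𝔓 m t ∪ pveiLn (-s) (c₀ + s) (-(23 / 256) - s) (23 / 256 + s) (pvefZ 𝔓 m t) (pvefD 𝔓 m t) (pvefW 𝔓 m t)) := by
  have hr := pvmv_R_pos h
  have G := pvyr_geo_f h z β h2
  have R := pvyr_rec_f h β (ρ := 0) (b := 0) (μ := 0) le_rfl (by linarith) (by norm_num) (by linarith)
  rw [pvei_RtR_cons] at hw
  unfold pvohN pvohT at hw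
  rw [pvei_Lb] at hw
  have hA1 : 27 * pvegR 𝔓 m / 200 ≤ pvohA 𝔓 m β := by cases β <;> simp only [pvohA, cond_true, cond_false] <;> linarith
  have hA2 : pvohA 𝔓 m β ≤ 4 * pvegR 𝔓 m / 25 := by cases β <;> simp only [pvohA, cond_true, cond_false] <;> linarith
  intro x hx
  rcases pvei_win_fat G R hA1 hA2 h1 h3 hs0 hs hq hw hx with hx | hx
  · exact Set.image_mono subset_union_left (pvei_R_F h z β hq' hx)
  · exact pveh_mem_sh.2 (Or.inr (pvei_ln_sh hx))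

/-- **field `mid`**, at the legs of record of 276 (`Exit/HookTF`): `μ ≤ δ / 1000`;   `O'` = the window of the plug, in the square `σ Δ`, `c₀ + 1/1000 ≤ 1/2 - σ` -/
theorem pvei_mid (h : PvefNdg 𝔓 m t) (z : ℂ) {tb c₀ μ σ : ℝ} {O' Mo Kt : Set ℂ} (h1 : 1 / 128 + tb ≤ c₀) (h3 : 1 / 128 ≤ tb) (hμ0 : 0 ≤ μ) (hμ : μ ≤ pvlmDel c m / 1000)
    (hc : c₀ + 1 / 1000 ≤ 1 / 2 - σ) (hc' : c₀ + 1 / 1000 ≤ 2 / 5) (hO : O' ⊆ pvccSq 0 (σ * pvehDl 𝔓 m)) (hM : pvieSh z (pvegOM 𝔓 m t) ⊆ Mo)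
    (hK : pvieSh z (pveffK 𝔓 m t ∪ pvieSh ((pvxrGam 𝔓 m).zu t) (pvnuAW (pvehrO 𝔓 m) O')) ⊆ Kt) :
    ∀ β, ∀ w ∈ pvkqRtR (pvohN 𝔓 m z t β :: pvohT 𝔓 tb c₀ m z t β), closedBall w (2 * μ) ⊆ pvieSh z (pveffY 𝔓 m t) ∧ closedBall w μ ⊆ (Mo ∪ Kt) \ pvwSq z (pviwRad 𝔓 m t) := by
  have hΔ := pveh_Dl_pos (pvef_n0 h)
  have hδ := pvlm_Del_pos c m
  obtain ⟨d1, -, d3⟩ := pvef_Dl_bounds h
  have hKa : pvefKa c m = 3 * pvlmDel c m / 1000 := rfl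
  intro β w hw
  have T := pvei_thin h z (s := 1 / 1000) (q := 2 * μ + pvefKa c m) h1 (by linarith) h3 (by norm_num) (by norm_num) (by rw [hKa]; linarith) (by rw [hKa]; linarith) β hw
  constructor
  · intro x hx
    refine pveh_mem_sh.2 (pvef_fY_of fun y hy => ?_)
    have hy' : z + y ∈ closedBall w (2 * μ + pvefKa c m) := by
      rw [mem_closedBall_iff_norm] at hx hy ⊢
      have e : z + y - w = (y - (x - z)) + (x - w) := by ring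
      rw [e]
      linarith [norm_add_le (y - (x - z)) (x - w)]
    have h5 := pveh_mem_sh.1 (T hy')
    rw [add_sub_cancel_left] at h5
    rcases h5 with h5 | h5
    · exact Or.inl (Or.inl (Or.inl h5))
    · exact pvei_ln_fY0 h (by norm_num) hc' (by norm_num) (by norm_num) h5
  · intro x hx
    have hx' : x ∈ closedBall w (2 * μ + pvefKa c m) := closedBall_subset_closedBall (by rw [hKa]; linarith) hx
    have h5 := pveh_mem_sh.1 (T hx')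
    have h6 : x - z ∈ pvefBody (pvehDl 𝔓 m) ((pvxrGam 𝔓 m).zu t) (pvefZ 𝔓 m t) (pvefD 𝔓 m t) (pvefW 𝔓 m t) (pvefF 𝔓 m t) \ pvccSq ((pvxrGam 𝔓 m).zu t) (σ * pvehDl 𝔓 m) := by
      rcases h5 with h5 | h5
      · exact pvei_F_body h (by linarith) h5
      · have h7 := pvei_ln_body h (by norm_num) (by linarith) hc' (by norm_num) (by norm_num) h5
        refine ⟨h7.1, fun hq => h7.2 (lt_of_lt_of_le (show pvccN (x - z - (pvxrGam 𝔓 m).zu t) < σ * pvehDl 𝔓 m from hq) (by nlinarith))⟩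
    refine ⟨?_, pvho_box_off (pvei_body_box h) (pveh_mem_sh.2 h6.1)⟩
    rcases pvei_body_fr h hO h6 with h7 | h7
    · exact Or.inl (hM (pveh_mem_sh.2 h7))
    · exact Or.inr (hK (pveh_mem_sh.2 h7))

/-- **field `co`**, no debt (hole of the outer room: `pvrh_fY0` of `Exit/ParEngH`) -/
theorem pvei_co' (h : PvefNdg 𝔓 m t) (z : ℂ) : IsPreconnected (pvieSh z (pveffY 𝔓 m t))ᶜ := pvei_co (pvrh_fY0 h) z

/-- **THE ROOM RECORD `PvohRm` OF 276 AT THE MODEL**: any plug, any mark;   window `Mo ∪ Kt ∪ Dd`, fresh part `(Mo ∪ Kt) \ own box`;   `μ ≤ δ / 1000`, `R/4 + 4 ρ + μ ≤ 5R/16 - 3δ/1000` -/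
theorem pvei_rm (n : PvhoNum 𝔓) (hL : PvegLev 𝔓 m) (hT : pviwTyOk 𝔓 t) (h : PvefNdg 𝔓 m t) (z : ℂ) {tb c₀ μ ρ σ : ℝ} {O' Mo Kt Dd Mk : Set ℂ} (p' : PvilPl) (b b' : Bool)
    (h1 : 1 / 128 + tb ≤ c₀) (h3 : 1 / 128 ≤ tb) (hμ0 : 0 ≤ μ) (hμ : μ ≤ pvlmDel c m / 1000) (hρ : pvegR 𝔓 m / 4 + 4 * ρ + μ ≤ 5 * pvegR 𝔓 m / 16 - pvefKa c m)
    (hc : c₀ + 1 / 1000 ≤ 1 / 2 - σ) (hc' : c₀ + 1 / 1000 ≤ 2 / 5) (hO : O' ⊆ pvccSq 0 (σ * pvehDl 𝔓 m)) (hM : pvieSh z (pvegOM 𝔓 m t) ⊆ Mo)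
    (hK : pvieSh z (pveffK 𝔓 m t ∪ pvieSh ((pvxrGam 𝔓 m).zu t) (pvnuAW (pvehrO 𝔓 m) O')) ⊆ Kt) (hD : pvieSh z (pvieSh ((pvxrGam 𝔓 m).zu t) O') ⊆ Dd) :
    PvohRm ⟨pvilPin 𝔓 m z t, p', pvieSh z (pveffY 𝔓 m t), Mk, b, b'⟩ (Mo ∪ Kt ∪ Dd) ((Mo ∪ Kt) \ pvwSq z (pviwRad 𝔓 m t)) μ ρ (pvegR 𝔓 m / 4) (z + pvegYp 𝔓 m t) (pvohN 𝔓 m z t) (pvohT 𝔓 tb c₀ m z t) where
  bdd := pvei_bdd h z
  co := pvei_co' h z
  collar := pvei_collar h z (by show 3 * μ ≤ 3 * pvlmDel c m / 1000; linarith) hM hK hD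
  core := pvei_core n hL hT h z
  mouth := pvei_mouth 𝔓 m t z hρ
  mid := pvei_mid h z h1 h3 hμ0 hμ hc hc' hO hM hK

/-- the numbers of record: `μ = pvilMu`, `ρ = pvilMu / 8` -/
theorem pvei_num (h : PvefNdg 𝔓 m t) (h3 : 0 ≤ 𝔓.num.rho3) : 0 ≤ pvilMu 𝔓 m ∧ pvilMu 𝔓 m ≤ pvlmDel c m / 1000 ∧ pvegR 𝔓 m / 4 + 4 * (pvilMu 𝔓 m / 8) + pvilMu 𝔓 m ≤ 5 * pvegR 𝔓 m / 16 - pvefKa c m := by
  have hδ := pvlm_Del_pos c m
  have hf := pvmv_fine h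
  have hH := pvlm_H_pos m
  have h1 : min (pvlmDel c m) (𝔓.num.rho3 * pvlmH m) ≤ pvlmDel c m := min_le_left _ _
  have h2 : 0 ≤ min (pvlmDel c m) (𝔓.num.rho3 * pvlmH m) := le_min hδ.le (mul_nonneg h3 hH.le)
  have hKa : pvefKa c m = 3 * pvlmDel c m / 1000 := rfl
  have e : pvilMu 𝔓 m = min (pvlmDel c m) (𝔓.num.rho3 * pvlmH m) / 1000 := rfl
  rw [hKa, e]
  refine ⟨by linarith, by linarith, by linarith⟩

end model

end Claimed.Agent.R289
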