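-- KEEP
import Claimed.Agent.R289.Tr.HookFA
import Claimed.Agent.R289.Exit.GoodFM
import Claimed.Agent.R289.Exit.EngU4
import Claimed.Agent.R289.Exit.HookTF

/-!
# Row 289 (S0537), THE WALL, ROAD E, E10 AT THE HYBRID ENDS, (b3) DET, file Exit/LayF : THE DOOR SIDE OF THE THICK RETURN `f` AT THE RECORD      (helper215; prefix `pvmu_lf_`, defs `pvmuLf…`, `PvmuLf…`)

CONSUMERS: the assembler of `Pvj8Lay` / `Pvj8LayD` (284, `Tr/HookFA`) / `PvohLayD` (276, `Tr/HookFM`, `Exit/HookTF`): the SEVEN LAST FIELDS `nz door foot tgt room roomF offBox`, same words.      0 sorry.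
PICTURE.   The corridor of `f` (182) ends at the WEST door `zu - Δ/2` of the block of the reference plug, direction `Δ` (East).   The plug: centre `zu`, direction `1`, unit `r = Δ/20`, window `13 Δ/80` (U4 of 84).
The half lanes of the ENTRANCE side run WEST: picture turned by `ζd = -1`;   narrow part beyond `3r`, targets beyond `4r`;   black lane = North = LEFT of the corridor = side `true`.
The bar of the pattern of 296 (`pvyrBar β 23/256 tb 1/128 1/100`, from the offset `21/256` to the offset `1/100`) has the abscissa `(1/2 - tb) Δ ± Δ/128` in that picture: for `tb ∈ [197/640, 13/40]` (`51/160` of R27) it lies between the cut `13 Δ/80 + 2μ` and the targets `4r = Δ/5`.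
* sec. 1  MODEL FREE: `PvmuLfDoor` (the seven fields), `PvmuLfNum` (nine inequalities), `pvmuLfLeg`, `pvmu_lf_leg_mem` (it is the last leg of `pvyrMid`), `pvmu_lf_room_rect`, **`pvmu_lf_doorReg`** (`Pvge4DoorReg` of 298), `pvmu_lf_foot`, `pvmu_lf_tgt`
* sec. 2  AT `Exit/ParEngF` + `Exit/EngU4`: `pvmu_lf_blockU`, **`pvmu_lf_room`** (room `pveffY`), **`pvmu_lf_roomF`** (tile `pvnuFK`, off the own-level box), **`pvmu_lf_offBox`**, `pvmu_lf_num`, names `pvmuLfXc Xa Xb Y0 Y1 D`,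
  **`pvmu_lf_door`** : `PvmuLfDoor ⟨pvilPin 𝔓 m z t, pvilPlug (pvurRu 𝔓 m) (pvieZu 𝔓 m z t) 1, z + pveffY, Mk, false, true⟩ …`, `pvmu_lf_door'` (the names of the engine as variables with equations)
* sec. 3  `pvmu_lf_D_eq` (`pvmuLfD = pvohD` of 276, rfl), `PvmuLfDoor.toDr`, **`pvmu_lf_dr`** : `PvohDr` OF 276 AT THE RECORD (slot `D` of `pvoh_layD`)
-/

set_option autoImplicit false
set_option linter.unusedSectionVars false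
set_option linter.unusedVariables false
set_option linter.unusedSimpArgs false

namespace Claimed.Agent.R289

open Set Metric Complex

/-! ## 1. the record of the door side, the numbers, the leg -/

/-- **THE DOOR SIDE OF A LINK `pin → door type plug`** = the seven last fields of `Pvj8Lay` / `Pvj8LayD` (284) / `PvohLayD` (276), same words -/
structure PvmuLfDoor (L : PvilLk) (N : PvwNum) (Fr : Set ℂ) (μ δ : ℝ) (eD : Bool → Set ℂ × ℂ × ℂ) (ζd : ℂ) (Rm Dr : Bool → Set ℂ) (xc xa xb y0 y1 : Bool → ℝ) : Prop where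
  nz : ‖ζd‖ = 1
  door : ∀ β, Pvge4DoorReg ζd δ μ (xc β) (xa β) (xb β) (y0 β) (y1 β) (Rm β) (eD β)
  foot : ∀ β, ∀ w ∈ ball L.p'.z (pvkdP L.p'.h).b, (ζd * w).re ≤ xc β
  tgt : ∀ β, ∀ w ∈ Dr β, xb β ≤ (ζd * w).re
  room : ∀ β, ∀ w ∈ Rm β, closedBall w μ ⊆ L.Yin
  roomF : ∀ β, ∀ w ∈ Rm β, xc β < (ζd * w).re → w ∈ Fr
  offBox : Disjoint (ball L.p'.z (pvkdP L.p'.h).b) (pvhaBx N L.p)

/-- **THE NUMBERS AT THE WEST DOOR**: block `Δ`, unit `r` of the plug, mesh `μ`, cells `δ`, bar `tb wb ob u₀` (in units `Δ`, beyond the west door of the block), cut at `cx` from the centre of the plug -/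
structure PvmuLfNum (Δ r μ δ tb wb ob u₀ cx : ℝ) : Prop where
  μ0 : 0 < μ
  r0 : 0 < r
  Δ0 : 0 < Δ
  wb0 : 0 ≤ wb
  cx3 : 3 * r ≤ cx
  cut : cx + 2 * μ ≤ (1 / 2 - tb - wb) * Δ
  tgt : (1 / 2 - tb + wb) * Δ ≤ 4 * r
  up : 3 * r / 2 + μ + 3 / 2 * δ ≤ Δ * u₀
  lo : Δ * ob + μ + 3 / 2 * δ ≤ r / 2

/-- **THE LEG ACROSS THE HALF LANE OF COLOUR `β`** = the bar in front of the plug on the side `β` of the corridor (last leg of `pvyrMid` of 296) -/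
noncomputable def pvmuLfLeg (b₀ u₀ tb wb ob : ℝ) (z d : ℂ) (l : List PvtTurn) (β : Bool) : Set ℂ × ℂ × ℂ :=
  (pvyrBar β b₀ tb wb ob z d l, pvljPt z d l l.length tb (pvge2Sg β * u₀), pvljPt z d l l.length tb (pvge2Sg β * ob))

theorem pvmu_lf_eqns_cite1 : True := by
  have := @pvmuLfLeg.eq_1
  trivial

theorem pvmu_lf_leg_mem (Y u : ℂ) (β : Bool) (a t x₂ sb t₂ lb a₀ b₀ u₀ tb wb ob c₀ c₁ : ℝ) (z d : ℂ) (l : List PvtTurn) :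
    pvmuLfLeg b₀ u₀ tb wb ob z d l β ∈ pvyrMid Y u β a t x₂ sb t₂ lb a₀ b₀ u₀ tb wb ob c₀ c₁ z d l := by
  simp [pvyrMid, pvmuLfLeg]

theorem pvmu_lf_Z : pvvxZ 1 false = -1 := by simp [pvvxZ]

section free

variable {Δ r μ δ tb wb ob u₀ cx : ℝ} {zd z₀ d₀ : ℂ} {l : List PvtTurn} {𝔱 : PvhfTr} {a s : ℝ}

/-- the placed truncated room of the entrance side, direction `1`: where it is -/
theorem pvmu_lf_room_rect (hr0 : 0 < r) (hs : 0 < s) (hr : s * a = r) (hL : 𝔱.Ln = (pvhfT a).Ln) {β : Bool} {w : ℂ} (hw : w ∈ pvkdAt zd (1 * (s : ℂ)) (𝔱.Ln false β)) :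
    -(5 * r) ≤ (w - zd).re ∧ (w - zd).re ≤ -(r / 2) ∧ -(3 * r / 2) ≤ (w - zd).im ∧ (w - zd).im ≤ 3 * r / 2 := by
  rw [hL, pvvx_at_Ln hs, hr] at hw
  have key : ∀ x0 x1 y0 y1 : ℝ, w ∈ pvkdAt zd 1 (pvkdRect false x0 x1 y0 y1) → -x1 ≤ (w - zd).re ∧ (w - zd).re ≤ -x0 ∧ y0 ≤ (w - zd).im ∧ (w - zd).im ≤ y1 := by
    rintro x0 x1 y0 y1 ⟨u, hu, rfl⟩
    obtain ⟨h1, h2, h3, h4⟩ : u ∈ rswRect (-x1) (-x0) y0 y1 := hu
    have e : pvthSim zd 1 u - zd = u := by unfold pvthSim; ring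
    rw [e]
    exact ⟨h1, h2, h3, h4⟩
  unfold pvkdAt at hw
  cases β
  · have hw' : w ∈ pvkdAt zd 1 (pvkdRect false (r / 2) (3 * r) (-(3 * r / 2)) (r / 2)) ∪ pvkdAt zd 1 (pvkdRect false (2 * r) (5 * r) (-(3 * r / 2)) (-(r / 2))) := by
      unfold pvkdAt
      rw [← image_union]
      exact hw
    rcases hw' with h | h
    · obtain ⟨h1, h2, h3, h4⟩ := key _ _ _ _ h
      exact ⟨by linarith, by linarith, by linarith, by linarith⟩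
    · obtain ⟨h1, h2, h3, h4⟩ := key _ _ _ _ h
      exact ⟨by linarith, by linarith, by linarith, by linarith⟩
  · have hw' : w ∈ pvkdAt zd 1 (pvkdRect false (r / 2) (3 * r) (-(r / 2)) (3 * r / 2)) ∪ pvkdAt zd 1 (pvkdRect false (2 * r) (5 * r) (r / 2) (3 * r / 2)) := by
      unfold pvkdAt
      rw [← image_union]
      exact hw
    rcases hw' with h | h
    · obtain ⟨h1, h2, h3, h4⟩ := key _ _ _ _ h
      exact ⟨by linarith, by linarith, by linarith, by linarith⟩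
    · obtain ⟨h1, h2, h3, h4⟩ := key _ _ _ _ h
      exact ⟨by linarith, by linarith, by linarith, by linarith⟩

/-- a point of the frame of the last door -/
theorem pvmu_lf_pt (hZ : pvccZ z₀ d₀ l l.length = zd - (Δ : ℂ) / 2) (hD : pvccD d₀ l l.length = (Δ : ℂ)) (x y : ℝ) :
    pvljPt z₀ d₀ l l.length x y = zd + (((x - 1 / 2) * Δ : ℝ) : ℂ) + ((y * Δ : ℝ) : ℂ) * I := by
  unfold pvljPt
  rw [hZ, hD]
  push_cast
  ring

/-- **THE CUT DOOR RECORD OF 298 AT THE WEST DOOR**, colour `β` on the side `β` of the corridor, picture turned by `-1` -/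
theorem pvmu_lf_doorReg (n : PvmuLfNum Δ r μ δ tb wb ob u₀ cx) (hZ : pvccZ z₀ d₀ l l.length = zd - (Δ : ℂ) / 2) (hD : pvccD d₀ l l.length = (Δ : ℂ))
    (hs : 0 < s) (hr : s * a = r) (hL : 𝔱.Ln = (pvhfT a).Ln) (b₀ : ℝ) (β : Bool) :
    Pvge4DoorReg (-1) δ μ (-zd.re + cx) (-zd.re + (1 / 2 - tb - wb) * Δ) (-zd.re + (1 / 2 - tb + wb) * Δ) (-zd.im + pvvxLo r false β - μ) (-zd.im + pvvxHi r false β + μ)
      (pvkdAt zd (1 * (s : ℂ)) (𝔱.Ln false β)) (pvmuLfLeg b₀ u₀ tb wb ob z₀ d₀ l β) := by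
  have n1 := n.μ0; have n2 := n.r0; have n3 := n.Δ0; have n4 := n.wb0; have n5 := n.cx3; have n6 := n.cut; have n7 := n.tgt; have n8 := n.up; have n9 := n.lo
  refine ⟨n1, by linarith, by nlinarith, ?_, ?_, ?_⟩
  · intro w hw hx
    rw [hL, pvvx_at_Ln hs, hr] at hw
    have h := pvvx_rec_Ln (d := 1) norm_one false β zd hw (by
      rw [pvmu_lf_Z]
      simp only [neg_mul, one_mul, neg_re] at hx ⊢
      linarith)
    rw [pvmu_lf_Z] at h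
    simp only [neg_mul, one_mul, neg_im] at h ⊢
    constructor <;> linarith [h.1, h.2]
  · rintro _ ⟨v, ⟨v1, v2, v3, v4⟩, rfl⟩
    rw [hZ, hD]
    simp only [neg_mul, one_mul, neg_re, add_re, sub_re, mul_re, ofReal_re, ofReal_im, zero_mul, sub_zero, div_ofNat_re]
    constructor <;> nlinarith
  · show ((-1 * pvljPt z₀ d₀ l l.length tb (pvge2Sg β * u₀)).im + 3 / 2 * δ ≤ _ ∧ _ + 3 / 2 * δ ≤ (-1 * pvljPt z₀ d₀ l l.length tb (pvge2Sg β * ob)).im) ∨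
      ((-1 * pvljPt z₀ d₀ l l.length tb (pvge2Sg β * ob)).im + 3 / 2 * δ ≤ _ ∧ _ + 3 / 2 * δ ≤ (-1 * pvljPt z₀ d₀ l l.length tb (pvge2Sg β * u₀)).im)
    rw [pvmu_lf_pt hZ hD, pvmu_lf_pt hZ hD]
    cases β
    · right
      simp only [pvge2Sg, pvvxLo, pvvxHi, neg_mul, one_mul, neg_im, add_im, ofReal_im, mul_im, ofReal_re, I_re, I_im, mul_zero, mul_one, zero_add, add_zero, if_true, Bool.false_eq_true, if_false]
      constructor <;> nlinarith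
    · left
      simp only [pvge2Sg, pvvxLo, pvvxHi, neg_mul, one_mul, neg_im, add_im, ofReal_im, mul_im, ofReal_re, I_re, I_im, mul_zero, mul_one, zero_add, add_zero, if_true, Bool.true_eq_false, if_false]
      constructor <;> nlinarith

/-- the disc of the gate lies before the cut -/
theorem pvmu_lf_foot (n : PvmuLfNum Δ r μ δ tb wb ob u₀ cx) {w : ℂ} (hw : w ∈ ball zd (pvkdP r).b) : (-1 * w).re ≤ -zd.re + cx := by
  have n2 := n.r0; have n5 := n.cx3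
  rw [mem_ball_iff_norm] at hw
  have h1 : |(w - zd).re| ≤ ‖w - zd‖ := abs_re_le_norm _
  have h2 := neg_abs_le (w - zd).re
  have h3 : (pvkdP r).b = 2 * r := rfl
  rw [sub_re] at h1 h2
  simp only [neg_mul, one_mul, neg_re]
  linarith

/-- the targets lie beyond the bar -/
theorem pvmu_lf_tgt (n : PvmuLfNum Δ r μ δ tb wb ob u₀ cx) (hs : 0 < s) (hr : s * a = r) (hDr : 𝔱.Dr = (pvhfT a).Dr) {β : Bool} {w : ℂ} (hw : w ∈ pvkdAt zd (1 * (s : ℂ)) (𝔱.Dr false β)) :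
    -zd.re + (1 / 2 - tb + wb) * Δ ≤ (-1 * w).re := by
  have n7 := n.tgt
  rw [hDr, pvvx_at_Dr hs, hr] at hw
  have h := pvvx_rec_Dr (d := 1) norm_one false β zd hw
  rw [pvmu_lf_Z] at h
  simp only [neg_mul, one_mul, neg_re] at h ⊢
  linarith

end free

/-! ## 2. at the thick return `f` of 182 (`Exit/ParEngF`), regions after U4 (`Exit/EngU4` of 84) -/

section model

variable {τ : Type} {c : ℝ} {𝔓 : PvxPar τ c} {m : ℕ} {t : τ}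

/-- the closed block of the reference plug is off the own-level box with its collar -/
theorem pvmu_lf_blockU (h : PvefNdg 𝔓 m t) {v : ℂ} (hv : v ∈ pvehSq ((pvxrGam 𝔓 m).zu t) (pvehDl 𝔓 m / 2)) : v ∉ pviwBox 𝔓 m t := by
  refine pvef_block_box h le_rfl (j := (pvefW 𝔓 m t).length) ?_
  unfold pvefBl
  have h2 : pvefV (pvxrM 𝔓 m t) (pvxrA 𝔓 t) (pvxrB 𝔓 t) (pvxrEp 𝔓 m t) (pvxrEm 𝔓 m t) (pvxrNw 𝔓 m) (pvefW 𝔓 m t).length = pvefU (pvxrB 𝔓 t) (pvxrEm 𝔓 m t) (pvxrNw 𝔓 m) :=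
    pvef_V_last (pvef_ok_of_ndg h)
  rw [pvef_W_C, h2, ← pvef_zu h]
  exact hv

/-- the own-level box lies in the box with its collar -/
theorem pvmu_lf_box_sub (𝔓 : PvxPar τ c) (m : ℕ) (t : τ) {z w : ℂ} (hw : w ∈ pvwSq z (pviwRad 𝔓 m t)) : w - z ∈ pviwBox 𝔓 m t := by
  have hδ := pvlm_Del_pos c m
  obtain ⟨h1, h2⟩ := hw
  refine ⟨?_, ?_⟩
  · rw [sub_zero]; linarith
  · rw [sub_zero]; linarith

/-- **(room)** a point of the near half of the plug, in the lane `[-Δ/10, 4Δ/10]`, lies in the room of `f` with its collar -/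
theorem pvmu_lf_room (𝔓 : PvxPar τ c) (m : ℕ) (t : τ) {z w : ℂ} {r μ : ℝ} (h1 : pvehDl 𝔓 m / 64 + μ + pvefKa c m ≤ r / 2) (h2 : 3 * r / 2 + μ + pvefKa c m ≤ pvehDl 𝔓 m / 10) (h3 : 5 * r + μ + pvefKa c m ≤ pvehDl 𝔓 m / 2)
    (hw : -(5 * r) ≤ (w - (z + (pvxrGam 𝔓 m).zu t)).re ∧ (w - (z + (pvxrGam 𝔓 m).zu t)).re ≤ -(r / 2) ∧ -(3 * r / 2) ≤ (w - (z + (pvxrGam 𝔓 m).zu t)).im ∧ (w - (z + (pvxrGam 𝔓 m).zu t)).im ≤ 3 * r / 2) :
    closedBall w μ ⊆ pvieSh z (pveffY 𝔓 m t) := by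
  intro x hx
  rw [pveh_mem_sh]
  refine pvef_fY_of fun y hy => Or.inl (Or.inr ?_)
  rw [mem_closedBall_iff_norm] at hx hy
  have e : y - (w - z) = (y - (x - z)) + (x - w) := by ring
  have hn : ‖y - (w - z)‖ ≤ μ + pvefKa c m := by
    rw [e]
    exact (norm_add_le _ _).trans (by linarith)
  have a1 := abs_le.1 ((abs_re_le_norm _).trans hn)
  have a2 := abs_le.1 ((abs_im_le_norm _).trans hn)
  obtain ⟨w1, w2, w3, w4⟩ := hw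
  simp only [sub_re, sub_im, add_re, add_im] at a1 a2 w1 w2 w3 w4
  refine ⟨?_, ?_, ?_, ?_⟩ <;> linarith [a1.1, a1.2, a2.1, a2.2]

/-- **(roomF)** a point of the west half of the block of the plug, off the window `13 Δ / 80` of U4, lies in the tile `fK` of U4, off the own-level box -/
theorem pvmu_lf_roomF (h : PvefNdg 𝔓 m t) (hΓ : 𝔓.Γ m = pvxrGam 𝔓 m) {z w : ℂ}
    (w1 : -(pvehDl 𝔓 m / 2) ≤ (w - (z + (pvxrGam 𝔓 m).zu t)).re) (w2 : (w - (z + (pvxrGam 𝔓 m).zu t)).re ≤ -(13 * pvehDl 𝔓 m / 80)) (w3 : |(w - (z + (pvxrGam 𝔓 m).zu t)).im| ≤ pvehDl 𝔓 m / 2) :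
    w ∈ (pvieSh z (pvegOM 𝔓 m t) ∪ pvieSh z (pvnuFK 𝔓 m t)) \ pvwSq z (pviwRad 𝔓 m t) := by
  have hΔ := pveh_Dl_pos (pvef_n0 h)
  have hr := pvmv_R_pos h
  have w3' := abs_le.1 w3
  simp only [sub_re, sub_im, add_re, add_im] at w1 w2 w3'
  have hsq : w - z ∈ pvehSq ((pvxrGam 𝔓 m).zu t) (pvehDl 𝔓 m / 2) := by
    rw [pveh_mem_sq]
    simp only [sub_re, sub_im]
    refine ⟨⟨by linarith, by linarith⟩, by linarith [w3'.1], by linarith [w3'.2]⟩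
  have hW : w - z ∈ pvefWest (pvehDl 𝔓 m) ((pvxrGam 𝔓 m).zu t) := ⟨hsq, by simp only [sub_re]; linarith⟩
  refine ⟨Or.inr (pveh_mem_sh.2 ?_), fun hb => pvmu_lf_blockU h hsq (pvmu_lf_box_sub 𝔓 m t hb)⟩
  by_cases hO : w - z ∈ pvccSq ((pvxrGam 𝔓 m).zu t) (pvehDl 𝔓 m / 4)
  · right
    rw [hΓ, pveh_mem_sh]
    refine ⟨⟨?_, ?_⟩, ?_⟩
    · rw [← pveh_mem_sh, pveh_sh_rO]
      exact hO
    · rw [pvnu4_RO_sq h.rho0, pvccm_mem_sq]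
      rintro ⟨⟨q1, -⟩, -⟩
      simp only [sub_re, zero_re] at q1
      linarith
    · show (w - z - (pvxrGam 𝔓 m).zu t).re < 0
      simp only [sub_re]
      linarith
  · left
    refine ⟨Or.inr hW, fun hq => hq.elim hO fun hM => ?_⟩
    have k1 := pvef_e_far h (Or.inl hsq)
    have k2 : ‖w - z - pvegYp 𝔓 m t‖ ≤ 5 * pvegR 𝔓 m / 16 := mem_closedBall_iff_norm.1 hM
    linarith

/-- **(offBox)** -/
theorem pvmu_lf_offBox (h : PvefNdg 𝔓 m t) {z : ℂ} {r : ℝ} (hr : 2 * r ≤ pvehDl 𝔓 m / 2) :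
    Disjoint (ball (z + (pvxrGam 𝔓 m).zu t) (pvkdP r).b) (pvhaBx 𝔓.num (pvilPin 𝔓 m z t)) := by
  rw [pvha_bx_std (pvhc_pin_fr 𝔓 m z t), Set.disjoint_left]
  intro w hw hb
  have hb' : w ∈ pvwSq z (pviwRad 𝔓 m t) := hb
  refine pvmu_lf_blockU h ?_ (pvmu_lf_box_sub 𝔓 m t hb')
  rw [mem_ball_iff_norm] at hw
  have e : (pvkdP r).b = 2 * r := rfl
  have a1 := abs_le.1 ((abs_re_le_norm _).trans hw.le)
  have a2 := abs_le.1 ((abs_im_le_norm _).trans hw.le)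
  simp only [sub_re, sub_im, add_re, add_im] at a1 a2
  rw [pveh_mem_sq]
  simp only [sub_re, sub_im]
  refine ⟨⟨?_, ?_⟩, ?_, ?_⟩ <;> linarith [a1.1, a1.2, a2.1, a2.2]

/-! ### the door side of record -/

variable (𝔓) in
/-- the cut: the west side of the window `13 Δ / 80` of the plug (picture turned by `-1`) -/
noncomputable def pvmuLfXc (m : ℕ) (z : ℂ) (t : τ) : Bool → ℝ := fun _ => -(pvieZu 𝔓 m z t).re + 13 * pvehDl 𝔓 m / 80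
variable (𝔓) in
/-- the near side of the bar -/
noncomputable def pvmuLfXa (tb : ℝ) (m : ℕ) (z : ℂ) (t : τ) : Bool → ℝ := fun _ => -(pvieZu 𝔓 m z t).re + (1 / 2 - tb - 1 / 128) * pvehDl 𝔓 m
variable (𝔓) in
/-- the far side of the bar -/
noncomputable def pvmuLfXb (tb : ℝ) (m : ℕ) (z : ℂ) (t : τ) : Bool → ℝ := fun _ => -(pvieZu 𝔓 m z t).re + (1 / 2 - tb + 1 / 128) * pvehDl 𝔓 m
variable (𝔓) in
/-- the lower side of the strip of the half lane of colour `β` -/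
noncomputable def pvmuLfY0 (m : ℕ) (z : ℂ) (t : τ) : Bool → ℝ := fun β => -(pvieZu 𝔓 m z t).im + pvvxLo (pvurRu 𝔓 m) false β - pvilMu 𝔓 m
variable (𝔓) in
/-- its upper side -/
noncomputable def pvmuLfY1 (m : ℕ) (z : ℂ) (t : τ) : Bool → ℝ := fun β => -(pvieZu 𝔓 m z t).im + pvvxHi (pvurRu 𝔓 m) false β + pvilMu 𝔓 m
variable (𝔓) in
/-- **the leg of record across the half lane of colour `β`**: the bar of abscissa `tb` of the pattern `pvyrPatG 𝔓 tb c₀ m z t up cl` on the side `β` -/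
noncomputable def pvmuLfD (tb : ℝ) (m : ℕ) (z : ℂ) (t : τ) : Bool → Set ℂ × ℂ × ℂ := pvmuLfLeg (23 / 256) (21 / 256) tb (1 / 128) (1 / 100) (z + pvefZ 𝔓 m t) (pvefD 𝔓 m t) (pvefW 𝔓 m t)

theorem pvmu_lf_eqns_cite2 : True := by
  have := @pvmuLfXc.eq_1; have := @pvmuLfXa.eq_1; have := @pvmuLfXb.eq_1; have := @pvmuLfY0.eq_1; have := @pvmuLfY1.eq_1; have := @pvmuLfD.eq_1
  trivial

theorem pvmu_lf_mu_le (h : PvefNdg 𝔓 m t) : pvilMu 𝔓 m ≤ pvehDl 𝔓 m / 64000 ∧ pvefKa c m ≤ 3 * pvehDl 𝔓 m / 64000 := by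
  obtain ⟨d1, -, d3⟩ := pvef_Dl_bounds h
  have hδ := pvlm_Del_pos c m
  have h1 : min (pvlmDel c m) (𝔓.num.rho3 * pvlmH m) ≤ pvlmDel c m := min_le_left _ _
  unfold pvilMu pvefKa
  constructor <;> linarith

/-- **THE NUMBERS OF RECORD AFTER U4**: unit `Δ / 20`, cut `13 Δ / 80`, any abscissa `tb ∈ [197/640, 13/40]` of the bar (`51/160` of R27) -/
theorem pvmu_lf_num (h : PvefNdg 𝔓 m t) (hμ : 0 < pvilMu 𝔓 m) {tb : ℝ} (h1 : 197 / 640 ≤ tb) (h2 : tb ≤ 13 / 40) :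
    PvmuLfNum (pvehDl 𝔓 m) (pvurRu 𝔓 m) (pvilMu 𝔓 m) (pvehDl 𝔓 m / 512) tb (1 / 128) (1 / 100) (21 / 256) (13 * pvehDl 𝔓 m / 80) := by
  have hΔ := pveh_Dl_pos (pvef_n0 h)
  obtain ⟨m1, -⟩ := pvmu_lf_mu_le h
  unfold pvurRu
  refine ⟨hμ, by linarith, hΔ, by norm_num, by linarith, by nlinarith, by nlinarith, by linarith, by linarith⟩

/-- the last door of the placed corridor -/
theorem pvmu_lf_last (h : PvefNdg 𝔓 m t) (hΓ : 𝔓.Γ m = pvxrGam 𝔓 m) (z : ℂ) :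
    pvccZ (z + pvefZ 𝔓 m t) (pvefD 𝔓 m t) (pvefW 𝔓 m t) (pvefW 𝔓 m t).length = pvieZu 𝔓 m z t - (pvehDl 𝔓 m : ℂ) / 2 := by
  have e : pvccZ (z + pvefZ 𝔓 m t) (pvefD 𝔓 m t) (pvefW 𝔓 m t) (pvefW 𝔓 m t).length = z + pvccZ (pvefZ 𝔓 m t) (pvefD 𝔓 m t) (pvefW 𝔓 m t) (pvefW 𝔓 m t).length := by
    unfold pvccZ
    ring
  rw [e, pvef_last_door h, pvieZu, hΓ]
  ring

/-- **THE DOOR SIDE OF THE THICK RETURN `f` AT THE RECORD (AFTER U4)**: all the seven fields `nz door foot tgt room roomF offBox`.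
`𝔱` = any truncation with the lanes of `pvhfT a`, `s a = Δ / 20`;   colour `β` on the side `β` of the corridor;   picture `ζd = -1`. -/
theorem pvmu_lf_door (h : PvefNdg 𝔓 m t) (hΓ : 𝔓.Γ m = pvxrGam 𝔓 m) (hμ : 0 < pvilMu 𝔓 m) {tb : ℝ} (h1 : 197 / 640 ≤ tb) (h2 : tb ≤ 13 / 40) (z : ℂ) (Mk : Set ℂ)
    {𝔱 : PvhfTr} {a s : ℝ} (hs : 0 < s) (hr : s * a = pvurRu 𝔓 m) (hL : 𝔱.Ln = (pvhfT a).Ln) (hDr : 𝔱.Dr = (pvhfT a).Dr) :
    PvmuLfDoor ⟨pvilPin 𝔓 m z t, pvilPlug (pvurRu 𝔓 m) (pvieZu 𝔓 m z t) 1, pvieSh z (pveffY 𝔓 m t), Mk, false, true⟩ 𝔓.num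
      ((pvieSh z (pvegOM 𝔓 m t) ∪ pvieSh z (pvnuFK 𝔓 m t)) \ pvwSq z (pviwRad 𝔓 m t)) (pvilMu 𝔓 m) (pvehDl 𝔓 m / 512) (pvmuLfD 𝔓 tb m z t) (-1)
      (fun β => pvkdAt (pvieZu 𝔓 m z t) (1 * (s : ℂ)) (𝔱.Ln false β)) (fun β => pvkdAt (pvieZu 𝔓 m z t) (1 * (s : ℂ)) (𝔱.Dr false β))
      (pvmuLfXc 𝔓 m z t) (pvmuLfXa 𝔓 tb m z t) (pvmuLfXb 𝔓 tb m z t) (pvmuLfY0 𝔓 m z t) (pvmuLfY1 𝔓 m z t) := by
  have n := pvmu_lf_num h hμ h1 h2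
  have hΔ := pveh_Dl_pos (pvef_n0 h)
  obtain ⟨m1, m2⟩ := pvmu_lf_mu_le h
  have eZ : pvieZu 𝔓 m z t = z + (pvxrGam 𝔓 m).zu t := by rw [pvieZu, hΓ]
  have eR : pvurRu 𝔓 m = pvehDl 𝔓 m / 20 := rfl
  refine ⟨by simp, fun β => pvmu_lf_doorReg n (pvmu_lf_last h hΓ z) (pvef_last_dir h) hs hr hL _ β, fun β w hw => pvmu_lf_foot n hw, fun β w hw => pvmu_lf_tgt n hs hr hDr hw, fun β w hw => ?_, fun β w hw hx => ?_, ?_⟩
  · have q := pvmu_lf_room_rect n.r0 hs hr hL hw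
    rw [eZ] at q
    exact pvmu_lf_room 𝔓 m t (by rw [eR]; linarith) (by rw [eR]; linarith) (by rw [eR]; linarith) q
  · obtain ⟨q1, q2, q3, q4⟩ := pvmu_lf_room_rect n.r0 hs hr hL hw
    have hx' : -(pvieZu 𝔓 m z t).re + 13 * pvehDl 𝔓 m / 80 < (-1 * w).re := hx
    simp only [neg_mul, one_mul, neg_re] at hx'
    rw [eZ] at q1 q2 q3 q4 hx'
    rw [eR] at q1 q3 q4
    refine pvmu_lf_roomF h hΓ (by linarith) ?_ (abs_le.2 ⟨by linarith, by linarith⟩)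
    rw [sub_re]
    linarith
  · show Disjoint (ball (pvieZu 𝔓 m z t) (pvkdP (pvurRu 𝔓 m)).b) _
    rw [eZ]
    exact pvmu_lf_offBox h (by rw [eR]; linarith)

/-- the same, the names of the engine as variables -/
theorem pvmu_lf_door' (h : PvefNdg 𝔓 m t) (hΓ : 𝔓.Γ m = pvxrGam 𝔓 m) (hμ : 0 < pvilMu 𝔓 m) {tb : ℝ} (h1 : 197 / 640 ≤ tb) (h2 : tb ≤ 13 / 40) (z : ℂ) (Mk : Set ℂ)
    {𝔱 : PvhfTr} {a s : ℝ} (hs : 0 < s) (hL : 𝔱.Ln = (pvhfT a).Ln) (hDr : 𝔱.Dr = (pvhfT a).Dr)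
    {ru : ℝ} (hru : ru = pvurRu 𝔓 m) (hr : s * a = ru) {Mo Kt Yin : Set ℂ} (hMo : Mo = pvieSh z (pvegOM 𝔓 m t)) (hKt : Kt = pvieSh z (pvnuFK 𝔓 m t)) (hY : Yin = pvieSh z (pveffY 𝔓 m t)) :
    PvmuLfDoor ⟨pvilPin 𝔓 m z t, pvilPlug ru (pvieZu 𝔓 m z t) 1, Yin, Mk, false, true⟩ 𝔓.num
      ((Mo ∪ Kt) \ pvwSq z (pviwRad 𝔓 m t)) (pvilMu 𝔓 m) (pvehDl 𝔓 m / 512) (pvmuLfD 𝔓 tb m z t) (-1)
      (fun β => pvkdAt (pvieZu 𝔓 m z t) (1 * (s : ℂ)) (𝔱.Ln false β)) (fun β => pvkdAt (pvieZu 𝔓 m z t) (1 * (s : ℂ)) (𝔱.Dr false β))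
      (pvmuLfXc 𝔓 m z t) (pvmuLfXa 𝔓 tb m z t) (pvmuLfXb 𝔓 tb m z t) (pvmuLfY0 𝔓 m z t) (pvmuLfY1 𝔓 m z t) := by
  subst hru hMo hKt hY
  exact pvmu_lf_door h hΓ hμ h1 h2 z Mk hs hr hL hDr

end model

/-! ## 3. the record `PvohDr` of 276 (`Exit/HookTF`): same fields, same leg -/

section bridge
variable {τ : Type} {c : ℝ} {𝔓 : PvxPar τ c} {m : ℕ} {t : τ}

theorem pvmu_lf_D_eq (𝔓 : PvxPar τ c) (tb : ℝ) (m : ℕ) (z : ℂ) (t : τ) : pvmuLfD 𝔓 tb m z t = pvohD 𝔓 tb m z t := rfl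

theorem PvmuLfDoor.toDr {L : PvilLk} {N : PvwNum} {Fr : Set ℂ} {μ δ : ℝ} {eD : Bool → Set ℂ × ℂ × ℂ} {ζd : ℂ} {Rm Dr : Bool → Set ℂ} {xc xa xb y0 y1 : Bool → ℝ}
    (D : PvmuLfDoor L N Fr μ δ eD ζd Rm Dr xc xa xb y0 y1) : PvohDr L N Fr μ δ eD ζd Rm Dr xc xa xb y0 y1 :=
  ⟨D.nz, D.door, D.foot, D.tgt, D.room, D.roomF, D.offBox⟩

/-- **`PvohDr` OF 276 AT THE RECORD** -/
theorem pvmu_lf_dr (h : PvefNdg 𝔓 m t) (hΓ : 𝔓.Γ m = pvxrGam 𝔓 m) (hμ : 0 < pvilMu 𝔓 m) {tb : ℝ} (h1 : 197 / 640 ≤ tb) (h2 : tb ≤ 13 / 40) (z : ℂ) (Mk : Set ℂ)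
    {𝔱 : PvhfTr} {a s : ℝ} (hs : 0 < s) (hL : 𝔱.Ln = (pvhfT a).Ln) (hDr : 𝔱.Dr = (pvhfT a).Dr)
    {ru : ℝ} (hru : ru = pvurRu 𝔓 m) (hr : s * a = ru) {Mo Kt Yin : Set ℂ} (hMo : Mo = pvieSh z (pvegOM 𝔓 m t)) (hKt : Kt = pvieSh z (pvnuFK 𝔓 m t)) (hY : Yin = pvieSh z (pveffY 𝔓 m t)) :
    PvohDr ⟨pvilPin 𝔓 m z t, pvilPlug ru (pvieZu 𝔓 m z t) 1, Yin, Mk, false, true⟩ 𝔓.num
      ((Mo ∪ Kt) \ pvwSq z (pviwRad 𝔓 m t)) (pvilMu 𝔓 m) (pvehDl 𝔓 m / 512) (pvohD 𝔓 tb m z t) (-1)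
      (fun β => pvkdAt (pvieZu 𝔓 m z t) (1 * (s : ℂ)) (𝔱.Ln false β)) (fun β => pvkdAt (pvieZu 𝔓 m z t) (1 * (s : ℂ)) (𝔱.Dr false β))
      (pvmuLfXc 𝔓 m z t) (pvmuLfXa 𝔓 tb m z t) (pvmuLfXb 𝔓 tb m z t) (pvmuLfY0 𝔓 m z t) (pvmuLfY1 𝔓 m z t) :=
  (pvmu_lf_door' h hΓ hμ h1 h2 z Mk hs hL hDr hru hr hMo hKt hY).toDr

end bridge

end Claimed.Agent.R289
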