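-- KEEP
import Claimed.Agent.R289.Exit.RefRec
import Claimed.Agent.R289.Tr.DoorSoft

/-!
# Row 289 (S0537), THE WALL, ROAD E, E10, file Exit/RefEnd : THE PLUG SIDE OF THE THICK ENDS `e f r` AT THE ENGINE OF RECORD      (helper31; prefix `pvur_end_`, defs `pvurEH pvurEC`)

ONE FILE FOR THE THREE LINKS WHICH END AT THE REFERENCE PLUG (`e` 54 `Exit/FrcT`, `f` 196 `Exit/FrcF`, `r` 233 `Exit/FrcR`).      Everything is stated at `𝔈 = pvnaEngRec N hN c nb`, ANY centre `z`, ANY colour `b`, THE SCALE OF RECORD `pvurSr 𝔓 m = pvurS 𝔓 m = 2 Δ_m` (`Exit/RefRec`; after U4 of 84: `rO m = pvnuRO 𝔓 m = s • O₀`, unit `Δ_m / 20`).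
ON TOP OF: `Tr/FrcDoor` (77: `pvdpT pvdpPl`, transport of thresholds), `Tr/DoorSoft` (173: dictionary `pvyo_side`, `PvyoSd.door`, `pvyo_door_r`), `Exit/RefPlug`, `Exit/RefRec` (31).
TESTS OF RECORD:   side event `pvurEH .. m z b i := pvdpPl z 1 b (pvurSc (pvurSr 𝔓 m) (nb.Hf i))`   (`i = 0, 1`: exit side `S⁺`; `i = 2, 3`: entrance side `S⁻`),   plain plug `pvurEC .. m z b := pvdpPl z 1 b (pvurSc (pvurSr 𝔓 m) (pvkgG.C 0 1))`.
* `pvur_end_rG`, `pvur_end_mG`   : `pvrgGr 𝔈 m ε b z` is read in `(z + rO m) ×ˢ univ`, Borel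
* `pvur_end_mH`, `pvur_end_mC`   : Borel;   `pvur_end_rH` : `pvurEH` is read in the placed dilated window `z + s • Es σ` of 174
* **`pvur_end_thr`** : ON `pvrgGr`, pointwise: `nb.b ≤ pvtiP (pvP ε) ((z + rO m) ×ˢ univ) (pvurEH .. i) η`
* **`pvur_end_loc`** : a.e. `η ∈ pvrgGr → η ∈ pvurEC`;   **`pvur_end_mesh`** (after U4) : ON `pvrgGr`, pointwise: `PvtrMesh (pvilMu 𝔓 m / 8) (z + rO m) (cfSites η)`
* **`pvur_end_door`** : `η ∈ pvurEC`, one colour per site `⟹ ∃ 𝔖, PvilDoor (pvkdP (pvilRu 𝔈 m)) b η z 1 𝔖`;   `pvur_end_door_pt` (173): from `pvrgGr`, POINTWISE, at every nice `η'` which agrees with `η` on `z + rO m`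
* **`pvur_end_side`** : `η ∈ pvurEH .. i`, one colour per site, general position `⟹ ∃ g, PvyoSd pvkgG.toPvkdPlug (pvnaT N) σ b η z 1 (pvurSr 𝔓 m) g` (gate of record, black lane, white lane, mesh of the window: 173), `σ = decide (i < 2)`;
  `pvur_end_side_door` : THE SAME `g` carries the door end `PvilDoor (pvkdP (pvilRu 𝔈 m)) b η z 1 (pvilStS ..)`
-/

set_option autoImplicit false

namespace Claimed.Agent.R289

open MeasureTheory Set Filter Topology Claims.C0465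
open scoped ENNReal

section engine

variable {N : PvxNums} (hN : N.Ok) (c : ℝ) (nb : PvnaNb N)

/-- **the side event `i` of the reference plug of record**, placed at `(z, 1)`, colour `b` -/
noncomputable def pvurEH (m : ℕ) (z : ℂ) (b : Bool) (i : Fin 4) : Set (Conf PvPt) := pvdpPl z 1 b (pvurSc (pvurSr (pvxParOf N hN c) m) (nb.Hf i))

/-- **the plain reference plug of record**, placed at `(z, 1)`, colour `b` -/
noncomputable def pvurEC (m : ℕ) (z : ℂ) (b : Bool) : Set (Conf PvPt) := pvdpPl z 1 b (pvurSc (pvurSr (pvxParOf N hN c) m) (pvkgG.C 0 1))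

theorem pvur_eqns_cite6 : True := by
  have := @pvurEH.eq_1; have := @pvurEC.eq_1
  trivial

/-- placing after scaling is ONE frame -/
theorem pvur_end_T (s : ℝ) (z : ℂ) (b : Bool) (M : Set (Conf PvPt)) : pvdpPl z 1 b (pvurSc s M) = pvdpPl z (1 * (s : ℂ)) b M := by
  ext ζ
  show cfMap (pvthInv 0 (s : ℂ)) (pvdpT z 1 b ζ) ∈ M ↔ pvdpT z (1 * s) b ζ ∈ M
  rw [pvdp_T_comp z 1 0 s one_ne_zero, mul_zero, add_zero]

/-- the unit of the dilated plug is the unit of record -/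
theorem pvur_end_unit (m : ℕ) : pvkgG.toPvkdPlug.sc (pvurSr (pvxParOf N hN c) m) = pvkdP (pvilRu (pvnaEngRec N hN c nb) m) := by
  rcases pvur_rec_unit (𝔓 := pvxParOf N hN c) m with e | e
  · exact e
  · exact absurd (pvur_Sr_pos (𝔓 := pvxParOf N hN c) hN.rho0 m) (not_lt.2 e)

/-- the usable reference plug is read in its region -/
theorem pvur_end_rG (m : ℕ) (ε : ℝ) (b : Bool) (z : ℂ) :
    Conf.ReadsSet (pvieSh z ((pvnaEngRec N hN c nb).rO m) ×ˢ (univ : Set Bool)) (pvrgGr (pvnaEngRec N hN c nb) m ε b z) := by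
  rw [pvdp_Gr, pvdp_sh_eq]
  exact pvdp_reads z 1 one_ne_zero b (Conf.readsSet_iff_reads.2 ((pvur_rec_ref hN c nb).rG_reads m ε))

theorem pvur_end_mG (m : ℕ) (ε : ℝ) (b : Bool) (z : ℂ) : MeasurableSet (pvrgGr (pvnaEngRec N hN c nb) m ε b z) := by
  rw [pvdp_Gr]
  exact pvdp_meas z 1 b ((pvur_rec_ref hN c nb).rG_meas m ε)

include hN in
theorem pvur_end_geo : PvhfGeo pvkgG.toPvkdPlug (pvnaT N) := pvna_geo hN

theorem pvur_end_mH (m : ℕ) (z : ℂ) (b : Bool) (i : Fin 4) : MeasurableSet (pvurEH hN c nb m z b i) :=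
  pvdp_meas z 1 b (pvur_Sc_meas _ (pvhf_mH (pvur_end_geo hN) i))

include nb in
theorem pvur_end_mC (m : ℕ) (z : ℂ) (b : Bool) : MeasurableSet (pvurEC hN c m z b) :=
  pvdp_meas z 1 b (pvur_Sc_meas _ (pvur_rec_mC nb))

/-- the side event is read in the placed dilated window of 174 -/
theorem pvur_end_rH (m : ℕ) (z : ℂ) (b : Bool) (i : Fin 4) :
    Conf.ReadsSet ((pvthSim z (1 * ((pvurSr (pvxParOf N hN c) m : ℝ) : ℂ)) '' (pvnaT N).Es (decide (i.1 < 2))) ×ˢ (univ : Set Bool)) (pvurEH hN c nb m z b i) := by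
  unfold pvurEH
  rw [pvur_end_T]
  have hs := pvur_Sr_pos (𝔓 := pvxParOf N hN c) hN.rho0 m
  exact pvdp_reads z _ (mul_ne_zero one_ne_zero (Complex.ofReal_ne_zero.2 hs.ne')) b (pvhf_rS (pvur_end_geo hN) _)

/-- **THE SOFT THRESHOLD OF THE USABLE REFERENCE PLUGS**, pointwise -/
theorem pvur_end_thr (m : ℕ) (ε : ℝ) (b : Bool) (z : ℂ) (i : Fin 4) : ∀ η ∈ pvrgGr (pvnaEngRec N hN c nb) m ε b z,
    nb.b ≤ pvtiP (pvP ε) (pvieSh z ((pvnaEngRec N hN c nb).rO m) ×ˢ (univ : Set Bool)) (pvurEH hN c nb m z b i) η :=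
  pvdp_thr_r (pvnaEngRec N hN c nb) m ε b z (S := pvurSc (pvurSr (pvxParOf N hN c) m) (nb.Hf i)) (b₀ := nb.b) fun _ h => pvur_rec_thr hN c nb h i

/-- **a.s. a usable reference plug is a plain plug** -/
theorem pvur_end_loc (m : ℕ) (ε : ℝ) (b : Bool) (z : ℂ) : ∀ᵐ η ∂pvP ε, η ∈ pvrgGr (pvnaEngRec N hN c nb) m ε b z → η ∈ pvurEC hN c m z b := by
  have h1 : ∀ᵐ η ∂pvP ε, η ∈ (pvnaEngRec N hN c nb).rG m ε → η ∈ pvurSc (pvurSr (pvxParOf N hN c) m) nb.glob.C := by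
    filter_upwards [pvur_G_sure (𝔊 := nb.glob) (pvur_rec_mO hN c nb m) (pvur_rec_mC nb) nb.b (pvurSr (pvxParOf N hN c) m) ε] with η h h'
    exact h (pvur_rec_sub hN c nb m ε h')
  have h2 : pvP ε {η | ¬ (η ∈ (pvnaEngRec N hN c nb).rG m ε → η ∈ pvurSc (pvurSr (pvxParOf N hN c) m) nb.glob.C)} = 0 := ae_iff.1 h1
  have h3 := pvdp_measure z 1 one_ne_zero b ε {η | ¬ (η ∈ (pvnaEngRec N hN c nb).rG m ε → η ∈ pvurSc (pvurSr (pvxParOf N hN c) m) nb.glob.C)}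
  rw [norm_one, one_mul, h2] at h3
  exact ae_iff.2 h3

/-- **THE FINE MESH OF THE WHOLE PLACED WINDOW**, pointwise on the usable states -/
theorem pvur_end_mesh {m : ℕ} {ε : ℝ} {b : Bool} {z : ℂ} {η : Conf PvPt} (h : η ∈ pvrgGr (pvnaEngRec N hN c nb) m ε b z) :
    PvtrMesh (pvilMu (pvxParOf N hN c) m / 8) (pvieSh z ((pvnaEngRec N hN c nb).rO m)) (cfSites η) := by
  have h1 : PvtrMesh (pvilMu (pvxParOf N hN c) m / 8) ((pvnaEngRec N hN c nb).rO m) (cfSites (pvdpT z 1 b η)) := pvur_rec_mesh hN c nb (ε := ε) h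
  have h2 := pvyo_mesh_T z one_ne_zero b h1
  rw [norm_one, one_mul] at h2
  have e : pvkdAt z 1 ((pvnaEngRec N hN c nb).rO m) = pvieSh z ((pvnaEngRec N hN c nb).rO m) := (pvdp_sh_eq z _).symm
  rwa [e] at h2

/-- **THE DOOR END FROM THE PLAIN PLUG** -/
theorem pvur_end_door {m : ℕ} {z : ℂ} {b : Bool} {η : Conf PvPt} (h1 : ∀ p ∈ η.pts, ∀ q ∈ η.pts, p.1 = q.1 → p = q) (h : η ∈ pvurEC hN c m z b) :
    ∃ 𝔖 : PvwSt (pvieT η), PvilDoor (pvkdP (pvilRu (pvnaEngRec N hN c nb) m)) b η z 1 𝔖 := by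
  unfold pvurEC at h
  rw [pvur_end_T] at h
  rw [← pvur_end_unit hN c nb m]
  exact pvyo_door_of_C pvkgG.toPvkdPlug (by norm_num) (pvur_Sr_pos (𝔓 := pvxParOf N hN c) hN.rho0 m) h1 h

/-- **THE DOOR END FROM THE USABLE STATE, POINTWISE** (173): at every nice configuration which agrees with `η` on the region of the plug -/
theorem pvur_end_door_pt {m : ℕ} {ε : ℝ} {z : ℂ} {b : Bool} {η η' : Conf PvPt} (h : η ∈ pvrgGr (pvnaEngRec N hN c nb) m ε b z)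
    (hr : Conf.restr (pvieSh z ((pvnaEngRec N hN c nb).rO m) ×ˢ univ) η' = Conf.restr (pvieSh z ((pvnaEngRec N hN c nb).rO m) ×ˢ univ) η)
    (hn : PvatNice (cfSites η')) (h1 : ∀ p ∈ η'.pts, ∀ q ∈ η'.pts, p.1 = q.1 → p = q) :
    ∃ 𝔖 : PvwSt (pvieT η'), PvilDoor (pvkdP (pvilRu (pvnaEngRec N hN c nb) m)) b η' z 1 𝔖 := by
  rw [← pvur_end_unit hN c nb m]
  exact pvyo_door_r (pvnaEngRec N hN c nb) pvkgg_ze (pvur_Sr_pos (𝔓 := pvxParOf N hN c) hN.rho0 m) m ε b z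
    ((image_mono pvkgg_ze.EO).trans (pvur_rec_reg (𝔓 := pvxParOf N hN c) m)) (fun _ h' => h'.1.1) h hr hn h1

/-- **THE DICTIONARY OF THE SIDE EVENT AT THE REFERENCE PLUG** (173) -/
theorem pvur_end_side {m : ℕ} {z : ℂ} {b : Bool} {i : Fin 4} {η : Conf PvPt} (h1 : ∀ p ∈ η.pts, ∀ q ∈ η.pts, p.1 = q.1 → p = q) (hη : DelGood (cfSites η)) (h : η ∈ pvurEH hN c nb m z b i) :
    ∃ g, PvyoSd pvkgG.toPvkdPlug (pvnaT N) (decide (i.1 < 2)) b η z 1 (pvurSr (pvxParOf N hN c) m) g := by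
  unfold pvurEH at h
  rw [pvur_end_T] at h
  exact pvyo_side (pvur_end_geo hN) _ norm_one (pvur_Sr_pos (𝔓 := pvxParOf N hN c) hN.rho0 m) h1 hη h

/-- the gate of the side event carries the door end -/
theorem pvur_end_side_door {m : ℕ} {z : ℂ} {b σ : Bool} {η : Conf PvPt} {g : (pvkiT η).Gate (pvukS b η)} (hn : PvatNice (cfSites η))
    (h : PvyoSd pvkgG.toPvkdPlug (pvnaT N) σ b η z 1 (pvurSr (pvxParOf N hN c) m) g) :
    PvilDoor (pvkdP (pvilRu (pvnaEngRec N hN c nb) m)) b η z 1 (pvilStS (pvkdP (pvilRu (pvnaEngRec N hN c nb) m)) η (pvieCol η b) z g) := by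
  rw [← pvur_end_unit hN c nb m]
  exact h.door (pvur_end_geo hN) hn

end engine

end Claimed.Agent.R289
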