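-- KEEP
import Claimed.Agent.R289.Tr.LinkG
import Claimed.Agent.R289.Tr.StopL
import Claimed.Agent.R289.Tr.FrcDoor
import Claimed.Agent.R289.Tr.PlugFrcR
import Claimed.Agent.R289.Exit.ThickLU
import Claimed.Agent.R289.Exit.GdRec
import Claimed.Agent.R289.Exit.EngRec
import Claimed.Agent.R289.Exit.RefRec
import Claimed.Agent.R289.Exit.FrcWf
import Claimed.Agent.R289.Tr.RegE
import Claimed.Agent.R289.Tr.LinkQ
import Claimed.Agent.R289.Exit.MeshTR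
import Claimed.Agent.R289.Exit.ParGr
import Claimed.Agent.R289.Tr.FrcCarF
import Claimed.Agent.R289.Tr.HookFA
import Claimed.Agent.R289.Exit.RefEnd
import Claimed.Agent.R289.Exit.GoodFM
import Claimed.Agent.R289.Exit.GoodFU
import Claimed.Agent.R289.Exit.FrcFU
import Claimed.Agent.R289.Exit.HookTF
import Claimed.Agent.R289.Exit.GoodFY
import Claimed.Agent.R289.Exit.LayF
import Claimed.Agent.R289.Exit.ParBd

/-!
# Row 289 (S0537), THE WALL, ROAD E, E10, file Exit/FrcF : THE INTEGRATOR OF A HYBRID END WHOSE SUCCESS IS A SOFT PLAIN EVENT; THE THICK RETURN `f : t → u`      (helper196, post T16 of 24; prefix `pvif_`, `pvif`, `Pvif`)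

* sec. 1  `PvifEnd` = the data of ONE placed hybrid end (tile `K`, plug region `D ε`, mouth `Mo`, usable plug `G ε`, base data `Fz Hu`, window `Wn ε Z`, plain success `Mev ε Z`);   `E.Frc ε q` = the bases at which the end is FORCED in its own experiment
          (success `= pvilFin Z (pvilSure ε (Wn ε Z) (Mev ε Z))`, `Z` = the hull of the base).
* sec. 2  `PvifTest` = the tests (finite menu of copy patterns `(O j, 𝒦 j)`, side event `ℋ ε` of the plug, nice event `𝒩 ε`, certificate `Ms ε` of the base);   **`PvifTest.Ok`** = THE CONTRACT = the list of the model leaves, one field per producer.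
* sec. 3  `pvif_forced` (ONE call of `pvlhg_forced` of 250), `pvif_cost` (ONE call of `pvlhg_cost`), **`pvif_frc`** : `T.Ok E U t θ b₀` + `pvxU ⊆ pvConf ⁻¹' U` ⟹ `PvguFrc 𝔓 m z t fun ε => E.Frc ε (t * (b₀ - θ))`;   `PvifFin` = a final configuration (the hypotheses of DET, bundled).
SKELETON OF `exit_pvgu_f` (order of 24, 12:58Z; MIRROR OF `Exit/FrcT.lean` OF 54, NOT IMPORTED: own copies `PvifRt pvifT0 pvif_b pvif_l_rGmesh`):
* sec. 4  DEFS: the end `pvifE 𝔓 𝔈 m z t` (**`pvif_Ff : pvrgFf = (pvifE ..).Frc`** by `rfl`), contract on the routes `PvifRtOk` (GROWS IN PLACE, append only), THE TESTS `pvifT` (EXPLICIT): copy pattern = routes ∩ mesh `μ/3` of the tile,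
          side event = `S⁻ = Hf 2` of the datum of record AT THE SCALE OF RECORD `pvurSr` (31), placed at `(zu, 1)`, colour of the strand;   plain plug `pvifCd`, nice event `pvifN`, certificate `pvifMs` (GROWS IN PLACE), guarded choice `pvifYf` (96);   at the engine of record: `pvifEr pvifTr pvifUr`.
* sec. 5  THE LEAVES, ONE PER FIELD OF `PvifTest.Ok`: [regions] `pvif_l_mK mD DK MKD mW`, [state] `pvif_l_fin pvif_l_mouth`, [pattern] `pvif_l_mO bO rP lim`, [plug] `pvif_l_rG mH rH thr loc`, [cert] `pvif_l_cMs`,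
          [DET] `pvif_l_up` | `pvif_l_door` (b2) | `pvif_l_out` `pvif_l_hull` (b1) | **`pvif_l_A`** (b1 b2 b3 := ONE CALL of `pvj8_evD` of 284, PROVED) over THE PAYER LEAF **`pvif_l_det`** (`PvifNm.Ok`: numbers + regions + routes) | `pvif_l_mesh` (b6);   [routes] `exit_pvif_rt`.      A PROVER TAKES ONE LEAF (claim289 row), proves it IN PLACE or in his own file (then one line to 196).
* sec. 6  **`pvif_ok`** (the contract from the leaves), **`pvif_exit`** = `exit_pvgu_f` of `Exit/GdCut.lean` VERBATIM.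
-/

set_option autoImplicit false

namespace Claimed.Agent.R289

open MeasureTheory Filter Topology Set Claims.C0465
open scoped ENNReal

/-! ## 1. one hybrid end -/

/-- **ONE HYBRID END, PLACED** (success = soft localisation of a plain EVENT) -/
structure PvifEnd where
  /-- resampled tile -/
  K : Set ℂ
  /-- region of the integrated plug -/
  D : ℝ → Set ℂ
  /-- recoloured mouth -/
  Mo : Set ℂ
  /-- the plug is usable -/
  G : ℝ → Set (Conf PvPt)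
  /-- frozen positions of the half state of the base -/
  Fz : Conf PvPt → Set ℂ
  /-- hull of the half state of the base -/
  Hu : Conf PvPt → Set (ℤ × ℤ)
  /-- window at a hull -/
  Wn : ℝ → Set (ℤ × ℤ) → Set ℂ
  /-- plain success at a hull -/
  Mev : ℝ → Set (ℤ × ℤ) → Set (Conf PvPt)

namespace PvifEnd

variable (E : PvifEnd)

/-- the recoloured sites at the base `η` -/
def y (η : Conf PvPt) : Set ℂ := E.Mo \ E.Fz η

/-- soft success at the base data of `η` -/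
def A (ε : ℝ) (η : Conf PvPt) : Set (Conf PvPt) := pvilFin (E.Hu η) (pvilSure ε (E.Wn ε (E.Hu η)) (E.Mev ε (E.Hu η)))

/-- **THE END IS FORCED AT THE BASE** (its own experiment: tile and plug resampled, mouth recoloured) -/
def Frc (ε : ℝ) (q : ℝ≥0∞) : Set (Conf PvPt) :=
  {η | η ∈ pvrgFrc ε (E.K ∪ E.D ε) (fun _ => E.y η) (E.G ε) (pvdyQ ε E.K (fun _ => E.y η) (E.A ε η)) q}

end PvifEnd

/-! ## 2. the tests and the contract -/

/-- **THE TESTS OF ONE END** -/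
structure PvifTest where
  /-- the menu of the copy patterns -/
  κ : Type
  J : Finset κ
  O : κ → Set ℂ
  𝒦 : κ → Set (Conf PvPt)
  /-- the side event of the plug -/
  ℋ : ℝ → Set (Conf PvPt)
  /-- the nice configurations (ANY measurable almost sure event) -/
  𝒩 : ℝ → Set (Conf PvPt)
  /-- the certificate of the base (meshes ..) -/
  Ms : ℝ → Set (Conf PvPt)
  /-- the guarded stopping choice -/
  yf : Conf PvPt → Set ℂ

/-- **THE CONTRACT**: `U` = the bases (configurations which carry the state), `t` = threshold of the patterns, `θ` = soft threshold, `b₀` = propensity of the side event -/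
structure PvifTest.Ok (T : PvifTest) (E : PvifEnd) (U : Set (Conf PvPt)) (t θ b₀ : ℝ≥0∞) : Prop where
  θ0 : θ ≠ 0
  θt : θ ≠ ∞
  -- regions
  mK : MeasurableSet E.K
  mD : ∀ ε, MeasurableSet (E.D ε)
  DK : ∀ ε, Disjoint (E.D ε) E.K
  MKD : ∀ ε, Disjoint E.Mo (E.K ∪ E.D ε)
  mW : ∀ ε (Z : Finset (ℤ × ℤ)), MeasurableSet (E.Wn ε ↑Z)
  KW : ∀ ε Z, E.K ⊆ E.Wn ε Z
  DW : ∀ ε Z, E.D ε ⊆ E.Wn ε Z
  -- state side
  fin : ∀ ω ∈ U, (E.Hu ω).Finite
  stop : PvktStop (fun _ => True) T.yf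
  yf_eq : ∀ ω ∈ U, T.yf ω = E.y ω
  -- patterns
  mO : ∀ j ∈ T.J, MeasurableSet (T.O j)
  bO : ∀ j ∈ T.J, Bornology.IsBounded (T.O j)
  OD : ∀ ε, ∀ j ∈ T.J, Disjoint (T.O j) (E.D ε)
  OW : ∀ ε Z, ∀ j ∈ T.J, T.O j ⊆ E.Wn ε Z
  mP : ∀ j ∈ T.J, MeasurableSet (T.𝒦 j)
  rP : ∀ j ∈ T.J, Conf.ReadsSet (T.O j ×ˢ (univ : Set Bool)) (T.𝒦 j)
  lim : ∀ j ∈ T.J, Tendsto (fun ε : ℝ => pvGeo ε {g | pvQc (T.𝒦 j) g < t}) (𝓝[>] 0) (𝓝 0)
  -- plug side
  rG : ∀ᶠ ε in 𝓝[>] (0 : ℝ), Conf.ReadsSet (E.D ε ×ˢ (univ : Set Bool)) (E.G ε)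
  mH : ∀ᶠ ε in 𝓝[>] (0 : ℝ), MeasurableSet (T.ℋ ε)
  rH : ∀ᶠ ε in 𝓝[>] (0 : ℝ), Conf.ReadsSet ((E.D ε ∪ E.K) ×ˢ (univ : Set Bool)) (T.ℋ ε)
  thr : ∀ᶠ ε in 𝓝[>] (0 : ℝ), ∀ η ∈ E.G ε, b₀ ≤ pvtiP (pvP ε) (E.D ε ×ˢ (univ : Set Bool)) (T.ℋ ε) η
  -- null sets, certificate
  mN : ∀ᶠ ε in 𝓝[>] (0 : ℝ), MeasurableSet (T.𝒩 ε)
  nN : ∀ᶠ ε in 𝓝[>] (0 : ℝ), pvP ε (T.𝒩 ε)ᶜ = 0
  cMs : Tendsto (fun ε => ((pvhbUp ε).P {x | pvConf (pvMerge x) ∉ T.Ms ε}).toReal) (𝓝[>] (0 : ℝ)) (𝓝 0)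
  /-- (UP) + (DET) at a certified base: ONE pattern of the menu does it -/
  det : ∀ᶠ ε in 𝓝[>] (0 : ℝ), ∀ ω ∈ U, ω ∈ T.Ms ε → CfOK ω → ∃ j ∈ T.J,
    (∀ (Y Fz : Set ℂ) (s : ℂ → Bool), Y.Countable → PvlhgRg (E.Wn ε (E.Hu ω)) (T.𝒩 ε) Y → Fz ⊆ Y → (∀ z ∈ Y, z ∈ E.D ε → z ∈ Fz) → (∀ z ∈ Fz, z ∉ E.K ∧ z ∉ E.y ω) →
      ∃ sg : ℂ → Option Bool, {z | sg z ≠ none}.Countable ∧ PvlhUp sg (pvlhSec Y Fz s (T.ℋ ε)) ∧ PvlhUp sg (pvlhCp Y (T.𝒦 j))) ∧
    ∀ (η : Conf PvPt) (τ : ℂ → Bool), η ∈ T.𝒩 ε → (∀ z ∈ E.Wn ε (E.Hu ω), z ∉ E.K ∪ E.D ε → (z ∈ cfSites η ↔ z ∈ cfSites ω)) →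
      (∀ z ∈ cfSites ω, z ∈ E.Wn ε (E.Hu ω) → z ∉ E.K ∪ E.D ε → z ∉ E.y ω → cfCol η z = cfCol ω z) → η ∈ E.G ε → η ∈ T.ℋ ε → cfOf (cfSites η) τ ∈ T.𝒦 j →
      (∀ z ∈ cfSites η, z ∈ E.Wn ε (E.Hu ω) → (z ∈ E.K ∨ z ∈ E.y ω) → cfCol η z = τ z) → η ∈ E.Mev ε (E.Hu ω)

theorem pvif_eqns_cite : True := by
  have := @PvifEnd.y.eq_1; have := @PvifEnd.A.eq_1; have := @PvifEnd.Frc.eq_1
  trivial

/-! ## 3. the glue -/

section glue

variable {E : PvifEnd} {T : PvifTest} {U : Set (Conf PvPt)} {t θ b₀ : ℝ≥0∞}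

/-- **the cost of the unforced bases at one mesh** -/
theorem pvif_cost {ε : ℝ} (hε : 0 < ε) (H : T.Ok E U t θ b₀)
    (rG : Conf.ReadsSet (E.D ε ×ˢ (univ : Set Bool)) (E.G ε)) (mH : MeasurableSet (T.ℋ ε)) (rH : Conf.ReadsSet ((E.D ε ∪ E.K) ×ˢ (univ : Set Bool)) (T.ℋ ε))
    (thr : ∀ η ∈ E.G ε, b₀ ≤ pvtiP (pvP ε) (E.D ε ×ˢ (univ : Set Bool)) (T.ℋ ε) η) (mN : MeasurableSet (T.𝒩 ε)) (nN : pvP ε (T.𝒩 ε)ᶜ = 0)
    (det : ∀ ω ∈ U, ω ∈ T.Ms ε → CfOK ω → ∃ j ∈ T.J,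
      (∀ (Y Fz : Set ℂ) (s : ℂ → Bool), Y.Countable → PvlhgRg (E.Wn ε (E.Hu ω)) (T.𝒩 ε) Y → Fz ⊆ Y → (∀ z ∈ Y, z ∈ E.D ε → z ∈ Fz) → (∀ z ∈ Fz, z ∉ E.K ∧ z ∉ E.y ω) →
        ∃ sg : ℂ → Option Bool, {z | sg z ≠ none}.Countable ∧ PvlhUp sg (pvlhSec Y Fz s (T.ℋ ε)) ∧ PvlhUp sg (pvlhCp Y (T.𝒦 j))) ∧
      ∀ (η : Conf PvPt) (τ : ℂ → Bool), η ∈ T.𝒩 ε → (∀ z ∈ E.Wn ε (E.Hu ω), z ∉ E.K ∪ E.D ε → (z ∈ cfSites η ↔ z ∈ cfSites ω)) →
        (∀ z ∈ cfSites ω, z ∈ E.Wn ε (E.Hu ω) → z ∉ E.K ∪ E.D ε → z ∉ E.y ω → cfCol η z = cfCol ω z) → η ∈ E.G ε → η ∈ T.ℋ ε → cfOf (cfSites η) τ ∈ T.𝒦 j →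
        (∀ z ∈ cfSites η, z ∈ E.Wn ε (E.Hu ω) → (z ∈ E.K ∨ z ∈ E.y ω) → cfCol η z = τ z) → η ∈ E.Mev ε (E.Hu ω)) :
    (pvhbUp ε).P {q | pvConf (pvMerge q) ∈ (U ∩ T.Ms ε) \ E.Frc ε (t * (b₀ - θ))} ≤ ∑ j ∈ T.J, pvGeo ε {g | pvQc (T.𝒦 j) g < t} / θ := by
  refine pvlhg_cost hε H.mK (H.mK.union (H.mD ε)) (Eventually.of_forall fun _ => trivial) H.stop (fun Z : Finset (ℤ × ℤ) => E.Wn ε ↑Z) (H.mW ε) mN nN
    T.J T.O T.𝒦 H.mO H.bO H.mP H.rP t H.θ0 H.θt ?_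
  rintro ω ⟨hU, hMs⟩ hok hcnt hcert hnice
  obtain ⟨j, hj, hup, hdet⟩ := det ω hU hMs hok
  obtain ⟨Z, hZ⟩ : ∃ Z : Finset (ℤ × ℤ), (↑Z : Set (ℤ × ℤ)) = E.Hu ω := ⟨(H.fin ω hU).toFinset, (H.fin ω hU).coe_toFinset⟩
  have hn := hnice Z
  rw [hZ, pvsm_R_congr (yf' := fun _ => E.y ω) (E.K ∪ E.D ε) (H.yf_eq ω hU)] at hn
  have hmW : MeasurableSet (E.Wn ε (E.Hu ω)) := hZ ▸ H.mW ε Z
  have key := pvlhg_forced (M := E.Mev ε (E.Hu ω)) H.mK (H.mD ε) (H.mO j hj) (H.bO j hj) hmW (H.DK ε) (H.OD ε j hj) ((H.MKD ε).mono_left sdiff_subset) (H.KW ε _) (H.DW ε _) (H.OW ε _ j hj)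
    rG mH rH (H.mP j hj) (H.rP j hj) mN thr (pvay_win_of_ok hok (H.bO j hj)) hcnt (hcert j hj) hn hup hdet
  show ω ∈ pvrgFrc ε (E.K ∪ E.D ε) (fun _ => E.y ω) (E.G ε) (pvdyQ ε E.K (fun _ => E.y ω) (E.A ε ω)) (t * (b₀ - θ))
  rw [pvrg_mem_frc]
  have eA : E.A ε ω = pvsuSure (pvP ε) (E.Wn ε (E.Hu ω) ×ˢ univ) (E.Mev ε (E.Hu ω)) := by
    unfold PvifEnd.A pvilFin
    rw [if_pos (H.fin ω hU)]
    rfl
  rw [eA]
  exact key

/-- **THE INTEGRATOR**: the contract gives the sub-exit in the shape of 238 -/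
theorem pvif_frc {τ : Type} {c : ℝ} (𝔓 : PvxPar τ c) (m : ℕ) (z : ℂ) (tt : τ) (H : T.Ok E U t θ b₀) (hU : pvxU 𝔓 m z tt ⊆ pvConf ⁻¹' U) :
    PvguFrc 𝔓 m z tt fun ε => E.Frc ε (t * (b₀ - θ)) := by
  refine ⟨fun ε => {η | η ∈ U → η ∈ E.Frc ε (t * (b₀ - θ))}, ?_, Eventually.of_forall fun ε ω hω hc => hc (hU hω)⟩
  refine pvty_up_tendsto_union pvhbUp (A := fun ε => {q | pvConf (pvMerge q) ∈ (U ∩ T.Ms ε) \ E.Frc ε (t * (b₀ - θ))}) (B := fun ε => {x | pvConf (pvMerge x) ∉ T.Ms ε}) (fun ε x hx => ?_) ?_ H.cMs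
  · by_cases hM : pvConf (pvMerge x) ∈ T.Ms ε
    · refine Or.inl ⟨⟨?_, hM⟩, fun hF => hx fun _ => hF⟩
      by_contra hn
      exact hx fun h => absurd h hn
    · exact Or.inr hM
  · have h1 : Tendsto (fun ε : ℝ => ∑ j ∈ T.J, pvGeo ε {g | pvQc (T.𝒦 j) g < t} / θ) (𝓝[>] 0) (𝓝 0) := by
      have h2 : ∀ j ∈ T.J, Tendsto (fun ε : ℝ => pvGeo ε {g | pvQc (T.𝒦 j) g < t} / θ) (𝓝[>] 0) (𝓝 0) := by
        intro j hj
        have h3 := ENNReal.Tendsto.div_const (H.lim j hj) (Or.inr H.θ0)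
        rwa [ENNReal.zero_div] at h3
      have h4 := tendsto_finsetSum T.J h2
      simpa using h4
    have h5 : Tendsto (fun ε : ℝ => (∑ j ∈ T.J, pvGeo ε {g | pvQc (T.𝒦 j) g < t} / θ).toReal) (𝓝[>] 0) (𝓝 0) := by
      have h6 := (ENNReal.tendsto_toReal ENNReal.zero_ne_top).comp h1
      rwa [ENNReal.toReal_zero] at h6
    have hfin : ∀ᶠ ε : ℝ in 𝓝[>] 0, ∑ j ∈ T.J, pvGeo ε {g | pvQc (T.𝒦 j) g < t} / θ < 1 := h1.eventually (gt_mem_nhds one_pos)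
    refine squeeze_zero' (Eventually.of_forall fun ε => ENNReal.toReal_nonneg) ?_ h5
    filter_upwards [self_mem_nhdsWithin, H.rG, H.mH, H.rH, H.thr, H.mN, H.nN, H.det, hfin] with ε hε a1 a2 a3 a4 a5 a6 a7 a8
    exact ENNReal.toReal_mono (ne_top_of_lt a8) (pvif_cost hε H a1 a2 a3 a4 a5 a6 a7)

end glue

/-- **`η` IS A FINAL CONFIGURATION OVER THE BASE `ω`** (pattern `j`, copy colouring `τ'`): the hypotheses of the (DET) half of `PvifTest.Ok.det`, bundled -/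
structure PvifFin (E : PvifEnd) (T : PvifTest) (j : T.κ) (ε : ℝ) (ω η : Conf PvPt) (τ' : ℂ → Bool) : Prop where
  nice : η ∈ T.𝒩 ε
  sites : ∀ z ∈ E.Wn ε (E.Hu ω), z ∉ E.K ∪ E.D ε → (z ∈ cfSites η ↔ z ∈ cfSites ω)
  cols : ∀ z ∈ cfSites ω, z ∈ E.Wn ε (E.Hu ω) → z ∉ E.K ∪ E.D ε → z ∉ E.y ω → cfCol η z = cfCol ω z
  use : η ∈ E.G ε
  side : η ∈ T.ℋ ε
  pat : cfOf (cfSites η) τ' ∈ T.𝒦 j
  copy : ∀ z ∈ cfSites η, z ∈ E.Wn ε (E.Hu ω) → (z ∈ E.K ∨ z ∈ E.y ω) → cfCol η z = τ' z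

/-! ## 4. the thick return at the model: the end, the tests -/

/-- **the route data of the copy pattern**: mesh of the pattern grid, coloured routes (legs `(region, start, end)` of 21 / 298, `Tr/LinkQ`)      (own copy of the record of 54: this file does NOT import `Exit/FrcT.lean`) -/
structure PvifRt where
  dl : ℝ
  F : List (Bool × List (Set ℂ × ℂ × ℂ))

/-- the threshold of a pattern of `L` routes with its mesh clause (`pvkq_pat_lim`, `pvkq_with_lim` of 21) -/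
noncomputable def pvifT0 (q0 : ℝ) (Mq Kq L : ℕ) : ℝ≥0∞ := ENNReal.ofReal ((q0 ^ (15 * (Kq * (2 * Mq + 1) ^ 2)) / 2) ^ L) / 2

theorem pvif_eqns_cite3 : True := by
  have := @pvifT0.eq_1
  trivial

theorem pvif_T0_anti {q0 : ℝ} (h0 : 0 < q0) (h1 : q0 ≤ 1) (Mq Kq : ℕ) {L L' : ℕ} (h : L ≤ L') : pvifT0 q0 Mq Kq L' ≤ pvifT0 q0 Mq Kq L := by
  unfold pvifT0
  refine ENNReal.div_le_div_right (ENNReal.ofReal_le_ofReal ?_) _
  have hp : 0 < q0 ^ (15 * (Kq * (2 * Mq + 1) ^ 2)) := pow_pos h0 _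
  have hl : q0 ^ (15 * (Kq * (2 * Mq + 1) ^ 2)) ≤ 1 := pow_le_one₀ h0.le h1
  exact pow_le_pow_of_le_one (by positivity) (by linarith) h

theorem pvif_T0_ne {q0 : ℝ} (h0 : 0 < q0) (Mq Kq L : ℕ) : pvifT0 q0 Mq Kq L ≠ 0 := by
  unfold pvifT0
  have hp : 0 < q0 ^ (15 * (Kq * (2 * Mq + 1) ^ 2)) := pow_pos h0 _
  refine (ENNReal.div_pos ?_ (by norm_num)).ne'
  rw [Ne, ENNReal.ofReal_eq_zero, not_le]
  positivity

/-- the threshold of the propensities is a positive number -/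
theorem pvif_b {N : PvxNums} (nb : PvnaNb N) : nb.b ≠ 0 ∧ nb.b ≠ ∞ := by
  obtain ⟨ε, hε, h0⟩ := (nb.H.ok.and self_mem_nhdsWithin).exists
  refine ⟨hε.b0, fun hb => ?_⟩
  have h1 := hε.adm
  have h2 : pvP ε (nb.glob.C ∩ ⋂ i, nb.glob.H i) ≤ 1 := prob_le_one
  rw [hb] at h1
  have h3 : (∞ : ℝ≥0∞) ≤ 1 := by
    calc (∞ : ℝ≥0∞) = nb.β' + 4 * ∞ := by
          rw [ENNReal.mul_top (by norm_num), add_top]
      _ ≤ 1 := h1.trans h2
  exact absurd h3 (by simp)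

theorem pvif_sh_bdd (z : ℂ) {S : Set ℂ} (h : Bornology.IsBounded S) : Bornology.IsBounded (pvieSh z S) := by
  obtain ⟨R, hR⟩ := h.subset_closedBall (0 : ℂ)
  refine (Metric.isBounded_closedBall (x := z) (r := R)).subset ?_
  rintro _ ⟨w, hw, rfl⟩
  have := hR hw
  rw [mem_closedBall_iff_norm, sub_zero] at this
  rw [mem_closedBall_iff_norm]
  simpa using this

section model

variable {τ : Type} {c : ℝ} (𝔓 : PvxPar τ c) (𝔈 : PvieEng τ)

/-- **THE THICK RETURN `t ⇒ u`, PLACED** -/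
noncomputable def pvifE (m : ℕ) (z : ℂ) (t : τ) : PvifEnd where
  K := pvieSh z (𝔈.fK m t)
  D := fun _ => pvieSh (pvieZu 𝔓 m z t) (𝔈.rO m)
  Mo := pvieSh z (𝔈.fM m t)
  G := fun ε => pvrgGr 𝔈 m ε (𝔓.col t) (pvieZu 𝔓 m z t)
  Fz := pvilFo 𝔓 m z t
  Hu := pvilZo 𝔓 m z t
  Wn := fun _ Z => pvjtWnf 𝔓 𝔈 (pvguRet 𝔈) m z t Z
  Mev := fun _ Z => pvjtMf 𝔓 𝔈 (pvguRet 𝔈) m z t Z

/-- **the named set of 238 IS the forced set of the end** -/
theorem pvif_Ff (q : ℝ≥0∞) (m : ℕ) (ε : ℝ) (z : ℂ) (t : τ) : pvrgFf 𝔓 𝔈 q m ε z t = (pvifE 𝔓 𝔈 m z t).Frc ε q := rfl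

/-- **THE CONTRACT ON THE ROUTES OF THE THICK RETURN** at `(m, z, t)`; `Mq Kq Lq` = size of a leg in cells, number of legs of a route, number of routes.      GROWS IN PLACE (append only): whoever proves `pvif_l_up` / `pvif_l_run` appends the field he needs, the pen of the routes (165, 21) pays it in `exit_pvif_rt` -/
structure PvifRtOk (R : PvifRt) (Mq Kq Lq : ℕ) (m : ℕ) (z : ℂ) (t : τ) : Prop where
  fit : PvkqFit R.dl Mq Kq R.F
  len : R.F.length ≤ Lq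
  meas : MeasurableSet (pvkqPatR R.F)
  /-- the window of the pattern lies in (recoloured mouth) ∪ (resampled tile): it misses the region of the reference plug -/
  win : pvkqPatR R.F ⊆ pvieSh z (𝔈.fM m t) ∪ pvieSh z (𝔈.fK m t)
  /-- [52, for `pvif_l_up`; serves `pvif_l_run`] THE ROUTES ARE EXPLICIT: the pattern of record of 296 (`Exit/GoodFM`), colour of the strand on the side `true` = LEFT of the direction of travel = the UPPER half lane of `S⁻` at `u` -/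
  pat : R = ⟨pvehDl 𝔓 m / 512, pvyrPatU 𝔓 m z t true (𝔓.col t)⟩

/-- **THE NUMBERS AND LEGS OF DET (b3)** (284, `Tr/HookFA` sec. 5: arguments of `PvhoTip` of 266 and of `Pvj8LayD`) -/
structure PvifNm where
  μ₀ : ℝ
  rs : ℝ
  rt : ℝ
  e₀ : ℝ
  ρl : ℝ
  ζd : ℂ
  eC : Bool → Set ℂ × ℂ × ℂ
  eN : Bool → Set ℂ × ℂ × ℂ
  eD : Bool → Set ℂ × ℂ × ℂ
  tt : Bool → List (Set ℂ × ℂ × ℂ)
  Sg : Bool → Set ℂ
  jN : Bool → ℕ
  jS : Bool → ℕ
  xc : Bool → ℝ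
  xa : Bool → ℝ
  xb : Bool → ℝ
  y0 : Bool → ℝ
  y1 : Bool → ℝ

/-- **WHAT DET (b1 b2 b3) OF THE THICK RETURN OWES TO THE REGIONS AND TO THE ROUTES**, in the words of the consumer `pvj8_evD` (284, `Tr/HookFA` sec. 5; D FORM: ALL TIP CELLS): NUMBERS AND REGIONS ONLY, no configuration, no state.
`s` = scale of the reference plug, `𝔱` = truncation of its side events, `dl F` = the routes (listed FROM THE TIP; `β` = colour RELATIVE to the strand) -/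
structure PvifNm.Ok (𝔫 : PvifNm) (s : ℝ) (𝔱 : PvhfTr) (dl : ℝ) (F : List (Bool × List (Set ℂ × ℂ × ℂ))) (m : ℕ) (z : ℂ) (t : τ) : Prop where
  /-- eight lines of numbers (266 `Tr/FrcDetA`) -/
  tip : PvhoTip 𝔓 m t 𝔫.μ₀ 𝔫.rs 𝔫.rt
  /-- the mesh `μ₀` at the base is paid by the certificate `pvifMs` (scale `μ / 40`) -/
  fine : pvilMu 𝔓 m / 40 ≤ 𝔫.μ₀
  lay : Pvj8LayD (pvjtLf 𝔓 𝔈 (pvguRet 𝔈) m z t) 𝔓.num (pvieSh z (𝔈.fM m t) ∪ pvieSh z (𝔈.fK m t) ∪ pvieSh (pvieZu 𝔓 m z t) (𝔈.rO m)) ((pvieSh z (𝔈.fM m t) ∪ pvieSh z (𝔈.fK m t)) \ pvwSq z (pviwRad 𝔓 m t))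
      (pvilMu 𝔓 m) ((starRingEnd ℂ) ((𝔓.Γ m).dout t)) ((𝔓.ty t).cp (pvlmH m) z) 𝔫.rs 𝔫.μ₀ 𝔫.rt 𝔫.e₀ 𝔫.ρl dl 𝔫.eC 𝔫.eN 𝔫.eD 𝔫.tt 𝔫.Sg 𝔫.jN 𝔫.jS 𝔫.ζd
      (fun β => pvkdAt (pvieZu 𝔓 m z t) (1 * s) (𝔱.Ln false β)) (fun β => pvkdAt (pvieZu 𝔓 m z t) (1 * s) (𝔱.Dr false β)) 𝔫.xc 𝔫.xa 𝔫.xb 𝔫.y0 𝔫.y1
  /-- the pattern contains the two routes      [88 `pvw7_pat_col`] -/
  mem : ∀ β, (β == 𝔓.col t, 𝔫.eC β :: 𝔫.eN β :: 𝔫.tt β) ∈ F

/-- **THE SIDE EVENT** `S` (centre `0`, black form, unit datum) at the scale of record, placed at `(zu, 1)`, colour of the strand -/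
noncomputable def pvifH (S : Set (Conf PvPt)) (m : ℕ) (z : ℂ) (t : τ) : Set (Conf PvPt) := pvdpPl (pvieZu 𝔓 m z t) 1 (𝔓.col t) (pvurSc (pvurSr 𝔓 m) S)

/-- the a.s. properties of one configuration: nice, one colour per site, a usable plug is plain (`C` = the plain plug of the unit datum) -/
def pvifN0 (C : Set (Conf PvPt)) (m : ℕ) (z : ℂ) (t : τ) (ε : ℝ) : Set (Conf PvPt) :=
  {η | PvatNice (cfSites η) ∧ (∀ p ∈ η.pts, ∀ q ∈ η.pts, p.1 = q.1 → p = q) ∧ (η ∈ pvrgGr 𝔈 m ε (𝔓.col t) (pvieZu 𝔓 m z t) → η ∈ pvifH 𝔓 C m z t)}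

/-- **THE NICE EVENT** (measurable version) -/
def pvifN (C : Set (Conf PvPt)) (m : ℕ) (z : ℂ) (t : τ) (ε : ℝ) : Set (Conf PvPt) := (toMeasurable (pvP ε) (pvifN0 𝔓 𝔈 C m z t ε)ᶜ)ᶜ

/-- **THE CERTIFICATE OF THE BASE** (kept part): mesh `δ / 3` of the own-level box with its collar, mesh `μ / 40` of (own-level box + collar) ∪ mouth (64: ONE free scale of `Exit/MeshT`), mesh `μ / 40` of the disc `2 r_k + 4 h` of the pin (284: THE ONE certificate of `pvj8_evD`).      GROWS IN PLACE (mesh sets are free) -/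
def pvifMs (m : ℕ) (z : ℂ) (t : τ) : Set (Conf PvPt) :=
  pvrgB 𝔓 m z t ∩ pvrgMesh (pvilMu 𝔓 m / 40) (pvilBx 𝔓 m z t ∪ pvieSh z (𝔈.fM m t)) ∩ pvrgMesh (pvilMu 𝔓 m / 40) (Metric.closedBall z (2 * pviwRad 𝔓 m t + 4 * pvlmH m))

/-- **THE GUARDED STOPPING CHOICE** (96) -/
noncomputable def pvifYf (m : ℕ) (z : ℂ) (t : τ) : Conf PvPt → Set ℂ :=
  pvsmGd (pvilU 𝔓.num (𝔓.col t) (pvilPin 𝔓 m z t)) fun η => pvieSh z (𝔈.fM m t) \ pvilFo 𝔓 m z t η ∪ pvieSh z (∅ : Set ℂ) \ pvilFi 𝔓 m z t η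

/-- **THE TESTS OF THE THICK RETURN**: copy pattern = routes ∩ mesh `μ / 40` of the tile (exact reader of 52) -/
noncomputable def pvifT (S C : Set (Conf PvPt)) (R : PvifRt) (m : ℕ) (z : ℂ) (t : τ) : PvifTest where
  κ := Unit
  J := {()}
  O := fun _ => pvkqPatR R.F ∪ pvieSh z (𝔈.fK m t)
  𝒦 := fun _ => pvkqPat R.dl R.F ∩ pvjoMesh (pvilMu 𝔓 m / 40) (pvieSh z (𝔈.fK m t))
  ℋ := fun _ => pvifH 𝔓 S m z t
  𝒩 := pvifN 𝔓 𝔈 C m z t
  Ms := fun _ => pvifMs 𝔓 𝔈 m z t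
  yf := pvifYf 𝔓 𝔈 m z t

end model

/-- **the thick return at the engine of record** -/
noncomputable def pvifEr (N : PvxNums) (hN : N.Ok) (c : ℝ) (nb : PvnaNb N) (m : ℕ) (z : ℂ) (t : pvxTau N) : PvifEnd := pvifE (pvxParOf N hN c) (pvnaEngRec N hN c nb) m z t

/-- **its tests**: side event `S⁻ = Hf 2` (ENTRANCE side of `u`), plain plug of the datum of record -/
noncomputable def pvifTr (N : PvxNums) (hN : N.Ok) (c : ℝ) (nb : PvnaNb N) (R : PvifRt) (m : ℕ) (z : ℂ) (t : pvxTau N) : PvifTest :=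
  pvifT (pvxParOf N hN c) (pvnaEngRec N hN c nb) (nb.Hf 2) nb.glob.C R m z t

/-- **the bases**: the configurations which carry the full state of `(z, t)` -/
def pvifUr (N : PvxNums) (hN : N.Ok) (c : ℝ) (m : ℕ) (z : ℂ) (t : pvxTau N) : Set (Conf PvPt) := pvilU (pvxParOf N hN c).num ((pvxParOf N hN c).col t) (pvilPin (pvxParOf N hN c) m z t)

theorem pvif_eqns_cite2 : True := by
  have := @pvifE.eq_1; have := @pvifH.eq_1; have := @pvifN0.eq_1; have := @pvifN.eq_1; have := @pvifMs.eq_1; have := @pvifYf.eq_1; have := @pvifT.eq_1; have := @pvifEr.eq_1; have := @pvifTr.eq_1; have := @pvifUr.eq_1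
  trivial

/-! ## 4'. the window of the side event `S⁻` against the regions (43): generic in the scale and in the window `O'` of the plug (U4: `O' := pvnuRO 𝔓 m`, `s := pvurS 𝔓 m`; the last union is then `pvnuFK 𝔓 m t` by `rfl`) -/

/-- **A WINDOW PLACED AT THE REFERENCE PLUG, WEST SIDE** (mirror of `pvbd_win_gen`; generic in the window `E`, in the scale `s` AND IN THE WINDOW `O'` OF THE PLUG: at `O' := pvehrO 𝔓 m` the ring is empty, at `O' := pvnuRO 𝔓 m` this is the region line of U4):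
inside the closed block, its east part inside `O'` ⟹ it lies in (`zu + O'`) ∪ (tile of the thick return) ∪ (`zu +` West half of the ring `rO \ O'`) -/
theorem pvif_win_gen {τ : Type} {c : ℝ} {𝔓 : PvxPar τ c} {m : ℕ} {t : τ} (h : PvefNdg 𝔓 m t) (hΓ : 𝔓.Γ m = pvxrGam 𝔓 m) (z : ℂ) {s : ℝ} {E O' : Set ℂ}
    (hE : ∀ w ∈ E, |s * w.re| ≤ pvehDl 𝔓 m / 2 ∧ |s * w.im| ≤ pvehDl 𝔓 m / 2 ∧ (0 ≤ s * w.re → ((s : ℝ) : ℂ) * w ∈ O')) :
    pvthSim (pvieZu 𝔓 m z t) ((s : ℝ) : ℂ) '' E ⊆ pvieSh (pvieZu 𝔓 m z t) O' ∪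
      pvieSh z (pveffK 𝔓 m t ∪ pvieSh ((𝔓.Γ m).zu t) ((pvehrO 𝔓 m \ O') ∩ {w : ℂ | w.re < 0})) := by
  have hzu : pvieZu 𝔓 m z t = z + (pvxrGam 𝔓 m).zu t := by unfold pvieZu; rw [hΓ]
  have hΔ := pveh_Dl_pos (pvef_n0 h)
  rintro _ ⟨w, hw, rfl⟩
  obtain ⟨b1, b2, b3⟩ := hE w hw
  set Δ := pvehDl 𝔓 m with hΔdef
  have e1 : (((s : ℝ) : ℂ) * w).re = s * w.re := by rw [Complex.re_ofReal_mul]
  have e2 : (((s : ℝ) : ℂ) * w).im = s * w.im := by rw [Complex.im_ofReal_mul]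
  by_cases hin : ((s : ℝ) : ℂ) * w ∈ O'
  · left
    exact ⟨_, hin, rfl⟩
  right
  have hre : s * w.re < 0 := by
    by_contra hneg
    exact hin (b3 (not_lt.1 hneg))
  by_cases hO : ((s : ℝ) : ℂ) * w ∈ pvehrO 𝔓 m
  · refine ⟨(pvxrGam 𝔓 m).zu t + ((s : ℝ) : ℂ) * w, Or.inr ?_, by rw [hzu]; unfold pvthSim; ring⟩
    rw [hΓ]
    exact ⟨_, ⟨⟨hO, hin⟩, by show (((s : ℝ) : ℂ) * w).re < 0; rw [e1]; exact hre⟩, rfl⟩
  · refine ⟨(pvxrGam 𝔓 m).zu t + ((s : ℝ) : ℂ) * w, Or.inl ?_, by rw [hzu]; unfold pvthSim; ring⟩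
    rw [abs_le] at b1 b2
    have hsq : (pvxrGam 𝔓 m).zu t + ((s : ℝ) : ℂ) * w ∈ pvehSq ((pvxrGam 𝔓 m).zu t) (Δ / 2) := by
      rw [pveh_mem_sq, Complex.add_re, Complex.add_im, e1, e2]
      refine ⟨⟨?_, ?_⟩, ?_, ?_⟩ <;> linarith [b1.1, b1.2, b2.1, b2.2]
    refine ⟨Or.inr ⟨hsq, ?_⟩, ?_⟩
    · rw [Complex.add_re, e1]
      linarith
    · rintro (h' | h')
      · apply hO
        have h'' : pvccN ((pvxrGam 𝔓 m).zu t + ((s : ℝ) : ℂ) * w - (pvxrGam 𝔓 m).zu t) < Δ / 4 := h'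
        rw [add_sub_cancel_left] at h''
        show pvccN (((s : ℝ) : ℂ) * w - 0) < Δ / 4
        rwa [sub_zero]
      · have f1 := pvef_e_far h (Or.inl hsq)
        have f2 : ‖(pvxrGam 𝔓 m).zu t + ((s : ℝ) : ℂ) * w - pvegYp 𝔓 m t‖ ≤ 5 * pvegR 𝔓 m / 16 := mem_closedBall_iff_norm.1 h'
        have f3 : 0 ≤ pvegR 𝔓 m := by
          have := norm_nonneg ((pvxrGam 𝔓 m).zu t + ((s : ℝ) : ℂ) * w - pvegYp 𝔓 m t)
          linarith
        linarith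

/-- the OPEN window of the entrance side event `S⁻` (258 `pvkgEm`; R24 of 234): its box, its east part -/
theorem pvif_Em_box {w : ℂ} (hw : w ∈ pvkgEm) : (-(11 / 80) ≤ w.re ∧ w.re ≤ 13 / 160) ∧ (-(13 / 160) ≤ w.im ∧ w.im ≤ 13 / 160) ∧ (0 ≤ w.re → |w.re| ≤ 13 / 160 ∧ |w.im| ≤ 13 / 160) := by
  rcases hw with ⟨h1, h2, h3, h4⟩ | ⟨h1, h2, h3, h4⟩
  · exact ⟨⟨by linarith, by linarith⟩, ⟨by linarith, by linarith⟩, fun _ => ⟨abs_le.2 ⟨by linarith, by linarith⟩, abs_le.2 ⟨by linarith, by linarith⟩⟩⟩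
  · refine ⟨⟨by linarith, by linarith⟩, ⟨by linarith, by linarith⟩, fun h0 => ?_⟩
    exfalso
    linarith

/-- **an event of the frame of the reference plug, read in the window of `S⁻`**, at a scale `s ≤ 3 Δ_m` whose square `s • [-3/40, 3/40]²` lies in the window `O'` of the plug, placed at `(zu, 1)`: read over (`zu + O'`) ∪ (tile of the thick return + West ring) -/
theorem pvif_rH_gen {τ : Type} {c : ℝ} {𝔓 : PvxPar τ c} {m : ℕ} {t : τ} (h : PvefNdg 𝔓 m t) (hΓ : 𝔓.Γ m = pvxrGam 𝔓 m) (z : ℂ) (col : Bool) {s : ℝ} (s0 : 0 < s) (s1 : s ≤ 3 * pvehDl 𝔓 m) {O' : Set ℂ}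
    (hO : ∀ w : ℂ, |w.re| ≤ 13 / 160 → |w.im| ≤ 13 / 160 → ((s : ℝ) : ℂ) * w ∈ O')
    {E : Set ℂ} {S : Set (Conf PvPt)} (hr : Conf.ReadsSet (E ×ˢ (univ : Set Bool)) S) (hE : E ⊆ pvkgEm) :
    Conf.ReadsSet ((pvieSh (pvieZu 𝔓 m z t) O' ∪ pvieSh z (pveffK 𝔓 m t ∪ pvieSh ((𝔓.Γ m).zu t) ((pvehrO 𝔓 m \ O') ∩ {w : ℂ | w.re < 0}))) ×ˢ (univ : Set Bool))
      (pvdpPl (pvieZu 𝔓 m z t) 1 col (pvurSc s S)) := by
  have hs : ((s : ℝ) : ℂ) ≠ 0 := by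
    rw [Ne, Complex.ofReal_eq_zero]
    exact s0.ne'
  have e : pvdpPl (pvieZu 𝔓 m z t) 1 col (pvurSc s S) = pvdpPl (pvieZu 𝔓 m z t) ((s : ℝ) : ℂ) col S := by
    ext η
    show cfMap (pvthInv 0 ((s : ℝ) : ℂ)) (pvdpT (pvieZu 𝔓 m z t) 1 col η) ∈ S ↔ pvdpT (pvieZu 𝔓 m z t) ((s : ℝ) : ℂ) col η ∈ S
    rw [pvdp_T_comp _ _ _ _ one_ne_zero, mul_zero, add_zero, one_mul]
  rw [e]
  refine (pvdp_reads _ _ hs col hr).mono (Set.prod_mono ((Set.image_mono hE).trans (pvif_win_gen h hΓ z fun w hw => ?_)) le_rfl)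
  obtain ⟨⟨b1, b2⟩, ⟨b3, b4⟩, b5⟩ := pvif_Em_box hw
  have hΔ := pveh_Dl_pos (pvef_n0 h)
  refine ⟨?_, ?_, fun h0 => ?_⟩
  · rw [abs_le]; constructor <;> nlinarith
  · rw [abs_le]; constructor <;> nlinarith
  · have h1 : 0 ≤ w.re := by
      by_contra hn
      push Not at hn
      nlinarith
    exact hO w (b5 h1).1 (b5 h1).2

/-! ## 5. THE LEAVES (at the engine of record) -/

section leaves

variable {c : ℝ} (c0 : 0 < c) (N : PvxNums) (hN : N.Ok) (nb : PvnaNb N) {m : ℕ} (hm : (pvxParOf N hN c).m0 ≤ m) (ε : ℝ) (z : ℂ) (t : pvxTau N)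

/-! ### [regions]      (182 `Exit/ParEngF`: `pvef_m_fK pvef_fK_fM pvef_fK_rO`; 124: `fK := pveffK`, `fY := pveffY` in `pveaEng`; 168 `InstWf` (F) lines) -/

include c0 hm in
theorem pvif_l_mK : MeasurableSet (pvifEr N hN c nb m z t).K := by
  obtain ⟨Cth, r, κs, H⟩ := (pvnr_wf hN c0 nb).wf
  exact pvjt_sh_meas z (H.m_fK m t)

include c0 hm in
theorem pvif_l_mD : MeasurableSet ((pvifEr N hN c nb m z t).D ε) := by
  obtain ⟨Cth, r, κs, H⟩ := (pvnr_wf hN c0 nb).wf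
  exact pvjt_sh_meas _ (H.m_rO m)

include c0 hm in
theorem pvif_l_DK : Disjoint ((pvifEr N hN c nb m z t).D ε) (pvifEr N hN c nb m z t).K := by
  obtain ⟨Cth, r, κs, H⟩ := (pvnr_wf hN c0 nb).wf
  have h := H.th_disj m hm t (pvea_tyOk hN t)
  simp only [List.pairwise_cons, List.mem_cons, List.not_mem_nil, or_false, forall_eq_or_imp, forall_eq, IsEmpty.forall_iff, implies_true, List.Pairwise.nil, and_true] at h
  show Disjoint (pvieSh (pvieZu (pvxParOf N hN c) m z t) ((pvnaEngRec N hN c nb).rO m)) (pvieSh z ((pvnaEngRec N hN c nb).fK m t))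
  rw [pvjh_ro_sh]
  exact (pvjh_sh_disj z).2 h.2.2.2.symm

include c0 hm in
theorem pvif_l_MKD : Disjoint (pvifEr N hN c nb m z t).Mo ((pvifEr N hN c nb m z t).K ∪ (pvifEr N hN c nb m z t).D ε) := by
  obtain ⟨Cth, r, κs, H⟩ := (pvnr_wf hN c0 nb).wf
  have h := H.th_disj m hm t (pvea_tyOk hN t)
  simp only [List.pairwise_cons, List.mem_cons, List.not_mem_nil, or_false, forall_eq_or_imp, forall_eq, IsEmpty.forall_iff, implies_true, List.Pairwise.nil, and_true] at h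
  show Disjoint (pvieSh z ((pvnaEngRec N hN c nb).fM m t)) (pvieSh z ((pvnaEngRec N hN c nb).fK m t) ∪ pvieSh (pvieZu (pvxParOf N hN c) m z t) ((pvnaEngRec N hN c nb).rO m))
  rw [pvjh_ro_sh]
  exact Disjoint.union_right ((pvjh_sh_disj z).2 h.2.2.1.1) ((pvjh_sh_disj z).2 h.2.2.1.2)

include c0 hm in
theorem pvif_l_mW (Z : Finset (ℤ × ℤ)) : MeasurableSet ((pvifEr N hN c nb m z t).Wn ε ↑Z) := by
  obtain ⟨Cth, r, κs, H⟩ := (pvnr_wf hN c0 nb).wf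
  have hf : ∀ (δ : ℝ) (Z : Set (ℤ × ℤ)), MeasurableSet (pvilFat δ Z) := fun δ Z => MeasurableSet.biUnion (Set.to_countable _) fun _ _ => pvt_sq_closed.measurableSet
  have hs : ∀ (z : ℂ) (r : ℝ), MeasurableSet (pvwSq z r) := fun z r =>
    ((isClosed_le (by fun_prop) continuous_const : IsClosed {w : ℂ | |(w - z).re| ≤ r}).inter (isClosed_le (by fun_prop) continuous_const : IsClosed {w : ℂ | |(w - z).im| ≤ r})).measurableSet
  exact ((((hf _ _).inter (hs _ _)).union (pvjt_sh_meas z (H.m_fM m t))).union (pvjt_sh_meas z (H.m_fK m t))).union (pvjt_sh_meas _ (H.m_rO m))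

/-! ### [state] -/

/-- the hull of the exit half state is finite      [255 `pvkfl_Zo_finite`] -/
theorem pvif_l_fin : ∀ ω ∈ pvifUr N hN c m z t, ((pvifEr N hN c nb m z t).Hu ω).Finite := by
  intro ω _
  exact pvkfl_Zo_finite (pvxParOf N hN c) m z t (pvlm_Del_pos c m) ω

include c0 hm in
/-- [STOP] = `pvsml_stop_pin` of 96 + ONE region line: the mouth lies in the protected ball -/
theorem pvif_l_mouth : (pvnaEngRec N hN c nb).fM m t ⊆ Metric.closedBall ((pvlmH m : ℂ) * ((pvxParOf N hN c).ty t).yp) (2 * (pvxParOf N hN c).num.rho * pvlmH m) := by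
  obtain ⟨Cth, r, κs, H⟩ := (pvnr_wf hN c0 nb).wf
  exact H.fM_cen m hm t (pvea_tyOk hN t)

/-! ### [pattern] -/

variable {Mq Kq Lq : ℕ} {R : PvifRt} (hR : PvifRtOk (pvxParOf N hN c) (pvnaEngRec N hN c nb) R Mq Kq Lq m z t)

include c0 hm hR in
theorem pvif_l_bO : Bornology.IsBounded ((pvifTr N hN c nb R m z t).O ()) := by
  obtain ⟨Cth, r, κs, H⟩ := (pvnr_wf hN c0 nb).wf
  have h := H.f_bdd m hm t (pvea_tyOk hN t)
  have b1 : Bornology.IsBounded (pvieSh z ((pvnaEngRec N hN c nb).fM m t)) := pvif_sh_bdd z (Metric.isBounded_closedBall.subset (subset_union_left.trans h))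
  have b2 : Bornology.IsBounded (pvieSh z ((pvnaEngRec N hN c nb).fK m t)) := pvif_sh_bdd z (Metric.isBounded_closedBall.subset (subset_union_right.trans h))
  exact (b1.union b2).subset (union_subset hR.win subset_union_right)

include hR in
theorem pvif_l_rP : Conf.ReadsSet ((pvifTr N hN c nb R m z t).O () ×ˢ (univ : Set Bool)) ((pvifTr N hN c nb R m z t).𝒦 ()) :=
  (hR.fit.reads.mono (prod_mono subset_union_left subset_rfl)).inter ((pvjo_mesh_reads _ _).mono (prod_mono subset_union_right subset_rfl))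

include c0 hm hR in
/-- **[cost]** the threshold of the copy pattern      [21 `pvkq_pat_lim`, `pvkq_with_lim`; 52 `pvjo_mesh_meas`, `pvjo_mesh_lim`; `pvif_T0_anti`].      `H` = the conclusion of `pvkq_pat_lim` at `q0` -/
theorem pvif_l_lim {q0 : ℝ} (h0 : 0 < q0) (h1 : q0 ≤ 1) (H : ∀ (M K : ℕ) (δ : ℝ) (F : List (Bool × List (Set ℂ × ℂ × ℂ))), PvkqFit δ M K F →
      Tendsto (fun ε : ℝ => pvGeo ε {g | pvQc (pvkqPat δ F) g < ENNReal.ofReal ((q0 ^ (15 * (K * (2 * M + 1) ^ 2)) / 2) ^ F.length)}) (𝓝[>] (0 : ℝ)) (𝓝 0)) :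
    Tendsto (fun ε : ℝ => pvGeo ε {g | pvQc ((pvifTr N hN c nb R m z t).𝒦 ()) g < pvifT0 q0 Mq Kq Lq}) (𝓝[>] 0) (𝓝 0) := by
  have hμ : 0 < pvilMu (pvxParOf N hN c) m := by
    unfold pvilMu
    have h2 : 0 < (pvxParOf N hN c).num.rho3 * pvlmH m := mul_pos hN.msk0 (pvlm_H_pos m)
    have h3 := lt_min (pvlm_Del_pos c m) h2
    positivity
  have hpos : 0 < (q0 ^ (15 * (Kq * (2 * Mq + 1) ^ 2)) / 2) ^ R.F.length := by positivity
  have hlim := pvkq_with_lim (pvjo_mesh_meas (pvilMu (pvxParOf N hN c) m / 40) (pvif_l_mK c0 N hN nb hm z t)) (ENNReal.ofReal_pos.2 hpos).ne' ENNReal.ofReal_ne_top (H Mq Kq R.dl R.F hR.fit)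
    (pvjo_mesh_lim (by positivity) ((pvbd_rec N hN c nb).sh_fK z m t))
  refine tendsto_of_tendsto_of_tendsto_of_le_of_le tendsto_const_nhds hlim (fun _ => zero_le) fun ε => measure_mono fun g hg => ?_
  exact lt_of_lt_of_le hg (pvif_T0_anti h0 h1 Mq Kq hR.len)

/-! ### [plug]      (31 `Exit/RefEnd.lean`: `pvur_end_rG _mH _thr _loc _door` at ANY centre, ANY colour) -/

/-- the usable reference plug is read in its region -/
theorem pvif_l_rG : Conf.ReadsSet ((pvifEr N hN c nb m z t).D ε ×ˢ (univ : Set Bool)) ((pvifEr N hN c nb m z t).G ε) := by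
  exact pvur_end_rG hN c nb m ε _ _

theorem pvif_l_mH : MeasurableSet ((pvifTr N hN c nb R m z t).ℋ ε) := by
  obtain ⟨e, he⟩ := nb.H.ok.exists
  exact pvdp_meas _ _ _ (pvur_Sc_meas _ (he.mH 2))

include c0 hm in
/-- the side event is read over (region of the reference plug) ∪ (tile): the window `s_m • E⁻`, placed at `zu`, lies in `(zu + rO) ∪ (z + fK)`      [174 / 9 `pvna_Hf_reads`; 77 `pvdp_reads`; REGION LINE: 84 / 182: `fK` contains `s_m •` (the part of `E⁻` off `O₀`) placed at `zu`] -/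
theorem pvif_l_rH : Conf.ReadsSet (((pvifEr N hN c nb m z t).D ε ∪ (pvifEr N hN c nb m z t).K) ×ˢ (univ : Set Bool)) ((pvifTr N hN c nb R m z t).ℋ ε) :=
  pvbd_nu_rHf (pvea_par hN c0) hm (pvea_tyOk hN (c := c) t) (pvnaInRec N hN c nb) _ _ _ z ((pvxParOf N hN c).col t) (pvna_Hf_reads hN 2) le_rfl

/-- the soft threshold of the usable reference plugs: the clause `Thr` of `pvnaRG`      [31 `pvur_rec_thr`, 77 `pvdp_thr_r`] -/
theorem pvif_l_thr : ∀ η ∈ (pvifEr N hN c nb m z t).G ε, nb.b ≤ pvtiP (pvP ε) ((pvifEr N hN c nb m z t).D ε ×ˢ (univ : Set Bool)) ((pvifTr N hN c nb R m z t).ℋ ε) η :=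
  pvur_end_thr hN c nb m ε _ _ 2

include c0 hm in
/-- a.s. a usable plug is a plain plug: the clause `Sure` of `pvnaRG`      [31 `pvur_rec_one`] -/
theorem pvif_l_loc (hε : 0 < ε) : ∀ᵐ η ∂pvP ε, η ∈ (pvifEr N hN c nb m z t).G ε → η ∈ pvifH (pvxParOf N hN c) nb.glob.C m z t :=
  pvur_end_loc hN c nb m ε _ _

/-! ### [cert] -/

include c0 hm in
/-- mesh certificates are free      [`pvds_mesh_lim`, `pvgu_up_of_P`] -/
theorem pvif_l_cMs : Tendsto (fun ε => ((pvhbUp ε).P {x | pvConf (pvMerge x) ∉ (pvifTr N hN c nb R m z t).Ms ε}).toReal) (𝓝[>] (0 : ℝ)) (𝓝 0) := by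
  have hd : 0 < pvlmDel c m := pvlm_Del_pos c m
  have hμ : 0 < pvilMu (pvxParOf N hN c) m := by
    unfold pvilMu
    have h2 : 0 < (pvxParOf N hN c).num.rho3 * pvlmH m := mul_pos hN.msk0 (pvlm_H_pos m)
    have h3 := lt_min hd h2
    positivity
  have h : PvrgSmall fun _ : ℝ => (pvifMs (pvxParOf N hN c) (pvnaEngRec N hN c nb) m z t)ᶜ := by
    refine pvrg_small_inter (S := fun _ => pvrgB (pvxParOf N hN c) m z t ∩ pvrgMesh (pvilMu (pvxParOf N hN c) m / 40) (pvilBx (pvxParOf N hN c) m z t ∪ pvieSh z ((pvnaEngRec N hN c nb).fM m t)))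
      (T := fun _ => pvrgMesh (pvilMu (pvxParOf N hN c) m / 40) (Metric.closedBall z (2 * pviwRad (pvxParOf N hN c) m t + 4 * pvlmH m)))
      (pvrg_small_inter (S := fun _ => pvrgB (pvxParOf N hN c) m z t) (T := fun _ => pvrgMesh (pvilMu (pvxParOf N hN c) m / 40) (pvilBx (pvxParOf N hN c) m z t ∪ pvieSh z ((pvnaEngRec N hN c nb).fM m t))) ?_ ?_) ?_
    · exact pvrg_mesh_small (by positivity) (pvbd_sh z (pvbd_wSq _ _))
    · exact pvrg_mesh_small (by positivity) ((pvbd_wSq _ _).union ((pvbd_rec N hN c nb).sh_fM z m t))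
    · exact pvrg_mesh_small (by positivity) Metric.isBounded_closedBall
  exact h.toReal

/-! ### [DET] -/

include hN in
/-- **THE SIDE EVENT `S⁻` OF RECORD IS MONOTONE UNDER RECOLOURINGS** (window `3r` of the plug frozen, black kept on the black half lane, white on the white one)      [`pvhn_mono`; AFTER A CHANGE OF `pvnaHf`: only this proof moves (rooms `Ln` do not move: `pvk2_Ln`; a mesh clause is colour blind: `pvut_mono_mesh`, `pvut_mono_inter`)]      (52) -/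
theorem pvif_mS : PvjoMono (nb.Hf 2) true (pvwSq 0 (3 * (1 / 40))) ((pvhfT (1 / 40)).Ln false true) ((pvhfT (1 / 40)).Ln false false) :=
  pvhn_mono (pvna_geo hN) subset_rfl false

/-- the window `3r` of the reference plug, at the scale of record, lies in its region      [31 / 84 `pvur_rec_reg`: survives U4]      (52) -/
theorem pvif_sq_D : pvthSim (z + (pvxrGam (pvxParOf N hN c) m).zu t) (1 * ((pvurSr (pvxParOf N hN c) m : ℝ) : ℂ)) '' pvwSq 0 (3 * (1 / 40)) ⊆ (pvifEr N hN c nb m z t).D ε := by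
  rintro _ ⟨w, ⟨w1, w2⟩, rfl⟩
  rw [sub_zero, abs_le] at w1 w2
  have hw : w ∈ pvkgG.O₀ := ⟨by linarith [w1.1], by linarith [w1.2], by linarith [w2.1], by linarith [w2.2]⟩
  exact ⟨_, pvur_rec_reg (𝔓 := pvxParOf N hN c) m ⟨w, hw, rfl⟩, by unfold pvthSim pvieZu; rw [pvxo_gam]; first | done | ring⟩

include c0 hm hR in
/-- **ONE MIXED ORDER** for the section of the side event and for the copy pattern      [174 `pvhf_S_mono`; 77 `PvdpUp.pl .sec`; 167 / 250 `pvjp_*`; rooms of the routes: `PvifRtOk`] -/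
theorem pvif_l_up (hε : 0 < ε) (ω : Conf PvPt) (hU : ω ∈ pvifUr N hN c m z t) (Y Fz : Set ℂ) (s : ℂ → Bool) (hY : Y.Countable)
    (hRg : PvlhgRg ((pvifEr N hN c nb m z t).Wn ε ((pvifEr N hN c nb m z t).Hu ω)) ((pvifTr N hN c nb R m z t).𝒩 ε) Y) (hFY : Fz ⊆ Y)
    (hD : ∀ v ∈ Y, v ∈ (pvifEr N hN c nb m z t).D ε → v ∈ Fz) (hF : ∀ v ∈ Fz, v ∉ (pvifEr N hN c nb m z t).K ∧ v ∉ (pvifEr N hN c nb m z t).y ω) :
    ∃ sg : ℂ → Option Bool, {v | sg v ≠ none}.Countable ∧ PvlhUp sg (pvlhSec Y Fz s ((pvifTr N hN c nb R m z t).ℋ ε)) ∧ PvlhUp sg (pvlhCp Y ((pvifTr N hN c nb R m z t).𝒦 ())) := by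
  obtain ⟨η, hη, hW⟩ := hRg
  have hnice : PvatNice (cfSites η) := by
    have h1 : η ∈ (toMeasurable (pvP ε) (pvifN0 (pvxParOf N hN c) (pvnaEngRec N hN c nb) nb.glob.C m z t ε)ᶜ)ᶜ := hη
    by_contra hn
    exact h1 (subset_toMeasurable _ _ fun h => hn h.1)
  have hn := pvea_ndgF (pvea_par hN c0) hm (pvea_tyOk hN (c := c) t)
  have hΔ := pveh_Dl_pos (pvef_n0 hn)
  have hfit := hR.fit
  have rH := pvif_l_rH c0 N hN nb hm ε z t (R := R)
  obtain rfl := hR.pat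
  exact pvj5_up_f hn (by norm_num) (by norm_num) (by norm_num) z ((pvxParOf N hN c).col t) (r := 1 / 40) (s := pvurSr (pvxParOf N hN c) m)
    (by norm_num) (by unfold pvurSr; positivity) (by unfold pvurSr; linarith) false (pvif_mS N hN nb) rH
    (union_subset (fun _ h => Or.inr h) fun _ h => Or.inl (Or.inr h)) (pvif_sq_D N hN nb ε z t) hfit _ _ s hY ⟨η, hnice, hW⟩ hD

variable {ω η : Conf PvPt} {τ' : ℂ → Bool} (hU : ω ∈ pvifUr N hN c m z t) (hMs : ω ∈ pvifMs (pvxParOf N hN c) (pvnaEngRec N hN c nb) m z t) (hOK : CfOK ω)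

include c0 hm in
/-- **(b2) THE DOOR END**: a plain plug carries the state of the kit plug `pvkdP (pvilRu 𝔈 m)` at `(zu, 1)`, colour of the strand      [31 `pvur_end_door`] -/
theorem pvif_l_door (hε : 0 < ε) (hF : PvifFin (pvifEr N hN c nb m z t) (pvifTr N hN c nb R m z t) () ε ω η τ') :
    ∃ 𝔖' : PvwSt (pvieT η), PvilDoor (pvkdP (pvilRu (pvnaEngRec N hN c nb) m)) ((pvxParOf N hN c).col t) η (pvieZu (pvxParOf N hN c) m z t) 1 𝔖' := by
  have hN0 : η ∈ pvifN0 (pvxParOf N hN c) (pvnaEngRec N hN c nb) nb.glob.C m z t ε := by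
    have h1 : η ∈ (toMeasurable (pvP ε) (pvifN0 (pvxParOf N hN c) (pvnaEngRec N hN c nb) nb.glob.C m z t ε)ᶜ)ᶜ := hF.nice
    by_contra hn
    exact h1 (subset_toMeasurable _ _ hn)
  exact pvur_end_door hN c nb hN0.2.1 (hN0.2.2 hF.use)

include c0 hm hU hMs in
/-- (b1) the carry of 71 (`pvfc7_out_model`) at the thick return of the engine of record      (helper157) -/
theorem pvif_l_car (hF : PvifFin (pvifEr N hN c nb m z t) (pvifTr N hN c nb R m z t) () ε ω η τ') :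
    (∃ 𝔖 : PvwSt (pvieT η), PvilOut (pvxParOf N hN c).num ((pvxParOf N hN c).col t) (pvilPin (pvxParOf N hN c) m z t) η 𝔖) ∧
      pvilZo (pvxParOf N hN c) m z t η = pvilZo (pvxParOf N hN c) m z t ω := by
  obtain ⟨Cth, r, κs, H⟩ := (pvnr_wf (N := N) (hN := hN) c0 nb).wf
  obtain ⟨𝔖₀, h₀⟩ := hU
  have hd := pvlm_Del_pos c m
  have hW := (pvxo_wf N hN c).toWfB
  have ht := pvqh_tyOk hN c t
  have hb2 : ∀ t, ((pvxParOf N hN c).ty t).b ≤ 2 * ((pvxParOf N hN c).ty t).b2 := fun t => by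
    have h1 : ((pvxParOf N hN c).ty t).b ≤ ((pvxParOf N hN c).ty t).b2 := by
      show N.b1 ≤ N.b2
      linarith [hN.gap, hN.ab2]
    have h2 := pvjv_carf_b_gt (pvxParOf N hN c) hW t
    linarith
  have hb := pvjv_carf_hb (pvxParOf N hN c) hW hb2 m t
  have h3 : 3 * (pvlmDel c m / 3) ≤ pvlmDel c m := by linarith
  have hnice : PvatNice (cfSites η) := by
    have h1 : η ∈ (toMeasurable (pvP ε) (pvifN0 (pvxParOf N hN c) (pvnaEngRec N hN c nb) nb.glob.C m z t ε)ᶜ)ᶜ := hF.nice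
    by_contra hn
    exact h1 (subset_toMeasurable _ _ fun h => hn h.1)
  have hC : Disjoint ((pvifEr N hN c nb m z t).K ∪ (pvifEr N hN c nb m z t).D ε) (pvfc7Wo (pvxParOf N hN c) m z t ω) := by
    refine Disjoint.union_left (pvfc7_off (H.fK_off m hm t ht) _) ?_
    have e : pvieSh (pvieZu (pvxParOf N hN c) m z t) ((pvnaEngRec N hN c nb).rO m) = pvieSh z (pviwRo (pvxParOf N hN c) (pvnaEngRec N hN c nb) m t) := (pvjh_sh_sh z _ _).symm
    show Disjoint (pvieSh (pvieZu (pvxParOf N hN c) m z t) ((pvnaEngRec N hN c nb).rO m)) _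
    rw [e]
    exact pvfc7_off (pvjv_carf_off_e H hm ε ht).2 _
  have hWn : pvfc7Wo (pvxParOf N hN c) m z t ω ⊆ (pvifEr N hN c nb m z t).Wn ε ((pvifEr N hN c nb m z t).Hu ω) := fun a ha =>
    Or.inl (Or.inl (Or.inl ((pvjv_carf_Wo (pvxParOf N hN c) m z t ω).subset ha)))
  have hFW : pvilFo (pvxParOf N hN c) m z t ω ⊆ pvfc7Wo (pvxParOf N hN c) m z t ω := (pvfc7_fo_core hb h₀.out).trans (pvfc7_core_sub hd.le _)
  have hA : Pvfc7Agr (pvfc7Wo (pvxParOf N hN c) m z t ω) (pvilFo (pvxParOf N hN c) m z t ω) ω η := by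
    refine ⟨?_, fun a ha => ?_⟩
    · ext a
      constructor
      · rintro ⟨h1, h2⟩
        exact ⟨(hF.sites a (hWn h2) fun h => disjoint_left.1 hC h h2).2 h1, h2⟩
      · rintro ⟨h1, h2⟩
        exact ⟨(hF.sites a (hWn h2) fun h => disjoint_left.1 hC h h2).1 h1, h2⟩
    · exact hF.cols a (pvfc7_fzO_sites ha) (hWn (hFW ha)) (fun h => disjoint_left.1 hC h (hFW ha)) fun h => h.2 ha
  obtain ⟨𝔖, -, h1, -, h4⟩ := pvfc7_out_model (μ := pvlmDel c m / 3) (by positivity) h3 hb (pvjv_carf_hr (pvxParOf N hN c) hW h3 t) hMs.1.1 h₀.out hnice.good hA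
  exact ⟨⟨𝔖, h1⟩, h4⟩

include c0 hm hR hU hMs hOK in
/-- **(b1) THE CARRIED HALF STATE**: the exit half state of the base survives in every final configuration      [71 `Tr/FrcCar` `pvfc7_fin_o`] -/
theorem pvif_l_out (hε : 0 < ε) (hF : PvifFin (pvifEr N hN c nb m z t) (pvifTr N hN c nb R m z t) () ε ω η τ') :
    ∃ 𝔖 : PvwSt (pvieT η), PvilOut (pvxParOf N hN c).num ((pvxParOf N hN c).col t) (pvilPin (pvxParOf N hN c) m z t) η 𝔖 :=
  (pvif_l_car c0 N hN nb hm ε z t hU hMs hF).1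

include c0 hm hR hU hMs hOK in
/-- **(b1) THE HULL IS CARRIED** -/
theorem pvif_l_hull (hε : 0 < ε) (hF : PvifFin (pvifEr N hN c nb m z t) (pvifTr N hN c nb R m z t) () ε ω η τ') :
    pvilZo (pvxParOf N hN c) m z t η = pvilZo (pvxParOf N hN c) m z t ω :=
  (pvif_l_car c0 N hN nb hm ε z t hU hMs hF).2

/-- (b6), (MESH-u) of R22 (3) / R23 (1') of 234: THE USABLE STATES OF THE REFERENCE PLUG CARRY THE MESH OF ITS REGION      (= the leaf of the same name of 64 in `Exit/FrcT.lean`, own copy).      FALSE UNTIL THE SWAP (C) OF 84 (`rG := pvnuRG`), THEN CLOSED BY ITSELF (`pvmm_RG_mesh`, first branch): NOBODY PROVES THIS LEAF -/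
theorem pvif_l_rGmesh : (pvnaEngRec N hN c nb).rG m ε ⊆ pvrgMesh (pvilMu (pvxParOf N hN c) m / 3) ((pvnaEngRec N hN c nb).rO m) := by
  exact pvmm_RG_mesh (pvmm_Mu_pos hN.msk0 m).le _ _ ε

include c0 hm in
/-- (b6) ALL THAT IS READ OF THE REGIONS `fM fK rO` OF THE ENGINE OF RECORD      [64 `Exit/MeshT` `Exit/MeshTR`: `pvmm_shape_f0` today, `pvmm_shape_fU` after the swap (U4) of 84: BOTH TYPED, the swap costs nothing] -/
theorem pvif_l_shape : ∃ s : ℝ, PvmmShape (pvxParOf N hN c) m t (pvegYp (pvxParOf N hN c) m t) (pvmmGf (pvxParOf N hN c) m t) s ((pvnaEngRec N hN c nb).fM m t) ((pvnaEngRec N hN c nb).fK m t) ((pvnaEngRec N hN c nb).rO m) := by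
  first
    | exact ⟨_, pvmm_shape_f0 (pvea_par hN c0) (pvnaInRec N hN c nb) hm (pvea_tyOk hN t)⟩
    | exact ⟨_, pvmm_shape_fU (pvea_par hN c0) (pvnaInRec N hN c nb) hm (pvea_tyOk hN t)⟩

include c0 hm hMs in
/-- **(b6) THE MESH OF THE WINDOW**: kept part ← `pvifMs`, tile ← the mesh clause of the copy pattern, region of the reference plug ← the usable state (`pvif_l_rGmesh`: closes by itself at the swap (C) of 84).      [R22 (3) of 234; 64 `Exit/MeshT` `pvmm_det_f`] -/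
theorem pvif_l_mesh (hF : PvifFin (pvifEr N hN c nb m z t) (pvifTr N hN c nb R m z t) () ε ω η τ') :
    η ∈ pvilMs (pvxParOf N hN c) m (pvjtWnf (pvxParOf N hN c) (pvnaEngRec N hN c nb) (pvguRet (pvnaEngRec N hN c nb)) m z t (pvilZo (pvxParOf N hN c) m z t ω)) := by
  obtain ⟨s, S⟩ := pvif_l_shape c0 N hN nb hm t
  have hμ : 0 < pvilMu (pvxParOf N hN c) m := pvmm_Mu_pos hN.msk0 m
  have hK : PvtrMesh (pvilMu (pvxParOf N hN c) m / 40) (pvieSh z ((pvnaEngRec N hN c nb).fK m t)) (cfSites η) := by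
    have h := pvjo_mesh_of hF.pat.2
    rwa [cfOf_sites] at h
  exact pvmm_det_f (pvea_par hN c0) hm (pvea_tyOk hN t) S hμ (ρ := pvilMu (pvxParOf N hN c) m / 40) (by positivity) (by linarith) le_rfl z _
    (fun v hv h1 h2 => hF.sites v hv fun h => h.elim h1 h2) hMs.1.2 hK (pvmm_mesh_Gr (pvif_l_rGmesh N hN nb ε) hF.use)

include c0 hm hR in
/-- **THE PAYER LEAF OF DET (b3)**: choose `𝔫 : PvifNm` EXPLICITLY (own def), then field by field; the routes are explicit by `hR.pat`      [assembler 276 `Exit/HookTF`; 47 `Exit/GoodFY` (bdd co core collar mouth mid), 215 `Exit/LayF` (door side), 276 (routes, arms); `tip` = numbers] -/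
theorem pvif_l_det : ∃ 𝔫 : PvifNm, 𝔫.Ok (pvxParOf N hN c) (pvnaEngRec N hN c nb) (pvurSr (pvxParOf N hN c) m) (pvnaT N) R.dl R.F m z t := by
  have H := pvea_par hN c0
  have hL := H.lev hm
  have hT := pvea_tyOk hN (c := c) t
  have hn := pvea_ndgF H hm hT
  have hΓ := H.gam m
  have hΔ := pveh_Dl_pos (pvef_n0 hn)
  have hW := (pvxo_wf N hN c).toWfB
  have h3 : 0 < (pvxParOf N hN c).num.rho3 := hN.msk0
  obtain ⟨l1, l2, l3, l4⟩ := pvoh_tip_lay (𝔓 := pvxParOf N hN c) hL h3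
  obtain ⟨n1, n2, n3⟩ := pvei_num hn h3.le
  have hb : pvlmDel c m ≤ ((pvxParOf N hN c).ty t).b * pvlmH m := by
    have h1 := pvjv_carf_b_gt (pvxParOf N hN c) hW t
    have h2 := pvjv_carf_del_le c m
    have h4 := pvlm_H_pos m
    nlinarith
  have hd : ((pvxParOf N hN c).Γ m).dout t = Complex.I ^ pvxrA (pvxParOf N hN c) t := by rw [hΓ]; rfl
  have eZ : pvieZu (pvxParOf N hN c) m z t = z + (pvxrGam (pvxParOf N hN c) m).zu t := by rw [pvieZu, hΓ]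
  obtain rfl := hR.pat
  have A := pvei_rm (pvho_num_par hN c) hL hT hn z (tb := 51 / 160) (c₀ := 21 / 64) (μ := pvilMu (pvxParOf N hN c) m) (ρ := pvilMu (pvxParOf N hN c) m / 8) (σ := 13 / 80)
    (O' := pvnuRO (pvxParOf N hN c) m) (Mo := pvieSh z ((pvnaEngRec N hN c nb).fM m t)) (Kt := pvieSh z ((pvnaEngRec N hN c nb).fK m t))
    (Dd := pvieSh (pvieZu (pvxParOf N hN c) m z t) ((pvnaEngRec N hN c nb).rO m)) (Mk := univ)
    (pvilPlug (pvilRu (pvnaEngRec N hN c nb) m) (pvieZu (pvxParOf N hN c) m z t) 1) false true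
    (by norm_num) (by norm_num) n1 n2 n3 (by norm_num) (by norm_num) ?_ Subset.rfl ?_ ?_
  have D := pvmu_lf_door' hn hΓ l1 (tb := 51 / 160) (by norm_num) (by norm_num) z univ (𝔱 := pvnaT N) (a := 1 / 40) (s := pvurSr (pvxParOf N hN c) m)
    (by unfold pvurSr; positivity) rfl rfl (ru := pvilRu (pvnaEngRec N hN c nb) m) rfl (by show 2 * pvehDl (pvxParOf N hN c) m * (1 / 40) = pvehDl (pvxParOf N hN c) m / 20; ring)
    (Mo := pvieSh z ((pvnaEngRec N hN c nb).fM m t)) (Kt := pvieSh z ((pvnaEngRec N hN c nb).fK m t)) (Yin := pvieSh z ((pvnaEngRec N hN c nb).fY m t)) rfl rfl rfl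
  refine ⟨⟨pvilMu (pvxParOf N hN c) m / 8, pvegR (pvxParOf N hN c) m / 4, pvegR (pvxParOf N hN c) m / 10 + pvilMu (pvxParOf N hN c) m / 2, 21 * pvegR (pvxParOf N hN c) m / 200, pvegR (pvxParOf N hN c) m / 1000, -1,
    pvohC (pvxParOf N hN c) m z t, pvohN (pvxParOf N hN c) m z t, pvohD (pvxParOf N hN c) (51 / 160) m z t, pvohT (pvxParOf N hN c) (51 / 160) (21 / 64) m z t, pvohSg (pvxParOf N hN c) m z t, fun _ => 0, fun _ => 0,
    pvmuLfXc (pvxParOf N hN c) m z t, pvmuLfXa (pvxParOf N hN c) (51 / 160) m z t, pvmuLfXb (pvxParOf N hN c) (51 / 160) m z t, pvmuLfY0 (pvxParOf N hN c) m z t, pvmuLfY1 (pvxParOf N hN c) m z t⟩,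
    pvoh_tip hL h3 hb, by show pvilMu (pvxParOf N hN c) m / 40 ≤ pvilMu (pvxParOf N hN c) m / 8; linarith, ?_, fun β => ?_⟩
  · exact pvoh_layD hn hd (by norm_num) (by norm_num) (by norm_num) l1 l2 (by linarith) l3 l4
      (fun v hv => Or.inl (Or.inl (pvei_ball (pvxParOf N hN c) m t z (a := pvegR (pvxParOf N hN c) m / 4 + pvilMu (pvxParOf N hN c) m) (by linarith) hv))) A
      ⟨D.nz, D.door, D.foot, D.tgt, D.room, D.roomF, D.offBox⟩
  · show (β == (pvxParOf N hN c).col t, _) ∈ pvyrPatG (pvxParOf N hN c) (51 / 160) (21 / 64) m z t true ((pvxParOf N hN c).col t)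
    rw [pvoh_pat]
    cases β <;> cases (pvxParOf N hN c).col t <;> simp
  · rw [pvnu4_RO_sq (𝔓 := pvxParOf N hN c) hN.rho0 m]
    exact pvcc_sq_mono _ (by linarith)
  · show pvieSh z _ ⊆ pvieSh z (pvnuFK (pvxParOf N hN c) m t)
    unfold pvnuFK
    rw [hΓ]
  · rw [pvjh_sh_sh, eZ]
    exact Subset.rfl

include c0 hm hR hU hMs in
/-- **(b1) (b2) (b3) THE PLAIN SUCCESS, THE HULL OF THE BASE** := ONE CALL of `pvj8_evD` (284, `Tr/HookFA` sec. 5): regions and routes ← `pvif_l_det`, plug side ← 31 (`Exit/RefEnd`), certificate at the base ← `pvifMs`, mesh of the window ← `pvif_l_mesh` (64) -/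
theorem pvif_l_A (hF : PvifFin (pvifEr N hN c nb m z t) (pvifTr N hN c nb R m z t) () ε ω η τ') :
    η ∈ (pvjtLf (pvxParOf N hN c) (pvnaEngRec N hN c nb) (pvguRet (pvnaEngRec N hN c nb)) m z t).A (pvxParOf N hN c).num ((pvxParOf N hN c).col t) ∧
      pvilZo (pvxParOf N hN c) m z t η = pvilZo (pvxParOf N hN c) m z t ω := by
  obtain ⟨𝔫, h𝔫⟩ := pvif_l_det c0 N hN nb hm z t hR
  obtain ⟨Cth, r, κs, H⟩ := (pvnr_wf (N := N) (hN := hN) c0 nb).wf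
  obtain ⟨𝔖₀, h₀⟩ := hU
  have P := pvea_par hN c0
  have ht := pvqh_tyOk hN c t
  have hN0 : η ∈ pvifN0 (pvxParOf N hN c) (pvnaEngRec N hN c nb) nb.glob.C m z t ε := by
    have h1 : η ∈ (toMeasurable (pvP ε) (pvifN0 (pvxParOf N hN c) (pvnaEngRec N hN c nb) nb.glob.C m z t ε)ᶜ)ᶜ := hF.nice
    by_contra hn
    exact h1 (subset_toMeasurable _ _ hn)
  have offC : Disjoint (pvieSh z ((pvnaEngRec N hN c nb).fK m t) ∪ pvieSh (pvieZu (pvxParOf N hN c) m z t) ((pvnaEngRec N hN c nb).rO m)) (pvieSh z (pviwBox (pvxParOf N hN c) m t)) := by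
    have e : pvieSh (pvieZu (pvxParOf N hN c) m z t) ((pvnaEngRec N hN c nb).rO m) = pvieSh z (pviwRo (pvxParOf N hN c) (pvnaEngRec N hN c nb) m t) := (pvjh_sh_sh z _ _).symm
    rw [e]
    exact Disjoint.union_left ((pvjh_sh_disj z).2 (H.fK_off m hm t ht)) ((pvjh_sh_disj z).2 (pvjv_carf_off_e H hm ε ht).2)
  have hside : pvdpT (pvieZu (pvxParOf N hN c) m z t) (1 * ((pvurSr (pvxParOf N hN c) m : ℝ) : ℂ)) ((pvxParOf N hN c).col t) η ∈ pvhfS pvkgG.toPvkdPlug (pvnaT N) false := by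
    have h1 : η ∈ pvdpPl (pvieZu (pvxParOf N hN c) m z t) 1 ((pvxParOf N hN c).col t) (pvurSc (pvurSr (pvxParOf N hN c) m) (nb.Hf 2)) := hF.side
    rw [pvur_end_T] at h1
    exact h1
  have cert : ω ∈ pvrgMesh 𝔫.μ₀ (Metric.closedBall z (2 * pviwRad (pvxParOf N hN c) m t + 4 * pvlmH m)) :=
    VorDense.mono hMs.2 Subset.rfl (pvtr_core_anti h𝔫.fine) h𝔫.fine
  exact pvj8_evD (pvho_num_par hN c) (P.lev hm) ht (P.cp_small t) h𝔫.tip offC (pvif_l_MKD c0 N hN nb hm ε z t) h𝔫.lay (pvur_end_geo hN) norm_one (pvur_Sr_pos hN.rho0 m) (pvur_end_unit hN c nb m) hside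
    (fun β => pvw7_pat_col hF.pat.1 (h𝔫.mem β)) cert h₀.out hN0.1 hN0.2.1
    (Wn := pvjtWnf (pvxParOf N hN c) (pvnaEngRec N hN c nb) (pvguRet (pvnaEngRec N hN c nb)) m z t (pvilZo (pvxParOf N hN c) m z t ω))
    (fun a ha => Or.inl (Or.inl (Or.inl ha))) (fun a ha => ha.elim (fun h => h.elim (fun h => Or.inl (Or.inl (Or.inr h))) fun h => Or.inl (Or.inr h)) fun h => Or.inr h)
    (pvif_l_mesh c0 N hN nb hm ε z t hMs hF) hF.sites hF.cols hF.copy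

end leaves

/-! ## 6. the routes, the contract, the exit -/

section roof

variable {c : ℝ}

/-- **THE ROUTES OF THE THICK RETURN EXIST, WITH NUMBERS FREE OF THE LEVEL**      [21 `Tr/LinkME` (mirror `pvmvPatF` asked 13:38Z), 165 `Tr/HookTR`; regions 182 `Exit/ParEngF`, 124] -/
theorem exit_pvif_rt (c0 : 0 < c) (N : PvxNums) (hN : N.Ok) (nb : PvnaNb N) : ∃ Mq Kq Lq : ℕ, ∀ m, (pvxParOf N hN c).m0 ≤ m → ∀ (p : ℤ × ℤ) (t : pvxTau N),
    ∃ R : PvifRt, PvifRtOk (pvxParOf N hN c) (pvnaEngRec N hN c nb) R Mq Kq Lq m (l9Pt (pvlmH m) p) t := by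
  refine ⟨pvyrMq N, 6, 2, fun m hm p t => ⟨⟨pvehDl (pvxParOf N hN c) m / 512, pvyrPatU (pvxParOf N hN c) m (l9Pt (pvlmH m) p) t true ((pvxParOf N hN c).col t)⟩, ?_⟩⟩
  obtain ⟨a1, a2, a3, a4⟩ := pvyr_rt_u c0 N hN hm (l9Pt (pvlmH m) p) t true ((pvxParOf N hN c).col t)
  exact { fit := a1, len := a2, meas := a3, win := a4, pat := rfl }

/-- **THE CONTRACT AT THE ENGINE OF RECORD, FROM THE LEAVES** -/
theorem pvif_ok (c0 : 0 < c) (N : PvxNums) (hN : N.Ok) (nb : PvnaNb N) {q0 : ℝ} (h0 : 0 < q0) (h1 : q0 ≤ 1)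
    (H : ∀ (M K : ℕ) (δ : ℝ) (F : List (Bool × List (Set ℂ × ℂ × ℂ))), PvkqFit δ M K F →
      Tendsto (fun ε : ℝ => pvGeo ε {g | pvQc (pvkqPat δ F) g < ENNReal.ofReal ((q0 ^ (15 * (K * (2 * M + 1) ^ 2)) / 2) ^ F.length)}) (𝓝[>] (0 : ℝ)) (𝓝 0))
    {m : ℕ} (hm : (pvxParOf N hN c).m0 ≤ m) (z : ℂ) (t : pvxTau N) {Mq Kq Lq : ℕ} {R : PvifRt} (hR : PvifRtOk (pvxParOf N hN c) (pvnaEngRec N hN c nb) R Mq Kq Lq m z t) :
    (pvifTr N hN c nb R m z t).Ok (pvifEr N hN c nb m z t) (pvifUr N hN c m z t) (pvifT0 q0 Mq Kq Lq) (nb.b / 2) nb.b where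
  θ0 := (ENNReal.half_pos (pvif_b nb).1).ne'
  θt := (ENNReal.half_lt_self (pvif_b nb).1 (pvif_b nb).2).ne_top
  mK := pvif_l_mK c0 N hN nb hm z t
  mD := fun ε => pvif_l_mD c0 N hN nb hm ε z t
  DK := fun ε => pvif_l_DK c0 N hN nb hm ε z t
  MKD := fun ε => pvif_l_MKD c0 N hN nb hm ε z t
  mW := fun ε Z => pvif_l_mW c0 N hN nb hm ε z t Z
  KW := fun _ _ _ h => Or.inl (Or.inr h)
  DW := fun _ _ _ h => Or.inr h
  fin := pvif_l_fin N hN nb z t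
  stop := (pvsml_stop_pin (pvxParOf N hN c) m z t (pvif_l_mouth c0 N hN nb hm t) (empty_subset _)).kt
  yf_eq := fun ω hω => by
    have h : pvifYf (pvxParOf N hN c) (pvnaEngRec N hN c nb) m z t ω = _ := pvsm_gd_mem hω _
    show pvifYf (pvxParOf N hN c) (pvnaEngRec N hN c nb) m z t ω = _
    rw [h]
    have e : pvieSh z (∅ : Set ℂ) = ∅ := image_empty _
    rw [e, empty_sdiff, union_empty]
    rfl
  mO := fun _ _ => hR.meas.union (pvif_l_mK c0 N hN nb hm z t)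
  bO := fun _ _ => pvif_l_bO c0 N hN nb hm z t hR
  OD := fun ε _ _ => Set.disjoint_left.2 fun v hv hd => by
    rcases hv with hv | hv
    · rcases hR.win hv with h | h
      · exact Set.disjoint_left.1 (pvif_l_MKD c0 N hN nb hm ε z t) h (Or.inr hd)
      · exact Set.disjoint_left.1 (pvif_l_DK c0 N hN nb hm ε z t) hd h
    · exact Set.disjoint_left.1 (pvif_l_DK c0 N hN nb hm ε z t) hd hv
  OW := fun _ _ _ _ v hv => by
    rcases hv with hv | hv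
    · rcases hR.win hv with h | h
      · exact Or.inl (Or.inl (Or.inr h))
      · exact Or.inl (Or.inr h)
    · exact Or.inl (Or.inr hv)
  mP := fun _ _ => hR.fit.meas.inter (pvjo_mesh_meas _ (pvif_l_mK c0 N hN nb hm z t))
  rP := fun _ _ => pvif_l_rP N hN nb z t hR
  lim := fun _ _ => pvif_l_lim c0 N hN nb hm z t hR h0 h1 H
  rG := Eventually.of_forall fun ε => pvif_l_rG N hN nb ε z t
  mH := Eventually.of_forall fun ε => pvif_l_mH N hN nb ε z t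
  rH := Eventually.of_forall fun ε => pvif_l_rH c0 N hN nb hm ε z t
  thr := Eventually.of_forall fun ε => pvif_l_thr N hN nb ε z t
  mN := Eventually.of_forall fun _ => (measurableSet_toMeasurable _ _).compl
  nN := by
    filter_upwards [self_mem_nhdsWithin] with ε hε
    show pvP ε ((toMeasurable (pvP ε) (pvifN0 (pvxParOf N hN c) (pvnaEngRec N hN c nb) nb.glob.C m z t ε)ᶜ)ᶜ)ᶜ = 0
    rw [compl_compl, measure_toMeasurable]
    refine ae_iff.1 ?_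
    filter_upwards [pvat_nice_ae (ne_of_gt hε), dls_ae_conf hε, pvif_l_loc c0 N hN nb hm ε z t hε] with η a1 a2 a3
    exact ⟨a1, a2.col, a3⟩
  cMs := pvif_l_cMs c0 N hN nb hm z t
  det := by
    filter_upwards [self_mem_nhdsWithin] with ε hε ω hU hMs hok
    refine ⟨(), Finset.mem_singleton_self _, fun Y Fz s hY hRg hFY hD hF => pvif_l_up c0 N hN nb hm ε z t hR hε ω hU Y Fz s hY hRg hFY hD hF, fun η τ' a1 a2 a3 a4 a5 a6 a7 => ?_⟩
    have hF : PvifFin (pvifEr N hN c nb m z t) (pvifTr N hN c nb R m z t) () ε ω η τ' := ⟨a1, a2, a3, a4, a5, a6, a7⟩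
    exact ⟨pvif_l_A c0 N hN nb hm ε z t hR hU hMs hF, pvif_l_mesh c0 N hN nb hm ε z t hMs hF⟩

/-- **(f) = `exit_pvgu_f` of `Exit/GdCut.lean`, VERBATIM** -/
theorem pvif_exit (c0 : 0 < c) (N : PvxNums) (hN : N.Ok) (𝔈 : PvieEng (pvxTau N)) (_hE : PvnaWf (pvxParOf N hN c) 𝔈) (hR : PvnaRec N hN c 𝔈) :
    ∃ qf : ℝ≥0∞, qf ≠ 0 ∧ ∀ m, (pvxParOf N hN c).m0 ≤ m → ∀ (p : ℤ × ℤ) (t : pvxTau N),
      PvguFrc (pvxParOf N hN c) m (l9Pt (pvlmH m) p) t fun ε => pvrgFf (pvxParOf N hN c) 𝔈 qf m ε (l9Pt (pvlmH m) p) t := by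
  obtain ⟨nb, rfl⟩ := hR
  obtain ⟨q0, h0, h1, H⟩ := pvkq_pat_lim
  obtain ⟨Mq, Kq, Lq, hRt⟩ := exit_pvif_rt c0 N hN nb
  obtain ⟨hb0, hb1⟩ := pvif_b nb
  refine ⟨pvifT0 q0 Mq Kq Lq * (nb.b - nb.b / 2), mul_ne_zero (pvif_T0_ne h0 Mq Kq Lq) ?_, fun m hm p t => ?_⟩
  · rw [ENNReal.sub_half hb1]
    exact (ENNReal.half_pos hb0).ne'
  · obtain ⟨R, hR⟩ := hRt m hm p t
    have h := pvif_frc (pvxParOf N hN c) m (l9Pt (pvlmH m) p) t (pvif_ok c0 N hN nb h0 h1 (fun M K δ F hF => (H M K δ F hF).1) hm _ t hR) (pvju_U _ m _ t)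
    have e : (fun ε => pvrgFf (pvxParOf N hN c) (pvnaEngRec N hN c nb) (pvifT0 q0 Mq Kq Lq * (nb.b - nb.b / 2)) m ε (l9Pt (pvlmH m) p) t) =
        fun ε => (pvifEr N hN c nb m (l9Pt (pvlmH m) p) t).Frc ε (pvifT0 q0 Mq Kq Lq * (nb.b - nb.b / 2)) := funext fun ε => pvif_Ff _ _ _ m ε _ t
    rw [e]
    exact h

end roof

end Claimed.Agent.R289
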