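-- KEEP
import Claimed.Agent.R289.Exit.FrcDefs
import Claimed.Agent.R289.Tr.RegE
import Claimed.Agent.R289.Defs.TrModel

/-!
# Row 289 (S0537), THE WALL, ROAD E, file Exit/FrcE : E10 AT THE HYBRID ENDS, THE GENERIC ROOF      (helper35, cutter below (b) of `exit_pvie_gd`; prefix `pvje_`)

MODEL FREE GLUE over the records of `Exit/FrcDefs.lean`, on top of the roof of 250 (`Tr/LinkG`: `pvlhg_forced`, `pvlhg_nice_up`) and of the calculus of 256 (`Tr/RegE`: `PvrgSmall`).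
* sec. 1  final configurations are stable under a change off the window (`pvje_fin_congr`)
* sec. 2  the nice event: `pvje_N0_ae`, `pvje_N_meas`, `pvje_N_null`, `pvje_N_sub`      (`PvjeDet.val` ⟹ `PvsuDet` ⟹ soft value = plain value a.s. on the final configurations: the clause `{F = Loc}` of `pvilSA`)
* sec. 3  **`pvje_frc`** : `E.Wf ε`, `T.Ok E ε`, `η₀ ∈ U ∩ pvjeCert`, `PvjeDet E T η₀`  ⟹  `η₀ ∈ E.Frc ε (t (b - θ))`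
* sec. 4  `pvje_cert_small` (cost of the certificate),   **`pvje_cut`** (0 sorry) = THE GENERIC ROOF IN THE SHAPE `PvguFrc` OF 238 (unfolded): what an integrator (o 35, i 116, e 54, f 281, r 233) instantiates
-/

set_option autoImplicit false

namespace Claimed.Agent.R289

open Set MeasureTheory Filter Topology Claims.C0465
open scoped ENNReal

/-! ## 1. final configurations and the window -/

theorem pvje_Kp_sub (E : PvjeEnd) (Z : Set (ℤ × ℤ)) : E.Kp Z ⊆ E.Wn Z := fun _ hv => by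
  rcases hv.1 with h | h
  · exact Or.inl (Or.inl (Or.inl h))
  · exact Or.inl (Or.inl (Or.inr h))

theorem pvje_M_sub (E : PvjeEnd) (Z : Set (ℤ × ℤ)) : E.M ⊆ E.Wn Z := fun _ h => Or.inl (Or.inl (Or.inr h))
theorem pvje_K_sub (E : PvjeEnd) (Z : Set (ℤ × ℤ)) : E.K ⊆ E.Wn Z := fun _ h => Or.inl (Or.inr h)
theorem pvje_D_sub (E : PvjeEnd) (Z : Set (ℤ × ℤ)) : E.D ⊆ E.Wn Z := fun _ h => Or.inr h

theorem pvje_Wn_meas {E : PvjeEnd} {ε : ℝ} (hE : E.Wf ε) (Z : Set (ℤ × ℤ)) : MeasurableSet (E.Wn Z) := (((hE.mWz Z).union hE.mM).union hE.mK).union hE.mD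

theorem pvje_reads_congr {W W' : Set ℂ} {A : Set (Conf PvPt)} (hA : Conf.ReadsSet (W ×ˢ (univ : Set Bool)) A) (hW : W ⊆ W') {η η' : Conf PvPt}
    (e : Conf.restr (W' ×ˢ (univ : Set Bool)) η = Conf.restr (W' ×ˢ (univ : Set Bool)) η') : η ∈ A ↔ η' ∈ A := by
  have h := hA.mono (Set.prod_mono hW (Subset.refl (univ : Set Bool)))
  rw [← h η, ← h η', e]

theorem pvje_sites_congr {W : Set ℂ} {η η' : Conf PvPt} (e : Conf.restr (W ×ˢ (univ : Set Bool)) η = Conf.restr (W ×ˢ (univ : Set Bool)) η') : cfSites η ∩ W = cfSites η' ∩ W := by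
  rw [← pvay_sites_restr, ← pvay_sites_restr, e]

/-- **a regular configuration which agrees on the window with a final configuration is final** -/
theorem pvje_fin_congr {E : PvjeEnd} {T : PvjeTest} {ε : ℝ} (hE : E.Wf ε) (hT : T.Ok E ε) {η₀ η η' : Conf PvPt} (h : PvjeFin E T η₀ η) (hr : η' ∈ pvjeReg E T)
    (e : Conf.restr (E.Wn (E.Hu η₀) ×ˢ (univ : Set Bool)) η = Conf.restr (E.Wn (E.Hu η₀) ×ˢ (univ : Set Bool)) η') : PvjeFin E T η₀ η' := by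
  have hs : cfSites η ∩ E.Wn (E.Hu η₀) = cfSites η' ∩ E.Wn (E.Hu η₀) := pvje_sites_congr e
  have hs' : ∀ v ∈ E.Wn (E.Hu η₀), (v ∈ cfSites η ↔ v ∈ cfSites η') := fun v hv =>
    ⟨fun h1 => ((Set.ext_iff.1 hs v).1 ⟨h1, hv⟩).1, fun h1 => ((Set.ext_iff.1 hs v).2 ⟨h1, hv⟩).1⟩
  have hc : ∀ v ∈ E.Wn (E.Hu η₀), cfCol η' v = cfCol η v := fun v hv => pvat_restr_col e hv
  have hG : η' ∈ E.G := (pvje_reads_congr hE.rG (pvje_D_sub E _) e).1 h.use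
  obtain ⟨τ, hτ1, hτ2⟩ := h.copy
  refine ⟨hr.1, hr.2.1, ?_, ?_, hG, hr.2.2 hG, ?_, τ, ?_, ?_⟩
  · rw [← h.sites]
    ext v
    constructor
    · rintro ⟨h1, h2⟩
      exact ⟨(hs' v (pvje_Kp_sub E _ h2)).2 h1, h2⟩
    · rintro ⟨h1, h2⟩
      exact ⟨(hs' v (pvje_Kp_sub E _ h2)).1 h1, h2⟩
  · intro v hv hy
    rw [hc v (pvje_Kp_sub E _ hv.2)]
    exact h.cols v hv hy
  · exact (pvje_reads_congr hT.rH (union_subset (pvje_D_sub E _) (pvje_K_sub E _)) e).1 h.side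
  · have hOW : T.O ⊆ E.Wn (E.Hu η₀) := hT.O_sub.trans (union_subset (pvje_M_sub E _) (pvje_K_sub E _))
    have e2 : Conf.restr (T.O ×ˢ (univ : Set Bool)) (cfOf (cfSites η) τ) = Conf.restr (T.O ×ˢ (univ : Set Bool)) (cfOf (cfSites η') τ) :=
      pvlhg_restr_cfOf fun v hv => ⟨hs' v (hOW hv), fun _ => rfl⟩
    rw [← hT.rK, ← e2, hT.rK]
    exact hτ1
  · intro v hv hKy
    have hvW : v ∈ E.Wn (E.Hu η₀) := by
      rcases hKy with h1 | h1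
      · exact pvje_K_sub E _ h1
      · exact pvje_M_sub E _ h1.1
    rw [hc v hvW]
    exact hτ2 v ((hs' v hvW).2 hv) hKy

/-! ## 2. the nice event -/

theorem pvje_reg_ae {E : PvjeEnd} {T : PvjeTest} {ε : ℝ} (hε : 0 < ε) (hT : T.Ok E ε) : ∀ᵐ η ∂pvP ε, η ∈ pvjeReg E T := by
  filter_upwards [pvat_nice_ae hε.ne', dls_ae_conf hε, hT.loc] with η h1 h2 h3
  exact ⟨h1, h2.col, h3⟩

/-- **`val` ⟹ the plain value on the plain success is a.s. determined by the window on the final configurations** -/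
theorem pvje_det {E : PvjeEnd} {T : PvjeTest} {ε : ℝ} (hε : 0 < ε) (hE : E.Wf ε) (hT : T.Ok E ε) (Z : Set (ℤ × ℤ)) :
    PvsuDet (pvP ε) (E.Wn Z ×ˢ (univ : Set Bool)) (pvjeS E T Z) ((E.Pl Z).indicator E.X) := by
  refine pvsu_det_of_nice (pv_isPpp ε) ((pvje_Wn_meas hE Z).prod MeasurableSet.univ) (pvje_reg_ae hε hT) ?_
  rintro η η' - hr' ⟨η₀, rfl, hD, hF⟩ e
  have hF' := pvje_fin_congr hE hT hF hr' e
  rw [indicator_of_mem (hD.ev η hF), indicator_of_mem (hD.ev η' hF')]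
  exact hD.val η η' hF hF' e

theorem pvje_N0_ae {E : PvjeEnd} {T : PvjeTest} {ε : ℝ} (hε : 0 < ε) (hE : E.Wf ε) (hT : T.Ok E ε) : ∀ᵐ η ∂pvP ε, η ∈ pvjeN0 E T ε := by
  have h2 : ∀ᵐ η ∂pvP ε, ∀ Z : Finset (ℤ × ℤ), η ∈ pvjeS E T ↑Z → E.X η = pvilLoc ε (E.Wn ↑Z) (E.Pl ↑Z) E.X η := by
    rw [ae_all_iff]
    intro Z
    filter_upwards [pvsu_loc_eq (pv_isPpp ε) ((pvje_Wn_meas hE ↑Z).prod MeasurableSet.univ) (hE.mX ↑Z Z.finite_toSet) (pvje_det hε hE hT ↑Z)] with η h hS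
    have h1 := h hS
    obtain ⟨η₀, e0, hD, hF⟩ := hS
    have hm : η ∈ E.Pl ↑Z := e0 ▸ hD.ev η hF
    rw [indicator_of_mem hm] at h1
    exact h1.symm
  filter_upwards [pvje_reg_ae hε hT, h2] with η a1 a2
  exact ⟨a1, a2⟩

theorem pvje_N_meas (E : PvjeEnd) (T : PvjeTest) (ε : ℝ) : MeasurableSet (pvjeN E T ε) := (measurableSet_toMeasurable _ _).compl

theorem pvje_N_null {E : PvjeEnd} {T : PvjeTest} {ε : ℝ} (hε : 0 < ε) (hE : E.Wf ε) (hT : T.Ok E ε) : pvP ε (pvjeN E T ε)ᶜ = 0 := by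
  unfold pvjeN
  rw [compl_compl, measure_toMeasurable]
  exact ae_iff.1 (pvje_N0_ae hε hE hT)

theorem pvje_N_sub (E : PvjeEnd) (T : PvjeTest) (ε : ℝ) : pvjeN E T ε ⊆ pvjeN0 E T ε := fun η h => by
  by_contra hn
  exact h (subset_toMeasurable _ _ hn)

/-! ## 3. forced -/

theorem pvje_frc_anti (E : PvjeEnd) (ε : ℝ) {q q' : ℝ≥0∞} (h : q' ≤ q) : E.Frc ε q ⊆ E.Frc ε q' := fun η₀ hη => by
  have h1 : ∀ᵐ p ∂pvdyNu ε, E.R η₀ p ∈ E.G → q ≤ pvdyQ ε E.K (fun _ => E.y η₀) (E.A ε η₀) (E.R η₀ p) := hη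
  exact h1.mono fun _ hp hG => h.trans (hp hG)

/-- **E10 FOR ONE HYBRID END, AT ONE BASE** -/
theorem pvje_frc {E : PvjeEnd} {T : PvjeTest} {ε : ℝ} {θ : ℝ≥0∞} (hE : E.Wf ε) (hT : T.Ok E ε) {yf : Conf PvPt → Set ℂ} (hyf : ∀ η₀ ∈ E.U, ∀ p, pvdyR (E.K ∪ E.D) yf η₀ p = E.R η₀ p)
    {Mc : Set (Conf PvPt)} {η₀ : Conf PvPt} (hU : η₀ ∈ E.U) (hC : η₀ ∈ pvjeCert E T ε θ yf Mc) (hD : PvjeDet E T η₀) : η₀ ∈ E.Frc ε (T.t * (T.b - θ)) := by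
  obtain ⟨hok, hcnt, hgood, -, hnice⟩ := hC
  have hfin : (E.Hu η₀).Finite := hE.fin η₀ hU
  obtain ⟨Zf, hZf⟩ : ∃ Zf : Finset (ℤ × ℤ), (↑Zf : Set (ℤ × ℤ)) = E.Hu η₀ := ⟨hfin.toFinset, hfin.coe_toFinset⟩
  have hOMK := hT.O_sub
  have hOD : Disjoint T.O E.D := Set.disjoint_left.2 fun v hv hd => by
    rcases hOMK hv with h | h
    · exact Set.disjoint_left.1 hE.MD h hd
    · exact Set.disjoint_left.1 hE.KD h hd
  have hy : Disjoint (E.y η₀) (E.K ∪ E.D) := Set.disjoint_left.2 fun v hv hd => by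
    rcases hd with h | h
    · exact Set.disjoint_left.1 hE.MK hv.1 h
    · exact Set.disjoint_left.1 hE.MD hv.1 h
  have nice : ∀ᵐ p ∂pvdyNu ε, ∀ᵐ ξ ∂pvP ε, Conf.spl (E.Wn (E.Hu η₀) ×ˢ (univ : Set Bool)) (pvdyR (E.K ∪ E.D) (fun _ => E.y η₀) η₀ p, ξ) ∈ pvjeN E T ε := by
    have h := hnice Zf
    rw [hZf] at h
    filter_upwards [h] with p hp
    rw [hyf η₀ hU p] at hp
    exact hp
  have key := pvlhg_forced (ε := ε) (K := E.K) (D := E.D) (O := T.O) (Wn := E.Wn (E.Hu η₀)) (y₀ := E.y η₀) hE.mK hE.mD hT.mO hT.bO (pvje_Wn_meas hE _) hE.KD.symm hOD hy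
    (pvje_K_sub E _) (pvje_D_sub E _) (hOMK.trans (union_subset (pvje_M_sub E _) (pvje_K_sub E _)))
    (G := E.G) (ℋ := T.ℋ) (𝒦 := T.𝒦) (𝒩 := pvjeN E T ε) (M := E.Pl (E.Hu η₀) ∩ {η | E.X η = pvilLoc ε (E.Wn (E.Hu η₀)) (E.Pl (E.Hu η₀)) E.X η})
    hE.rG hT.mH hT.rH hT.mK hT.rK (pvje_N_meas E T ε) (t := T.t) (θ := θ) (b₀ := T.b) hT.thr (ω := η₀) (pvay_win_of_ok hok hT.bO) hcnt hgood nice ?_ ?_
  · have eA : E.A ε η₀ = pvsuSure (pvP ε) (E.Wn (E.Hu η₀) ×ˢ univ) (E.Pl (E.Hu η₀) ∩ {η | E.X η = pvilLoc ε (E.Wn (E.Hu η₀)) (E.Pl (E.Hu η₀)) E.X η}) := by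
      unfold PvjeEnd.A pvilFin
      rw [if_pos hfin]
      rfl
    show ∀ᵐ p ∂pvdyNu ε, E.R η₀ p ∈ E.G → T.t * (T.b - θ) ≤ pvdyQ ε E.K (fun _ => E.y η₀) (E.A ε η₀) (E.R η₀ p)
    rw [eA]
    exact key
  · intro Y Fz s hY hRg hFz hDF hFK
    obtain ⟨η, hη, hs⟩ := hRg
    exact hT.up η₀ Y Fz s hY ⟨η, (pvje_N_sub E T ε hη).1.1, hs⟩ hFz hDF hFK
  · intro η τ hη hs hc hG hH hK hτ
    have hN0 := pvje_N_sub E T ε hη
    have hF : PvjeFin E T η₀ η := by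
      refine ⟨hN0.1.1, hN0.1.2.1, ?_, ?_, hG, hN0.1.2.2 hG, hH, τ, hK, ?_⟩
      · ext v
        constructor
        · rintro ⟨h1, h2⟩
          exact ⟨(hs v (pvje_Kp_sub E _ h2) h2.2).1 h1, h2⟩
        · rintro ⟨h1, h2⟩
          exact ⟨(hs v (pvje_Kp_sub E _ h2) h2.2).2 h1, h2⟩
      · intro v hv hvy
        exact hc v hv.1 (pvje_Kp_sub E _ hv.2) hv.2.2 hvy
      · intro v hv hKy
        have hvW : v ∈ E.Wn (E.Hu η₀) := by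
          rcases hKy with h1 | h1
          · exact pvje_K_sub E _ h1
          · exact pvje_M_sub E _ h1.1
        exact hτ v hv hvW hKy
    refine ⟨hD.ev η hF, ?_⟩
    have h2 := hN0.2 Zf (by rw [hZf]; exact ⟨η₀, rfl, hD, hF⟩)
    rw [hZf] at h2
    exact h2

/-! ## 4. the generic roof -/

/-- **THE COST OF THE CERTIFICATE** -/
theorem pvje_cert_small {E : ℝ → PvjeEnd} {T : ℝ → PvjeTest} {θ : ℝ≥0∞} {Mc : ℝ → Set (Conf PvPt)} {yf : ℝ → Conf PvPt → Set ℂ}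
    (hE : ∀ᶠ ε in 𝓝[>] (0 : ℝ), (E ε).Wf ε) (hT : ∀ᶠ ε in 𝓝[>] (0 : ℝ), (T ε).Ok (E ε) ε) (hyf : ∀ᶠ ε in 𝓝[>] (0 : ℝ), PvdyStop (yf ε))
    (hG : PvrgSmall fun ε => (pvayGood2 ε (E ε).K (T ε).O (T ε).𝒦 (T ε).t θ)ᶜ) (hM : PvrgSmall fun ε => (Mc ε)ᶜ) :
    PvrgSmall fun ε => (pvjeCert (E ε) (T ε) ε θ (yf ε) (Mc ε))ᶜ := by
  have h1 : PvrgSmall fun ε => ({η | CfOK η ∧ (cfSites η).Countable} : Set (Conf PvPt))ᶜ := by
    refine pvrg_small_null ?_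
    filter_upwards [self_mem_nhdsWithin] with ε hε
    filter_upwards [dls_ae_conf hε, pvcn_LF_ae ε] with η a1 a2
    exact ⟨a1, pvdy_countable_of_LF a2⟩
  have h2 : PvrgSmall fun ε => {η₀ | ¬ ∀ Z : Finset (ℤ × ℤ), ∀ᵐ p ∂pvdyNu ε, ∀ᵐ ξ ∂pvP ε,
      Conf.spl ((E ε).Wn ↑Z ×ˢ (univ : Set Bool)) (pvdyR ((E ε).K ∪ (E ε).D) (yf ε) η₀ p, ξ) ∈ pvjeN (E ε) (T ε) ε} := by
    refine PvrgSmall.of_le tendsto_const_nhds ?_
    filter_upwards [hE, hT, hyf, self_mem_nhdsWithin] with ε a1 a2 a3 hε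
    exact (pvlhg_nice_up ε (a1.mK.union a1.mD) (Ok := fun _ => True) (Eventually.of_forall fun _ => trivial) a3.kt (fun Z : Finset (ℤ × ℤ) => (E ε).Wn ↑Z)
      (fun Z => pvje_Wn_meas a1 _) (pvje_N_meas _ _ ε) (pvje_N_null hε a1 a2)).le
  refine (((h1.union hG).union hM).union h2).mono (Eventually.of_forall fun ε η₀ hη => ?_)
  by_contra hcon
  simp only [mem_union, not_or, mem_compl_iff, not_not, mem_ofPred_eq] at hcon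
  exact hη ⟨hcon.1.1.1.1, hcon.1.1.1.2, hcon.1.1.2, hcon.1.2, hcon.2⟩

open Classical in
/-- **THE GENERIC ROOF** (conclusion = `PvguFrc 𝔓 m z t fun ε => (E ε).Frc ε q` of 238, unfolded) -/
theorem pvje_cut {τ : Type} {c : ℝ} (𝔓 : PvxPar τ c) (m : ℕ) (z : ℂ) (t : τ) {E : ℝ → PvjeEnd} {T : ℝ → PvjeTest} {θ q : ℝ≥0∞} {Mc : ℝ → Set (Conf PvPt)}
    (hE : ∀ᶠ ε in 𝓝[>] (0 : ℝ), (E ε).Wf ε) (hT : ∀ᶠ ε in 𝓝[>] (0 : ℝ), (T ε).Ok (E ε) ε)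
    (hq : ∀ᶠ ε in 𝓝[>] (0 : ℝ), q ≤ (T ε).t * ((T ε).b - θ))
    (hG : PvrgSmall fun ε => (pvayGood2 ε (E ε).K (T ε).O (T ε).𝒦 (T ε).t θ)ᶜ)
    (hM : PvrgSmall fun ε => (Mc ε)ᶜ)
    (hU : ∀ᶠ ε in 𝓝[>] (0 : ℝ), ∀ ω ∈ pvxU 𝔓 m z t, pvConf ω ∈ (E ε).U)
    (hD : ∀ᶠ ε in 𝓝[>] (0 : ℝ), ∀ η₀ ∈ (E ε).U, η₀ ∈ Mc ε → CfOK η₀ → PvjeDet (E ε) (T ε) η₀) :
    ∃ Cert : ℝ → Set (Conf PvPt), Tendsto (fun ε => ((pvhbUp ε).P {x | pvConf (pvMerge x) ∉ Cert ε}).toReal) (𝓝[>] (0 : ℝ)) (𝓝 0) ∧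
      ∀ᶠ ε in 𝓝[>] (0 : ℝ), ∀ ω ∈ pvxU 𝔓 m z t, pvConf ω ∈ Cert ε → pvConf ω ∈ (E ε).Frc ε q := by
  obtain ⟨yf, hyf⟩ : ∃ yf : ℝ → Conf PvPt → Set ℂ, ∀ ε, (E ε).Wf ε → PvdyStop (yf ε) ∧ ∀ η₀ ∈ (E ε).U, ∀ p, pvdyR ((E ε).K ∪ (E ε).D) (yf ε) η₀ p = (E ε).R η₀ p := by
    refine ⟨fun ε => if h : (E ε).Wf ε then h.stop.choose else fun _ => ∅, fun ε h => ?_⟩
    simp only [dif_pos h]
    exact h.stop.choose_spec
  refine ⟨fun ε => pvjeCert (E ε) (T ε) ε θ (yf ε) (Mc ε), (pvje_cert_small hE hT (hE.mono fun ε h => (hyf ε h).1) hG hM).toReal, ?_⟩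
  filter_upwards [hE, hT, hq, hU, hD, self_mem_nhdsWithin] with ε a1 a2 a3 a4 a5 hε ω hω hC
  exact pvje_frc_anti _ ε a3 (pvje_frc a1 a2 (hyf ε a1).2 (a4 ω hω) hC (a5 _ (a4 ω hω) hC.2.2.2.1 hC.1))

end Claimed.Agent.R289
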