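-- KEEP
import Claimed.Agent.R289.Tr.FrcCarF
import Claimed.Agent.R289.Exit.EngRec

/-!
# Row 289 (S0537), THE WALL, ROAD E, E10, (b1) AT THE ENGINE OF RECORD, file Exit/FrcCarR      (helper71, author of `Tr/FrcCar`; prefix `pvfc8_`)

ONE-LINE CITATIONS for the integrators of `exit_pvgu_o i e` (`Exit/FrcO`, `Exit/FrcI`, `Exit/FrcT`): at `𝔓 = pvxParOf N hN c`, ANY engine `𝔈` with `PvnaWf 𝔓 𝔈` (so `pvnaEngRec N hN c nb`, robust to every patch of the engine), ANY weight `w`, ANY tests `T`: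
a base `η₀ ∈ E.U` with the mesh certificate `pvrgB 𝔓 m z t` (mesh `δ / 3` of the own-level box `+ δ`) and a final configuration `η` over it ⟹ `η` carries the half state, SAME frozen positions, SAME hull.
* `pvfc8_b2` : `b ≤ 2 b₂` at the parameters of record
* **`pvfc8_o`**, **`pvfc8_i`**, **`pvfc8_e`** `N hN hE hm hU hB hF` (any engine with `PvnaWf`; at the record `hE := pvnr_wf hN c0 nb`)
0 SORRY.
-/

set_option autoImplicit false

namespace Claimed.Agent.R289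

open Set MeasureTheory Claims.C0465
open scoped ENNReal

section rec

variable {c : ℝ} (N : PvxNums) (hN : N.Ok)

theorem pvfc8_b2 (c : ℝ) (t : pvxTau N) : ((pvxParOf N hN c).ty t).b ≤ 2 * ((pvxParOf N hN c).ty t).b2 := by
  show N.b1 ≤ 2 * N.b2
  have h1 := hN.gap
  have h2 := hN.ab2
  have h3 := hN.m_gt
  have h4 := hN.m_lt
  have h5 := hN.B_lt
  have h6 := hN.ab1
  linarith

variable {𝔈 : PvieEng (pvxTau N)} (hE : PvnaWf (pvxParOf N hN c) 𝔈) {m : ℕ} (hm : (pvxParOf N hN c).m0 ≤ m)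
  {w : ∀ η : Conf PvPt, (delbPl (pvieY η)).Dart → ℂ} {ε : ℝ} {z : ℂ} {t : pvxTau N} {T : PvjeTest} {η₀ η : Conf PvPt}

include hE hm in
/-- **(b1), FIRST LINK** -/
theorem pvfc8_o (hU : η₀ ∈ (pvjeO (pvxParOf N hN c) 𝔈 w m ε z t).U) (hB : η₀ ∈ pvrgB (pvxParOf N hN c) m z t) (hF : PvjeFin (pvjeO (pvxParOf N hN c) 𝔈 w m ε z t) T η₀ η) :
    (∃ 𝔖 : PvwSt (pvieT η), PvilOut (pvxParOf N hN c).num ((pvxParOf N hN c).col t) (pvilPin (pvxParOf N hN c) m z t) η 𝔖) ∧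
      pvilFo (pvxParOf N hN c) m z t η = pvilFo (pvxParOf N hN c) m z t η₀ ∧ pvilZo (pvxParOf N hN c) m z t η = pvilZo (pvxParOf N hN c) m z t η₀ := by
  obtain ⟨Cth, r, κs, H⟩ := hE.wf
  have hδ := pvlm_Del_pos c m
  exact pvjv_carf_o_U (pvxo_wf N hN c).toWfB (pvfc8_b2 N hN c) H hm (pvea_tyOk hN t) (μ := pvlmDel c m / 3) (by positivity) (by linarith) hB hU hF

include hE hm in
/-- **(b1), LAST LINK** -/
theorem pvfc8_i (hU : η₀ ∈ (pvjeI (pvxParOf N hN c) 𝔈 w m ε z t).U) (hB : η₀ ∈ pvrgB (pvxParOf N hN c) m z t) (hF : PvjeFin (pvjeI (pvxParOf N hN c) 𝔈 w m ε z t) T η₀ η) :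
    (∃ 𝔖 : PvwSt (pvieT η), PvilIn (pvxParOf N hN c).num ((pvxParOf N hN c).col t) (pvilPin (pvxParOf N hN c) m z t) η 𝔖) ∧
      pvilFi (pvxParOf N hN c) m z t η = pvilFi (pvxParOf N hN c) m z t η₀ ∧ pvilZi (pvxParOf N hN c) m z t η = pvilZi (pvxParOf N hN c) m z t η₀ := by
  obtain ⟨Cth, r, κs, H⟩ := hE.wf
  have hδ := pvlm_Del_pos c m
  exact pvjv_carf_i_U (pvxo_wf N hN c).toWfB (pvfc8_b2 N hN c) H hm (pvea_tyOk hN t) (μ := pvlmDel c m / 3) (by positivity) (by linarith) hB hU hF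

include hE hm in
/-- **(b1), THICK LINK** -/
theorem pvfc8_e (hU : η₀ ∈ (pvjeE (pvxParOf N hN c) 𝔈 w m ε z t).U) (hB : η₀ ∈ pvrgB (pvxParOf N hN c) m z t) (hF : PvjeFin (pvjeE (pvxParOf N hN c) 𝔈 w m ε z t) T η₀ η) :
    (∃ 𝔖 : PvwSt (pvieT η), PvilIn (pvxParOf N hN c).num ((pvxParOf N hN c).col t) (pvilPin (pvxParOf N hN c) m z t) η 𝔖) ∧
      pvilFi (pvxParOf N hN c) m z t η = pvilFi (pvxParOf N hN c) m z t η₀ ∧ pvilZi (pvxParOf N hN c) m z t η = pvilZi (pvxParOf N hN c) m z t η₀ := by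
  obtain ⟨Cth, r, κs, H⟩ := hE.wf
  have hδ := pvlm_Del_pos c m
  exact pvjv_carf_e_U (pvxo_wf N hN c).toWfB (pvfc8_b2 N hN c) H hm (pvea_tyOk hN t) (μ := pvlmDel c m / 3) (by positivity) (by linarith) hB hU hF

end rec

end Claimed.Agent.R289
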