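-- KEEP
import Claimed.Agent.R289.Tr.GoodD
import Claimed.Agent.R289.Exit.ParEng

/-!
# Row 289 (S0537), THE WALL, ROAD E, E10 / GD AT THE MODEL, file Exit/GoodEM : THE PATTERNS OF RECORD OF THE THIN HYBRID LINKS `o` (pin → door), `i` (door → pin) AT THE PARAMETERS      (helper298; prefix `pvge3_`, defs `pvge3…`)

`Tr/GoodE`, `Tr/GoodD` (model free family, door end) × `Exit/ParEng` v2 (124: frames, doors, mouths `pvegOM pvegIM`, TILES OF RECORD `pvegOKa pvegIKa` = funnel up to the plane `S(p) - δ/160`, minus mouth, minus door region).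
v2: door unit `q = δ_m / 40` (`pvge3Q`, ruling of 34; `= pvilRd`), pattern grid `δ_m / 1280` (`pvge3Dl`), bars in `S ∈ S(p) - [7q/2, 15q/4]`.
-/

set_option autoImplicit false
set_option linter.unusedSectionVars false
set_option linter.unusedVariables false

namespace Claimed.Agent.R289

open Set Metric Complex Filter Topology
open scoped ENNReal

/-! ## 1. the two frames are the same -/

theorem pvge3_S (Y u v : ℂ) : pvge2S Y u v = pvegS Y u v := rfl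

theorem pvge3_T (Y u : ℂ) (up : Bool) (v : ℂ) : pvge2T Y u up v = pvge2Sg up * pvegL Y u v := rfl

theorem pvge3_S_sh (z Y u v : ℂ) : pvegS (z + Y) u (z + v) = pvegS Y u v := by
  unfold pvegS
  congr 2
  ring

theorem pvge3_L_sh (z Y u v : ℂ) : pvegL (z + Y) u (z + v) = pvegL Y u v := by
  unfold pvegL
  congr 2
  ring

theorem pvge3_mem_sh {z v : ℂ} {S : Set ℂ} : v ∈ pvieSh z S ↔ v - z ∈ S := by
  unfold pvieSh
  constructor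
  · rintro ⟨w, hw, rfl⟩
    simpa using hw
  · intro h
    exact ⟨v - z, h, by ring⟩

/-! ## 2. one door: numbers, window -/

section door

variable {Y u p : ℂ} {r δ q dl ρ b μ rk : ℝ}

/-- **THE NUMBERS OF RECORD AT A DOOR OF 124** -/
theorem pvge3_rec (D : PvegDoor Y u p (r / 10) δ (r / 5) (5 * r / 16) (3 * r / 8) (r / 2) rk) (up : Bool) (hq0 : 0 < q) (hq : 16 * q ≤ δ) (hdl : 0 < dl) (hf : 10000 * δ ≤ r) (hm : 32 * dl ≤ q) (hρ0 : 0 ≤ ρ) (hρ : ρ ≤ δ)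
    (hb0 : 0 ≤ b + μ) (hb : b + μ ≤ r / 8) : Pvge2Rec r δ q dl ρ b μ (pvegS Y u p) (pvge2Sg up * pvegL Y u p) where
  δ0 := D.δ0
  q0 := hq0
  qδ := hq
  dl0 := hdl
  fine := hf
  mesh := hm
  ρ0 := hρ0
  ρ1 := hρ
  bμ0 := hb0
  bμ := hb
  s_lo := by have := D.s_lo; linarith
  s_hi := by have := D.s_hi; linarith
  lat := by rw [abs_mul, pvge2_sg_abs, one_mul]; exact D.lat

/-- **THE WINDOW OF THE PATTERN OF RECORD LIES IN (RECOLOURED MOUTH) ∪ (RESAMPLED TILE)** of 124 v2: `a` = offset of the last plane of the funnel, `O` = the door region (beyond the plane `S(p) - 7q/2`) -/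
theorem pvge3_win (hu : ‖u‖ = 1) (up c : Bool) (R : Pvge2Rec r δ q dl ρ b μ (pvegS Y u p) (pvge2Sg up * pvegL Y u p)) {a : ℝ} (ha : a ≤ 7 * q / 2) {O : Set ℂ} (hO : ∀ v ∈ O, pvegS Y u p - 7 * q / 2 < pvegS Y u v) :
    pvkqPatR (pvge2PatRec Y u up c r q (pvegS Y u p) (pvge2Sg up * pvegL Y u p)) ⊆ closedBall Y (5 * r / 16) ∪ pvegKa Y u p (r / 10) δ (r / 5) (5 * r / 16) a O := by
  have hr : 0 < r := by have := R.δ0; have := R.fine; linarith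
  intro v hv
  rcases pvge2_patRec_win hu R c hv with h | h
  · exact Or.inl (closedBall_subset_closedBall (by linarith) h)
  · by_cases hb : v ∈ closedBall Y (5 * r / 16)
    · exact Or.inl hb
    · have h2 : pvegS Y u v ≤ pvegS Y u p - 7 * q / 2 := h.2.1
      refine Or.inr ⟨⟨⟨h.1, by linarith, ?_⟩, hb⟩, fun hvO => absurd (hO v hvO) (not_lt.2 h2)⟩
      have h3 := h.2.2.1
      have h4 := h.2.2.2
      rw [pvge3_T] at h3 h4
      have e : |pvegL Y u v - pvegL Y u p| = |pvge2Sg up * pvegL Y u v - pvge2Sg up * pvegL Y u p| := by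
        rw [← mul_sub, abs_mul, pvge2_sg_abs, one_mul]
      rw [e, abs_le]
      constructor <;> linarith

/-- a point of a placed region, in the frame of the mouth: `d conj u = ± 1` -/
theorem pvge3_S_at (Y u p d w : ℂ) : pvegS Y u (pvthSim p d w) = pvegS Y u p + (d * (starRingEnd ℂ) u * w).re := by
  unfold pvegS pvthSim
  rw [← add_re]
  congr 1
  ring

theorem pvge3_L_at (Y u p d w : ℂ) : pvegL Y u (pvthSim p d w) = pvegL Y u p + (d * (starRingEnd ℂ) u * w).im := by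
  unfold pvegL pvthSim
  rw [← add_im]
  congr 1
  ring

/-- a door region inside the square of half side `s` lies beyond the plane `S(p) - s` -/
theorem pvge3_O_front {d : ℂ} (hd : d * (starRingEnd ℂ) u = 1 ∨ d * (starRingEnd ℂ) u = -1) {O₀ : Set ℂ} {s : ℝ} (hO : O₀ ⊆ pvccSq 0 s) : ∀ v ∈ pvthSim p d '' O₀, pvegS Y u p - s < pvegS Y u v := by
  rintro _ ⟨w, hw, rfl⟩
  have h1 : pvccN (w - 0) < s := hO hw
  rw [sub_zero] at h1
  have h2 : |w.re| < s := lt_of_le_of_lt (le_max_left _ _) h1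
  have h3 := abs_lt.1 h2
  rw [pvge3_S_at]
  rcases hd with e | e <;> rw [e]
  · rw [one_mul]; linarith [h3.1]
  · rw [neg_one_mul, neg_re]; linarith [h3.2]

/-- the regions of 124 are translation covariant -/
theorem pvge3_ball_sh (z Y : ℂ) (R : ℝ) : closedBall (z + Y) R ⊆ pvieSh z (closedBall Y R) := by
  intro v hv
  rw [pvge3_mem_sh, mem_closedBall_iff_norm]
  rw [mem_closedBall_iff_norm] at hv
  have e : v - z - Y = v - (z + Y) := by ring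
  rw [e]; exact hv

theorem pvge3_K_sh (z Y u p : ℂ) (e δ w rM : ℝ) : pvegK (z + Y) u (z + p) e δ w rM ⊆ pvieSh z (pvegK Y u p e δ w rM) := by
  intro v hv
  rw [pvge3_mem_sh]
  obtain ⟨⟨h1, h2, h3⟩, h4⟩ := hv
  have eS : pvegS (z + Y) u v = pvegS Y u (v - z) := by
    have := pvge3_S_sh z Y u (v - z)
    rwa [add_sub_cancel] at this
  have eL : pvegL (z + Y) u v = pvegL Y u (v - z) := by
    have := pvge3_L_sh z Y u (v - z)
    rwa [add_sub_cancel] at this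
  rw [eS, pvge3_S_sh] at h2
  rw [eS] at h1
  rw [eL, pvge3_L_sh] at h3
  refine ⟨⟨h1, h2, h3⟩, fun hb => h4 ?_⟩
  rw [mem_closedBall_iff_norm] at hb ⊢
  have e : v - (z + Y) = v - z - Y := by ring
  rw [e]; exact hb

theorem pvge3_Ka_sh (z Y u p : ℂ) (e δ w rM a : ℝ) (O : Set ℂ) : pvegKa (z + Y) u (z + p) e δ w rM a (pvieSh z O) ⊆ pvieSh z (pvegKa Y u p e δ w rM a O) := by
  intro v hv
  rw [pvge3_mem_sh]
  obtain ⟨⟨⟨h1, h2, h3⟩, h4⟩, h5⟩ := hv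
  have eS : pvegS (z + Y) u v = pvegS Y u (v - z) := by
    have := pvge3_S_sh z Y u (v - z)
    rwa [add_sub_cancel] at this
  have eL : pvegL (z + Y) u v = pvegL Y u (v - z) := by
    have := pvge3_L_sh z Y u (v - z)
    rwa [add_sub_cancel] at this
  rw [eS, pvge3_S_sh] at h2
  rw [eS] at h1
  rw [eL, pvge3_L_sh] at h3
  refine ⟨⟨⟨h1, h2, h3⟩, fun hb => h4 ?_⟩, fun hO => h5 (pvge3_mem_sh.2 hO)⟩
  rw [mem_closedBall_iff_norm] at hb ⊢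
  have e : v - (z + Y) = v - z - Y := by ring
  rw [e]; exact hb

theorem pvge3_sh_union (z : ℂ) (A B : Set ℂ) : pvieSh z A ∪ pvieSh z B = pvieSh z (A ∪ B) := by
  unfold pvieSh
  rw [image_union]

end door

/-! ## 3. the patterns of record at the parameters -/

section par

variable {τ : Type} {c : ℝ} (𝔓 : PvxPar τ c)

/-- the unit of the door plugs of level `m` (ruling of 34; `= pvilRd 𝔓 m` of `Tr/InstL` v2.2.1) -/
noncomputable def pvge3Q (c : ℝ) (m : ℕ) : ℝ := pvlmDel c m / 40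

/-- mesh of the pattern grid of the thin hybrid links of level `m` (`= q / 32`) -/
noncomputable def pvge3Dl (c : ℝ) (m : ℕ) : ℝ := pvlmDel c m / 1280

/-- **THE PATTERN OF RECORD OF THE FIRST LINK** `(z,t) → door plug`, colour `b` on the LEFT of the outer normal `dout t`      (`b = 𝔓.col t`: actual colours; `b = true`: relative colours) -/
noncomputable def pvge3PatOb (b : Bool) (m : ℕ) (z : ℂ) (t : τ) : List (Bool × List (Set ℂ × ℂ × ℂ)) :=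
  pvge2PatRec (z + pvegYp 𝔓 m t) ((𝔓.Γ m).dout t) true b (pvegR 𝔓 m) (pvge3Q c m) (pvegS (pvegYp 𝔓 m t) ((𝔓.Γ m).dout t) ((𝔓.Γ m).pout t))
    (pvge2Sg true * pvegL (pvegYp 𝔓 m t) ((𝔓.Γ m).dout t) ((𝔓.Γ m).pout t))

/-- **THE PATTERN OF RECORD OF THE LAST LINK** `door plug → (z,t)`, colour `b` on the RIGHT of the outer normal `- din t` (= on the left of the direction of travel) -/
noncomputable def pvge3PatIb (b : Bool) (m : ℕ) (z : ℂ) (t : τ) : List (Bool × List (Set ℂ × ℂ × ℂ)) :=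
  pvge2PatRec (z + pvegYm 𝔓 m t) (-(𝔓.Γ m).din t) false b (pvegR 𝔓 m) (pvge3Q c m) (pvegS (pvegYm 𝔓 m t) (-(𝔓.Γ m).din t) ((𝔓.Γ m).pin t))
    (pvge2Sg false * pvegL (pvegYm 𝔓 m t) (-(𝔓.Γ m).din t) ((𝔓.Γ m).pin t))

/-- the pattern of the first link in ACTUAL colours -/
noncomputable def pvge3PatO (m : ℕ) (z : ℂ) (t : τ) : List (Bool × List (Set ℂ × ℂ × ℂ)) := pvge3PatOb 𝔓 (𝔓.col t) m z t

/-- the pattern of the last link in ACTUAL colours -/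
noncomputable def pvge3PatI (m : ℕ) (z : ℂ) (t : τ) : List (Bool × List (Set ℂ × ℂ × ℂ)) := pvge3PatIb 𝔓 (𝔓.col t) m z t

theorem pvge3_eqns_cite : True := by
  have := @pvge3Q.eq_1; have := @pvge3Dl.eq_1; have := @pvge3PatOb.eq_1; have := @pvge3PatIb.eq_1; have := @pvge3PatO.eq_1; have := @pvge3PatI.eq_1
  trivial

variable {𝔓}

theorem pvge3_dl_pos (c : ℝ) (m : ℕ) : 0 < pvge3Dl c m := by
  unfold pvge3Dl
  have := pvlm_Del_pos c m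
  positivity

theorem pvge3_q_pos (c : ℝ) (m : ℕ) : 0 < pvge3Q c m := by
  unfold pvge3Q
  have := pvlm_Del_pos c m
  positivity

/-- the numbers of record of the exit mouth (site mesh `ρ ≤ δ`, tip face within `b`, edges `≤ μ`, `b + μ ≤ ρ h / 8`) -/
theorem pvge3_rec_o {m : ℕ} {t : τ} (hL : PvegLev 𝔓 m) (hT : pviwTyOk 𝔓 t) (hf : 10000 * pvlmDel c m ≤ pvegR 𝔓 m) {ρ b μ : ℝ} (hρ0 : 0 ≤ ρ) (hρ : ρ ≤ pvlmDel c m) (hb0 : 0 ≤ b + μ) (hb : b + μ ≤ pvegR 𝔓 m / 8) :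
    Pvge2Rec (pvegR 𝔓 m) (pvlmDel c m) (pvge3Q c m) (pvge3Dl c m) ρ b μ (pvegS (pvegYp 𝔓 m t) ((𝔓.Γ m).dout t) ((𝔓.Γ m).pout t)) (pvge2Sg true * pvegL (pvegYp 𝔓 m t) ((𝔓.Γ m).dout t) ((𝔓.Γ m).pout t)) :=
  pvge3_rec (pveg_door_o hL hT) true (pvge3_q_pos c m) (by have := pvlm_Del_pos c m; unfold pvge3Q; linarith) (pvge3_dl_pos c m) hf (by unfold pvge3Dl pvge3Q; linarith) hρ0 hρ hb0 hb

/-- the numbers of record of the entrance mouth -/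
theorem pvge3_rec_i {m : ℕ} {t : τ} (hL : PvegLev 𝔓 m) (hT : pviwTyOk 𝔓 t) (hf : 10000 * pvlmDel c m ≤ pvegR 𝔓 m) {ρ b μ : ℝ} (hρ0 : 0 ≤ ρ) (hρ : ρ ≤ pvlmDel c m) (hb0 : 0 ≤ b + μ) (hb : b + μ ≤ pvegR 𝔓 m / 8) :
    Pvge2Rec (pvegR 𝔓 m) (pvlmDel c m) (pvge3Q c m) (pvge3Dl c m) ρ b μ (pvegS (pvegYm 𝔓 m t) (-(𝔓.Γ m).din t) ((𝔓.Γ m).pin t)) (pvge2Sg false * pvegL (pvegYm 𝔓 m t) (-(𝔓.Γ m).din t) ((𝔓.Γ m).pin t)) :=
  pvge3_rec (pveg_door_i hL hT) false (pvge3_q_pos c m) (by have := pvlm_Del_pos c m; unfold pvge3Q; linarith) (pvge3_dl_pos c m) hf (by unfold pvge3Dl pvge3Q; linarith) hρ0 hρ hb0 hb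

theorem pvge3_u_o {m : ℕ} {t : τ} (hL : PvegLev 𝔓 m) (hT : pviwTyOk 𝔓 t) : ‖(𝔓.Γ m).dout t‖ = 1 := pveg_norm_unit (pveg_door_o hL hT).u4

theorem pvge3_u_i {m : ℕ} {t : τ} (hL : PvegLev 𝔓 m) (hT : pviwTyOk 𝔓 t) : ‖-(𝔓.Γ m).din t‖ = 1 := pveg_norm_unit (pveg_door_i hL hT).u4

/-- a number of cells which covers the thin hybrid links of level `m` -/
noncomputable def pvge3M (𝔓 : PvxPar τ c) (m : ℕ) : ℕ := ⌈3 / 4 * pvegR 𝔓 m / pvge3Dl c m⌉₊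

theorem pvge3_M_le (𝔓 : PvxPar τ c) (m : ℕ) : 3 / 4 * pvegR 𝔓 m ≤ pvge3M 𝔓 m * pvge3Dl c m := by
  have h := Nat.le_ceil (3 / 4 * pvegR 𝔓 m / pvge3Dl c m)
  rwa [div_le_iff₀ (pvge3_dl_pos c m)] at h

/-- **(FIT, o)** -/
theorem pvge3_fit_ob {m : ℕ} {t : τ} (hL : PvegLev 𝔓 m) (hT : pviwTyOk 𝔓 t) (hf : 10000 * pvlmDel c m ≤ pvegR 𝔓 m) (b : Bool) (z : ℂ) : PvkqFit (pvge3Dl c m) (pvge3M 𝔓 m) 4 (pvge3PatOb 𝔓 b m z t) :=
  pvge2_patRec_fit (pvge3_u_o hL hT) (pvge3_rec_o hL hT hf (ρ := 0) (b := 0) (μ := 0) le_rfl (pvlm_Del_pos c m).le (by norm_num) (by have := pveg_R_pos hL; linarith)) _ (pvge3_M_le 𝔓 m)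

/-- **(FIT, i)** -/
theorem pvge3_fit_ib {m : ℕ} {t : τ} (hL : PvegLev 𝔓 m) (hT : pviwTyOk 𝔓 t) (hf : 10000 * pvlmDel c m ≤ pvegR 𝔓 m) (b : Bool) (z : ℂ) : PvkqFit (pvge3Dl c m) (pvge3M 𝔓 m) 4 (pvge3PatIb 𝔓 b m z t) :=
  pvge2_patRec_fit (pvge3_u_i hL hT) (pvge3_rec_i hL hT hf (ρ := 0) (b := 0) (μ := 0) le_rfl (pvlm_Del_pos c m).le (by norm_num) (by have := pveg_R_pos hL; linarith)) _ (pvge3_M_le 𝔓 m)

theorem pvge3_dd_o {m : ℕ} {t : τ} (hL : PvegLev 𝔓 m) (hT : pviwTyOk 𝔓 t) : (𝔓.Γ m).dout t * (starRingEnd ℂ) ((𝔓.Γ m).dout t) = 1 := pvge2_u_conj (pvge3_u_o hL hT)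

theorem pvge3_dd_i {m : ℕ} {t : τ} (hL : PvegLev 𝔓 m) (hT : pviwTyOk 𝔓 t) : (𝔓.Γ m).din t * (starRingEnd ℂ) (-(𝔓.Γ m).din t) = -1 := by
  have h := pvge2_u_conj (pvge3_u_i hL hT)
  rw [neg_mul] at h
  rw [← h, neg_neg]

theorem pvge3_sh_sim (z p d : ℂ) (O : Set ℂ) : pvieSh z (pvthSim p d '' O) = pvthSim (z + p) d '' O := by
  unfold pvieSh
  rw [image_image]
  refine image_congr fun w _ => ?_
  unfold pvthSim
  ring

/-- **(WINDOW, o)**: the pattern of the first link is read in (recoloured mouth) ∪ (resampled tile of record), placed at `z`; `O₀ m` = reference region of the door plug, inside the square of half side `7q/2` (of record: `13q/4`) -/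
theorem pvge3_win_ob {m : ℕ} {t : τ} (hL : PvegLev 𝔓 m) (hT : pviwTyOk 𝔓 t) (hf : 10000 * pvlmDel c m ≤ pvegR 𝔓 m) {O₀ : ℕ → Set ℂ} (hO : O₀ m ⊆ pvccSq 0 (7 * pvge3Q c m / 2)) (b : Bool) (z : ℂ) :
    pvkqPatR (pvge3PatOb 𝔓 b m z t) ⊆ pvieSh z (pvegOM 𝔓 m t) ∪ pvieSh z (pvegOKa 𝔓 O₀ m t) := by
  have R := pvge3_rec_o hL hT hf (ρ := 0) (b := 0) (μ := 0) le_rfl (pvlm_Del_pos c m).le (by norm_num) (by have := pveg_R_pos hL; linarith)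
  have R' := R
  rw [← pvge3_S_sh z, ← pvge3_L_sh z] at R'
  have h := pvge3_win (pvge3_u_o hL hT) true b R' (a := pvegA c m) (by have := pvlm_Del_pos c m; unfold pvegA pvge3Q; linarith)
    (O := pvieSh z (pvthSim ((𝔓.Γ m).pout t) ((𝔓.Γ m).dout t) '' O₀ m)) (by rw [pvge3_sh_sim]; exact pvge3_O_front (Or.inl (pvge3_dd_o hL hT)) hO)
  rw [pvge3_S_sh, pvge3_L_sh] at h
  exact h.trans (union_subset_union (pvge3_ball_sh _ _ _) (pvge3_Ka_sh _ _ _ _ _ _ _ _ _ _))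

/-- **(WINDOW, i)** -/
theorem pvge3_win_ib {m : ℕ} {t : τ} (hL : PvegLev 𝔓 m) (hT : pviwTyOk 𝔓 t) (hf : 10000 * pvlmDel c m ≤ pvegR 𝔓 m) {O₀ : ℕ → Set ℂ} (hO : O₀ m ⊆ pvccSq 0 (7 * pvge3Q c m / 2)) (b : Bool) (z : ℂ) :
    pvkqPatR (pvge3PatIb 𝔓 b m z t) ⊆ pvieSh z (pvegIM 𝔓 m t) ∪ pvieSh z (pvegIKa 𝔓 O₀ m t) := by
  have R := pvge3_rec_i hL hT hf (ρ := 0) (b := 0) (μ := 0) le_rfl (pvlm_Del_pos c m).le (by norm_num) (by have := pveg_R_pos hL; linarith)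
  have R' := R
  rw [← pvge3_S_sh z, ← pvge3_L_sh z] at R'
  have h := pvge3_win (pvge3_u_i hL hT) false b R' (a := pvegA c m) (by have := pvlm_Del_pos c m; unfold pvegA pvge3Q; linarith)
    (O := pvieSh z (pvthSim ((𝔓.Γ m).pin t) ((𝔓.Γ m).din t) '' O₀ m)) (by rw [pvge3_sh_sim]; exact pvge3_O_front (Or.inr (pvge3_dd_i hL hT)) hO)
  rw [pvge3_S_sh, pvge3_L_sh] at h
  exact h.trans (union_subset_union (pvge3_ball_sh _ _ _) (pvge3_Ka_sh _ _ _ _ _ _ _ _ _ _))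

theorem pvge3_meas_ob (𝔓 : PvxPar τ c) (b : Bool) (m : ℕ) (z : ℂ) (t : τ) : MeasurableSet (pvkqPatR (pvge3PatOb 𝔓 b m z t)) := pvge2_pat_meas _ _ _ _ _ _ _ _ _ _ _ _ _ _

theorem pvge3_meas_ib (𝔓 : PvxPar τ c) (b : Bool) (m : ℕ) (z : ℂ) (t : τ) : MeasurableSet (pvkqPatR (pvge3PatIb 𝔓 b m z t)) := pvge2_pat_meas _ _ _ _ _ _ _ _ _ _ _ _ _ _

/-! ### the same in ACTUAL colours (`b = 𝔓.col t`) -/

theorem pvge3_fit_o {m : ℕ} {t : τ} (hL : PvegLev 𝔓 m) (hT : pviwTyOk 𝔓 t) (hf : 10000 * pvlmDel c m ≤ pvegR 𝔓 m) (z : ℂ) : PvkqFit (pvge3Dl c m) (pvge3M 𝔓 m) 4 (pvge3PatO 𝔓 m z t) := pvge3_fit_ob hL hT hf _ z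

theorem pvge3_fit_i {m : ℕ} {t : τ} (hL : PvegLev 𝔓 m) (hT : pviwTyOk 𝔓 t) (hf : 10000 * pvlmDel c m ≤ pvegR 𝔓 m) (z : ℂ) : PvkqFit (pvge3Dl c m) (pvge3M 𝔓 m) 4 (pvge3PatI 𝔓 m z t) := pvge3_fit_ib hL hT hf _ z

theorem pvge3_win_o {m : ℕ} {t : τ} (hL : PvegLev 𝔓 m) (hT : pviwTyOk 𝔓 t) (hf : 10000 * pvlmDel c m ≤ pvegR 𝔓 m) {O₀ : ℕ → Set ℂ} (hO : O₀ m ⊆ pvccSq 0 (7 * pvge3Q c m / 2)) (z : ℂ) :
    pvkqPatR (pvge3PatO 𝔓 m z t) ⊆ pvieSh z (pvegOM 𝔓 m t) ∪ pvieSh z (pvegOKa 𝔓 O₀ m t) := pvge3_win_ob hL hT hf hO _ z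

theorem pvge3_win_i {m : ℕ} {t : τ} (hL : PvegLev 𝔓 m) (hT : pviwTyOk 𝔓 t) (hf : 10000 * pvlmDel c m ≤ pvegR 𝔓 m) {O₀ : ℕ → Set ℂ} (hO : O₀ m ⊆ pvccSq 0 (7 * pvge3Q c m / 2)) (z : ℂ) :
    pvkqPatR (pvge3PatI 𝔓 m z t) ⊆ pvieSh z (pvegIM 𝔓 m t) ∪ pvieSh z (pvegIKa 𝔓 O₀ m t) := pvge3_win_ib hL hT hf hO _ z

theorem pvge3_meas_o (𝔓 : PvxPar τ c) (m : ℕ) (z : ℂ) (t : τ) : MeasurableSet (pvkqPatR (pvge3PatO 𝔓 m z t)) := pvge3_meas_ob 𝔓 _ m z t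

theorem pvge3_meas_i (𝔓 : PvxPar τ c) (m : ℕ) (z : ℂ) (t : τ) : MeasurableSet (pvkqPatR (pvge3PatI 𝔓 m z t)) := pvge3_meas_ib 𝔓 _ m z t

end par

end Claimed.Agent.R289
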