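-- KEEP
import Claimed.Agent.R289.Exit.FrcDefs
import Claimed.Agent.R289.Exit.EngRec
import Claimed.Agent.R289.Exit.GoodEM
import Claimed.Agent.R289.Tr.FrcDoor
import Claimed.Agent.R289.Tr.StateP

/-!
# Row 289 (S0537), THE WALL, ROAD E, file Exit/FrcIDefs : E10 AT THE MODEL, THE LAST LINK `door plug → t`: THE TESTS OF `i` (DEFS ONLY; a leaf file imports THIS file, the glue is `Exit/FrcI.lean`)      (helper116, integrator of `i`: post T15 of 24; prefix `pvii`, `Pvii`)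

TARGET.   **`pvii_exit`** (`Exit/FrcI.lean`) = the statement of `exit_pvgu_i` (`Exit/GdCut.lean` v2 of 238) AT THE ENGINE OF RECORD (`hR : PvnaRec N hN c 𝔈`).
METHOD.   ONE CALL of the generic roof `pvje_cut` of 35 (`Exit/FrcE.lean`) at `E ε := pvjeI 𝔓 𝔈 pvilQ m ε z t`, `T ε := pviiT ..`, `Mc := pviiMc` (ONE fine mesh on ONE big ball round the pin), `θ := b / 2`.      MIRROR of `Exit/FrcO.lean` of 35 (`pvjoT`, `pvjoMc`).
THE TESTS OF `i` (free of `ε`):
* window `pviiO = z + iM ∪ z + iK` (mouth `∪` tile OF THE ENGINE: follows every patch of the rooms);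
* pattern `𝒦 := pvkqPat (pvge3Dl c m) (pvge3PatI 𝔓 m z t)` (298, `Exit/GoodEM`) `∩ pviiMs` (FINITELY MANY POINTS + mesh `pviiRho = pvilMu / 20`, read in `pviiO`: measurable by `pvsp_mesh_meas`; (b6) of R22: the tile pays its mesh inside the pattern);
* side event `ℋ := pvdpPl Zi (din δ) b S`, `S := pvnaHf .. 0` (`S⁺` of 174, placed by the map of 77: the strand LEAVES the entrance door forwards);
* plain plug `Cd := {∃ 𝔖, PvilDoor ..}`;   `t := pviiTh q₀ m` (threshold of 21 / 298; the blind mesh clause is free: `pvpz_pat_small` of 98);   `b := nb.b`.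
* `pviiMc` = mesh `pvilMu / 20` read in the ball of 35 (own-level box, mouth, tile, door, collar `h`).
-/

set_option autoImplicit false

namespace Claimed.Agent.R289

open Set MeasureTheory Filter Topology Claims.C0465
open scoped ENNReal

section defs

variable {τ : Type} {c : ℝ} (𝔓 : PvxPar τ c) (𝔈 : PvieEng τ)

/-- the mesh asked of the fresh geometry inside the test -/
noncomputable def pviiRho (m : ℕ) : ℝ := pvilMu 𝔓 m / 20

/-- the window of the test: mouth `∪` tile -/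
def pviiO (m : ℕ) (z : ℂ) (t : τ) : Set ℂ := pvieSh z (𝔈.iM m t) ∪ pvieSh z (𝔈.iK m t)

/-- the mesh clause of the test -/
def pviiMs (m : ℕ) (z : ℂ) (t : τ) : Set (Conf PvPt) := {η | PvtnFin (pviiO 𝔈 m z t) η ∧ PvtrMesh (pviiRho 𝔓 m) (pviiO 𝔈 m z t) (cfSites η)}

/-- the threshold of the test (`q₀` = the constant of `pvkq_pat_lim` of 21) -/
noncomputable def pviiTh (q₀ : ℝ) (m : ℕ) : ℝ≥0∞ := ENNReal.ofReal ((q₀ ^ (15 * (4 * (2 * pvge3M 𝔓 m + 1) ^ 2)) / 2) ^ 2)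

/-- the plain door end -/
def pviiCd (m : ℕ) (z : ℂ) (t : τ) : Set (Conf PvPt) :=
  {η | ∃ 𝔖 : PvwSt (pvieT η), PvilDoor (pvkdP (pvilRd 𝔓 m)) (𝔓.col t) η (pvieZi 𝔓 m z t) ((𝔓.Γ m).din t) 𝔖}

/-- **THE TESTS OF RECORD OF THE LAST LINK**;   `S` = the side event `S⁺` of record of the unit datum (`pvnaHf .. 0` of `Exit/EngRec`: a PARAMETER here, so that this file survives the re-pin (B) of R24) -/
noncomputable def pviiT (S : Set (Conf PvPt)) (q₀ : ℝ) (b₀ : ℝ≥0∞) (m : ℕ) (z : ℂ) (t : τ) : PvjeTest where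
  O := pviiO 𝔈 m z t
  𝒦 := pvkqPat (pvge3Dl c m) (pvge3PatI 𝔓 m z t) ∩ pviiMs 𝔓 𝔈 m z t
  ℋ := pvdpPl (pvieZi 𝔓 m z t) ((𝔓.Γ m).din t * pvlmDel c m) (𝔓.col t) S
  Cd := pviiCd 𝔓 m z t
  t := pviiTh 𝔓 q₀ m
  b := b₀

/-- **THE CERTIFICATE OF DET AT THE BASE**: ONE fine mesh on ONE big ball round the pin -/
noncomputable def pviiMc (m : ℕ) (z : ℂ) (t : τ) : Set (Conf PvPt) := pvrgMesh (pvilMu 𝔓 m / 20) (Metric.closedBall z (2 * pviwRad 𝔓 m t + 4 * pvlmH m))

end defs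

theorem pvii_eqns_cite : True := by
  have := @pviiRho.eq_1; have := @pviiO.eq_1; have := @pviiMs.eq_1; have := @pviiTh.eq_1; have := @pviiCd.eq_1; have := @pviiT.eq_1; have := @pviiMc.eq_1
  trivial

end Claimed.Agent.R289
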