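-- KEEP
import Claimed.Agent.R289.Exit.ParEng
import Claimed.Agent.R289.Tr.KitGeo
import Claimed.Agent.R289.Tr.CycD

/-!
# Row 289 (S0537), THE WALL, ROAD E, E10, file Exit/FrcOG : THE REGION LINES OF THE DOOR HALF OF `PvjeTest.Ok` AT THE THIN ENDS `o`, `i`      (helper144; prefix `pvo4_`)

THE WINDOW OF THE SIDE EVENT OF RECORD (R24 of 234: OPEN windows `pvkgEm`, `pvkgEp` of 258), PLACED AT THE DOOR OF AN END LINK, LIES IN `door ∪ tile` (tiles `pvegOKa`, `pvegIKa` of 124, ParEng v2): this is `rH` of `PvjeTest.Ok` after `pvdp_reads` (77) + monotonicity of readers.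
* sec. 1  generic, in the frame `(Y, u, p)` of `PvegDoor` (124): `pvo4_S_at`, `pvo4_L_at`, **`pvo4_Em_sub`**
* sec. 3  `pvo4_O0_sub` = the numeral `[O0]` (leaf `exit_pvj0_O0` of `Exit/FrcO`: `:= pvo4_O0_sub c m`)
* sec. 2  at the parameters: **`pvo4_o_win`** (first link, `S⁻`, window `pvkgEm` placed at `(z + pout, dout δ)`), **`pvo4_i_win`** (last link, `S⁺`, window `pvkgEp` placed at `(z + pin, din δ)`)
-/

set_option autoImplicit false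

namespace Claimed.Agent.R289

open Set Metric Claims.C0465

/-! ## 1. generic -/

theorem pvo4_unit {u : ℂ} (hu : u ^ 4 = 1) : u * (starRingEnd ℂ) u = 1 := by
  rw [Complex.mul_conj, Complex.normSq_eq_norm_sq, pveg_norm_unit hu]
  norm_num

theorem pvo4_S_at {u : ℂ} (hu : u ^ 4 = 1) (Y p : ℂ) (δ : ℝ) (w : ℂ) : pvegS Y u (pvthSim p (u * δ) w) = pvegS Y u p + δ * w.re := by
  have h : (pvthSim p (u * δ) w - Y) * (starRingEnd ℂ) u = (p - Y) * (starRingEnd ℂ) u + (u * (starRingEnd ℂ) u) * ((δ : ℂ) * w) := by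
    unfold pvthSim; ring
  unfold pvegS
  rw [h, pvo4_unit hu, one_mul, Complex.add_re, Complex.re_ofReal_mul]

theorem pvo4_L_at {u : ℂ} (hu : u ^ 4 = 1) (Y p : ℂ) (δ : ℝ) (w : ℂ) : pvegL Y u (pvthSim p (u * δ) w) = pvegL Y u p + δ * w.im := by
  have h : (pvthSim p (u * δ) w - Y) * (starRingEnd ℂ) u = (p - Y) * (starRingEnd ℂ) u + (u * (starRingEnd ℂ) u) * ((δ : ℂ) * w) := by
    unfold pvthSim; ring
  unfold pvegL
  rw [h, pvo4_unit hu, one_mul, Complex.add_im, Complex.im_ofReal_mul]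

/-- **the placed window `E⁻` lies in `door ∪ tile`** -/
theorem pvo4_Em_sub {Y u p : ℂ} {e δ w rM κ rI rk a : ℝ} (H : PvegDoor Y u p e δ w rM κ rI rk) (hκ : e + 17 * δ / 4 ≤ κ) (hw : δ / 4 ≤ w) (ha : a ≤ 13 * δ / 160) :
    pvthSim p (u * δ) '' pvkgEm ⊆ pvthSim p (u * δ) '' pvkgO ∪ pvegKa Y u p e δ w rM a (pvthSim p (u * δ) '' pvkgO) := by
  rintro _ ⟨x, hx, rfl⟩
  by_cases hO : pvthSim p (u * δ) x ∈ pvthSim p (u * δ) '' pvkgO
  · exact Or.inl hO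
  refine Or.inr ⟨⟨?_, ?_⟩, hO⟩
  all_goals
    have hxO : x ∉ pvkgO := fun h => hO ⟨x, h, rfl⟩
    have hB : x ∈ pvkgB (-(11 / 80)) 0 (-(1 / 16)) (1 / 16) := hx.resolve_left hxO
    obtain ⟨b1, b2, b3, b4⟩ := hB
    have hδ := H.δ0
    have hre : x.re ≤ -(13 / 160) := by
      by_contra hc
      exact hxO ⟨by linarith [not_le.1 hc], by linarith, by linarith, by linarith⟩
    have hS := pvo4_S_at H.u4 Y p δ x
    have hL := pvo4_L_at H.u4 Y p δ x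
  · refine ⟨?_, ?_, ?_⟩
    · rw [hS]; nlinarith [H.s_lo]
    · rw [hS]; nlinarith
    · rw [hL, add_sub_cancel_left, abs_mul, abs_of_pos hδ]
      have : |x.im| ≤ 1 / 16 := abs_le.2 ⟨b3.le, b4.le⟩
      nlinarith
  · rw [mem_closedBall_iff_norm, not_le]
    have h1 := pveg_S_le_norm H.u4 Y (pvthSim p (u * δ) x)
    rw [hS] at h1
    nlinarith [H.s_lo, H.n1]

theorem pvo4_sim_sim (p d : ℂ) (δ : ℝ) (S : Set ℂ) : pvthSim p d '' (pvthSim 0 (δ : ℂ) '' S) = pvthSim p (d * δ) '' S := by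
  rw [image_image]
  refine image_congr fun x _ => ?_
  unfold pvthSim
  ring

theorem pvo4_sim_neg (p a : ℂ) {S T : Set ℂ} (h : ∀ x, x ∈ S ↔ -x ∈ T) : pvthSim p a '' S = pvthSim p (-a) '' T := by
  ext v
  constructor
  · rintro ⟨x, hx, rfl⟩
    exact ⟨-x, (h x).1 hx, by unfold pvthSim; ring⟩
  · rintro ⟨x, hx, rfl⟩
    exact ⟨-x, (h (-x)).2 (by rwa [neg_neg]), by unfold pvthSim; ring⟩

theorem pvo4_box_neg (x0 x1 y0 y1 : ℝ) (x : ℂ) : x ∈ pvkgB x0 x1 y0 y1 ↔ -x ∈ pvkgB (-x1) (-x0) (-y1) (-y0) := by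
  simp only [pvkgB, mem_ofPred_eq, Complex.neg_re, Complex.neg_im, neg_lt_neg_iff]
  tauto

theorem pvo4_O_neg (x : ℂ) : x ∈ pvkgO ↔ -x ∈ pvkgO := by
  unfold pvkgO
  rw [pvo4_box_neg]
  simp only [neg_neg]

theorem pvo4_Ep_neg (x : ℂ) : x ∈ pvkgEp ↔ -x ∈ pvkgEm := by
  unfold pvkgEp pvkgEm
  rw [mem_union, mem_union, pvo4_O_neg x, pvo4_box_neg]
  simp only [neg_neg, neg_zero]

/-! ## 2. at the parameters -/

section par

variable {τ : Type} {c : ℝ} {𝔓 : PvxPar τ c}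

/-- **FIRST LINK**: the window `E⁻` of the side event `S⁻`, placed at the exit door, lies in `door ∪ tile` -/
theorem pvo4_o_win {m : ℕ} {t : τ} (hL : PvegLev 𝔓 m) (hT : pviwTyOk 𝔓 t) {O₀ : ℕ → Set ℂ} (hO : O₀ m = pvthSim 0 (pvlmDel c m : ℂ) '' pvkgO) (z : ℂ) :
    pvthSim (pvieZo 𝔓 m z t) ((𝔓.Γ m).dout t * pvlmDel c m) '' pvkgEm ⊆ pvthSim (pvieZo 𝔓 m z t) ((𝔓.Γ m).dout t) '' O₀ m ∪ pvieSh z (pvegOKa 𝔓 O₀ m t) := by
  have hr := pveg_R_pos hL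
  have hδ := pvlm_Del_pos c m
  have hf : 64 * pvlmDel c m ≤ pvegR 𝔓 m := hL.fine
  have h := pvo4_Em_sub (a := pvegA c m) (pveg_door_o hL hT) (by linarith) (by linarith) (by unfold pvegA; linarith)
  have e1 : pvthSim ((𝔓.Γ m).pout t) ((𝔓.Γ m).dout t) '' O₀ m = pvthSim ((𝔓.Γ m).pout t) ((𝔓.Γ m).dout t * pvlmDel c m) '' pvkgO := by rw [hO, pvo4_sim_sim]
  have h2 := Set.image_mono (f := fun w : ℂ => z + w) h
  rw [image_union] at h2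
  unfold pvieZo pvegOKa
  rw [← pvjh_sh_sim, ← pvjh_sh_sim, e1]
  exact h2

/-- **LAST LINK**: the window `E⁺` of the side event `S⁺`, placed at the entrance door, lies in `door ∪ tile` -/
theorem pvo4_i_win {m : ℕ} {t : τ} (hL : PvegLev 𝔓 m) (hT : pviwTyOk 𝔓 t) {O₀ : ℕ → Set ℂ} (hO : O₀ m = pvthSim 0 (pvlmDel c m : ℂ) '' pvkgO) (z : ℂ) :
    pvthSim (pvieZi 𝔓 m z t) ((𝔓.Γ m).din t * pvlmDel c m) '' pvkgEp ⊆ pvthSim (pvieZi 𝔓 m z t) ((𝔓.Γ m).din t) '' O₀ m ∪ pvieSh z (pvegIKa 𝔓 O₀ m t) := by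
  have hr := pveg_R_pos hL
  have hδ := pvlm_Del_pos c m
  have hf : 64 * pvlmDel c m ≤ pvegR 𝔓 m := hL.fine
  have h := pvo4_Em_sub (a := pvegA c m) (pveg_door_i hL hT) (by linarith) (by linarith) (by unfold pvegA; linarith)
  have e0 : -((𝔓.Γ m).din t * pvlmDel c m) = -(𝔓.Γ m).din t * pvlmDel c m := by ring
  have e1 : pvthSim ((𝔓.Γ m).pin t) ((𝔓.Γ m).din t) '' O₀ m = pvthSim ((𝔓.Γ m).pin t) (-(𝔓.Γ m).din t * pvlmDel c m) '' pvkgO := by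
    rw [hO, pvo4_sim_sim, pvo4_sim_neg _ _ pvo4_O_neg, e0]
  have e2 : pvthSim ((𝔓.Γ m).pin t) ((𝔓.Γ m).din t * pvlmDel c m) '' pvkgEp = pvthSim ((𝔓.Γ m).pin t) (-(𝔓.Γ m).din t * pvlmDel c m) '' pvkgEm := by
    rw [pvo4_sim_neg _ _ pvo4_Ep_neg, e0]
  have h2 := Set.image_mono (f := fun w : ℂ => z + w) h
  rw [image_union] at h2
  unfold pvieZi pvegIKa
  rw [← pvjh_sh_sim, ← pvjh_sh_sim, e1, e2]
  exact h2

end par

/-- **the numeral `[O0]` of `Exit/FrcO`, `Exit/FrcI`**: the door square `δ_m · pvkgO` lies in the square of half side `7 q / 2`, `q = δ_m / 40` (`= pvge3Q c m` by unfolding) -/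
theorem pvo4_O0_sub (c : ℝ) (m : ℕ) : pvthSim 0 (pvlmDel c m : ℂ) '' pvkgO ⊆ pvccSq 0 (7 * (pvlmDel c m / 40) / 2) := by
  rintro _ ⟨w, ⟨h1, h2, h3, h4⟩, rfl⟩
  have hD := pvlm_Del_pos c m
  show max |(pvthSim 0 (pvlmDel c m : ℂ) w - 0).re| |(pvthSim 0 (pvlmDel c m : ℂ) w - 0).im| < 7 * (pvlmDel c m / 40) / 2
  have e1 : (pvthSim 0 (pvlmDel c m : ℂ) w - 0).re = pvlmDel c m * w.re := by simp [pvthSim]
  have e2 : (pvthSim 0 (pvlmDel c m : ℂ) w - 0).im = pvlmDel c m * w.im := by simp [pvthSim]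
  rw [e1, e2, max_lt_iff, abs_lt, abs_lt]
  refine ⟨⟨?_, ?_⟩, ?_, ?_⟩ <;> nlinarith

end Claimed.Agent.R289
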