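-- KEEP
import Claimed.Agent.R289.Exit.FrcE
import Claimed.Agent.R289.Exit.GoodEM
import Claimed.Agent.R289.Exit.EngRec
import Claimed.Agent.R289.Exit.ParGr

/-!
# Row 289 (S0537), THE WALL, ROAD E, E10 AT THE MODEL, file Exit/FrcOq : THE LEAVES [q] AND [hG] OF THE THIN HYBRID ENDS `o`, `i`      (helper190; prefix `pvuo_`, defs `pvuo…`)

Typed against the hypotheses `hq`, `hG` of `pvje_cut` (35, `Exit/FrcE`), for the skeletons `Exit/FrcO` (211) and `i` (116).      0 sorry.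
* `pvuoQ0`  = THE constant of `pvge2_cert_lim` (298, `Tr/GoodE`);   **`pvuoTh 𝔓 m`** = threshold `T.t` of the copy pattern of record of level `m` (free of `ε z t`, the same for `o` and `i`);   `pvuo_Th_ne`, `pvuo_Th_top`
* `pvuo_b_ne`, `pvuo_b_top`, `pvuo_b_le` : the threshold `nb.b` of the engine of record is `≠ 0`, `≠ ∞`, `≤ 1 / 4`
* **`pvuoTe nb := nb.b / 2`** = the `θ` of record;   **`pvuoQ 𝔓 nb m := pvuoTh 𝔓 m * (nb.b - pvuoTe nb)`** = the `q m` of record;   `pvuo_Q_ne`;   `pvuo_Te_ne`, `pvuo_Te_top`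
* **[hG]** `pvuo_good_o`, `pvuo_good_i` (generic parameters, ANY measurable resampled region `C`, any `θ`),   `pvuo_hG_o`, `pvuo_hG_i` (at `pvxParOf N hN c`, `m0 ≤ m`, all `z t`)
* **[q]**  `pvuo_hq` : `T.t = pvuoTh 𝔓 m`, `T.b = nb.b` eventually  ⟹  `hq` of `pvje_cut` at `q := pvuoQ 𝔓 nb m`, `θ := pvuoTe nb`
-/

set_option autoImplicit false

namespace Claimed.Agent.R289

open Set MeasureTheory Filter Topology Claims.C0465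
open scoped ENNReal

/-! ## 1. the constants -/

/-- THE constant of `pvge2_cert_lim` -/
noncomputable def pvuoQ0 : ℝ := pvge2_cert_lim.choose

theorem pvuo_Q0_pos : 0 < pvuoQ0 := pvge2_cert_lim.choose_spec.1

theorem pvuo_Q0_le : pvuoQ0 ≤ 1 := pvge2_cert_lim.choose_spec.2.1

/-- **the threshold of the copy pattern of record of the thin hybrid links of level `m`** -/
noncomputable def pvuoTh {τ : Type} {c : ℝ} (𝔓 : PvxPar τ c) (m : ℕ) : ℝ≥0∞ := ENNReal.ofReal ((pvuoQ0 ^ (15 * (4 * (2 * pvge3M 𝔓 m + 1) ^ 2)) / 2) ^ 2)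

/-- the `θ` of record -/
noncomputable def pvuoTe {N : PvxNums} (nb : PvnaNb N) : ℝ≥0∞ := nb.b / 2

/-- **the forcing constant of record of the thin hybrid links of level `m`** -/
noncomputable def pvuoQ {τ : Type} {c : ℝ} (𝔓 : PvxPar τ c) {N : PvxNums} (nb : PvnaNb N) (m : ℕ) : ℝ≥0∞ := pvuoTh 𝔓 m * (nb.b - pvuoTe nb)

theorem pvuo_eqns_cite : True := by
  have := @pvuoQ0.eq_1; have := @pvuoTh.eq_1; have := @pvuoTe.eq_1; have := @pvuoQ.eq_1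
  trivial

theorem pvuo_Th_ne {τ : Type} {c : ℝ} (𝔓 : PvxPar τ c) (m : ℕ) : pvuoTh 𝔓 m ≠ 0 := by
  unfold pvuoTh
  rw [Ne, ENNReal.ofReal_eq_zero, not_le]
  have := pvuo_Q0_pos
  positivity

theorem pvuo_Th_top {τ : Type} {c : ℝ} (𝔓 : PvxPar τ c) (m : ℕ) : pvuoTh 𝔓 m ≠ ∞ := ENNReal.ofReal_ne_top

theorem pvuo_b_ne {N : PvxNums} (nb : PvnaNb N) : nb.b ≠ 0 := by
  obtain ⟨ε, hε⟩ := nb.H.ok.exists
  exact hε.b0

theorem pvuo_b_le {N : PvxNums} (nb : PvnaNb N) : 4 * nb.b ≤ 1 := by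
  obtain ⟨ε, hε⟩ := nb.H.ok.exists
  have := (pv_isPpp ε).prob
  exact (le_add_self.trans hε.adm).trans prob_le_one

theorem pvuo_b_top {N : PvxNums} (nb : PvnaNb N) : nb.b ≠ ∞ := by
  intro h
  have h1 := pvuo_b_le nb
  rw [h, ENNReal.mul_top (by norm_num)] at h1
  exact absurd h1 (by simp)

theorem pvuo_Te_ne {N : PvxNums} (nb : PvnaNb N) : pvuoTe nb ≠ 0 := by
  unfold pvuoTe
  exact (ENNReal.half_pos (pvuo_b_ne nb)).ne'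

theorem pvuo_Te_top {N : PvxNums} (nb : PvnaNb N) : pvuoTe nb ≠ ∞ := by
  unfold pvuoTe
  exact (ENNReal.div_lt_top (pvuo_b_top nb) (by norm_num)).ne

theorem pvuo_Te_lt {N : PvxNums} (nb : PvnaNb N) : pvuoTe nb < nb.b := ENNReal.half_lt_self (pvuo_b_ne nb) (pvuo_b_top nb)

theorem pvuo_Q_ne {τ : Type} {c : ℝ} (𝔓 : PvxPar τ c) {N : PvxNums} (nb : PvnaNb N) (m : ℕ) : pvuoQ 𝔓 nb m ≠ 0 := by
  unfold pvuoQ
  exact mul_ne_zero (pvuo_Th_ne 𝔓 m) (tsub_pos_of_lt (pvuo_Te_lt nb)).ne'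

/-! ## 2. [hG] the cost of the copy pattern -/

section good

variable {τ : Type} {c : ℝ} {𝔓 : PvxPar τ c}

theorem pvuo_len_o (𝔓 : PvxPar τ c) (m : ℕ) (z : ℂ) (t : τ) : (pvge3PatO 𝔓 m z t).length = 2 := rfl

theorem pvuo_len_i (𝔓 : PvxPar τ c) (m : ℕ) (z : ℂ) (t : τ) : (pvge3PatI 𝔓 m z t).length = 2 := rfl

/-- **[hG], link `o`, generic parameters, any measurable resampled region** -/
theorem pvuo_good_o {m : ℕ} {t : τ} (hL : PvegLev 𝔓 m) (hT : pviwTyOk 𝔓 t) (hf : 10000 * pvlmDel c m ≤ pvegR 𝔓 m) (z : ℂ) {C : Set ℂ} (hC : MeasurableSet C) {θ : ℝ≥0∞} (hθ : θ ≠ 0) (hθ' : θ ≠ ∞) :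
    PvrgSmall fun ε => (pvayGood2 ε C (pvkqPatR (pvge3PatO 𝔓 m z t)) (pvkqPat (pvge3Dl c m) (pvge3PatO 𝔓 m z t)) (pvuoTh 𝔓 m) θ)ᶜ := by
  have h := pvge2_cert_lim.choose_spec.2.2 (pvge3M 𝔓 m) 4 (pvge3Dl c m) (pvge3PatO 𝔓 m z t) (pvge3_fit_o hL hT hf z) (pvge3_meas_o 𝔓 m z t) C hC θ hθ hθ'
  rw [pvuo_len_o] at h
  exact h

/-- **[hG], link `i`, generic parameters, any measurable resampled region** -/
theorem pvuo_good_i {m : ℕ} {t : τ} (hL : PvegLev 𝔓 m) (hT : pviwTyOk 𝔓 t) (hf : 10000 * pvlmDel c m ≤ pvegR 𝔓 m) (z : ℂ) {C : Set ℂ} (hC : MeasurableSet C) {θ : ℝ≥0∞} (hθ : θ ≠ 0) (hθ' : θ ≠ ∞) :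
    PvrgSmall fun ε => (pvayGood2 ε C (pvkqPatR (pvge3PatI 𝔓 m z t)) (pvkqPat (pvge3Dl c m) (pvge3PatI 𝔓 m z t)) (pvuoTh 𝔓 m) θ)ᶜ := by
  have h := pvge2_cert_lim.choose_spec.2.2 (pvge3M 𝔓 m) 4 (pvge3Dl c m) (pvge3PatI 𝔓 m z t) (pvge3_fit_i hL hT hf z) (pvge3_meas_i 𝔓 m z t) C hC θ hθ hθ'
  rw [pvuo_len_i] at h
  exact h

end good

section model

variable {c : ℝ} {N : PvxNums} (hN : N.Ok)

theorem pvuo_fine (c0 : 0 < c) {m : ℕ} (hm : (pvxParOf N hN c).m0 ≤ m) : 10000 * pvlmDel c m ≤ pvegR (pvxParOf N hN c) m := by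
  have h1 := pvxo_fine hN c0 hm
  have h2 := pvlm_Del_pos c m
  show 10000 * pvlmDel c m ≤ N.rho * pvlmH m
  linarith

/-- **[hG] OF THE FIRST LINK AT THE MODEL** (`θ` of record; `C` = the tile of the engine, whatever it is) -/
theorem pvuo_hG_o (c0 : 0 < c) (nb : PvnaNb N) {m : ℕ} (hm : (pvxParOf N hN c).m0 ≤ m) (z : ℂ) (t : pvxTau N) {C : Set ℂ} (hC : MeasurableSet C) :
    PvrgSmall fun ε => (pvayGood2 ε C (pvkqPatR (pvge3PatO (pvxParOf N hN c) m z t)) (pvkqPat (pvge3Dl c m) (pvge3PatO (pvxParOf N hN c) m z t)) (pvuoTh (pvxParOf N hN c) m) (pvuoTe nb))ᶜ :=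
  pvuo_good_o (pvqh_lev hN c0 hm) (pvqh_tyOk hN c t) (pvuo_fine hN c0 hm) z hC (pvuo_Te_ne nb) (pvuo_Te_top nb)

/-- **[hG] OF THE LAST LINK AT THE MODEL** -/
theorem pvuo_hG_i (c0 : 0 < c) (nb : PvnaNb N) {m : ℕ} (hm : (pvxParOf N hN c).m0 ≤ m) (z : ℂ) (t : pvxTau N) {C : Set ℂ} (hC : MeasurableSet C) :
    PvrgSmall fun ε => (pvayGood2 ε C (pvkqPatR (pvge3PatI (pvxParOf N hN c) m z t)) (pvkqPat (pvge3Dl c m) (pvge3PatI (pvxParOf N hN c) m z t)) (pvuoTh (pvxParOf N hN c) m) (pvuoTe nb))ᶜ :=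
  pvuo_good_i (pvqh_lev hN c0 hm) (pvqh_tyOk hN c t) (pvuo_fine hN c0 hm) z hC (pvuo_Te_ne nb) (pvuo_Te_top nb)

end model

/-! ## 3. [q] -/

/-- **[q]**: `hq` of `pvje_cut` -/
theorem pvuo_hq {τ : Type} {c : ℝ} (𝔓 : PvxPar τ c) {N : PvxNums} (nb : PvnaNb N) (m : ℕ) {T : ℝ → PvjeTest} (ht : ∀ᶠ ε in 𝓝[>] (0 : ℝ), (T ε).t = pvuoTh 𝔓 m) (hb : ∀ᶠ ε in 𝓝[>] (0 : ℝ), (T ε).b = nb.b) :
    ∀ᶠ ε in 𝓝[>] (0 : ℝ), pvuoQ 𝔓 nb m ≤ (T ε).t * ((T ε).b - pvuoTe nb) := by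
  filter_upwards [ht, hb] with ε h1 h2
  rw [h1, h2]
  exact le_rfl

end Claimed.Agent.R289
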