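-- KEEP
import Claimed.Agent.R289.Tr.FrcPat
import Claimed.Agent.R289.Tr.FrcPatM
import Claimed.Agent.R289.Exit.GoodEM
import Claimed.Agent.R289.Tr.FrcM
import Claimed.Agent.R289.Tr.KitGeo

/-!
# Row 289 (S0537), THE WALL, ROAD E, E10, file Exit/FrcRooms : THE TWO HALVES `Kb`, `Kw` OF THE MIXED ORDER OF A THIN HYBRID LINK ARE DISJOINT      (helper248; names `pvjp_zone_*`, `pvjp_room_*`, `pvjp_half_*`, `pvjpZn`, `pvjpHalf`)      0 sorry

WHO NEEDS IT.   Field `up` of `PvjeTest.Ok` at the thin ends `o`, `i` (`pvjp_up_field`, `pvjp_ok`, `pvjp_door_of_end` of `Tr/FrcPat`; `PvdpEnd.sec` of 77) asks for TWO SETS `Kb Kw` with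
      `Disjoint Kb Kw`,   `Rb \ D ⊆ Kb`,   `Rw \ D ⊆ Kw` (rooms of the two half lanes of the side event of the door plug, 174 / 77),   `pvjpRm true F ⊆ Kb`,   `pvjpRm false F ⊆ Kw` (rooms of the routes of the copy pattern, 298).
THIS FILE GIVES THEM: `Kb := pvjpHalf φ σ c F true`, `Kw := pvjpHalf φ σ c F false`,   `pvjpHalf φ σ c F κ := (φ '' (pvhfT (1/40)).Ln σ (κ == c) \ φ '' pvkgO) ∪ pvjpRm κ F`   (`φ` = the placing map of the door, `σ` = the side of the door plug which faces the link, `c` = colour of the strand).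
* sec. 1  GENERIC FRAME (298): `pvjpZn Y u up q Sp lam β` = the zone of the half lane of relative colour `β` in front of the door; `pvjp_zone_disj`, `pvjp_zone_rt₁`, `pvjp_zone_rt₂` (a route of record misses the zone of the other colour)
* sec. 2  PLACING: `pvjp_zone_lane` (the room of a half lane of record, minus the door region, lies in its zone)
* sec. 3  `pvjpHalf`, **`pvjp_half_disj`**, `pvjp_half_rm`, `pvjp_half_room`, forms of 77 `pvjp_half_Rb`, `pvjp_half_Rw` (`PvdpEnd.pl`), `pvjp_half_sec_b`, `pvjp_half_sec_w` (`pvdp_side_sec`), **`pvjp_half_up`** = THE FIELD `up` AT A THIN END IN ONE CALL (3 region lines left), `pvjp_half_sep` (= `sep` of `pvut_up` of 232), `pvjp_half_blind`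
* sec. 4  AT THE MODEL: **`pvjp_half_o`**, **`pvjp_half_i`** (generic `𝔓`; pattern `pvge3PatOb / Ib` of 298, any colour)
-/

set_option autoImplicit false

namespace Claimed.Agent.R289

open Set MeasureTheory Filter Topology Claims.C0465
open scoped ENNReal

/-! ## 1. the zones in front of the door -/

/-- **the zone of the half lane of relative colour `β`** (`true` = side `up`) in front of a door of unit `q` at `(Sp, lam)`, frame `(Y, u, up)` of 298 -/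
def pvjpZn (Y u : ℂ) (up : Bool) (q Sp lam : ℝ) (β : Bool) : Set ℂ :=
  if β then pvge2R Y u up (Sp - 5 * q) Sp (lam + q / 2) (lam + 3 * q / 2) else pvge2R Y u up (Sp - 5 * q) Sp (lam - 3 * q / 2) (lam - q / 2)

theorem pvjp_eqns_cite4 : True := by
  have := @pvjpZn.eq_1
  trivial

section zone

variable {Y u : ℂ} {up : Bool} {r δ q dl ρ b μ Sp lam : ℝ}

theorem pvjp_zone_disj (hq : 0 < q) : Disjoint (pvjpZn Y u up q Sp lam true) (pvjpZn Y u up q Sp lam false) := by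
  simp only [pvjpZn, if_true, Bool.false_eq_true, if_false]
  exact pvge2_R_disj (Or.inr (Or.inr (Or.inr (by linarith))))

/-- the route of the inner colour (side `up`) misses the zone of the other colour -/
theorem pvjp_zone_rt₁ (R : Pvge2Rec r δ q dl ρ b μ Sp lam) :
    Disjoint (pvkqRtR (pvge2Rt Y u up (27 * r / 200) (r / 200) (23 * r / 200) (23 * r / 200) (3 * r / 20) (Sp - 29 * q / 8) (q / 8) (lam + q / 4))) (pvjpZn Y u up q Sp lam false) := by
  have h1 := R.δ0; have h3 := R.fine; have h8 := R.s_lo; have h9 := abs_le.1 R.lat; have h10 := R.qδ; have h11 := R.q0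
  rw [pvge2_Rt_R, Set.disjoint_left]
  simp only [pvge2RC, pvge2RN, pvge2RH, pvge2RV, pvjpZn, Bool.false_eq_true, if_false]
  rintro v (((((⟨x1, x2, x3, x4⟩ | ⟨x1, x2, x3, x4⟩) | ⟨x1, x2, x3, x4⟩) | ⟨x1, x2, x3, x4⟩) | ⟨x1, x2, x3, x4⟩) | ⟨x1, x2, x3, x4⟩) ⟨y1, y2, y3, y4⟩
  all_goals linarith [h9.1, h9.2]

/-- the route of the outer colour (side `!up`) misses the zone of the other colour -/
theorem pvjp_zone_rt₂ (R : Pvge2Rec r δ q dl ρ b μ Sp lam) :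
    Disjoint (pvkqRtR (pvge2Rt Y u (!up) (4 * r / 25) (r / 200) (23 * r / 200) (23 * r / 200) (3 * r / 20) (Sp - 29 * q / 8) (q / 8) (-lam + q / 4))) (pvjpZn Y u up q Sp lam true) := by
  have h1 := R.δ0; have h3 := R.fine; have h8 := R.s_lo; have h9 := abs_le.1 R.lat; have h10 := R.qδ; have h11 := R.q0
  rw [pvge2_Rt_R, Set.disjoint_left]
  simp only [pvge2RC, pvge2RN, pvge2RH, pvge2RV, pvge2_R_flip, pvjpZn, if_true]
  rintro v (((((⟨x1, x2, x3, x4⟩ | ⟨x1, x2, x3, x4⟩) | ⟨x1, x2, x3, x4⟩) | ⟨x1, x2, x3, x4⟩) | ⟨x1, x2, x3, x4⟩) | ⟨x1, x2, x3, x4⟩) ⟨y1, y2, y3, y4⟩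
  all_goals linarith [h9.1, h9.2]

/-- the rooms of the pattern of record, colour by colour -/
theorem pvjp_room_rec (Y u : ℂ) (up c : Bool) (r q Sp lam : ℝ) :
    pvjpRm c (pvge2PatRec Y u up c r q Sp lam) = pvkqRtR (pvge2Rt Y u up (27 * r / 200) (r / 200) (23 * r / 200) (23 * r / 200) (3 * r / 20) (Sp - 29 * q / 8) (q / 8) (lam + q / 4)) ∧
    pvjpRm (!c) (pvge2PatRec Y u up c r q Sp lam) = pvkqRtR (pvge2Rt Y u (!up) (4 * r / 25) (r / 200) (23 * r / 200) (23 * r / 200) (3 * r / 20) (Sp - 29 * q / 8) (q / 8) (-lam + q / 4)) :=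
  pvjp_rm_two c _ _

/-- **zone `∪` rooms of the routes, colour by colour: disjoint** -/
theorem pvjp_zone_room_disj (R : Pvge2Rec r δ q dl ρ b μ Sp lam) (c : Bool) :
    Disjoint (pvjpZn Y u up q Sp lam true ∪ pvjpRm c (pvge2PatRec Y u up c r q Sp lam)) (pvjpZn Y u up q Sp lam false ∪ pvjpRm (!c) (pvge2PatRec Y u up c r q Sp lam)) := by
  rw [(pvjp_room_rec Y u up c r q Sp lam).1, (pvjp_room_rec Y u up c r q Sp lam).2]
  exact Disjoint.union_left (Disjoint.union_right (pvjp_zone_disj R.q0) (pvjp_zone_rt₂ R).symm)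
    (Disjoint.union_right (pvjp_zone_rt₁ R) (pvge2_Rt_disj R.num₁ R.num₂ R.bar₁ R.bar₂ R.pair))

end zone

/-! ## 2. the rooms of the half lanes of record, placed -/

section place

variable {Y u : ℂ} {up : Bool} {δ Sp lam : ℝ}

/-- **the room of a half lane of record (174, unit `1/40`), minus the door region of record, lies in its zone**.      `φ` = any placing map which reads `(S, T) = (Sp ∓ δ x, lam + δ y)`: `σ = true` (exit side of the plug faces the link: LAST link), `σ = false` (entrance side: FIRST link) -/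
theorem pvjp_zone_lane (hδ : 0 < δ) {φ : ℂ → ℂ} (σ : Bool) (hS : ∀ w, pvge2S Y u (φ w) = Sp + (if σ then -1 else 1) * (δ * w.re)) (hT : ∀ w, pvge2T Y u up (φ w) = lam + δ * w.im) (β : Bool) :
    φ '' (pvhfT (1 / 40)).Ln σ β \ φ '' pvkgO ⊆ pvjpZn Y u up (δ / 40) Sp lam β := by
  rintro _ ⟨⟨w, hw, rfl⟩, hO⟩
  have hO' : w ∉ pvkgO := fun h => hO ⟨w, h, rfl⟩
  have hS' := hS w
  have hT' := hT w
  have key : ∀ a b : ℝ, a ≤ b → δ * a ≤ δ * b := fun a b h => mul_le_mul_of_nonneg_left h hδ.le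
  cases σ <;> cases β <;>
    simp only [pvhfT, pvkdRect, rswRect, if_true, if_false, Bool.false_eq_true, mem_union, mem_ofPred_eq, pvkgO, pvkgB, not_and, not_lt] at hw hO' hS' <;>
    simp only [pvjpZn, pvge2R, if_true, if_false, Bool.false_eq_true, mem_ofPred_eq] <;>
    rw [hS', hT'] <;>
    rcases hw with ⟨a1, a2, a3, a4⟩ | ⟨a1, a2, a3, a4⟩
  all_goals first
    | (exfalso; have := hO' (by linarith) (by linarith) (by linarith); linarith)
    | (refine ⟨?_, ?_, ?_, ?_⟩ <;> nlinarith [key _ _ a1, key _ _ a2, key _ _ a3, key _ _ a4])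

end place

/-! ## 3. the two halves of the mixed order -/

/-- **THE HALF OF THE ACTUAL COLOUR `κ`** (`true` = black = increasing) of the mixed order of a thin hybrid link: room of the half lane of that colour outside the door region `∪` rooms of the routes of that colour.
`φ` = placing map of the door plug, `σ` = side of the plug which faces the link, `c` = colour of the strand (the placed plug is the black form recoloured by `c`, 77) -/
def pvjpHalf (φ : ℂ → ℂ) (σ c : Bool) (F : List (Bool × List (Set ℂ × ℂ × ℂ))) (κ : Bool) : Set ℂ := (φ '' (pvhfT (1 / 40)).Ln σ (κ == c) \ φ '' pvkgO) ∪ pvjpRm κ F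

theorem pvjp_eqns_cite5 : True := by
  have := @pvjpHalf.eq_1
  trivial

section half

variable {Y u : ℂ} {up : Bool} {r δ q dl ρ b μ Sp lam : ℝ}

theorem pvjp_half_rm (φ : ℂ → ℂ) (σ c : Bool) (F : List (Bool × List (Set ℂ × ℂ × ℂ))) (κ : Bool) : pvjpRm κ F ⊆ pvjpHalf φ σ c F κ := subset_union_right

theorem pvjp_half_room (φ : ℂ → ℂ) (σ c : Bool) (F : List (Bool × List (Set ℂ × ℂ × ℂ))) (κ : Bool) : φ '' (pvhfT (1 / 40)).Ln σ (κ == c) \ φ '' pvkgO ⊆ pvjpHalf φ σ c F κ := subset_union_left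

/-- the black room of the placed side event, in the words of `PvdpUp.pl` / `PvdpEnd.pl` / `pvdp_end_k` of 77 -/
theorem pvjp_half_Rb (φ : ℂ → ℂ) (σ c : Bool) (F : List (Bool × List (Set ℂ × ℂ × ℂ))) :
    φ '' (if c then (pvhfT (1 / 40)).Ln σ true else (pvhfT (1 / 40)).Ln σ false) \ φ '' pvkgO ⊆ pvjpHalf φ σ c F true := by
  cases c <;> exact subset_union_left

/-- the white room of the placed side event -/
theorem pvjp_half_Rw (φ : ℂ → ℂ) (σ c : Bool) (F : List (Bool × List (Set ℂ × ℂ × ℂ))) :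
    φ '' (if c then (pvhfT (1 / 40)).Ln σ false else (pvhfT (1 / 40)).Ln σ true) \ φ '' pvkgO ⊆ pvjpHalf φ σ c F false := by
  cases c <;> exact subset_union_left

/-- the hypothesis `hb` of `pvdp_side_sec` of 77 (v2.2): ANY truncation with the rooms of record, ANY region `D` which contains the placed `pvkgO` -/
theorem pvjp_half_sec_b (φ : ℂ → ℂ) (σ c : Bool) (F : List (Bool × List (Set ℂ × ℂ × ℂ))) {𝔱 : PvhfTr} (h : 𝔱.Ln = (pvhfT (1 / 40)).Ln) {D : Set ℂ} (hD : φ '' pvkgO ⊆ D) :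
    φ '' 𝔱.Ln σ c \ D ⊆ pvjpHalf φ σ c F true := by
  rw [h]
  refine (sdiff_subset_sdiff_right hD).trans ?_
  cases c <;> exact subset_union_left

/-- the hypothesis `hw` of `pvdp_side_sec` of 77 -/
theorem pvjp_half_sec_w (φ : ℂ → ℂ) (σ c : Bool) (F : List (Bool × List (Set ℂ × ℂ × ℂ))) {𝔱 : PvhfTr} (h : 𝔱.Ln = (pvhfT (1 / 40)).Ln) {D : Set ℂ} (hD : φ '' pvkgO ⊆ D) :
    φ '' 𝔱.Ln σ (!c) \ D ⊆ pvjpHalf φ σ c F false := by
  rw [h]
  refine (sdiff_subset_sdiff_right hD).trans ?_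
  cases c <;> exact subset_union_left

/-- **THE TWO HALVES ARE DISJOINT** (generic frame of 298, pattern of record, unit `q = δ / 40`) -/
theorem pvjp_half_disj (R : Pvge2Rec r δ q dl ρ b μ Sp lam) (hq : q = δ / 40) {φ : ℂ → ℂ} (σ : Bool) (hS : ∀ w, pvge2S Y u (φ w) = Sp + (if σ then -1 else 1) * (δ * w.re))
    (hT : ∀ w, pvge2T Y u up (φ w) = lam + δ * w.im) (c : Bool) :
    Disjoint (pvjpHalf φ σ c (pvge2PatRec Y u up c r q Sp lam) true) (pvjpHalf φ σ c (pvge2PatRec Y u up c r q Sp lam) false) := by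
  subst hq
  have hz := fun β => pvjp_zone_lane (Y := Y) (u := u) (up := up) (Sp := Sp) (lam := lam) R.δ0 σ hS hT β
  cases c
  · exact ((pvjp_zone_room_disj (Y := Y) (u := u) (up := up) R false).mono (union_subset_union_left _ (hz true)) (union_subset_union_left _ (hz false))).symm
  · exact (pvjp_zone_room_disj (Y := Y) (u := u) (up := up) R true).mono (union_subset_union_left _ (hz true)) (union_subset_union_left _ (hz false))

/-- **THE FIELD `up` OF `PvjeTest.Ok` AT A THIN END, ONE CALL** (door half: `pvdp_side_sec` of 77; pattern half: `pvjp_up_field`): side event `pvdpPl z a c (pvhfS 𝔭 𝔱 σ)`, pattern `pvkqPat dl F ∩ ℬ`, `ℬ` colour blind.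
What is left: THREE REGION LINES (`hO hEw hW`) and the disjointness of the halves (`pvjp_half_o`, `pvjp_half_i`) -/
theorem pvjp_half_up {E : PvjeEnd} {𝔭 : PvkdPlug} {𝔱 : PvhfTr} (hG : PvhfGeo 𝔭 𝔱) (h𝔱 : 𝔱.Ln = (pvhfT (1 / 40)).Ln) (σ : Bool) (z a : ℂ) (ha : a ≠ 0) (c : Bool)
    (hO : pvthSim z a '' pvkgO ⊆ E.D) (hEw : pvthSim z a '' 𝔭.Ew ⊆ E.D) (hW : ∀ Z, pvthSim z a '' 𝔱.Es σ ⊆ E.Wn Z)
    {dl : ℝ} {M K : ℕ} {F : List (Bool × List (Set ℂ × ℂ × ℂ))} (hfit : PvkqFit dl M K F) {ℬ : Set (Conf PvPt)} (hB : PvjpBlind ℬ)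
    (hd : Disjoint (pvjpHalf (pvthSim z a) σ c F true) (pvjpHalf (pvthSim z a) σ c F false)) :
    ∀ (η₀ : Conf PvPt) (Y Fz : Set ℂ) (s : ℂ → Bool), Y.Countable → (∃ η, PvatNice (cfSites η) ∧ cfSites η ∩ E.Wn (E.Hu η₀) = Y ∩ E.Wn (E.Hu η₀)) → Fz ⊆ Y → (∀ v ∈ Y, v ∈ E.D → v ∈ Fz) →
      (∀ v ∈ Fz, v ∉ E.K ∧ v ∉ E.y η₀) → ∃ sg : ℂ → Option Bool, {v | sg v ≠ none}.Countable ∧ PvlhUp sg (pvlhSec Y Fz s (pvdpPl z a c (pvhfS 𝔭 𝔱 σ))) ∧ PvlhUp sg (pvlhCp Y (pvkqPat dl F ∩ ℬ)) :=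
  pvjp_up_field hd hfit hB (pvjp_half_rm _ σ c F true) (pvjp_half_rm _ σ c F false) fun _ _ _ s _ hn _ hD _ =>
    pvdp_side_sec hG σ z a ha c hEw (hW _) s hn hD hd (pvjp_half_sec_b _ σ c F h𝔱 hO) (pvjp_half_sec_w _ σ c F h𝔱 hO)

/-- **the hypothesis `sep` of `pvut_up` of 232 (`Tr/FrcUp`), VERBATIM**, from the disjointness of the halves (`Zb Zw` = the rooms of record of the side `σ`) -/
theorem pvjp_half_sep {φ : ℂ → ℂ} {σ c : Bool} {F : List (Bool × List (Set ℂ × ℂ × ℂ))} (hd : Disjoint (pvjpHalf φ σ c F true) (pvjpHalf φ σ c F false)) {D : Set ℂ} (hD : φ '' pvkgO ⊆ D) :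
    Disjoint (pvjpRm true F ∪ φ '' (cond c ((pvhfT (1 / 40)).Ln σ true) ((pvhfT (1 / 40)).Ln σ false)) \ D)
      (pvjpRm false F ∪ φ '' (cond c ((pvhfT (1 / 40)).Ln σ false) ((pvhfT (1 / 40)).Ln σ true)) \ D) :=
  hd.mono (union_subset (pvjp_half_rm φ σ c F true) ((sdiff_subset_sdiff_right hD).trans (by cases c <;> exact subset_union_left)))
    (union_subset (pvjp_half_rm φ σ c F false) ((sdiff_subset_sdiff_right hD).trans (by cases c <;> exact subset_union_left)))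

/-- the mesh clause of 52 is colour blind (127) -/
theorem pvjp_half_blind (ρ : ℝ) (O : Set ℂ) : PvjpBlind (pvjoMesh ρ O) := fun Y c c' h => pvjw_blind ρ O Y c c' h

end half

/-! ## 4. at the model -/

section model

variable {τ : Type} {c : ℝ} {𝔓 : PvxPar τ c} {m : ℕ} {t : τ}

/-- coordinates of a point of the placed door plug of the FIRST link, frame of the exit mouth -/
theorem pvjp_room_S_o (hL : PvegLev 𝔓 m) (hT : pviwTyOk 𝔓 t) (z w : ℂ) :
    pvge2S (z + pvegYp 𝔓 m t) ((𝔓.Γ m).dout t) (pvthSim (pvieZo 𝔓 m z t) ((𝔓.Γ m).dout t * pvlmDel c m) w) = pvegS (pvegYp 𝔓 m t) ((𝔓.Γ m).dout t) ((𝔓.Γ m).pout t) + pvlmDel c m * w.re := by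
  rw [pvge3_S, pvge3_S_at]
  unfold pvieZo
  rw [pvge3_S_sh]
  have e : (𝔓.Γ m).dout t * (pvlmDel c m : ℂ) * (starRingEnd ℂ) ((𝔓.Γ m).dout t) * w = ((𝔓.Γ m).dout t * (starRingEnd ℂ) ((𝔓.Γ m).dout t)) * ((pvlmDel c m : ℂ) * w) := by ring
  rw [e, pvge3_dd_o hL hT, one_mul, Complex.re_ofReal_mul]

theorem pvjp_room_T_o (hL : PvegLev 𝔓 m) (hT : pviwTyOk 𝔓 t) (z w : ℂ) :
    pvge2T (z + pvegYp 𝔓 m t) ((𝔓.Γ m).dout t) true (pvthSim (pvieZo 𝔓 m z t) ((𝔓.Γ m).dout t * pvlmDel c m) w) =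
      pvge2Sg true * pvegL (pvegYp 𝔓 m t) ((𝔓.Γ m).dout t) ((𝔓.Γ m).pout t) + pvlmDel c m * w.im := by
  rw [pvge3_T, pvge3_L_at]
  unfold pvieZo
  rw [pvge3_L_sh]
  have e : (𝔓.Γ m).dout t * (pvlmDel c m : ℂ) * (starRingEnd ℂ) ((𝔓.Γ m).dout t) * w = ((𝔓.Γ m).dout t * (starRingEnd ℂ) ((𝔓.Γ m).dout t)) * ((pvlmDel c m : ℂ) * w) := by ring
  rw [e, pvge3_dd_o hL hT, one_mul, Complex.im_ofReal_mul]
  simp only [pvge2Sg, if_true]
  ring

/-- coordinates of a point of the placed door plug of the LAST link, frame of the entrance mouth -/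
theorem pvjp_room_S_i (hL : PvegLev 𝔓 m) (hT : pviwTyOk 𝔓 t) (z w : ℂ) :
    pvge2S (z + pvegYm 𝔓 m t) (-(𝔓.Γ m).din t) (pvthSim (pvieZi 𝔓 m z t) ((𝔓.Γ m).din t * pvlmDel c m) w) = pvegS (pvegYm 𝔓 m t) (-(𝔓.Γ m).din t) ((𝔓.Γ m).pin t) + -1 * (pvlmDel c m * w.re) := by
  rw [pvge3_S, pvge3_S_at]
  unfold pvieZi
  rw [pvge3_S_sh]
  have e : (𝔓.Γ m).din t * (pvlmDel c m : ℂ) * (starRingEnd ℂ) (-(𝔓.Γ m).din t) * w = ((𝔓.Γ m).din t * (starRingEnd ℂ) (-(𝔓.Γ m).din t)) * ((pvlmDel c m : ℂ) * w) := by ring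
  rw [e, pvge3_dd_i hL hT, neg_one_mul, Complex.neg_re, Complex.re_ofReal_mul]
  ring

theorem pvjp_room_T_i (hL : PvegLev 𝔓 m) (hT : pviwTyOk 𝔓 t) (z w : ℂ) :
    pvge2T (z + pvegYm 𝔓 m t) (-(𝔓.Γ m).din t) false (pvthSim (pvieZi 𝔓 m z t) ((𝔓.Γ m).din t * pvlmDel c m) w) =
      pvge2Sg false * pvegL (pvegYm 𝔓 m t) (-(𝔓.Γ m).din t) ((𝔓.Γ m).pin t) + pvlmDel c m * w.im := by
  rw [pvge3_T, pvge3_L_at]
  unfold pvieZi
  rw [pvge3_L_sh]
  have e : (𝔓.Γ m).din t * (pvlmDel c m : ℂ) * (starRingEnd ℂ) (-(𝔓.Γ m).din t) * w = ((𝔓.Γ m).din t * (starRingEnd ℂ) (-(𝔓.Γ m).din t)) * ((pvlmDel c m : ℂ) * w) := by ring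
  rw [e, pvge3_dd_i hL hT, neg_one_mul, Complex.neg_im, Complex.im_ofReal_mul]
  simp only [pvge2Sg, Bool.false_eq_true, if_false]
  ring

/-- **THE TWO HALVES OF THE MIXED ORDER OF THE FIRST LINK ARE DISJOINT**: door plug placed at `(zo, dout δ)`, ENTRANCE side (`S⁻`, `pvnaHf 2`), pattern `pvge3PatOb 𝔓 b` of 298 -/
theorem pvjp_half_o (hL : PvegLev 𝔓 m) (hT : pviwTyOk 𝔓 t) (hf : 10000 * pvlmDel c m ≤ pvegR 𝔓 m) (b : Bool) (z : ℂ) :
    Disjoint (pvjpHalf (pvthSim (pvieZo 𝔓 m z t) ((𝔓.Γ m).dout t * pvlmDel c m)) false b (pvge3PatOb 𝔓 b m z t) true)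
      (pvjpHalf (pvthSim (pvieZo 𝔓 m z t) ((𝔓.Γ m).dout t * pvlmDel c m)) false b (pvge3PatOb 𝔓 b m z t) false) :=
  pvjp_half_disj (pvge3_rec_o hL hT hf (ρ := 0) (b := 0) (μ := 0) le_rfl (pvlm_Del_pos c m).le (by norm_num) (by have := pveg_R_pos hL; linarith)) rfl false
    (fun w => by rw [pvjp_room_S_o hL hT]; simp) (fun w => pvjp_room_T_o hL hT z w) b

/-- **THE TWO HALVES OF THE MIXED ORDER OF THE LAST LINK ARE DISJOINT**: door plug placed at `(zi, din δ)`, EXIT side (`S⁺`, `pvnaHf 0`), pattern `pvge3PatIb 𝔓 b` of 298 -/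
theorem pvjp_half_i (hL : PvegLev 𝔓 m) (hT : pviwTyOk 𝔓 t) (hf : 10000 * pvlmDel c m ≤ pvegR 𝔓 m) (b : Bool) (z : ℂ) :
    Disjoint (pvjpHalf (pvthSim (pvieZi 𝔓 m z t) ((𝔓.Γ m).din t * pvlmDel c m)) true b (pvge3PatIb 𝔓 b m z t) true)
      (pvjpHalf (pvthSim (pvieZi 𝔓 m z t) ((𝔓.Γ m).din t * pvlmDel c m)) true b (pvge3PatIb 𝔓 b m z t) false) :=
  pvjp_half_disj (pvge3_rec_i hL hT hf (ρ := 0) (b := 0) (μ := 0) le_rfl (pvlm_Del_pos c m).le (by norm_num) (by have := pveg_R_pos hL; linarith)) rfl true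
    (fun w => by rw [pvjp_room_S_i hL hT]; simp) (fun w => pvjp_room_T_i hL hT z w) b

end model

end Claimed.Agent.R289
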