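import Claimed.Agent.R289.Tr.MeshG
import Claimed.Agent.R289.Exit.FrcDefs
import Claimed.Agent.R289.Exit.ParEng

/-!
# Row 289 (S0537), THE WALL, ROAD E, E10 step (b6), file Exit/MeshW : WHO PAYS THE MESH CLAUSE OF THE PLAIN EVENT, LINKS `o i r`      (helper206; RULING 22 (3), 23 (1') of 234; prefix `pvwu_`, `pvwu`, `Pvwu`)

The plain events `pvilMo Mi Mr` (`Tr/InstL` v2.2.1) end with `pvilMs 𝔓 m Wn = {η | PvtrMesh (pvilMu 𝔓 m) Wn (cfSites η)}`.      SOURCES at a final configuration (R23 (1')): kept part `←` certificate at the base (`pvrgMesh (μ/20) Bg`, free: `pvgu_frc_mesh`);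
tile `←` a clause `PvtrMesh (μ/3) K` inside the copy pattern;   door / reference region `←` the usable states carry the mesh `≤ μ/3` of their whole region.      GLUE = `Tr/MeshG` (`pvmj_seam_kept`, `pvmj_seam`).
* sec. 1  thresholds: `pvwu_gaps` (a sorted list), squares are grid sets in every frame `u ^ 4 = 1`: `pvwu_grid_sqo` (open, `pvccSq`), `pvwu_grid_sqc` (closed, `pvwSq`), standard frame `pvwu_S_std pvwu_L_std`.
* sec. 2  ONE PLACED END IN THE VOCABULARY OF 124 (`pvegRa pvegKa`, door region = open square `pvccSq p σ`), shifted by `z`: `PvwuNum` (the six inequalities between the numbers), **`pvwu_end`** : hypotheses of `PvrgDet` of 256 `⟹` `PvtrMesh μ Wn Y₂`, EVERY `Wn`.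
* sec. 3  the same on a FINAL CONFIGURATION of 35 (`PvjeFin E T η₀ η`): **`pvwu_fin`**;   the room of the certificate `pvwuBg`.
* sec. 4  AT AN ENGINE whose regions are those of record (equations `hM hK hO` = `rfl` / `pvnr_*` at `pvnaEngRec`): **`pvwu_o`**, **`pvwu_i`** = the third conjunct of `pvilMo`, `pvilMi` VERBATIM.
* sec. 5  (append, next landing) the link `r`: window `= rK ∪ rO ∪ door`, grid sets of the standard frame.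
-/

set_option autoImplicit false

namespace Claimed.Agent.R289

open Set Metric MeasureTheory Claims.C0465

/-! ## 1. thresholds, squares -/

/-- the members of a list sorted with gaps `≥ g` are pairwise `g` apart -/
theorem pvwu_gaps {l : List ℝ} {g : ℝ} (h : l.Pairwise fun a b => a + g ≤ b) : ∀ θ ∈ {x | x ∈ l}, ∀ θ' ∈ {x | x ∈ l}, θ ≠ θ' → g ≤ |θ - θ'| := by
  have h2 : l.Pairwise fun a b => g ≤ |a - b| := h.imp fun {a b} hab => by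
    rw [abs_sub_comm]
    exact le_trans (by linarith) (le_abs_self _)
  have : Std.Symm fun a b : ℝ => g ≤ |a - b| := ⟨fun a b hab => by rw [abs_sub_comm]; exact hab⟩
  exact fun θ hθ θ' hθ' hne => h2.forall hθ hθ' hne

theorem pvwu_S_std (v : ℂ) : pvmjS 0 1 v = v.re := by simp [pvmjS]
theorem pvwu_L_std (v : ℂ) : pvmjL 0 1 v = v.im := by simp [pvmjL]

theorem pvwu_norm_unit {u : ℂ} (hu : u ^ 4 = 1) : ‖u‖ = 1 := pveg_norm_unit hu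

/-- the sup norm in a frame -/
theorem pvwu_N_frame {u : ℂ} (hu : u ^ 4 = 1) (c p v : ℂ) : pvccN (v - p) = max |pvmjS c u v - pvmjS c u p| |pvmjL c u v - pvmjL c u p| := by
  have e1 : pvmjS c u v - pvmjS c u p = ((starRingEnd ℂ) u * (v - p)).re := by
    unfold pvmjS
    rw [← Complex.sub_re]
    congr 1
    ring
  have e2 : pvmjL c u v - pvmjL c u p = ((starRingEnd ℂ) u * (v - p)).im := by
    unfold pvmjL
    rw [← Complex.sub_im]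
    congr 1
    ring
  rw [e1, e2, ← pvccN_unit_mul (pveg_conj_pow_four hu) (v - p)]
  rfl

/-- an OPEN square is a grid set -/
theorem pvwu_grid_sqo {u : ℂ} (hu : u ^ 4 = 1) (c p : ℂ) {r : ℝ} {Tx Ty : Set ℝ} (x1 : pvmjS c u p - r ∈ Tx) (x2 : pvmjS c u p + r ∈ Tx) (y1 : pvmjL c u p - r ∈ Ty) (y2 : pvmjL c u p + r ∈ Ty) :
    PvmjGrid c u Tx Ty (pvccSq p r) := by
  have e : pvccSq p r = {v | |pvmjS c u v - pvmjS c u p| < r} ∩ {v | |pvmjL c u v - pvmjL c u p| < r} := by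
    ext v
    simp only [pvccSq, mem_ofPred_eq, mem_inter_iff, pvwu_N_frame hu c p v, max_lt_iff]
  rw [e]
  exact (pvmj_grid_S_abs_lt c u Ty x1 x2).inter (pvmj_grid_L_abs_lt c u Tx y1 y2)

/-- a CLOSED square is a grid set -/
theorem pvwu_grid_sqc {u : ℂ} (hu : u ^ 4 = 1) (c p : ℂ) {r : ℝ} {Tx Ty : Set ℝ} (x1 : pvmjS c u p - r ∈ Tx) (x2 : pvmjS c u p + r ∈ Tx) (y1 : pvmjL c u p - r ∈ Ty) (y2 : pvmjL c u p + r ∈ Ty) :
    PvmjGrid c u Tx Ty {v | pvccN (v - p) ≤ r} := by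
  have e : {v | pvccN (v - p) ≤ r} = {v | |pvmjS c u v - pvmjS c u p| ≤ r} ∩ {v | |pvmjL c u v - pvmjL c u p| ≤ r} := by
    ext v
    simp only [mem_ofPred_eq, mem_inter_iff, pvwu_N_frame hu c p v, max_le_iff]
  rw [e]
  exact (pvmj_grid_S_abs_le c u Ty x1 x2).inter (pvmj_grid_L_abs_le c u Tx y1 y2)

theorem pvwu_mem_sh {z v : ℂ} {S : Set ℂ} : v ∈ pvieSh z S ↔ v - z ∈ S := by
  unfold pvieSh
  constructor
  · rintro ⟨w, hw, rfl⟩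
    simpa using hw
  · exact fun h => ⟨v - z, h, by ring⟩

theorem pvwu_sh_ball (z Y : ℂ) (r : ℝ) : pvieSh z (closedBall Y r) = closedBall (z + Y) r := by
  ext v
  rw [pvwu_mem_sh, mem_closedBall_iff_norm, mem_closedBall_iff_norm]
  congr! 2
  ring

theorem pvwu_sh_sq (z p : ℂ) (r : ℝ) : pvieSh z (pvccSq p r) = pvccSq (z + p) r := by
  ext v
  rw [pvwu_mem_sh]
  simp only [pvccSq, mem_ofPred_eq]
  congr! 2
  ring

theorem pvwu_S_sh (z Y u v : ℂ) : pvegS Y u (v - z) = pvmjS (z + Y) u v := by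
  unfold pvegS pvmjS
  congr 2
  ring

theorem pvwu_L_sh (z Y u v : ℂ) : pvegL Y u (v - z) = pvmjL (z + Y) u v := by
  unfold pvegL pvmjL
  congr 2
  ring

/-! ## 2. one placed end -/

/-- **the inequalities between the numbers of one end and the mesh `μ`**: `sp lp` = coordinates of the door in the frame of the tip cell, `b₀ = e + 2 δ` = back line of the funnel, `a` = plane of W-7, `σ` = half side of the door square, `w` = half width of the funnel -/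
structure PvwuNum (μ ρ₀ rM b₀ sp a σ w : ℝ) : Prop where
  μ0 : 0 < μ
  ρ20 : 20 * ρ₀ ≤ μ
  ρM : ρ₀ ≤ rM
  back : b₀ + 4 * μ / 5 ≤ sp - σ
  a0 : 0 ≤ a
  aσ : a + 4 * μ / 5 ≤ σ
  σw : σ + 4 * μ / 5 ≤ w

/-- **(b6) FOR ONE PLACED END**, hypotheses of `PvrgDet` of 256: tile `z + pvegKa ..`, door region `z + pvccSq p σ`, mouth `closedBall (z + Y) rM` -/
theorem pvwu_end {z Y u p : ℂ} (hu : u ^ 4 = 1) {e δ w rM a σ μ ρ₀ : ℝ} (H : PvwuNum μ ρ₀ rM (e + 2 * δ) (pvegS Y u p) a σ w) (hDB : Disjoint (pvccSq p σ) (closedBall Y rM))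
    {Wn Bg Y₀ Y₂ : Set ℂ} (hBg : Wn ⊆ Bg) (h0 : PvtrMesh ρ₀ Bg Y₀)
    (hkept : ∀ x ∈ Wn, x ∉ pvieSh z (pvegKa Y u p e δ w rM a (pvccSq p σ)) → x ∉ pvieSh z (pvccSq p σ) → (x ∈ Y₂ ↔ x ∈ Y₀))
    (hmK : PvtrMesh (μ / 3) (pvieSh z (pvegKa Y u p e δ w rM a (pvccSq p σ))) Y₂) (hmD : PvtrMesh (μ / 3) (pvieSh z (pvccSq p σ)) Y₂) : PvtrMesh μ Wn Y₂ := by
  obtain ⟨sp, hsp⟩ : ∃ sp, sp = pvegS Y u p := ⟨_, rfl⟩
  obtain ⟨lp, hlp⟩ : ∃ lp, lp = pvegL Y u p := ⟨_, rfl⟩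
  rw [← hsp] at H
  have eS : pvmjS (z + Y) u (z + p) = sp := by rw [hsp, ← pvwu_S_sh]; congr 1; ring
  have eL : pvmjL (z + Y) u (z + p) = lp := by rw [hlp, ← pvwu_L_sh]; congr 1; ring
  have hμ := H.μ0
  have gx : [e + 2 * δ, sp - σ, sp - a, sp + σ].Pairwise fun x y => x + 4 * μ / 5 ≤ y := by
    simp only [List.pairwise_cons, List.mem_cons, List.not_mem_nil, or_false, forall_eq_or_imp, forall_eq, IsEmpty.forall_iff, implies_true, List.Pairwise.nil, and_true]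
    have := H.back; have := H.a0; have := H.aσ
    refine ⟨⟨?_, ?_, ?_⟩, ⟨?_, ?_⟩, ?_⟩ <;> linarith
  have gy : [lp - w, lp - σ, lp + σ, lp + w].Pairwise fun x y => x + 4 * μ / 5 ≤ y := by
    simp only [List.pairwise_cons, List.mem_cons, List.not_mem_nil, or_false, forall_eq_or_imp, forall_eq, IsEmpty.forall_iff, implies_true, List.Pairwise.nil, and_true]
    have := H.σw; have := H.a0; have := H.aσ
    refine ⟨⟨?_, ?_, ?_⟩, ⟨?_, ?_⟩, ?_⟩ <;> linarith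
  -- the funnel
  have hRa : PvmjGrid (z + Y) u {x | x ∈ [e + 2 * δ, sp - σ, sp - a, sp + σ]} {x | x ∈ [lp - w, lp - σ, lp + σ, lp + w]} (pvieSh z (pvegRa Y u p e δ w a)) := by
    have e1 : pvieSh z (pvegRa Y u p e δ w a) = {v | e + 2 * δ ≤ pvmjS (z + Y) u v} ∩ ({v | pvmjS (z + Y) u v ≤ sp - a} ∩ {v | |pvmjL (z + Y) u v - lp| ≤ w}) := by
      ext v
      rw [pvwu_mem_sh]
      simp only [pvegRa, mem_ofPred_eq, mem_inter_iff, pvwu_S_sh, pvwu_L_sh, ← hsp, ← hlp]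
    rw [e1]
    exact (pvmj_grid_S_ge _ _ _ (by simp)).inter ((pvmj_grid_S_le _ _ _ (by simp)).inter (pvmj_grid_L_abs_le _ _ _ (by simp) (by simp)))
  have hD : PvmjGrid (z + Y) u {x | x ∈ [e + 2 * δ, sp - σ, sp - a, sp + σ]} {x | x ∈ [lp - w, lp - σ, lp + σ, lp + w]} (pvieSh z (pvccSq p σ)) := by
    rw [pvwu_sh_sq]
    exact pvwu_grid_sqo hu _ _ (by rw [eS]; simp) (by rw [eS]; simp) (by rw [eL]; simp) (by rw [eL]; simp)
  refine pvmj_seam_KD (pvwu_norm_unit hu) hμ H.ρ20 (pvwu_gaps gx) (pvwu_gaps gy) (Yc := z + Y) H.ρM hRa hD ?_ ?_ hBg h0 hkept hmK hmD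
  · ext v
    simp only [pvwu_mem_sh, pvegKa, Set.mem_sdiff, ← pvwu_sh_ball]
  · rw [← pvwu_sh_ball]
    refine disjoint_left.2 fun v h1 h2 => ?_
    exact disjoint_left.1 hDB (pvwu_mem_sh.1 h1) (pvwu_mem_sh.1 h2)

/-- the numbers of record (units of 73 / 124: `e = R/10`, `rM = 5R/16`, `w = R/5`, `κ = 3R/8`, plane of W-7 `a ≤ δ/160`), any door square `δ/50 ≤ σ ≤ δ/4`, any mesh `100 μ ≤ δ`, base mesh `μ/20` -/
theorem pvwu_num {Y u p : ℂ} {R δ rI rk a σ μ : ℝ} (H : PvegDoor Y u p (R / 10) δ (R / 5) (5 * R / 16) (3 * R / 8) rI rk) (hR : 64 * δ ≤ R) (hμ0 : 0 < μ) (hμ : 100 * μ ≤ δ)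
    (ha0 : 0 ≤ a) (ha : a ≤ δ / 160) (hσ : δ / 50 ≤ σ) (hσ' : σ ≤ δ / 4) : PvwuNum μ (μ / 20) (5 * R / 16) (R / 10 + 2 * δ) (pvegS Y u p) a σ (R / 5) where
  μ0 := hμ0
  ρ20 := by linarith
  ρM := by linarith
  back := by have := H.s_lo; linarith
  a0 := ha0
  aσ := by linarith
  σw := by linarith

/-! ## 3. on a final configuration of 35 -/

/-- the room of the certificate at the base: `Bx` = a bounded set which contains `E.Wz Z` for all `Z` (the own-level box with its collar) -/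
def pvwuBg (E : PvjeEnd) (Bx : Set ℂ) : Set ℂ := Bx ∪ E.M ∪ E.K ∪ E.D

theorem pvwu_eqns_cite : True := by
  have := @pvwuBg.eq_1
  trivial

theorem pvwu_Wn_sub {E : PvjeEnd} {Bx : Set ℂ} (h : ∀ Z, E.Wz Z ⊆ Bx) (Z : Set (ℤ × ℤ)) : E.Wn Z ⊆ pvwuBg E Bx :=
  union_subset_union_left _ (union_subset_union_left _ (union_subset_union_left _ (h Z)))

theorem pvwu_Bg_bdd {E : PvjeEnd} {ε : ℝ} (hE : E.Wf ε) {Bx : Set ℂ} (hB : Bornology.IsBounded Bx) : Bornology.IsBounded (pvwuBg E Bx) :=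
  ((hB.union hE.bM).union hE.bK).union hE.bD

/-- the clause `kept` of `PvrgDet`, from `PvjeFin.sites` -/
theorem pvwu_fin_kept {E : PvjeEnd} {T : PvjeTest} {η₀ η : Conf PvPt} (hF : PvjeFin E T η₀ η) :
    ∀ x ∈ E.Wn (E.Hu η₀), x ∉ E.K → x ∉ E.D → (x ∈ cfSites η ↔ x ∈ cfSites η₀) := by
  intro x hx hK hD
  have hKp : x ∈ E.Kp (E.Hu η₀) := by
    rcases hx with (hx | hx) | hx
    · exact ⟨hx, fun h => h.elim hK hD⟩
    · exact absurd hx hK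
    · exact absurd hx hD
  exact ⟨fun h => (hF.sites.subset ⟨h, hKp⟩).1, fun h => (hF.sites.symm.subset ⟨h, hKp⟩).1⟩

/-- the tile: the copy pattern carries the mesh of the tile (colour blind) -/
theorem pvwu_fin_tile {E : PvjeEnd} {T : PvjeTest} {η₀ η : Conf PvPt} (hF : PvjeFin E T η₀ η) {ρ : ℝ} (h : ∀ ξ ∈ T.𝒦, PvtrMesh ρ E.K (cfSites ξ)) : PvtrMesh ρ E.K (cfSites η) := by
  obtain ⟨τ, h1, -⟩ := hF.copy
  have := h _ h1
  rwa [cfOf_sites] at this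

/-- **(b6) ON A FINAL CONFIGURATION**: the end `E` has the regions of 124 -/
theorem pvwu_fin {E : PvjeEnd} {T : PvjeTest} {η₀ η : Conf PvPt} (hF : PvjeFin E T η₀ η) {z Y u p : ℂ} (hu : u ^ 4 = 1) {e δ w rM a σ μ ρ₀ : ℝ}
    (H : PvwuNum μ ρ₀ rM (e + 2 * δ) (pvegS Y u p) a σ w) (hDB : Disjoint (pvccSq p σ) (closedBall Y rM))
    (hK : E.K = pvieSh z (pvegKa Y u p e δ w rM a (pvccSq p σ))) (hD : E.D = pvieSh z (pvccSq p σ)) {Bx : Set ℂ} (hWz : ∀ Z, E.Wz Z ⊆ Bx)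
    (h0 : η₀ ∈ pvrgMesh ρ₀ (pvwuBg E Bx)) (hmK : ∀ ξ ∈ T.𝒦, PvtrMesh (μ / 3) E.K (cfSites ξ)) (hmD : PvtrMesh (μ / 3) E.D (cfSites η)) :
    PvtrMesh μ (E.Wn (E.Hu η₀)) (cfSites η) := by
  have k1 := pvwu_fin_kept hF
  have k2 := pvwu_fin_tile hF hmK
  rw [hK] at k1 k2
  rw [hD] at k1 hmD
  exact pvwu_end hu H hDB (pvwu_Wn_sub hWz _) h0 k1 k2 hmD

/-! ## 4. at an engine with the regions of record -/

section eng

variable {τ : Type} {c : ℝ} {𝔓 : PvxPar τ c} {𝔈 : PvieEng τ} {m : ℕ} {ε : ℝ} {t : τ} {σ : ℝ} {O₀ : ℕ → Set ℂ}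

theorem pvwu_sim_sq (p : ℂ) {d : ℂ} (hd : d ^ 4 = 1) (σ : ℝ) : pvthSim p d '' pvccSq 0 σ = pvccSq p σ := by
  have := pvccPl_sq p hd 0 σ
  rw [mul_zero, add_zero] at this
  exact this

/-- the door region of the first link -/
theorem pvwu_door_o (hd : (𝔓.Γ m).dout t ^ 4 = 1) (hO : (𝔈.kit m ε).O₀ = pvccSq 0 σ) (z : ℂ) :
    pvieDoor 𝔈 m ε (pvieZo 𝔓 m z t) ((𝔓.Γ m).dout t) = pvieSh z (pvccSq ((𝔓.Γ m).pout t) σ) := by
  unfold pvieDoor pvieZo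
  rw [hO, pvwu_sim_sq _ hd, pvwu_sh_sq]

/-- the door region of the last link -/
theorem pvwu_door_i (hd : (𝔓.Γ m).din t ^ 4 = 1) (hO : (𝔈.kit m ε).O₀ = pvccSq 0 σ) (z : ℂ) :
    pvieDoor 𝔈 m ε (pvieZi 𝔓 m z t) ((𝔓.Γ m).din t) = pvieSh z (pvccSq ((𝔓.Γ m).pin t) σ) := by
  unfold pvieDoor pvieZi
  rw [hO, pvwu_sim_sq _ hd, pvwu_sh_sq]

/-- the room of the certificate of the first link (free of `Z`) -/
noncomputable def pvwuBo (𝔓 : PvxPar τ c) (𝔈 : PvieEng τ) (m : ℕ) (ε : ℝ) (z : ℂ) (t : τ) : Set ℂ :=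
  pvilBx 𝔓 m z t ∪ pvieSh z (𝔈.oM m t) ∪ pvieSh z (𝔈.oK m t) ∪ pvieDoor 𝔈 m ε (pvieZo 𝔓 m z t) ((𝔓.Γ m).dout t)
/-- the room of the certificate of the last link -/
noncomputable def pvwuBi (𝔓 : PvxPar τ c) (𝔈 : PvieEng τ) (m : ℕ) (ε : ℝ) (z : ℂ) (t : τ) : Set ℂ :=
  pvilBx 𝔓 m z t ∪ pvieSh z (𝔈.iM m t) ∪ pvieSh z (𝔈.iK m t) ∪ pvieDoor 𝔈 m ε (pvieZi 𝔓 m z t) ((𝔓.Γ m).din t)

theorem pvwu_eqns_cite2 : True := by
  have := @pvwuBo.eq_1; have := @pvwuBi.eq_1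
  trivial

theorem pvwu_Wno_sub (z : ℂ) (Z : Set (ℤ × ℤ)) : pvilWno 𝔓 𝔈 m ε z t Z ⊆ pvwuBo 𝔓 𝔈 m ε z t :=
  union_subset_union_left _ (union_subset_union_left _ (union_subset_union_left _ inter_subset_right))

theorem pvwu_Wni_sub (z : ℂ) (Z : Set (ℤ × ℤ)) : pvilWni 𝔓 𝔈 m ε z t Z ⊆ pvwuBi 𝔓 𝔈 m ε z t :=
  union_subset_union_left _ (union_subset_union_left _ (union_subset_union_left _ inter_subset_right))

/-- **(b6), FIRST LINK: THE THIRD CONJUNCT OF `pvilMo`, VERBATIM**, in the hypotheses of `PvrgDet` of 256 (`K = z + oK`, `D` = the door region).      `hK hO hO'` hold at the engine of record (`rfl`, `pvnr_kit_O` + the square of 258) -/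
theorem pvwu_o (hL : PvegLev 𝔓 m) (hT : pviwTyOk 𝔓 t) (hμ0 : 0 < pvilMu 𝔓 m) (hμ : 100 * pvilMu 𝔓 m ≤ pvlmDel c m) (hσ : pvlmDel c m / 50 ≤ σ) (hσ' : σ ≤ pvlmDel c m / 4)
    (hK : 𝔈.oK m t = pvegOKa 𝔓 O₀ m t) (hO' : O₀ m = pvccSq 0 σ) (hO : (𝔈.kit m ε).O₀ = pvccSq 0 σ) {z : ℂ} {Z : Set (ℤ × ℤ)} {η₀ η₂ : Conf PvPt}
    (h0 : η₀ ∈ pvrgMesh (pvilMu 𝔓 m / 20) (pvwuBo 𝔓 𝔈 m ε z t))
    (hkept : ∀ x ∈ pvilWno 𝔓 𝔈 m ε z t Z, x ∉ pvieSh z (𝔈.oK m t) → x ∉ pvieDoor 𝔈 m ε (pvieZo 𝔓 m z t) ((𝔓.Γ m).dout t) → (x ∈ cfSites η₂ ↔ x ∈ cfSites η₀))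
    (hmK : PvtrMesh (pvilMu 𝔓 m / 3) (pvieSh z (𝔈.oK m t)) (cfSites η₂)) (hmD : PvtrMesh (pvilMu 𝔓 m / 3) (pvieDoor 𝔈 m ε (pvieZo 𝔓 m z t) ((𝔓.Γ m).dout t)) (cfSites η₂)) :
    η₂ ∈ pvilMs 𝔓 m (pvilWno 𝔓 𝔈 m ε z t Z) := by
  have hD := pveg_door_o hL hT
  have hd := hD.u4
  have eK : 𝔈.oK m t = pvegKa (pvegYp 𝔓 m t) ((𝔓.Γ m).dout t) ((𝔓.Γ m).pout t) (pvegR 𝔓 m / 10) (pvlmDel c m) (pvegR 𝔓 m / 5) (5 * pvegR 𝔓 m / 16) (pvegA c m) (pvccSq ((𝔓.Γ m).pout t) σ) := by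
    rw [hK, pvegOKa, hO', pvwu_sim_sq _ hd]
  rw [pvwu_door_o hd hO, eK] at hkept
  rw [eK] at hmK
  rw [pvwu_door_o hd hO] at hmD
  exact pvwu_end hd (pvwu_num hD hL.fine hμ0 hμ (pveg_A_pos c m).le le_rfl hσ hσ') ((pveg_disj_MD hD).symm.mono_left (pvcc_sq_mono _ hσ')) (pvwu_Wno_sub z Z) h0 hkept hmK hmD

/-- **(b6), LAST LINK: THE THIRD CONJUNCT OF `pvilMi`, VERBATIM** -/
theorem pvwu_i (hL : PvegLev 𝔓 m) (hT : pviwTyOk 𝔓 t) (hμ0 : 0 < pvilMu 𝔓 m) (hμ : 100 * pvilMu 𝔓 m ≤ pvlmDel c m) (hσ : pvlmDel c m / 50 ≤ σ) (hσ' : σ ≤ pvlmDel c m / 4)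
    (hK : 𝔈.iK m t = pvegIKa 𝔓 O₀ m t) (hO' : O₀ m = pvccSq 0 σ) (hO : (𝔈.kit m ε).O₀ = pvccSq 0 σ) {z : ℂ} {Z : Set (ℤ × ℤ)} {η₀ η₂ : Conf PvPt}
    (h0 : η₀ ∈ pvrgMesh (pvilMu 𝔓 m / 20) (pvwuBi 𝔓 𝔈 m ε z t))
    (hkept : ∀ x ∈ pvilWni 𝔓 𝔈 m ε z t Z, x ∉ pvieSh z (𝔈.iK m t) → x ∉ pvieDoor 𝔈 m ε (pvieZi 𝔓 m z t) ((𝔓.Γ m).din t) → (x ∈ cfSites η₂ ↔ x ∈ cfSites η₀))
    (hmK : PvtrMesh (pvilMu 𝔓 m / 3) (pvieSh z (𝔈.iK m t)) (cfSites η₂)) (hmD : PvtrMesh (pvilMu 𝔓 m / 3) (pvieDoor 𝔈 m ε (pvieZi 𝔓 m z t) ((𝔓.Γ m).din t)) (cfSites η₂)) :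
    η₂ ∈ pvilMs 𝔓 m (pvilWni 𝔓 𝔈 m ε z t Z) := by
  have hD := pveg_door_i hL hT
  have hd : (𝔓.Γ m).din t ^ 4 = 1 := by
    have := hD.u4
    rwa [show (-(𝔓.Γ m).din t) ^ 4 = (𝔓.Γ m).din t ^ 4 by ring] at this
  have eK : 𝔈.iK m t = pvegKa (pvegYm 𝔓 m t) (-(𝔓.Γ m).din t) ((𝔓.Γ m).pin t) (pvegR 𝔓 m / 10) (pvlmDel c m) (pvegR 𝔓 m / 5) (5 * pvegR 𝔓 m / 16) (pvegA c m) (pvccSq ((𝔓.Γ m).pin t) σ) := by
    rw [hK, pvegIKa, hO', pvwu_sim_sq _ hd]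
  rw [pvwu_door_i hd hO, eK] at hkept
  rw [eK] at hmK
  rw [pvwu_door_i hd hO] at hmD
  exact pvwu_end hD.u4 (pvwu_num hD hL.fine hμ0 hμ (pveg_A_pos c m).le le_rfl hσ hσ') ((pveg_disj_MD hD).symm.mono_left (pvcc_sq_mono _ hσ')) (pvwu_Wni_sub z Z) h0 hkept hmK hmD

end eng

end Claimed.Agent.R289
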