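import Claimed.Agent.R289.Exit.MeshW
import Claimed.Agent.R289.Tr.DoorSoft

/-!
# Row 289 (S0537), THE WALL, ROAD E, E10 step (b6), file Exit/MeshWE : THE LEAF [mesh] OF `DET.ev` AT THE ENDS `pvjeO`, `pvjeI` OF 35, ANY TESTS      (helper206; prefix `pvwu_`, `pvwu`, `Pvwu`)

The engine enters through FIVE EQUATIONS (`PvwuEq`: `rfl` lemmas `pvnr_*` at the engine of record + the square of the kit), the tests through TWO INCLUSIONS (pattern `⊆` mesh of mouth `∪` tile, side event `= pvdpPl z' (d δ) b Hs` with `Hs ⊆` mesh `μ₁` of the unit door square), so no swap of the record touches this file.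
* sec. 1  `pvwu_norm_N`, the rooms `pvwuBo pvwuBi` lie in THE BALL OF 35 `closedBall z (2 pviwRad + 4 h)`: `pvwu_Bo_ball`, `pvwu_Bi_ball`
* sec. 2  the door: `pvwu_unit_sq` (`δ •` unit square), **`pvwu_door_mesh`** (placed side event with the fine mesh of R24 `⟹` mesh `pvilMu / 3` of the door region)
* sec. 3  **`pvwu_ev_o`**, **`pvwu_ev_i`** : `PvjeFin (pvjeO ..) T η₀ η` + base certificate on the ball `⟹ η ∈ pvilMs 𝔓 m (pvilWno .. (pvilZo 𝔓 m z t η₀))`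
-/

set_option autoImplicit false

namespace Claimed.Agent.R289

open Set Metric MeasureTheory Claims.C0465

/-! ## 1. the rooms lie in the ball of 35 -/

theorem pvwu_norm_N (v : ℂ) : ‖v‖ ≤ 2 * pvccN v := by
  have h1 := Complex.norm_le_abs_re_add_abs_im v
  have h2 := le_max_left |v.re| |v.im|
  have h3 := le_max_right |v.re| |v.im|
  unfold pvccN
  linarith

/-- the regions of the two thin ends of an engine are those of record, door square of half side `σ` -/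
structure PvwuEq {τ : Type} {c : ℝ} (𝔓 : PvxPar τ c) (𝔈 : PvieEng τ) (O₀ : ℕ → Set ℂ) (m : ℕ) (σ : ℝ) : Prop where
  oM : ∀ t, 𝔈.oM m t = pvegOM 𝔓 m t
  iM : ∀ t, 𝔈.iM m t = pvegIM 𝔓 m t
  oK : ∀ t, 𝔈.oK m t = pvegOKa 𝔓 O₀ m t
  iK : ∀ t, 𝔈.iK m t = pvegIKa 𝔓 O₀ m t
  O' : O₀ m = pvccSq 0 σ
  O : ∀ ε, (𝔈.kit m ε).O₀ = pvccSq 0 σ

section ball

variable {τ : Type} {c : ℝ} {𝔓 : PvxPar τ c} {𝔈 : PvieEng τ} {O₀ : ℕ → Set ℂ} {m : ℕ} {ε σ : ℝ} {t : τ}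

/-- one end: box, mouth, funnel, door square -/
theorem pvwu_end_ball {Y u p : ℂ} {R δ rk h a : ℝ} (H : PvegDoor Y u p (R / 10) δ (R / 5) (5 * R / 16) (3 * R / 8) (R / 2) rk) (ha : 0 ≤ a) (hY : pvccN Y ≤ rk + R / 10) (hR : R ≤ h) (hδ : δ ≤ h) (hσ : σ ≤ δ / 4)
    (z : ℂ) (O : Set ℂ) : pvwSq z (rk + δ) ∪ pvieSh z (closedBall Y (5 * R / 16)) ∪ pvieSh z (pvegKa Y u p (R / 10) δ (R / 5) (5 * R / 16) a O) ∪ pvieSh z (pvccSq p σ) ⊆ closedBall z (2 * rk + 4 * h) := by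
  have hh : 0 < h := lt_of_lt_of_le H.δ0 hδ
  have key : ∀ v, v - z ∈ closedBall Y (R / 2) → v ∈ closedBall z (2 * rk + 4 * h) := by
    intro v hv
    rw [mem_closedBall_iff_norm] at hv ⊢
    have h1 := pvwu_norm_N Y
    calc ‖v - z‖ = ‖(v - z - Y) + Y‖ := by ring_nf
      _ ≤ ‖v - z - Y‖ + ‖Y‖ := norm_add_le _ _
      _ ≤ 2 * rk + 4 * h := by linarith
  rintro v (((hv | hv) | hv) | hv)
  · rw [mem_closedBall_iff_norm]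
    have h1 := pvwu_norm_N (v - z)
    have h2 : pvccN (v - z) ≤ rk + δ := max_le hv.1 hv.2
    linarith
  · exact key v (pveg_M_ball H (pvwu_mem_sh.1 hv))
  · exact key v (pveg_Ra_ball H ha (pveg_Ka_sub_Ra _ _ _ _ _ _ _ _ _ (pvwu_mem_sh.1 hv)))
  · exact key v (pveg_D_ball H (pvcc_sq_mono _ hσ (pvwu_mem_sh.1 hv)))

theorem pvwu_N_tip {y : ℂ} {A e h : ℝ} (hh : 0 ≤ h) (hy : |pvccN y - A| ≤ e) : pvccN ((h : ℂ) * y) ≤ A * h + e * h := by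
  have e1 : pvccN ((h : ℂ) * y) = h * pvccN y := by
    unfold pvccN
    rw [Complex.re_ofReal_mul, Complex.im_ofReal_mul, abs_mul, abs_mul, abs_of_nonneg hh, mul_max_of_nonneg _ _ hh]
  rw [e1]
  have := (abs_le.1 hy).2
  nlinarith

/-- the room of the certificate of the first link lies in the ball of 35 -/
theorem pvwu_Bo_ball (hE : PvwuEq 𝔓 𝔈 O₀ m σ) (hL : PvegLev 𝔓 m) (hT : pviwTyOk 𝔓 t) (hρ : 𝔓.num.rho ≤ 1) (hσ : σ ≤ pvlmDel c m / 4) (z : ℂ) :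
    pvwuBo 𝔓 𝔈 m ε z t ⊆ closedBall z (2 * pviwRad 𝔓 m t + 4 * pvlmH m) := by
  have hD := pveg_door_o hL hT
  have hh := pvlm_H_pos m
  have hR : pvegR 𝔓 m ≤ pvlmH m := by unfold pvegR; nlinarith
  have hδ : pvlmDel c m ≤ pvlmH m := by have := hL.fine; have := pvlm_Del_pos c m; unfold pvegR at hR; linarith
  have hY : pvccN (pvegYp 𝔓 m t) ≤ pviwRad 𝔓 m t + pvegR 𝔓 m / 10 := by
    have := pvwu_N_tip hh.le hT.1
    unfold pvegYp pviwRad pvwRad pvegR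
    linarith
  have := pvwu_end_ball (σ := σ) hD (pveg_A_pos c m).le hY hR hδ hσ z (pvthSim ((𝔓.Γ m).pout t) ((𝔓.Γ m).dout t) '' O₀ m)
  unfold pvwuBo
  rw [hE.oM, hE.oK, pvwu_door_o hD.u4 (hE.O ε)]
  exact this

/-- the room of the certificate of the last link lies in the ball of 35 -/
theorem pvwu_Bi_ball (hE : PvwuEq 𝔓 𝔈 O₀ m σ) (hL : PvegLev 𝔓 m) (hT : pviwTyOk 𝔓 t) (hρ : 𝔓.num.rho ≤ 1) (hσ : σ ≤ pvlmDel c m / 4) (z : ℂ) :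
    pvwuBi 𝔓 𝔈 m ε z t ⊆ closedBall z (2 * pviwRad 𝔓 m t + 4 * pvlmH m) := by
  have hD := pveg_door_i hL hT
  have hd : (𝔓.Γ m).din t ^ 4 = 1 := by
    have := hD.u4
    rwa [show (-(𝔓.Γ m).din t) ^ 4 = (𝔓.Γ m).din t ^ 4 by ring] at this
  have hh := pvlm_H_pos m
  have hR : pvegR 𝔓 m ≤ pvlmH m := by unfold pvegR; nlinarith
  have hδ : pvlmDel c m ≤ pvlmH m := by have := hL.fine; have := pvlm_Del_pos c m; unfold pvegR at hR; linarith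
  have hY : pvccN (pvegYm 𝔓 m t) ≤ pviwRad 𝔓 m t + pvegR 𝔓 m / 10 := by
    have := pvwu_N_tip hh.le hT.2.1
    unfold pvegYm pviwRad pvwRad pvegR
    linarith
  have := pvwu_end_ball (σ := σ) hD (pveg_A_pos c m).le hY hR hδ hσ z (pvthSim ((𝔓.Γ m).pin t) ((𝔓.Γ m).din t) '' O₀ m)
  unfold pvwuBi
  rw [hE.iM, hE.iK, pvwu_door_i hd (hE.O ε)]
  exact this

end ball

/-! ## 2. the door -/

/-- a dilated square -/
theorem pvwu_unit_sq {δ : ℝ} (hδ : 0 < δ) (s : ℝ) : pvthSim 0 (δ : ℂ) '' pvccSq 0 s = pvccSq 0 (δ * s) := by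
  ext v
  simp only [pvccSq, mem_image, mem_ofPred_eq, pvthSim, sub_zero, zero_add]
  have e1 : ∀ w : ℂ, pvccN ((δ : ℂ) * w) = δ * pvccN w := fun w => by
    unfold pvccN
    rw [Complex.re_ofReal_mul, Complex.im_ofReal_mul, abs_mul, abs_mul, abs_of_pos hδ, mul_max_of_nonneg _ _ hδ.le]
  constructor
  · rintro ⟨w, hw, rfl⟩
    rw [e1]
    exact mul_lt_mul_of_pos_left hw hδ
  · intro hv
    have hc : (δ : ℂ) ≠ 0 := by exact_mod_cast hδ.ne'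
    refine ⟨v / δ, ?_, mul_div_cancel₀ v hc⟩
    have : pvccN v = δ * pvccN (v / δ) := by rw [← e1, mul_div_cancel₀ v hc]
    rw [this] at hv
    exact lt_of_mul_lt_mul_left hv hδ.le

section door

variable {τ : Type} {c : ℝ} {𝔓 : PvxPar τ c} {𝔈 : PvieEng τ} {m : ℕ} {ε : ℝ}

/-- **THE DOOR PAYS ITS MESH** (R23 (1'), R24 of 234): the side event of record is contained in the mesh `μ₁` of the unit door region `O₁`, the kit is the unit kit dilated by `δ_m`, `μ₁ δ_m ≤ pvilMu / 3` -/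
theorem pvwu_door_mesh {O₁ : Set ℂ} {μ₁ : ℝ} {Hs : Set (Conf PvPt)} (hH : ∀ ξ ∈ Hs, PvtrMesh μ₁ O₁ (cfSites ξ)) (hμ : μ₁ * pvlmDel c m ≤ pvilMu 𝔓 m / 3)
    (hO : (𝔈.kit m ε).O₀ = pvthSim 0 (pvlmDel c m) '' O₁) {z d : ℂ} (hd : ‖d‖ = 1) (b : Bool) {η : Conf PvPt} (h : η ∈ pvdpPl z (d * pvlmDel c m) b Hs) :
    PvtrMesh (pvilMu 𝔓 m / 3) (pvieDoor 𝔈 m ε z d) (cfSites η) := by
  have hδ := pvlm_Del_pos c m
  have ha : d * (pvlmDel c m : ℂ) ≠ 0 := by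
    refine mul_ne_zero (fun h0 => ?_) (by exact_mod_cast hδ.ne')
    rw [h0, norm_zero] at hd
    exact zero_ne_one hd
  have h1 := pvyo_mesh_T z ha b (hH _ h)
  have e1 : ‖d * (pvlmDel c m : ℂ)‖ = pvlmDel c m := by rw [norm_mul, hd, one_mul, Complex.norm_real, Real.norm_of_nonneg hδ.le]
  have e2 : pvkdAt z (d * (pvlmDel c m : ℂ)) O₁ = pvieDoor 𝔈 m ε z d := by
    unfold pvkdAt pvieDoor
    rw [hO, image_image]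
    refine image_congr fun w _ => ?_
    simp only [pvthSim]
    ring
  rw [e1, e2] at h1
  exact pvmj_mesh_mono (by linarith) h1

end door

/-! ## 3. the leaf [mesh] of `DET.ev` -/

section ev

variable {τ : Type} {c : ℝ} {𝔓 : PvxPar τ c} {𝔈 : PvieEng τ} {O₀ : ℕ → Set ℂ} {m : ℕ} {ε σ : ℝ} {t : τ} {w : ∀ η : Conf PvPt, (delbPl (pvieY η)).Dart → ℂ}

/-- **[mesh] OF `DET.ev`, FIRST LINK** -/
theorem pvwu_ev_o (hE : PvwuEq 𝔓 𝔈 O₀ m σ) (hL : PvegLev 𝔓 m) (hT : pviwTyOk 𝔓 t) (hρ : 𝔓.num.rho ≤ 1) (hμ0 : 0 < pvilMu 𝔓 m) (hμ : 100 * pvilMu 𝔓 m ≤ pvlmDel c m)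
    (hσ : pvlmDel c m / 50 ≤ σ) (hσ' : σ ≤ pvlmDel c m / 4) {z : ℂ} {T : PvjeTest} {η₀ η : Conf PvPt} {ρ₀ ρK : ℝ} (hρ₀ : ρ₀ ≤ pvilMu 𝔓 m / 20) (hρK : ρK ≤ pvilMu 𝔓 m / 3)
    (h0 : η₀ ∈ pvrgMesh ρ₀ (closedBall z (2 * pviwRad 𝔓 m t + 4 * pvlmH m))) (hF : PvjeFin (pvjeO 𝔓 𝔈 w m ε z t) T η₀ η)
    (hK : ∀ ξ ∈ T.𝒦, PvtrMesh ρK (pvieSh z (𝔈.oM m t) ∪ pvieSh z (𝔈.oK m t)) (cfSites ξ))
    (hD : PvtrMesh (pvilMu 𝔓 m / 3) (pvieDoor 𝔈 m ε (pvieZo 𝔓 m z t) ((𝔓.Γ m).dout t)) (cfSites η)) :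
    η ∈ pvilMs 𝔓 m (pvilWno 𝔓 𝔈 m ε z t (pvilZo 𝔓 m z t η₀)) :=
  pvwu_o hL hT hμ0 hμ hσ hσ' (hE.oK t) hE.O' (hE.O ε) (pvmj_mesh_mono hρ₀ (pvmj_mesh_sub (pvwu_Bo_ball hE hL hT hρ hσ' z) h0)) (pvwu_fin_kept hF)
    (pvwu_fin_tile hF fun ξ hξ => pvmj_mesh_mono hρK (pvmj_mesh_sub subset_union_right (hK ξ hξ))) hD

/-- **[mesh] OF `DET.ev`, LAST LINK** -/
theorem pvwu_ev_i (hE : PvwuEq 𝔓 𝔈 O₀ m σ) (hL : PvegLev 𝔓 m) (hT : pviwTyOk 𝔓 t) (hρ : 𝔓.num.rho ≤ 1) (hμ0 : 0 < pvilMu 𝔓 m) (hμ : 100 * pvilMu 𝔓 m ≤ pvlmDel c m)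
    (hσ : pvlmDel c m / 50 ≤ σ) (hσ' : σ ≤ pvlmDel c m / 4) {z : ℂ} {T : PvjeTest} {η₀ η : Conf PvPt} {ρ₀ ρK : ℝ} (hρ₀ : ρ₀ ≤ pvilMu 𝔓 m / 20) (hρK : ρK ≤ pvilMu 𝔓 m / 3)
    (h0 : η₀ ∈ pvrgMesh ρ₀ (closedBall z (2 * pviwRad 𝔓 m t + 4 * pvlmH m))) (hF : PvjeFin (pvjeI 𝔓 𝔈 w m ε z t) T η₀ η)
    (hK : ∀ ξ ∈ T.𝒦, PvtrMesh ρK (pvieSh z (𝔈.iM m t) ∪ pvieSh z (𝔈.iK m t)) (cfSites ξ))
    (hD : PvtrMesh (pvilMu 𝔓 m / 3) (pvieDoor 𝔈 m ε (pvieZi 𝔓 m z t) ((𝔓.Γ m).din t)) (cfSites η)) :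
    η ∈ pvilMs 𝔓 m (pvilWni 𝔓 𝔈 m ε z t (pvilZi 𝔓 m z t η₀)) :=
  pvwu_i hL hT hμ0 hμ hσ hσ' (hE.iK t) hE.O' (hE.O ε) (pvmj_mesh_mono hρ₀ (pvmj_mesh_sub (pvwu_Bi_ball hE hL hT hρ hσ' z) h0)) (pvwu_fin_kept hF)
    (pvwu_fin_tile hF fun ξ hξ => pvmj_mesh_mono hρK (pvmj_mesh_sub subset_union_right (hK ξ hξ))) hD

end ev

end Claimed.Agent.R289
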