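-- KEEP
import Claimed.Agent.R289.Tr.LinkDet
import Claimed.Agent.R289.Exit.FrcIDefs
import Claimed.Agent.R289.Exit.FrcWf
import Claimed.Agent.R289.Exit.FrcOq
import Claimed.Agent.R289.Tr.InstLB
import Claimed.Agent.R289.Tr.PatMs
import Claimed.Agent.R289.Tr.DoorSoft
import Claimed.Agent.R289.Exit.FrcOG
import Claimed.Agent.R289.Exit.MeshW
import Claimed.Agent.R289.Exit.MeshWE
import Claimed.Agent.R289.Exit.FrcCarR
import Claimed.Agent.R289.Tr.FrcPat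
import Claimed.Agent.R289.Exit.FrcRooms

/-!
# Row 289 (S0537), THE WALL, ROAD E, file Exit/FrcIA : E10 AT THE MODEL, THE LAST LINK `door plug → t`: THE CLOSED PART (0 sorry; A LEAF FILE MAY IMPORT THIS FILE)      (helper116, integrator of `i`; prefix `pvii`)

* sec. 1  regions, pattern, cost: `pvii_Mu_pos pvii_Rho_pos pvii_Ms_eq pvii_mO pvii_bO pvii_O0_sub pvii_win pvii_fit pvii_mK pvii_rK`, **`pvii_cost`** (= `hG` of `pvje_cut`)
* sec. 2  the door half of `[Ok]`: `pvii_din4 pvii_din1 pvii_mH pvii_thr pvii_loc`, `pvii_rH_of` (from the reader of the side event in the open window `pvkgEp`)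
* sec. 2  (after (B) of R24) **`pvii_rH`** (`pvna_Hf_reads`), **`pvii_up_gen`, `pvii_up`** = the field `up` (248 `pvjp_half_up pvjp_half_i`; generic in the truncation), **`pvii_ok`** = `[Ok]` WHOLE
* sec. 2bis  the certificate `pviiMc` contains those of 71 and 206: `pvii_box_sub pvii_kit_sq pvii_ball_sub pvii_Bi_sub pvii_Mc_B`;   **`pvii_carry`** (b1): half state, frozen positions, hull of a final configuration (ANY tests `T`);   **`pvii_mesh`** (b6): the mesh of the window at a final configuration (206)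
-/

set_option autoImplicit false

namespace Claimed.Agent.R289

open Set MeasureTheory Filter Topology Claims.C0465
open scoped ENNReal

/-! ## 1. regions, pattern, cost (closed) -/

section closed

variable {N : PvxNums} (hN : N.Ok) {c : ℝ} (nb : PvnaNb N)

theorem pvii_Mu_pos (m : ℕ) : 0 < pvilMu (pvxParOf N hN c) m := by
  unfold pvilMu
  have h1 := pvlm_Del_pos c m
  have h2 := pvlm_H_pos m
  have h3 : 0 < (pvxParOf N hN c).num.rho3 := hN.msk0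
  have : 0 < min (pvlmDel c m) ((pvxParOf N hN c).num.rho3 * pvlmH m) := lt_min h1 (mul_pos h3 h2)
  positivity

theorem pvii_Rho_pos (m : ℕ) : 0 < pviiRho (pvxParOf N hN c) m := by
  have := pvii_Mu_pos hN (c := c) m
  unfold pviiRho
  positivity

theorem pvii_Ms_eq {τ : Type} {c : ℝ} (𝔓 : PvxPar τ c) (𝔈 : PvieEng τ) (m : ℕ) (z : ℂ) (t : τ) : pviiMs 𝔓 𝔈 m z t = pvpzMs (pviiRho 𝔓 m) (pviiO 𝔈 m z t) := rfl

/-- the window of the test is Borel -/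
theorem pvii_mO (c0 : 0 < c) (m : ℕ) (z : ℂ) (t : pvxTau N) : MeasurableSet (pviiO (pvnaEngRec N hN c nb) m z t) := by
  obtain ⟨_, _, _, H⟩ := (pvnr_wf hN c0 nb).wf
  exact (pvml_sh_meas z (H.m_iM m t)).union (pvml_sh_meas z (H.m_iK m t))

/-- the window of the test is bounded -/
theorem pvii_bO (m : ℕ) (z : ℂ) (t : pvxTau N) : Bornology.IsBounded (pviiO (pvnaEngRec N hN c nb) m z t) :=
  ((pvbd_rec N hN c nb).sh_iM z m t).union ((pvbd_rec N hN c nb).sh_iK z m t)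

/-- the reference region of the door plug of level `m` lies in the open square `7 q / 2` -/
theorem pvii_O0_sub (m : ℕ) : (pvnaInRec N hN c nb).O0 m ⊆ pvccSq 0 (7 * pvge3Q c m / 2) := by
  have hδ := pvlm_Del_pos c m
  rw [pvnr_O0]
  rintro _ ⟨w, hw, rfl⟩
  have hw' : w ∈ pvccSq 0 (13 / 160) := by
    rw [← pvkgg_O_sq]
    exact hw
  have h : pvccN (w - 0) < 13 / 160 := hw'
  rw [sub_zero] at h
  obtain ⟨h1, h2⟩ := max_lt_iff.1 h
  show pvccN (pvthSim 0 (pvlmDel c m) w - 0) < 7 * pvge3Q c m / 2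
  simp only [pvthSim, zero_add, sub_zero, pvccN, Complex.re_ofReal_mul, Complex.im_ofReal_mul, abs_mul, abs_of_pos hδ, pvge3Q]
  exact max_lt (by nlinarith) (by nlinarith)

/-- **the window of the pattern of 298 lies in the window of the test** -/
theorem pvii_win (c0 : 0 < c) {m : ℕ} (hm : (pvxParOf N hN c).m0 ≤ m) (z : ℂ) (t : pvxTau N) :
    pvkqPatR (pvge3PatI (pvxParOf N hN c) m z t) ⊆ pviiO (pvnaEngRec N hN c nb) m z t :=
  pvge3_win_i (pvqh_lev hN c0 hm) (pvqh_tyOk hN c t) (pvuo_fine hN c0 hm) (pvii_O0_sub hN nb m) z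

theorem pvii_fit (c0 : 0 < c) {m : ℕ} (hm : (pvxParOf N hN c).m0 ≤ m) (z : ℂ) (t : pvxTau N) :
    PvkqFit (pvge3Dl c m) (pvge3M (pvxParOf N hN c) m) 4 (pvge3PatI (pvxParOf N hN c) m z t) :=
  pvge3_fit_i (pvqh_lev hN c0 hm) (pvqh_tyOk hN c t) (pvuo_fine hN c0 hm) z

/-- `mK` -/
theorem pvii_mK (c0 : 0 < c) (q₀ : ℝ) (b₀ : ℝ≥0∞) {m : ℕ} (hm : (pvxParOf N hN c).m0 ≤ m) (z : ℂ) (t : pvxTau N) :
    MeasurableSet (pviiT (pvxParOf N hN c) (pvnaEngRec N hN c nb) (pvnaHf N 0) q₀ b₀ m z t).𝒦 :=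
  (pvii_fit hN c0 hm z t).meas.inter (pvpz_Ms_meas (pvii_mO hN nb c0 m z t) (pvii_bO hN nb m z t) _)

/-- `rK` -/
theorem pvii_rK (c0 : 0 < c) (q₀ : ℝ) (b₀ : ℝ≥0∞) {m : ℕ} (hm : (pvxParOf N hN c).m0 ≤ m) (z : ℂ) (t : pvxTau N) :
    Conf.ReadsSet ((pviiT (pvxParOf N hN c) (pvnaEngRec N hN c nb) (pvnaHf N 0) q₀ b₀ m z t).O ×ˢ (univ : Set Bool)) (pviiT (pvxParOf N hN c) (pvnaEngRec N hN c nb) (pvnaHf N 0) q₀ b₀ m z t).𝒦 :=
  ((pvii_fit hN c0 hm z t).reads.mono (prod_mono (pvii_win hN nb c0 hm z t) le_rfl)).inter (pvpz_Ms_reads _ _)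

/-- **[COST]** ONE `q₀`: the soft threshold of the pattern of record (mesh clause inside) fails with small probability -/
theorem pvii_cost (c0 : 0 < c) : ∃ q₀ : ℝ, 0 < q₀ ∧ ∀ (b₀ θ : ℝ≥0∞), θ ≠ 0 → θ ≠ ∞ → ∀ m, (pvxParOf N hN c).m0 ≤ m → ∀ (z : ℂ) (t : pvxTau N),
    PvrgSmall fun ε => (pvayGood2 ε (pvjeI (pvxParOf N hN c) (pvnaEngRec N hN c nb) pvilQ m ε z t).K (pviiT (pvxParOf N hN c) (pvnaEngRec N hN c nb) (pvnaHf N 0) q₀ b₀ m z t).O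
      (pviiT (pvxParOf N hN c) (pvnaEngRec N hN c nb) (pvnaHf N 0) q₀ b₀ m z t).𝒦 (pviiT (pvxParOf N hN c) (pvnaEngRec N hN c nb) (pvnaHf N 0) q₀ b₀ m z t).t θ)ᶜ := by
  obtain ⟨q, h0, -, H⟩ := pvpz_pat_small
  refine ⟨q, h0, fun b₀ θ hθ hθ' m hm z t => ?_⟩
  obtain ⟨_, _, _, W⟩ := (pvnr_wf hN c0 nb).wf
  have h := H (pvge3M (pvxParOf N hN c) m) 4 (pvge3Dl c m) (pvge3PatI (pvxParOf N hN c) m z t) (pvii_fit hN c0 hm z t) (pvge3_meas_i _ m z t)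
    (pviiRho (pvxParOf N hN c) m) (pviiO (pvnaEngRec N hN c nb) m z t) (pvii_Rho_pos hN m) (pvii_mO hN nb c0 m z t) (pvii_bO hN nb m z t)
    (pvieSh z ((pvnaEngRec N hN c nb).iK m t)) (pvml_sh_meas z (W.m_iK m t)) θ hθ hθ'
  rw [union_eq_right.2 (pvii_win hN nb c0 hm z t), pvuo_len_i] at h
  exact h

end closed

/-! ## 2. [Ok]: the door half -/

section door

variable {N : PvxNums} (hN : N.Ok) {c : ℝ} (nb : PvnaNb N)

theorem pvii_din4 (c0 : 0 < c) {m : ℕ} (hm : (pvxParOf N hN c).m0 ≤ m) (t : pvxTau N) : ((pvxParOf N hN c).Γ m).din t ^ 4 = 1 := pveg_din4 (pvqh_lev hN c0 hm) t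

theorem pvii_din1 (c0 : 0 < c) {m : ℕ} (hm : (pvxParOf N hN c).m0 ≤ m) (t : pvxTau N) : ‖((pvxParOf N hN c).Γ m).din t‖ = 1 := pveg_norm_unit (pvii_din4 hN c0 hm t)

/-- `mH` (from the record `PvkuOk` of the free numbers: follows every re-pin of `pvnaHf`) -/
theorem pvii_mH (q₀ : ℝ) (b₀ : ℝ≥0∞) (m : ℕ) (z : ℂ) (t : pvxTau N) : MeasurableSet (pviiT (pvxParOf N hN c) (pvnaEngRec N hN c nb) (pvnaHf N 0) q₀ b₀ m z t).ℋ := by
  obtain ⟨ε, h⟩ := nb.H.ok.exists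
  exact pvdp_meas _ _ _ (h.mH 0)

/-- `thr` (BY DEFINITION of the usable states of 34; transport of 77) -/
theorem pvii_thr (c0 : 0 < c) (q₀ : ℝ) {m : ℕ} (hm : (pvxParOf N hN c).m0 ≤ m) (ε : ℝ) (z : ℂ) (t : pvxTau N) :
    ∀ η ∈ (pvjeI (pvxParOf N hN c) (pvnaEngRec N hN c nb) pvilQ m ε z t).G,
      (pviiT (pvxParOf N hN c) (pvnaEngRec N hN c nb) (pvnaHf N 0) q₀ nb.b m z t).b ≤
        pvtiP (pvP ε) ((pvjeI (pvxParOf N hN c) (pvnaEngRec N hN c nb) pvilQ m ε z t).D ×ˢ (univ : Set Bool)) (pviiT (pvxParOf N hN c) (pvnaEngRec N hN c nb) (pvnaHf N 0) q₀ nb.b m z t).ℋ η :=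
  fun _ hη => pvdp_thr_k (pvnr_num N hN c nb) m ε ((pvxParOf N hN c).col t) (pvieZi (pvxParOf N hN c) m z t) (((pvxParOf N hN c).Γ m).din t) (pvii_din1 hN c0 hm t)
    (pvdp_glob_thr nb.glob (pvP (ε / pvlmDel c m)) nb.b nb.q 0) hη

/-- `loc` ((S2) of 173) -/
theorem pvii_loc (c0 : 0 < c) (q₀ : ℝ) (b₀ : ℝ≥0∞) {m : ℕ} (hm : (pvxParOf N hN c).m0 ≤ m) {ε : ℝ} (hε : 0 < ε) (z : ℂ) (t : pvxTau N) :
    ∀ᵐ η ∂pvP ε, η ∈ (pvjeI (pvxParOf N hN c) (pvnaEngRec N hN c nb) pvilQ m ε z t).G → η ∈ (pviiT (pvxParOf N hN c) (pvnaEngRec N hN c nb) (pvnaHf N 0) q₀ b₀ m z t).Cd :=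
  pvyo_rec_door_ae (pvxParOf N hN c) (pvnr_num N hN c nb) (fun _ => rfl) m hε.ne' ((pvxParOf N hN c).col t) (pvieZi (pvxParOf N hN c) m z t) (pvii_din4 hN c0 hm t)

/-- `rH` from the reader of the side event `S⁺` of record in the OPEN window `pvkgEp` of 258 (region line: `pvo4_i_win` of 144) -/
theorem pvii_rH_of (c0 : 0 < c) (hr : Conf.ReadsSet (pvkgEp ×ˢ (univ : Set Bool)) (pvnaHf N 0)) (q₀ : ℝ) (b₀ : ℝ≥0∞) {m : ℕ} (hm : (pvxParOf N hN c).m0 ≤ m) (ε : ℝ) (z : ℂ) (t : pvxTau N) :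
    Conf.ReadsSet (((pvjeI (pvxParOf N hN c) (pvnaEngRec N hN c nb) pvilQ m ε z t).D ∪ (pvjeI (pvxParOf N hN c) (pvnaEngRec N hN c nb) pvilQ m ε z t).K) ×ˢ (univ : Set Bool))
      (pviiT (pvxParOf N hN c) (pvnaEngRec N hN c nb) (pvnaHf N 0) q₀ b₀ m z t).ℋ :=
  (pvdp_reads (pvieZi (pvxParOf N hN c) m z t) _ (pvdp_a_ne (pvii_din1 hN c0 hm t) c m) ((pvxParOf N hN c).col t) hr).mono
    (prod_mono (pvo4_i_win (pvqh_lev hN c0 hm) (pvqh_tyOk hN c t) (O₀ := (pvnaInRec N hN c nb).O0) rfl z) le_rfl)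

/-- `rH` AT THE RECORD ((B) of R24: `pvna_Hf_reads` of 9) -/
theorem pvii_rH (c0 : 0 < c) (q₀ : ℝ) (b₀ : ℝ≥0∞) {m : ℕ} (hm : (pvxParOf N hN c).m0 ≤ m) (ε : ℝ) (z : ℂ) (t : pvxTau N) :
    Conf.ReadsSet (((pvjeI (pvxParOf N hN c) (pvnaEngRec N hN c nb) pvilQ m ε z t).D ∪ (pvjeI (pvxParOf N hN c) (pvnaEngRec N hN c nb) pvilQ m ε z t).K) ×ˢ (univ : Set Bool))
      (pviiT (pvxParOf N hN c) (pvnaEngRec N hN c nb) (pvnaHf N 0) q₀ b₀ m z t).ℋ :=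
  pvii_rH_of hN nb c0 (pvna_Hf_reads hN 0) q₀ b₀ hm ε z t

/-- the mesh clause of the pattern is colour blind (words of 248) -/
theorem pvii_Ms_jp {τ : Type} {c : ℝ} (𝔓 : PvxPar τ c) (𝔈 : PvieEng τ) (m : ℕ) (z : ℂ) (t : τ) : PvjpBlind (pviiMs 𝔓 𝔈 m z t) := by
  intro Y c c' h
  exact pvpz_Ms_blind _ _ _ _ (by rw [cfOf_sites, cfOf_sites]) h

/-- the door region of the last link = the placed unit door square -/
theorem pvii_D_eq (m : ℕ) (ε : ℝ) (z : ℂ) (t : pvxTau N) :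
    (pvjeI (pvxParOf N hN c) (pvnaEngRec N hN c nb) pvilQ m ε z t).D = pvthSim (pvieZi (pvxParOf N hN c) m z t) (((pvxParOf N hN c).Γ m).din t * pvlmDel c m) '' pvkgO := by
  have h := pvdp_door (pvnr_num N hN c nb) m ε (pvieZi (pvxParOf N hN c) m z t) (((pvxParOf N hN c).Γ m).din t)
  rw [pvnr_unit_O] at h
  exact h

/-- **[Ok.up], GENERIC IN THE TRUNCATION**: ONE mixed order for the section of the side event and for the copy pattern      [248 `pvjp_half_up` + `pvjp_half_i` (`Exit/FrcRooms`); 77 `pvdp_side_sec`; 144 `pvo4_i_win`; 98] -/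
theorem pvii_up_gen {𝔱 : PvhfTr} (hG : PvhfGeo pvkgG.toPvkdPlug 𝔱) (h𝔱 : 𝔱.Ln = (pvhfT (1 / 40)).Ln) (hEs : 𝔱.Es true ⊆ pvkgEp) (c0 : 0 < c) (q₀ : ℝ) (b₀ : ℝ≥0∞) {m : ℕ} (hm : (pvxParOf N hN c).m0 ≤ m) (ε : ℝ) (z : ℂ) (t : pvxTau N) :
    ∀ (η₀ : Conf PvPt) (Y Fz : Set ℂ) (σ : ℂ → Bool), Y.Countable →
      (∃ η, PvatNice (cfSites η) ∧ cfSites η ∩ (pvjeI (pvxParOf N hN c) (pvnaEngRec N hN c nb) pvilQ m ε z t).Wn ((pvjeI (pvxParOf N hN c) (pvnaEngRec N hN c nb) pvilQ m ε z t).Hu η₀) =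
        Y ∩ (pvjeI (pvxParOf N hN c) (pvnaEngRec N hN c nb) pvilQ m ε z t).Wn ((pvjeI (pvxParOf N hN c) (pvnaEngRec N hN c nb) pvilQ m ε z t).Hu η₀)) → Fz ⊆ Y →
      (∀ v ∈ Y, v ∈ (pvjeI (pvxParOf N hN c) (pvnaEngRec N hN c nb) pvilQ m ε z t).D → v ∈ Fz) →
      (∀ v ∈ Fz, v ∉ (pvjeI (pvxParOf N hN c) (pvnaEngRec N hN c nb) pvilQ m ε z t).K ∧ v ∉ (pvjeI (pvxParOf N hN c) (pvnaEngRec N hN c nb) pvilQ m ε z t).y η₀) →
      ∃ s : ℂ → Option Bool, {z | s z ≠ none}.Countable ∧ PvlhUp s (pvlhSec Y Fz σ (pviiT (pvxParOf N hN c) (pvnaEngRec N hN c nb) (pvhfS pvkgG.toPvkdPlug 𝔱 true) q₀ b₀ m z t).ℋ) ∧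
        PvlhUp s (pvlhCp Y (pviiT (pvxParOf N hN c) (pvnaEngRec N hN c nb) (pvhfS pvkgG.toPvkdPlug 𝔱 true) q₀ b₀ m z t).𝒦) := by
  have hL := pvqh_lev hN c0 hm
  have hT := pvqh_tyOk hN c t
  have hD := pvii_D_eq hN (c := c) nb m ε z t
  refine pvjp_half_up (E := pvjeI (pvxParOf N hN c) (pvnaEngRec N hN c nb) pvilQ m ε z t) hG h𝔱 true (pvieZi (pvxParOf N hN c) m z t) (((pvxParOf N hN c).Γ m).din t * pvlmDel c m)
    (pvdp_a_ne (pvii_din1 hN c0 hm t) c m) ((pvxParOf N hN c).col t) hD.ge ?_ ?_ (pvii_fit hN c0 hm z t) (pvii_Ms_jp _ _ m z t) (pvjp_half_i hL hT (pvuo_fine hN c0 hm) ((pvxParOf N hN c).col t) z)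
  · rw [hD]
    exact image_mono pvkgg_ze.EO
  · intro Z
    refine ((image_mono hEs).trans (pvo4_i_win hL hT (O₀ := (pvnaInRec N hN c nb).O0) rfl z)).trans ?_
    rintro w (hw | hw)
    · exact Or.inr hw
    · exact Or.inl (Or.inr hw)

/-- **[Ok.up] AT THE RECORD** -/
theorem pvii_up (c0 : 0 < c) (q₀ : ℝ) (b₀ : ℝ≥0∞) {m : ℕ} (hm : (pvxParOf N hN c).m0 ≤ m) (ε : ℝ) (z : ℂ) (t : pvxTau N) :
    ∀ (η₀ : Conf PvPt) (Y Fz : Set ℂ) (σ : ℂ → Bool), Y.Countable →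
      (∃ η, PvatNice (cfSites η) ∧ cfSites η ∩ (pvjeI (pvxParOf N hN c) (pvnaEngRec N hN c nb) pvilQ m ε z t).Wn ((pvjeI (pvxParOf N hN c) (pvnaEngRec N hN c nb) pvilQ m ε z t).Hu η₀) =
        Y ∩ (pvjeI (pvxParOf N hN c) (pvnaEngRec N hN c nb) pvilQ m ε z t).Wn ((pvjeI (pvxParOf N hN c) (pvnaEngRec N hN c nb) pvilQ m ε z t).Hu η₀)) → Fz ⊆ Y →
      (∀ v ∈ Y, v ∈ (pvjeI (pvxParOf N hN c) (pvnaEngRec N hN c nb) pvilQ m ε z t).D → v ∈ Fz) →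
      (∀ v ∈ Fz, v ∉ (pvjeI (pvxParOf N hN c) (pvnaEngRec N hN c nb) pvilQ m ε z t).K ∧ v ∉ (pvjeI (pvxParOf N hN c) (pvnaEngRec N hN c nb) pvilQ m ε z t).y η₀) →
      ∃ s : ℂ → Option Bool, {z | s z ≠ none}.Countable ∧ PvlhUp s (pvlhSec Y Fz σ (pviiT (pvxParOf N hN c) (pvnaEngRec N hN c nb) (pvnaHf N 0) q₀ b₀ m z t).ℋ) ∧
        PvlhUp s (pvlhCp Y (pviiT (pvxParOf N hN c) (pvnaEngRec N hN c nb) (pvnaHf N 0) q₀ b₀ m z t).𝒦) :=
  pvii_up_gen hN nb (pvna_geo hN) rfl Subset.rfl c0 q₀ b₀ hm ε z t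

/-- **[Ok]** WHOLE -/
theorem pvii_ok (c0 : 0 < c) (q₀ : ℝ) {m : ℕ} (hm : (pvxParOf N hN c).m0 ≤ m) {ε : ℝ} (hε : 0 < ε) (z : ℂ) (t : pvxTau N) :
    (pviiT (pvxParOf N hN c) (pvnaEngRec N hN c nb) (pvnaHf N 0) q₀ nb.b m z t).Ok (pvjeI (pvxParOf N hN c) (pvnaEngRec N hN c nb) pvilQ m ε z t) ε :=
  { mO := pvii_mO hN nb c0 m z t
    bO := pvii_bO hN nb m z t
    O_sub := Subset.rfl
    mK := pvii_mK hN nb c0 q₀ nb.b hm z t
    rK := pvii_rK hN nb c0 q₀ nb.b hm z t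
    mH := pvii_mH hN nb q₀ nb.b m z t
    rH := pvii_rH hN nb c0 q₀ nb.b hm ε z t
    thr := pvii_thr hN nb c0 q₀ hm ε z t
    loc := pvii_loc hN nb c0 q₀ nb.b hm hε z t
    up := pvii_up hN nb c0 q₀ nb.b hm ε z t }

end door

/-! ## 2bis. the certificate of DET contains the certificates of 71 (`pvrgB`) and of 206 (`pvwuBi`) -/

section geo

variable {N : PvxNums} (hN : N.Ok) {c : ℝ} (nb : PvnaNb N)

/-- the own-level box with its collar lies in the ball of the certificate -/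
theorem pvii_box_sub {τ : Type} {c : ℝ} (𝔓 : PvxPar τ c) (m : ℕ) (t : τ) (z : ℂ) : pvieSh z (pviwBox 𝔓 m t) ⊆ Metric.closedBall z (2 * pviwRad 𝔓 m t + 4 * pvlmH m) := by
  rintro _ ⟨w, ⟨h1, h2⟩, rfl⟩
  rw [mem_closedBall_iff_norm, add_sub_cancel_left]
  rw [sub_zero] at h1 h2
  have h3 := Complex.norm_le_abs_re_add_abs_im w
  have h4 := pvjv_carf_del_le c m
  have h5 := pvlm_H_pos m
  linarith

theorem pvii_kit_sq (m : ℕ) (ε : ℝ) : ((pvnaEngRec N hN c nb).kit m ε).O₀ = pvccSq 0 (pvlmDel c m * (13 / 160)) := by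
  have e : pvkgG.O₀ = pvkgO := rfl
  rw [pvnr_kit_O, e, pvkgg_O_sq, pvwu_unit_sq (pvlm_Del_pos c m)]

/-- the inner mouth of the entrance tip lies in the ball of the certificate -/
theorem pvii_ball_sub (m : ℕ) (z : ℂ) (t : pvxTau N) :
    Metric.closedBall (z + pvegYm (pvxParOf N hN c) m t) (pvegR (pvxParOf N hN c) m / 2) ⊆ Metric.closedBall z (2 * pviwRad (pvxParOf N hN c) m t + 4 * pvlmH m) := by
  have hT := pvqh_tyOk hN c t
  have hh := pvlm_H_pos m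
  have h1 := (abs_le.1 hT.2.1).2
  have hρ : (pvxParOf N hN c).num.rho ≤ 1 := by
    show N.rho ≤ 1
    linarith [hN.rho0, hN.rho1, hN.rho2, hN.rho3]
  have hρ0 : 0 < (pvxParOf N hN c).num.rho := hN.rho0
  have h2 : ‖((pvxParOf N hN c).ty t).ym‖ ≤ 2 * pvccN ((pvxParOf N hN c).ty t).ym :=
    (Complex.norm_le_abs_re_add_abs_im _).trans (by unfold pvccN; linarith [le_max_left |((pvxParOf N hN c).ty t).ym.re| |((pvxParOf N hN c).ty t).ym.im|, le_max_right |((pvxParOf N hN c).ty t).ym.re| |((pvxParOf N hN c).ty t).ym.im|])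
  have h3 : ‖pvegYm (pvxParOf N hN c) m t‖ = pvlmH m * ‖((pvxParOf N hN c).ty t).ym‖ := by
    unfold pvegYm
    rw [norm_mul, Complex.norm_real, Real.norm_of_nonneg hh.le]
  intro v hv
  rw [mem_closedBall_iff_norm] at hv ⊢
  have h4 : ‖v - z‖ ≤ ‖v - (z + pvegYm (pvxParOf N hN c) m t)‖ + ‖pvegYm (pvxParOf N hN c) m t‖ := by
    have := norm_add_le (v - (z + pvegYm (pvxParOf N hN c) m t)) (pvegYm (pvxParOf N hN c) m t)
    have e : v - (z + pvegYm (pvxParOf N hN c) m t) + pvegYm (pvxParOf N hN c) m t = v - z := by ring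
    rwa [e] at this
  have h5 : pvegR (pvxParOf N hN c) m = (pvxParOf N hN c).num.rho * pvlmH m := rfl
  have h6 : pviwRad (pvxParOf N hN c) m t = (2 * ((pvxParOf N hN c).ty t).b2 + ((pvxParOf N hN c).ty t).k * (pvxParOf N hN c).num.rho1) * pvlmH m := rfl
  rw [h3] at h4
  rw [h5] at hv
  rw [h6]
  nlinarith [mul_le_mul_of_nonneg_left h2 hh.le, mul_le_mul_of_nonneg_left h1 hh.le, mul_le_mul_of_nonneg_right hρ hh.le]

/-- **the room of the certificate of 206 lies in the ball of `pviiMc`** -/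
theorem pvii_Bi_sub (c0 : 0 < c) {m : ℕ} (hm : (pvxParOf N hN c).m0 ≤ m) (ε : ℝ) (z : ℂ) (t : pvxTau N) :
    pvwuBi (pvxParOf N hN c) (pvnaEngRec N hN c nb) m ε z t ⊆ Metric.closedBall z (2 * pviwRad (pvxParOf N hN c) m t + 4 * pvlmH m) := by
  have hL := pvqh_lev hN c0 hm
  have hT := pvqh_tyOk hN c t
  have H := pveg_door_i hL hT
  have hδ := pvlm_Del_pos c m
  have hB := pvii_ball_sub hN (c := c) m z t
  have hMK : (pvnaEngRec N hN c nb).iM m t ∪ (pvnaEngRec N hN c nb).iK m t ⊆ Metric.closedBall (pvegYm (pvxParOf N hN c) m t) (pvegR (pvxParOf N hN c) m / 2) := by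
    rw [pvnr_iM, pvnr_iK]
    exact (pveg_MKa_sub_Ya _ _ _ _ _ _ _ _ _).trans (pveg_Ya_ball H (pveg_A_pos c m).le)
  have sh : ∀ S : Set ℂ, S ⊆ Metric.closedBall (pvegYm (pvxParOf N hN c) m t) (pvegR (pvxParOf N hN c) m / 2) → pvieSh z S ⊆ Metric.closedBall z (2 * pviwRad (pvxParOf N hN c) m t + 4 * pvlmH m) := by
    intro S hS
    have h2 : pvieSh z S ⊆ pvieSh z (Metric.closedBall (pvegYm (pvxParOf N hN c) m t) (pvegR (pvxParOf N hN c) m / 2)) := Set.image_mono hS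
    rw [pveg_sh_ball] at h2
    exact h2.trans hB
  unfold pvwuBi
  refine union_subset (union_subset (union_subset ?_ (sh _ (subset_union_left.trans hMK))) (sh _ (subset_union_right.trans hMK))) ?_
  · rw [pvza_Bx_eq]
    exact pvii_box_sub _ m t z
  · rw [pvwu_door_i (pveg_din4 hL t) (pvii_kit_sq hN nb m ε) z]
    exact sh _ ((pvcc_sq_mono _ (by linarith)).trans (pveg_D_ball H))

/-- the certificate of 71: mesh `δ / 3` of the own-level box with its collar -/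
theorem pvii_Mc_B (m : ℕ) (z : ℂ) (t : pvxTau N) {η₀ : Conf PvPt} (hM : η₀ ∈ pviiMc (pvxParOf N hN c) m z t) : η₀ ∈ pvrgB (pvxParOf N hN c) m z t := by
  have hδ := pvlm_Del_pos c m
  have h1 : pvilMu (pvxParOf N hN c) m ≤ pvlmDel c m / 1000 := by
    unfold pvilMu
    exact div_le_div_of_nonneg_right (min_le_left _ _) (by norm_num)
  exact pvmj_mesh_mono (by linarith) (pvrg_mesh_mono (pvii_box_sub _ m t z) hM)

end geo

section carry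

variable {N : PvxNums} (hN : N.Ok) {c : ℝ} (nb : PvnaNb N)

/-- **(b1) THE CARRIED HALF STATE, THE FROZEN POSITIONS AND THE HULL ARE CARRIED**      [71 `pvfc8_i`] -/
theorem pvii_carry (c0 : 0 < c) {m : ℕ} (hm : (pvxParOf N hN c).m0 ≤ m) {ε : ℝ} {z : ℂ} {t : pvxTau N} {T : PvjeTest} {η₀ η : Conf PvPt}
    (hU : η₀ ∈ pvilUi (pvxParOf N hN c).num ((pvxParOf N hN c).col t) (pvilPin (pvxParOf N hN c) m z t)) (hM : η₀ ∈ pviiMc (pvxParOf N hN c) m z t)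
    (hF : PvjeFin (pvjeI (pvxParOf N hN c) (pvnaEngRec N hN c nb) pvilQ m ε z t) T η₀ η) :
    (∃ 𝔖 : PvwSt (pvieT η), PvilIn (pvxParOf N hN c).num ((pvxParOf N hN c).col t) (pvilPin (pvxParOf N hN c) m z t) η 𝔖) ∧
      pvilFi (pvxParOf N hN c) m z t η = pvilFi (pvxParOf N hN c) m z t η₀ ∧ pvilZi (pvxParOf N hN c) m z t η = pvilZi (pvxParOf N hN c) m z t η₀ :=
  pvfc8_i N hN (pvnr_wf hN c0 nb) hm hU (pvii_Mc_B hN m z t hM) hF

/-- **(b6) THE MESH OF THE WINDOW**: kept part ← `pviiMc` (`μ/20`), tile ← the mesh clause of the copy pattern, door ← the side event (`pvna_Hf_mesh pvna_hmu` of (B))      [206 `pvwu_i` `pvwu_door_mesh`; text of 299] -/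
theorem pvii_mesh (c0 : 0 < c) (q₀ : ℝ) {m : ℕ} (hm : (pvxParOf N hN c).m0 ≤ m) {ε : ℝ} {z : ℂ} {t : pvxTau N} {η₀ η : Conf PvPt} (hM : η₀ ∈ pviiMc (pvxParOf N hN c) m z t)
    (hF : PvjeFin (pvjeI (pvxParOf N hN c) (pvnaEngRec N hN c nb) pvilQ m ε z t) (pviiT (pvxParOf N hN c) (pvnaEngRec N hN c nb) (pvnaHf N 0) q₀ nb.b m z t) η₀ η) :
    η ∈ pvilMs (pvxParOf N hN c) m (pvilWni (pvxParOf N hN c) (pvnaEngRec N hN c nb) m ε z t (pvilZi (pvxParOf N hN c) m z t η₀)) := by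
  have hδ := pvlm_Del_pos c m
  have hμ0 := pvii_Mu_pos hN (c := c) m
  have hμ : 100 * pvilMu (pvxParOf N hN c) m ≤ pvlmDel c m := by
    have : pvilMu (pvxParOf N hN c) m ≤ pvlmDel c m / 1000 := by
      unfold pvilMu
      exact div_le_div_of_nonneg_right (min_le_left _ _) (by norm_num)
    linarith
  have hmD : PvtrMesh (pvilMu (pvxParOf N hN c) m / 3) (pvieDoor (pvnaEngRec N hN c nb) m ε (pvieZi (pvxParOf N hN c) m z t) (((pvxParOf N hN c).Γ m).din t)) (cfSites η) :=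
    pvwu_door_mesh (O₁ := pvkgO) (fun _ h => pvna_Hf_mesh N h) (pvna_hmu hN c m) (pvnr_kit_O N hN c nb m ε) (pvii_din1 hN c0 hm t) ((pvxParOf N hN c).col t) hF.side
  have hmK : PvtrMesh (pvilMu (pvxParOf N hN c) m / 3) (pvieSh z ((pvnaEngRec N hN c nb).iK m t)) (cfSites η) :=
    pvwu_fin_tile hF fun ξ hξ => pvmj_mesh_mono (by unfold pviiRho; linarith) (fun w hw => hξ.2.2 w (pvtr_core_mono subset_union_right hw))
  exact pvwu_i (σ := pvlmDel c m * (13 / 160)) (O₀ := (pvnaInRec N hN c nb).O0) (pvqh_lev hN c0 hm) (pvqh_tyOk hN c t) hμ0 hμ (by linarith) (by linarith) (pvnr_iK N hN c nb m t)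
    (pvii_kit_sq hN nb m 1) (pvii_kit_sq hN nb m ε) (pvrg_mesh_mono (pvii_Bi_sub hN nb c0 hm ε z t) hM) (pvwu_fin_kept hF) hmK hmD

end carry

end Claimed.Agent.R289
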