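-- KEEP
import Claimed.Agent.R289.Tr.FrcDetO
import Claimed.Agent.R289.Tr.FrcDetE
import Claimed.Agent.R289.Tr.HookCol
import Claimed.Agent.R289.Tr.HookColF
import Claimed.Agent.R289.Tr.HookYT
import Claimed.Agent.R289.Tr.HookLA
import Claimed.Agent.R289.Tr.DoorFoot
import Claimed.Agent.R289.Exit.FrcIDefs

/-!
# Row 289 (S0537), THE WALL, ROAD E, E10 (b3) DET AT THE LAST LINK `door plug → t`, file Exit/FrcIEv : THE RUN AT A FINAL CONFIGURATION, COMPILED ASSEMBLY      (helper19, RACE[exit_pvii_ev]; prefix `pviy_`, `Pviy`)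

**`pviy_A`** (0 sorry): `PvjeFin (pvjeI 𝔓 𝔈 w m ε z t) T η₀ η`, `η₀ ∈ U`, three meshes AT THE BASE  ⟹  `η ∈ (pvilLi 𝔓 𝔈 m z t).A 𝔓.num (𝔓.col t)  ∧  pvilZi 𝔓 m z t η = pvilZi 𝔓 m z t η₀`      (= the first two conjuncts of `pvilMi`: (b1) + (b2) + (b3) of DET.ev of `i`).
GENERIC IN THE ENGINE AND IN THE TESTS (survives the swaps of the rooms and the cure of DEFECT M):
* engine: `eM : iM = pvegIM`, `eK : iK = pvegIKa 𝔓 O₀`, `eO : kit.O₀ = O₀ m`, `hO : O₀ m ⊆ pvccSq 0 (13 q / 4)`;   ANY room `iY` with the contract **`PviyRoom`** (bounded, no hole, small mouth `9R/32`, funnel `21R/200 ≤ S ≤ Sp - 3q/8`, `|T - lam| ≤ 19R/100`, nothing behind the door): holds for `pvegIYa` AND for `pvegIYc`;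
* tests: `T.𝒦 ⊆ pvkqPat (pvge3Dl c m) (pvge3PatI 𝔓 m z t)`, every `ξ ∈ T.𝒦` has the mesh `μ₁` (`32 μ₁ ≤ q`) of mouth ∪ tile;   `T.ℋ ⊆` the placed `S⁺` of 174 for ANY truncation `𝔱` with the lanes of `pvhfT (1/40)` (`.fine μ W` included);   `T.Cd` is NOT read (the door state comes from the side record: `PvyoSd.door` of 173).
CHAIN: 235 `pvhc_lines_in` + 71 `pvfc7_fin_i` (carried half state, colour lines) | 23 `pvhj_foot_inU_pl` (tip foot, all tip cells) | 266 `Tr/FrcDetO` (numbers, `PvhjEndD`, tip dart) | 88 `pvw7_pat_iff` (relative colours) | 173 `pvyo_side` + 28 `Tr/DoorFoot` (door) | 228 `pvdd_pat_i`, `pvdd_mid_of`, `pvdd_room_of` | 298 numbers of record | 90 `pvhg_out_gate` (OUT) | 112 `pvha_A_dp`.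
MISFIT FOUND AND CURED HERE: `Pvge2Rec.num` of 298 has `e₀ = r / 10`, while `pvdd_pat_o / _i` ask `rt + 2ρ < e₀` with `r / 10 ≤ rt` (tip face): **`pviy_num`** = the numbers of record at `e₀ = 21 r / 200`;   **`pviy_rec_i`** = `pvdd_pat_i` at the numbers of record.      THE MIRROR `o` NEEDS THE SAME LEMMA.
* sec. 1 `pviy_num`, `pviy_rec_i` | sec. 2 `pviy_foot_i` | sec. 3 frames `pviy_S pviy_T` | sec. 4 `pviy_door` | sec. 5 `pviy_lane`, `pviy_lane_nbd` | sec. 6 `pviySp pviyLam`, `pviy_mem_W`, `pviy_off_box` | sec. 7 `pviy_Ln_frame`, `pviy_Zm_frame` | sec. 8 `PviyRoom`, **`pviy_A`**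
-/

set_option autoImplicit false
set_option linter.unusedSectionVars false
set_option linter.unusedVariables false

namespace Claimed.Agent.R289

open Relation Set Metric Claims.C0465
open scoped ComplexConjugate

/-! ## 1. model free: `pvdd_pat_i` of 228 at the numbers of record of 298 -/

section rec

variable {r δ q dl ρ b μ Sp lam : ℝ}

/-- MISFIT CURED: `Pvge2Rec.num` has `e₀ = r / 10`, the arms without box (`PvhjArmT`, `pvdd_pat_i`) ask `rt + 2ρ < e₀` with `r / 10 ≤ rt`.      The numbers of record hold with `e₀ = 21 r / 200` as well. -/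
theorem pviy_num (R : Pvge2Rec r δ q dl ρ b μ Sp lam) (β : Bool) : Pvge2Num (pvge2Aa r β) (r / 200) (23 * r / 200) (23 * r / 200) (3 * r / 20) dl ρ (21 * r / 200) b μ (r / 4) := by
  have n := R.num β
  have h1 := R.δ0; have h2 := R.dl0; have h3 := R.fine; have h4 := R.mesh; have h5 := R.ρ0; have h6 := R.ρ1; have h8 := R.qδ; have h9 := R.q0
  refine ⟨n.dl0, n.core, n.ρ0, by linarith, n.bμ, ?_, by linarith, by linarith, n.strip, n.sepE, n.sepS, n.rs0, n.nearA, n.nearX⟩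
  cases β <;> simp only [pvge2Aa, if_true, if_false, Bool.false_eq_true] <;> linarith

end rec

section recI

variable {Y : Set ℂ} {h : DelGood Y} {P : PlTri ↥Y} {K : Set Y} {c u : ℂ} {σ : Y → Bool} {κ : ℂ → Bool} {rt ρ : ℝ} {R₀ δ q dl ρl Sp lam : ℝ} {Rm : Bool → Set ℂ}

/-- **LAST LINK AT A FINAL CONFIGURATION, NUMBERS OF RECORD, FOOT FORM** (`pvge4_rec_i` of 298 with the tip foot as a hypothesis) -/
theorem pviy_rec_i (hP : P = delPl h) {a₁ : P.Dart} (h1 : pvasBW P.toMap σ a₁) (hu : ‖u‖ = 1)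
    (foot : ∀ GN GC : Bool → Set ℂ, (∀ β, PvhjArmT Y κ β ((starRingEnd ℂ) u) c rt ρ (R₀ / 4) (!β) (GN β) (GC β) (pvge2Cl c u (!β) (pvge2Aa R₀ β) (23 * R₀ / 200) (3 * R₀ / 20) dl)) → PvhjFootP P σ κ K a₁ GN)
    (hK : K.Finite) (hco : ∀ u v, u ∉ K → v ∉ K → P.toMap.Join univ Kᶜ u v) (g : P.toMap.Gate σ) (hne : g.vp ≠ P.toMap.src a₁)
    (hO : ∃ f, P.toMap.src f ∉ K ∧ P.toMap.DJoin (pvldBar P.toMap σ K g.aOut a₁) (P.toMap.opp g.aOut) f)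
    (Rc : Pvge2Rec R₀ δ q dl ρl rt (2 * ρ) Sp lam) (hρ0 : 0 ≤ ρ) (he : rt + 2 * ρ < 21 * R₀ / 200)
    (hev : cfOf Y κ ∈ pvkqPat dl (pvge2PatRec c u false true R₀ q Sp lam))
    (hρl : dl / 16 ≤ ρl) (hdS : ∀ β, VorDense Y (pvge2Cl c u (!β) (pvge2Aa R₀ β) (23 * R₀ / 200) (3 * R₀ / 20) dl) ρl)
    (mid : ∀ β, ∀ v : Y, (vorCell Y v ∩ pvge4Lane c u (!β) R₀ q Sp (pvge2Aa R₀ β) (pvge2Lm lam β)).Nonempty → v ∈ K ∧ σ v = κ v)
    (hroom : ∀ β, ∀ w ∈ Rm β, pvge2S c u w < Sp - 13 * q / 4 → pvge2Lm lam β + q / 2 ≤ pvge2T c u (!β) w ∧ pvge2T c u (!β) w ≤ pvge2Lm lam β + 3 * q / 2)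
    (hH : ∀ β, ∃ v : Y, pvge2S c u (v : ℂ) ≤ Sp - 15 * q / 4 ∧ P.toMap.Join univ (pvldCol σ {u : Y | (u : ℂ) ∈ Rm β} β) (pvhiEnd P.toMap β g.aOut) v)
    (hfoot : ∀ β, Sp - 13 * q / 4 ≤ pvge2S c u ((pvhiEnd P.toMap β g.aOut : Y) : ℂ))
    (hRm : ∀ β, ∀ v : Y, (v : ℂ) ∈ Rm β → v ∈ K ∧ vorCell Y v ⊆ closedBall (v : ℂ) (q / 16))
    (hRκ : ∀ β, ∀ v : Y, (v : ℂ) ∈ Rm β → pvge2S c u (v : ℂ) < Sp - 13 * q / 4 → σ v = κ v) :
    PvldRun P.toMap σ K g.aOut a₁ := by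
  have h1' := Rc.δ0; have h3 := Rc.fine; have h4 := Rc.mesh; have h5 := Rc.dl0; have h9 := abs_le.1 Rc.lat; have h10 := Rc.qδ; have h11 := Rc.q0
  refine pvdd_pat_i (sd := fun β => !β) (aa := pvge2Aa R₀) (ll := fun β => pvge2Lm lam β + q / 4) (l0 := fun β => pvge2Lm lam β + q / 2) (l1 := fun β => pvge2Lm lam β + 3 * q / 2) (sc := Sp - 13 * q / 4) (ρd := q / 16)
    (e₀ := 21 * R₀ / 200) hP h1 hu foot hK hco g hne hO (pviy_num Rc) Rc.bar hρ0 he (fun β => ?_) hρl hdS mid (by linarith) (by linarith) hroom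
    (fun β => by show pvge2Lm lam β + q / 4 + 3 / 2 * dl + q / 16 ≤ pvge2Lm lam β + q / 2; linarith) (fun β => ?_) (fun β => ?_) hfoot hRm hRκ
  · have := pvge2_patRec_ev hev β
    cases β <;> exact this
  · show pvge2Lm lam β + 3 * q / 2 + q / 16 + 3 / 2 * dl ≤ pvge2Aa R₀ β
    cases β <;> simp only [pvge2Lm, pvge2Aa, if_true, if_false, Bool.false_eq_true] <;> linarith [h9.1, h9.2]
  · obtain ⟨v, hv, hj⟩ := hH β
    exact ⟨v, by linarith, hj⟩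

end recI

/-! ## 2. the tip foot at the model, ALL TIP CELLS (`pvhc_foot_i` of 235 with the arms without box of 23: `pvhj_foot_inU_pl`) -/

section model

variable {τ : Type} {c : ℝ} {𝔓 : PvxPar τ c} {𝔈 : PvieEng τ} {m : ℕ} {ε : ℝ} {z : ℂ} {t : τ} {μ μ' : ℝ} {η₀ η : Conf PvPt} {w : ∀ η : Conf PvPt, (delbPl (pvieY η)).Dart → ℂ} {T : PvjeTest}
  {K₀ : Set (pvieY η₀)} {r r₁ ρ rs rt : ℝ} {ζ : ℂ}

/-- **THE LAST LINK `door → t` AT A FINAL CONFIGURATION, THE END `t`, ONE STOP, ARMS WITHOUT BOX** -/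
theorem pviy_foot_i (hμ : 0 < μ) (h3 : 3 * μ ≤ pvlmDel c m) (hb : (𝔓.ty t).b * pvlmH m ≤ pviwRad 𝔓 m t) (hr : μ < (𝔓.ty t).b * pvlmH m)
    (hK : Disjoint (𝔈.iK m t) (pviwBox 𝔓 m t)) (hD : Disjoint (pviwDi 𝔓 𝔈 m ε t) (pviwBox 𝔓 m t))
    (hm : η₀ ∈ pvrgMesh μ (pvieSh z (pviwBox 𝔓 m t))) {𝔖₀ : PvwSt (pvieT η₀)} (h₀ : PvilIn 𝔓.num (𝔓.col t) (pvilPin 𝔓 m z t) η₀ 𝔖₀) (hF : PvjeFin (pvjeI 𝔓 𝔈 w m ε z t) T η₀ η)
    (hMK : Disjoint (pvjeI 𝔓 𝔈 w m ε z t).M (pvjeI 𝔓 𝔈 w m ε z t).K) (hMD : Disjoint (pvjeI 𝔓 𝔈 w m ε z t).M (pvjeI 𝔓 𝔈 w m ε z t).D)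
    (hμ' : 0 < μ') (hmM : η₀ ∈ pvrgMesh μ' (pvieSh z (𝔈.iM m t)))
    (E : PvhjEndD (pvieY η₀) 𝔓.num (pvlmH m) (𝔓.ty t) z ((𝔓.ty t).cm (pvlmH m) z) K₀ r r₁ ρ rs rt ζ)
    (ht1 : ‖((pvieT η₀).src (𝔖₀.em 𝔖₀.nm) : ℂ) - (𝔓.ty t).cm (pvlmH m) z‖ + 2 * ρ ≤ rt) (ht2 : ‖((pvieT η₀).tgt (𝔖₀.em 𝔖₀.nm) : ℂ) - (𝔓.ty t).cm (pvlmH m) z‖ + 2 * ρ ≤ rt)
    (hU : closedBall ((𝔓.ty t).cm (pvlmH m) z) (rs + 4 * ρ + 3 * μ') ⊆ pvieSh z (𝔈.iM m t)) :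
    ∃ 𝔖 : PvwSt (pvieT η), PvilIn 𝔓.num (𝔓.col t) (pvilPin 𝔓 m z t) η 𝔖 ∧ pvilZi 𝔓 m z t η = pvilZi 𝔓 m z t η₀ ∧
      (((pvieT η₀).src (𝔖₀.em 𝔖₀.nm) : pvieY η₀) : ℂ) = (pvieT η).src (𝔖.em 𝔖.nm) ∧
      ∃ κ : ℂ → Bool, cfOf (cfSites η) κ ∈ T.𝒦 ∧
        (∀ v' : pvieY η, (v' : ℂ) ∈ pvieSh z (𝔈.iM m t) ∪ pvieSh z (𝔈.iK m t) → (v' : ℂ) ∉ pvwSq z (pviwRad 𝔓 m t) → pvieCol η (𝔓.col t) v' = pvhcK κ (𝔓.col t) v') ∧
        ∀ (K : Set (pvieY η)) (GN GC Sg : Bool → Set ℂ),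
          (∀ β, PvhjArmT (pvieY η) (pvhcK κ (𝔓.col t)) β ζ ((𝔓.ty t).cm (pvlmH m) z) rt ρ rs (!β) (GN β) (GC β) (Sg β)) →
          (∀ v : pvieY η, ‖(v : ℂ) - (𝔓.ty t).cm (pvlmH m) z‖ < rs + 4 * ρ → v ∈ K) →
          PvhjFootP (delbPl (pvieY η)) (pvieCol η (𝔓.col t)) (pvhcK κ (𝔓.col t)) K (𝔖.em 𝔖.nm) GN := by
  obtain ⟨𝔖, G, hO, eF, eZ⟩ := pvfc7_fin_i hμ h3 hb hr hK hD hm h₀ hF
  have hFW : pvilFi 𝔓 m z t η₀ ⊆ pvfc7Wi 𝔓 m z t η₀ := (pvfc7_fi_core hb h₀).trans (pvfc7_core_sub (pvlm_Del_pos c m).le _)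
  have hC := pvfc7_C_i (w := w) (z := z) (η₀ := η₀) hK hD
  have hKp : (pvjeI 𝔓 𝔈 w m ε z t).Fz η₀ ⊆ (pvjeI 𝔓 𝔈 w m ε z t).Kp ((pvjeI 𝔓 𝔈 w m ε z t).Hu η₀) := fun a ha =>
    ⟨Or.inl ((pvfc7_Wi_eq 𝔓 m z t η₀).subset (hFW ha)), fun h => disjoint_left.1 hC h (hFW ha)⟩
  obtain ⟨κ, k1, k2, k3, k4, k5⟩ := pvhc_lines_in hF (pvhc_pin_fr 𝔓 m z t) h₀ rfl hKp hb
  refine ⟨𝔖, hO, eZ, (pvhc_tip_in G).1, κ, k1, k5, fun K GN GC Sg A hKK => ?_⟩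
  have st := pvhc_st_in h₀
  have hρ := E.e.rho
  exact pvhj_foot_inU_pl (delb_pl_eq h₀.good) (delb_pl_eq hF.nice.good) hμ' (pvhc_sites hF (pvhc_M_kept hMK hMD _)) hmM st E ht1 ht2 hU A
    (fun v v' e _ hv => k2 v v' e (pvwk_banksM_sub_fzIn 𝔖₀ hv))
    (fun v v' e hn hv => k3 v v' e (Or.inl (hU (by rw [mem_closedBall, dist_eq_norm]; linarith))) hv)
    hKK (pvhc_tip_in G).1 (pvhc_tip_in G).2

end model

/-! ## 3. the frame of the mouth against the frame of the door (`u = - d`) -/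

section frame

theorem pviy_S (c z₁ d w : ℂ) : pvge2S c (-d) w = pvge2S c (-d) z₁ - ((conj d * w).re - (conj d * z₁).re) := by
  simp only [pvge2S, map_neg, mul_neg, Complex.neg_re, Complex.mul_re, Complex.sub_re, Complex.sub_im, Complex.conj_re, Complex.conj_im]
  ring

theorem pviy_T (c z₁ d w : ℂ) (up : Bool) : pvge2T c (-d) up w = pvge2T c (-d) up z₁ - pvge2Sg up * ((conj d * w).im - (conj d * z₁).im) := by
  simp only [pvge2T, map_neg, mul_neg, Complex.neg_im, Complex.mul_im, Complex.sub_re, Complex.sub_im, Complex.conj_re, Complex.conj_im]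
  ring

theorem pviy_T_flip (c u w : ℂ) : pvge2T c u true w = -pvge2T c u false w := by
  simp only [pvge2T, pvge2Sg, if_true, if_false, Bool.false_eq_true]
  ring

/-- a point within `a` of `z₁` -/
theorem pviy_S_near {c z₁ d w : ℂ} {a : ℝ} (hd : ‖d‖ = 1) (hw : ‖w - z₁‖ ≤ a) : pvge2S c (-d) z₁ - a ≤ pvge2S c (-d) w := by
  rw [pviy_S c z₁ d w]
  have e : (conj d * w).re - (conj d * z₁).re = (conj d * (w - z₁)).re := by rw [mul_sub, Complex.sub_re]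
  have h1 : (conj d * (w - z₁)).re ≤ ‖conj d * (w - z₁)‖ := Complex.re_le_norm _
  rw [norm_mul, Complex.norm_conj, hd, one_mul] at h1
  rw [e]
  linarith

end frame

/-! ## 4. the door end: the side record of 173 in the frame of the mouth -/

section door

variable {b : Bool} {η : Conf PvPt} {z₁ d : ℂ} {a s : ℝ} {𝔱 : PvhfTr} {g : (pvkiT η).Gate (pvukS b η)}

/-- **THE DOOR END OF THE LAST LINK**: everything `pviy_rec_i` asks at the door but the link region and the colours, from the exit side record `S⁺` of 173.      `q = s a`, `Sp = S(z₁)`, `lam = T_false(z₁)`, rooms `Rm β = ` the placed truncated rooms of 174 -/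
theorem pviy_door (ha : 0 < a) (hs : 0 < s) (hd1 : ‖d‖ = 1) (hG : PvhfGeo (pvkdP a) 𝔱) (hL : 𝔱.Ln = (pvhfT a).Ln) (hD : 𝔱.Dr = (pvhfT a).Dr) (h : PvyoSd (pvkdP a) 𝔱 true b η z₁ d s g) (c : ℂ) :
    (∀ β, ∀ w ∈ pvkdAt z₁ d ((pvhfT (s * a)).Ln true β), pvge2S c (-d) w < pvge2S c (-d) z₁ - 13 * (s * a) / 4 →
      pvge2Lm (pvge2T c (-d) false z₁) β + s * a / 2 ≤ pvge2T c (-d) (!β) w ∧ pvge2T c (-d) (!β) w ≤ pvge2Lm (pvge2T c (-d) false z₁) β + 3 * (s * a) / 2) ∧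
    (∀ β, ∃ v : ↥(cfSites η), pvge2S c (-d) (v : ℂ) ≤ pvge2S c (-d) z₁ - 15 * (s * a) / 4 ∧
      (pvkiT η).Join univ (pvldCol (pvukS b η) {u : ↥(cfSites η) | (u : ℂ) ∈ pvkdAt z₁ d ((pvhfT (s * a)).Ln true β)} β) (pvhiEnd (pvkiT η) β g.aOut) v) ∧
    (∀ β, pvge2S c (-d) z₁ - 13 * (s * a) / 4 ≤ pvge2S c (-d) ((pvhiEnd (pvkiT η) β g.aOut : ↥(cfSites η)) : ℂ)) ∧
    PvtrMesh (s * a / 16) (pvkdAt z₁ (d * s) (𝔱.Es true)) (cfSites η) ∧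
    (∀ β, pvkdAt z₁ d ((pvhfT (s * a)).Ln true β) ⊆ pvtrCore (3 * (s * a / 16)) (pvkdAt z₁ (d * s) (𝔱.Es true))) := by
  have hq : 0 < s * a := mul_pos hs ha
  have hg := h.gate
  rw [pvdil_P hs] at hg
  have hb := h.black
  have hw := h.white
  rw [hL, hD, pvvx_at_Ln hs, pvvx_at_Dr hs] at hb hw
  refine ⟨fun β w hw' hx => ?_, fun β => ?_, fun β => ?_, ?_, fun β => ?_⟩
  · rw [pviy_S c z₁ d w] at hx
    have h3 := pvvx_rec_Ln hd1 true β z₁ hw' (by show (conj d * z₁).re + 3 * (s * a) < (conj d * w).re; linarith)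
    have h3a : (conj d * z₁).im + pvvxLo (s * a) true β ≤ (conj d * w).im := h3.1
    have h3b : (conj d * w).im ≤ (conj d * z₁).im + pvvxHi (s * a) true β := h3.2
    rw [pviy_T c z₁ d w]
    cases β
    · simp only [pvvxLo, pvvxHi, Bool.false_eq_true, if_false] at h3a h3b
      simp only [pvge2Lm, Bool.not_false, pvge2Sg, if_true, if_false, Bool.false_eq_true, pviy_T_flip c (-d) z₁]
      constructor <;> linarith
    · simp only [pvvxLo, pvvxHi, if_true] at h3a h3b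
      simp only [pvge2Lm, Bool.not_true, pvge2Sg, if_true, if_false, Bool.false_eq_true]
      constructor <;> linarith
  · have e := pvvx_end_foot g true β
    have e' : pvhiEnd (pvkiT η) β g.aOut = pvkdFoot g true β := e
    rw [e']
    cases β
    · obtain ⟨v, hv, hj⟩ := hw
      refine ⟨v, ?_, hj⟩
      have := pvvx_rec_Dr hd1 true false z₁ hv
      have this' : (conj d * z₁).re + 4 * (s * a) ≤ (conj d * (v : ℂ)).re := this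
      rw [pviy_S c z₁ d v]
      linarith
    · obtain ⟨v, hv, hj⟩ := hb
      refine ⟨v, ?_, hj⟩
      have := pvvx_rec_Dr hd1 true true z₁ hv
      have this' : (conj d * z₁).re + 4 * (s * a) ≤ (conj d * (v : ℂ)).re := this
      rw [pviy_S c z₁ d v]
      linarith
  · have e : pvhiEnd (pvkiT η) β g.aOut = pvkdFoot g true β := pvvx_end_foot g true β
    rw [e]
    have hbl := pvvx_foot_ball hg true β
    have hbl' : ‖((pvkdFoot g true β : ↥(cfSites η)) : ℂ) - z₁‖ ≤ 2 * (s * a) := by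
      have : ((pvkdFoot g true β : ↥(cfSites η)) : ℂ) ∈ ball z₁ (2 * (s * a)) := hbl
      rw [mem_ball, dist_eq_norm] at this
      exact this.le
    have := pviy_S_near (c := c) hd1 hbl'
    linarith
  · have := h.mesh
    rwa [show s * (pvkdP a).ρ = s * a / 16 from by show s * (a / 16) = _; ring] at this
  · have := pvvx_room_core_sc hG hd1 hs z₁ true β
    rwa [hL, pvvx_at_Ln hs, show 3 * (s * (pvkdP a).ρ) = 3 * (s * a / 16) from by show 3 * (s * (a / 16)) = _; ring] at this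

end door

/-! ## 5. where the lanes of record are -/

section lane

variable {Yc u : ℂ} {up : Bool} {r δ q dl ρ b μ Sp lam : ℝ}

/-- the lane of record of the relative colour `β`, with its true margins -/
theorem pviy_lane (R : Pvge2Rec r δ q dl ρ b μ Sp lam) (β : Bool) {w : ℂ} (hw : w ∈ pvge4Lane Yc u (if β then up else !up) r q Sp (pvge2Aa r β) (pvge2Lm lam β)) :
    11 * r / 100 ≤ pvge2S Yc u w ∧ pvge2S Yc u w ≤ Sp - 7 * q / 2 ∧ |pvge2T Yc u up w| ≤ 33 * r / 200 := by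
  have h1 := R.δ0; have h3 := R.fine; have h8 := R.s_lo; have h8' := R.s_hi; have h9 := abs_le.1 R.lat; have h10 := R.qδ; have h11 := R.q0
  cases β
  · simp only [Bool.false_eq_true, if_false, pvge2Aa, pvge2Lm, pvge4Lane, pvge2RN, pvge2RH, pvge2RV, pvge2_R_flip] at hw
    rcases hw with (⟨x1, x2, x3, x4⟩ | ⟨x1, x2, x3, x4⟩) | ⟨x1, x2, x3, x4⟩
    · exact ⟨by linarith, by linarith, by rw [abs_le]; constructor <;> linarith⟩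
    · exact ⟨by linarith, by linarith, by rw [abs_le]; constructor <;> linarith⟩
    · exact ⟨by linarith, by linarith, by rw [abs_le]; constructor <;> linarith [h9.1, h9.2]⟩
  · simp only [if_true, pvge2Aa, pvge2Lm, pvge4Lane, pvge2RN, pvge2RH, pvge2RV] at hw
    rcases hw with (⟨x1, x2, x3, x4⟩ | ⟨x1, x2, x3, x4⟩) | ⟨x1, x2, x3, x4⟩
    · exact ⟨by linarith, by linarith, by rw [abs_le]; constructor <;> linarith⟩
    · exact ⟨by linarith, by linarith, by rw [abs_le]; constructor <;> linarith⟩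
    · exact ⟨by linarith, by linarith, by rw [abs_le]; constructor <;> linarith [h9.1, h9.2]⟩

/-- a point within `ρ' ≤ q / 8` of the lane -/
theorem pviy_lane_nbd (hu : ‖u‖ = 1) (R : Pvge2Rec r δ q dl ρ b μ Sp lam) (β : Bool) {ρ' : ℝ} (hρ' : ρ' ≤ q / 8) {v : ℂ}
    (hv : v ∈ vorNbd (pvge4Lane Yc u (if β then up else !up) r q Sp (pvge2Aa r β) (pvge2Lm lam β)) ρ') :
    21 * r / 200 ≤ pvge2S Yc u v ∧ pvge2S Yc u v ≤ Sp - 27 * q / 8 ∧ |pvge2T Yc u up v - lam| ≤ 19 * r / 100 := by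
  have h1 := R.δ0; have h3 := R.fine; have h9 := abs_le.1 R.lat; have h10 := R.qδ; have h11 := R.q0
  obtain ⟨w, hw, hvw⟩ := hv
  obtain ⟨a1, a2, a3⟩ := pviy_lane R β hw
  have hS := abs_le.1 ((pvge2_S_lip hu Yc v w).trans hvw)
  have hT := abs_le.1 ((pvge2_T_lip hu Yc up v w).trans hvw)
  have a3' := abs_le.1 a3
  refine ⟨by linarith [hS.1], by linarith [hS.2], ?_⟩
  rw [abs_le]
  constructor <;> linarith [hT.1, hT.2, a3'.1, a3'.2, h9.1, h9.2]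

end lane

/-! ## 6. the regions of record at the parameters, absolute position -/

section reg

variable {τ : Type} {c : ℝ} {𝔓 : PvxPar τ c} {m : ℕ} {t : τ}

/-- abscissa of the entrance door in the frame of the entrance mouth -/
noncomputable def pviySp (𝔓 : PvxPar τ c) (m : ℕ) (t : τ) : ℝ := pvegS (pvegYm 𝔓 m t) (-(𝔓.Γ m).din t) ((𝔓.Γ m).pin t)
/-- its lateral coordinate, side `false` -/
noncomputable def pviyLam (𝔓 : PvxPar τ c) (m : ℕ) (t : τ) : ℝ := pvge2Sg false * pvegL (pvegYm 𝔓 m t) (-(𝔓.Γ m).din t) ((𝔓.Γ m).pin t)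

theorem pviy_eqns_cite : True := by
  have := @pviySp.eq_1; have := @pviyLam.eq_1
  trivial

theorem pviy_cm (𝔓 : PvxPar τ c) (m : ℕ) (z : ℂ) (t : τ) : (𝔓.ty t).cm (pvlmH m) z = z + pvegYm 𝔓 m t := rfl

theorem pviy_S_Zi (𝔓 : PvxPar τ c) (m : ℕ) (z : ℂ) (t : τ) : pvge2S ((𝔓.ty t).cm (pvlmH m) z) (-(𝔓.Γ m).din t) (pvieZi 𝔓 m z t) = pviySp 𝔓 m t :=
  pvge3_S_sh z (pvegYm 𝔓 m t) (-(𝔓.Γ m).din t) ((𝔓.Γ m).pin t)

theorem pviy_T_Zi (𝔓 : PvxPar τ c) (m : ℕ) (z : ℂ) (t : τ) : pvge2T ((𝔓.ty t).cm (pvlmH m) z) (-(𝔓.Γ m).din t) false (pvieZi 𝔓 m z t) = pviyLam 𝔓 m t := by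
  show pvge2Sg false * pvegL (z + pvegYm 𝔓 m t) (-(𝔓.Γ m).din t) (z + (𝔓.Γ m).pin t) = _
  rw [pvge3_L_sh]
  rfl

/-- **(W)** the funnel before the door region lies in (mouth) ∪ (tile of record) -/
theorem pviy_mem_W (hL : PvegLev 𝔓 m) (hT : pviwTyOk 𝔓 t) {O₀ : ℕ → Set ℂ} (hO : O₀ m ⊆ pvccSq 0 (13 * pvge3Q c m / 4)) (z : ℂ) {v : ℂ}
    (h1 : pvegR 𝔓 m / 10 + 2 * pvlmDel c m ≤ pvge2S ((𝔓.ty t).cm (pvlmH m) z) (-(𝔓.Γ m).din t) v) (h2 : pvge2S ((𝔓.ty t).cm (pvlmH m) z) (-(𝔓.Γ m).din t) v ≤ pviySp 𝔓 m t - 13 * pvge3Q c m / 4)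
    (h3 : |pvge2T ((𝔓.ty t).cm (pvlmH m) z) (-(𝔓.Γ m).din t) false v - pviyLam 𝔓 m t| ≤ pvegR 𝔓 m / 5) : v ∈ pvieSh z (pvegIM 𝔓 m t) ∪ pvieSh z (pvegIKa 𝔓 O₀ m t) := by
  have hq := pvge3_q_pos c m
  have eS : pvge2S ((𝔓.ty t).cm (pvlmH m) z) (-(𝔓.Γ m).din t) v = pvegS (pvegYm 𝔓 m t) (-(𝔓.Γ m).din t) (v - z) := by
    have := pvge3_S_sh z (pvegYm 𝔓 m t) (-(𝔓.Γ m).din t) (v - z)
    rwa [add_sub_cancel] at this
  have eL : pvge2T ((𝔓.ty t).cm (pvlmH m) z) (-(𝔓.Γ m).din t) false v = pvge2Sg false * pvegL (pvegYm 𝔓 m t) (-(𝔓.Γ m).din t) (v - z) := by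
    have := pvge3_L_sh z (pvegYm 𝔓 m t) (-(𝔓.Γ m).din t) (v - z)
    rw [add_sub_cancel] at this
    show pvge2Sg false * pvegL (z + pvegYm 𝔓 m t) (-(𝔓.Γ m).din t) v = _
    rw [this]
  rw [eS] at h1 h2
  rw [eL] at h3
  by_cases hb : v - z ∈ pvegIM 𝔓 m t
  · exact Or.inl (pvge3_mem_sh.2 hb)
  · refine Or.inr (pvge3_mem_sh.2 ⟨⟨⟨h1, ?_, ?_⟩, hb⟩, fun hvO => ?_⟩)
    · have : pvegA c m = pvge3Q c m / 4 := by unfold pvegA pvge3Q; ring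
      unfold pviySp at h2
      linarith
    · have e : |pvegL (pvegYm 𝔓 m t) (-(𝔓.Γ m).din t) (v - z) - pvegL (pvegYm 𝔓 m t) (-(𝔓.Γ m).din t) ((𝔓.Γ m).pin t)| =
          |pvge2Sg false * pvegL (pvegYm 𝔓 m t) (-(𝔓.Γ m).din t) (v - z) - pviyLam 𝔓 m t| := by
        unfold pviyLam
        rw [← mul_sub, abs_mul, pvge2_sg_abs, one_mul]
      rw [e]
      exact h3
    · have := pvge3_O_front (Y := pvegYm 𝔓 m t) (p := (𝔓.Γ m).pin t) (Or.inr (pvge3_dd_i hL hT)) hO (v - z) hvO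
      unfold pviySp at h2
      linarith

/-- a point of a square, seen from one of the four sides -/
theorem pviy_sq_side {ζ z v : ℂ} {r : ℝ} (hζ : ζ ∈ pvtzdDir) (hv : v ∈ pvwSq z r) : (ζ * v).re ≤ (ζ * z).re + r := by
  obtain ⟨h1, h2⟩ := hv
  rw [abs_le, Complex.sub_re] at h1
  rw [abs_le, Complex.sub_im] at h2
  rcases hζ with rfl | rfl | rfl | rfl <;> simp <;> linarith [h1.1, h1.2, h2.1, h2.2]

/-- **(B)** a point in front of the side of the own-level box -/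
theorem pviy_off_box (hL : PvegLev 𝔓 m) (hT : pviwTyOk 𝔓 t) (z : ℂ) {v : ℂ} (h : pvegR 𝔓 m / 10 < pvge2S ((𝔓.ty t).cm (pvlmH m) z) (-(𝔓.Γ m).din t) v) : v ∉ pvwSq z (pviwRad 𝔓 m t) := by
  intro hv
  have h1 := pviy_sq_side (pvho_dir_i hL t) hv
  have h2 := (abs_le.1 (pvho_side_i hL hT z)).2
  have e : pvge2S ((𝔓.ty t).cm (pvlmH m) z) (-(𝔓.Γ m).din t) v = ((starRingEnd ℂ) (-(𝔓.Γ m).din t) * v).re - ((starRingEnd ℂ) (-(𝔓.Γ m).din t) * (𝔓.ty t).cm (pvlmH m) z).re := by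
    unfold pvge2S
    rw [sub_mul, Complex.sub_re, mul_comm v, mul_comm ((𝔓.ty t).cm (pvlmH m) z)]
  rw [e] at h
  have e2 : pviwRad 𝔓 m t = pvwRad 𝔓.num (pvlmH m) (𝔓.ty t) (𝔓.ty t).k := rfl
  have e3 : pvegR 𝔓 m = 𝔓.num.rho * pvlmH m := rfl
  rw [e2] at h1
  rw [e3] at h
  linarith

end reg

/-! ## 7. the whole placed room of a half lane, the room of `g⁻` -/

section box

variable {z₁ d : ℂ} {r : ℝ}

theorem pviy_Ln_box (hd : ‖d‖ = 1) (hr : 0 < r) (β : Bool) {w : ℂ} (hw : w ∈ pvkdAt z₁ d ((pvhfT r).Ln true β)) :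
    (conj d * z₁).re + r / 2 ≤ (conj d * w).re ∧ (conj d * w).re ≤ (conj d * z₁).re + 5 * r ∧ (conj d * z₁).im - 3 * r / 2 ≤ (conj d * w).im ∧ (conj d * w).im ≤ (conj d * z₁).im + 3 * r / 2 := by
  unfold pvkdAt at hw
  cases β
  · have hw' : w ∈ pvkdAt z₁ d (pvkdRect true (r / 2) (3 * r) (-(3 * r / 2)) (r / 2)) ∪ pvkdAt z₁ d (pvkdRect true (2 * r) (5 * r) (-(3 * r / 2)) (-(r / 2))) := by
      unfold pvkdAt
      rw [← image_union]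
      exact hw
    rcases hw' with h | h
    · obtain ⟨a1, a2, a3, a4⟩ := pvvx_rect hd true z₁ h
      simp only [pvvxZ, cond_true] at a1 a2 a3 a4
      refine ⟨?_, ?_, ?_, ?_⟩ <;> linarith
    · obtain ⟨a1, a2, a3, a4⟩ := pvvx_rect hd true z₁ h
      simp only [pvvxZ, cond_true] at a1 a2 a3 a4
      refine ⟨?_, ?_, ?_, ?_⟩ <;> linarith
  · have hw' : w ∈ pvkdAt z₁ d (pvkdRect true (r / 2) (3 * r) (-(r / 2)) (3 * r / 2)) ∪ pvkdAt z₁ d (pvkdRect true (2 * r) (5 * r) (r / 2) (3 * r / 2)) := by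
      unfold pvkdAt
      rw [← image_union]
      exact hw
    rcases hw' with h | h
    · obtain ⟨a1, a2, a3, a4⟩ := pvvx_rect hd true z₁ h
      simp only [pvvxZ, cond_true] at a1 a2 a3 a4
      refine ⟨?_, ?_, ?_, ?_⟩ <;> linarith
    · obtain ⟨a1, a2, a3, a4⟩ := pvvx_rect hd true z₁ h
      simp only [pvvxZ, cond_true] at a1 a2 a3 a4
      refine ⟨?_, ?_, ?_, ?_⟩ <;> linarith

/-- the room of a half lane of the exit side in the frame of the mouth -/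
theorem pviy_Ln_frame (hd : ‖d‖ = 1) (hr : 0 < r) (β : Bool) (c : ℂ) {w : ℂ} (hw : w ∈ pvkdAt z₁ d ((pvhfT r).Ln true β)) :
    pvge2S c (-d) z₁ - 5 * r ≤ pvge2S c (-d) w ∧ pvge2S c (-d) w ≤ pvge2S c (-d) z₁ - r / 2 ∧ |pvge2T c (-d) false w - pvge2T c (-d) false z₁| ≤ 3 * r / 2 := by
  obtain ⟨a1, a2, a3, a4⟩ := pviy_Ln_box hd hr β hw
  rw [pviy_S c z₁ d w, pviy_T c z₁ d w]
  refine ⟨by linarith, by linarith, ?_⟩
  simp only [pvge2Sg, if_false, Bool.false_eq_true]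
  rw [abs_le]
  constructor <;> linarith

/-- the room of `g⁻` lies behind the door -/
theorem pviy_Zm_frame (hd : ‖d‖ = 1) (c : ℂ) {w : ℂ} (hw : w ∈ pvkdAt z₁ d (pvkdP r).Zm) : pvge2S c (-d) z₁ + r / 2 ≤ pvge2S c (-d) w := by
  have hw' : w ∈ pvkdAt z₁ d (pvkdRect false (r / 2) (2 * r) (-(r / 2)) (r / 2)) := hw
  obtain ⟨a1, -, -, -⟩ := pvvx_rect hd false z₁ hw'
  simp only [pvvxZ, cond_false, neg_mul, Complex.neg_re] at a1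
  rw [pviy_S c z₁ d w]
  linarith

end box

/-! ## 8. THE RUN -/

section main

variable {τ : Type} {c : ℝ} {𝔓 : PvxPar τ c} {𝔈 : PvieEng τ} {m : ℕ} {ε : ℝ} {z : ℂ} {t : τ} {η₀ η : Conf PvPt} {w : ∀ η : Conf PvPt, (delbPl (pvieY η)).Dart → ℂ} {T : PvjeTest}

/-- **WHAT THE RUN ASKS OF THE ROOM `Yr` OF THE LAST LINK** (absolute position; frame of the entrance mouth: `S`, `T` = abscissa and lateral coordinate, `R = ρ h`, `q = δ / 40`) -/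
structure PviyRoom (𝔓 : PvxPar τ c) (m : ℕ) (z : ℂ) (t : τ) (Yr : Set ℂ) : Prop where
  bdd : Bornology.IsBounded Yr
  co : IsPreconnected Yrᶜ
  /-- the small mouth with a collar -/
  ball : closedBall ((𝔓.ty t).cm (pvlmH m) z) (9 * pvegR 𝔓 m / 32) ⊆ Yr
  /-- the funnel, up to the plane `3 q / 8` in front of the door -/
  fnl : ∀ v : ℂ, 21 * pvegR 𝔓 m / 200 ≤ pvge2S ((𝔓.ty t).cm (pvlmH m) z) (-(𝔓.Γ m).din t) v → pvge2S ((𝔓.ty t).cm (pvlmH m) z) (-(𝔓.Γ m).din t) v ≤ pviySp 𝔓 m t - 3 * pvge3Q c m / 8 →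
    |pvge2T ((𝔓.ty t).cm (pvlmH m) z) (-(𝔓.Γ m).din t) false v - pviyLam 𝔓 m t| ≤ 19 * pvegR 𝔓 m / 100 → v ∈ Yr
  /-- nothing behind the door -/
  back : ∀ v ∈ Yr, pvge2S ((𝔓.ty t).cm (pvlmH m) z) (-(𝔓.Γ m).din t) v ≤ pviySp 𝔓 m t

theorem pviy_pat_rel (𝔓 : PvxPar τ c) (m : ℕ) (z : ℂ) (t : τ) : pvw7Fl (𝔓.col t) (pvge3PatI 𝔓 m z t) =
    pvge2PatRec ((𝔓.ty t).cm (pvlmH m) z) (-(𝔓.Γ m).din t) false true (pvegR 𝔓 m) (pvge3Q c m) (pviySp 𝔓 m t) (pviyLam 𝔓 m t) := by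
  unfold pvge3PatI pvge3PatIb pvge2PatRec pvge2Pat pvw7Fl pviySp pviyLam
  cases 𝔓.col t <;> rfl

/-- **(b3) + (b1): THE LAST LINK SUCCEEDS AT EVERY FINAL CONFIGURATION, WITH THE HULL OF THE BASE.**      Generic in the engine: mouth and tile of record (`eM eK eO hO`), ANY room with the contract `PviyRoom`, ANY tests whose pattern carries the pattern of record and a mesh `μ₁` of mouth ∪ tile,
whose side event is the placed `S⁺` of 174 for ANY truncation with the lanes of record;   certificates AT THE BASE: mesh `μ₀` of the own-level box, of the mouth, of the big mouth. -/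
theorem pviy_A (n : PvhoNum 𝔓) (hL : PvegLev 𝔓 m) (hT : pviwTyOk 𝔓 t) (hf : 10000 * pvlmDel c m ≤ pvegR 𝔓 m)
    (hc : ∀ w ∈ 𝔓.cm t, ‖w - (𝔓.ty t).ym‖ ≤ 𝔓.num.rho / 10)
    {O₀ : ℕ → Set ℂ} (eM : 𝔈.iM m t = pvegIM 𝔓 m t) (eK : 𝔈.iK m t = pvegIKa 𝔓 O₀ m t) (eO : (𝔈.kit m ε).O₀ = O₀ m) (hO : O₀ m ⊆ pvccSq 0 (13 * pvge3Q c m / 4))
    (hY : PviyRoom 𝔓 m z t (pvieSh z (𝔈.iY m t)))
    {μ₀ μ₁ : ℝ} (hμ₀ : 0 < μ₀) (h3 : 3 * μ₀ ≤ pvlmDel c m) (hr : μ₀ < (𝔓.ty t).b * pvlmH m) (hμ₁ : 0 < μ₁) (h32 : 32 * μ₁ ≤ pvge3Q c m)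
    (hm : η₀ ∈ pvrgMesh μ₀ (pvieSh z (pviwBox 𝔓 m t))) (hmM : η₀ ∈ pvrgMesh μ₀ (pvieSh z (𝔈.iM m t)))
    (mesh : VorDense (pvieY η₀) (closedBall ((𝔓.ty t).cm (pvlmH m) z) (𝔓.num.rho2 * pvlmH m + 3 * μ₀)) μ₀)
    (hTK : T.𝒦 ⊆ pvkqPat (pvge3Dl c m) (pvge3PatI 𝔓 m z t)) (hTM : ∀ ξ ∈ T.𝒦, PvtrMesh μ₁ (pvieSh z (𝔈.iM m t) ∪ pvieSh z (𝔈.iK m t)) (cfSites ξ))
    {𝔱 : PvhfTr} (hG : PvhfGeo (pvkdP (1 / 40)) 𝔱) (hLn : 𝔱.Ln = (pvhfT (1 / 40)).Ln) (hDr : 𝔱.Dr = (pvhfT (1 / 40)).Dr)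
    (hTH : T.ℋ ⊆ pvdpPl (pvieZi 𝔓 m z t) ((𝔓.Γ m).din t * pvlmDel c m) (𝔓.col t) (pvhfS (pvkdP (1 / 40)) 𝔱 true))
    (hU : η₀ ∈ pvilUi 𝔓.num (𝔓.col t) (pvilPin 𝔓 m z t)) (hF : PvjeFin (pvjeI 𝔓 𝔈 w m ε z t) T η₀ η) :
    η ∈ (pvilLi 𝔓 𝔈 m z t).A 𝔓.num (𝔓.col t) ∧ pvilZi 𝔓 m z t η = pvilZi 𝔓 m z t η₀ := by
  obtain ⟨𝔖₀, h₀⟩ := hU
  have hδ := pvlm_Del_pos c m
  have hR : 0 < pvegR 𝔓 m := pveg_R_pos hL
  have eR : pvegR 𝔓 m = 𝔓.num.rho * pvlmH m := rfl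
  have hq := pvge3_q_pos c m
  have eq : pvge3Q c m = pvlmDel c m / 40 := rfl
  have edl : pvge3Dl c m = pvlmDel c m / 1280 := rfl
  have hu : ‖-(𝔓.Γ m).din t‖ = 1 := pvge3_u_i hL hT
  have hd1 : ‖(𝔓.Γ m).din t‖ = 1 := by rwa [norm_neg] at hu
  obtain ⟨s1, s2, s3, s0⟩ := pvho_small n m
  have hOr : 13 * pvge3Q c m / 4 ≤ pvlmDel c m / 4 := by rw [eq]; linarith
  -- the regions
  have hKoff : Disjoint (𝔈.iK m t) (pviwBox 𝔓 m t) := eK ▸ pveg_iKa_off hL hT O₀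
  have hDoff : Disjoint (pviwDi 𝔓 𝔈 m ε t) (pviwBox 𝔓 m t) := by
    show Disjoint (pvthSim ((𝔓.Γ m).pin t) ((𝔓.Γ m).din t) '' (𝔈.kit m ε).O₀) _
    rw [eO]
    exact pvho_door_off_i hL hT hO hOr
  have hpw := pveg_i_disj_a hL hT hO hOr
  simp only [List.pairwise_cons, List.mem_cons, List.not_mem_nil, or_false, forall_eq_or_imp, forall_eq, IsEmpty.forall_iff, implies_true, List.Pairwise.nil, and_true] at hpw
  have hinj : Function.Injective (fun w : ℂ => z + w) := add_right_injective z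
  have hMK : Disjoint (pvjeI 𝔓 𝔈 w m ε z t).M (pvjeI 𝔓 𝔈 w m ε z t).K := by
    show Disjoint (pvieSh z (𝔈.iM m t)) (pvieSh z (𝔈.iK m t))
    rw [eM, eK]
    exact (Set.disjoint_image_iff hinj).2 hpw.1.1
  have hMD : Disjoint (pvjeI 𝔓 𝔈 w m ε z t).M (pvjeI 𝔓 𝔈 w m ε z t).D := by
    show Disjoint (pvieSh z (𝔈.iM m t)) (pvthSim (z + (𝔓.Γ m).pin t) ((𝔓.Γ m).din t) '' (𝔈.kit m ε).O₀)
    rw [eM, eO, pvho_sh_sim]
    exact (Set.disjoint_image_iff hinj).2 hpw.1.2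
  have eMb : pvieSh z (𝔈.iM m t) = closedBall ((𝔓.ty t).cm (pvlmH m) z) (5 * pvegR 𝔓 m / 16) := by rw [eM]; exact pvho_iM 𝔓 m t z
  -- the tip at the base
  have hb : (𝔓.ty t).b * pvlmH m ≤ pviwRad 𝔓 m t := by
    have := pvho_rad n m t
    have h4 := pvlm_H_pos m
    show _ ≤ pvwRad 𝔓.num (pvlmH m) (𝔓.ty t) (𝔓.ty t).k
    linarith
  have tip := pvho_tip_i hc h₀ hμ₀ (pvho_dense_mono mesh (by linarith))
  have E : PvhjEndD (pvieY η₀) 𝔓.num (pvlmH m) (𝔓.ty t) z ((𝔓.ty t).cm (pvlmH m) z) univ (𝔓.num.rho2 * pvlmH m) (𝔓.num.rho * pvlmH m / 2) μ₀ (pvegR 𝔓 m / 4) (pvegR 𝔓 m / 10 + 4 * μ₀)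
      ((starRingEnd ℂ) (-(𝔓.Γ m).din t)) :=
    pvho_endD_i n hL hT z hμ₀ (by rw [← eR]; linarith) (by rw [← eR]) (by rw [← eR]; linarith) (by rw [← eR]; linarith) (by rw [← eR]; linarith) mesh (fun _ _ => mem_univ _)
  obtain ⟨𝔖', hp', eZ, es, κ, k1, k5, foot⟩ := pviy_foot_i hμ₀ h3 hb hr hKoff hDoff hm h₀ hF hMK hMD hμ₀ hmM E (by rw [eR]; linarith [tip.1]) (by rw [eR]; linarith [tip.2])
    (by rw [eMb]; exact closedBall_subset_closedBall (by linarith))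
  refine ⟨?_, eZ⟩
  -- the final configuration: mesh of mouth ∪ tile, pattern in relative colours
  have hgood : DelGood (pvieY η) := hF.nice.good
  have hmW : PvtrMesh μ₁ (pvieSh z (𝔈.iM m t) ∪ pvieSh z (𝔈.iK m t)) (pvieY η) := by
    have := hTM _ k1
    rwa [cfOf_sites] at this
  have hev : cfOf (pvieY η) (pvhcK κ (𝔓.col t)) ∈ pvkqPat (pvge3Dl c m)
      (pvge2PatRec ((𝔓.ty t).cm (pvlmH m) z) (-(𝔓.Γ m).din t) false true (pvegR 𝔓 m) (pvge3Q c m) (pviySp 𝔓 m t) (pviyLam 𝔓 m t)) := by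
    rw [← pviy_pat_rel]
    exact (pvw7_pat_iff (cfSites η) κ (𝔓.col t) (pvge3Dl c m) (pvge3PatI 𝔓 m z t)).2 (hTK k1)
  have Rc : Pvge2Rec (pvegR 𝔓 m) (pvlmDel c m) (pvge3Q c m) (pvge3Dl c m) (pvlmDel c m / 1000) (pvegR 𝔓 m / 10 + 4 * μ₀) (2 * μ₀) (pviySp 𝔓 m t) (pviyLam 𝔓 m t) :=
    pvge3_rec_i hL hT hf (by linarith) (by linarith) (by linarith) (by linarith)
  have hSlo := Rc.s_lo
  have memW : ∀ v : ℂ, pvegR 𝔓 m / 10 + 2 * pvlmDel c m ≤ pvge2S ((𝔓.ty t).cm (pvlmH m) z) (-(𝔓.Γ m).din t) v → pvge2S ((𝔓.ty t).cm (pvlmH m) z) (-(𝔓.Γ m).din t) v ≤ pviySp 𝔓 m t - 13 * pvge3Q c m / 4 →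
      |pvge2T ((𝔓.ty t).cm (pvlmH m) z) (-(𝔓.Γ m).din t) false v - pviyLam 𝔓 m t| ≤ pvegR 𝔓 m / 5 → v ∈ pvieSh z (𝔈.iM m t) ∪ pvieSh z (𝔈.iK m t) := by
    intro v a1 a2 a3
    rw [eM, eK]
    exact pviy_mem_W hL hT hO z a1 a2 a3
  -- the door
  obtain ⟨g, hsd⟩ := pvyo_side hG true hd1 hδ hF.one hgood (hTH hF.side)
  have eqa : pvlmDel c m * (1 / 40) = pvge3Q c m := by rw [eq]; ring
  have hdoor : PvilDoor (pvkdP (pvge3Q c m)) (𝔓.col t) η (pvieZi 𝔓 m z t) ((𝔓.Γ m).din t) (pvilStS (pvkdP (pvge3Q c m)) η (pvieCol η (𝔓.col t)) (pvieZi 𝔓 m z t) g) := by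
    have := hsd.door hG hF.nice
    rwa [pvdil_P hδ, eqa] at this
  obtain ⟨D1, D2, D3, D4, D5⟩ := pviy_door (by norm_num : (0 : ℝ) < 1 / 40) hδ hd1 hG hLn hDr hsd ((𝔓.ty t).cm (pvlmH m) z)
  rw [eqa, pviy_S_Zi] at D2 D3
  rw [eqa] at D4 D5
  simp only [eqa, pviy_S_Zi, pviy_T_Zi] at D1
  have hgate := hsd.gate
  obtain ⟨nn, hn⟩ := hgate.thru
  -- the link region
  obtain ⟨kf, kco⟩ := pvhj_K_pl (h := hgood) (delb_pl_eq hgood) hY.co (by rw [compl_compl]; exact hY.bdd)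
  have hYd : ∀ A : Set ℂ, A ⊆ pvieSh z (𝔈.iY m t) → Disjoint A (pvieSh z (𝔈.iY m t))ᶜ := fun A hA => Set.disjoint_compl_right_iff_subset.2 hA
  have tri : ∀ (x y : ℂ) (a b : ℝ), ‖y - (𝔓.ty t).cm (pvlmH m) z‖ ≤ a → x ∈ closedBall y b → x ∈ closedBall ((𝔓.ty t).cm (pvlmH m) z) (a + b) := by
    intro x y a b h1 h2
    rw [mem_closedBall, dist_eq_norm] at h2 ⊢
    have := pvhg_tri3 x y ((𝔓.ty t).cm (pvlmH m) z)
    linarith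
  have inK : ∀ v : pvieY η, ‖(v : ℂ) - (𝔓.ty t).cm (pvlmH m) z‖ < pvegR 𝔓 m / 4 + 4 * μ₀ → v ∈ pvgeKV (pvieY η) (pvieSh z (𝔈.iY m t))ᶜ := by
    intro v hv
    have hcore : (v : ℂ) ∈ pvtrCore (3 * μ₁) (pvieSh z (𝔈.iM m t) ∪ pvieSh z (𝔈.iK m t)) := by
      intro x hx
      refine Or.inl ?_
      rw [eMb]
      exact closedBall_subset_closedBall (by linarith) (tri x v _ _ hv.le hx)
    refine pvdd_mem_KV (pvdd_cell_ball hμ₁ hmW hcore) (hYd _ fun x hx => hY.ball ?_)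
    exact closedBall_subset_closedBall (by linarith) (tri x v _ _ hv.le hx)
  -- the tip dart
  have st' := pvhc_st_in hp'
  have hbw : pvasBW (pvieT η) (pvieCol η (𝔓.col t)) (𝔖'.em 𝔖'.nm) := pvwk_em_bw st'.stub st'.gate.bw_m le_rfl
  have hStip : pvge2S ((𝔓.ty t).cm (pvlmH m) z) (-(𝔓.Γ m).din t) (((pvieT η).src (𝔖'.em 𝔖'.nm) : pvieY η) : ℂ) ≤ pvegR 𝔓 m / 10 := by
    have h1 := pvge2_S_lip hu ((𝔓.ty t).cm (pvlmH m) z) (((pvieT η).src (𝔖'.em 𝔖'.nm) : pvieY η) : ℂ) ((𝔓.ty t).cm (pvlmH m) z)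
    have h2 : pvge2S ((𝔓.ty t).cm (pvlmH m) z) (-(𝔓.Γ m).din t) ((𝔓.ty t).cm (pvlmH m) z) = 0 := by unfold pvge2S; simp
    rw [h2, sub_zero, ← es] at h1
    have := (abs_le.1 (h1.trans tip.1)).2
    rw [← es, eR]
    exact this
  have hvp : pviySp 𝔓 m t - 13 * pvge3Q c m / 4 ≤ pvge2S ((𝔓.ty t).cm (pvlmH m) z) (-(𝔓.Γ m).din t) ((g.vp : pvieY η) : ℂ) := by
    have := D3 true
    rwa [show pvhiEnd (pvkiT η) true g.aOut = g.vp from pvtg_aOut_src g] at this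
  have hne : g.vp ≠ (pvieT η).src (𝔖'.em 𝔖'.nm) := by
    intro e
    rw [e] at hvp
    linarith
  have hvm : g.vm ∉ pvgeKV (pvieY η) (pvieSh z (𝔈.iY m t))ᶜ := by
    intro hK
    have h1 := hY.back _ (pvhg_KV_over hK)
    have h2 := pviy_Zm_frame hd1 ((𝔓.ty t).cm (pvlmH m) z) (pvvx_gm_pos hdoor)
    rw [pviy_S_Zi] at h2
    have h2' : pviySp 𝔓 m t + pvge3Q c m / 2 ≤ pvge2S ((𝔓.ty t).cm (pvlmH m) z) (-(𝔓.Γ m).din t) ((g.vm : pvieY η) : ℂ) := h2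
    linarith
  have hleft : 𝔖'.em 𝔖'.nm ∉ g.c.Left := by
    refine pvvx_hleft hdoor ?_
    have h1 := pvge2_S_lip hu ((𝔓.ty t).cm (pvlmH m) z) (((pvieT η).src (𝔖'.em 𝔖'.nm) : pvieY η) : ℂ) (pvieZi 𝔓 m z t)
    rw [pviy_S_Zi] at h1
    have h2 := (abs_le.1 h1).1
    show 2 * pvge3Q c m ≤ _
    linarith
  have hOut : ∃ f, (pvieT η).src f ∉ pvgeKV (pvieY η) (pvieSh z (𝔈.iY m t))ᶜ ∧
      (pvieT η).DJoin (pvldBar (pvieT η) (pvieCol η (𝔓.col t)) (pvgeKV (pvieY η) (pvieSh z (𝔈.iY m t))ᶜ) g.aOut (𝔖'.em 𝔖'.nm)) ((pvieT η).opp g.aOut) f :=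
    pvhg_out_gate hn hbw hvm hleft
  -- closing sets, lanes
  have eβ : ∀ β : Bool, (if β then false else !false) = !β := fun β => by cases β <;> rfl
  have hdS : ∀ β, VorDense (pvieY η) (pvge2Cl ((𝔓.ty t).cm (pvlmH m) z) (-(𝔓.Γ m).din t) (!β) (pvge2Aa (pvegR 𝔓 m) β) (23 * pvegR 𝔓 m / 200) (3 * pvegR 𝔓 m / 20) (pvge3Dl c m)) (pvlmDel c m / 1000) := by
    intro β
    refine pvdd_dense_of hmW (fun x hx y hy => Or.inl ?_) (by linarith)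
    have h1 : ‖x - (𝔓.ty t).cm (pvlmH m) z‖ ≤ pvegR 𝔓 m / 4 :=
      pvge2_arm_near hu (Rc.num β) ⟨x, Or.inr hx, by rw [sub_self, norm_zero]; linarith⟩
    rw [eMb]
    exact closedBall_subset_closedBall (by linarith) (tri y x _ _ h1 hy)
  have mid : ∀ β, ∀ v : pvieY η, (vorCell (pvieY η) v ∩ pvge4Lane ((𝔓.ty t).cm (pvlmH m) z) (-(𝔓.Γ m).din t) (!β) (pvegR 𝔓 m) (pvge3Q c m) (pviySp 𝔓 m t) (pvge2Aa (pvegR 𝔓 m) β) (pvge2Lm (pviyLam 𝔓 m t) β)).Nonempty →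
      v ∈ pvgeKV (pvieY η) (pvieSh z (𝔈.iY m t))ᶜ ∧ pvieCol η (𝔓.col t) v = pvhcK κ (𝔓.col t) v := by
    intro β
    have nb : ∀ ρ' : ℝ, ρ' ≤ pvge3Q c m / 8 → ∀ x ∈ vorNbd (pvge4Lane ((𝔓.ty t).cm (pvlmH m) z) (-(𝔓.Γ m).din t) (!β) (pvegR 𝔓 m) (pvge3Q c m) (pviySp 𝔓 m t) (pvge2Aa (pvegR 𝔓 m) β) (pvge2Lm (pviyLam 𝔓 m t) β)) ρ',
        21 * pvegR 𝔓 m / 200 ≤ pvge2S ((𝔓.ty t).cm (pvlmH m) z) (-(𝔓.Γ m).din t) x ∧ pvge2S ((𝔓.ty t).cm (pvlmH m) z) (-(𝔓.Γ m).din t) x ≤ pviySp 𝔓 m t - 27 * pvge3Q c m / 8 ∧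
          |pvge2T ((𝔓.ty t).cm (pvlmH m) z) (-(𝔓.Γ m).din t) false x - pviyLam 𝔓 m t| ≤ 19 * pvegR 𝔓 m / 100 := by
      intro ρ' hρ' x hx
      rw [← eβ β] at hx
      exact pviy_lane_nbd hu Rc β hρ' hx
    refine pvdd_mid_of hμ₁ hmW (fun x hx y hy => ?_) (hYd _ fun x hx => ?_) (fun v hv => ?_)
    · obtain ⟨a1, a2, a3⟩ := nb (4 * μ₁) (by linarith) y ⟨x, hx, by rwa [mem_closedBall, dist_eq_norm] at hy⟩
      exact memW y (by linarith) (by linarith) (by linarith)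
    · obtain ⟨a1, a2, a3⟩ := nb (2 * μ₁) (by linarith) x hx
      exact hY.fnl x a1 (by linarith) a3
    · obtain ⟨a1, a2, a3⟩ := nb μ₁ (by linarith) v hv
      exact k5 v (memW v (by linarith) (by linarith) (by linarith)) (pviy_off_box hL hT z (by linarith))
  -- the rooms of the half lanes
  have hRm : ∀ β, ∀ v : pvieY η, (v : ℂ) ∈ pvkdAt (pvieZi 𝔓 m z t) ((𝔓.Γ m).din t) ((pvhfT (pvge3Q c m)).Ln true β) →
      v ∈ pvgeKV (pvieY η) (pvieSh z (𝔈.iY m t))ᶜ ∧ vorCell (pvieY η) v ⊆ closedBall (v : ℂ) (pvge3Q c m / 16) := by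
    intro β
    refine pvdd_room_of (by linarith) D4 (D5 β) (hYd _ ?_)
    rintro x ⟨y, hy, hxy⟩
    obtain ⟨a1, a2, a3⟩ := pviy_Ln_frame hd1 hq β ((𝔓.ty t).cm (pvlmH m) z) hy
    rw [pviy_S_Zi] at a1 a2
    rw [pviy_T_Zi] at a3
    have hS := abs_le.1 ((pvge2_S_lip hu ((𝔓.ty t).cm (pvlmH m) z) x y).trans hxy)
    have hT' := abs_le.1 ((pvge2_T_lip hu ((𝔓.ty t).cm (pvlmH m) z) false x y).trans hxy)
    have a3' := abs_le.1 a3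
    refine hY.fnl x (by linarith [hS.1]) (by linarith [hS.2]) ?_
    rw [abs_le]
    constructor <;> linarith [hT'.1, hT'.2, a3'.1, a3'.2]
  have hRκ : ∀ β, ∀ v : pvieY η, (v : ℂ) ∈ pvkdAt (pvieZi 𝔓 m z t) ((𝔓.Γ m).din t) ((pvhfT (pvge3Q c m)).Ln true β) →
      pvge2S ((𝔓.ty t).cm (pvlmH m) z) (-(𝔓.Γ m).din t) (v : ℂ) < pviySp 𝔓 m t - 13 * pvge3Q c m / 4 → pvieCol η (𝔓.col t) v = pvhcK κ (𝔓.col t) v := by
    intro β v hv hx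
    obtain ⟨a1, a2, a3⟩ := pviy_Ln_frame hd1 hq β ((𝔓.ty t).cm (pvlmH m) z) hv
    rw [pviy_S_Zi] at a1 a2
    rw [pviy_T_Zi] at a3
    exact k5 v (memW v (by linarith) hx.le (by linarith)) (pviy_off_box hL hT z (by linarith))
  -- the run
  have hrun : PvldRun (pvieT η) (pvieCol η (𝔓.col t)) (pvgeKV (pvieY η) (pvieSh z (𝔈.iY m t))ᶜ) g.aOut (𝔖'.em 𝔖'.nm) :=
    pviy_rec_i (h := hgood) (delb_pl_eq hgood) hbw hu (fun GN GC A => foot _ GN GC _ A inK) kf kco g hne hOut Rc hμ₀.le (by linarith) hev (by rw [edl]; linarith) hdS mid D1 D2 D3 hRm hRκ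
  refine pvha_A_dp (L := pvilLi 𝔓 𝔈 m z t) (K := pvgeKV (pvieY η) (pvieSh z (𝔈.iY m t))ᶜ) rfl rfl hdoor hp' ?_ (fun v hv => pvhg_KV_over hv) hrun
  have egp : (pvilStS (pvkdP (pvge3Q c m)) η (pvieCol η (𝔓.col t)) (pvieZi 𝔓 m z t) g).gp = g.vp := pvtg_aOut_src g
  have ebx : pvhaBx 𝔓.num (pvilLi 𝔓 𝔈 m z t).p' = pvwSq z (pviwRad 𝔓 m t) := pvha_bx_std (N := 𝔓.num) (pvhc_pin_fr 𝔓 m z t)
  rw [egp, ebx]
  exact pviy_off_box hL hT z (lt_of_lt_of_le (by linarith) hvp)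

end main

end Claimed.Agent.R289
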