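-- KEEP
import Claimed.Agent.R289.Exit.ParEngY
import Claimed.Agent.R289.Exit.EngYc
import Claimed.Agent.R289.Exit.GoodEM
import Claimed.Agent.R289.Exit.EngAll

/-!
# Row 289 (S0537), THE WALL, ROAD E, file Exit/ParRec2 : THE ROOMS OF RECORD, READ BY COMPILATION      (helper187, post of 24 13:28Z, R25 of 234; prefix `pvz7_`)

THE FINAL ROOMS (R25): `oY iY := pvegOYc pvegIYc` (245, `Exit/ParEngY`), `eY fY rY :=` open `3 μ₀`-cores `pvvzCo` (118, `Exit/EngYc`) of the old rooms.      Every line is stated AT THE DEFINITIONS (generic `𝔓`, hypotheses `PvegLev`, `pviwTyOk`), then at `pvxParOf N hN c`: no line names the engine, so no swap of a field touches this file.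
* sec. 0  balls in a core: `pvz7_core_ball`
* sec. 1  (Re) for ONE door, local frame: `pvz7_Yc_mouth _fun _neck` (a closed ball inside the room)
* sec. 2  (Re) at the parameters, DOOR FRAME: **`pvz7_oYc_door`, `pvz7_iYc_door`** (rectangle behind / in front of the door), **`pvz7_oYc_lane`, `pvz7_iYc_lane`** (NUMERAL SEAM of 233: the rooms of the near half lanes of the door plug `pvkdP (δ/40)`, fattened by `s ≤ δ/160`), `pvz7_oYc_mouth`, `pvz7_iYc_mouth`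
* sec. 3  (Re) THE PATTERN OF RECORD of 298 lies in the core of the room: `pvz7_patRec_win`, **`pvz7_pat_o`, `pvz7_pat_i`**
* sec. 4  placed forms and the record
-/

set_option autoImplicit false

namespace Claimed.Agent.R289

open Set Metric Complex

/-! ## 0. balls in a core -/

/-- a ball of radius `s` round `x` lies in the open `r`-core of `Y` as soon as the ball of radius `ρ > r + s` lies in `Y` -/
theorem pvz7_core_ball {r s ρ : ℝ} {Y : Set ℂ} {x : ℂ} (hb : Bornology.IsBounded Y) (h : r + s < ρ) (hx : closedBall x ρ ⊆ Y) : closedBall x s ⊆ pvvzCo r Y := by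
  intro y hy
  refine pvvz_mem_bdd hb (r' := ρ - s) (by linarith) ((closedBall_subset_closedBall' ?_).trans hx)
  rw [mem_closedBall] at hy
  linarith

/-! ## 1. one door, local frame -/

section door

variable {Y u p : ℂ} {e δ w rM a s μ σ : ℝ} {v : ℂ}

/-- (Re) a ball inside the shrunk mouth -/
theorem pvz7_Yc_mouth (h : ‖v - Y‖ + σ ≤ rM - μ) : closedBall v σ ⊆ pvegYc Y u p e δ w rM a s μ := by
  intro x hx
  refine pvey_mem_ball ?_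
  rw [mem_closedBall_iff_norm] at hx
  have : ‖x - Y‖ ≤ ‖x - v‖ + ‖v - Y‖ := by
    have := norm_add_le (x - v) (v - Y)
    simpa using this
  linarith

/-- (Re) a ball inside the shrunk funnel -/
theorem pvz7_Yc_fun (hu : u ^ 4 = 1) (h1 : e + 2 * δ + μ + σ ≤ pvegS Y u v) (h2 : pvegS Y u v + σ ≤ pvegS Y u p - a - μ) (h3 : |pvegL Y u v - pvegL Y u p| + σ ≤ w - μ) :
    closedBall v σ ⊆ pvegYc Y u p e δ w rM a s μ := by
  intro x hx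
  have hv : v ∈ pveyRe Y u (pvegS Y u v) (pvegS Y u v) (pvegL Y u p) (|pvegL Y u v - pvegL Y u p|) := ⟨le_rfl, le_rfl, le_rfl⟩
  obtain ⟨a1, a2, a3⟩ := pvey_Re_collar hu Y hv hx
  exact pvey_mem_fun (by linarith) (by linarith) (by linarith)

/-- (Re) a ball inside the neck, up to the plane of W-7 -/
theorem pvz7_Yc_neck (hu : u ^ 4 = 1) (h1 : e + 2 * δ + μ + σ ≤ pvegS Y u v) (h2 : pvegS Y u v + σ ≤ pvegS Y u p - a) (h3 : |pvegL Y u v - pvegL Y u p| + σ ≤ s - μ) :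
    closedBall v σ ⊆ pvegYc Y u p e δ w rM a s μ := by
  intro x hx
  have hv : v ∈ pveyRe Y u (pvegS Y u v) (pvegS Y u v) (pvegL Y u p) (|pvegL Y u v - pvegL Y u p|) := ⟨le_rfl, le_rfl, le_rfl⟩
  obtain ⟨a1, a2, a3⟩ := pvey_Re_collar hu Y hv hx
  exact pvey_mem_neck (by linarith) (by linarith) (by linarith)

end door

/-- the rooms of the ENTRANCE half lanes of the plug of record -/
theorem pvz7_Ln_in {r : ℝ} (hr : 0 < r) (b : Bool) {w : ℂ} (hw : w ∈ (pvkdP r).Ln false b) : -(7 * r) ≤ w.re ∧ w.re ≤ -(r / 2) ∧ |w.im| ≤ 3 * r / 2 := by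
  cases b
  · simp only [pvkdP, pvkdRect, Bool.false_eq_true, if_false, rswRect, mem_union, mem_ofPred_eq] at hw
    rcases hw with ⟨h1, h2, h3, h4⟩ | ⟨h1, h2, h3, h4⟩
    · exact ⟨by linarith, h2, abs_le.2 ⟨by linarith, by linarith⟩⟩
    · exact ⟨h1, by linarith, abs_le.2 ⟨by linarith, by linarith⟩⟩
  · simp only [pvkdP, pvkdRect, Bool.false_eq_true, if_false, if_true, rswRect, mem_union, mem_ofPred_eq] at hw
    rcases hw with ⟨h1, h2, h3, h4⟩ | ⟨h1, h2, h3, h4⟩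
    · exact ⟨by linarith, h2, abs_le.2 ⟨by linarith, by linarith⟩⟩
    · exact ⟨h1, by linarith, abs_le.2 ⟨by linarith, by linarith⟩⟩

/-- the rooms of the EXIT half lanes of the plug of record -/
theorem pvz7_Ln_out {r : ℝ} (hr : 0 < r) (b : Bool) {w : ℂ} (hw : w ∈ (pvkdP r).Ln true b) : r / 2 ≤ w.re ∧ w.re ≤ 7 * r ∧ |w.im| ≤ 3 * r / 2 := by
  cases b
  · simp only [pvkdP, pvkdRect, Bool.false_eq_true, if_false, if_true, rswRect, mem_union, mem_ofPred_eq] at hw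
    rcases hw with ⟨h1, h2, h3, h4⟩ | ⟨h1, h2, h3, h4⟩
    · exact ⟨h1, by linarith, abs_le.2 ⟨by linarith, by linarith⟩⟩
    · exact ⟨by linarith, h2, abs_le.2 ⟨by linarith, by linarith⟩⟩
  · simp only [pvkdP, pvkdRect, if_true, rswRect, mem_union, mem_ofPred_eq] at hw
    rcases hw with ⟨h1, h2, h3, h4⟩ | ⟨h1, h2, h3, h4⟩
    · exact ⟨h1, by linarith, abs_le.2 ⟨by linarith, by linarith⟩⟩
    · exact ⟨by linarith, h2, abs_le.2 ⟨by linarith, by linarith⟩⟩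

/-! ## 2. at the parameters, in the frame of the door -/

section par

variable {τ : Type} {c : ℝ} {𝔓 : PvxPar τ c} {m : ℕ} {t : τ} {w : ℂ} {σ : ℝ}

/-- **(Re), first link, NECK**: the rectangle `[-ρh/5, -δ/160] × [-(3r - 3μ₀), 3r - 3μ₀]` of the frame of the exit door -/
theorem pvz7_oYc_door (hL : PvegLev 𝔓 m) (hT : pviwTyOk 𝔓 t) (h1 : -(pvegR 𝔓 m / 5) ≤ w.re - σ) (h2 : w.re + σ ≤ -pvegA c m) (h3 : |w.im| + σ ≤ 3 * (pvlmDel c m / 40) - 3 * pvilMu 𝔓 m) :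
    closedBall (pvthSim ((𝔓.Γ m).pout t) ((𝔓.Γ m).dout t) w) σ ⊆ pvegOYc 𝔓 m t := by
  have D := pveg_door_o hL hT
  have hf : 64 * pvlmDel c m ≤ pvegR 𝔓 m := hL.fine
  have hδ := pvlm_Del_pos c m
  have hμ := pvey_mu_le (𝔓 := 𝔓) m
  have eS := pvge3_S_at (pvegYp 𝔓 m t) ((𝔓.Γ m).dout t) ((𝔓.Γ m).pout t) ((𝔓.Γ m).dout t) w
  have eL := pvge3_L_at (pvegYp 𝔓 m t) ((𝔓.Γ m).dout t) ((𝔓.Γ m).pout t) ((𝔓.Γ m).dout t) w
  rw [pvge3_dd_o hL hT, one_mul] at eS eL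
  refine pvz7_Yc_neck D.u4 ?_ ?_ ?_
  · rw [eS]; linarith [D.s_lo]
  · rw [eS]; linarith
  · rw [eL, add_sub_cancel_left]; exact h3

/-- **(Re), first link, FUNNEL**: the rectangle `[-ρh/5, -δ/160 - 3μ₀] × [-(ρh/5 - 3μ₀), ρh/5 - 3μ₀]` of the frame of the exit door -/
theorem pvz7_oYc_fun (hL : PvegLev 𝔓 m) (hT : pviwTyOk 𝔓 t) (h1 : -(pvegR 𝔓 m / 5) ≤ w.re - σ) (h2 : w.re + σ ≤ -pvegA c m - 3 * pvilMu 𝔓 m) (h3 : |w.im| + σ ≤ pvegR 𝔓 m / 5 - 3 * pvilMu 𝔓 m) :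
    closedBall (pvthSim ((𝔓.Γ m).pout t) ((𝔓.Γ m).dout t) w) σ ⊆ pvegOYc 𝔓 m t := by
  have D := pveg_door_o hL hT
  have hf : 64 * pvlmDel c m ≤ pvegR 𝔓 m := hL.fine
  have hδ := pvlm_Del_pos c m
  have hμ := pvey_mu_le (𝔓 := 𝔓) m
  have eS := pvge3_S_at (pvegYp 𝔓 m t) ((𝔓.Γ m).dout t) ((𝔓.Γ m).pout t) ((𝔓.Γ m).dout t) w
  have eL := pvge3_L_at (pvegYp 𝔓 m t) ((𝔓.Γ m).dout t) ((𝔓.Γ m).pout t) ((𝔓.Γ m).dout t) w
  rw [pvge3_dd_o hL hT, one_mul] at eS eL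
  refine pvz7_Yc_fun D.u4 ?_ ?_ ?_
  · rw [eS]; linarith [D.s_lo]
  · rw [eS]; linarith
  · rw [eL, add_sub_cancel_left]; exact h3

/-- **(Re), last link, NECK**: the rectangle `[δ/160, ρh/5] × [-(3r - 3μ₀), 3r - 3μ₀]` of the frame of the entrance door -/
theorem pvz7_iYc_door (hL : PvegLev 𝔓 m) (hT : pviwTyOk 𝔓 t) (h1 : w.re + σ ≤ pvegR 𝔓 m / 5) (h2 : pvegA c m ≤ w.re - σ) (h3 : |w.im| + σ ≤ 3 * (pvlmDel c m / 40) - 3 * pvilMu 𝔓 m) :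
    closedBall (pvthSim ((𝔓.Γ m).pin t) ((𝔓.Γ m).din t) w) σ ⊆ pvegIYc 𝔓 m t := by
  have D := pveg_door_i hL hT
  have hf : 64 * pvlmDel c m ≤ pvegR 𝔓 m := hL.fine
  have hδ := pvlm_Del_pos c m
  have hμ := pvey_mu_le (𝔓 := 𝔓) m
  have eS := pvge3_S_at (pvegYm 𝔓 m t) (-(𝔓.Γ m).din t) ((𝔓.Γ m).pin t) ((𝔓.Γ m).din t) w
  have eL := pvge3_L_at (pvegYm 𝔓 m t) (-(𝔓.Γ m).din t) ((𝔓.Γ m).pin t) ((𝔓.Γ m).din t) w
  rw [pvge3_dd_i hL hT, neg_one_mul] at eS eL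
  rw [neg_re] at eS
  rw [neg_im] at eL
  refine pvz7_Yc_neck D.u4 ?_ ?_ ?_
  · rw [eS]; linarith [D.s_lo]
  · rw [eS]; linarith
  · rw [eL, add_sub_cancel_left, abs_neg]; exact h3

/-- **(Re), last link, FUNNEL** -/
theorem pvz7_iYc_fun (hL : PvegLev 𝔓 m) (hT : pviwTyOk 𝔓 t) (h1 : w.re + σ ≤ pvegR 𝔓 m / 5) (h2 : pvegA c m + 3 * pvilMu 𝔓 m ≤ w.re - σ) (h3 : |w.im| + σ ≤ pvegR 𝔓 m / 5 - 3 * pvilMu 𝔓 m) :
    closedBall (pvthSim ((𝔓.Γ m).pin t) ((𝔓.Γ m).din t) w) σ ⊆ pvegIYc 𝔓 m t := by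
  have D := pveg_door_i hL hT
  have hf : 64 * pvlmDel c m ≤ pvegR 𝔓 m := hL.fine
  have hδ := pvlm_Del_pos c m
  have hμ := pvey_mu_le (𝔓 := 𝔓) m
  have eS := pvge3_S_at (pvegYm 𝔓 m t) (-(𝔓.Γ m).din t) ((𝔓.Γ m).pin t) ((𝔓.Γ m).din t) w
  have eL := pvge3_L_at (pvegYm 𝔓 m t) (-(𝔓.Γ m).din t) ((𝔓.Γ m).pin t) ((𝔓.Γ m).din t) w
  rw [pvge3_dd_i hL hT, neg_one_mul] at eS eL
  rw [neg_re] at eS
  rw [neg_im] at eL
  refine pvz7_Yc_fun D.u4 ?_ ?_ ?_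
  · rw [eS]; linarith [D.s_lo]
  · rw [eS]; linarith
  · rw [eL, add_sub_cancel_left, abs_neg]; exact h3

/-- **NUMERAL SEAM of 233, FIRST LINK: TRUE.**   The rooms of the two ENTRANCE half lanes of the door plug `pvkdP (δ/40)`, fattened by `σ ≤ δ/160 = r/4`, lie in the room -/
theorem pvz7_oYc_lane (hL : PvegLev 𝔓 m) (hT : pviwTyOk 𝔓 t) (b : Bool) (hw : w ∈ (pvkdP (pvilRd 𝔓 m)).Ln false b) (hσ : σ ≤ pvlmDel c m / 160) :
    closedBall (pvthSim ((𝔓.Γ m).pout t) ((𝔓.Γ m).dout t) w) σ ⊆ pvegOYc 𝔓 m t := by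
  have hf : 64 * pvlmDel c m ≤ pvegR 𝔓 m := hL.fine
  have hδ := pvlm_Del_pos c m
  have hμ := pvey_mu_le (𝔓 := 𝔓) m
  obtain ⟨a1, a2, a3⟩ := pvz7_Ln_in (r := pvilRd 𝔓 m) (by unfold pvilRd; linarith) b hw
  unfold pvilRd at a1 a2 a3
  exact pvz7_oYc_door hL hT (by linarith) (by unfold pvegA; linarith) (by linarith)

/-- **NUMERAL SEAM of 233, LAST LINK: TRUE.**   The rooms of the two EXIT half lanes of the door plug, fattened by `σ ≤ δ/160` -/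
theorem pvz7_iYc_lane (hL : PvegLev 𝔓 m) (hT : pviwTyOk 𝔓 t) (b : Bool) (hw : w ∈ (pvkdP (pvilRd 𝔓 m)).Ln true b) (hσ : σ ≤ pvlmDel c m / 160) :
    closedBall (pvthSim ((𝔓.Γ m).pin t) ((𝔓.Γ m).din t) w) σ ⊆ pvegIYc 𝔓 m t := by
  have hf : 64 * pvlmDel c m ≤ pvegR 𝔓 m := hL.fine
  have hδ := pvlm_Del_pos c m
  have hμ := pvey_mu_le (𝔓 := 𝔓) m
  obtain ⟨a1, a2, a3⟩ := pvz7_Ln_out (r := pvilRd 𝔓 m) (by unfold pvilRd; linarith) b hw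
  unfold pvilRd at a1 a2 a3
  exact pvz7_iYc_door hL hT (by linarith) (by unfold pvegA; linarith) (by linarith)

/-- (Re) the shrunk mouth -/
theorem pvz7_oYc_mouth {v : ℂ} (h : ‖v - pvegYp 𝔓 m t‖ + σ ≤ 5 * pvegR 𝔓 m / 16 - 3 * pvilMu 𝔓 m) : closedBall v σ ⊆ pvegOYc 𝔓 m t := pvz7_Yc_mouth h
theorem pvz7_iYc_mouth {v : ℂ} (h : ‖v - pvegYm 𝔓 m t‖ + σ ≤ 5 * pvegR 𝔓 m / 16 - 3 * pvilMu 𝔓 m) : closedBall v σ ⊆ pvegIYc 𝔓 m t := pvz7_Yc_mouth h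

end par

/-! ## 3. the pattern of record of the thin hybrid links lies in the core of the room -/

section pat

variable {Y u p : ℂ} {up : Bool} {r δ q dl ρ b μ Sp lam : ℝ}

/-- **the window of the pattern of record, SHARP**: small mouth `∪` the rectangle `[29r/200, Sp - 7q/2] × [-33r/200, 33r/200]` -/
theorem pvz7_patRec_win (hu : ‖u‖ = 1) (R : Pvge2Rec r δ q dl ρ b μ Sp lam) (c : Bool) :
    pvkqPatR (pvge2PatRec Y u up c r q Sp lam) ⊆ closedBall Y (r / 4) ∪ pvge2R Y u up (29 * r / 200) (Sp - 7 * q / 2) (-(33 * r / 200)) (33 * r / 200) := by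
  have h1 := R.δ0; have h3 := R.fine; have h8 := R.s_lo; have h9 := abs_le.1 R.lat; have h10 := R.qδ; have h11 := R.q0
  unfold pvge2PatRec
  rw [pvge2_pat_R, pvge2_Rt_R, pvge2_Rt_R]
  rintro v (((hv | hv) | hv) | ((hv | hv) | hv))
  · exact Or.inl (pvge2_arm_ball hu R.num₁ hv)
  · exact Or.inr (pvge2_R_mono (by linarith) (by linarith) (by linarith [h9.2]) (by linarith [h9.1]) hv)
  · exact Or.inr (pvge2_R_mono (by linarith) (by linarith) (by linarith [h9.2]) (by linarith [h9.1]) hv)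
  · exact Or.inl (pvge2_arm_ball hu R.num₂ hv)
  · unfold pvge2RH at hv
    rw [pvge2_R_flip] at hv
    exact Or.inr (pvge2_R_mono (by linarith) (by linarith) (by linarith [h9.2]) (by linarith [h9.1]) hv)
  · unfold pvge2RV at hv
    rw [pvge2_R_flip] at hv
    exact Or.inr (pvge2_R_mono (by linarith) (by linarith) (by linarith [h9.2]) (by linarith [h9.1]) hv)

/-- **the pattern of record lies in the `σ`-core of the room with collar**, one door -/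
theorem pvz7_pat_Yc {a s μ' σ : ℝ} (hu : u ^ 4 = 1) (R : Pvge2Rec r δ q dl ρ b μ (pvegS Y u p) (pvge2Sg up * pvegL Y u p)) (c : Bool)
    (hμ : μ' ≤ δ) (hσ : σ ≤ δ) (ha : a + μ' + σ ≤ 7 * q / 2) {v : ℂ} (hv : v ∈ pvkqPatR (pvge2PatRec Y u up c r q (pvegS Y u p) (pvge2Sg up * pvegL Y u p))) :
    closedBall v σ ⊆ pvegYc Y u p (r / 10) δ (r / 5) (5 * r / 16) a s μ' := by
  have h1 := R.δ0; have h3 := R.fine
  have hlat : |pvegL Y u p| ≤ δ := by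
    have := R.lat
    rwa [abs_mul, pvge2_sg_abs, one_mul] at this
  rcases pvz7_patRec_win (pveg_norm_unit hu) R c hv with h | ⟨a1, a2, a3, a4⟩
  · rw [mem_closedBall_iff_norm] at h
    exact pvz7_Yc_mouth (by linarith)
  · rw [pvge3_S] at a1 a2
    rw [pvge3_T] at a3 a4
    have hl : |pvegL Y u v| ≤ 33 * r / 200 := by
      have : |pvge2Sg up * pvegL Y u v| ≤ 33 * r / 200 := abs_le.2 ⟨a3, a4⟩
      rwa [abs_mul, pvge2_sg_abs, one_mul] at this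
    have hl2 : |pvegL Y u v - pvegL Y u p| ≤ 33 * r / 200 + δ := (abs_sub _ _).trans (add_le_add hl hlat)
    exact pvz7_Yc_fun hu (by linarith) (by linarith) (by linarith)

/-- the room with collar is translation covariant -/
theorem pvz7_Yc_sh (z Y u p : ℂ) (e δ w rM a s μ : ℝ) : pvegYc (z + Y) u (z + p) e δ w rM a s μ ⊆ pvieSh z (pvegYc Y u p e δ w rM a s μ) := by
  intro v hv
  rw [pvge3_mem_sh]
  have eS : pvegS (z + Y) u v = pvegS Y u (v - z) := by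
    have := pvge3_S_sh z Y u (v - z)
    rwa [add_sub_cancel] at this
  have eL : pvegL (z + Y) u v = pvegL Y u (v - z) := by
    have := pvge3_L_sh z Y u (v - z)
    rwa [add_sub_cancel] at this
  rcases hv with (hv | ⟨h1, h2, h3⟩) | ⟨h1, h2, h3⟩
  · refine Or.inl (Or.inl ?_)
    rw [mem_closedBall_iff_norm] at hv ⊢
    have e : v - z - Y = v - (z + Y) := by ring
    rw [e]; exact hv
  · rw [eS] at h1 h2
    rw [pvge3_S_sh] at h2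
    rw [eL, pvge3_L_sh] at h3
    exact Or.inl (Or.inr ⟨h1, h2, h3⟩)
  · rw [eS] at h1 h2
    rw [pvge3_S_sh] at h2
    rw [eL, pvge3_L_sh] at h3
    exact Or.inr ⟨h1, h2, h3⟩

end pat

/-- a ball in a shifted region -/
theorem pvz7_sh_ball {z v : ℂ} {σ : ℝ} {S : Set ℂ} (h : closedBall (v - z) σ ⊆ S) : closedBall v σ ⊆ pvieSh z S := by
  intro x hx
  refine ⟨x - z, h ?_, by ring⟩
  rw [mem_closedBall_iff_norm] at hx ⊢
  have e : x - z - (v - z) = x - v := by ring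
  rw [e]; exact hx

section patpar

variable {τ : Type} {c : ℝ} {𝔓 : PvxPar τ c} {m : ℕ} {t : τ} {σ : ℝ}

/-- **(Re), FIRST LINK: THE PATTERN OF RECORD OF 298 LIES IN THE `σ`-CORE OF THE PLACED ROOM**, `σ ≤ δ/16` (any colour `b`) -/
theorem pvz7_pat_ob (hL : PvegLev 𝔓 m) (hT : pviwTyOk 𝔓 t) (hf : 10000 * pvlmDel c m ≤ pvegR 𝔓 m) (hσ : σ ≤ pvlmDel c m / 16) (b : Bool) (z : ℂ) :
    pvkqPatR (pvge3PatOb 𝔓 b m z t) ⊆ pvtrCore σ (pvieSh z (pvegOYc 𝔓 m t)) := by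
  have hδ := pvlm_Del_pos c m
  have hμ := pvey_mu_le (𝔓 := 𝔓) m
  have R := pvge3_rec_o hL hT hf (ρ := 0) (b := 0) (μ := 0) le_rfl (pvlm_Del_pos c m).le (by norm_num) (by have := pveg_R_pos hL; linarith)
  have R' := R
  rw [← pvge3_S_sh z, ← pvge3_L_sh z] at R'
  intro v hv
  have hv' : v ∈ pvkqPatR (pvge2PatRec (z + pvegYp 𝔓 m t) ((𝔓.Γ m).dout t) true b (pvegR 𝔓 m) (pvge3Q c m) (pvegS (z + pvegYp 𝔓 m t) ((𝔓.Γ m).dout t) (z + (𝔓.Γ m).pout t))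
      (pvge2Sg true * pvegL (z + pvegYp 𝔓 m t) ((𝔓.Γ m).dout t) (z + (𝔓.Γ m).pout t))) := by
    rw [pvge3_S_sh, pvge3_L_sh]; exact hv
  exact (pvz7_pat_Yc (a := pvegA c m) (s := 3 * (pvlmDel c m / 40)) (μ' := 3 * pvilMu 𝔓 m) (pveg_dout4 hL t) R' b (by linarith) (by linarith) (by unfold pvegA pvge3Q; linarith) hv').trans (pvz7_Yc_sh _ _ _ _ _ _ _ _ _ _ _)

/-- **(Re), LAST LINK** -/
theorem pvz7_pat_ib (hL : PvegLev 𝔓 m) (hT : pviwTyOk 𝔓 t) (hf : 10000 * pvlmDel c m ≤ pvegR 𝔓 m) (hσ : σ ≤ pvlmDel c m / 16) (b : Bool) (z : ℂ) :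
    pvkqPatR (pvge3PatIb 𝔓 b m z t) ⊆ pvtrCore σ (pvieSh z (pvegIYc 𝔓 m t)) := by
  have hδ := pvlm_Del_pos c m
  have hμ := pvey_mu_le (𝔓 := 𝔓) m
  have R := pvge3_rec_i hL hT hf (ρ := 0) (b := 0) (μ := 0) le_rfl (pvlm_Del_pos c m).le (by norm_num) (by have := pveg_R_pos hL; linarith)
  have R' := R
  rw [← pvge3_S_sh z, ← pvge3_L_sh z] at R'
  intro v hv
  have hv' : v ∈ pvkqPatR (pvge2PatRec (z + pvegYm 𝔓 m t) (-(𝔓.Γ m).din t) false b (pvegR 𝔓 m) (pvge3Q c m) (pvegS (z + pvegYm 𝔓 m t) (-(𝔓.Γ m).din t) (z + (𝔓.Γ m).pin t))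
      (pvge2Sg false * pvegL (z + pvegYm 𝔓 m t) (-(𝔓.Γ m).din t) (z + (𝔓.Γ m).pin t))) := by
    rw [pvge3_S_sh, pvge3_L_sh]; exact hv
  exact (pvz7_pat_Yc (a := pvegA c m) (s := 3 * (pvlmDel c m / 40)) (μ' := 3 * pvilMu 𝔓 m) (pveg_door_i hL hT).u4 R' b (by linarith) (by linarith) (by unfold pvegA pvge3Q; linarith) hv').trans (pvz7_Yc_sh _ _ _ _ _ _ _ _ _ _ _)

theorem pvz7_pat_o (hL : PvegLev 𝔓 m) (hT : pviwTyOk 𝔓 t) (hf : 10000 * pvlmDel c m ≤ pvegR 𝔓 m) (hσ : σ ≤ pvlmDel c m / 16) (z : ℂ) :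
    pvkqPatR (pvge3PatO 𝔓 m z t) ⊆ pvtrCore σ (pvieSh z (pvegOYc 𝔓 m t)) := pvz7_pat_ob hL hT hf hσ _ z

theorem pvz7_pat_i (hL : PvegLev 𝔓 m) (hT : pviwTyOk 𝔓 t) (hf : 10000 * pvlmDel c m ≤ pvegR 𝔓 m) (hσ : σ ≤ pvlmDel c m / 16) (z : ℂ) :
    pvkqPatR (pvge3PatI 𝔓 m z t) ⊆ pvtrCore σ (pvieSh z (pvegIYc 𝔓 m t)) := pvz7_pat_ib hL hT hf hσ _ z

end patpar

/-! ## 4. placed forms -/

theorem pvz7_sim_sh (z p d w : ℂ) : pvthSim (z + p) d w = z + pvthSim p d w := by unfold pvthSim; ring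

/-- a relative ball, shifted -/
theorem pvz7_ball_sh {z v : ℂ} {σ : ℝ} {S : Set ℂ} (h : closedBall v σ ⊆ S) : closedBall (z + v) σ ⊆ pvieSh z S :=
  pvz7_sh_ball (by rwa [add_sub_cancel_left])

section placed

variable {τ : Type} {c : ℝ} {𝔓 : PvxPar τ c} {m : ℕ} {t : τ} {σ : ℝ}

/-- **(Re), FIRST LINK, SET FORM**: the placed rooms of the ENTRANCE half lanes of the door plug lie in the `σ`-core of the placed room, `σ ≤ δ/160` -/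
theorem pvz7_lane_o (hL : PvegLev 𝔓 m) (hT : pviwTyOk 𝔓 t) (hσ : σ ≤ pvlmDel c m / 160) (b : Bool) (z : ℂ) :
    pvkdAt (pvieZo 𝔓 m z t) ((𝔓.Γ m).dout t) ((pvkdP (pvilRd 𝔓 m)).Ln false b) ⊆ pvtrCore σ (pvieSh z (pvegOYc 𝔓 m t)) := by
  rintro _ ⟨w, hw, rfl⟩
  show closedBall _ σ ⊆ _
  unfold pvieZo
  rw [pvz7_sim_sh]
  exact pvz7_ball_sh (pvz7_oYc_lane hL hT b hw hσ)

/-- **(Re), LAST LINK, SET FORM**: the placed rooms of the EXIT half lanes of the door plug -/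
theorem pvz7_lane_i (hL : PvegLev 𝔓 m) (hT : pviwTyOk 𝔓 t) (hσ : σ ≤ pvlmDel c m / 160) (b : Bool) (z : ℂ) :
    pvkdAt (pvieZi 𝔓 m z t) ((𝔓.Γ m).din t) ((pvkdP (pvilRd 𝔓 m)).Ln true b) ⊆ pvtrCore σ (pvieSh z (pvegIYc 𝔓 m t)) := by
  rintro _ ⟨w, hw, rfl⟩
  show closedBall _ σ ⊆ _
  unfold pvieZi
  rw [pvz7_sim_sh]
  exact pvz7_ball_sh (pvz7_iYc_lane hL hT b hw hσ)

/-- (Re) the rectangle behind the exit door, placed -/
theorem pvz7_door_o (hL : PvegLev 𝔓 m) (hT : pviwTyOk 𝔓 t) (z : ℂ) {w : ℂ} (h1 : -(pvegR 𝔓 m / 5) ≤ w.re - σ) (h2 : w.re + σ ≤ -pvegA c m) (h3 : |w.im| + σ ≤ 3 * (pvlmDel c m / 40) - 3 * pvilMu 𝔓 m) :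
    closedBall (pvthSim (pvieZo 𝔓 m z t) ((𝔓.Γ m).dout t) w) σ ⊆ pvieSh z (pvegOYc 𝔓 m t) := by
  unfold pvieZo
  rw [pvz7_sim_sh]
  exact pvz7_ball_sh (pvz7_oYc_door hL hT h1 h2 h3)

/-- (Re) the rectangle in front of the entrance door, placed -/
theorem pvz7_door_i (hL : PvegLev 𝔓 m) (hT : pviwTyOk 𝔓 t) (z : ℂ) {w : ℂ} (h1 : w.re + σ ≤ pvegR 𝔓 m / 5) (h2 : pvegA c m ≤ w.re - σ) (h3 : |w.im| + σ ≤ 3 * (pvlmDel c m / 40) - 3 * pvilMu 𝔓 m) :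
    closedBall (pvthSim (pvieZi 𝔓 m z t) ((𝔓.Γ m).din t) w) σ ⊆ pvieSh z (pvegIYc 𝔓 m t) := by
  unfold pvieZi
  rw [pvz7_sim_sh]
  exact pvz7_ball_sh (pvz7_iYc_door hL hT h1 h2 h3)

/-- (Re) the small mouth, placed: `closedBall y⁺ a`, `a ≤ 5ρh/16 - 3μ₀` (`y⁺ = (𝔓.ty t).cp h z`) -/
theorem pvz7_mouth_o (z : ℂ) {a : ℝ} (ha : a ≤ 5 * pvegR 𝔓 m / 16 - 3 * pvilMu 𝔓 m) : closedBall ((𝔓.ty t).cp (pvlmH m) z) a ⊆ pvieSh z (pvegOYc 𝔓 m t) := by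
  have h : closedBall (pvegYp 𝔓 m t) a ⊆ pvegOYc 𝔓 m t := pvz7_oYc_mouth (by rw [sub_self, norm_zero]; linarith)
  exact pvz7_ball_sh (z := z) h

theorem pvz7_mouth_i (z : ℂ) {a : ℝ} (ha : a ≤ 5 * pvegR 𝔓 m / 16 - 3 * pvilMu 𝔓 m) : closedBall ((𝔓.ty t).cm (pvlmH m) z) a ⊆ pvieSh z (pvegIYc 𝔓 m t) := by
  have h : closedBall (pvegYm 𝔓 m t) a ⊆ pvegIYc 𝔓 m t := pvz7_iYc_mouth (by rw [sub_self, norm_zero]; linarith)
  exact pvz7_ball_sh (z := z) h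

/-- **W-7, FIRST LINK, PLACED**: every point of the placed room lies `δ/160` behind the plane of the exit door -/
theorem pvz7_back_o (hL : PvegLev 𝔓 m) (h0 : 0 ≤ pvilMu 𝔓 m) (hT : pviwTyOk 𝔓 t) (z : ℂ) {v : ℂ} (hv : v ∈ pvieSh z (pvegOYc 𝔓 m t)) :
    ((v - pvieZo 𝔓 m z t) * (starRingEnd ℂ) ((𝔓.Γ m).dout t)).re ≤ -pvegA c m := by
  obtain ⟨w, hw, rfl⟩ := hv
  have := pvey_oYc_back hL h0 hT hw
  unfold pvieZo
  rwa [add_sub_add_left_eq_sub]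

/-- **W-7, LAST LINK, PLACED** -/
theorem pvz7_front_i (hL : PvegLev 𝔓 m) (h0 : 0 ≤ pvilMu 𝔓 m) (hT : pviwTyOk 𝔓 t) (z : ℂ) {v : ℂ} (hv : v ∈ pvieSh z (pvegIYc 𝔓 m t)) :
    pvegA c m ≤ ((v - pvieZi 𝔓 m z t) * (starRingEnd ℂ) ((𝔓.Γ m).din t)).re := by
  obtain ⟨w, hw, rfl⟩ := hv
  have := pvey_iYc_front hL h0 hT hw
  unfold pvieZi
  rwa [add_sub_add_left_eq_sub]

/-- **(Rd), PLACED** -/
theorem pvz7_hole_o (hL : PvegLev 𝔓 m) (h0 : 0 ≤ pvilMu 𝔓 m) (hT : pviwTyOk 𝔓 t) (z : ℂ) : IsPreconnected (pvieSh z (pvegOYc 𝔓 m t))ᶜ ∧ Bornology.IsBounded (pvieSh z (pvegOYc 𝔓 m t)) :=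
  ⟨pvvz_sh_hole (pvey_oYc_hole hL h0 hT) z, pvvz_sh_bdd (isBounded_closedBall.subset (pvey_oYc_bdd hL h0 hT)) z⟩

theorem pvz7_hole_i (hL : PvegLev 𝔓 m) (h0 : 0 ≤ pvilMu 𝔓 m) (hT : pviwTyOk 𝔓 t) (z : ℂ) : IsPreconnected (pvieSh z (pvegIYc 𝔓 m t))ᶜ ∧ Bornology.IsBounded (pvieSh z (pvegIYc 𝔓 m t)) :=
  ⟨pvvz_sh_hole (pvey_iYc_hole hL h0 hT) z, pvvz_sh_bdd (isBounded_closedBall.subset (pvey_iYc_bdd hL h0 hT)) z⟩

end placed

/-! ## 5. the hypotheses at the parameters of record -/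

section rec

variable {N : PvxNums} (hN : N.Ok) {c : ℝ}

theorem pvz7_rec_lev (c0 : 0 < c) {m : ℕ} (hm : N.m0 ≤ m) : PvegLev (pvxParOf N hN c) m := (pvea_par hN c0).lev hm

theorem pvz7_rec_ty (t : pvxTau N) : pviwTyOk (pvxParOf N hN c) t := pvea_tyOk hN t

theorem pvz7_rec_fine (c0 : 0 < c) {m : ℕ} (hm : N.m0 ≤ m) : 10000 * pvlmDel c m ≤ pvegR (pvxParOf N hN c) m := by
  have h1 := pvxo_fine hN c0 hm
  have h2 := pvlm_Del_pos c m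
  show 10000 * pvlmDel c m ≤ N.rho * pvlmH m
  linarith

theorem pvz7_rec_mu0 (m : ℕ) : 0 < pvilMu (pvxParOf N hN c) m := by
  unfold pvilMu
  have h1 := pvlm_Del_pos c m
  have h2 : 0 < (pvxParOf N hN c).num.rho3 * pvlmH m := mul_pos hN.msk0 (pvlm_H_pos m)
  have := lt_min h1 h2
  positivity

end rec

end Claimed.Agent.R289
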