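-- KEEP
import Claimed.Agent.R289.Exit.FrcIDefs
import Claimed.Agent.R289.Exit.MeshW
import Claimed.Agent.R289.Tr.FrcCarF
import Claimed.Agent.R289.Tr.BuNum
import Claimed.Agent.R289.Tr.DoorSoft
import Claimed.Agent.R289.Exit.NumS
import Claimed.Agent.R289.Exit.FrcOG
import Claimed.Agent.R289.Exit.FrcIEv
import Claimed.Agent.R289.Tr.HookIL
import Claimed.Agent.R289.Exit.FrcOq
import Claimed.Agent.R289.Exit.ParGr

/-!
# Row 289 (S0537), THE WALL, ROAD E, file Exit/FrcIEvM : E10 AT THE MODEL, LAST LINK `door plug → t`, [DET.ev] = `exit_pvii_ev` OF 116 (`Exit/FrcI`): ALL THE CONJUNCTS BUT THE RUN, AT THE ENGINE OF RECORD      (helper46; prefix `pvim9_`)      0 sorry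

`η ∈ pvilMi 𝔓 𝔈 m ε z t (pvilZi 𝔓 m z t η₀)` = `Li.A` (door state (b2), half state (b1), run (b3)) `∩` hull (b1) `∩` mesh of the window (b6).
* sec. 1  numbers and regions: `pvim9_Mu_pos pvim9_Mu_le`, `pvim9_O0 pvim9_kit_O` (door region = open square of half side `13 δ / 160`), **`pvim9_Bi_sub`** (room `pvwuBi` of 206 `⊆` the ball of `pviiMc`), **`pvim9_Mc_B`** (`pviiMc ⊆ pvrgB`)
* sec. 2  **`pvim9_door`** (b2) `:= hF.plug`;   **`pvim9_in`** (b1) `:= pvjv_carf_rec_i` of 297 at the certificate of record (half state, same `F`, same `Z`)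
* sec. 3  (b6): **`pvim9_mesh_gen`** (ANY tests `T`: `pvwu_i` of 206; serves `pvij_ev_mesh` of 96 too), `pvim9_mesh_of` (kept part `← pviiMc`, tile `← pviiMs`, door `←` hypothesis), **`pvim9_door_mesh`** (door `←` the side event `ℋ`, `pvyo_mesh_T` of 173, `pvwy_hmu_par` of 10), **`pvim9_mesh`**
          `S` = the side event of the tests (parameter of `pviiT` v3 of 116; `pvnaHf .. 0` at the record).   ONE HYPOTHESIS `hHf : ∀ σ ∈ S, PvtrMesh (pvwyMu N.rho3) pvkgO (cfSites σ)` = `pvna_Hf_mesh` of R24 (B) of 9 (FALSE at the side events of today: they carry the mesh `1/640` only)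
* sec. 4  **`pvim9_ev_of`** : `hHf` + THE RUN (b3) (`Pvim9Run`: pen 106 `Tr/HookI`) `⟹` THE STATEMENT OF `exit_pvii_ev` VERBATIM
* sec. 5  **`pvim9_room`** : the room of record `pvegIYc` of 245 has the contract `PviyRoom` of 19;   **`pvim9_ev`** : THE WHOLE OF [DET.ev] AT THE RECORD, NO LEAF, EVERY `ε` (`pviy_A` of 19, `Exit/FrcIEv`, at `pvnaEngRec`, `pviiT .. (pvnaHf N 0)`, `pviiMc`): closes `exit_pvii_link` of 116
-/

set_option autoImplicit false

namespace Claimed.Agent.R289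

open Set Metric MeasureTheory Filter Topology Claims.C0465
open scoped ENNReal

section rec

variable {N : PvxNums} (hN : N.Ok) {c : ℝ} (nb : PvnaNb N)

theorem pvim9_Mu_pos (m : ℕ) : 0 < pvilMu (pvxParOf N hN c) m := by
  unfold pvilMu
  have h1 := pvlm_Del_pos c m
  have h2 := pvlm_H_pos m
  have h3 : 0 < (pvxParOf N hN c).num.rho3 := hN.msk0
  have : 0 < min (pvlmDel c m) ((pvxParOf N hN c).num.rho3 * pvlmH m) := lt_min h1 (mul_pos h3 h2)
  positivity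

theorem pvim9_Mu_le (m : ℕ) : 1000 * pvilMu (pvxParOf N hN c) m ≤ pvlmDel c m := by
  unfold pvilMu
  have := min_le_left (pvlmDel c m) ((pvxParOf N hN c).num.rho3 * pvlmH m)
  linarith

/-- the region of the door plug of level `m` is the open square of half side `13 δ / 160` -/
theorem pvim9_O0 (m : ℕ) : (pvnaInRec N hN c nb).O0 m = pvccSq 0 (pvlmDel c m * (13 / 160)) := by
  rw [pvnr_O0]
  show pvthSim 0 (pvlmDel c m) '' pvkgO = _
  rw [pvkgg_O_sq, pvkm_sim_sq (pvlm_Del_pos c m), mul_zero]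

theorem pvim9_kit_O (m : ℕ) (ε : ℝ) : ((pvnaEngRec N hN c nb).kit m ε).O₀ = pvccSq 0 (pvlmDel c m * (13 / 160)) := by
  rw [pvnr_kit_O, ← pvnr_O0 N hN c nb m]
  exact pvim9_O0 hN nb m

/-- a closed square lies in the ball of twice its half side -/
theorem pvim9_sq_ball (z : ℂ) (r : ℝ) : pvwSq z r ⊆ closedBall z (2 * r) := by
  intro w hw
  rw [mem_closedBall_iff_norm]
  have := Complex.norm_le_abs_re_add_abs_im (w - z)
  linarith [hw.1, hw.2]

theorem pvim9_norm_le_N (w : ℂ) : ‖w‖ ≤ 2 * pvccN w := by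
  have := Complex.norm_le_abs_re_add_abs_im w
  have h1 : |w.re| ≤ pvccN w := le_max_left _ _
  have h2 : |w.im| ≤ pvccN w := le_max_right _ _
  linarith

/-- the centre of the entrance tip cell -/
theorem pvim9_Ym_le (m : ℕ) (t : pvxTau N) : ‖pvegYm (pvxParOf N hN c) m t‖ ≤ 2 * pviwRad (pvxParOf N hN c) m t + pvegR (pvxParOf N hN c) m / 5 := by
  have hT := (pvea_tyOk (c := c) hN t).2.1
  have hh := pvlm_H_pos m
  unfold pvegYm pviwRad pvwRad pvegR
  rw [norm_mul, Complex.norm_real, Real.norm_eq_abs, abs_of_pos hh]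
  have h1 := pvim9_norm_le_N ((pvxParOf N hN c).ty t).ym
  have h2 := (abs_le.1 hT).2
  nlinarith

include nb in
/-- **the room of the certificate of 206 lies in the ball of the certificate of record** -/
theorem pvim9_Bi_sub (c0 : 0 < c) {m : ℕ} (hm : (pvxParOf N hN c).m0 ≤ m) (ε : ℝ) (z : ℂ) (t : pvxTau N) :
    pvwuBi (pvxParOf N hN c) (pvnaEngRec N hN c nb) m ε z t ⊆ closedBall z (2 * pviwRad (pvxParOf N hN c) m t + 4 * pvlmH m) := by
  have hL := (pvea_par hN c0).lev hm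
  have hT := pvea_tyOk (c := c) hN t
  have hD := pveg_door_i hL hT
  have hh := pvlm_H_pos m
  have hδ := pvlm_Del_pos c m
  have hf : 64 * pvlmDel c m ≤ pvegR (pvxParOf N hN c) m := hL.fine
  have hρ : (pvxParOf N hN c).num.rho ≤ 1 := by
    have h1 := hN.rho1; have h2 := hN.rho2; have h3 := hN.rho3; have h0 := hN.rho0
    show N.rho ≤ 1
    linarith
  have hR : pvegR (pvxParOf N hN c) m ≤ pvlmH m := by
    unfold pvegR
    nlinarith
  have hY := pvim9_Ym_le (c := c) hN m t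
  have key : pvieSh z (closedBall (pvegYm (pvxParOf N hN c) m t) (pvegR (pvxParOf N hN c) m / 2)) ⊆ closedBall z (2 * pviwRad (pvxParOf N hN c) m t + 4 * pvlmH m) := by
    rintro _ ⟨w, hw, rfl⟩
    rw [mem_closedBall_iff_norm] at hw ⊢
    have : ‖z + w - z‖ ≤ ‖w - pvegYm (pvxParOf N hN c) m t‖ + ‖pvegYm (pvxParOf N hN c) m t‖ := by
      rw [add_sub_cancel_left]
      have := norm_add_le (w - pvegYm (pvxParOf N hN c) m t) (pvegYm (pvxParOf N hN c) m t)
      simpa using this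
    linarith
  have hd4 : ((pvxParOf N hN c).Γ m).din t ^ 4 = 1 := pveg_din4 hL t
  refine union_subset (union_subset (union_subset ?_ ?_) ?_) ?_
  · refine (pvim9_sq_ball z _).trans (closedBall_subset_closedBall ?_)
    show 2 * (pviwRad (pvxParOf N hN c) m t + pvlmDel c m) ≤ _
    linarith
  · exact (image_mono (pveg_M_ball hD)).trans key
  · refine (image_mono ?_).trans key
    rw [pvnr_iK]
    exact (pveg_Ka_sub_Ra _ _ _ _ _ _ _ _ _).trans (pveg_Ra_ball hD (pveg_A_pos c m).le)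
  · rw [pvwu_door_i hd4 (pvim9_kit_O hN nb m ε)]
    refine (image_mono ?_).trans key
    exact (pvcc_sq_mono _ (by linarith)).trans (pveg_D_ball hD)

/-- **the certificate of record contains the mesh of the own-level box** (`pvrgB` of 256: the hypothesis of (b1) of 71 / 297) -/
theorem pvim9_Mc_B (c0 : 0 < c) {m : ℕ} (hm : (pvxParOf N hN c).m0 ≤ m) (z : ℂ) (t : pvxTau N) : pviiMc (pvxParOf N hN c) m z t ⊆ pvrgB (pvxParOf N hN c) m z t := by
  intro η hη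
  have hL := (pvea_par hN c0).lev hm
  have hh := pvlm_H_pos m
  have hδ := pvlm_Del_pos c m
  have hf : 64 * pvlmDel c m ≤ pvegR (pvxParOf N hN c) m := hL.fine
  have hρ : (pvxParOf N hN c).num.rho ≤ 1 := by
    have h1 := hN.rho1; have h2 := hN.rho2; have h3 := hN.rho3; have h0 := hN.rho0
    show N.rho ≤ 1
    linarith
  have hR : pvegR (pvxParOf N hN c) m ≤ pvlmH m := by
    unfold pvegR
    nlinarith
  have hs : pvieSh z (pviwBox (pvxParOf N hN c) m t) ⊆ closedBall z (2 * pviwRad (pvxParOf N hN c) m t + 4 * pvlmH m) := by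
    rintro _ ⟨w, hw, rfl⟩
    have h1 := pvim9_sq_ball 0 _ hw
    rw [mem_closedBall_iff_norm] at h1 ⊢
    rw [sub_zero] at h1
    rw [add_sub_cancel_left]
    linarith
  have hμ := pvim9_Mu_le (c := c) hN m
  have hμ0 := pvim9_Mu_pos (c := c) hN m
  exact pvmj_mesh_mono (by linarith) (pvmj_mesh_sub hs hη)

variable {S : Set (Conf PvPt)} (q₀ : ℝ) {m : ℕ} {ε : ℝ} {z : ℂ} {t : pvxTau N} {η₀ η : Conf PvPt}

/-- **(b2) THE DOOR END** -/
theorem pvim9_door (hF : PvjeFin (pvjeI (pvxParOf N hN c) (pvnaEngRec N hN c nb) pvilQ m ε z t) (pviiT (pvxParOf N hN c) (pvnaEngRec N hN c nb) S q₀ nb.b m z t) η₀ η) :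
    ∃ 𝔖 : PvwSt (pvieT η), PvilDoor (pvkdP (pvilRd (pvxParOf N hN c) m)) ((pvxParOf N hN c).col t) η (pvieZi (pvxParOf N hN c) m z t) (((pvxParOf N hN c).Γ m).din t) 𝔖 := hF.plug

/-- **(b1) THE CARRIED HALF STATE, THE CARRIED HULL** (297 `pvjv_carf_rec_i`) at the certificate of record -/
theorem pvim9_in (c0 : 0 < c) (hm : (pvxParOf N hN c).m0 ≤ m) (hU : η₀ ∈ pvilUi (pvxParOf N hN c).num ((pvxParOf N hN c).col t) (pvilPin (pvxParOf N hN c) m z t)) (hMc : η₀ ∈ pviiMc (pvxParOf N hN c) m z t)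
    (hF : PvjeFin (pvjeI (pvxParOf N hN c) (pvnaEngRec N hN c nb) pvilQ m ε z t) (pviiT (pvxParOf N hN c) (pvnaEngRec N hN c nb) S q₀ nb.b m z t) η₀ η) :
    (∃ 𝔖 : PvwSt (pvieT η), PvilIn (pvxParOf N hN c).num ((pvxParOf N hN c).col t) (pvilPin (pvxParOf N hN c) m z t) η 𝔖) ∧
      pvilFi (pvxParOf N hN c) m z t η = pvilFi (pvxParOf N hN c) m z t η₀ ∧ pvilZi (pvxParOf N hN c) m z t η = pvilZi (pvxParOf N hN c) m z t η₀ :=
  pvjv_carf_rec_i N hN c0 nb pvilQ hm ε z t hU (pvim9_Mc_B hN c0 hm z t hMc) hF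

/-- **(b6) THE MESH OF THE WINDOW, ANY TESTS `T`** (serves `Exit/FrcI` of 116 and `Exit/FrcIM` of 96): kept part ← mesh `μ/20` of the base on the room `pvwuBi` of 206, tile ← a clause `μ/3` of the copy pattern, door ← hypothesis      (206 `pvwu_i`) -/
theorem pvim9_mesh_gen {T : PvjeTest} (c0 : 0 < c) (hm : (pvxParOf N hN c).m0 ≤ m) (hB : η₀ ∈ pvrgMesh (pvilMu (pvxParOf N hN c) m / 20) (pvwuBi (pvxParOf N hN c) (pvnaEngRec N hN c nb) m ε z t))
    (hF : PvjeFin (pvjeI (pvxParOf N hN c) (pvnaEngRec N hN c nb) pvilQ m ε z t) T η₀ η)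
    (hK : ∀ ξ ∈ T.𝒦, PvtrMesh (pvilMu (pvxParOf N hN c) m / 3) (pvieSh z ((pvnaEngRec N hN c nb).iK m t)) (cfSites ξ))
    (hD : PvtrMesh (pvilMu (pvxParOf N hN c) m / 3) (pvieDoor (pvnaEngRec N hN c nb) m ε (pvieZi (pvxParOf N hN c) m z t) (((pvxParOf N hN c).Γ m).din t)) (cfSites η)) :
    η ∈ pvilMs (pvxParOf N hN c) m (pvilWni (pvxParOf N hN c) (pvnaEngRec N hN c nb) m ε z t (pvilZi (pvxParOf N hN c) m z t η₀)) := by
  have hL := (pvea_par hN c0).lev hm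
  have hT := pvea_tyOk (c := c) hN t
  have hδ := pvlm_Del_pos c m
  have hμ := pvim9_Mu_le (c := c) hN m
  have hμ0 := pvim9_Mu_pos (c := c) hN m
  exact pvwu_i hL hT hμ0 (by linarith) (σ := pvlmDel c m * (13 / 160)) (by linarith) (by linarith) (pvnr_iK N hN c nb m t) (pvim9_O0 hN nb m) (pvim9_kit_O hN nb m ε)
    (η₀ := η₀) hB (pvwu_fin_kept hF) (pvwu_fin_tile hF hK) hD

/-- (b6) at the tests of 116, over the mesh of the door region -/
theorem pvim9_mesh_of (c0 : 0 < c) (hm : (pvxParOf N hN c).m0 ≤ m) (hMc : η₀ ∈ pviiMc (pvxParOf N hN c) m z t)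
    (hF : PvjeFin (pvjeI (pvxParOf N hN c) (pvnaEngRec N hN c nb) pvilQ m ε z t) (pviiT (pvxParOf N hN c) (pvnaEngRec N hN c nb) S q₀ nb.b m z t) η₀ η)
    (hD : PvtrMesh (pvilMu (pvxParOf N hN c) m / 3) (pvieDoor (pvnaEngRec N hN c nb) m ε (pvieZi (pvxParOf N hN c) m z t) (((pvxParOf N hN c).Γ m).din t)) (cfSites η)) :
    η ∈ pvilMs (pvxParOf N hN c) m (pvilWni (pvxParOf N hN c) (pvnaEngRec N hN c nb) m ε z t (pvilZi (pvxParOf N hN c) m z t η₀)) := by
  have hμ0 := pvim9_Mu_pos (c := c) hN m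
  refine pvim9_mesh_gen hN nb c0 hm (pvmj_mesh_sub (pvim9_Bi_sub hN nb c0 hm ε z t) hMc) hF (fun ξ hξ => ?_) hD
  have h2 : PvtrMesh (pviiRho (pvxParOf N hN c) m) (pviiO (pvnaEngRec N hN c nb) m z t) (cfSites ξ) := hξ.2.2
  exact pvmj_mesh_mono (by unfold pviiRho; linarith) (pvmj_mesh_sub subset_union_right h2)

/-- **the mesh of the door region**, from the side event of record: `hHf` = `pvna_Hf_mesh` of R24 (9): the side events of record contain the mesh `μ₁ = pvwyMu ρ''` of the unit door region      (173 `pvyo_mesh_T`, 10 `pvwy_hmu_par`) -/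
theorem pvim9_door_mesh (c0 : 0 < c) (hm : (pvxParOf N hN c).m0 ≤ m) (hHf : ∀ σ ∈ S, PvtrMesh (pvwyMu N.rho3) pvkgO (cfSites σ))
    (h1 : η ∈ pvdpPl (pvieZi (pvxParOf N hN c) m z t) (((pvxParOf N hN c).Γ m).din t * pvlmDel c m) ((pvxParOf N hN c).col t) S) :
    PvtrMesh (pvilMu (pvxParOf N hN c) m / 3) (pvieDoor (pvnaEngRec N hN c nb) m ε (pvieZi (pvxParOf N hN c) m z t) (((pvxParOf N hN c).Γ m).din t)) (cfSites η) := by
  have hL := (pvea_par hN c0).lev hm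
  have hδ := pvlm_Del_pos c m
  have hd4 : ((pvxParOf N hN c).Γ m).din t ^ 4 = 1 := pveg_din4 hL t
  have hd1 : ‖((pvxParOf N hN c).Γ m).din t‖ = 1 := pveg_norm_unit hd4
  have ha : ‖((pvxParOf N hN c).Γ m).din t * (pvlmDel c m : ℂ)‖ = pvlmDel c m := by
    rw [norm_mul, hd1, one_mul, Complex.norm_real, Real.norm_eq_abs, abs_of_pos hδ]
  have ha0 : ((pvxParOf N hN c).Γ m).din t * (pvlmDel c m : ℂ) ≠ 0 := by
    intro h
    rw [h, norm_zero] at ha
    exact hδ.ne ha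
  have h2 := pvyo_mesh_T (pvieZi (pvxParOf N hN c) m z t) ha0 ((pvxParOf N hN c).col t) (hHf _ h1)
  rw [ha] at h2
  have e : pvieDoor (pvnaEngRec N hN c nb) m ε (pvieZi (pvxParOf N hN c) m z t) (((pvxParOf N hN c).Γ m).din t) = pvkdAt (pvieZi (pvxParOf N hN c) m z t) (((pvxParOf N hN c).Γ m).din t * pvlmDel c m) pvkgO := by
    unfold pvieDoor pvkdAt
    rw [pvnr_kit_O, pvo4_sim_sim]
    rfl
  rw [e]
  exact pvmj_mesh_mono (by have := pvwy_hmu_par N hN c m; linarith) h2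

/-- **(b6) THE MESH OF THE WINDOW AT THE ENGINE OF RECORD** = the third conjunct of `pvilMi` -/
theorem pvim9_mesh (c0 : 0 < c) (hm : (pvxParOf N hN c).m0 ≤ m) (hHf : ∀ σ ∈ S, PvtrMesh (pvwyMu N.rho3) pvkgO (cfSites σ)) (hMc : η₀ ∈ pviiMc (pvxParOf N hN c) m z t)
    (hF : PvjeFin (pvjeI (pvxParOf N hN c) (pvnaEngRec N hN c nb) pvilQ m ε z t) (pviiT (pvxParOf N hN c) (pvnaEngRec N hN c nb) S q₀ nb.b m z t) η₀ η) :
    η ∈ pvilMs (pvxParOf N hN c) m (pvilWni (pvxParOf N hN c) (pvnaEngRec N hN c nb) m ε z t (pvilZi (pvxParOf N hN c) m z t η₀)) :=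
  pvim9_mesh_of hN nb q₀ c0 hm hMc hF (pvim9_door_mesh hN nb c0 hm hHf hF.side)

/-- **(b3) THE RUN OF THE LAST LINK** (the only conjunct which is not proved here; form of `pvet_ev_run` of 54): door state + carried half state at a final configuration `⟹` the strand continued from the exit gate edge of the door plug reaches the entry gate edge of `t` through the room `z + iY`; its black bank -/
def Pvim9Run (N : PvxNums) (hN : N.Ok) (c : ℝ) (nb : PvnaNb N) (S : Set (Conf PvPt)) (q₀ : ℝ) (m : ℕ) (z : ℂ) (t : pvxTau N) : Prop :=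
  ∀ᶠ ε in 𝓝[>] (0 : ℝ), ∀ η₀ ∈ pvilUi (pvxParOf N hN c).num ((pvxParOf N hN c).col t) (pvilPin (pvxParOf N hN c) m z t), η₀ ∈ pviiMc (pvxParOf N hN c) m z t → CfOK η₀ →
    ∀ η, PvjeFin (pvjeI (pvxParOf N hN c) (pvnaEngRec N hN c nb) pvilQ m ε z t) (pviiT (pvxParOf N hN c) (pvnaEngRec N hN c nb) S q₀ nb.b m z t) η₀ η →
      ∀ 𝔖 𝔖' : PvwSt (pvieT η), PvilDoor (pvkdP (pvilRd (pvxParOf N hN c) m)) ((pvxParOf N hN c).col t) η (pvieZi (pvxParOf N hN c) m z t) (((pvxParOf N hN c).Γ m).din t) 𝔖 →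
        PvilIn (pvxParOf N hN c).num ((pvxParOf N hN c).col t) (pvilPin (pvxParOf N hN c) m z t) η 𝔖' →
        ∃ (y : (pvieT η).Pth) (n : ℕ), (pvilLi (pvxParOf N hN c) (pvnaEngRec N hN c nb) m z t).Run ((pvxParOf N hN c).col t) η 𝔖 𝔖' n ∧
          PvwLE (pvieT η) (fun i => (pvieT η).src (pvasIt (pvieT η) (pvieCol η ((pvxParOf N hN c).col t)) 𝔖.dp i)) n y

theorem pvim9_eqns_cite : True := by
  have := @Pvim9Run.eq_1
  trivial

/-- **THE STATEMENT OF `exit_pvii_ev`** (116, `Exit/FrcI`) over the run and the mesh of the side events of record -/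
theorem pvim9_ev_of (c0 : 0 < c) (hm : (pvxParOf N hN c).m0 ≤ m) (z : ℂ) (t : pvxTau N) (hHf : ∀ σ ∈ S, PvtrMesh (pvwyMu N.rho3) pvkgO (cfSites σ)) (hrun : Pvim9Run N hN c nb S q₀ m z t) :
    ∀ᶠ ε in 𝓝[>] (0 : ℝ), ∀ η₀ ∈ pvilUi (pvxParOf N hN c).num ((pvxParOf N hN c).col t) (pvilPin (pvxParOf N hN c) m z t), η₀ ∈ pviiMc (pvxParOf N hN c) m z t → CfOK η₀ →
      ∀ η, PvjeFin (pvjeI (pvxParOf N hN c) (pvnaEngRec N hN c nb) pvilQ m ε z t) (pviiT (pvxParOf N hN c) (pvnaEngRec N hN c nb) S q₀ nb.b m z t) η₀ η →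
        η ∈ pvilMi (pvxParOf N hN c) (pvnaEngRec N hN c nb) m ε z t (pvilZi (pvxParOf N hN c) m z t η₀) := by
  filter_upwards [hrun] with ε hr η₀ hU hMc hOK η hF
  obtain ⟨𝔖, h1⟩ := pvim9_door hN nb q₀ hF
  obtain ⟨⟨𝔖', h2⟩, -, h3⟩ := pvim9_in hN nb q₀ c0 hm hU hMc hF
  obtain ⟨y, n, h4, h5⟩ := hr η₀ hU hMc hOK η hF 𝔖 𝔖' h1 h2
  exact ⟨⟨⟨𝔖, 𝔖', y, ⟨h1, h2, n, h4, h5⟩⟩, h3⟩, pvim9_mesh hN nb q₀ c0 hm hHf hMc hF⟩

end rec

/-! ## THE WHOLE OF [DET.ev] AT THE RECORD, NO LEAF: `pviy_A` of 19 (`Exit/FrcIEv`) at `pvnaEngRec`, `pviiT`, `pviiMc` -/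

section room

variable {τ : Type} {c : ℝ} {𝔓 : PvxPar τ c} {m : ℕ} {t : τ}

/-- **the room of record `pvegIYc` of 245 has the contract `PviyRoom` of 19** -/
theorem pvim9_room (hL : PvegLev 𝔓 m) (h0 : 0 ≤ pvilMu 𝔓 m) (hT : pviwTyOk 𝔓 t) (hf : 10000 * pvlmDel c m ≤ pvegR 𝔓 m) (z : ℂ) : PviyRoom 𝔓 m z t (pvieSh z (pvegIYc 𝔓 m t)) where
  bdd := pvhw7_bdd hL h0 hT z
  co := pvhw7_co hL h0 hT z
  ball := by
    intro v hv
    have hδ := pvlm_Del_pos c m
    have hμ := pvey_mu_le (𝔓 := 𝔓) m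
    rw [pviy_cm, mem_closedBall_iff_norm] at hv
    refine ⟨v - z, pvey_mem_ball ?_, by ring⟩
    have : v - z - pvegYm 𝔓 m t = v - (z + pvegYm 𝔓 m t) := by ring
    rw [this]
    linarith
  fnl := by
    intro v h1 h2 h3
    have hδ := pvlm_Del_pos c m
    have hμ := pvey_mu_le (𝔓 := 𝔓) m
    rw [pviy_cm, pvhw7_S] at h1 h2
    rw [pviy_cm, pvhw7_T] at h3
    have eq : pvge3Q c m = pvlmDel c m / 40 := rfl
    have ea : pvegA c m = pvlmDel c m / 160 := rfl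
    refine ⟨v - z, pvey_mem_fun ?_ ?_ ?_, by ring⟩
    · linarith
    · unfold pviySp at h2
      rw [eq] at h2
      rw [ea]
      linarith
    · unfold pviyLam at h3
      rw [← mul_sub, abs_mul] at h3
      have : |pvge2Sg false| = 1 := by simp [pvge2Sg]
      rw [this, one_mul] at h3
      linarith
  back := by
    rintro _ ⟨w, hw, rfl⟩
    have h1 := pvey_iYc_front hL h0 hT hw
    have ha := pveg_A_pos c m
    rw [pviy_cm, pvhw7_S, add_sub_cancel_left]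
    unfold pviySp pvegS
    have : ((w - pvegYm 𝔓 m t) * (starRingEnd ℂ) (-(𝔓.Γ m).din t)).re = (((𝔓.Γ m).pin t - pvegYm 𝔓 m t) * (starRingEnd ℂ) (-(𝔓.Γ m).din t)).re - ((w - (𝔓.Γ m).pin t) * (starRingEnd ℂ) ((𝔓.Γ m).din t)).re := by
      rw [map_neg]
      simp only [Complex.mul_re, Complex.sub_re, Complex.sub_im, Complex.neg_re, Complex.neg_im]
      ring
    rw [this]
    linarith

end room

section recA

variable {N : PvxNums} (hN : N.Ok) {c : ℝ} (nb : PvnaNb N)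

/-- **THE STATEMENT OF `exit_pvii_ev`** (116, `Exit/FrcI`), NO LEAF: `pviy_A` of 19 at the engine and the tests of record + the mesh of the window -/
theorem pvim9_ev (c0 : 0 < c) (q₀ : ℝ) {m : ℕ} (hm : (pvxParOf N hN c).m0 ≤ m) (z : ℂ) (t : pvxTau N) (ε : ℝ) {η₀ : Conf PvPt}
    (hU : η₀ ∈ pvilUi (pvxParOf N hN c).num ((pvxParOf N hN c).col t) (pvilPin (pvxParOf N hN c) m z t)) (hMc : η₀ ∈ pviiMc (pvxParOf N hN c) m z t) {η : Conf PvPt}
    (hF : PvjeFin (pvjeI (pvxParOf N hN c) (pvnaEngRec N hN c nb) pvilQ m ε z t) (pviiT (pvxParOf N hN c) (pvnaEngRec N hN c nb) (pvnaHf N 0) q₀ nb.b m z t) η₀ η) :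
    η ∈ pvilMi (pvxParOf N hN c) (pvnaEngRec N hN c nb) m ε z t (pvilZi (pvxParOf N hN c) m z t η₀) := by
  have hL := pvqh_lev hN c0 hm
  have hT := pvqh_tyOk hN c t
  have hf := pvuo_fine hN c0 hm
  have hμ0 := pvim9_Mu_pos (c := c) hN m
  have hμ := pvim9_Mu_le (c := c) hN m
  have hδ := pvlm_Del_pos c m
  have hh := pvlm_H_pos m
  have hρ : N.rho ≤ 1 := by linarith [hN.rho0, hN.rho1, hN.rho2, hN.rho3]
  have hR : pvegR (pvxParOf N hN c) m ≤ pvlmH m := by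
    show N.rho * pvlmH m ≤ pvlmH m
    nlinarith
  have hY := pvim9_Ym_le (c := c) hN m t
  have hb : pvlmDel c m / 3 < ((pvxParOf N hN c).ty t).b * pvlmH m := by
    have h5 : (1 : ℝ) ≤ N.b1 := by linarith [hN.m_gt, hN.m_lt, hN.B_lt, hN.ab1]
    show pvlmDel c m / 3 < N.b1 * pvlmH m
    nlinarith
  have hball : ∀ {r : ℝ}, r ≤ 3 * pvlmH m → pvieSh z (closedBall (pvegYm (pvxParOf N hN c) m t) r) ⊆ closedBall z (2 * pviwRad (pvxParOf N hN c) m t + 4 * pvlmH m) := by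
    rintro r hr _ ⟨w, hw, rfl⟩
    rw [mem_closedBall_iff_norm] at hw ⊢
    have : ‖z + w - z‖ ≤ ‖w - pvegYm (pvxParOf N hN c) m t‖ + ‖pvegYm (pvxParOf N hN c) m t‖ := by
      rw [add_sub_cancel_left]
      have := norm_add_le (w - pvegYm (pvxParOf N hN c) m t) (pvegYm (pvxParOf N hN c) m t)
      simpa using this
    linarith
  have hbox : pvieSh z (pviwBox (pvxParOf N hN c) m t) ⊆ closedBall z (2 * pviwRad (pvxParOf N hN c) m t + 4 * pvlmH m) := by
    rintro _ ⟨w, hw, rfl⟩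
    have h1 := pvim9_sq_ball 0 _ hw
    rw [mem_closedBall_iff_norm] at h1 ⊢
    rw [sub_zero] at h1
    rw [add_sub_cancel_left]
    linarith
  have hA := pviy_A (𝔓 := pvxParOf N hN c) (𝔈 := pvnaEngRec N hN c nb) (w := pvilQ) (m := m) (ε := ε) (z := z) (t := t) (η₀ := η₀) (η := η)
    (T := pviiT (pvxParOf N hN c) (pvnaEngRec N hN c nb) (pvnaHf N 0) q₀ nb.b m z t)
    (pvho_num_par hN c) hL hT hf (pvqh_cm hN c t) (O₀ := (pvnaInRec N hN c nb).O0) (pvnr_iM N hN c nb m t) (pvnr_iK N hN c nb m t)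
    (by rw [pvim9_kit_O, pvim9_O0]) (by rw [pvim9_O0]; exact (pvcc_sq_mono _ (by show pvlmDel c m * (13 / 160) ≤ 13 * (pvlmDel c m / 40) / 4; linarith)))
    (by rw [pvnr_iY]; exact pvim9_room hL hμ0.le hT hf z)
    (μ₀ := pvilMu (pvxParOf N hN c) m / 20) (μ₁ := pviiRho (pvxParOf N hN c) m) (by linarith) (by linarith) (by linarith) (by unfold pviiRho; linarith)
    (by have eq : pvge3Q c m = pvlmDel c m / 40 := rfl
        unfold pviiRho; rw [eq]; linarith)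
    (pvrg_mesh_mono hbox hMc) (pvrg_mesh_mono (by rw [pvnr_iM]; exact hball (by linarith)) hMc)
    ?_ inter_subset_left (fun ξ hξ => hξ.2.2) (𝔱 := pvnaT N) (pvna_geo hN) rfl rfl Subset.rfl hU hF
  · exact ⟨⟨hA.1, hA.2⟩, pvim9_mesh hN nb q₀ c0 hm (fun σ h => pvna_Hf_mesh N h) hMc hF⟩
  · intro v hv
    refine hMc v ?_
    intro u hu
    rw [mem_closedBall_iff_norm] at hv hu ⊢
    rw [pviy_cm] at hv
    have h2 : (pvxParOf N hN c).num.rho2 * pvlmH m ≤ pvlmH m := by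
      show N.rho2 * pvlmH m ≤ pvlmH m
      nlinarith [hN.rho3]
    have : ‖u - z‖ ≤ ‖u - v‖ + ‖v - (z + pvegYm (pvxParOf N hN c) m t)‖ + ‖pvegYm (pvxParOf N hN c) m t‖ := by
      have e : u - z = (u - v) + (v - (z + pvegYm (pvxParOf N hN c) m t)) + pvegYm (pvxParOf N hN c) m t := by ring
      rw [e]
      exact (norm_add_le _ _).trans (add_le_add_left (norm_add_le _ _) _)
    linarith

end recA

end Claimed.Agent.R289
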