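-- KEEP
import Claimed.Agent.R289.Exit.GoodEM
import Claimed.Agent.R289.Tr.GoodH

/-!
# Row 289 (S0537), THE WALL, ROAD E, E10 / HOOK-DET AT THE MODEL, file Exit/GoodEH : LANES, CLOSING SETS AND ROOMS OF THE HALF LANES INSIDE THE WINDOWS AND ROOMS OF RECORD      (helper298; prefix `pvge6_`)

`Exit/GoodEM` (patterns of record at the parameters) × `Tr/GoodH` (door of 173 in the frame) × `Exit/ParEng` v2 (124: `pvegRa pvegKa pvegYa`, `pvegOKa pvegOYa pvegIKa pvegIYa`).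
* sec. 1  ONE DOOR OF 124 (frame `(Y, u)`, door `p`): `pvge6_lane_Ra` (a point within `ρ' ≤ q/8` of a lane of record lies in the funnel, before the plane `S(p) - 27q/8`), `pvge6_lane_win` (mouth ∪ tile), `pvge6_lane_core`, `pvge6_lane_Ya`, `pvge6_cl_ball`;
          rooms of the half lanes: `pvge6_room_Ra`, `pvge6_room_Ya`, `pvge6_room_Ka`
* sec. 2  AT THE PARAMETERS, placed at `z`: `pvge6_*_o`, `pvge6_*_i`
-/

set_option autoImplicit false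
set_option linter.unusedSectionVars false
set_option linter.unusedVariables false

namespace Claimed.Agent.R289

open Set Metric Complex Filter Topology Claims.C0465
open scoped ENNReal

/-! ## 1. one door -/

section door

variable {Y u p : ℂ} {up : Bool} {r δ q dl ρ b μ rk : ℝ}

theorem pvge6_L_abs (Y u p v : ℂ) (up : Bool) : |pvegL Y u v - pvegL Y u p| = |pvge2T Y u up v - pvge2Sg up * pvegL Y u p| := by
  rw [pvge3_T, ← mul_sub, abs_mul, pvge2_sg_abs, one_mul]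

/-- **a point near a lane of record lies in the funnel of 124**, before the plane `S(p) - 27q/8`, farther than `r/8` from the centre of the mouth -/
theorem pvge6_lane_Ra (hu : ‖u‖ = 1) (R : Pvge2Rec r δ q dl ρ b μ (pvegS Y u p) (pvge2Sg up * pvegL Y u p)) {a : ℝ} (ha : a ≤ 27 * q / 8) (β : Bool) {ρ' : ℝ} (hρ' : ρ' ≤ q / 8) {v w : ℂ}
    (hw : w ∈ pvge4Lane Y u (if β then up else !up) r q (pvegS Y u p) (pvge2Aa r β) (pvge2Lm (pvge2Sg up * pvegL Y u p) β)) (hv : ‖v - w‖ ≤ ρ') :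
    v ∈ pvegRa Y u p (r / 10) δ (r / 5) a ∧ pvegS Y u v ≤ pvegS Y u p - 27 * q / 8 ∧ r / 8 < ‖v - Y‖ := by
  obtain ⟨h1, h2, h3, h4, -⟩ := pvge4_lane_nbd hu R β hρ' hw hv
  refine ⟨⟨h1.le, ?_, ?_⟩, h3, h2⟩
  · have : pvegS Y u v ≤ pvegS Y u p - 27 * q / 8 := h3
    linarith
  · rw [pvge6_L_abs Y u p v up]; exact h4

/-- … hence in (mouth) ∪ (tile) -/
theorem pvge6_lane_win (hu : ‖u‖ = 1) (R : Pvge2Rec r δ q dl ρ b μ (pvegS Y u p) (pvge2Sg up * pvegL Y u p)) {a : ℝ} (ha : a ≤ 27 * q / 8) {O : Set ℂ} (hO : ∀ x ∈ O, pvegS Y u p - 27 * q / 8 < pvegS Y u x)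
    (β : Bool) {ρ' : ℝ} (hρ' : ρ' ≤ q / 8) {v w : ℂ}
    (hw : w ∈ pvge4Lane Y u (if β then up else !up) r q (pvegS Y u p) (pvge2Aa r β) (pvge2Lm (pvge2Sg up * pvegL Y u p) β)) (hv : ‖v - w‖ ≤ ρ') :
    v ∈ closedBall Y (5 * r / 16) ∪ pvegKa Y u p (r / 10) δ (r / 5) (5 * r / 16) a O := by
  obtain ⟨h1, h2, -⟩ := pvge6_lane_Ra hu R ha β hρ' hw hv
  by_cases hb : v ∈ closedBall Y (5 * r / 16)
  · exact Or.inl hb
  · exact Or.inr ⟨⟨h1, hb⟩, fun hvO => absurd (hO v hvO) (not_lt.2 h2)⟩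

/-- **the lanes of record lie in the `ρ'`-core of (mouth) ∪ (tile)** -/
theorem pvge6_lane_core (hu : ‖u‖ = 1) (R : Pvge2Rec r δ q dl ρ b μ (pvegS Y u p) (pvge2Sg up * pvegL Y u p)) {a : ℝ} (ha : a ≤ 27 * q / 8) {O : Set ℂ} (hO : ∀ x ∈ O, pvegS Y u p - 27 * q / 8 < pvegS Y u x)
    (β : Bool) {ρ' : ℝ} (hρ' : ρ' ≤ q / 8) :
    pvge4Lane Y u (if β then up else !up) r q (pvegS Y u p) (pvge2Aa r β) (pvge2Lm (pvge2Sg up * pvegL Y u p) β) ⊆ pvtrCore ρ' (closedBall Y (5 * r / 16) ∪ pvegKa Y u p (r / 10) δ (r / 5) (5 * r / 16) a O) := by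
  intro w hw v hv
  rw [mem_closedBall, dist_eq_norm] at hv
  exact pvge6_lane_win hu R ha hO β hρ' hw hv

/-- **the `ρ'`-neighbourhood of a lane of record lies in the room of the link** -/
theorem pvge6_lane_Ya (hu : ‖u‖ = 1) (R : Pvge2Rec r δ q dl ρ b μ (pvegS Y u p) (pvge2Sg up * pvegL Y u p)) {a : ℝ} (ha : a ≤ 27 * q / 8) (β : Bool) {ρ' : ℝ} (hρ' : ρ' ≤ q / 8) :
    vorNbd (pvge4Lane Y u (if β then up else !up) r q (pvegS Y u p) (pvge2Aa r β) (pvge2Lm (pvge2Sg up * pvegL Y u p) β)) ρ' ⊆ pvegYa Y u p (r / 10) δ (r / 5) (5 * r / 16) a := by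
  rintro v ⟨w, hw, hv⟩
  exact Or.inr (pvge6_lane_Ra hu R ha β hρ' hw hv).1

/-- **the closing sets (and the whole arms) lie in the small mouth**, with their `ρ`-neighbourhood -/
theorem pvge6_cl_ball (hu : ‖u‖ = 1) (R : Pvge2Rec r δ q dl ρ b μ (pvegS Y u p) (pvge2Sg up * pvegL Y u p)) (sd β : Bool) :
    vorNbd (pvge2Cl Y u sd (pvge2Aa r β) (23 * r / 200) (3 * r / 20) dl) ρ ⊆ closedBall Y (r / 4) := by
  rintro v ⟨w, hw, hv⟩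
  rw [mem_closedBall_iff_norm]
  exact pvge2_arm_near hu (R.num β) ⟨w, Or.inr hw, hv⟩

/-! ### the rooms of the half lanes -/

variable {d : ℂ} {s r₀ : ℝ} {σ : Bool} {Ln Dr : Bool → Set ℂ}

/-- **a point within `μ' ≤ q/16` of a room of a half lane lies in the funnel of 124** (last plane `S(p) - a`, `a ≤ 7q/16`; of record `a = q/4`) -/
theorem pvge6_room_Ra (hu : ‖u‖ = 1) (R : Pvge2Rec r δ q dl ρ b μ (pvegS Y u p) (pvge2Sg up * pvegL Y u p)) (G : Pvge5Side r₀ σ Ln Dr) (hs : 0 < s) (hk : d * (starRingEnd ℂ) u = ((-pvge5E σ : ℝ) : ℂ)) (hq : q = s * r₀)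
    {a : ℝ} (ha : a ≤ 7 * q / 16) (β : Bool) {μ' : ℝ} (hμ' : μ' ≤ q / 16) {v w : ℂ} (hw : w ∈ pvkdAt p (d * s) (Ln β)) (hv : ‖v - w‖ ≤ μ') : v ∈ pvegRa Y u p (r / 10) δ (r / 5) a := by
  have h1 := R.δ0; have h3 := R.fine; have h8 := R.s_lo; have h10 := R.qδ; have h11 := R.q0
  obtain ⟨b1, b2, b3⟩ := pvge5_box (Yc := Y) G hs hk up β w hw
  rw [← hq] at b1 b2 b3
  have hS := abs_le.1 ((pvge2_S_lip hu Y v w).trans hv)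
  have hT := abs_le.1 ((pvge2_T_lip hu Y up v w).trans hv)
  have b3' := abs_le.1 b3
  have e1 : pvge2S Y u p = pvegS Y u p := rfl
  have e2 : pvge2S Y u v = pvegS Y u v := rfl
  refine ⟨by rw [← e2]; linarith [hS.1], by rw [← e2]; linarith [hS.2], ?_⟩
  rw [pvge6_L_abs Y u p v up, ← pvge3_T, abs_le]
  constructor <;> linarith [hT.1, hT.2, b3'.1, b3'.2]

/-- **the `μ'`-neighbourhood of a room of a half lane lies in the room of the link** -/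
theorem pvge6_room_Ya (hu : ‖u‖ = 1) (R : Pvge2Rec r δ q dl ρ b μ (pvegS Y u p) (pvge2Sg up * pvegL Y u p)) (G : Pvge5Side r₀ σ Ln Dr) (hs : 0 < s) (hk : d * (starRingEnd ℂ) u = ((-pvge5E σ : ℝ) : ℂ)) (hq : q = s * r₀)
    {a : ℝ} (ha : a ≤ 7 * q / 16) (β : Bool) {μ' : ℝ} (hμ' : μ' ≤ q / 16) : vorNbd (pvkdAt p (d * s) (Ln β)) μ' ⊆ pvegYa Y u p (r / 10) δ (r / 5) (5 * r / 16) a := by
  rintro v ⟨w, hw, hv⟩
  exact Or.inr (pvge6_room_Ra hu R G hs hk hq ha β hμ' hw hv)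

/-- **beyond the cut plane `S(p) - 13q/4` the rooms of the half lanes lie in the TILE** (fresh sites, copy colouring) -/
theorem pvge6_room_Ka (hu : ‖u‖ = 1) (R : Pvge2Rec r δ q dl ρ b μ (pvegS Y u p) (pvge2Sg up * pvegL Y u p)) (G : Pvge5Side r₀ σ Ln Dr) (hs : 0 < s) (hk : d * (starRingEnd ℂ) u = ((-pvge5E σ : ℝ) : ℂ)) (hq : q = s * r₀)
    {a : ℝ} (ha : a ≤ 7 * q / 16) {O : Set ℂ} (hO : ∀ x ∈ O, pvegS Y u p - 13 * q / 4 ≤ pvegS Y u x) (β : Bool) {w : ℂ} (hw : w ∈ pvkdAt p (d * s) (Ln β)) (hx : pvegS Y u w < pvegS Y u p - 13 * q / 4) :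
    w ∈ pvegKa Y u p (r / 10) δ (r / 5) (5 * r / 16) a O := by
  have h1 := R.δ0; have h3 := R.fine; have h8 := R.s_lo; have h10 := R.qδ; have h11 := R.q0
  refine ⟨⟨pvge6_room_Ra hu R G hs hk hq ha β (μ' := 0) (by linarith) hw (by simp), fun hb => ?_⟩, fun hwO => absurd (hO w hwO) (not_le.2 hx)⟩
  obtain ⟨b1, -, -⟩ := pvge5_box (Yc := Y) G hs hk up β w hw
  rw [← hq] at b1
  rw [mem_closedBall_iff_norm] at hb
  have hS := abs_le.1 (pvge2_S_lip hu Y w Y)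
  have e0 : pvge2S Y u Y = 0 := by simp [pvge2S]
  have e1 : pvge2S Y u p = pvegS Y u p := rfl
  rw [e0] at hS
  linarith [hS.2]

end door

/-! ## 2. at the parameters, placed at `z` -/

theorem pvge6_Ra_sh (z Y u p : ℂ) (e δ w a : ℝ) : pvegRa (z + Y) u (z + p) e δ w a ⊆ pvieSh z (pvegRa Y u p e δ w a) := by
  intro v hv
  rw [pvge3_mem_sh]
  obtain ⟨h1, h2, h3⟩ := hv
  have eS : pvegS (z + Y) u v = pvegS Y u (v - z) := by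
    have := pvge3_S_sh z Y u (v - z)
    rwa [add_sub_cancel] at this
  have eL : pvegL (z + Y) u v = pvegL Y u (v - z) := by
    have := pvge3_L_sh z Y u (v - z)
    rwa [add_sub_cancel] at this
  rw [eS, pvge3_S_sh] at h2
  rw [eS] at h1
  rw [eL, pvge3_L_sh] at h3
  exact ⟨h1, h2, h3⟩

theorem pvge6_Ya_sh (z Y u p : ℂ) (e δ w rM a : ℝ) : pvegYa (z + Y) u (z + p) e δ w rM a ⊆ pvieSh z (pvegYa Y u p e δ w rM a) := by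
  rintro v (hv | hv)
  · exact image_mono subset_union_left (pvge3_ball_sh _ _ _ hv)
  · exact image_mono subset_union_right (pvge6_Ra_sh _ _ _ _ _ _ _ _ hv)

section par

variable {τ : Type} {c : ℝ} {𝔓 : PvxPar τ c} {m : ℕ} {t : τ}

/-- the record of the exit mouth PLACED at `z`, sites of mesh `0` (regions only) -/
theorem pvge6_rec_o (hL : PvegLev 𝔓 m) (hT : pviwTyOk 𝔓 t) (hf : 10000 * pvlmDel c m ≤ pvegR 𝔓 m) (z : ℂ) {ρ : ℝ} (hρ0 : 0 ≤ ρ) (hρ : ρ ≤ pvlmDel c m) :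
    Pvge2Rec (pvegR 𝔓 m) (pvlmDel c m) (pvge3Q c m) (pvge3Dl c m) ρ 0 0 (pvegS (z + pvegYp 𝔓 m t) ((𝔓.Γ m).dout t) (z + (𝔓.Γ m).pout t)) (pvge2Sg true * pvegL (z + pvegYp 𝔓 m t) ((𝔓.Γ m).dout t) (z + (𝔓.Γ m).pout t)) := by
  rw [pvge3_S_sh, pvge3_L_sh]
  exact pvge3_rec_o hL hT hf hρ0 hρ (by norm_num) (by have := pveg_R_pos hL; linarith)

theorem pvge6_rec_i (hL : PvegLev 𝔓 m) (hT : pviwTyOk 𝔓 t) (hf : 10000 * pvlmDel c m ≤ pvegR 𝔓 m) (z : ℂ) {ρ : ℝ} (hρ0 : 0 ≤ ρ) (hρ : ρ ≤ pvlmDel c m) :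
    Pvge2Rec (pvegR 𝔓 m) (pvlmDel c m) (pvge3Q c m) (pvge3Dl c m) ρ 0 0 (pvegS (z + pvegYm 𝔓 m t) (-(𝔓.Γ m).din t) (z + (𝔓.Γ m).pin t)) (pvge2Sg false * pvegL (z + pvegYm 𝔓 m t) (-(𝔓.Γ m).din t) (z + (𝔓.Γ m).pin t)) := by
  rw [pvge3_S_sh, pvge3_L_sh]
  exact pvge3_rec_i hL hT hf hρ0 hρ (by norm_num) (by have := pveg_R_pos hL; linarith)

/-- **THE LANE OF RECORD OF THE FIRST LINK**, relative colour `β` (on the side `β` of `dout t`), placed at `z` -/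
noncomputable def pvge6LaneO (𝔓 : PvxPar τ c) (m : ℕ) (z : ℂ) (t : τ) (β : Bool) : Set ℂ :=
  pvge4Lane (z + pvegYp 𝔓 m t) ((𝔓.Γ m).dout t) β (pvegR 𝔓 m) (pvge3Q c m) (pvegS (pvegYp 𝔓 m t) ((𝔓.Γ m).dout t) ((𝔓.Γ m).pout t)) (pvge2Aa (pvegR 𝔓 m) β)
    (pvge2Lm (pvge2Sg true * pvegL (pvegYp 𝔓 m t) ((𝔓.Γ m).dout t) ((𝔓.Γ m).pout t)) β)

/-- **THE LANE OF RECORD OF THE LAST LINK**, relative colour `β` (on the side `!β` of `- din t`), placed at `z` -/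
noncomputable def pvge6LaneI (𝔓 : PvxPar τ c) (m : ℕ) (z : ℂ) (t : τ) (β : Bool) : Set ℂ :=
  pvge4Lane (z + pvegYm 𝔓 m t) (-(𝔓.Γ m).din t) (!β) (pvegR 𝔓 m) (pvge3Q c m) (pvegS (pvegYm 𝔓 m t) (-(𝔓.Γ m).din t) ((𝔓.Γ m).pin t)) (pvge2Aa (pvegR 𝔓 m) β)
    (pvge2Lm (pvge2Sg false * pvegL (pvegYm 𝔓 m t) (-(𝔓.Γ m).din t) ((𝔓.Γ m).pin t)) β)

theorem pvge6_eqns_cite : True := by
  have := @pvge6LaneO.eq_1; have := @pvge6LaneI.eq_1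
  trivial

theorem pvge6_A_le (c : ℝ) (m : ℕ) : pvegA c m ≤ 7 * pvge3Q c m / 16 := by
  have := pvlm_Del_pos c m
  unfold pvegA pvge3Q
  linarith

theorem pvge6_laneO_mem {z : ℂ} {β : Bool} {w : ℂ} (hw : w ∈ pvge6LaneO 𝔓 m z t β) :
    w ∈ pvge4Lane (z + pvegYp 𝔓 m t) ((𝔓.Γ m).dout t) (if β then true else !true) (pvegR 𝔓 m) (pvge3Q c m) (pvegS (z + pvegYp 𝔓 m t) ((𝔓.Γ m).dout t) (z + (𝔓.Γ m).pout t)) (pvge2Aa (pvegR 𝔓 m) β)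
      (pvge2Lm (pvge2Sg true * pvegL (z + pvegYp 𝔓 m t) ((𝔓.Γ m).dout t) (z + (𝔓.Γ m).pout t)) β) := by
  rw [pvge3_S_sh, pvge3_L_sh]
  cases β <;> exact hw

theorem pvge6_laneI_mem {z : ℂ} {β : Bool} {w : ℂ} (hw : w ∈ pvge6LaneI 𝔓 m z t β) :
    w ∈ pvge4Lane (z + pvegYm 𝔓 m t) (-(𝔓.Γ m).din t) (if β then false else !false) (pvegR 𝔓 m) (pvge3Q c m) (pvegS (z + pvegYm 𝔓 m t) (-(𝔓.Γ m).din t) (z + (𝔓.Γ m).pin t)) (pvge2Aa (pvegR 𝔓 m) β)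
      (pvge2Lm (pvge2Sg false * pvegL (z + pvegYm 𝔓 m t) (-(𝔓.Γ m).din t) (z + (𝔓.Γ m).pin t)) β) := by
  rw [pvge3_S_sh, pvge3_L_sh]
  cases β <;> exact hw

/-- **(o) the lanes of record lie in the `ρ'`-core of (mouth ∪ tile)** -/
theorem pvge6_lane_core_o (hL : PvegLev 𝔓 m) (hT : pviwTyOk 𝔓 t) (hf : 10000 * pvlmDel c m ≤ pvegR 𝔓 m) {O₀ : ℕ → Set ℂ} (hO : O₀ m ⊆ pvccSq 0 (27 * pvge3Q c m / 8)) (z : ℂ) (β : Bool) {ρ' : ℝ} (hρ' : ρ' ≤ pvge3Q c m / 8) :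
    pvge6LaneO 𝔓 m z t β ⊆ pvtrCore ρ' (pvieSh z (pvegOM 𝔓 m t) ∪ pvieSh z (pvegOKa 𝔓 O₀ m t)) := by
  intro w hw
  have h := pvge6_lane_core (pvge3_u_o hL hT) (pvge6_rec_o hL hT hf z le_rfl (pvlm_Del_pos c m).le) (a := pvegA c m) (by have := pvge6_A_le c m; have := pvge3_q_pos c m; linarith)
    (O := pvieSh z (pvthSim ((𝔓.Γ m).pout t) ((𝔓.Γ m).dout t) '' O₀ m)) (by rw [pvge3_sh_sim]; exact pvge3_O_front (Or.inl (pvge3_dd_o hL hT)) hO) β hρ' (pvge6_laneO_mem hw)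
  exact pvtr_core_mono (union_subset_union (pvge3_ball_sh _ _ _) (pvge3_Ka_sh _ _ _ _ _ _ _ _ _ _)) h

/-- **(i)** -/
theorem pvge6_lane_core_i (hL : PvegLev 𝔓 m) (hT : pviwTyOk 𝔓 t) (hf : 10000 * pvlmDel c m ≤ pvegR 𝔓 m) {O₀ : ℕ → Set ℂ} (hO : O₀ m ⊆ pvccSq 0 (27 * pvge3Q c m / 8)) (z : ℂ) (β : Bool) {ρ' : ℝ} (hρ' : ρ' ≤ pvge3Q c m / 8) :
    pvge6LaneI 𝔓 m z t β ⊆ pvtrCore ρ' (pvieSh z (pvegIM 𝔓 m t) ∪ pvieSh z (pvegIKa 𝔓 O₀ m t)) := by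
  intro w hw
  have h := pvge6_lane_core (pvge3_u_i hL hT) (pvge6_rec_i hL hT hf z le_rfl (pvlm_Del_pos c m).le) (a := pvegA c m) (by have := pvge6_A_le c m; have := pvge3_q_pos c m; linarith)
    (O := pvieSh z (pvthSim ((𝔓.Γ m).pin t) ((𝔓.Γ m).din t) '' O₀ m)) (by rw [pvge3_sh_sim]; exact pvge3_O_front (Or.inr (pvge3_dd_i hL hT)) hO) β hρ' (pvge6_laneI_mem hw)
  exact pvtr_core_mono (union_subset_union (pvge3_ball_sh _ _ _) (pvge3_Ka_sh _ _ _ _ _ _ _ _ _ _)) h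

/-- **(o) where the sites of the lanes are**: within `ρ' ≤ q/8` of a lane of record: in the room of the link, off the own-level box with its collar, farther than `R/8` from the centre of the mouth -/
theorem pvge6_lane_nbd_o (hL : PvegLev 𝔓 m) (hT : pviwTyOk 𝔓 t) (hf : 10000 * pvlmDel c m ≤ pvegR 𝔓 m) (z : ℂ) (β : Bool) {ρ' : ℝ} (hρ' : ρ' ≤ pvge3Q c m / 8) {v : ℂ} (hv : v ∈ vorNbd (pvge6LaneO 𝔓 m z t β) ρ') :
    v ∈ pvieSh z (pvegOYa 𝔓 m t) ∧ v ∉ pvieSh z (pviwBox 𝔓 m t) ∧ pvegR 𝔓 m / 8 < ‖v - (z + pvegYp 𝔓 m t)‖ := by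
  obtain ⟨w, hw, hvw⟩ := hv
  obtain ⟨h1, -, h3⟩ := pvge6_lane_Ra (pvge3_u_o hL hT) (pvge6_rec_o hL hT hf z le_rfl (pvlm_Del_pos c m).le) (a := pvegA c m) (by have := pvge6_A_le c m; have := pvge3_q_pos c m; linarith) β hρ' (pvge6_laneO_mem hw) hvw
  have h4 := pvge6_Ra_sh _ _ _ _ _ _ _ _ h1
  refine ⟨image_mono subset_union_right h4, fun hb => ?_, h3⟩
  rw [pvge3_mem_sh] at h4 hb
  exact Set.disjoint_left.1 (pveg_Ra_off (pveg_door_o hL hT)) h4 hb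

/-- **(i)** -/
theorem pvge6_lane_nbd_i (hL : PvegLev 𝔓 m) (hT : pviwTyOk 𝔓 t) (hf : 10000 * pvlmDel c m ≤ pvegR 𝔓 m) (z : ℂ) (β : Bool) {ρ' : ℝ} (hρ' : ρ' ≤ pvge3Q c m / 8) {v : ℂ} (hv : v ∈ vorNbd (pvge6LaneI 𝔓 m z t β) ρ') :
    v ∈ pvieSh z (pvegIYa 𝔓 m t) ∧ v ∉ pvieSh z (pviwBox 𝔓 m t) ∧ pvegR 𝔓 m / 8 < ‖v - (z + pvegYm 𝔓 m t)‖ := by
  obtain ⟨w, hw, hvw⟩ := hv
  obtain ⟨h1, -, h3⟩ := pvge6_lane_Ra (pvge3_u_i hL hT) (pvge6_rec_i hL hT hf z le_rfl (pvlm_Del_pos c m).le) (a := pvegA c m) (by have := pvge6_A_le c m; have := pvge3_q_pos c m; linarith) β hρ' (pvge6_laneI_mem hw) hvw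
  have h4 := pvge6_Ra_sh _ _ _ _ _ _ _ _ h1
  refine ⟨image_mono subset_union_right h4, fun hb => ?_, h3⟩
  rw [pvge3_mem_sh] at h4 hb
  exact Set.disjoint_left.1 (pveg_Ra_off (pveg_door_i hL hT)) h4 hb

/-- **(o) the closing sets with their `ρ`-neighbourhood lie in the small mouth** (`ρ ≤ δ`) -/
theorem pvge6_cl_o (hL : PvegLev 𝔓 m) (hT : pviwTyOk 𝔓 t) (hf : 10000 * pvlmDel c m ≤ pvegR 𝔓 m) (z : ℂ) (sd β : Bool) {ρ : ℝ} (hρ0 : 0 ≤ ρ) (hρ : ρ ≤ pvlmDel c m) :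
    vorNbd (pvge2Cl (z + pvegYp 𝔓 m t) ((𝔓.Γ m).dout t) sd (pvge2Aa (pvegR 𝔓 m) β) (23 * pvegR 𝔓 m / 200) (3 * pvegR 𝔓 m / 20) (pvge3Dl c m)) ρ ⊆ closedBall (z + pvegYp 𝔓 m t) (pvegR 𝔓 m / 4) :=
  pvge6_cl_ball (pvge3_u_o hL hT) (pvge6_rec_o hL hT hf z hρ0 hρ) sd β

/-- **(i)** -/
theorem pvge6_cl_i (hL : PvegLev 𝔓 m) (hT : pviwTyOk 𝔓 t) (hf : 10000 * pvlmDel c m ≤ pvegR 𝔓 m) (z : ℂ) (sd β : Bool) {ρ : ℝ} (hρ0 : 0 ≤ ρ) (hρ : ρ ≤ pvlmDel c m) :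
    vorNbd (pvge2Cl (z + pvegYm 𝔓 m t) (-(𝔓.Γ m).din t) sd (pvge2Aa (pvegR 𝔓 m) β) (23 * pvegR 𝔓 m / 200) (3 * pvegR 𝔓 m / 20) (pvge3Dl c m)) ρ ⊆ closedBall (z + pvegYm 𝔓 m t) (pvegR 𝔓 m / 4) :=
  pvge6_cl_ball (pvge3_u_i hL hT) (pvge6_rec_i hL hT hf z hρ0 hρ) sd β

/-! ### the rooms of the half lanes of the door, at the parameters (`s = δ_m`, unit `r₀ = 1/40`) -/

variable {Ln Dr : Bool → Set ℂ}

theorem pvge6_q_eq (c : ℝ) (m : ℕ) : pvge3Q c m = pvlmDel c m * (1 / 40) := by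
  unfold pvge3Q; ring

/-- **(o) the `μ'`-neighbourhood of the rooms of the entry half lanes of the door of the first link lies in the room of the link** -/
theorem pvge6_room_Ya_o (hL : PvegLev 𝔓 m) (hT : pviwTyOk 𝔓 t) (hf : 10000 * pvlmDel c m ≤ pvegR 𝔓 m) (G : Pvge5Side (1 / 40) false Ln Dr) (z : ℂ) (β : Bool) {μ' : ℝ} (hμ' : μ' ≤ pvge3Q c m / 16) :
    vorNbd (pvkdAt (z + (𝔓.Γ m).pout t) ((𝔓.Γ m).dout t * (pvlmDel c m : ℝ)) (Ln β)) μ' ⊆ pvieSh z (pvegOYa 𝔓 m t) :=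
  (pvge6_room_Ya (pvge3_u_o hL hT) (pvge6_rec_o hL hT hf z le_rfl (pvlm_Del_pos c m).le) G (pvlm_Del_pos c m) (pvge5_k_o (pvge3_dd_o hL hT)) (pvge6_q_eq c m) (pvge6_A_le c m) β hμ').trans (pvge6_Ya_sh _ _ _ _ _ _ _ _ _)

/-- **(i)** -/
theorem pvge6_room_Ya_i (hL : PvegLev 𝔓 m) (hT : pviwTyOk 𝔓 t) (hf : 10000 * pvlmDel c m ≤ pvegR 𝔓 m) (G : Pvge5Side (1 / 40) true Ln Dr) (z : ℂ) (β : Bool) {μ' : ℝ} (hμ' : μ' ≤ pvge3Q c m / 16) :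
    vorNbd (pvkdAt (z + (𝔓.Γ m).pin t) ((𝔓.Γ m).din t * (pvlmDel c m : ℝ)) (Ln β)) μ' ⊆ pvieSh z (pvegIYa 𝔓 m t) :=
  (pvge6_room_Ya (pvge3_u_i hL hT) (pvge6_rec_i hL hT hf z le_rfl (pvlm_Del_pos c m).le) G (pvlm_Del_pos c m) (pvge5_k_i (pvge3_dd_i hL hT)) (pvge6_q_eq c m) (pvge6_A_le c m) β hμ').trans (pvge6_Ya_sh _ _ _ _ _ _ _ _ _)

/-- **(o) beyond the cut plane `S(p) - 13q/4` the rooms of the half lanes lie in the TILE of the first link** -/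
theorem pvge6_room_Ka_o (hL : PvegLev 𝔓 m) (hT : pviwTyOk 𝔓 t) (hf : 10000 * pvlmDel c m ≤ pvegR 𝔓 m) (G : Pvge5Side (1 / 40) false Ln Dr) {O₀ : ℕ → Set ℂ} (hO : O₀ m ⊆ pvccSq 0 (13 * pvge3Q c m / 4)) (z : ℂ) (β : Bool) {w : ℂ}
    (hw : w ∈ pvkdAt (z + (𝔓.Γ m).pout t) ((𝔓.Γ m).dout t * (pvlmDel c m : ℝ)) (Ln β))
    (hx : pvegS (z + pvegYp 𝔓 m t) ((𝔓.Γ m).dout t) w < pvegS (z + pvegYp 𝔓 m t) ((𝔓.Γ m).dout t) (z + (𝔓.Γ m).pout t) - 13 * pvge3Q c m / 4) : w ∈ pvieSh z (pvegOKa 𝔓 O₀ m t) :=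
  pvge3_Ka_sh _ _ _ _ _ _ _ _ _ _ (pvge6_room_Ka (pvge3_u_o hL hT) (pvge6_rec_o hL hT hf z le_rfl (pvlm_Del_pos c m).le) G (pvlm_Del_pos c m) (pvge5_k_o (pvge3_dd_o hL hT)) (pvge6_q_eq c m) (pvge6_A_le c m)
    (O := pvieSh z (pvthSim ((𝔓.Γ m).pout t) ((𝔓.Γ m).dout t) '' O₀ m)) (by rw [pvge3_sh_sim]; exact fun x hx => (pvge3_O_front (Or.inl (pvge3_dd_o hL hT)) hO x hx).le) β hw hx)

/-- **(i)** -/
theorem pvge6_room_Ka_i (hL : PvegLev 𝔓 m) (hT : pviwTyOk 𝔓 t) (hf : 10000 * pvlmDel c m ≤ pvegR 𝔓 m) (G : Pvge5Side (1 / 40) true Ln Dr) {O₀ : ℕ → Set ℂ} (hO : O₀ m ⊆ pvccSq 0 (13 * pvge3Q c m / 4)) (z : ℂ) (β : Bool) {w : ℂ}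
    (hw : w ∈ pvkdAt (z + (𝔓.Γ m).pin t) ((𝔓.Γ m).din t * (pvlmDel c m : ℝ)) (Ln β))
    (hx : pvegS (z + pvegYm 𝔓 m t) (-(𝔓.Γ m).din t) w < pvegS (z + pvegYm 𝔓 m t) (-(𝔓.Γ m).din t) (z + (𝔓.Γ m).pin t) - 13 * pvge3Q c m / 4) : w ∈ pvieSh z (pvegIKa 𝔓 O₀ m t) :=
  pvge3_Ka_sh _ _ _ _ _ _ _ _ _ _ (pvge6_room_Ka (pvge3_u_i hL hT) (pvge6_rec_i hL hT hf z le_rfl (pvlm_Del_pos c m).le) G (pvlm_Del_pos c m) (pvge5_k_i (pvge3_dd_i hL hT)) (pvge6_q_eq c m) (pvge6_A_le c m)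
    (O := pvieSh z (pvthSim ((𝔓.Γ m).pin t) ((𝔓.Γ m).din t) '' O₀ m)) (by rw [pvge3_sh_sim]; exact fun x hx => (pvge3_O_front (Or.inr (pvge3_dd_i hL hT)) hO x hx).le) β hw hx)

end par

end Claimed.Agent.R289
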