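-- KEEP
import Claimed.Agent.R289.Tr.HookIQ
import Claimed.Agent.R289.Tr.FrcDetOY
import Claimed.Agent.R289.Tr.GoodH
import Claimed.Agent.R289.Exit.GoodEH
import Claimed.Agent.R289.Tr.PatCol

/-!
# Row 289 (S0537), THE WALL, ROAD E, E10 AT THE HYBRID ENDS, (b3) DET, file Exit/FrcIQ : **THE REGIONS OF THE LAST LINK `door plug → t` AT THE ROOMS OF RECORD: THE INSTANCE OF `PvzqiLay`**      (helper267; prefix `pvzqj_`)

GENERIC ENGINE `𝔈` + EQUATIONS (`iM = pvegIM`, `iK = pvegIKa 𝔓 O₀`, `iY = pvegIYc` of 245, `kit.O₀ = O₀ m`, closed square `3q ⊆ O₀ m ⊆` open square `13q/4`): survives every swap of the engine which keeps these four lines.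
TRUNCATION `𝔱` of the side event: only `Pvge5Side (1/40) true (𝔱.Ln true) (𝔱.Dr true)` of 298 is read.
* sec. 1  frame: `pvzqj_S_sub`, `pvzqj_L_sub`, `pvzqj_box_S` (a point of the closed own box has `s ≤ R/10`), `pvzqj_lane_raw` (raw coordinates of the lanes of record)
* sec. 2  **`pvzqj_lay`** : `PvzqiLay (pvilLi 𝔓 𝔈 m z t) ..` at the numbers of record
* sec. 3  `pvzqj_pat` (pattern of record in relative colours), **`pvzqj_ev`** : `PvjeFin (pvjeI ..) T η₀ η` + certificate of record + mesh of the window ⟹ `η ∈ pvilMi ..`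
-/

set_option autoImplicit false
set_option linter.unusedSectionVars false
set_option linter.unusedVariables false

namespace Claimed.Agent.R289

open Set Metric Complex Claims.C0465

/-! ## 1. the frame -/

theorem pvzqj_S_sub (z Y u v : ℂ) : pvegS (z + Y) u v = pvegS Y u (v - z) := by
  unfold pvegS
  congr 2
  ring

theorem pvzqj_L_sub (z Y u v : ℂ) : pvegL (z + Y) u v = pvegL Y u (v - z) := by
  unfold pvegL
  congr 2
  ring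

theorem pvzqj_T_sub (z Y u : ℂ) (up : Bool) (v : ℂ) : pvge2T (z + Y) u up v = pvge2T Y u up (v - z) := by
  rw [pvge3_T, pvge3_T, pvzqj_L_sub]

section lane

variable {Yc u : ℂ} {up : Bool} {r δ q dl ρ b μ Sp lam : ℝ}

/-- raw coordinates of a point of a lane of record -/
theorem pvzqj_lane_raw (R : Pvge2Rec r δ q dl ρ b μ Sp lam) (β : Bool) {w : ℂ}
    (hw : w ∈ pvge4Lane Yc u (if β then up else !up) r q Sp (pvge2Aa r β) (pvge2Lm lam β)) :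
    11 * r / 100 ≤ pvge2S Yc u w ∧ pvge2S Yc u w ≤ Sp - 7 * q / 2 ∧ |pvge2T Yc u up w| ≤ 33 * r / 200 := by
  have h1 := R.δ0; have h3 := R.fine; have h8 := R.s_lo; have h8' := R.s_hi; have h9 := abs_le.1 R.lat; have h10 := R.qδ; have h11 := R.q0
  cases β
  · simp only [Bool.false_eq_true, if_false, pvge2Aa, pvge2Lm, pvge4Lane, pvge2RN, pvge2RH, pvge2RV, pvge2_R_flip] at hw
    rcases hw with (⟨x1, x2, x3, x4⟩ | ⟨x1, x2, x3, x4⟩) | ⟨x1, x2, x3, x4⟩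
    · exact ⟨by linarith, by linarith, by rw [abs_le]; constructor <;> linarith⟩
    · exact ⟨by linarith, by linarith, by rw [abs_le]; constructor <;> linarith⟩
    · exact ⟨by linarith, by linarith, by rw [abs_le]; constructor <;> linarith [h9.1, h9.2]⟩
  · simp only [if_true, pvge2Aa, pvge2Lm, pvge4Lane, pvge2RN, pvge2RH, pvge2RV] at hw
    rcases hw with (⟨x1, x2, x3, x4⟩ | ⟨x1, x2, x3, x4⟩) | ⟨x1, x2, x3, x4⟩
    · exact ⟨by linarith, by linarith, by rw [abs_le]; constructor <;> linarith⟩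
    · exact ⟨by linarith, by linarith, by rw [abs_le]; constructor <;> linarith⟩
    · exact ⟨by linarith, by linarith, by rw [abs_le]; constructor <;> linarith [h9.1, h9.2]⟩

end lane

section par

variable {τ : Type} {c : ℝ} {𝔓 : PvxPar τ c} {m : ℕ} {t : τ}

/-- a point of the closed own-level box lies behind the plane `s = R / 10` of the frame of the entrance mouth -/
theorem pvzqj_box_S (hL : PvegLev 𝔓 m) (hT : pviwTyOk 𝔓 t) {z v : ℂ} (hv : v ∈ pvwSq z (pviwRad 𝔓 m t)) : pvegS (pvegYm 𝔓 m t) (-(𝔓.Γ m).din t) (v - z) ≤ pvegR 𝔓 m / 10 := by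
  have H := pveg_door_i hL hT
  have hv' : v - z ∈ pvwSq 0 (pviwRad 𝔓 m t) := by
    show |(v - z - 0).re| ≤ _ ∧ |(v - z - 0).im| ≤ _
    rw [sub_zero]
    exact hv
  have h1 := pveg_sq_zero H.u4 hv'
  rw [pveg_S_zero (pvegYm 𝔓 m t)] at h1
  have := H.out
  linarith

theorem pvzqj_box_sh {z v : ℂ} (hv : v ∈ pvwSq z (pviwRad 𝔓 m t)) : v ∈ pvieSh z (pviwBox 𝔓 m t) := by
  have hδ := pvlm_Del_pos c m
  refine ⟨v - z, ?_, by ring⟩
  show |(v - z - 0).re| ≤ pviwRad 𝔓 m t + pvlmDel c m ∧ |(v - z - 0).im| ≤ pviwRad 𝔓 m t + pvlmDel c m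
  rw [sub_zero]
  exact ⟨by linarith [hv.1], by linarith [hv.2]⟩

end par

/-! ## 2. the instance -/

section inst

variable {τ : Type} {c : ℝ} {𝔓 : PvxPar τ c} {𝔈 : PvieEng τ} {m : ℕ} {ε : ℝ} {t : τ} {𝔱 : PvhfTr} {O₀ : ℕ → Set ℂ}

/-- **THE REGIONS OF THE LAST LINK AT THE ROOMS OF RECORD** -/
theorem pvzqj_lay (hL : PvegLev 𝔓 m) (hT : pviwTyOk 𝔓 t) (hf : 10000 * pvlmDel c m ≤ pvegR 𝔓 m) (h3 : 0 < 𝔓.num.rho3) (hc : ∀ x ∈ 𝔓.cm t, ‖x - (𝔓.ty t).ym‖ ≤ 𝔓.num.rho / 10)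
    (hM : 𝔈.iM m t = pvegIM 𝔓 m t) (hK : 𝔈.iK m t = pvegIKa 𝔓 O₀ m t) (hY : 𝔈.iY m t = pvegIYc 𝔓 m t) (hO : (𝔈.kit m ε).O₀ = O₀ m)
    (hO1 : pvwSq 0 (3 * (pvlmDel c m / 40)) ⊆ O₀ m) (hO2 : O₀ m ⊆ pvccSq 0 (13 * pvge3Q c m / 4)) (G : Pvge5Side (1 / 40) true (𝔱.Ln true) (𝔱.Dr true)) (z : ℂ) :
    PvzqiLay (pvilLi 𝔓 𝔈 m z t) 𝔓.num (pvieSh z (𝔈.iM m t) ∪ pvieSh z (𝔈.iK m t) ∪ pvieDoor 𝔈 m ε (pvieZi 𝔓 m z t) ((𝔓.Γ m).din t)) ((pvieSh z (𝔈.iM m t) ∪ pvieSh z (𝔈.iK m t)) \ pvwSq z (pviwRad 𝔓 m t))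
      (pvilMu 𝔓 m) (z + pvegYm 𝔓 m t) (-(𝔓.Γ m).din t) (pvegR 𝔓 m) (pvlmDel c m) (pvge3Q c m) (pvge3Dl c m) (pvlmDel c m / 1000) (pvegR 𝔓 m / 10 + 4 * (pvilMu 𝔓 m / 20)) (pvilMu 𝔓 m / 20)
      (pvegS (pvegYm 𝔓 m t) (-(𝔓.Γ m).din t) ((𝔓.Γ m).pin t)) (pvge2Sg false * pvegL (pvegYm 𝔓 m t) (-(𝔓.Γ m).din t) ((𝔓.Γ m).pin t))
      (fun β => pvkdAt (pvieZi 𝔓 m z t) ((𝔓.Γ m).din t * (pvlmDel c m : ℝ)) (𝔱.Ln true β)) (fun β => pvkdAt (pvieZi 𝔓 m z t) ((𝔓.Γ m).din t * (pvlmDel c m : ℝ)) (𝔱.Dr true β)) := by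
  have hδ := pvlm_Del_pos c m
  have hR := pveg_R_pos hL
  have hμ0 : 0 < pvilMu 𝔓 m := by have := (pvho_mu hL h3).1; linarith
  have hμ1 := pvey_mu_le (𝔓 := 𝔓) m
  have hq : pvge3Q c m = pvlmDel c m / 40 := rfl
  have hdl : pvge3Dl c m = pvlmDel c m / 1280 := rfl
  have hA : pvegA c m = pvlmDel c m / 160 := rfl
  have hu := pvge3_u_i hL hT
  have H := pveg_door_i hL hT
  have Rc := pvge3_rec_i hL hT hf (ρ := pvlmDel c m / 1000) (b := pvegR 𝔓 m / 10 + 4 * (pvilMu 𝔓 m / 20)) (μ := 2 * (pvilMu 𝔓 m / 20)) (by linarith) (by linarith) (by linarith) (by linarith)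
  have hYin : (pvilLi 𝔓 𝔈 m z t).Yin = pvieSh z (pvegIYc 𝔓 m t) := by
    show pvieSh z (𝔈.iY m t) = _
    rw [hY]
  have hDoor : pvieDoor 𝔈 m ε (pvieZi 𝔓 m z t) ((𝔓.Γ m).din t) = pvieSh z (pvthSim ((𝔓.Γ m).pin t) ((𝔓.Γ m).din t) '' O₀ m) := by
    show pvthSim (z + (𝔓.Γ m).pin t) ((𝔓.Γ m).din t) '' (𝔈.kit m ε).O₀ = _
    rw [hO, pvho_sh_sim]
  have hk := pvge3_dd_i hL hT
  have hk' := pvge5_k_i hk
  have hqs := pvge6_q_eq c m
  have eSp : pvge2S (z + pvegYm 𝔓 m t) (-(𝔓.Γ m).din t) (pvieZi 𝔓 m z t) = pvegS (pvegYm 𝔓 m t) (-(𝔓.Γ m).din t) ((𝔓.Γ m).pin t) := pvge3_S_sh _ _ _ _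
  have eLam : pvge2T (z + pvegYm 𝔓 m t) (-(𝔓.Γ m).din t) false (pvieZi 𝔓 m z t) = pvge2Sg false * pvegL (pvegYm 𝔓 m t) (-(𝔓.Γ m).din t) ((𝔓.Γ m).pin t) := by
    rw [pvge3_T]
    show _ * pvegL (z + pvegYm 𝔓 m t) (-(𝔓.Γ m).din t) (z + (𝔓.Γ m).pin t) = _
    rw [pvge3_L_sh]
  have hlo := Rc.s_lo
  have hgate : ∀ w ∈ ball (pvieZi 𝔓 m z t) (pvkdP (pvilRd 𝔓 m)).b, pvegS (pvegYm 𝔓 m t) (-(𝔓.Γ m).din t) ((𝔓.Γ m).pin t) - 2 * pvge3Q c m ≤ pvge2S (z + pvegYm 𝔓 m t) (-(𝔓.Γ m).din t) w := by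
    intro w hw
    rw [mem_ball, dist_eq_norm] at hw
    have hw' : ‖w - pvieZi 𝔓 m z t‖ < 2 * pvge3Q c m := hw
    have hS := abs_le.1 ((pvge2_S_lip hu (z + pvegYm 𝔓 m t) w (pvieZi 𝔓 m z t)).trans hw'.le)
    rw [eSp] at hS
    linarith [hS.1]
  refine { mu := hμ0, rho := by linarith, nu := hu, num := Rc, he := by linarith, rl := by rw [hdl]; linarith, mul := hμ1, muq := by rw [hq]; linarith,
           bdd := ?bdd, co := ?co, collar := ?collar, cl := ?cl, mouth := ?mouth, mid := ?mid, room := ?room, roomF := ?roomF, roomL := ?roomL, tgt := ?tgt, gate := ?gate, gm := ?gm, offBox := ?offBox, offTip := ?offTip }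
  case bdd => rw [hYin]; exact pvey_sh_iYc_bdd hL hμ0.le hT z
  case co => rw [hYin]; exact pvey_sh_iYc_co hL hμ0.le hT z
  case collar =>
    intro v hv
    rw [hYin] at hv
    obtain ⟨v', hv', rfl⟩ := hv
    have h := pvey_iYc_collar hL hO1 hv'
    rw [hM, hK, hDoor, pvge3_sh_union, pvge3_sh_union, ← pveg_sh_ball]
    exact image_mono h
  case cl =>
    intro β x hx y hy
    have h := pvge6_cl_i hL hT hf z (!β) β (ρ := pvilMu 𝔓 m) hμ0.le (by linarith) ⟨x, hx, by rwa [mem_closedBall, dist_eq_norm] at hy⟩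
    refine Or.inl (Or.inl ?_)
    rw [hM]
    show y ∈ pvieSh z (closedBall (pvegYm 𝔓 m t) (5 * pvegR 𝔓 m / 16))
    rw [pveg_sh_ball]
    exact closedBall_subset_closedBall (by linarith) h
  case mouth =>
    rw [hYin]
    have e : pvegR 𝔓 m = 𝔓.num.rho * pvlmH m := rfl
    exact pvey_sh_iYc_ball 𝔓 m t z (by rw [← e]; linarith)
  case mid =>
    intro β w hw
    have hw' : w ∈ pvge6LaneI 𝔓 m z t β := hw
    obtain ⟨r1, r2, r3⟩ := pvzqj_lane_raw (Yc := z + pvegYm 𝔓 m t) (u := -(𝔓.Γ m).din t) (up := false) Rc β (by cases β <;> exact hw)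
    have r3' := abs_le.1 r3
    have hl := abs_le.1 Rc.lat
    constructor
    · intro v hv
      rw [mem_closedBall, dist_eq_norm] at hv
      rw [hYin]
      have hS := abs_le.1 ((pvge2_S_lip hu (z + pvegYm 𝔓 m t) v w).trans hv)
      have hT' := abs_le.1 ((pvge2_T_lip hu (z + pvegYm 𝔓 m t) false v w).trans hv)
      have eS : pvegS (pvegYm 𝔓 m t) (-(𝔓.Γ m).din t) (v - z) = pvge2S (z + pvegYm 𝔓 m t) (-(𝔓.Γ m).din t) v := (pvzqj_S_sub _ _ _ _).symm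
      refine pvey_sh_iYc_mem_fun 𝔓 m t z ?_ ?_ ?_
      · rw [eS]; linarith [hS.1]
      · rw [eS, hA]; rw [hq] at r2; linarith [hS.2]
      · rw [pvge6_L_abs _ _ _ _ false, ← pvzqj_T_sub, abs_le]
        constructor <;> linarith [hT'.1, hT'.2, r3'.1, r3'.2, hl.1, hl.2]
    · intro v hv
      have h1 := pvge6_lane_core_i hL hT hf (O₀ := O₀) (hO2.trans (pvcc_sq_mono _ (by rw [hq]; linarith))) z β (ρ' := pvilMu 𝔓 m) (by rw [hq]; linarith) hw' hv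
      have h2 := (pvge6_lane_nbd_i hL hT hf z β (ρ' := pvilMu 𝔓 m) (by rw [hq]; linarith) ⟨w, hw', by rwa [mem_closedBall, dist_eq_norm] at hv⟩).2.1
      exact ⟨by rw [hM, hK]; exact h1, fun hb => h2 (pvzqj_box_sh hb)⟩
  case room =>
    intro β w hw v hv
    rw [mem_closedBall, dist_eq_norm] at hv
    rw [hYin]
    obtain ⟨b1, b2, b3⟩ := pvge5_box (Yc := z + pvegYm 𝔓 m t) G hδ hk' false β w hw
    rw [← hqs, eSp] at b1 b2
    rw [← hqs, eLam] at b3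
    have b3' := abs_le.1 b3
    have hS := abs_le.1 ((pvge2_S_lip hu (z + pvegYm 𝔓 m t) v w).trans hv)
    have hT' := abs_le.1 ((pvge2_T_lip hu (z + pvegYm 𝔓 m t) false v w).trans hv)
    have eS : pvegS (pvegYm 𝔓 m t) (-(𝔓.Γ m).din t) (v - z) = pvge2S (z + pvegYm 𝔓 m t) (-(𝔓.Γ m).din t) v := (pvzqj_S_sub _ _ _ _).symm
    rw [hq] at b1 b2 b3'
    refine pvey_sh_iYc_mem_neck 𝔓 m t z ?_ ?_ ?_
    · rw [eS]; linarith [hS.1]
    · rw [eS, hA]; linarith [hS.2]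
    · rw [pvge6_L_abs _ _ _ _ false, ← pvzqj_T_sub, abs_le]
      constructor <;> linarith [hT'.1, hT'.2, b3'.1, b3'.2]
  case roomF =>
    intro β w hw hx
    have h1 := pvge6_room_Ka_i hL hT hf G hO2 z β hw (by rw [pvge3_S_sh]; exact hx)
    refine ⟨Or.inr (by rw [hK]; exact h1), fun hb => ?_⟩
    have h2 := pvzqj_box_S hL hT hb
    rw [← pvzqj_S_sub] at h2
    obtain ⟨b1, -, -⟩ := pvge5_box (Yc := z + pvegYm 𝔓 m t) G hδ hk' false β w hw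
    rw [← hqs, eSp, hq] at b1
    have h2' : pvge2S (z + pvegYm 𝔓 m t) (-(𝔓.Γ m).din t) w ≤ pvegR 𝔓 m / 10 := h2
    linarith
  case roomL => exact pvge5_room_i G hδ hk hqs eSp eLam
  case tgt =>
    intro β w hw
    have h1 := pvge5_tgt (Yc := z + pvegYm 𝔓 m t) G hδ hk' β w hw
    rw [← hqs, eSp] at h1
    have := pvge3_q_pos c m
    linarith
  case gate =>
    intro w hw
    have := hgate w hw
    have := pvge3_q_pos c m
    linarith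
  case gm =>
    rintro _ ⟨x, hx, rfl⟩ hw
    rw [hYin] at hw
    obtain ⟨v, hv, hvw⟩ := hw
    have h1 := pvey_iYc_front hL hμ0.le hT hv
    have hx' : x.re ≤ -(pvilRd 𝔓 m / 2) := hx.2.1
    have e1 : v - (𝔓.Γ m).pin t = (𝔓.Γ m).din t * x := by
      have : z + v = z + (𝔓.Γ m).pin t + (𝔓.Γ m).din t * x := hvw
      linear_combination this
    have e2 : (𝔓.Γ m).din t * (starRingEnd ℂ) ((𝔓.Γ m).din t) = 1 := pvge2_u_conj (pveg_norm_unit (pveg_din4 hL t))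
    rw [e1, show (𝔓.Γ m).din t * x * (starRingEnd ℂ) ((𝔓.Γ m).din t) = ((𝔓.Γ m).din t * (starRingEnd ℂ) ((𝔓.Γ m).din t)) * x by ring, e2, one_mul] at h1
    have : pvilRd 𝔓 m = pvlmDel c m / 40 := rfl
    have := pveg_A_pos c m
    linarith
  case offBox =>
    rw [Set.disjoint_left]
    intro w hw hb
    have h1 := hgate w hw
    have hb' : w ∈ pvwSq z (pviwRad 𝔓 m t) := by
      have : (starRingEnd ℂ) (1 : ℂ) * w ∈ pvwSq ((starRingEnd ℂ) (1 : ℂ) * z) (pviwRad 𝔓 m t) := hb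
      simpa using this
    have h2 := pvzqj_box_S hL hT hb'
    rw [← pvzqj_S_sub] at h2
    have h2' : pvge2S (z + pvegYm 𝔓 m t) (-(𝔓.Γ m).din t) w ≤ pvegR 𝔓 m / 10 := h2
    rw [hq] at h1
    linarith
  case offTip =>
    rw [Set.disjoint_left]
    intro w hw hb
    have h1 := hgate w hw
    have h2 : ‖w - (z + (pvlmH m : ℂ) * (𝔓.ty t).ym)‖ ≤ 𝔓.num.rho / 10 * pvlmH m := pvho_cell hc (pvlm_H_pos m) hb
    have hS := abs_le.1 (pvge2_S_lip hu (z + pvegYm 𝔓 m t) w (z + pvegYm 𝔓 m t))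
    have e0 : pvge2S (z + pvegYm 𝔓 m t) (-(𝔓.Γ m).din t) (z + pvegYm 𝔓 m t) = 0 := by simp [pvge2S]
    have e1 : pvegR 𝔓 m = 𝔓.num.rho * pvlmH m := rfl
    have h2' : ‖w - (z + pvegYm 𝔓 m t)‖ ≤ 𝔓.num.rho / 10 * pvlmH m := h2
    rw [e0] at hS
    rw [hq] at h1
    linarith [hS.2]

end inst

/-! ## 3. `PvjeDet.ev` of the last link, generic engine with the rooms of record -/

section ev

variable {τ : Type} {c : ℝ} {𝔓 : PvxPar τ c} {𝔈 : PvieEng τ} {m : ℕ} {ε : ℝ} {z : ℂ} {t : τ} {𝔭 : PvkdPlug} {𝔱 : PvhfTr} {O₀ : ℕ → Set ℂ} {η₀ η : Conf PvPt} {w : ∀ η : Conf PvPt, (delbPl (pvieY η)).Dart → ℂ} {T : PvjeTest}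

/-- **`PvjeDet.ev` OF THE LAST LINK AT THE ROOMS OF RECORD, ALL TIP CELLS.**   Engine: four equations + two inclusions of the door square + `Wf` of the end;   tests: the side event is a placed `S⁺` of a truncation with the rooms of 174, the copy pattern contains the pattern of record of 298;
certificate at the base: mesh `pvilMu / 20` on the ball of 35;   at `η`: the mesh of the window (206 / 46). -/
theorem pvzqj_ev (n : PvhoNum 𝔓) (hL : PvegLev 𝔓 m) (hT : pviwTyOk 𝔓 t) (hf : 10000 * pvlmDel c m ≤ pvegR 𝔓 m) (h3 : 0 < 𝔓.num.rho3) (hc : ∀ x ∈ 𝔓.cm t, ‖x - (𝔓.ty t).ym‖ ≤ 𝔓.num.rho / 10)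
    (hb : (𝔓.ty t).b * pvlmH m ≤ pviwRad 𝔓 m t) (hr : pvilMu 𝔓 m / 20 < (𝔓.ty t).b * pvlmH m) (W : (pvjeI 𝔓 𝔈 w m ε z t).Wf ε)
    (hM : 𝔈.iM m t = pvegIM 𝔓 m t) (hK : 𝔈.iK m t = pvegIKa 𝔓 O₀ m t) (hY : 𝔈.iY m t = pvegIYc 𝔓 m t) (hO : (𝔈.kit m ε).O₀ = O₀ m)
    (hO1 : pvwSq 0 (3 * (pvlmDel c m / 40)) ⊆ O₀ m) (hO2 : O₀ m ⊆ pvccSq 0 (13 * pvge3Q c m / 4)) (G : Pvge5Side (1 / 40) true (𝔱.Ln true) (𝔱.Dr true))
    (hG : PvhfGeo 𝔭 𝔱) (hsc : 𝔭.sc (pvlmDel c m) = pvkdP (pvilRd 𝔓 m)) (hℋ : ∀ η ∈ T.ℋ, pvdpT (pvieZi 𝔓 m z t) ((𝔓.Γ m).din t * (pvlmDel c m : ℝ)) (𝔓.col t) η ∈ pvhfS 𝔭 𝔱 true)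
    (hpat : T.𝒦 ⊆ pvkqPat (pvge3Dl c m) (pvge3PatI 𝔓 m z t))
    (hMc : η₀ ∈ pvrgMesh (pvilMu 𝔓 m / 20) (closedBall z (2 * pviwRad 𝔓 m t + 4 * pvlmH m)))
    (hU : η₀ ∈ pvilUi 𝔓.num (𝔓.col t) (pvilPin 𝔓 m z t)) (hF : PvjeFin (pvjeI 𝔓 𝔈 w m ε z t) T η₀ η)
    (hmesh : η ∈ pvilMs 𝔓 m (pvilWni 𝔓 𝔈 m ε z t (pvilZi 𝔓 m z t η₀))) : η ∈ pvilMi 𝔓 𝔈 m ε z t (pvilZi 𝔓 m z t η₀) := by
  obtain ⟨𝔖₀, h₀⟩ := hU
  have hδ := pvlm_Del_pos c m
  have hR := pveg_R_pos hL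
  have hμ0 : 0 < pvilMu 𝔓 m := by have := (pvho_mu hL h3).1; linarith
  have hμ1 := pvey_mu_le (𝔓 := 𝔓) m
  have e : pvegR 𝔓 m = 𝔓.num.rho * pvlmH m := rfl
  have hKb : Disjoint (𝔈.iK m t) (pviwBox 𝔓 m t) := by rw [hK]; exact pveg_Ka_off (pveg_door_i hL hT) _
  have hDb : Disjoint (pviwDi 𝔓 𝔈 m ε t) (pviwBox 𝔓 m t) := by
    show Disjoint (pvthSim ((𝔓.Γ m).pin t) ((𝔓.Γ m).din t) '' (𝔈.kit m ε).O₀) _
    rw [hO]
    exact pvho_door_off_i hL hT hO2 (by show 13 * (pvlmDel c m / 40) / 4 ≤ _; linarith)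
  exact pvzqi_ev_i n hL hT hc hb hKb hDb W.MK W.MD hM (by linarith) (by linarith) (by rw [← e]; linarith) hr (le_refl _) (by rw [← e]; linarith)
    (pvzqj_lay hL hT hf h3 hc hM hK hY hO hO1 hO2 G z) hG hδ hsc hℋ (fun Y κ hκ => pvw8_patRec_rel (hpat hκ)) hMc h₀ hF hmesh

end ev

end Claimed.Agent.R289
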