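-- KEEP
import Claimed.Agent.R289.Exit.FrcIA
import Claimed.Agent.R289.Exit.FrcIEvM
import Claimed.Agent.R289.Exit.FrcIQ
import Claimed.Agent.R289.Exit.FrcE
import Claimed.Agent.R289.Exit.GdRec

/-!
# Row 289 (S0537), THE WALL, ROAD E, file Exit/FrcI : E10 AT THE MODEL, THE LAST LINK `door plug → t` IS FORCED = `exit_pvgu_i`      (helper116, integrator of `i`: post T15 of 24; prefix `pvii`, `Pvii`)

TARGET.   **`pvii_exit`** = the statement of `exit_pvgu_i` (`Exit/GdCut.lean` v2 of 238) VERBATIM, AT THE ENGINE OF RECORD (`hR : PvnaRec N hN c 𝔈`).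
METHOD.   ONE CALL of the generic roof `pvje_cut` of 35 (`Exit/FrcE.lean`, 0 sorry) at `E ε := pvjeI 𝔓 𝔈 pvilQ m ε z t`, `T ε := pviiT ..` (`Exit/FrcIDefs.lean`), `Mc := pviiMc` (ONE fine mesh on ONE big ball round the pin), `θ := b / 2`.      MIRROR of `Exit/FrcO.lean` (35, 211).
FILES.    `Exit/FrcIDefs.lean` (defs) ← `Exit/FrcIA.lean` (ALL the closed lemmas, 0 sorry) ← leaf files ← THIS FILE (the leaf + glue).
CLOSED.   [Wf] (1), [COST] (98 298), **[Ok] WHOLE** (`pvii_ok`, `Exit/FrcIA`: 77 173 34 144 9; `up`: 248 67 88), [hM] [hU], [DET] `val` (22 124), hull + carried half state (71 297 46), mesh of the window (206 299 46 9).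
**NO OPEN LEAF IN THIS FILE**:   `exit_pvii_link` (b3, THE RUN) := `pvzqj_ev` of 267 (`Exit/FrcIQ`) at the engine of record.      `pvii_link_of_run`: the form `Pvim9Run` of 46 (ALL states) implies it too.
-/

set_option autoImplicit false

namespace Claimed.Agent.R289

open Set MeasureTheory Filter Topology Claims.C0465
open scoped ENNReal

/-! ## 3. [DET] -/

section leaves

variable {N : PvxNums} (hN : N.Ok) {c : ℝ} (nb : PvnaNb N)

/-- **[DET.ev, link]** (b3) THE RUN: every final configuration over a certified base with the entrance half state carries the plain link `Li.A`      [**PROVED**: `pvzqj_ev` of 267 (`Exit/FrcIQ`, `Tr/HookIQ`: 155 23 228 173 112 298 71 245) AT THE ENGINE OF RECORD;   `hmesh := pvii_mesh`] -/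
theorem exit_pvii_link (c0 : 0 < c) (q₀ : ℝ) {m : ℕ} (hm : (pvxParOf N hN c).m0 ≤ m) (z : ℂ) (t : pvxTau N) :
    ∀ᶠ ε in 𝓝[>] (0 : ℝ), ∀ η₀ ∈ pvilUi (pvxParOf N hN c).num ((pvxParOf N hN c).col t) (pvilPin (pvxParOf N hN c) m z t), η₀ ∈ pviiMc (pvxParOf N hN c) m z t → CfOK η₀ →
      ∀ η, PvjeFin (pvjeI (pvxParOf N hN c) (pvnaEngRec N hN c nb) pvilQ m ε z t) (pviiT (pvxParOf N hN c) (pvnaEngRec N hN c nb) (pvnaHf N 0) q₀ nb.b m z t) η₀ η →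
        η ∈ (pvilLi (pvxParOf N hN c) (pvnaEngRec N hN c nb) m z t).A (pvxParOf N hN c).num ((pvxParOf N hN c).col t) := by
  have hE := pvnr_wf hN c0 nb
  filter_upwards [pvji_I_rec hE ⟨nb, rfl⟩ pvml_wm_Q hm z t] with ε Wf η₀ hU hMc _ η hF
  have hL := pvqh_lev hN c0 hm
  have hT := pvqh_tyOk hN c t
  have hf := pvuo_fine hN c0 hm
  have h3 : 0 < (pvxParOf N hN c).num.rho3 := hN.msk0
  have hc := (pvea_par hN c0).cm_small t
  have hδ := pvlm_Del_pos c m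
  have hμ0 := pvii_Mu_pos hN (c := c) m
  obtain ⟨m1, m2, m3⟩ := pvho_mu hL h3
  have H := pvzqj_ev (𝔈 := pvnaEngRec N hN c nb) (O₀ := (pvnaInRec N hN c nb).O0) (𝔭 := pvkgG.toPvkdPlug) (𝔱 := pvnaT N) (pvho_num_par hN c) hL hT hf h3 hc
    (pvjv_carf_hb _ (pvxo_wf N hN c).toWfB (pvjv_carf_b2 N hN c) m t) (pvjv_carf_hr _ (pvxo_wf N hN c).toWfB (by linarith) t) Wf
    (pvnr_iM N hN c nb m t) (pvnr_iK N hN c nb m t) (pvnr_iY N hN c nb m t) ((pvnr_kit_O N hN c nb m ε).trans (pvnr_O0 N hN c nb m).symm)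
    (by rw [pvim9_O0]; exact fun w hw => max_lt (lt_of_le_of_lt hw.1 (by linarith)) (lt_of_le_of_lt hw.2 (by linarith))) (by rw [pvim9_O0]; exact pvcc_sq_mono _ (by unfold pvge3Q; linarith))
    (pvge5_side_T (by norm_num) true) (pvna_geo hN) (pvyo_plug_rd _ m) (fun _ h => h) inter_subset_left hMc hU hF (pvii_mesh hN nb c0 q₀ hm hMc hF)
  exact H.1.1

/-- the form of 46 (`Pvim9Run`: the run for ALL pairs of states) is stronger than the leaf -/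
theorem pvii_link_of_run (c0 : 0 < c) (q₀ : ℝ) {m : ℕ} (hm : (pvxParOf N hN c).m0 ≤ m) (z : ℂ) (t : pvxTau N) (hrun : Pvim9Run N hN c nb (pvnaHf N 0) q₀ m z t) :
    ∀ᶠ ε in 𝓝[>] (0 : ℝ), ∀ η₀ ∈ pvilUi (pvxParOf N hN c).num ((pvxParOf N hN c).col t) (pvilPin (pvxParOf N hN c) m z t), η₀ ∈ pviiMc (pvxParOf N hN c) m z t → CfOK η₀ →
      ∀ η, PvjeFin (pvjeI (pvxParOf N hN c) (pvnaEngRec N hN c nb) pvilQ m ε z t) (pviiT (pvxParOf N hN c) (pvnaEngRec N hN c nb) (pvnaHf N 0) q₀ nb.b m z t) η₀ η →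
        η ∈ (pvilLi (pvxParOf N hN c) (pvnaEngRec N hN c nb) m z t).A (pvxParOf N hN c).num ((pvxParOf N hN c).col t) := by
  filter_upwards [pvim9_ev_of hN nb q₀ c0 hm z t (fun _ h => pvna_Hf_mesh N h) hrun] with ε h η₀ hU hM hok η hF
  exact (h η₀ hU hM hok η hF).1.1

/-- **[DET.ev]** = the three conjuncts of `pvilMi` -/
theorem pvii_ev (c0 : 0 < c) (q₀ : ℝ) {m : ℕ} (hm : (pvxParOf N hN c).m0 ≤ m) (z : ℂ) (t : pvxTau N) :
    ∀ᶠ ε in 𝓝[>] (0 : ℝ), ∀ η₀ ∈ pvilUi (pvxParOf N hN c).num ((pvxParOf N hN c).col t) (pvilPin (pvxParOf N hN c) m z t), η₀ ∈ pviiMc (pvxParOf N hN c) m z t → CfOK η₀ →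
      ∀ η, PvjeFin (pvjeI (pvxParOf N hN c) (pvnaEngRec N hN c nb) pvilQ m ε z t) (pviiT (pvxParOf N hN c) (pvnaEngRec N hN c nb) (pvnaHf N 0) q₀ nb.b m z t) η₀ η →
        η ∈ pvilMi (pvxParOf N hN c) (pvnaEngRec N hN c nb) m ε z t (pvilZi (pvxParOf N hN c) m z t η₀) := by
  filter_upwards [exit_pvii_link hN nb c0 q₀ hm z t] with ε h1 η₀ hU hM hok η hF
  exact ⟨⟨h1 η₀ hU hM hok η hF, (pvii_carry hN nb c0 hm hU hM hF).2.2⟩, pvii_mesh hN nb c0 q₀ hm hM hF⟩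

/-- **[DET.val]** two final configurations which agree on the window have the same plain value      [PROVED by 22: `ev` + `pvly_rec_tr_i` (`Tr/LinkDet` sec. 6)] -/
theorem pvii_val (c0 : 0 < c) (q₀ : ℝ) {m : ℕ} (hm : (pvxParOf N hN c).m0 ≤ m) (z : ℂ) (t : pvxTau N) :
    ∀ᶠ ε in 𝓝[>] (0 : ℝ), ∀ η₀ ∈ pvilUi (pvxParOf N hN c).num ((pvxParOf N hN c).col t) (pvilPin (pvxParOf N hN c) m z t), η₀ ∈ pviiMc (pvxParOf N hN c) m z t → CfOK η₀ →
      ∀ η η', PvjeFin (pvjeI (pvxParOf N hN c) (pvnaEngRec N hN c nb) pvilQ m ε z t) (pviiT (pvxParOf N hN c) (pvnaEngRec N hN c nb) (pvnaHf N 0) q₀ nb.b m z t) η₀ η →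
        PvjeFin (pvjeI (pvxParOf N hN c) (pvnaEngRec N hN c nb) pvilQ m ε z t) (pviiT (pvxParOf N hN c) (pvnaEngRec N hN c nb) (pvnaHf N 0) q₀ nb.b m z t) η₀ η' →
        Conf.restr (pvilWni (pvxParOf N hN c) (pvnaEngRec N hN c nb) m ε z t (pvilZi (pvxParOf N hN c) m z t η₀) ×ˢ (univ : Set Bool)) η =
          Conf.restr (pvilWni (pvxParOf N hN c) (pvnaEngRec N hN c nb) m ε z t (pvilZi (pvxParOf N hN c) m z t η₀) ×ˢ (univ : Set Bool)) η' →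
        (pvilLi (pvxParOf N hN c) (pvnaEngRec N hN c nb) m z t).X (pvxParOf N hN c).num ((pvxParOf N hN c).col t) pvilQ η =
          (pvilLi (pvxParOf N hN c) (pvnaEngRec N hN c nb) m z t).X (pvxParOf N hN c).num ((pvxParOf N hN c).col t) pvilQ η' := by
  filter_upwards [pvii_ev hN nb c0 q₀ hm z t] with ε h1 η₀ hU hM hok η η' hF hF' he
  exact (pvly_rec_tr_i N hN nb c0 hm pvll_wt_Q hF'.nice he (h1 η₀ hU hM hok η hF)).2.1.symm

end leaves

/-! ## 4. the cut -/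

section cut

variable {c : ℝ}

/-- **THE STATEMENT OF `exit_pvgu_i`** -/
theorem pvii_exit (c0 : 0 < c) (N : PvxNums) (hN : N.Ok) (𝔈 : PvieEng (pvxTau N)) (hE : PvnaWf (pvxParOf N hN c) 𝔈) (hR : PvnaRec N hN c 𝔈) :
    ∃ q : ℕ → ℝ≥0∞, (∀ m, q m ≠ 0) ∧ ∀ m, (pvxParOf N hN c).m0 ≤ m → ∀ (p : ℤ × ℤ) (t : pvxTau N),
      PvguFrc (pvxParOf N hN c) m (l9Pt (pvlmH m) p) t fun ε => pvrgFi (pvxParOf N hN c) 𝔈 (q m) m ε (l9Pt (pvlmH m) p) t := by
  obtain ⟨nb, rfl⟩ := hR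
  obtain ⟨q₀, h0, hc⟩ := pvii_cost hN nb c0
  have hb0 := pvuo_b_ne nb
  have hb1 := pvuo_b_top nb
  have hθ0 : nb.b / 2 ≠ 0 := (ENNReal.half_pos hb0).ne'
  have hθ1 : nb.b / 2 ≠ ∞ := (ENNReal.half_lt_self hb0 hb1).ne_top
  refine ⟨fun m => pviiTh (pvxParOf N hN c) q₀ m * (nb.b - nb.b / 2), fun m => ?_, fun m hm p t => ?_⟩
  · refine mul_ne_zero ?_ ?_
    · unfold pviiTh
      exact (ENNReal.ofReal_pos.2 (by positivity)).ne'
    · rw [ENNReal.sub_half hb1]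
      exact hθ0
  · refine pvje_cut (pvxParOf N hN c) m (l9Pt (pvlmH m) p) t (E := fun ε => pvjeI (pvxParOf N hN c) (pvnaEngRec N hN c nb) pvilQ m ε (l9Pt (pvlmH m) p) t)
      (T := fun _ => pviiT (pvxParOf N hN c) (pvnaEngRec N hN c nb) (pvnaHf N 0) q₀ nb.b m (l9Pt (pvlmH m) p) t) (θ := nb.b / 2) (Mc := fun _ => pviiMc (pvxParOf N hN c) m (l9Pt (pvlmH m) p) t)
      (pvji_I_rec hE ⟨nb, rfl⟩ pvml_wm_Q hm _ t) (by filter_upwards [self_mem_nhdsWithin] with ε hε using pvii_ok hN nb c0 q₀ hm hε _ t) (Eventually.of_forall fun _ => le_rfl) (hc nb.b _ hθ0 hθ1 m hm _ t)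
      (pvrg_mesh_small (by have := pvii_Mu_pos hN (c := c) m; positivity) Metric.isBounded_closedBall)
      (Eventually.of_forall fun ε ω hω => by
        rw [pvza_U_conf] at hω
        obtain ⟨𝔖, h𝔖⟩ := hω
        exact ⟨𝔖, h𝔖.inn⟩) ?_
    filter_upwards [pvii_ev hN nb c0 q₀ hm (l9Pt (pvlmH m) p) t, pvii_val hN nb c0 q₀ hm (l9Pt (pvlmH m) p) t] with ε h1 h2 η₀ hU hM hok
    exact ⟨h1 η₀ hU hM hok, h2 η₀ hU hM hok⟩

end cut

end Claimed.Agent.R289
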