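-- KEEP
import Claimed.Agent.R289.Exit.FrcDefs
import Claimed.Agent.R289.Exit.EngRec
import Claimed.Agent.R289.Exit.GoodEM
import Claimed.Agent.R289.Tr.FrcDoor
import Claimed.Agent.R289.Tr.PlugFrcR

/-!
# Row 289 (S0537), THE WALL, ROAD E, file Exit/FrcODefs : E10 FOR THE FIRST LINK `t → door plug`, THE TESTS OF RECORD (DEFS ONLY)      (text of helper35 + patches of 50 239 127 25; pen helper211 since 13:26Z; prefix `pvj0`)

A LEAF FILE OF THE END `o` IMPORTS THIS FILE (never `Exit/FrcO.lean` = the glue, which imports the leaf files).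
THE TESTS OF RECORD (free of `ε`):   window `O := z + 𝔈.oM ∪ z + 𝔈.oK` (FIELDS OF THE ENGINE: follows the patches of 124),
pattern `𝒦 := pvkqPat (pvge3Dl c m) (pvge3PatO 𝔓 m z t)` (298) `∩ pvjoMesh pvj0Rho O` (52: EXACT READER, MEASURABLE; `pvrgMesh` is not: 127 18 125; USE `pvjo_mesh_of`)   [= `pvjwT` of 127 by `rfl`],
side event `ℋ := pvdpPl z' (d δ) b (pvnaHf N 2)` (`S⁻` of 174, placed by the map of 77),   plain plug `Cd := {∃ 𝔖, PvilDoor ..}`,   `t` = the threshold of 21 / 298,   `b := nb.b`;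
`pvj0Rho = μ₀ / 20` (25, 206: `PvwuNum.ρ20`);   `pvj0Mc` = mesh `pvj0Rho` of the BASE read in a large ball.
-/

set_option autoImplicit false

namespace Claimed.Agent.R289

open Set MeasureTheory Filter Topology Claims.C0465
open scoped ENNReal

section defs

variable {τ : Type} {c : ℝ} (𝔓 : PvxPar τ c) (𝔈 : PvieEng τ)

/-- the mesh asked of the fresh geometry and of the kept geometry (`ρ* = μ₀ / 20`: (b6) of 206) -/
noncomputable def pvj0Rho (m : ℕ) : ℝ := pvilMu 𝔓 m / 20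

/-- the window of the pattern: recoloured mouth `∪` resampled tile OF THE ENGINE -/
def pvj0O (m : ℕ) (z : ℂ) (t : τ) : Set ℂ := pvieSh z (𝔈.oM m t) ∪ pvieSh z (𝔈.oK m t)

/-- the threshold of the pattern (`q₀` = the constant of 21) -/
noncomputable def pvj0Th (q₀ : ℝ) (m : ℕ) : ℝ≥0∞ := ENNReal.ofReal ((q₀ ^ (15 * (4 * (2 * pvge3M 𝔓 m + 1) ^ 2)) / 2) ^ 2)

/-- **THE TESTS OF RECORD OF THE FIRST LINK** -/
noncomputable def pvj0T (q₀ : ℝ) (b₀ : ℝ≥0∞) (m : ℕ) (z : ℂ) (t : τ) : PvjeTest where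
  O := pvj0O 𝔈 m z t
  𝒦 := pvkqPat (pvge3Dl c m) (pvge3PatO 𝔓 m z t) ∩ pvjoMesh (pvj0Rho 𝔓 m) (pvj0O 𝔈 m z t)
  ℋ := pvdpPl (pvieZo 𝔓 m z t) ((𝔓.Γ m).dout t * pvlmDel c m) (𝔓.col t) (pvnaHfP 𝔓 2)
  Cd := {η | ∃ 𝔖 : PvwSt (pvieT η), PvilDoor (pvkdP (pvilRd 𝔓 m)) (𝔓.col t) η (pvieZo 𝔓 m z t) ((𝔓.Γ m).dout t) 𝔖}
  t := pvj0Th 𝔓 q₀ m
  b := b₀

/-- **THE CERTIFICATE OF DET**: mesh `ρ*` read in a ball which contains the own-level box, the mouth, the tile and the door with a collar `h` -/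
noncomputable def pvj0Mc (m : ℕ) (z : ℂ) (t : τ) : Set (Conf PvPt) := pvrgMesh (pvj0Rho 𝔓 m) (Metric.closedBall z (2 * pviwRad 𝔓 m t + 4 * pvlmH m))

end defs

theorem pvj0_eqns_cite : True := by
  have := @pvj0Rho.eq_1; have := @pvj0O.eq_1; have := @pvj0Th.eq_1; have := @pvj0T.eq_1; have := @pvj0Mc.eq_1
  trivial

theorem pvj0_rho_pos {τ : Type} {c : ℝ} (𝔓 : PvxPar τ c) (h3 : 0 < 𝔓.num.rho3) (m : ℕ) : 0 < pvj0Rho 𝔓 m := by
  unfold pvj0Rho pvilMu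
  have h1 := pvlm_Del_pos c m
  have h2 : 0 < 𝔓.num.rho3 * pvlmH m := mul_pos h3 (pvlm_H_pos m)
  have := lt_min h1 h2
  positivity

end Claimed.Agent.R289
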