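import Claimed.Agent.R289.Exit.MeshWE
import Claimed.Agent.R289.Exit.EngRec
import Claimed.Agent.R289.Exit.NumS

/-!
# Row 289 (S0537), THE WALL, ROAD E, E10 step (b6), file Exit/MeshWO : THE LEAF [mesh] OF `DET.ev` AT THE ENGINE OF RECORD, ANY TESTS, LINKS `o` AND `i`      (helper206; prefix `pvwu_`, `pvwu`, `Pvwu`)

NO NAME OF THE SIDE EVENTS, OF THE FREE NUMBERS, OF THE TESTS OF RECORD INSIDE (so the swaps (B) of R24, U4 and the patches of the skeletons do not touch this file): the tests enter through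
`hH : T.ℋ = pvdpPl z' (d δ) b Hs` (`rfl`), `hS : Hs ⊆` mesh `pvwyMu ρ''` of the unit door square (`pvna_Hf_mesh` of 9), `hK : T.𝒦 ⊆` mesh `ρK ≤ μ/3` of mouth `∪` tile (`pvjo_mesh_of h.2` / `h.2.2`), the certificate of the base = mesh `ρ₀ ≤ μ/20` on THE BALL OF 35.
* `pvwu_mu_pos`, `pvwu_mu_le`, `pvwu_rho_le` (numbers), **`pvwu_eq_rec`** : `PvwuEq` at `pvnaEngRec` (door square of half side `13 δ / 160`)
* **`pvwu_rec_o`** (⟹ `pvj6_mesh` of `Exit/FrcOE`),   **`pvwu_rec_i`** (⟹ the third conjunct of `exit_pvii_ev`, `pvij_ev_mesh`);   `pvwu_rec_i'` (certificate on `pvwuBi`)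
-/

set_option autoImplicit false

namespace Claimed.Agent.R289

open Set Metric MeasureTheory Claims.C0465

theorem pvwu_mu_pos {τ : Type} {c : ℝ} (𝔓 : PvxPar τ c) (h3 : 0 < 𝔓.num.rho3) (m : ℕ) : 0 < pvilMu 𝔓 m := by
  unfold pvilMu
  exact div_pos (lt_min (pvlm_Del_pos c m) (mul_pos h3 (pvlm_H_pos m))) (by norm_num)

theorem pvwu_mu_le {τ : Type} {c : ℝ} (𝔓 : PvxPar τ c) (m : ℕ) : 100 * pvilMu 𝔓 m ≤ pvlmDel c m := by
  unfold pvilMu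
  have := min_le_left (pvlmDel c m) (𝔓.num.rho3 * pvlmH m)
  have := pvlm_Del_pos c m
  linarith

section rec

variable {c : ℝ} (N : PvxNums) (hN : N.Ok)

/-- the five equations at the engine of record -/
theorem pvwu_eq_rec (nb : _) (m : ℕ) : PvwuEq (pvxParOf N hN c) (pvnaEngRec N hN c nb) (pvnaInRec N hN c nb).O0 m (pvlmDel c m * (13 / 160)) where
  oM := fun _ => rfl
  iM := fun _ => rfl
  oK := fun _ => rfl
  iK := fun _ => rfl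
  O' := by
    rw [pvnr_O0]
    show pvthSim 0 (pvlmDel c m) '' pvkgO = _
    rw [pvkgg_O_sq, pvwu_unit_sq (pvlm_Del_pos c m)]
  O := fun ε => by
    rw [pvnr_kit_O]
    show pvthSim 0 (pvlmDel c m) '' pvkgO = _
    rw [pvkgg_O_sq, pvwu_unit_sq (pvlm_Del_pos c m)]

theorem pvwu_rho_le : (pvxParOf N hN c).num.rho ≤ 1 := by
  have h1 := hN.rho1; have h2 := hN.rho2; have h3 := hN.rho3; have h0 := hN.rho0
  show N.rho ≤ 1
  linarith

variable {w : ∀ η : Conf PvPt, (delbPl (pvieY η)).Dart → ℂ} {Hs : Set (Conf PvPt)} (hS : ∀ ξ ∈ Hs, PvtrMesh (pvwyMu N.rho3) pvkgO (cfSites ξ))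

include hS in
/-- **[mesh] OF `DET.ev`, FIRST LINK, AT THE ENGINE OF RECORD** -/
theorem pvwu_rec_o (c0 : 0 < c) (nb : _) {m : ℕ} (hm : (pvxParOf N hN c).m0 ≤ m) (z : ℂ) (t : pvxTau N) (ε : ℝ) {T : PvjeTest} {η₀ η : Conf PvPt} {ρ₀ ρK : ℝ}
    (hH : T.ℋ = pvdpPl (pvieZo (pvxParOf N hN c) m z t) (((pvxParOf N hN c).Γ m).dout t * pvlmDel c m) ((pvxParOf N hN c).col t) Hs)
    (hK : ∀ ξ ∈ T.𝒦, PvtrMesh ρK (pvieSh z ((pvnaEngRec N hN c nb).oM m t) ∪ pvieSh z ((pvnaEngRec N hN c nb).oK m t)) (cfSites ξ)) (hρK : ρK ≤ pvilMu (pvxParOf N hN c) m / 3)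
    (h0 : η₀ ∈ pvrgMesh ρ₀ (closedBall z (2 * pviwRad (pvxParOf N hN c) m t + 4 * pvlmH m))) (hρ₀ : ρ₀ ≤ pvilMu (pvxParOf N hN c) m / 20)
    (hF : PvjeFin (pvjeO (pvxParOf N hN c) (pvnaEngRec N hN c nb) w m ε z t) T η₀ η) :
    η ∈ pvilMs (pvxParOf N hN c) m (pvilWno (pvxParOf N hN c) (pvnaEngRec N hN c nb) m ε z t (pvilZo (pvxParOf N hN c) m z t η₀)) := by
  have hL : PvegLev (pvxParOf N hN c) m := (pvea_par hN c0).lev hm
  have hδ := pvlm_Del_pos c m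
  refine pvwu_ev_o (pvwu_eq_rec N hN nb m) hL (pvea_tyOk hN t) (pvwu_rho_le N hN) (pvwu_mu_pos (pvxParOf N hN c) hN.msk0 m) (pvwu_mu_le _ m) (by linarith) (by linarith) hρ₀ hρK h0 hF hK ?_
  exact pvwu_door_mesh hS (pvwy_hmu_par N hN c m) (pvnr_kit_O N hN c nb m ε) (pveg_norm_unit (pveg_dout4 hL t)) _ (hH ▸ hF.side)

include hS in
/-- **[mesh] OF `DET.ev`, LAST LINK, AT THE ENGINE OF RECORD** -/
theorem pvwu_rec_i (c0 : 0 < c) (nb : _) {m : ℕ} (hm : (pvxParOf N hN c).m0 ≤ m) (z : ℂ) (t : pvxTau N) (ε : ℝ) {T : PvjeTest} {η₀ η : Conf PvPt} {ρ₀ ρK : ℝ}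
    (hH : T.ℋ = pvdpPl (pvieZi (pvxParOf N hN c) m z t) (((pvxParOf N hN c).Γ m).din t * pvlmDel c m) ((pvxParOf N hN c).col t) Hs)
    (hK : ∀ ξ ∈ T.𝒦, PvtrMesh ρK (pvieSh z ((pvnaEngRec N hN c nb).iM m t) ∪ pvieSh z ((pvnaEngRec N hN c nb).iK m t)) (cfSites ξ)) (hρK : ρK ≤ pvilMu (pvxParOf N hN c) m / 3)
    (h0 : η₀ ∈ pvrgMesh ρ₀ (closedBall z (2 * pviwRad (pvxParOf N hN c) m t + 4 * pvlmH m))) (hρ₀ : ρ₀ ≤ pvilMu (pvxParOf N hN c) m / 20)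
    (hF : PvjeFin (pvjeI (pvxParOf N hN c) (pvnaEngRec N hN c nb) w m ε z t) T η₀ η) :
    η ∈ pvilMs (pvxParOf N hN c) m (pvilWni (pvxParOf N hN c) (pvnaEngRec N hN c nb) m ε z t (pvilZi (pvxParOf N hN c) m z t η₀)) := by
  have hL : PvegLev (pvxParOf N hN c) m := (pvea_par hN c0).lev hm
  have hδ := pvlm_Del_pos c m
  refine pvwu_ev_i (pvwu_eq_rec N hN nb m) hL (pvea_tyOk hN t) (pvwu_rho_le N hN) (pvwu_mu_pos (pvxParOf N hN c) hN.msk0 m) (pvwu_mu_le _ m) (by linarith) (by linarith) hρ₀ hρK h0 hF hK ?_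
  exact pvwu_door_mesh hS (pvwy_hmu_par N hN c m) (pvnr_kit_O N hN c nb m ε) (pveg_norm_unit (pveg_din4 hL t)) _ (hH ▸ hF.side)

include hS in
/-- the same, tile clause read in the tile alone, certificate of the base read in `pvwuBi` (box `∪` mouth `∪` tile `∪` door: `pvijBg` of 96 by `rfl`) -/
theorem pvwu_rec_i' (c0 : 0 < c) (nb : _) {m : ℕ} (hm : (pvxParOf N hN c).m0 ≤ m) (z : ℂ) (t : pvxTau N) (ε : ℝ) {T : PvjeTest} {η₀ η : Conf PvPt}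
    (hH : T.ℋ = pvdpPl (pvieZi (pvxParOf N hN c) m z t) (((pvxParOf N hN c).Γ m).din t * pvlmDel c m) ((pvxParOf N hN c).col t) Hs)
    (hK : ∀ ξ ∈ T.𝒦, PvtrMesh (pvilMu (pvxParOf N hN c) m / 3) (pvieSh z ((pvnaEngRec N hN c nb).iK m t)) (cfSites ξ))
    (h0 : η₀ ∈ pvrgMesh (pvilMu (pvxParOf N hN c) m / 20) (pvwuBi (pvxParOf N hN c) (pvnaEngRec N hN c nb) m ε z t))
    (hF : PvjeFin (pvjeI (pvxParOf N hN c) (pvnaEngRec N hN c nb) w m ε z t) T η₀ η) :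
    η ∈ pvilMs (pvxParOf N hN c) m (pvilWni (pvxParOf N hN c) (pvnaEngRec N hN c nb) m ε z t (pvilZi (pvxParOf N hN c) m z t η₀)) := by
  have hL : PvegLev (pvxParOf N hN c) m := (pvea_par hN c0).lev hm
  have hδ := pvlm_Del_pos c m
  have hE := pvwu_eq_rec (c := c) N hN nb m
  exact pvwu_i hL (pvea_tyOk hN t) (pvwu_mu_pos (pvxParOf N hN c) hN.msk0 m) (pvwu_mu_le _ m) (by linarith) (by linarith) (hE.iK t) hE.O' (hE.O ε) h0 (pvwu_fin_kept hF) (pvwu_fin_tile hF hK)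
    (pvwu_door_mesh hS (pvwy_hmu_par N hN c m) (pvnr_kit_O N hN c nb m ε) (pveg_norm_unit (pveg_din4 hL t)) _ (hH ▸ hF.side))

end rec

end Claimed.Agent.R289
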