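-- KEEP
import Claimed.Agent.R289.Exit.FrcODefs
import Claimed.Agent.R289.Tr.FrcCarF
import Claimed.Agent.R289.Exit.MeshWO

/-!
# Row 289 (S0537), THE WALL, ROAD E, file Exit/FrcOE : E10, LINK o, [DET.ev] OF `Exit/FrcO` (35, pen 211), LEAF FILE      (helper145, second cutter, order of 24 id 97021; prefix `pvj6_`)

v2 (14:05Z): imports `Exit/FrcODefs` ONLY (rule of 211: the glue `Exit/FrcO` imports the leaf files).
* (b1) **`pvj6_carry`** PROVED (twin half state, same frozen positions, same hull: `pvjv_carf_o_U` of 297 over 71, numbers paid at the model; mesh of the base = `pvj0Mc`)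
* **`pvj6_hull`** = the statement of `exit_pvj0_hull` VERBATIM, PROVED
* (b2) THE DOOR END = `hF.plug` (BY DEFINITION of `pvj0T.Cd`): no leaf
* (b6) `pvj6_mesh` PROVED (269: `pvwu_rec_o` of 206)
* (b3) THE RUN: CLOSED IN `Exit/FrcOZ` (`pvj6_A`, `pvj6_link'`, `pvj6_ev'`);   v3 (15:20Z): the leaf of v2 and its two corollaries are deleted.   0 sorry.
-/

set_option autoImplicit false

namespace Claimed.Agent.R289

open Set MeasureTheory Filter Topology Claims.C0465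
open scoped ENNReal

/-- the own-level box with its collar lies in the ball of the certificate -/
theorem pvj6_box_sub {τ : Type} {c : ℝ} (𝔓 : PvxPar τ c) (m : ℕ) (t : τ) (z : ℂ) : pvieSh z (pviwBox 𝔓 m t) ⊆ Metric.closedBall z (2 * pviwRad 𝔓 m t + 4 * pvlmH m) := by
  rintro _ ⟨w, ⟨h1, h2⟩, rfl⟩
  rw [mem_closedBall_iff_norm, add_sub_cancel_left]
  rw [sub_zero] at h1 h2
  have h3 := Complex.norm_le_abs_re_add_abs_im w
  have h4 := pvjv_carf_del_le c m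
  have h5 := pvlm_H_pos m
  linarith

theorem pvj6_rho_pos {τ : Type} {c : ℝ} (𝔓 : PvxPar τ c) (h3 : 0 < 𝔓.num.rho3) (m : ℕ) : 0 < pvj0Rho 𝔓 m := by
  unfold pvj0Rho pvilMu
  have h1 := pvlm_Del_pos c m
  have h2 : 0 < 𝔓.num.rho3 * pvlmH m := mul_pos h3 (pvlm_H_pos m)
  have := lt_min h1 h2
  positivity

section leaves

variable {c : ℝ} (c0 : 0 < c) (N : PvxNums) (hN : N.Ok) (nb : PvnaNb N) (q₀ : ℝ) {m : ℕ} (hm : (pvxParOf N hN c).m0 ≤ m) (z : ℂ) (t : pvxTau N) (ε : ℝ)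
  {η₀ η : Conf PvPt} (hU : η₀ ∈ pvilUo (pvxParOf N hN c).num ((pvxParOf N hN c).col t) (pvilPin (pvxParOf N hN c) m z t)) (hMc : η₀ ∈ pvj0Mc (pvxParOf N hN c) m z t) (hOK : CfOK η₀)
  (hF : PvjeFin (pvjeO (pvxParOf N hN c) (pvnaEngRec N hN c nb) pvilQ m ε z t) (pvj0T (pvxParOf N hN c) (pvnaEngRec N hN c nb) q₀ nb.b m z t) η₀ η)

include c0 hm hU hMc hF in
/-- **(b1) THE CARRIED HALF STATE, THE HULL IS CARRIED** -/
theorem pvj6_carry : (∃ 𝔖 : PvwSt (pvieT η), PvilOut (pvxParOf N hN c).num ((pvxParOf N hN c).col t) (pvilPin (pvxParOf N hN c) m z t) η 𝔖) ∧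
    pvilFo (pvxParOf N hN c) m z t η = pvilFo (pvxParOf N hN c) m z t η₀ ∧ pvilZo (pvxParOf N hN c) m z t η = pvilZo (pvxParOf N hN c) m z t η₀ := by
  obtain ⟨Cth, r, κs, H⟩ := (pvnr_wf hN c0 nb).wf
  have hW : (pvxParOf N hN c).WfB := (pvxo_wf N hN c).toWfB
  have hρ : 0 < pvj0Rho (pvxParOf N hN c) m := pvj6_rho_pos _ hN.msk0 m
  have h3 : 3 * pvj0Rho (pvxParOf N hN c) m ≤ pvlmDel c m := by
    have h1 := pvlm_Del_pos c m
    have h2 : pvilMu (pvxParOf N hN c) m ≤ pvlmDel c m / 1000 := by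
      unfold pvilMu
      exact div_le_div_of_nonneg_right (min_le_left _ _) (by norm_num)
    unfold pvj0Rho
    linarith
  have hmesh : η₀ ∈ pvrgMesh (pvj0Rho (pvxParOf N hN c) m) (pvieSh z (pviwBox (pvxParOf N hN c) m t)) := pvrg_mesh_mono (pvj6_box_sub _ m t z) hMc
  exact pvjv_carf_o_U hW (pvjv_carf_b2 N hN c) H hm (pvea_tyOk hN t) hρ h3 hmesh hU hF

include c0 hm hU hMc hOK hF in
/-- **(b6) THE MESH OF THE WINDOW** (cited by `exit_pvj0_mesh` of `Exit/FrcO` v2.2): kept part ← `pvj0Mc`, mouth ∪ tile ← the mesh clause of the copy pattern, door ← the side event (R24)      [206 `pvwu_o`] -/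
theorem pvj6_mesh : η ∈ pvilMs (pvxParOf N hN c) m (pvilWno (pvxParOf N hN c) (pvnaEngRec N hN c nb) m ε z t (pvilZo (pvxParOf N hN c) m z t η₀)) :=
  pvwu_rec_o N hN (Hs := pvnaHf N 2) (fun _ h => pvna_Hf_mesh N h) c0 nb hm z t ε (T := pvj0T (pvxParOf N hN c) (pvnaEngRec N hN c nb) q₀ nb.b m z t) (ρK := pvj0Rho (pvxParOf N hN c) m) rfl
    (fun _ h => pvjo_mesh_of h.2) (by unfold pvj0Rho; linarith [pvwu_mu_pos (pvxParOf N hN c) hN.msk0 m]) hMc le_rfl hF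

end leaves

/-- **THE STATEMENT OF `exit_pvj0_hull`** (`Exit/FrcO.lean`), VERBATIM, PROVED -/
theorem pvj6_hull {c : ℝ} (c0 : 0 < c) (N : PvxNums) (hN : N.Ok) (nb : PvnaNb N) (q₀ : ℝ) {m : ℕ} (hm : (pvxParOf N hN c).m0 ≤ m) (z : ℂ) (t : pvxTau N) :
    ∀ᶠ ε in 𝓝[>] (0 : ℝ), ∀ η₀ ∈ pvilUo (pvxParOf N hN c).num ((pvxParOf N hN c).col t) (pvilPin (pvxParOf N hN c) m z t), η₀ ∈ pvj0Mc (pvxParOf N hN c) m z t → CfOK η₀ →
      ∀ η, PvjeFin (pvjeO (pvxParOf N hN c) (pvnaEngRec N hN c nb) pvilQ m ε z t) (pvj0T (pvxParOf N hN c) (pvnaEngRec N hN c nb) q₀ nb.b m z t) η₀ η →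
        pvilZo (pvxParOf N hN c) m z t η = pvilZo (pvxParOf N hN c) m z t η₀ :=
  Eventually.of_forall fun ε _ hU hMc _ _ hF => (pvj6_carry c0 N hN nb q₀ hm z t ε hU hMc hF).2.2

end Claimed.Agent.R289
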