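-- KEEP
import Claimed.Agent.R289.Exit.FrcODefs
import Claimed.Agent.R289.Exit.FrcOG
import Claimed.Agent.R289.Exit.ParGr
import Claimed.Agent.R289.Exit.FrcOq
import Claimed.Agent.R289.Tr.FrcPat
import Claimed.Agent.R289.Tr.DoorSoft
import Claimed.Agent.R289.Tr.SideOpen
import Claimed.Agent.R289.Tr.PatMs

/-!
# Row 289 (S0537), THE WALL, ROAD E, E10, file Exit/FrcOL : THE DOOR HALF OF `PvjeTest.Ok` AT THE FIRST LINK (`exit_pvj0_door` of `Exit/FrcO`), GENERIC IN THE ENGINE AND IN THE TRUNCATION      (helper81; prefix `pvwz_`)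

No name of `Exit/EngRec` here: the file survives the swap (B) of 9.
* sec. 1  `pvwz_rt1_off`, `pvwz_rt2_off` (the route of one side of the pattern of record misses the points in front of the door on the other side of the axis), `pvwz_rm_rec` (rooms of a colour), `pvwz_lane_m` (lane rooms of `pvhfT (1/40)`, side `-`, off the door square)
* sec. 2  `pvwz_o_S`, `pvwz_o_T` (coordinates), **`pvwz_o_off`** (rooms of the colour `β` of `pvge3PatO` miss the placed lane room of the other colour off the door), `pvwz_lanes_off`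
* sec. 3  **`pvwz_door_gen`** : `∃ Kb Kw, Disjoint Kb Kw ∧ pvjpRm true F ⊆ Kb ∧ pvjpRm false F ⊆ Kw ∧ PvjpDoor (pvjeO 𝔓 𝔈 w m ε z t) ε (pvdpPl z' (d δ) col (pvhfH pvkgG 𝔱 2)) {∃ 𝔖, PvilDoor ..} b0 Kb Kw`
* sec. 4  the mirror at the last link: `pvwz_lane_p`, `pvwz_i_S`, `pvwz_i_T`, **`pvwz_i_off`**, `pvwz_lanes_off_p`;   **`pvwz_sep_o`, `pvwz_sep_i`** = the hypothesis `sep` of `pvut_up` (232, `Tr/FrcUp`) VERBATIM at `Zb Zw := (pvhfT (1/40)).Ln σ true / false`, `D` = the placed unit square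
* sec. 5  **`pvwz_up_i_gen`** = the field `up` of `PvjeTest.Ok` at `pvjeI`, `ℋ := pvdpPl zi (din δ) col (pvhfH pvkgG 𝔱 0)`, `𝒦 := pvkqPat dl PatI ∩ ℳ` (`ℳ` colour blind): `exit_pvii_up` of `Exit/FrcI` is one term
   (sec. 3:) from `hU : PvkmEng 𝔈 c U`, `hk` (unit kit `= (pvkgG.glob (pvhfH pvkgG 𝔱)).kit`), `hG : PvhfGeo pvkgG 𝔱`, `hLn : 𝔱.Ln false = (pvhfT (1/40)).Ln false`, `hEs : 𝔱.Es false ⊆ pvkgEm`, `hO hK` (`rfl` at the record).
-/

set_option autoImplicit false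

namespace Claimed.Agent.R289

open Set MeasureTheory Filter Topology Claims.C0465
open scoped ENNReal

/-! ## 1. the routes of the pattern of record miss the lane room of the other colour -/

section geo

variable {Y u : ℂ} {up : Bool} {r δ q dl ρ b μ Sp lam : ℝ}

/-- the route of the side `up` misses every point in front of the door below the axis -/
theorem pvwz_rt1_off (R : Pvge2Rec r δ q dl ρ b μ Sp lam) {v : ℂ} (hS : Sp - δ / 8 ≤ pvge2S Y u v) (hT : pvge2T Y u up v ≤ lam) :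
    v ∉ pvkqRtR (pvge2Rt Y u up (27 * r / 200) (r / 200) (23 * r / 200) (23 * r / 200) (3 * r / 20) (Sp - 29 * q / 8) (q / 8) (lam + q / 4)) := by
  have h1 := R.δ0; have h3 := R.fine; have h8 := R.s_lo; have h9 := abs_le.1 R.lat; have h11 := R.q0
  rw [pvge2_Rt_R]
  simp only [pvge2RC, pvge2RN, pvge2RH, pvge2RV, pvge2R, mem_union, mem_ofPred_eq]
  rintro (((((⟨x1, x2, x3, x4⟩ | ⟨x1, x2, x3, x4⟩) | ⟨x1, x2, x3, x4⟩) | ⟨x1, x2, x3, x4⟩) | ⟨x1, x2, x3, x4⟩) | ⟨x1, x2, x3, x4⟩)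
  all_goals linarith [h9.1, h9.2]

/-- the route of the side `!up` misses every point in front of the door above the axis -/
theorem pvwz_rt2_off (R : Pvge2Rec r δ q dl ρ b μ Sp lam) {v : ℂ} (hS : Sp - δ / 8 ≤ pvge2S Y u v) (hT : lam ≤ pvge2T Y u up v) :
    v ∉ pvkqRtR (pvge2Rt Y u (!up) (4 * r / 25) (r / 200) (23 * r / 200) (23 * r / 200) (3 * r / 20) (Sp - 29 * q / 8) (q / 8) (-lam + q / 4)) := by
  have h1 := R.δ0; have h3 := R.fine; have h8 := R.s_lo; have h9 := abs_le.1 R.lat; have h11 := R.q0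
  rw [pvge2_Rt_R]
  simp only [pvge2RC, pvge2RN, pvge2RH, pvge2RV, pvge2R, mem_union, mem_ofPred_eq, pvge2_T_flip]
  rintro (((((⟨x1, x2, x3, x4⟩ | ⟨x1, x2, x3, x4⟩) | ⟨x1, x2, x3, x4⟩) | ⟨x1, x2, x3, x4⟩) | ⟨x1, x2, x3, x4⟩) | ⟨x1, x2, x3, x4⟩)
  all_goals linarith [h9.1, h9.2]

/-- the rooms of a colour of the pattern of record -/
theorem pvwz_rm_rec (Y u : ℂ) (up c : Bool) (r q Sp lam : ℝ) (β : Bool) : pvjpRm β (pvge2PatRec Y u up c r q Sp lam) =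
    if β = c then pvkqRtR (pvge2Rt Y u up (27 * r / 200) (r / 200) (23 * r / 200) (23 * r / 200) (3 * r / 20) (Sp - 29 * q / 8) (q / 8) (lam + q / 4))
    else pvkqRtR (pvge2Rt Y u (!up) (4 * r / 25) (r / 200) (23 * r / 200) (23 * r / 200) (3 * r / 20) (Sp - 29 * q / 8) (q / 8) (-lam + q / 4)) := by
  ext v
  rw [pvjp_mem_rm]
  simp only [pvge2PatRec, pvge2Pat, List.mem_cons, List.not_mem_nil, or_false]
  constructor
  · rintro ⟨x, (rfl | rfl), hx, hv⟩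
    · rw [if_pos hx.symm]; exact hv
    · rw [if_neg (by rintro rfl; cases β <;> simp at hx)]; exact hv
  · intro hv
    by_cases h : β = c
    · rw [if_pos h] at hv; exact ⟨_, Or.inl rfl, h.symm, hv⟩
    · rw [if_neg h] at hv
      exact ⟨_, Or.inr rfl, by cases β <;> cases c <;> simp_all, hv⟩

/-- the lane rooms of the truncation of record off the door square: side `-` -/
theorem pvwz_lane_m {β : Bool} {w : ℂ} (hw : w ∈ (pvhfT (1 / 40)).Ln false β) (hO : w ∉ pvkgO) :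
    -(1 / 8) ≤ w.re ∧ w.re ≤ -(13 / 160) ∧ (if β then 1 / 80 ≤ w.im else w.im ≤ -(1 / 80)) := by
  cases β <;> simp only [pvhfT, pvkdRect, rswRect, if_true, if_false, mem_union, mem_ofPred_eq, Bool.false_eq_true] at hw ⊢ <;>
    rcases hw with ⟨a1, a2, a3, a4⟩ | ⟨a1, a2, a3, a4⟩
  · exact absurd (show w ∈ pvkgO from ⟨by linarith, by linarith, by linarith, by linarith⟩) hO
  · refine ⟨by linarith, ?_, by linarith⟩
    by_contra hc
    exact hO ⟨by linarith [not_le.1 hc], by linarith, by linarith, by linarith⟩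
  · exact absurd (show w ∈ pvkgO from ⟨by linarith, by linarith, by linarith, by linarith⟩) hO
  · refine ⟨by linarith, ?_, by linarith⟩
    by_contra hc
    exact hO ⟨by linarith [not_le.1 hc], by linarith, by linarith, by linarith⟩

end geo

/-! ## 2. the two halves of the mixed order at the first link -/

section halves

variable {τ : Type} {c : ℝ} {𝔓 : PvxPar τ c}

/-- coordinates of a point placed at the exit door, in the frame of the pattern -/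
theorem pvwz_o_S {m : ℕ} {t : τ} (hL : PvegLev 𝔓 m) (hT : pviwTyOk 𝔓 t) (z w : ℂ) :
    pvge2S (z + pvegYp 𝔓 m t) ((𝔓.Γ m).dout t) (pvthSim (pvieZo 𝔓 m z t) ((𝔓.Γ m).dout t * pvlmDel c m) w) =
      pvegS (pvegYp 𝔓 m t) ((𝔓.Γ m).dout t) ((𝔓.Γ m).pout t) + pvlmDel c m * w.re := by
  rw [pvge3_S, pvo4_S_at (pveg_door_o hL hT).u4]
  unfold pvieZo
  rw [pvge3_S_sh]

theorem pvwz_o_T {m : ℕ} {t : τ} (hL : PvegLev 𝔓 m) (hT : pviwTyOk 𝔓 t) (z w : ℂ) :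
    pvge2T (z + pvegYp 𝔓 m t) ((𝔓.Γ m).dout t) true (pvthSim (pvieZo 𝔓 m z t) ((𝔓.Γ m).dout t * pvlmDel c m) w) =
      pvge2Sg true * pvegL (pvegYp 𝔓 m t) ((𝔓.Γ m).dout t) ((𝔓.Γ m).pout t) + pvlmDel c m * w.im := by
  rw [pvge3_T, pvo4_L_at (pveg_door_o hL hT).u4]
  unfold pvieZo
  rw [pvge3_L_sh]
  simp [pvge2Sg]

/-- **the rooms of the colour `β` of the pattern of the first link miss the placed lane room of the other colour, off the door** -/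
theorem pvwz_o_off {m : ℕ} {t : τ} (hL : PvegLev 𝔓 m) (hT : pviwTyOk 𝔓 t) (hf : 10000 * pvlmDel c m ≤ pvegR 𝔓 m) (z : ℂ) (β : Bool) :
    Disjoint (pvjpRm β (pvge3PatO 𝔓 m z t))
      (pvthSim (pvieZo 𝔓 m z t) ((𝔓.Γ m).dout t * pvlmDel c m) '' ((pvhfT (1 / 40)).Ln false (if 𝔓.col t then !β else β) \ pvkgO)) := by
  have R := pvge3_rec_o hL hT hf (ρ := 0) (b := 0) (μ := 0) le_rfl (pvlm_Del_pos c m).le (by norm_num) (by have := pveg_R_pos hL; linarith)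
  have hδ := pvlm_Del_pos c m
  refine disjoint_left.2 ?_
  rintro _ hv ⟨w, ⟨hw, hO⟩, rfl⟩
  obtain ⟨a1, a2, a3⟩ := pvwz_lane_m hw hO
  have hS := pvwz_o_S hL hT z w
  have hT' := pvwz_o_T hL hT z w
  unfold pvge3PatO pvge3PatOb at hv
  rw [pvwz_rm_rec] at hv
  by_cases h : β = 𝔓.col t
  · rw [if_pos h] at hv
    refine pvwz_rt1_off R ?_ ?_ hv
    · rw [hS]; nlinarith
    · rw [hT']
      have : w.im ≤ -(1 / 80) := by
        cases hc : 𝔓.col t <;> rw [hc] at h a3 <;> subst h <;> simpa using a3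
      nlinarith
  · rw [if_neg h] at hv
    refine pvwz_rt2_off R ?_ ?_ hv
    · rw [hS]; nlinarith
    · rw [hT']
      have : 1 / 80 ≤ w.im := by
        cases hc : 𝔓.col t <;> rw [hc] at h a3 <;> cases β <;> simp_all
      nlinarith

/-- the two placed lane rooms are disjoint off the door -/
theorem pvwz_lanes_off (p a : ℂ) (ha : a ≠ 0) : Disjoint (pvthSim p a '' ((pvhfT (1 / 40)).Ln false true \ pvkgO)) (pvthSim p a '' ((pvhfT (1 / 40)).Ln false false \ pvkgO)) := by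
  refine disjoint_left.2 ?_
  rintro _ ⟨w, ⟨hw, hO⟩, rfl⟩ ⟨w', ⟨hw', hO'⟩, e⟩
  have e' : w' = w := by
    unfold pvthSim at e
    exact mul_left_cancel₀ ha (add_left_cancel e)
  subst e'
  have h1 := (pvwz_lane_m hw hO).2.2
  have h2 := (pvwz_lane_m hw' hO').2.2
  simp only [if_true, Bool.false_eq_true, if_false] at h1 h2
  linarith

end halves

/-! ## 3. the door half of the contract, generic in the engine and in the truncation -/

section door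

variable {τ : Type} {c : ℝ} {𝔓 : PvxPar τ c} {𝔈 : PvieEng τ} {U : PvkmUnit} {𝔱 : PvhfTr} {b0 q : ℝ≥0∞}

theorem pvwz_sim_inj (p : ℂ) {a : ℂ} (ha : a ≠ 0) : Function.Injective (pvthSim p a) := fun x y e => by
  unfold pvthSim at e
  exact mul_left_cancel₀ ha (add_left_cancel e)

/-- **THE DOOR HALF AT THE FIRST LINK**: any engine over the unit kit of `pvkgG.glob (pvhfH pvkgG 𝔱)`, any truncation with the lane rooms of record on the side `-` and window `⊆ pvkgEm` -/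
theorem pvwz_door_gen (hU : PvkmEng 𝔈 c U) (hk : ∀ e, U.kit e = (pvkgG.glob (pvhfH pvkgG.toPvkdPlug 𝔱)).kit (pvP e) b0 q)
    (hG : PvhfGeo pvkgG.toPvkdPlug 𝔱) (hLn : 𝔱.Ln false = (pvhfT (1 / 40)).Ln false) (hEs : 𝔱.Es false ⊆ pvkgEm)
    {m : ℕ} {t : τ} (hL : PvegLev 𝔓 m) (hT : pviwTyOk 𝔓 t) (hf : 10000 * pvlmDel c m ≤ pvegR 𝔓 m)
    {O₀ : ℕ → Set ℂ} (hO : O₀ m = pvthSim 0 (pvlmDel c m : ℂ) '' pvkgO) (hK : 𝔈.oK m t = pvegOKa 𝔓 O₀ m t)
    (w : ∀ η : Conf PvPt, (delbPl (pvieY η)).Dart → ℂ) (z : ℂ) {ε : ℝ} (hε : 0 < ε) :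
    ∃ Kb Kw : Set ℂ, Disjoint Kb Kw ∧ pvjpRm true (pvge3PatO 𝔓 m z t) ⊆ Kb ∧ pvjpRm false (pvge3PatO 𝔓 m z t) ⊆ Kw ∧
      PvjpDoor (pvjeO 𝔓 𝔈 w m ε z t) ε (pvdpPl (pvieZo 𝔓 m z t) ((𝔓.Γ m).dout t * pvlmDel c m) (𝔓.col t) (pvhfH pvkgG.toPvkdPlug 𝔱 2))
        {η | ∃ 𝔖 : PvwSt (pvieT η), PvilDoor (pvkdP (pvilRd 𝔓 m)) (𝔓.col t) η (pvieZo 𝔓 m z t) ((𝔓.Γ m).dout t) 𝔖} b0 Kb Kw := by
  have hD := pveg_door_o hL hT
  have hd4 := hD.u4
  have hd1 : ‖(𝔓.Γ m).dout t‖ = 1 := pveg_norm_unit hd4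
  have ha : (𝔓.Γ m).dout t * pvlmDel c m ≠ 0 := pvdp_a_ne hd1 c m
  -- the door region
  have eD : pvkyDoor (𝔈.kit m ε) (pvieZo 𝔓 m z t) ((𝔓.Γ m).dout t) = pvthSim (pvieZo 𝔓 m z t) ((𝔓.Γ m).dout t * pvlmDel c m) '' pvkgO := by
    rw [pvdp_door hU, hk]
    rfl
  -- the door end of the unit kit
  have h0 := pvdp_end_side (𝔱 := 𝔱) pvkgG hG pvkgg_ze.mO (pvze_mC pvkgg_ze) pvkgg_ze.EO false (ε / pvlmDel c m) b0 q
  rw [← hk] at h0
  have hC : pvthSim (pvieZo 𝔓 m z t) ((𝔓.Γ m).dout t * pvlmDel c m) '' 𝔱.Es false ⊆ pvkyDoor (𝔈.kit m ε) (pvieZo 𝔓 m z t) ((𝔓.Γ m).dout t) ∪ pvieSh z (𝔈.oK m t) := by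
    refine (image_mono hEs).trans ((pvo4_o_win hL hT hO z).trans ?_)
    rw [hK, eD, hO, pvo4_sim_sim]
  have h1 := pvdp_end_k hU m ε (𝔓.col t) (pvieZo 𝔓 m z t) ((𝔓.Γ m).dout t) hd1 h0 hC
  have h2 := h1.loc_of (pvyo_rec_door_ae 𝔓 hU hk m hε.ne' (𝔓.col t) (pvieZo 𝔓 m z t) hd4)
  rw [hLn] at h2
  have hdj : Disjoint (pvjpRm true (pvge3PatO 𝔓 m z t) ∪ pvthSim (pvieZo 𝔓 m z t) ((𝔓.Γ m).dout t * pvlmDel c m) '' ((pvhfT (1 / 40)).Ln false (if 𝔓.col t then true else false) \ pvkgO))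
      (pvjpRm false (pvge3PatO 𝔓 m z t) ∪ pvthSim (pvieZo 𝔓 m z t) ((𝔓.Γ m).dout t * pvlmDel c m) '' ((pvhfT (1 / 40)).Ln false (if 𝔓.col t then false else true) \ pvkgO)) := by
    rw [disjoint_union_left, disjoint_union_right, disjoint_union_right]
    refine ⟨⟨pvjp_rm_disj (pvge3_fit_o hL hT hf z), ?_⟩, ?_, ?_⟩
    · simpa using pvwz_o_off hL hT hf z true
    · simpa using (pvwz_o_off hL hT hf z false).symm
    · cases 𝔓.col t
      · simpa using (pvwz_lanes_off _ _ ha).symm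
      · simpa using pvwz_lanes_off _ _ ha
  refine ⟨_, _, hdj, subset_union_left, subset_union_left, pvjp_door_of_end h2 hdj ?_ ?_⟩
  · refine subset_union_right.trans' ?_
    show _ \ pvkyDoor (𝔈.kit m ε) (pvieZo 𝔓 m z t) ((𝔓.Γ m).dout t) ⊆ _
    rw [eD, ← image_sdiff (pvwz_sim_inj _ ha)]
    cases 𝔓.col t <;> exact subset_rfl
  · refine subset_union_right.trans' ?_
    show _ \ pvkyDoor (𝔈.kit m ε) (pvieZo 𝔓 m z t) ((𝔓.Γ m).dout t) ⊆ _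
    rw [eD, ← image_sdiff (pvwz_sim_inj _ ha)]
    cases 𝔓.col t <;> exact subset_rfl

end door

/-! ## 4. the mirror at the last link -/

/-- the lane rooms of the truncation of record off the door square: side `+` -/
theorem pvwz_lane_p {β : Bool} {w : ℂ} (hw : w ∈ (pvhfT (1 / 40)).Ln true β) (hO : w ∉ pvkgO) :
    13 / 160 ≤ w.re ∧ w.re ≤ 1 / 8 ∧ (if β then 1 / 80 ≤ w.im else w.im ≤ -(1 / 80)) := by
  cases β <;> simp only [pvhfT, pvkdRect, rswRect, if_true, if_false, mem_union, mem_ofPred_eq, Bool.false_eq_true] at hw ⊢ <;>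
    rcases hw with ⟨a1, a2, a3, a4⟩ | ⟨a1, a2, a3, a4⟩
  · exact absurd (show w ∈ pvkgO from ⟨by linarith, by linarith, by linarith, by linarith⟩) hO
  · refine ⟨?_, by linarith, by linarith⟩
    by_contra hc
    exact hO ⟨by linarith, by linarith [not_le.1 hc], by linarith, by linarith⟩
  · exact absurd (show w ∈ pvkgO from ⟨by linarith, by linarith, by linarith, by linarith⟩) hO
  · refine ⟨?_, by linarith, by linarith⟩
    by_contra hc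
    exact hO ⟨by linarith, by linarith [not_le.1 hc], by linarith, by linarith⟩

section halves

variable {τ : Type} {c : ℝ} {𝔓 : PvxPar τ c}

theorem pvwz_sim_negw (p a w : ℂ) : pvthSim p a w = pvthSim p (-a) (-w) := by
  unfold pvthSim; ring

theorem pvwz_i_S {m : ℕ} {t : τ} (hL : PvegLev 𝔓 m) (hT : pviwTyOk 𝔓 t) (z w : ℂ) :
    pvge2S (z + pvegYm 𝔓 m t) (-(𝔓.Γ m).din t) (pvthSim (pvieZi 𝔓 m z t) ((𝔓.Γ m).din t * pvlmDel c m) w) =
      pvegS (pvegYm 𝔓 m t) (-(𝔓.Γ m).din t) ((𝔓.Γ m).pin t) - pvlmDel c m * w.re := by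
  rw [pvwz_sim_negw, show -((𝔓.Γ m).din t * (pvlmDel c m : ℂ)) = -(𝔓.Γ m).din t * pvlmDel c m by ring, pvge3_S, pvo4_S_at (pveg_door_i hL hT).u4]
  unfold pvieZi
  rw [pvge3_S_sh, Complex.neg_re]
  ring

theorem pvwz_i_T {m : ℕ} {t : τ} (hL : PvegLev 𝔓 m) (hT : pviwTyOk 𝔓 t) (z w : ℂ) :
    pvge2T (z + pvegYm 𝔓 m t) (-(𝔓.Γ m).din t) false (pvthSim (pvieZi 𝔓 m z t) ((𝔓.Γ m).din t * pvlmDel c m) w) =
      pvge2Sg false * pvegL (pvegYm 𝔓 m t) (-(𝔓.Γ m).din t) ((𝔓.Γ m).pin t) + pvlmDel c m * w.im := by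
  rw [pvwz_sim_negw, show -((𝔓.Γ m).din t * (pvlmDel c m : ℂ)) = -(𝔓.Γ m).din t * pvlmDel c m by ring, pvge3_T, pvo4_L_at (pveg_door_i hL hT).u4]
  unfold pvieZi
  rw [pvge3_L_sh, Complex.neg_im]
  simp [pvge2Sg]
  ring

/-- **the rooms of the colour `β` of the pattern of the last link miss the placed lane room of the other colour, off the door** -/
theorem pvwz_i_off {m : ℕ} {t : τ} (hL : PvegLev 𝔓 m) (hT : pviwTyOk 𝔓 t) (hf : 10000 * pvlmDel c m ≤ pvegR 𝔓 m) (z : ℂ) (β : Bool) :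
    Disjoint (pvjpRm β (pvge3PatI 𝔓 m z t))
      (pvthSim (pvieZi 𝔓 m z t) ((𝔓.Γ m).din t * pvlmDel c m) '' ((pvhfT (1 / 40)).Ln true (if 𝔓.col t then !β else β) \ pvkgO)) := by
  have R := pvge3_rec_i hL hT hf (ρ := 0) (b := 0) (μ := 0) le_rfl (pvlm_Del_pos c m).le (by norm_num) (by have := pveg_R_pos hL; linarith)
  have hδ := pvlm_Del_pos c m
  refine disjoint_left.2 ?_
  rintro _ hv ⟨w, ⟨hw, hO⟩, rfl⟩
  obtain ⟨a1, a2, a3⟩ := pvwz_lane_p hw hO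
  have hS := pvwz_i_S hL hT z w
  have hT' := pvwz_i_T hL hT z w
  unfold pvge3PatI pvge3PatIb at hv
  rw [pvwz_rm_rec] at hv
  by_cases h : β = 𝔓.col t
  · rw [if_pos h] at hv
    refine pvwz_rt1_off R ?_ ?_ hv
    · rw [hS]; nlinarith
    · rw [hT']
      have : w.im ≤ -(1 / 80) := by
        cases hc : 𝔓.col t <;> rw [hc] at h a3 <;> subst h <;> simpa using a3
      nlinarith
  · rw [if_neg h] at hv
    refine pvwz_rt2_off R ?_ ?_ hv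
    · rw [hS]; nlinarith
    · rw [hT']
      have : 1 / 80 ≤ w.im := by
        cases hc : 𝔓.col t <;> rw [hc] at h a3 <;> cases β <;> simp_all
      nlinarith

theorem pvwz_lanes_off_p (p a : ℂ) (ha : a ≠ 0) : Disjoint (pvthSim p a '' ((pvhfT (1 / 40)).Ln true true \ pvkgO)) (pvthSim p a '' ((pvhfT (1 / 40)).Ln true false \ pvkgO)) := by
  refine disjoint_left.2 ?_
  rintro _ ⟨w, ⟨hw, hO⟩, rfl⟩ ⟨w', ⟨hw', hO'⟩, e⟩
  have e' : w' = w := pvwz_sim_inj p ha e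
  subst e'
  have h1 := (pvwz_lane_p hw hO).2.2
  have h2 := (pvwz_lane_p hw' hO').2.2
  simp only [if_true, Bool.false_eq_true, if_false] at h1 h2
  linarith

/-- **`sep` OF `pvut_up` (232, `Tr/FrcUp`) AT THE FIRST LINK**, door region `D = ` the placed unit square -/
theorem pvwz_sep_o {m : ℕ} {t : τ} (hL : PvegLev 𝔓 m) (hT : pviwTyOk 𝔓 t) (hf : 10000 * pvlmDel c m ≤ pvegR 𝔓 m) (z : ℂ) {D : Set ℂ}
    (hD : D = pvthSim (pvieZo 𝔓 m z t) ((𝔓.Γ m).dout t * pvlmDel c m) '' pvkgO) :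
    Disjoint (pvjpRm true (pvge3PatO 𝔓 m z t) ∪ pvthSim (pvieZo 𝔓 m z t) ((𝔓.Γ m).dout t * pvlmDel c m) '' (cond (𝔓.col t) ((pvhfT (1 / 40)).Ln false true) ((pvhfT (1 / 40)).Ln false false)) \ D)
      (pvjpRm false (pvge3PatO 𝔓 m z t) ∪ pvthSim (pvieZo 𝔓 m z t) ((𝔓.Γ m).dout t * pvlmDel c m) '' (cond (𝔓.col t) ((pvhfT (1 / 40)).Ln false false) ((pvhfT (1 / 40)).Ln false true)) \ D) := by
  have ha : (𝔓.Γ m).dout t * pvlmDel c m ≠ 0 := pvdp_a_ne (pveg_norm_unit (pveg_door_o hL hT).u4) c m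
  rw [hD, ← image_sdiff (pvwz_sim_inj _ ha), ← image_sdiff (pvwz_sim_inj _ ha), disjoint_union_left, disjoint_union_right, disjoint_union_right]
  have h1 := pvwz_o_off hL hT hf z true
  have h2 := (pvwz_o_off hL hT hf z false).symm
  refine ⟨⟨pvjp_rm_disj (pvge3_fit_o hL hT hf z), ?_⟩, ?_, ?_⟩
  · cases hc : 𝔓.col t <;> simpa [hc] using h1
  · cases hc : 𝔓.col t <;> simpa [hc] using h2
  · cases 𝔓.col t
    · exact (pvwz_lanes_off _ _ ha).symm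
    · exact pvwz_lanes_off _ _ ha

/-- **`sep` OF `pvut_up` AT THE LAST LINK** -/
theorem pvwz_sep_i {m : ℕ} {t : τ} (hL : PvegLev 𝔓 m) (hT : pviwTyOk 𝔓 t) (hf : 10000 * pvlmDel c m ≤ pvegR 𝔓 m) (z : ℂ) {D : Set ℂ}
    (hD : D = pvthSim (pvieZi 𝔓 m z t) ((𝔓.Γ m).din t * pvlmDel c m) '' pvkgO) :
    Disjoint (pvjpRm true (pvge3PatI 𝔓 m z t) ∪ pvthSim (pvieZi 𝔓 m z t) ((𝔓.Γ m).din t * pvlmDel c m) '' (cond (𝔓.col t) ((pvhfT (1 / 40)).Ln true true) ((pvhfT (1 / 40)).Ln true false)) \ D)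
      (pvjpRm false (pvge3PatI 𝔓 m z t) ∪ pvthSim (pvieZi 𝔓 m z t) ((𝔓.Γ m).din t * pvlmDel c m) '' (cond (𝔓.col t) ((pvhfT (1 / 40)).Ln true false) ((pvhfT (1 / 40)).Ln true true)) \ D) := by
  have hd1 : ‖(𝔓.Γ m).din t‖ = 1 := by
    have := pveg_norm_unit (pveg_door_i hL hT).u4
    rwa [norm_neg] at this
  have ha : (𝔓.Γ m).din t * pvlmDel c m ≠ 0 := pvdp_a_ne hd1 c m
  rw [hD, ← image_sdiff (pvwz_sim_inj _ ha), ← image_sdiff (pvwz_sim_inj _ ha), disjoint_union_left, disjoint_union_right, disjoint_union_right]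
  have h1 := pvwz_i_off hL hT hf z true
  have h2 := (pvwz_i_off hL hT hf z false).symm
  refine ⟨⟨pvjp_rm_disj (pvge3_fit_i hL hT hf z), ?_⟩, ?_, ?_⟩
  · cases hc : 𝔓.col t <;> simpa [hc] using h1
  · cases hc : 𝔓.col t <;> simpa [hc] using h2
  · cases 𝔓.col t
    · exact (pvwz_lanes_off_p _ _ ha).symm
    · exact pvwz_lanes_off_p _ _ ha

end halves

/-! ## 5. the field `up` at the last link, generic in the engine and in the truncation -/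

section upi

variable {τ : Type} {c : ℝ} {𝔓 : PvxPar τ c} {𝔈 : PvieEng τ} {U : PvkmUnit} {𝔱 : PvhfTr} {b0 q : ℝ≥0∞}

/-- **THE FIELD `up` OF `PvjeTest.Ok` AT THE LAST LINK**, pattern `pvkqPat dl PatI ∩ ℳ`, `ℳ` colour blind -/
theorem pvwz_up_i_gen (hU : PvkmEng 𝔈 c U) (hk : ∀ e, U.kit e = (pvkgG.glob (pvhfH pvkgG.toPvkdPlug 𝔱)).kit (pvP e) b0 q)
    (hG : PvhfGeo pvkgG.toPvkdPlug 𝔱) (hLn : 𝔱.Ln true = (pvhfT (1 / 40)).Ln true) (hEs : 𝔱.Es true ⊆ pvkgEp)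
    {m : ℕ} {t : τ} (hL : PvegLev 𝔓 m) (hT : pviwTyOk 𝔓 t) (hf : 10000 * pvlmDel c m ≤ pvegR 𝔓 m)
    {O₀ : ℕ → Set ℂ} (hO : O₀ m = pvthSim 0 (pvlmDel c m : ℂ) '' pvkgO) (hK : 𝔈.iK m t = pvegIKa 𝔓 O₀ m t)
    (w : ∀ η : Conf PvPt, (delbPl (pvieY η)).Dart → ℂ) (z : ℂ) (ε : ℝ) {ℳ : Set (Conf PvPt)} (hB : PvjaBlind ℳ) :
    ∀ (η₀ : Conf PvPt) (Y Fz : Set ℂ) (σ : ℂ → Bool), Y.Countable →
      (∃ η, PvatNice (cfSites η) ∧ cfSites η ∩ (pvjeI 𝔓 𝔈 w m ε z t).Wn ((pvjeI 𝔓 𝔈 w m ε z t).Hu η₀) = Y ∩ (pvjeI 𝔓 𝔈 w m ε z t).Wn ((pvjeI 𝔓 𝔈 w m ε z t).Hu η₀)) → Fz ⊆ Y →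
      (∀ v ∈ Y, v ∈ (pvjeI 𝔓 𝔈 w m ε z t).D → v ∈ Fz) → (∀ v ∈ Fz, v ∉ (pvjeI 𝔓 𝔈 w m ε z t).K ∧ v ∉ (pvjeI 𝔓 𝔈 w m ε z t).y η₀) →
      ∃ s : ℂ → Option Bool, {z | s z ≠ none}.Countable ∧
        PvlhUp s (pvlhSec Y Fz σ (pvdpPl (pvieZi 𝔓 m z t) ((𝔓.Γ m).din t * pvlmDel c m) (𝔓.col t) (pvhfH pvkgG.toPvkdPlug 𝔱 0))) ∧
        PvlhUp s (pvlhCp Y (pvkqPat (pvge3Dl c m) (pvge3PatI 𝔓 m z t) ∩ ℳ)) := by
  intro η₀ Y Fz σ hY hn _ hD _
  have hd1 : ‖(𝔓.Γ m).din t‖ = 1 := by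
    have := pveg_norm_unit (pveg_door_i hL hT).u4
    rwa [norm_neg] at this
  have ha : (𝔓.Γ m).din t * pvlmDel c m ≠ 0 := pvdp_a_ne hd1 c m
  have eD : (pvjeI 𝔓 𝔈 w m ε z t).D = pvthSim (pvieZi 𝔓 m z t) ((𝔓.Γ m).din t * pvlmDel c m) '' pvkgO := by
    show pvkyDoor (𝔈.kit m ε) (pvieZi 𝔓 m z t) ((𝔓.Γ m).din t) = _
    rw [pvdp_door hU, hk]
    rfl
  have sep := pvwz_sep_i hL hT hf z eD
  have hC : pvthSim (pvieZi 𝔓 m z t) ((𝔓.Γ m).din t * pvlmDel c m) '' 𝔱.Es true ⊆ (pvjeI 𝔓 𝔈 w m ε z t).Wn ((pvjeI 𝔓 𝔈 w m ε z t).Hu η₀) := by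
    refine (image_mono hEs).trans ((pvo4_i_win hL hT hO z).trans ?_)
    rw [← hK, hO, pvo4_sim_sim, ← eD]
    exact union_subset subset_union_right (subset_union_left.trans' subset_union_right)
  have hEw : pvthSim (pvieZi 𝔓 m z t) ((𝔓.Γ m).din t * pvlmDel c m) '' pvkgG.toPvkdPlug.Ew ⊆ (pvjeI 𝔓 𝔈 w m ε z t).D := by
    rw [eD]
    exact image_mono pvkgg_ze.EO
  refine ⟨_, pvlh_sg_countable hY _ _, ?_, pvpz_up_inter hB (pvjp_pat_up (pvge3_fit_i hL hT hf z) Y sep (inter_subset_right.trans subset_union_left) (inter_subset_right.trans subset_union_left))⟩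
  refine pvdp_side_sec hG true _ _ ha (𝔓.col t) hEw hC σ hn hD sep ?_ ?_
  · refine subset_union_right.trans' ?_
    rw [hLn]
    cases 𝔓.col t <;> exact subset_rfl
  · refine subset_union_right.trans' ?_
    rw [hLn]
    cases 𝔓.col t <;> exact subset_rfl

end upi

end Claimed.Agent.R289
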