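-- KEEP
import Claimed.Agent.R289.Tr.HookOE
import Claimed.Agent.R289.Exit.FrcODefs

/-!
# Row 289 (S0537), THE WALL, ROAD E, E10 (b3) DET, file Exit/FrcOX : THE DATA OF DET OF THE FIRST LINK AT THE NUMBERS OF RECORD (DEFS ONLY)      (helper199; prefix `pvhpX`)

**`pvhpX 𝔓 𝔱 m z t : PvhpDat`** = the datum `X` of `pvhp_ev_o` / `pvhp_link_o` (`Tr/HookOE`) at the pattern of record of 298 (`pvge3PatO`), generic in the parameters `𝔓` and in the truncation `𝔱` of the side events (`pvhfT pvkgG.a` today; survives swap (B)).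
FRAME `Y = z + pvegYp 𝔓 m t` (`= (𝔓.ty t).cp h z`), `u = dout t`, `R = pvegR 𝔓 m = ρ h`, `q = pvge3Q c m = δ/40`, `Sp lam` = coordinates of the door `pout t` (side `true`).
NUMBERS: `r = ρ₂ h`, `r₁ = R/2`, `ρ = pvj0Rho = μ₀/20`, `rs = R/4`, `rt = R/10 + 4ρ`, `e₀ = 21R/200`, `μw = μ₀ = pvilMu`, `ζ = conj u`, `dl = δ/1280`, `ρl = δ`,
route of the relative colour `β` on the side `β`: `eC β :: eN β :: tl β = pvge2Rt Y u β (pvge2Aa R β) (R/200) (23R/200) (23R/200) (3R/20) (Sp - 29q/8) (q/8) (pvge2Lm lam β + q/4)` (`pvhpX_rt`, by `rfl`), `eD β` = the bar, `Sg β = pvge2Cl ..`, `jN = jS = 0`,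
door side: `ζd = - conj u`, cut `s = Sp - 13q/4`, bar `s ∈ Sp - [15q/4, 7q/2]`, strip `l ∈ pvge2Lm lam β + [q/2, 3q/2]` with the margin `μw` (= the output of `pvge4_doorReg` at `ρd := μw`), `𝔭 = pvkgG.toPvkdPlug`, `s = δ`.
THE FIELDS OF `X.Ok`, `X.OkT` ARE TYPED IN OTHER FILES WHICH IMPORT THIS ONE.
-/

set_option autoImplicit false

namespace Claimed.Agent.R289

open Set Metric Claims.C0465

section defs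

variable {τ : Type} {c : ℝ} (𝔓 : PvxPar τ c)

/-- abscissa of the door in the frame of the exit mouth -/
noncomputable def pvhpXSp (m : ℕ) (t : τ) : ℝ := pvegS (pvegYp 𝔓 m t) ((𝔓.Γ m).dout t) ((𝔓.Γ m).pout t)

/-- lateral coordinate of the door in the frame of the exit mouth (side `true`) -/
noncomputable def pvhpXLam (m : ℕ) (t : τ) : ℝ := pvge2Sg true * pvegL (pvegYp 𝔓 m t) ((𝔓.Γ m).dout t) ((𝔓.Γ m).pout t)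

/-- **THE DATA OF DET OF THE FIRST LINK AT THE NUMBERS OF RECORD** -/
noncomputable def pvhpX (𝔱 : PvhfTr) (m : ℕ) (z : ℂ) (t : τ) : PvhpDat where
  r := 𝔓.num.rho2 * pvlmH m
  r₁ := 𝔓.num.rho * pvlmH m / 2
  ρ := pvj0Rho 𝔓 m
  rs := pvegR 𝔓 m / 4
  rt := pvegR 𝔓 m / 10 + 4 * pvj0Rho 𝔓 m
  e₀ := 21 * pvegR 𝔓 m / 200
  μw := pvilMu 𝔓 m
  ζ := (starRingEnd ℂ) ((𝔓.Γ m).dout t)
  dl := pvge3Dl c m
  ρl := pvlmDel c m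
  eC := fun β => (pvge2RC (z + pvegYp 𝔓 m t) ((𝔓.Γ m).dout t) β (pvge2Aa (pvegR 𝔓 m) β) (pvegR 𝔓 m / 200) (23 * pvegR 𝔓 m / 200) (23 * pvegR 𝔓 m / 200),
    pvge2P (z + pvegYp 𝔓 m t) ((𝔓.Γ m).dout t) β (23 * pvegR 𝔓 m / 200) (-pvge2Aa (pvegR 𝔓 m) β), pvge2P (z + pvegYp 𝔓 m t) ((𝔓.Γ m).dout t) β (23 * pvegR 𝔓 m / 200) (pvge2Aa (pvegR 𝔓 m) β))
  eN := fun β => (pvge2RN (z + pvegYp 𝔓 m t) ((𝔓.Γ m).dout t) β (pvge2Aa (pvegR 𝔓 m) β) (pvegR 𝔓 m / 200) (23 * pvegR 𝔓 m / 200) (3 * pvegR 𝔓 m / 20),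
    pvge2P (z + pvegYp 𝔓 m t) ((𝔓.Γ m).dout t) β (23 * pvegR 𝔓 m / 200) (pvge2Aa (pvegR 𝔓 m) β), pvge2P (z + pvegYp 𝔓 m t) ((𝔓.Γ m).dout t) β (3 * pvegR 𝔓 m / 20) (pvge2Aa (pvegR 𝔓 m) β))
  eD := fun β => (pvge2RV (z + pvegYp 𝔓 m t) ((𝔓.Γ m).dout t) β (pvge2Aa (pvegR 𝔓 m) β) (pvegR 𝔓 m / 200) (pvhpXSp 𝔓 m t - 29 * pvge3Q c m / 8) (pvge3Q c m / 8) (pvge2Lm (pvhpXLam 𝔓 m t) β + pvge3Q c m / 4),
    pvge2P (z + pvegYp 𝔓 m t) ((𝔓.Γ m).dout t) β (pvhpXSp 𝔓 m t - 29 * pvge3Q c m / 8) (pvge2Aa (pvegR 𝔓 m) β),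
    pvge2P (z + pvegYp 𝔓 m t) ((𝔓.Γ m).dout t) β (pvhpXSp 𝔓 m t - 29 * pvge3Q c m / 8) (pvge2Lm (pvhpXLam 𝔓 m t) β + pvge3Q c m / 4))
  tl := fun β => pvge2LegsD (z + pvegYp 𝔓 m t) ((𝔓.Γ m).dout t) β (pvge2Aa (pvegR 𝔓 m) β) (pvegR 𝔓 m / 200) (3 * pvegR 𝔓 m / 20) (pvhpXSp 𝔓 m t - 29 * pvge3Q c m / 8) (pvge3Q c m / 8)
    (pvge2Lm (pvhpXLam 𝔓 m t) β + pvge3Q c m / 4)
  Sg := fun β => pvge2Cl (z + pvegYp 𝔓 m t) ((𝔓.Γ m).dout t) β (pvge2Aa (pvegR 𝔓 m) β) (23 * pvegR 𝔓 m / 200) (3 * pvegR 𝔓 m / 20) (pvge3Dl c m)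
  jN := fun _ => 0
  jS := fun _ => 0
  ζd := -(starRingEnd ℂ) ((𝔓.Γ m).dout t)
  xc := fun _ => -((starRingEnd ℂ) ((𝔓.Γ m).dout t) * (z + pvegYp 𝔓 m t)).re - (pvhpXSp 𝔓 m t - 13 * pvge3Q c m / 4)
  xa := fun _ => -((starRingEnd ℂ) ((𝔓.Γ m).dout t) * (z + pvegYp 𝔓 m t)).re - (pvhpXSp 𝔓 m t - 29 * pvge3Q c m / 8 + pvge3Q c m / 8)
  xb := fun _ => -((starRingEnd ℂ) ((𝔓.Γ m).dout t) * (z + pvegYp 𝔓 m t)).re - (pvhpXSp 𝔓 m t - 29 * pvge3Q c m / 8 - pvge3Q c m / 8)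
  y0 := fun β => -((starRingEnd ℂ) ((𝔓.Γ m).dout t) * (z + pvegYp 𝔓 m t)).im
    - pvge2Sg β * ((pvge2Lm (pvhpXLam 𝔓 m t) β + pvge3Q c m / 2 + (pvge2Lm (pvhpXLam 𝔓 m t) β + 3 * pvge3Q c m / 2)) / 2)
    - (pvge2Lm (pvhpXLam 𝔓 m t) β + 3 * pvge3Q c m / 2 - (pvge2Lm (pvhpXLam 𝔓 m t) β + pvge3Q c m / 2)) / 2 - pvilMu 𝔓 m
  y1 := fun β => -((starRingEnd ℂ) ((𝔓.Γ m).dout t) * (z + pvegYp 𝔓 m t)).im
    - pvge2Sg β * ((pvge2Lm (pvhpXLam 𝔓 m t) β + pvge3Q c m / 2 + (pvge2Lm (pvhpXLam 𝔓 m t) β + 3 * pvge3Q c m / 2)) / 2)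
    + (pvge2Lm (pvhpXLam 𝔓 m t) β + 3 * pvge3Q c m / 2 - (pvge2Lm (pvhpXLam 𝔓 m t) β + pvge3Q c m / 2)) / 2 + pvilMu 𝔓 m
  𝔭 := pvkgG.toPvkdPlug
  𝔱 := 𝔱
  s := pvlmDel c m

theorem pvhpX_eqns_cite : True := by
  have := @pvhpXSp.eq_1; have := @pvhpXLam.eq_1; have := @pvhpX.eq_1
  trivial

/-- the route of the relative colour `β` of the datum IS the route of record of 298 on the side `β` -/
theorem pvhpX_rt (𝔱 : PvhfTr) (m : ℕ) (z : ℂ) (t : τ) (β : Bool) : (pvhpX 𝔓 𝔱 m z t).eC β :: (pvhpX 𝔓 𝔱 m z t).eN β :: (pvhpX 𝔓 𝔱 m z t).tl β =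
    pvge2Rt (z + pvegYp 𝔓 m t) ((𝔓.Γ m).dout t) β (pvge2Aa (pvegR 𝔓 m) β) (pvegR 𝔓 m / 200) (23 * pvegR 𝔓 m / 200) (23 * pvegR 𝔓 m / 200) (3 * pvegR 𝔓 m / 20) (pvhpXSp 𝔓 m t - 29 * pvge3Q c m / 8) (pvge3Q c m / 8)
      (pvge2Lm (pvhpXLam 𝔓 m t) β + pvge3Q c m / 4) := rfl

/-- the pattern of record in the words of the datum -/
theorem pvhpX_pat (b : Bool) (m : ℕ) (z : ℂ) (t : τ) : pvge3PatOb 𝔓 b m z t = pvge2PatRec (z + pvegYp 𝔓 m t) ((𝔓.Γ m).dout t) true b (pvegR 𝔓 m) (pvge3Q c m) (pvhpXSp 𝔓 m t) (pvhpXLam 𝔓 m t) := rfl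

/-- the centre of the frame is the centre of the exit tip cell -/
theorem pvhpX_Y (m : ℕ) (z : ℂ) (t : τ) : z + pvegYp 𝔓 m t = (𝔓.ty t).cp (pvlmH m) z := rfl

end defs

end Claimed.Agent.R289
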