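-- KEEP
import Claimed.Agent.R289.Exit.FrcOE
import Claimed.Agent.R289.Exit.FrcWf
import Claimed.Agent.R289.Exit.FrcOq
import Claimed.Agent.R289.Exit.GoodEH
import Claimed.Agent.R289.Exit.ParGr
import Claimed.Agent.R289.Tr.HookOLay

/-!
# Row 289 (S0537), THE WALL, ROAD E, E10 (b3) DET at `o`, file Exit/FrcOZ : **THE FIRST LINK AT THE RECORD: `η ∈ Lo.A`, NO LEAF**      (helper145; prefix `pvj6_`)

`pvo3_link_o` (26, `Tr/HookOM`) at `pvhw8_lay`, `pvhw8_lay_mouth` (71, `Tr/HookOLay`), at `pvxParOf N hN c`, `pvnaEngRec N hN c nb`, `pvj0T` (`Exit/FrcODefs`), truncation `pvnaT N`, mesh `pvj6_mesh` (206, 269).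
* **`pvj6_A`** : one `ε` with `Wf ε`, one final configuration: `η ∈ Lo.A ∧ hull`
* **`pvj6_link'`** = THE STATEMENT OF `exit_pvj0_link` (`Exit/FrcO`) VERBATIM, 0 sorry;   **`pvj6_ev'`** = THE STATEMENT OF `exit_pvj0_ev` VERBATIM, 0 sorry
-/

set_option autoImplicit false

namespace Claimed.Agent.R289

open Set MeasureTheory Filter Topology Claims.C0465
open scoped ENNReal

section rec

variable {c : ℝ} (c0 : 0 < c) (N : PvxNums) (hN : N.Ok) (nb : PvnaNb N) (q₀ : ℝ) {m : ℕ} (hm : (pvxParOf N hN c).m0 ≤ m) (z : ℂ) (t : pvxTau N)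

/-- the reference region of the door plug lies in the square of half side `13 q / 4` -/
theorem pvj6_O0 (m : ℕ) : (pvnaInRec N hN c nb).O0 m ⊆ pvccSq 0 (13 * pvge3Q c m / 4) := by
  rw [pvnr_O0]
  have e : pvkgG.O₀ = pvkgO := rfl
  rw [e, pvkgg_O_sq]
  rintro _ ⟨w, hw, rfl⟩
  have hδ := pvlm_Del_pos c m
  have hw' : pvccN (w - 0) < 13 / 160 := hw
  rw [sub_zero] at hw'
  show pvccN (pvthSim 0 (pvlmDel c m) w - 0) < 13 * pvge3Q c m / 4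
  unfold pvccN at hw' ⊢
  obtain ⟨h1, h2⟩ := max_lt_iff.1 hw'
  have e1 : (pvthSim 0 (pvlmDel c m : ℂ) w - 0).re = pvlmDel c m * w.re := by simp [pvthSim]
  have e2 : (pvthSim 0 (pvlmDel c m : ℂ) w - 0).im = pvlmDel c m * w.im := by simp [pvthSim]
  rw [e1, e2, abs_mul, abs_mul, abs_of_pos hδ]
  unfold pvge3Q
  refine max_lt ?_ ?_ <;> nlinarith

variable {ε : ℝ} {η₀ η : Conf PvPt}

include c0 hm in
/-- **THE FIRST LINK AT THE RECORD, ONE FINAL CONFIGURATION** -/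
theorem pvj6_A (W : (pvjeO (pvxParOf N hN c) (pvnaEngRec N hN c nb) pvilQ m ε z t).Wf ε)
    (hU : η₀ ∈ pvilUo (pvxParOf N hN c).num ((pvxParOf N hN c).col t) (pvilPin (pvxParOf N hN c) m z t)) (hMc : η₀ ∈ pvj0Mc (pvxParOf N hN c) m z t) (hOK : CfOK η₀)
    (hF : PvjeFin (pvjeO (pvxParOf N hN c) (pvnaEngRec N hN c nb) pvilQ m ε z t) (pvj0T (pvxParOf N hN c) (pvnaEngRec N hN c nb) q₀ nb.b m z t) η₀ η) :
    η ∈ (pvilLo (pvxParOf N hN c) (pvnaEngRec N hN c nb) m z t).A (pvxParOf N hN c).num ((pvxParOf N hN c).col t) ∧ pvilZo (pvxParOf N hN c) m z t η = pvilZo (pvxParOf N hN c) m z t η₀ := by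
  obtain ⟨Cth, r, κs, H⟩ := (pvnr_wf hN c0 nb).wf
  have hmesh := pvj6_mesh c0 N hN nb q₀ hm z t ε hU hMc hOK hF
  obtain ⟨𝔖₀, h₀⟩ := hU
  have hW : (pvxParOf N hN c).WfB := (pvxo_wf N hN c).toWfB
  have hT := pvqh_tyOk hN c t
  have hL := pvqh_lev hN c0 hm
  have hf := pvuo_fine hN c0 hm
  have n := pvho_num_par hN c
  have off := pvjv_carf_off_o H hm ε hT
  have hδ := pvlm_Del_pos c m
  have hμ0 : 0 < pvilMu (pvxParOf N hN c) m := pvz7_rec_mu0 hN m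
  have h2 : pvilMu (pvxParOf N hN c) m ≤ pvlmDel c m / 1000 := pvey_mu_le m
  have h3 : 3 * pvj0Rho (pvxParOf N hN c) m ≤ pvlmDel c m := by
    unfold pvj0Rho
    linarith
  have hb : ((pvxParOf N hN c).ty t).b * pvlmH m ≤ pviwRad (pvxParOf N hN c) m t := by
    have := pvho_rad n m t
    have hh := pvlm_H_pos m
    unfold pviwRad
    linarith
  have hsc : pvkgG.toPvkdPlug.sc (pvlmDel c m) = pvkdP (pvilRd (pvxParOf N hN c) m) := by
    show (pvkdP (1 / 40)).sc (pvlmDel c m) = pvkdP (pvilRd (pvxParOf N hN c) m)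
    rw [pvdil_P hδ]
    congr 1
    unfold pvilRd
    ring
  have G : Pvge5Side (1 / 40) false ((pvnaT N).Ln false) ((pvnaT N).Dr false) := pvge5_side_T (by norm_num) false
  exact pvo3_link_o (𝔭 := pvkgG.toPvkdPlug) (𝔱 := pvnaT N) (s := pvlmDel c m) n hL hT hf hN.msk0 ((pvea_par hN c0).cp_small t) W (pvnr_oM N hN c nb m t) hb (pvjv_carf_hr _ hW h3 t) off.1 off.2
    (pvhw8_lay (O₀ := (pvnaInRec N hN c nb).O0) n hL hT hf hμ0 (pvnr_oM N hN c nb m t) (pvnr_oK N hN c nb m t) (pvnr_oY N hN c nb m t) ((pvnr_kit_O N hN c nb m ε).trans (pvnr_O0 N hN c nb m).symm) (pvj6_O0 N hN nb m) G hδ (pvge6_q_eq c m) z) (pvhw8_lay_mouth hf hμ0.le (pvnr_oY N hN c nb m t) z)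
    (pvna_geo hN) hδ hsc (fun η h => h) inter_subset_left hMc h₀ hF hmesh

include c0 hm in
/-- **THE STATEMENT OF `exit_pvj0_link`** (`Exit/FrcO`), VERBATIM, NO LEAF -/
theorem pvj6_link' :
    ∀ᶠ ε in 𝓝[>] (0 : ℝ), ∀ η₀ ∈ pvilUo (pvxParOf N hN c).num ((pvxParOf N hN c).col t) (pvilPin (pvxParOf N hN c) m z t), η₀ ∈ pvj0Mc (pvxParOf N hN c) m z t → CfOK η₀ →
      ∀ η, PvjeFin (pvjeO (pvxParOf N hN c) (pvnaEngRec N hN c nb) pvilQ m ε z t) (pvj0T (pvxParOf N hN c) (pvnaEngRec N hN c nb) q₀ nb.b m z t) η₀ η →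
        η ∈ (pvilLo (pvxParOf N hN c) (pvnaEngRec N hN c nb) m z t).A (pvxParOf N hN c).num ((pvxParOf N hN c).col t) := by
  filter_upwards [pvji_O_rec (pvnr_wf hN c0 nb) ⟨nb, rfl⟩ pvml_wm_Q hm z t] with ε W η₀ hU hMc hOK η hF
  exact (pvj6_A c0 N hN nb q₀ hm z t W hU hMc hOK hF).1

include c0 hm in
/-- **THE STATEMENT OF `exit_pvj0_ev`** (`Exit/FrcO`), VERBATIM, NO LEAF -/
theorem pvj6_ev' :
    ∀ᶠ ε in 𝓝[>] (0 : ℝ), ∀ η₀ ∈ pvilUo (pvxParOf N hN c).num ((pvxParOf N hN c).col t) (pvilPin (pvxParOf N hN c) m z t), η₀ ∈ pvj0Mc (pvxParOf N hN c) m z t → CfOK η₀ →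
      ∀ η, PvjeFin (pvjeO (pvxParOf N hN c) (pvnaEngRec N hN c nb) pvilQ m ε z t) (pvj0T (pvxParOf N hN c) (pvnaEngRec N hN c nb) q₀ nb.b m z t) η₀ η →
        η ∈ pvilMo (pvxParOf N hN c) (pvnaEngRec N hN c nb) m ε z t (pvilZo (pvxParOf N hN c) m z t η₀) := by
  filter_upwards [pvji_O_rec (pvnr_wf hN c0 nb) ⟨nb, rfl⟩ pvml_wm_Q hm z t] with ε W η₀ hU hMc hOK η hF
  exact ⟨pvj6_A c0 N hN nb q₀ hm z t W hU hMc hOK hF, pvj6_mesh c0 N hN nb q₀ hm z t ε hU hMc hOK hF⟩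

end rec

end Claimed.Agent.R289
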