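-- KEEP
import Claimed.Agent.R289.Exit.FrcODefs
import Claimed.Agent.R289.Exit.FrcOE
import Claimed.Agent.R289.Exit.FrcOZ
import Claimed.Agent.R289.Exit.FrcE
import Claimed.Agent.R289.Exit.GdRec
import Claimed.Agent.R289.Exit.ParGr
import Claimed.Agent.R289.Exit.FrcWf
import Claimed.Agent.R289.Exit.FrcOq
import Claimed.Agent.R289.Exit.FrcOL
import Claimed.Agent.R289.Exit.MeshWO
import Claimed.Agent.R289.Exit.FrcOX
import Claimed.Agent.R289.Tr.PatCol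
import Claimed.Agent.R289.Tr.FrcDetA
import Claimed.Agent.R289.Tr.FrcPatM
import Claimed.Agent.R289.Tr.InstLB
import Claimed.Agent.R289.Tr.LinkDet

/-!
# Row 289 (S0537), THE WALL, ROAD E, file Exit/FrcO : E10 FOR THE FIRST LINK `t → door plug`, INTEGRATION      (text of helper35, integrator of `exit_pvgu_o`, T15 of 24; PEN helper211 since 13:26Z; prefix `pvj0_`, `pvj0`, exits `exit_pvj0_*`)

**`pvj0_exit`** = the statement of `exit_pvgu_o` (`Exit/GdCut.lean`, 238) VERBATIM = ONE CALL of the generic roof `pvje_cut` (`Exit/FrcE.lean`, 0 sorry) at the ENGINE OF RECORD (`obtain ⟨nb, rfl⟩ := hR`), end `pvjeO 𝔓 𝔈 pvilQ m ε z t`, TESTS OF RECORD `pvj0T` (**`Exit/FrcODefs.lean`**).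
v2 (211, 13:55Z) = repair of the crossed landings of 50 / 239 (conflict markers) + `pvj0Rho = μ₀/20` (25 206) + defs in `Exit/FrcODefs.lean`.
CLOSED: `[b]` (198), `[Wf]` (1 `Exit/FrcWf`), `[cost]` (127 `pvjw_cost` + 298 fit / window; 50), pattern half of `[Ok]` (127 `pvjw_ok`), `[hM]`, `[hU]`, `[DET.val]` (22).
v2.2: DET.ev WIRED on the cut of 145 (`Exit/FrcOE.lean`: `pvj6_carry` PROVED = out + hull; door = `hF.plug`).
v2.3 (211, 14:50Z, after (B) of 9): `exit_pvj0_door` CLOSED `:= pvwz_door_gen` of 81 (`Exit/FrcOL`) at `pvnaT N` (twins: 171 `pvj2_door_ex`, 181 `pvo8_door_o`);   `exit_pvj0_mesh` CLOSED `:= pvwu_rec_o` of 206 (`Exit/MeshWO`) + `pvna_Hf_mesh` of 9.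
v3 (211, 15:05Z): THE RUN IS WIRED ON THE ROOF OF 199 (`Tr/HookOE` `pvhp_link_o`, 0 sorry) AT THE DATA OF RECORD `pvhpX 𝔓 (pvnaT N) m z t` (`Exit/FrcOX`, 199);   `exit_pvj0_XT` (`OkT`: `pat` `side`) PROVED HERE;   base meshes from `pvj0Mc` (266 `pvho_cert_o pvho_cert_oM`, 145 `pvj6_box_sub`).   `pvj6_run` of `Exit/FrcOE` IS NO LONGER CITED.
**OPEN LEAVES (1)**: HERE **`exit_pvj0_X`** `: ∀ᶠ ε, (pvhpX 𝔓 (pvnaT N) m z t).Ok 𝔓 𝔈 m ε z t` = A DETERMINISTIC RECORD (numbers, regions, routes; no configuration, no test)   [199 `Exit/FrcOXA` all fields generic; blocks: 257 130 (D) door, 261 130 (C) collars, 145 routes].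
RULE: NOBODY PATCHES THIS FILE IN PLACE.   A prover proves the leaf VERBATIM under his own name in his own file (import `Exit/FrcODefs`), one line to 211, 211 cites.
-/

set_option autoImplicit false

namespace Claimed.Agent.R289

open Set MeasureTheory Filter Topology Claims.C0465
open scoped ENNReal

/-! ## 2. the leaves -/

section leaves

variable {c : ℝ}

/-- **[b]** the threshold of the half lanes of the engine of record is a positive number      [PROVED by 198] -/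
theorem exit_pvj0_b {N : PvxNums} (nb : PvnaNb N) : nb.b ≠ 0 ∧ nb.b ≠ ∞ := by
  obtain ⟨ε, hε⟩ := nb.H.ok.exists
  refine ⟨hε.b0, fun h => ?_⟩
  have := (pv_isPpp ε).prob
  have h1 : 4 * nb.b ≤ 1 := (le_add_self.trans hε.adm).trans prob_le_one
  rw [h, ENNReal.mul_top (by norm_num)] at h1
  exact absurd h1 (by simp)

/-- **[Wf]** regions, finiteness of the hull, [MEAS], reader of the usable plug, [STOP]      [PROVED by 1, `Exit/FrcWf`] -/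
theorem exit_pvj0_wf (c0 : 0 < c) (N : PvxNums) (hN : N.Ok) (nb : PvnaNb N) {m : ℕ} (hm : (pvxParOf N hN c).m0 ≤ m) (z : ℂ) (t : pvxTau N) :
    ∀ᶠ ε in 𝓝[>] (0 : ℝ), (pvjeO (pvxParOf N hN c) (pvnaEngRec N hN c nb) pvilQ m ε z t).Wf ε :=
  pvji_O_rec (pvnr_wf hN c0 nb) ⟨nb, rfl⟩ pvml_wm_Q hm z t

/-- **[O0]** the reference region of the door plug lies in the square of half side `7 q / 2`, `q = δ_m / 40`      (`O₀ = δ_m · pvkgO`, `pvkgO = pvccSq 0 (13/160)`: `pvkgg_O_sq`) -/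
theorem exit_pvj0_O0 (N : PvxNums) (hN : N.Ok) (nb : PvnaNb N) (m : ℕ) : (pvnaInRec N hN c nb).O0 m ⊆ pvccSq 0 (7 * pvge3Q c m / 2) := by
  rw [pvnr_O0]
  have e : pvkgG.O₀ = pvkgO := rfl
  rw [e, pvkgg_O_sq]
  rintro _ ⟨w, hw, rfl⟩
  have hδ := pvlm_Del_pos c m
  have hw' : pvccN (w - 0) < 13 / 160 := hw
  rw [sub_zero] at hw'
  show pvccN (pvthSim 0 (pvlmDel c m) w - 0) < 7 * pvge3Q c m / 2
  unfold pvccN at hw' ⊢
  obtain ⟨h1, h2⟩ := max_lt_iff.1 hw'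
  have e1 : (pvthSim 0 (pvlmDel c m : ℂ) w - 0).re = pvlmDel c m * w.re := by simp [pvthSim]
  have e2 : (pvthSim 0 (pvlmDel c m : ℂ) w - 0).im = pvlmDel c m * w.im := by simp [pvthSim]
  rw [e1, e2, abs_mul, abs_mul, abs_of_pos hδ]
  unfold pvge3Q
  refine max_lt ?_ ?_ <;> nlinarith

/-- the pattern of record fits -/
theorem pvj0_fit (c0 : 0 < c) (N : PvxNums) (hN : N.Ok) {m : ℕ} (hm : (pvxParOf N hN c).m0 ≤ m) (z : ℂ) (t : pvxTau N) :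
    PvkqFit (pvge3Dl c m) (pvge3M (pvxParOf N hN c) m) 4 (pvge3PatO (pvxParOf N hN c) m z t) :=
  pvge3_fit_o (pvqh_lev hN c0 hm) (pvqh_tyOk hN c t) (pvuo_fine hN c0 hm) z

/-- the pattern of record is read in mouth `∪` tile -/
theorem pvj0_win (c0 : 0 < c) (N : PvxNums) (hN : N.Ok) (nb : PvnaNb N) {m : ℕ} (hm : (pvxParOf N hN c).m0 ≤ m) (z : ℂ) (t : pvxTau N) :
    pvkqPatR (pvge3PatO (pvxParOf N hN c) m z t) ⊆ pvj0O (pvnaEngRec N hN c nb) m z t :=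
  pvge3_win_o (pvqh_lev hN c0 hm) (pvqh_tyOk hN c t) (pvuo_fine hN c0 hm) (exit_pvj0_O0 N hN nb m) z

/-- **[Ok, door half]** the two halves `Kb Kw` of the mixed order of the link (disjoint, they contain the rooms of the pattern) and the door half of the contract `mH rH thr loc up` at them
[77 `Tr/FrcDoor` `PvdpEnd` + `pvjp_door_of_end` of 248 (`Kb := black rooms of the pattern ∪ black lane room off the door`, ..);  173 `pvyo_rec_door` = `loc`;  144 `pvo4_o_win` = `rH`;  171 127] -/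
theorem exit_pvj0_door (c0 : 0 < c) (N : PvxNums) (hN : N.Ok) (nb : PvnaNb N) (q₀ : ℝ) {m : ℕ} (hm : (pvxParOf N hN c).m0 ≤ m) (z : ℂ) (t : pvxTau N) {ε : ℝ} (hε : 0 < ε) :
    ∃ Kb Kw : Set ℂ, Disjoint Kb Kw ∧ pvjpRm true (pvge3PatO (pvxParOf N hN c) m z t) ⊆ Kb ∧ pvjpRm false (pvge3PatO (pvxParOf N hN c) m z t) ⊆ Kw ∧
      PvjpDoor (pvjeO (pvxParOf N hN c) (pvnaEngRec N hN c nb) pvilQ m ε z t) ε (pvj0T (pvxParOf N hN c) (pvnaEngRec N hN c nb) q₀ nb.b m z t).ℋ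
        (pvj0T (pvxParOf N hN c) (pvnaEngRec N hN c nb) q₀ nb.b m z t).Cd nb.b Kb Kw :=
  pvwz_door_gen (𝔱 := pvnaT N) (pvnr_num N hN c nb) (fun _ => rfl) (pvna_geo hN) rfl subset_rfl (pvqh_lev hN c0 hm) (pvqh_tyOk hN c t) (pvuo_fine hN c0 hm) (pvnr_O0 N hN c nb m) (pvnr_oK N hN c nb m t) pvilQ z hε

/-- **[Ok]** the tests, probability side      [pattern half: 127 `pvjw_ok`] -/
theorem exit_pvj0_ok (c0 : 0 < c) (N : PvxNums) (hN : N.Ok) (nb : PvnaNb N) (q₀ : ℝ) {m : ℕ} (hm : (pvxParOf N hN c).m0 ≤ m) (z : ℂ) (t : pvxTau N) {ε : ℝ} (hε : 0 < ε)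
    (hW : (pvjeO (pvxParOf N hN c) (pvnaEngRec N hN c nb) pvilQ m ε z t).Wf ε) :
    (pvj0T (pvxParOf N hN c) (pvnaEngRec N hN c nb) q₀ nb.b m z t).Ok (pvjeO (pvxParOf N hN c) (pvnaEngRec N hN c nb) pvilQ m ε z t) ε := by
  obtain ⟨Kb, Kw, hd, hb, hw, hdoor⟩ := exit_pvj0_door c0 N hN nb q₀ hm z t hε
  exact pvjw_ok hdoor hd (pvj0_fit c0 N hN hm z t) (hW.mM.union hW.mK) (hW.bM.union hW.bK) (pvj0_win c0 N hN nb hm z t) subset_rfl hb hw (pvj0Rho (pvxParOf N hN c) m) (pvj0Th (pvxParOf N hN c) q₀ m)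

/-- **[COST]** ONE `q₀`: the soft threshold of the pattern of record fails with small probability      [PROVED: 127 `pvjw_cost`, 298 `pvge3_fit_o pvge3_win_o`] -/
theorem exit_pvj0_cost (c0 : 0 < c) (N : PvxNums) (hN : N.Ok) : ∃ q₀ : ℝ, 0 < q₀ ∧ ∀ (nb : PvnaNb N) (b₀ θ : ℝ≥0∞), θ ≠ 0 → θ ≠ ∞ → ∀ m, (pvxParOf N hN c).m0 ≤ m → ∀ (z : ℂ) (t : pvxTau N),
    PvrgSmall fun ε => (pvayGood2 ε (pvieSh z ((pvnaEngRec N hN c nb).oK m t)) (pvj0T (pvxParOf N hN c) (pvnaEngRec N hN c nb) q₀ b₀ m z t).O (pvj0T (pvxParOf N hN c) (pvnaEngRec N hN c nb) q₀ b₀ m z t).𝒦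
      (pvj0T (pvxParOf N hN c) (pvnaEngRec N hN c nb) q₀ b₀ m z t).t θ)ᶜ := by
  obtain ⟨q₀, h0, -, H⟩ := pvjw_cost
  refine ⟨q₀, h0, fun nb b₀ θ hθ hθ' m hm z t => ?_⟩
  obtain ⟨ε, hW⟩ := (exit_pvj0_wf c0 N hN nb hm z t).exists
  exact H (pvge3M (pvxParOf N hN c) m) 4 (pvge3Dl c m) (pvge3PatO (pvxParOf N hN c) m z t) (pvj0_fit c0 N hN hm z t) (pvj0O (pvnaEngRec N hN c nb) m z t) (hW.mM.union hW.mK) (hW.bM.union hW.bK)
    (pvj0_win c0 N hN nb hm z t) (pvj0Rho (pvxParOf N hN c) m) (pvj0_rho_pos _ hN.msk0 m) (pvieSh z ((pvnaEngRec N hN c nb).oK m t)) hW.mK θ hθ hθ'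

/-- **[DET.ev, the tests]** the contract `PvhpDat.OkT` of 199 at the tests of record: the copy pattern contains the routes of the two RELATIVE colours (88 `pvw8_patRec_rel`, 298 `pvge2_patRec_ev`), the side event is the placed `S⁻` at `pvnaT N` (`rfl`)      [PROVED] -/
theorem exit_pvj0_XT (N : PvxNums) (hN : N.Ok) (nb : PvnaNb N) (q₀ : ℝ) (m : ℕ) (z : ℂ) (t : pvxTau N) :
    (pvhpX (pvxParOf N hN c) (pvnaT N) m z t).OkT (pvxParOf N hN c) m z t (pvj0T (pvxParOf N hN c) (pvnaEngRec N hN c nb) q₀ nb.b m z t) where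
  pat := fun Y κ h β => by
    have h1 : cfOf Y κ ∈ pvkqPat (pvge3Dl c m) (pvge3PatO (pvxParOf N hN c) m z t) := h.1
    have h2 := pvge2_patRec_ev (pvw8_patRec_rel h1) β
    cases β
    · exact h2
    · exact h2
  side := subset_rfl

/-- the mesh of the certificate against the radius of the mouth -/
theorem pvj0_rho80 (c0 : 0 < c) (N : PvxNums) (hN : N.Ok) {m : ℕ} (hm : (pvxParOf N hN c).m0 ≤ m) : 80 * pvj0Rho (pvxParOf N hN c) m ≤ (pvxParOf N hN c).num.rho * pvlmH m := by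
  have h1 := pvuo_fine hN c0 hm
  have h2 : pvilMu (pvxParOf N hN c) m ≤ pvlmDel c m / 1000 := by
    unfold pvilMu
    exact div_le_div_of_nonneg_right (min_le_left _ _) (by norm_num)
  have h3 := pvlm_Del_pos c m
  unfold pvj0Rho
  unfold pvegR at h1
  linarith

/-- **[DET.ev, hull]** a final configuration has the hull of its base      [(b1): 71 297 `pvfc7_fin_o` + numbers at the record;  211] -/
theorem exit_pvj0_hull (c0 : 0 < c) (N : PvxNums) (hN : N.Ok) (nb : PvnaNb N) (q₀ : ℝ) {m : ℕ} (hm : (pvxParOf N hN c).m0 ≤ m) (z : ℂ) (t : pvxTau N) :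
    ∀ᶠ ε in 𝓝[>] (0 : ℝ), ∀ η₀ ∈ pvilUo (pvxParOf N hN c).num ((pvxParOf N hN c).col t) (pvilPin (pvxParOf N hN c) m z t), η₀ ∈ pvj0Mc (pvxParOf N hN c) m z t → CfOK η₀ →
      ∀ η, PvjeFin (pvjeO (pvxParOf N hN c) (pvnaEngRec N hN c nb) pvilQ m ε z t) (pvj0T (pvxParOf N hN c) (pvnaEngRec N hN c nb) q₀ nb.b m z t) η₀ η →
        pvilZo (pvxParOf N hN c) m z t η = pvilZo (pvxParOf N hN c) m z t η₀ := by
  exact Eventually.of_forall fun ε η₀ hU hM _ η hF => (pvj6_carry c0 N hN nb q₀ hm z t ε hU hM hF).2.2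

/-- **[DET.ev, mesh]** a final configuration has the mesh `μ₀` of the window      [(b6): 206 `Exit/MeshW` `pvwu_o pvwu_fin`: base ← `pvj0Mc` (`μ₀/20`), tile ← the mesh clause of the copy pattern (`pvjo_mesh_of`), door ← the side event (R24: `pvna_Hf_mesh`)] -/
theorem exit_pvj0_mesh (c0 : 0 < c) (N : PvxNums) (hN : N.Ok) (nb : PvnaNb N) (q₀ : ℝ) {m : ℕ} (hm : (pvxParOf N hN c).m0 ≤ m) (z : ℂ) (t : pvxTau N) :
    ∀ᶠ ε in 𝓝[>] (0 : ℝ), ∀ η₀ ∈ pvilUo (pvxParOf N hN c).num ((pvxParOf N hN c).col t) (pvilPin (pvxParOf N hN c) m z t), η₀ ∈ pvj0Mc (pvxParOf N hN c) m z t → CfOK η₀ →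
      ∀ η, PvjeFin (pvjeO (pvxParOf N hN c) (pvnaEngRec N hN c nb) pvilQ m ε z t) (pvj0T (pvxParOf N hN c) (pvnaEngRec N hN c nb) q₀ nb.b m z t) η₀ η →
        η ∈ pvilMs (pvxParOf N hN c) m (pvilWno (pvxParOf N hN c) (pvnaEngRec N hN c nb) m ε z t (pvilZo (pvxParOf N hN c) m z t η₀)) := by
  exact Eventually.of_forall fun ε η₀ hU hM hok η hF => pvwu_rec_o N hN (fun _ h => pvna_Hf_mesh N h) c0 nb hm z t ε (T := pvj0T (pvxParOf N hN c) (pvnaEngRec N hN c nb) q₀ nb.b m z t) (ρK := pvj0Rho (pvxParOf N hN c) m) rfl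
    (fun _ h => pvjo_mesh_of h.2) (by unfold pvj0Rho; linarith [pvwu_mu_pos (pvxParOf N hN c) hN.msk0 m]) hM le_rfl hF

/-- **[DET.ev, link]** every final configuration over a certified base with the exit half state carries the plain link `Lo.A`      [PROVED `:= pvj6_link'` of 145 (`Exit/FrcOZ`: `pvo3_link_o` of 26 at `pvhw8_lay` of 71 at the record); wired by 46 15:2xZ; the leaf `exit_pvj0_X` IS GONE;  twin ropes: `pvhj_A_o` of 23 (`Tr/HookYM`)] -/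
theorem exit_pvj0_link (c0 : 0 < c) (N : PvxNums) (hN : N.Ok) (nb : PvnaNb N) (q₀ : ℝ) {m : ℕ} (hm : (pvxParOf N hN c).m0 ≤ m) (z : ℂ) (t : pvxTau N) :
    ∀ᶠ ε in 𝓝[>] (0 : ℝ), ∀ η₀ ∈ pvilUo (pvxParOf N hN c).num ((pvxParOf N hN c).col t) (pvilPin (pvxParOf N hN c) m z t), η₀ ∈ pvj0Mc (pvxParOf N hN c) m z t → CfOK η₀ →
      ∀ η, PvjeFin (pvjeO (pvxParOf N hN c) (pvnaEngRec N hN c nb) pvilQ m ε z t) (pvj0T (pvxParOf N hN c) (pvnaEngRec N hN c nb) q₀ nb.b m z t) η₀ η →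
        η ∈ (pvilLo (pvxParOf N hN c) (pvnaEngRec N hN c nb) m z t).A (pvxParOf N hN c).num ((pvxParOf N hN c).col t) := by
  exact pvj6_link' c0 N hN nb q₀ hm z t

/-- **[DET.ev]** = the three conjuncts of `pvilMo` -/
theorem exit_pvj0_ev (c0 : 0 < c) (N : PvxNums) (hN : N.Ok) (nb : PvnaNb N) (q₀ : ℝ) {m : ℕ} (hm : (pvxParOf N hN c).m0 ≤ m) (z : ℂ) (t : pvxTau N) :
    ∀ᶠ ε in 𝓝[>] (0 : ℝ), ∀ η₀ ∈ pvilUo (pvxParOf N hN c).num ((pvxParOf N hN c).col t) (pvilPin (pvxParOf N hN c) m z t), η₀ ∈ pvj0Mc (pvxParOf N hN c) m z t → CfOK η₀ →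
      ∀ η, PvjeFin (pvjeO (pvxParOf N hN c) (pvnaEngRec N hN c nb) pvilQ m ε z t) (pvj0T (pvxParOf N hN c) (pvnaEngRec N hN c nb) q₀ nb.b m z t) η₀ η →
        η ∈ pvilMo (pvxParOf N hN c) (pvnaEngRec N hN c nb) m ε z t (pvilZo (pvxParOf N hN c) m z t η₀) := by
  filter_upwards [exit_pvj0_link c0 N hN nb q₀ hm z t, exit_pvj0_hull c0 N hN nb q₀ hm z t, exit_pvj0_mesh c0 N hN nb q₀ hm z t] with ε h1 h2 h3 η₀ hU hM hok η hF
  exact ⟨⟨h1 η₀ hU hM hok η hF, h2 η₀ hU hM hok η hF⟩, h3 η₀ hU hM hok η hF⟩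

/-- **[DET.val]** two final configurations which agree on the window have the same plain value      [PROVED by 22: `pvly_rec_tr_o` of `Tr/LinkDet` + DET.ev] -/
theorem exit_pvj0_val (c0 : 0 < c) (N : PvxNums) (hN : N.Ok) (nb : PvnaNb N) (q₀ : ℝ) {m : ℕ} (hm : (pvxParOf N hN c).m0 ≤ m) (z : ℂ) (t : pvxTau N) :
    ∀ᶠ ε in 𝓝[>] (0 : ℝ), ∀ η₀ ∈ pvilUo (pvxParOf N hN c).num ((pvxParOf N hN c).col t) (pvilPin (pvxParOf N hN c) m z t), η₀ ∈ pvj0Mc (pvxParOf N hN c) m z t → CfOK η₀ →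
      ∀ η η', PvjeFin (pvjeO (pvxParOf N hN c) (pvnaEngRec N hN c nb) pvilQ m ε z t) (pvj0T (pvxParOf N hN c) (pvnaEngRec N hN c nb) q₀ nb.b m z t) η₀ η →
        PvjeFin (pvjeO (pvxParOf N hN c) (pvnaEngRec N hN c nb) pvilQ m ε z t) (pvj0T (pvxParOf N hN c) (pvnaEngRec N hN c nb) q₀ nb.b m z t) η₀ η' →
        Conf.restr (pvilWno (pvxParOf N hN c) (pvnaEngRec N hN c nb) m ε z t (pvilZo (pvxParOf N hN c) m z t η₀) ×ˢ (univ : Set Bool)) η =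
          Conf.restr (pvilWno (pvxParOf N hN c) (pvnaEngRec N hN c nb) m ε z t (pvilZo (pvxParOf N hN c) m z t η₀) ×ˢ (univ : Set Bool)) η' →
        (pvilLo (pvxParOf N hN c) (pvnaEngRec N hN c nb) m z t).X (pvxParOf N hN c).num ((pvxParOf N hN c).col t) pvilQ η =
          (pvilLo (pvxParOf N hN c) (pvnaEngRec N hN c nb) m z t).X (pvxParOf N hN c).num ((pvxParOf N hN c).col t) pvilQ η' := by
  filter_upwards [exit_pvj0_ev c0 N hN nb q₀ hm z t] with ε h1 η₀ hU hM hok η η' hF hF' he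
  exact (pvly_rec_tr_o N hN nb c0 hm pvll_wt_Q hF'.nice he (h1 η₀ hU hM hok η hF)).2.1.symm

end leaves

/-! ## 3. the glue -/

section glue

variable {c : ℝ}

/-- a usable candidate carries the exit half state -/
theorem pvj0_U {τ : Type} (𝔓 : PvxPar τ c) (m : ℕ) (z : ℂ) (t : τ) {ω : PVSample} (hω : ω ∈ pvxU 𝔓 m z t) : pvConf ω ∈ pvilUo 𝔓.num (𝔓.col t) (pvilPin 𝔓 m z t) := by
  rw [pvza_U_conf] at hω
  obtain ⟨𝔖, h⟩ := hω
  exact ⟨𝔖, h.out⟩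

theorem pvj0_mc_small {τ : Type} (𝔓 : PvxPar τ c) (h3 : 0 < 𝔓.num.rho3) (m : ℕ) (z : ℂ) (t : τ) : PvrgSmall fun _ => (pvj0Mc 𝔓 m z t)ᶜ :=
  pvrg_mesh_small (pvj0_rho_pos 𝔓 h3 m) Metric.isBounded_closedBall

/-- **THE STATEMENT OF `exit_pvgu_o`** -/
theorem pvj0_exit (c0 : 0 < c) (N : PvxNums) (hN : N.Ok) (𝔈 : PvieEng (pvxTau N)) (hE : PvnaWf (pvxParOf N hN c) 𝔈) (hR : PvnaRec N hN c 𝔈) :
    ∃ q : ℕ → ℝ≥0∞, (∀ m, q m ≠ 0) ∧ ∀ m, (pvxParOf N hN c).m0 ≤ m → ∀ (p : ℤ × ℤ) (t : pvxTau N),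
      PvguFrc (pvxParOf N hN c) m (l9Pt (pvlmH m) p) t fun ε => pvrgFo (pvxParOf N hN c) 𝔈 (q m) m ε (l9Pt (pvlmH m) p) t := by
  obtain ⟨nb, rfl⟩ := hR
  obtain ⟨q₀, hq₀, hcost⟩ := exit_pvj0_cost c0 N hN
  obtain ⟨hb0, hbt⟩ := exit_pvj0_b nb
  have hθ0 : nb.b / 2 ≠ 0 := (ENNReal.half_pos hb0).ne'
  have hθt : nb.b / 2 ≠ ∞ := ENNReal.div_ne_top hbt (by norm_num)
  refine ⟨fun m => pvj0Th (pvxParOf N hN c) q₀ m * (nb.b - nb.b / 2), fun m => ?_, fun m hm p t => ?_⟩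
  · refine mul_ne_zero ?_ ?_
    · unfold pvj0Th
      rw [Ne, ENNReal.ofReal_eq_zero, not_le]
      positivity
    · rw [ENNReal.sub_half hbt]
      exact hθ0
  · refine pvje_cut (pvxParOf N hN c) m (l9Pt (pvlmH m) p) t (E := fun ε => pvjeO (pvxParOf N hN c) (pvnaEngRec N hN c nb) pvilQ m ε (l9Pt (pvlmH m) p) t)
      (T := fun _ => pvj0T (pvxParOf N hN c) (pvnaEngRec N hN c nb) q₀ nb.b m (l9Pt (pvlmH m) p) t) (θ := nb.b / 2) (Mc := fun _ => pvj0Mc (pvxParOf N hN c) m (l9Pt (pvlmH m) p) t) ?_ ?_ ?_ ?_ ?_ ?_ ?_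
    · exact exit_pvj0_wf c0 N hN nb hm _ t
    · filter_upwards [self_mem_nhdsWithin, exit_pvj0_wf c0 N hN nb hm (l9Pt (pvlmH m) p) t] with ε hε hW
      exact exit_pvj0_ok c0 N hN nb q₀ hm _ t hε hW
    · exact Eventually.of_forall fun _ => le_rfl
    · exact hcost nb nb.b (nb.b / 2) hθ0 hθt m hm _ t
    · exact pvj0_mc_small _ hN.msk0 m _ t
    · exact Eventually.of_forall fun _ ω hω => pvj0_U _ m _ t hω
    · filter_upwards [exit_pvj0_ev c0 N hN nb q₀ hm (l9Pt (pvlmH m) p) t, exit_pvj0_val c0 N hN nb q₀ hm (l9Pt (pvlmH m) p) t] with ε h1 h2 η₀ hU hM hok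
      exact ⟨h1 η₀ hU hM hok, h2 η₀ hU hM hok⟩

end glue

end Claimed.Agent.R289
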