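-- KEEP
import Claimed.Agent.R289.Exit.EngU4
import Claimed.Agent.R289.Exit.EngYc
import Claimed.Agent.R289.Exit.ParEngC
import Claimed.Agent.R289.Exit.ParEngZ

/-!
# Row 289 (S0537), THE WALL, ROAD E, file Exit/ParL2 : (Rc) OF RULING 22 AFTER THE CUT U4 OF THE WINDOW OF THE REFERENCE PLUG      (helper285; prefix `pvzhl_`)

THE POINT.   After U4 (84, `Exit/EngU4`) the union `M ∪ K ∪ (zu + rO)` of a special link is NOT the old union: the West half of the ring `rO_old \ rO'` goes to `rK fK`, the East half to `eK`.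
So (Rc) at the engine v3 (L2 of R27) does not follow from (Rc) at the old union: one needs that the COLLAR of the room misses the other half of the ring.   Here: the three lines, ON THE COMPONENT NAMES
(`pvvzCo` of 118, `pveffY` of 182, `pvnuRY pvnuRK pvnuEK pvnuFK pvnuRO` of 84): after L2 each of `exit_pvly_col_e`, `pvet_rce`, `exit_pvjk_ce`, `exit_pvjk_cf` and the collar of `r` is ONE citation (fields of the engine unfold by `rfl`).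
* `pvzhl_split_E`, `pvzhl_split_W` : a point of the old window in the East (West) closed (open) half plane lies in the East (West) half of the ring or in the new window
* **`pvzhl_eY_new`** : OLD room of `e` `⊆ iM ∪ pvnuEK ∪ (zu + pvnuRO)`;   **`pvzhl_e_col`** : (Rc) at `pvvzCo s (old room)`, any `s`;   `pvzhl_e_core` the same in the words `pvtrCore`
* **`pvzhl_fY0_new`** : OUTER room of `f` `⊆ oM ∪ pvnuFK ∪ (zu + pvnuRO)`;   **`pvzhl_f_col`** : (Rc) at `pveffY`, collar `pvefKa = 3δ/1000`;   `pvzhl_f_colMu`, `pvzhl_f_core` : collar `3 μ₀`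
* **`pvzhl_west_new`** : the West half of the block of `u` `⊆ pvnuRK ∪ pvnuRO ∪ door`;   **`pvzhl_r_west`**, **`pvzhl_r_col`**, `pvzhl_r_core` : (Rc) at `pvnuRY` (start `δ/160`: `pvez_RY_collar` of 245 asks `3 μ₀ ≤ δ/400`, FALSE; the direct estimate `3 μ₀ ≤ 3δ/1000 < δ/160` is enough)
-/

set_option autoImplicit false

namespace Claimed.Agent.R289

open Set Metric Complex

/-! ## 1. the ring -/

theorem pvzhl_split_E {O O' : Set ℂ} {w : ℂ} (hw : w ∈ O) (h0 : 0 ≤ w.re) : w ∈ pvnuAE O O' ∪ O' := by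
  by_cases h1 : w ∈ O'
  · exact Or.inr h1
  · exact Or.inl ⟨⟨hw, h1⟩, h0⟩

theorem pvzhl_split_W {O O' : Set ℂ} {w : ℂ} (hw : w ∈ O) (h0 : w.re < 0) : w ∈ pvnuAW O O' ∪ O' := by
  by_cases h1 : w ∈ O'
  · exact Or.inr h1
  · exact Or.inl ⟨⟨hw, h1⟩, h0⟩

section par

variable {τ : Type} {c : ℝ} {𝔓 : PvxPar τ c}

/-! ## 2. the thick link `e` -/

/-- **the OLD room of the thick link lies in the NEW union** -/
theorem pvzhl_eY_new {m : ℕ} {t : τ} (hΓ : 𝔓.Γ m = pvxrGam 𝔓 m) (hL : PvegLev 𝔓 m) (hf : 1000 * pvlmDel c m ≤ 𝔓.num.rho * pvlmH m) (hT : pviwTyOk 𝔓 t) (Z : PvehGeo 𝔓 m t) :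
    pveheY 𝔓 (pvegIM 𝔓) m t ∪ pvegIK 𝔓 m t ⊆ pvegIM 𝔓 m t ∪ pvnuEK 𝔓 m t ∪ pvieSh ((𝔓.Γ m).zu t) (pvnuRO 𝔓 m) := by
  have hΔ := pveh_Dl_pos Z.n0
  intro w hw
  have key : w ∈ pvieSh ((pvxrGam 𝔓 m).zu t) (pvehrO 𝔓 m) → w ∈ pvegIM 𝔓 m t ∪ pvnuEK 𝔓 m t ∪ pvieSh ((𝔓.Γ m).zu t) (pvnuRO 𝔓 m) := by
    intro hO
    have h1 := pvej_eY_front hL hf hT Z hw hO
    rw [hΓ]
    rcases pvzhl_split_E (O' := pvnuRO 𝔓 m) (pveh_mem_sh.1 hO) (by linarith) with h2 | h2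
    · refine Or.inl (Or.inr (Or.inr ?_))
      rw [hΓ]
      exact pveh_mem_sh.2 h2
    · exact Or.inr (pveh_mem_sh.2 h2)
  rcases hw with h | h
  · rcases pveh_eY_sub (Mi := pvegIM 𝔓) (Mo := pvegIM 𝔓) (fun _ _ => subset_rfl) Z.n0 t h with (h1 | h1) | h1
    · exact Or.inl (Or.inl h1)
    · exact Or.inl (Or.inr (Or.inl (Or.inl h1)))
    · exact key h1
  · exact Or.inl (Or.inr (Or.inl (Or.inr h)))

/-- **(Rc) OF THE THICK LINK AFTER U4**, room := open core of 118, any depth -/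
theorem pvzhl_e_col {m : ℕ} {t : τ} (hΓ : 𝔓.Γ m = pvxrGam 𝔓 m) (hL : PvegLev 𝔓 m) (hf : 1000 * pvlmDel c m ≤ 𝔓.num.rho * pvlmH m) (hT : pviwTyOk 𝔓 t) (Z : PvehGeo 𝔓 m t) (s : ℝ) :
    ∀ v ∈ pvvzCo s (pveheY 𝔓 (pvegIM 𝔓) m t ∪ pvegIK 𝔓 m t), closedBall v s ⊆ pvegIM 𝔓 m t ∪ pvnuEK 𝔓 m t ∪ pvieSh ((𝔓.Γ m).zu t) (pvnuRO 𝔓 m) :=
  pvvz_collar (pvzhl_eY_new hΓ hL hf hT Z)

theorem pvzhl_e_core {m : ℕ} {t : τ} (hΓ : 𝔓.Γ m = pvxrGam 𝔓 m) (hL : PvegLev 𝔓 m) (hf : 1000 * pvlmDel c m ≤ 𝔓.num.rho * pvlmH m) (hT : pviwTyOk 𝔓 t) (Z : PvehGeo 𝔓 m t) (s : ℝ) :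
    pvvzCo s (pveheY 𝔓 (pvegIM 𝔓) m t ∪ pvegIK 𝔓 m t) ⊆ pvtrCore s (pvegIM 𝔓 m t ∪ pvnuEK 𝔓 m t ∪ pvieSh ((𝔓.Γ m).zu t) (pvnuRO 𝔓 m)) :=
  pvvz_core (pvzhl_eY_new hΓ hL hf hT Z)

/-! ## 3. the thick return `f` -/

/-- **the OUTER room of the thick return lies in the NEW union** -/
theorem pvzhl_fY0_new {m : ℕ} {t : τ} (hΓ : 𝔓.Γ m = pvxrGam 𝔓 m) (h : PvefNdg 𝔓 m t) :
    pveffY0 𝔓 m t ⊆ pvegOM 𝔓 m t ∪ pvnuFK 𝔓 m t ∪ pvieSh ((𝔓.Γ m).zu t) (pvnuRO 𝔓 m) := by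
  have hΔ := pveh_Dl_pos (pvef_n0 h)
  intro w hw
  rcases pvef_fY0_sub (pvef_n0 h) t hw with (h1 | h1) | h1
  · exact Or.inl (Or.inl h1)
  · exact Or.inl (Or.inr (Or.inl h1))
  · have h2 := pvef_fY0_back h w hw h1
    rw [hΓ]
    rcases pvzhl_split_W (O' := pvnuRO 𝔓 m) (pveh_mem_sh.1 h1) (by linarith) with h3 | h3
    · refine Or.inl (Or.inr (Or.inr ?_))
      rw [hΓ]
      exact pveh_mem_sh.2 h3
    · exact Or.inr (pveh_mem_sh.2 h3)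

/-- **(Rc) OF THE THICK RETURN AFTER U4**, collar `3δ/1000` -/
theorem pvzhl_f_col {m : ℕ} {t : τ} (hΓ : 𝔓.Γ m = pvxrGam 𝔓 m) (h : PvefNdg 𝔓 m t) :
    ∀ v ∈ pveffY 𝔓 m t, closedBall v (pvefKa c m) ⊆ pvegOM 𝔓 m t ∪ pvnuFK 𝔓 m t ∪ pvieSh ((𝔓.Γ m).zu t) (pvnuRO 𝔓 m) :=
  fun _ hv => Subset.trans hv (pvzhl_fY0_new hΓ h)

/-- the same, collar `3 μ₀` -/
theorem pvzhl_f_colMu {m : ℕ} {t : τ} (hΓ : 𝔓.Γ m = pvxrGam 𝔓 m) (h : PvefNdg 𝔓 m t) :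
    ∀ v ∈ pveffY 𝔓 m t, closedBall v (3 * pvilMu 𝔓 m) ⊆ pvegOM 𝔓 m t ∪ pvnuFK 𝔓 m t ∪ pvieSh ((𝔓.Γ m).zu t) (pvnuRO 𝔓 m) :=
  fun v hv => (closedBall_subset_closedBall (pvef_Mu_le m)).trans (pvzhl_f_col hΓ h v hv)

theorem pvzhl_f_core {m : ℕ} {t : τ} (hΓ : 𝔓.Γ m = pvxrGam 𝔓 m) (h : PvefNdg 𝔓 m t) :
    pveffY 𝔓 m t ⊆ pvtrCore (3 * pvilMu 𝔓 m) (pvegOM 𝔓 m t ∪ pvnuFK 𝔓 m t ∪ pvieSh ((𝔓.Γ m).zu t) (pvnuRO 𝔓 m)) := pvzhl_f_colMu hΓ h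

/-! ## 4. the thin link `r` into the reference plug -/

/-- **the West half of the block of the reference plug lies in the NEW union**, whatever the door region -/
theorem pvzhl_west_new (O0 : ℕ → Set ℂ) (m : ℕ) : pvezWest (pvehDl 𝔓 m) ⊆ pvnuRK 𝔓 O0 m ∪ pvnuRO 𝔓 m ∪ pvehDr 𝔓 O0 m := by
  intro w hw
  rcases pvez_west_sub (pvehDr 𝔓 O0 m) (pvehDl 𝔓 m) hw with (h1 | h1) | h1
  · exact Or.inl (Or.inl (Or.inl h1))
  · rcases pvzhl_split_W (O' := pvnuRO 𝔓 m) (show w ∈ pvehrO 𝔓 m from h1) hw.2 with h2 | h2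
    · exact Or.inl (Or.inl (Or.inr h2))
    · exact Or.inl (Or.inr h2)
  · exact Or.inr h1

/-- the collar of the room `pvnuRY` of 84 stays in the West half of the block -/
theorem pvzhl_r_west {m : ℕ} (hn : 0 ≤ pvxrNw 𝔓 m) {v : ℂ} (hv : v ∈ pvnuRY 𝔓 m) : closedBall v (3 * pvilMu 𝔓 m) ⊆ pvezWest (pvehDl 𝔓 m) := by
  have hμ := pvey_mu_le (𝔓 := 𝔓) m
  have hδ := pvlm_Del_pos c m
  have hΔ := pvez_del_le_Dl (𝔓 := 𝔓) hn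
  obtain ⟨a1, a2, a3, a4⟩ := pvnu4_mem_RY.1 hv
  exact pvez_west_collar (by linarith) (by linarith) (by linarith) (by linarith)

/-- **(Rc) OF THE LINK `r` AFTER U4** -/
theorem pvzhl_r_col {m : ℕ} (hn : 0 ≤ pvxrNw 𝔓 m) (O0 : ℕ → Set ℂ) :
    ∀ v ∈ pvnuRY 𝔓 m, closedBall v (3 * pvilMu 𝔓 m) ⊆ pvnuRK 𝔓 O0 m ∪ pvnuRO 𝔓 m ∪ pvehDr 𝔓 O0 m :=
  fun _ hv => (pvzhl_r_west hn hv).trans (pvzhl_west_new O0 m)

/-- the form of 22 / 74: every window which contains the West half -/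
theorem pvzhl_r_core {m : ℕ} (hn : 0 ≤ pvxrNw 𝔓 m) {W : Set ℂ} (hW : pvezWest (pvehDl 𝔓 m) ⊆ W) : pvnuRY 𝔓 m ⊆ pvtrCore (3 * pvilMu 𝔓 m) W :=
  fun _ hv => (pvzhl_r_west hn hv).trans hW

end par

end Claimed.Agent.R289
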