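-- KEEP
import Claimed.Agent.R289.Tr.HookTM
import Claimed.Agent.R289.Tr.LinkME
import Claimed.Agent.R289.Exit.EngYe
import Claimed.Agent.R289.Exit.ParL2

/-!
# Row 289 (S0537), THE WALL, ROAD E, file Exit/FrcTG : THE THICK LINK `e`, REGION FIELDS OF THE LAYOUT RECORD `PvhuLayD` (66, `Tr/HookTM`) AT `pvilLe`      (helper1; prefix `pvjiG_`)

Split of 80 / 66 / 209 (14:16Z .. 14:33Z): **1 = `collar mouth room gm offBox offTip`**, 209 = `mid`.      GENERIC ENGINE `𝔈`: the regions enter by EQUATIONS `hM hK hY hO` (all `rfl` at the engine of record after L2: `pvnr_eM pvnr_eK pvnr_eY pvnr_rO`) or by `PvieEng.Wf`; the scale of the rooms of the half lanes is a FREE NUMBER `sc`.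
* sec. 1  `pvjiG_lane_nb pvjiG_lane_entry pvjiG_lane_exit pvjiG_lanes_nb` : the neighbourhood of lanes lies in wider lanes, behind the first door, beyond the last door      (tools for `mid`)
* sec. 2  `pvjiG_RtR_cons`, **`pvjiG_tail_win`** : the routes of record of 21 (`pvmvPatRec`) WITHOUT THEIR C LEG lie in [rectangle of the funnel from `11 r / 100`] `∪` lanes `∪` cap      (tool for `mid`)
* sec. 3  THE FIELDS, in the words of `PvhuLayD (pvilLe 𝔓 𝔈 m z t) 𝔓.num W Fr (pvilMu 𝔓 m) ..`: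
  **`pvjiG_collar`** (285 `pvzhl_e_col`, shifted)   **`pvjiG_mouth`** (`rs + 4 ρ + μ + Δ / 100 ≤ 5 R / 16`)   **`pvjiG_room`**, **`pvjiG_room_T`** (`Δ / 24 ≤ sc a ≤ Δ / 16`: both `sc = 2 Δ` and `sc = 5 Δ / 2` at `a = 1 / 40`)   **`pvjiG_gm`** (`0 < u`, `8 u < Δ`)
  **`pvjiG_offBox`**, **`pvjiG_offTip`** (ANY engine with `PvieEng.Wf`)
* sec. 4  THE ENGINE LINES OF THE TIP RECORD `PvhuTipD`: **`pvjiG_offK pvjiG_offD pvjiG_MK pvjiG_MD`** (ANY engine with `PvieEng.Wf`), **`pvjiG_ball`** (`eM = pvegIM`, `rs + 4 ρ + 3 μ' ≤ 5 R / 16`)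
-/

set_option autoImplicit false

namespace Claimed.Agent.R289

open Complex Set Metric

/-! ## 1. the neighbourhood of a lane -/

/-- the `r`-neighbourhood (sup norm) of a reference lane lies in the wider lane, behind the entrance door, or beyond the exit door -/
theorem pvjiG_lane_nb {a b a' b' r : ℝ} (ha : a' + r ≤ a) (hb : b + r ≤ b') (τ : PvtTurn) {w w' : ℂ} (hw : w ∈ pvfeLane a b τ) (h : pvccN (w' - w) ≤ r) :
    w' ∈ pvfeLane a' b' τ ∨ w' ∈ pvljRect (-r) 0 a' b' ∨ ∃ x ∈ pvljRect 0 r a' b', w' = τ.mid + τ.rot * x := by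
  obtain ⟨h1, h2⟩ := max_le_iff.1 h
  rw [sub_re, abs_le] at h1
  rw [sub_im, abs_le] at h2
  obtain ⟨a1, a2⟩ := h1
  obtain ⟨b1, b2⟩ := h2
  cases τ with
  | S =>
    obtain ⟨w1, w2, w3, w4⟩ := hw
    by_cases c1 : w'.re < 0
    · exact Or.inr (Or.inl ⟨by linarith, by linarith, by linarith, by linarith⟩)
    by_cases c2 : w'.re ≤ 1
    · exact Or.inl ⟨by linarith, c2, by linarith, by linarith⟩
    · refine Or.inr (Or.inr ⟨w' - 1, ⟨?_, ?_, ?_, ?_⟩, ?_⟩)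
      · simp; linarith
      · simp; linarith
      · simp; linarith
      · simp; linarith
      · simp [PvtTurn.mid, PvtTurn.rot]
  | L =>
    rcases hw with ⟨w1, w2, w3, w4⟩ | ⟨w1, w2, w3, w4⟩
    · by_cases c1 : w'.re < 0
      · exact Or.inr (Or.inl ⟨by linarith, by linarith, by linarith, by linarith⟩)
      · exact Or.inl (Or.inl ⟨by linarith, by linarith, by linarith, by linarith⟩)
    · by_cases c2 : w'.im ≤ 1 / 2
      · exact Or.inl (Or.inr ⟨by linarith, by linarith, by linarith, c2⟩)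
      · refine Or.inr (Or.inr ⟨((w'.im - 1 / 2 : ℝ) : ℂ) + ((1 / 2 - w'.re : ℝ) : ℂ) * I, ⟨?_, ?_, ?_, ?_⟩, ?_⟩)
        · simp; linarith
        · simp; linarith
        · simp; linarith
        · simp; linarith
        · apply Complex.ext <;> simp [PvtTurn.mid, PvtTurn.rot] <;> ring
  | R =>
    rcases hw with ⟨w1, w2, w3, w4⟩ | ⟨w1, w2, w3, w4⟩
    · by_cases c1 : w'.re < 0
      · exact Or.inr (Or.inl ⟨by linarith, by linarith, by linarith, by linarith⟩)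
      · exact Or.inl (Or.inl ⟨by linarith, by linarith, by linarith, by linarith⟩)
    · by_cases c2 : -(1 / 2) ≤ w'.im
      · exact Or.inl (Or.inr ⟨by linarith, by linarith, c2, by linarith⟩)
      · refine Or.inr (Or.inr ⟨((-(1 / 2) - w'.im : ℝ) : ℂ) + ((w'.re - 1 / 2 : ℝ) : ℂ) * I, ⟨?_, ?_, ?_, ?_⟩, ?_⟩)
        · simp; linarith
        · simp; linarith
        · simp; linarith
        · simp; linarith
        · apply Complex.ext <;> simp [PvtTurn.mid, PvtTurn.rot] <;> ring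

/-- the beginning of a lane -/
theorem pvjiG_lane_entry {a' b' r : ℝ} (h1 : r ≤ 1) (h2 : r ≤ 1 / 2 - a') (h3 : r ≤ 1 / 2 + b') (τ : PvtTurn) : pvljRect 0 r a' b' ⊆ pvfeLane a' b' τ := by
  rintro x ⟨x1, x2, x3, x4⟩
  cases τ with
  | S => exact ⟨x1, by linarith, x3, x4⟩
  | L => exact Or.inl ⟨x1, by linarith, x3, x4⟩
  | R => exact Or.inl ⟨x1, by linarith, x3, x4⟩

/-- the end of a lane, in the frame of the exit door -/
theorem pvjiG_lane_exit {a' b' r : ℝ} (h1 : r ≤ 1) (h2 : a' ≤ 1 / 2 - r) (h3 : -(1 / 2) + r ≤ b') (τ : PvtTurn) {x : ℂ} (hx : x ∈ pvljRect (-r) 0 a' b') : τ.mid + τ.rot * x ∈ pvfeLane a' b' τ := by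
  obtain ⟨x1, x2, x3, x4⟩ := hx
  cases τ with
  | S =>
    refine ⟨?_, ?_, ?_, ?_⟩ <;> simp [PvtTurn.mid, PvtTurn.rot] <;> linarith
  | L =>
    refine Or.inr ⟨?_, ?_, ?_, ?_⟩ <;> simp [PvtTurn.mid, PvtTurn.rot] <;> linarith
  | R =>
    refine Or.inr ⟨?_, ?_, ?_, ?_⟩ <;> simp [PvtTurn.mid, PvtTurn.rot] <;> linarith

/-- **the neighbourhood of the lanes of a corridor** lies in the wider lanes, behind the first door, or beyond the last door -/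
theorem pvjiG_lanes_nb {Δ : ℝ} (hΔ : 0 < Δ) (z : ℂ) {d : ℂ} (hd : ‖d‖ = Δ) (l : List PvtTurn) {a b a' b' r : ℝ} (ha : a' + r ≤ a) (hb : b + r ≤ b')
    (h1 : r ≤ 1) (h2 : r ≤ 1 / 2 - a') (h3 : r ≤ 1 / 2 + b') {v v' : ℂ} (hv : v ∈ pvfeLanes a b z d l) (h : ‖v' - v‖ ≤ r * Δ) :
    v' ∈ pvfeLanes a' b' z d l ∨ v' ∈ pvccPl z d (pvljRect (-r) 0 a' b') ∨ v' ∈ pvccPl (pvccZ z d l l.length) (pvccD d l l.length) (pvljRect 0 r a' b') := by
  have hd0 : d ≠ 0 := by rw [← norm_pos_iff, hd]; exact hΔ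
  unfold pvfeLanes at hv
  simp only [mem_iUnion, exists_prop, Finset.mem_range] at hv
  obtain ⟨j, hj, w, hw, rfl⟩ := hv
  have hD0 := pvlj_D_ne hd0 l j
  have hn : ‖pvccD d l j‖ = Δ := by rw [pvfe_norm_frame, hd]
  have mem : ∀ k, k < l.length → ∀ x ∈ pvfeLane a' b' (pvccT l k), pvccZ z d l k + pvccD d l k * x ∈ pvfeLanes a' b' z d l := by
    intro k hk x hx
    unfold pvfeLanes
    simp only [mem_iUnion, exists_prop, Finset.mem_range]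
    exact ⟨k, hk, x, hx, rfl⟩
  set w' := (v' - pvccZ z d l j) / pvccD d l j with hw'
  have e' : v' = pvccZ z d l j + pvccD d l j * w' := by
    rw [hw']; field_simp; ring
  have hN : pvccN (w' - w) ≤ r := by
    have e1 : w' - w = (v' - (pvccZ z d l j + pvccD d l j * w)) / pvccD d l j := by
      rw [hw']; field_simp; ring
    have h4 : ‖w' - w‖ ≤ r := by
      rw [e1, norm_div, hn, div_le_iff₀ hΔ]
      exact h
    exact max_le ((Complex.abs_re_le_norm _).trans h4) ((Complex.abs_im_le_norm _).trans h4)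
  rcases pvjiG_lane_nb ha hb (pvccT l j) hw hN with c1 | c1 | ⟨x, hx, c1⟩
  · rw [e']
    exact Or.inl (mem j hj _ c1)
  · rcases Nat.eq_zero_or_pos j with rfl | hj0
    · rw [pvccZ_zero, pvccD_zero] at e'
      exact Or.inr (Or.inl ⟨w', c1, e'.symm⟩)
    · obtain ⟨k, rfl⟩ : ∃ k, j = k + 1 := ⟨j - 1, by omega⟩
      have hk : k < l.length := by omega
      left
      rw [e', pvccZ_succ z d l hk, pvccD_succ d l hk]
      have := mem k hk _ (pvjiG_lane_exit h1 (by linarith) (by linarith) (pvccT l k) c1)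
      convert this using 1
      ring
  · have e2 : v' = pvccZ z d l (j + 1) + pvccD d l (j + 1) * x := by
      rw [e', c1, pvccZ_succ z d l hj, pvccD_succ d l hj]; ring
    by_cases hj1 : j + 1 < l.length
    · rw [e2]
      exact Or.inl (mem (j + 1) hj1 _ (pvjiG_lane_entry h1 h2 h3 _ hx))
    · have : j + 1 = l.length := by omega
      rw [this] at e2
      exact Or.inr (Or.inr ⟨x, hx, e2.symm⟩)

/-! ## 2. the window of the arms and of the middle legs of the pattern of record of 21 -/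

theorem pvjiG_RtR_cons (e : Set ℂ × ℂ × ℂ) (ℓ : List (Set ℂ × ℂ × ℂ)) : pvkqRtR (e :: ℓ) = e.1 ∪ pvkqRtR ℓ := by
  ext v
  simp only [pvkqRtR, List.mem_cons, mem_iUnion, mem_ofPred_eq, exists_prop, mem_union]
  constructor
  · rintro ⟨x, (rfl | hx), hv⟩
    · exact Or.inl hv
    · exact Or.inr ⟨x, hx, hv⟩
  · rintro (hv | ⟨x, hx, hv⟩)
    · exact ⟨e, Or.inl rfl, hv⟩
    · exact ⟨x, Or.inr hx, hv⟩

section tail

variable {Y u : ℂ} {up : Bool} {z d : ℂ} {l : List PvtTurn} {r Δ ρ b μ Sc lam : ℝ}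

/-- **THE WINDOW OF THE ROUTES WITHOUT THEIR C-SHAPES**: a rectangle of the funnel which begins at `11 r / 100` in front of the centre of the mouth `∪` lanes of the blocks `∪` the same lane in the block of the plug -/
theorem pvjiG_tail_win (G : PvmvGeo Y u up z d l Δ (Sc - Δ / 2) lam (21 / 64)) (R : PvmvRec r Δ ρ b μ Sc lam) (c : Bool) :
    ∀ x ∈ pvmvPatRec Y u up c r Δ Sc lam z d l, pvkqRtR x.2.tail ⊆ pvge2R Y u up (11 * r / 100) (Sc - Δ / 2) (-(33 * r / 200)) (33 * r / 200) ∪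
      (pvfeLanes (-(23 / 256)) (23 / 256) z d l ∪ pvccPl z d (pvljRect (-(21 / 64)) 0 (-(23 / 256)) (23 / 256))) := by
  have h1 := R.r0; have h2 := R.Δ0; have h3 := R.Δhi; have h4 := R.Δlo; have h8 := R.s_lo; have h9 := abs_le.1 R.lat
  have lo : ∀ (sd : Bool) (g : ℝ), 0 ≤ g → -(23 / 256) ≤ pvmvLo sd g (23 / 256) := fun sd g hg => by cases sd <;> simp only [pvmvLo, if_true, Bool.false_eq_true, if_false] <;> linarith
  have hi : ∀ (sd : Bool) (g : ℝ), 0 ≤ g → pvmvHi sd g (23 / 256) ≤ 23 / 256 := fun sd g hg => by cases sd <;> simp only [pvmvHi, if_true, Bool.false_eq_true, if_false] <;> linarith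
  have hcor : ∀ (sd : Bool) (lm : ℝ), PvmvGeo Y u sd z d l Δ (Sc - Δ / 2) lm (21 / 64) → |lm| ≤ r / 1000 → ∀ v, v ∈ pvmvLeg (!sd) (19 / 256) (23 / 256) (21 / 64) (51 / 100) z d l ∪ pvmvBar (!sd) (23 / 256) (51 / 160) (1 / 128) (1 / 100) z d →
      (29 * r / 200 ≤ pvge2S Y u v ∧ pvge2S Y u v ≤ Sc - Δ / 2 ∧ 0 ≤ pvge2T Y u sd v ∧ pvge2T Y u sd v ≤ 33 * r / 200) ∨
        v ∈ pvfeLanes (-(23 / 256)) (23 / 256) z d l ∪ pvccPl z d (pvljRect (-(21 / 64)) 0 (-(23 / 256)) (23 / 256)) := by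
    intro sd lm G' hlm v hv
    have hl9 := abs_le.1 hlm
    rcases hv with ((hv | hv) | hv) | hv
    · exact Or.inr (Or.inr (pvccPl_mono _ _ (pvlj_rect_mono le_rfl le_rfl (lo _ _ (by norm_num)) (hi _ _ (by norm_num))) hv))
    · exact Or.inr (Or.inl (pvlj_lanes_mono (lo _ _ (by norm_num)) (hi _ _ (by norm_num)) _ _ _ hv))
    · obtain ⟨q1, q2, q3, q4⟩ := G'.cap hv
      exact Or.inl ⟨by linarith, by linarith, by linarith [hl9.1], by linarith [hl9.2]⟩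
    · exact Or.inr (Or.inr (pvccPl_mono _ _ (pvlj_rect_mono (by norm_num) (by norm_num) (lo _ _ (by norm_num)) (hi _ _ (by norm_num))) hv))
  intro x hx v hv
  simp only [pvmvPatRec, pvmvPat, List.mem_cons, List.not_mem_nil, or_false] at hx
  rcases hx with rfl | rfl
  · simp only [pvge2LegsO, List.cons_append, List.nil_append, List.tail_cons] at hv
    rw [pvjiG_RtR_cons, pvmv_mid_R] at hv
    rcases hv with hv | (((hv | hv) | hv) | hv)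
    · exact Or.inl (pvge2_R_mono (by linarith) (by linarith) (by linarith) (by linarith) hv)
    · exact Or.inl (pvge2_R_mono (by linarith) (by linarith) (by linarith) (by linarith) hv)
    · exact Or.inl (pvge2_R_mono (by linarith) (by linarith) (by linarith [h9.1]) (by linarith) hv)
    · rcases hcor up lam G R.lat v (Or.inl hv) with ⟨q1, q2, q3, q4⟩ | h
      · exact Or.inl ⟨by linarith, q2, by linarith, q4⟩
      · exact Or.inr h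
    · rcases hcor up lam G R.lat v (Or.inr hv) with ⟨q1, q2, q3, q4⟩ | h
      · exact Or.inl ⟨by linarith, q2, by linarith, q4⟩
      · exact Or.inr h
  · simp only [pvge2LegsO, List.cons_append, List.nil_append, List.tail_cons] at hv
    rw [pvjiG_RtR_cons, pvmv_mid_R] at hv
    rcases hv with hv | (((hv | hv) | hv) | hv)
    · have hv' : v ∈ pvge2R Y u (!up) (23 * r / 200 - r / 200) (3 * r / 20 + r / 200) (4 * r / 25 - r / 200) (4 * r / 25 + r / 200) := hv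
      rw [pvge2_R_flip] at hv'
      exact Or.inl (pvge2_R_mono (by linarith) (by linarith) (by linarith) (by linarith) hv')
    · unfold pvmvRH at hv
      rw [pvge2_R_flip] at hv
      exact Or.inl (pvge2_R_mono (by linarith) (by linarith) (by linarith) (by linarith) hv)
    · unfold pvmvRV at hv
      rw [pvge2_R_flip] at hv
      exact Or.inl (pvge2_R_mono (by linarith) (by linarith) (by linarith) (by linarith [h9.2]) hv)
    · rcases hcor (!up) (-lam) G.flip R.flip.lat v (Or.inl hv) with ⟨q1, q2, q3, q4⟩ | h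
      · rw [pvge2_T_flip] at q3 q4
        exact Or.inl ⟨by linarith, q2, by linarith, by linarith⟩
      · exact Or.inr h
    · rcases hcor (!up) (-lam) G.flip R.flip.lat v (Or.inr hv) with ⟨q1, q2, q3, q4⟩ | h
      · rw [pvge2_T_flip] at q3 q4
        exact Or.inl ⟨by linarith, q2, by linarith, by linarith⟩
      · exact Or.inr h

end tail


/-! ## 3. the fields -/

section fields

variable {τ : Type} {c : ℝ} {𝔓 : PvxPar τ c} {𝔈 : PvieEng τ} {m : ℕ} {t : τ}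

theorem pvjiG_mu_eq (𝔓 : PvxPar τ c) (m : ℕ) : pvilMu 𝔓 m = pviwMu 𝔓 m := rfl

/-- `μ ≤ Δ / 1000` -/
theorem pvjiG_mu_Dl (h : PvxrNdg 𝔓 m t) : pviwMu 𝔓 m ≤ pvehDl 𝔓 m / 1000 := by
  have h1 := pvey_mu_le (𝔓 := 𝔓) m
  have h3 := pveh_Del_le_Dl (𝔓 := 𝔓) (pvxr_geo h).n0
  rw [pvjiG_mu_eq] at h1
  linarith

theorem pvjiG_fine (h : PvxrNdg 𝔓 m t) : 1000 * pvlmDel c m ≤ 𝔓.num.rho * pvlmH m := by
  obtain ⟨-, -, D3⟩ := pvef_Dl_bounds h
  have h2 := pvlm_Del_pos c m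
  unfold pvegR at D3
  linarith

/-- **FIELD `collar`** = (Rc) of RULING 22 -/
theorem pvjiG_collar (hΓ : 𝔓.Γ m = pvxrGam 𝔓 m) (hL : PvegLev 𝔓 m) (hT : pviwTyOk 𝔓 t) (h : PvxrNdg 𝔓 m t) (hM : 𝔈.eM m t = pvegIM 𝔓 m t) (hK : 𝔈.eK m t = pvnuEK 𝔓 m t) (hY : 𝔈.eY m t = pvvzEY 𝔓 m t)
    (hO : 𝔈.rO m = pvnuRO 𝔓 m) (z : ℂ) :
    ∀ v ∈ (pvilLe 𝔓 𝔈 m z t).Yin, closedBall v (3 * pvilMu 𝔓 m) ⊆ pvieSh z (𝔈.eM m t) ∪ pvieSh z (𝔈.eK m t) ∪ pvieSh (pvieZu 𝔓 m z t) (𝔈.rO m) := by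
  rintro _ ⟨v, hv, rfl⟩ w hw
  rw [hY] at hv
  have hw' : w - z ∈ closedBall v (3 * pviwMu 𝔓 m) := by
    rw [mem_closedBall, dist_eq_norm] at hw ⊢
    rwa [show w - z - v = w - (z + v) by ring]
  rw [hM, hK, hO]
  rcases pvzhl_e_col hΓ hL (pvjiG_fine h) hT (pvxr_geo h) _ v hv hw' with (q | q) | ⟨x, hx, e⟩
  · exact Or.inl (Or.inl ⟨w - z, q, by ring⟩)
  · exact Or.inl (Or.inr ⟨w - z, q, by ring⟩)
  · refine Or.inr ⟨x, hx, ?_⟩
    show z + (𝔓.Γ m).zu t + x = w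
    have e' : (𝔓.Γ m).zu t + x = w - z := e
    rw [add_assoc, e']
    ring

/-- **FIELD `mouth`**: the small mouth with its collar lies in the room -/
theorem pvjiG_mouth (hΓ : 𝔓.Γ m = pvxrGam 𝔓 m) (hL : PvegLev 𝔓 m) (hT : pviwTyOk 𝔓 t) (h : PvxrNdg 𝔓 m t) (hY : 𝔈.eY m t = pvvzEY 𝔓 m t) (z : ℂ) {r : ℝ} (hr : r + pvehDl 𝔓 m / 100 ≤ 5 * pvegR 𝔓 m / 16) :
    closedBall ((𝔓.ty t).cm (pvlmH m) z) r ⊆ (pvilLe 𝔓 𝔈 m z t).Yin := by
  intro w hw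
  show w ∈ pvieSh z (𝔈.eY m t)
  rw [hY]
  have hμ := pvjiG_mu_Dl h
  have hΔ := pveh_Dl_pos (𝔓 := 𝔓) (pvxr_geo h).n0
  refine pvvz_Ie_eY_sh hΓ hL hT h (s := 1 / 100) (r := 0) (by norm_num) (by norm_num) (by linarith) z (v := w) ?_ (mem_closedBall_self le_rfl)
  refine pvvz_Ie_ball (ρ' := r) (by linarith) t ?_
  rw [mem_closedBall, dist_eq_norm] at hw ⊢
  rwa [show w - z - pvegYm 𝔓 m t = w - (𝔓.ty t).cm (pvlmH m) z by unfold PvwTy.cm pvegYm; ring]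

/-- **FIELD `room`**: the rooms of the two half lanes of the exit side of the reference plug (truncation `pvhfT a`, scale `sc`: unit `sc a`) lie `μ`-deep in the room -/
theorem pvjiG_room (hΓ : 𝔓.Γ m = pvxrGam 𝔓 m) (hL : PvegLev 𝔓 m) (hT : pviwTyOk 𝔓 t) (h : PvxrNdg 𝔓 m t) (hY : 𝔈.eY m t = pvvzEY 𝔓 m t) (z : ℂ) {sc a : ℝ} (hsc : 0 < sc)
    (h1 : pvehDl 𝔓 m / 24 ≤ sc * a) (h2 : sc * a ≤ pvehDl 𝔓 m / 16) {Ln : Bool → Set ℂ} (hLn : ∀ β, Ln β ⊆ pvkdRect true (a / 2) (5 * a) (-(3 * a / 2)) (3 * a / 2)) :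
    ∀ β, ∀ w ∈ pvkdAt (pvieZu 𝔓 m z t) (1 * (sc : ℝ)) (Ln β), closedBall w (pvilMu 𝔓 m) ⊆ (pvilLe 𝔓 𝔈 m z t).Yin := by
  rintro β _ ⟨x, hx, rfl⟩
  show _ ⊆ pvieSh z (𝔈.eY m t)
  rw [hY]
  have hμ := pvjiG_mu_Dl h
  have hΔ := pveh_Dl_pos (𝔓 := 𝔓) (pvxr_geo h).n0
  obtain ⟨x1, x2, x3, x4⟩ : x ∈ rswRect (a / 2) (5 * a) (-(3 * a / 2)) (3 * a / 2) := by
    have := hLn β hx
    rwa [pvkdRect, if_pos rfl] at this
  have e : pvthSim (pvieZu 𝔓 m z t) (1 * (sc : ℝ)) x - z - (pvxrGam 𝔓 m).zu t = (sc : ℂ) * x := by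
    unfold pvthSim pvieZu
    rw [hΓ]
    ring
  have m1 := mul_le_mul_of_nonneg_left x1 hsc.le
  have m2 := mul_le_mul_of_nonneg_left x2 hsc.le
  have m3 := mul_le_mul_of_nonneg_left x3 hsc.le
  have m4 := mul_le_mul_of_nonneg_left x4 hsc.le
  refine pvvz_Ie_eY_sh hΓ hL hT h (s := 1 / 200) (by norm_num) (by norm_num) (by rw [pvjiG_mu_eq]; linarith) z (pvvz_Ie_plug hΔ ?_ ?_ ?_ ?_)
  · rw [e, re_ofReal_mul]; linarith
  · rw [e, re_ofReal_mul]; linarith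
  · rw [e, im_ofReal_mul]; linarith
  · rw [e, im_ofReal_mul]; linarith

/-- **FIELD `room`, IN THE WORDS OF `PvetDet`** (truncation of record `pvhfT pvkgG.a`, `pvkgG.a = 1 / 40`): any scale `5 Δ / 3 ≤ sc ≤ 5 Δ / 2` (`pvurS = 2 Δ` of U4, `pvetSc = 5 Δ / 2` before) -/
theorem pvjiG_room_T (hΓ : 𝔓.Γ m = pvxrGam 𝔓 m) (hL : PvegLev 𝔓 m) (hT : pviwTyOk 𝔓 t) (h : PvxrNdg 𝔓 m t) (hY : 𝔈.eY m t = pvvzEY 𝔓 m t) (z : ℂ) {sc : ℝ}
    (h1 : 5 * pvehDl 𝔓 m / 3 ≤ sc) (h2 : sc ≤ 5 * pvehDl 𝔓 m / 2) :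
    ∀ β, ∀ w ∈ pvkdAt (pvieZu 𝔓 m z t) (1 * (sc : ℝ)) ((pvhfT pvkgG.a).Ln true β), closedBall w (pvilMu 𝔓 m) ⊆ (pvilLe 𝔓 𝔈 m z t).Yin := by
  have hΔ := pveh_Dl_pos (𝔓 := 𝔓) (pvxr_geo h).n0
  have ha : pvkgG.a = 1 / 40 := rfl
  exact pvjiG_room hΓ hL hT h hY z (a := pvkgG.a) (by linarith) (by rw [ha]; linarith) (by rw [ha]; linarith) (fun β => pvhf_T_box (by rw [ha]; norm_num) true β)

/-- **FIELD `gm`**: the room of `g⁻` of the reference plug is off the room of the link -/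
theorem pvjiG_gm (hΓ : 𝔓.Γ m = pvxrGam 𝔓 m) (hL : PvegLev 𝔓 m) (hT : pviwTyOk 𝔓 t) (h : PvxrNdg 𝔓 m t) (h0 : 0 ≤ pviwMu 𝔓 m) (hY : 𝔈.eY m t = pvvzEY 𝔓 m t) (z : ℂ) (hu : 0 < pvilRu 𝔈 m) (hu8 : 8 * pvilRu 𝔈 m < pvehDl 𝔓 m) :
    ∀ w ∈ pvkdAt (pvilLe 𝔓 𝔈 m z t).p.z (pvilLe 𝔓 𝔈 m z t).p.fr (pvkdP (pvilLe 𝔓 𝔈 m z t).p.h).Zm, w ∉ (pvilLe 𝔓 𝔈 m z t).Yin := by
  rintro _ ⟨x, hx, rfl⟩ ⟨v, hv, e⟩
  obtain ⟨x1, x2, x3, x4⟩ : x ∈ rswRect (-(2 * pvilRu 𝔈 m)) (-(pvilRu 𝔈 m / 2)) (-(pvilRu 𝔈 m / 2)) (pvilRu 𝔈 m / 2) := hx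
  rw [hY] at hv
  have hΔ := pveh_Dl_pos (𝔓 := 𝔓) (pvxr_geo h).n0
  have e' : v = (pvxrGam 𝔓 m).zu t + x := by
    have e2 : z + v = z + (𝔓.Γ m).zu t + 1 * x := e
    rw [hΓ] at e2
    linear_combination e2
  have hxO : x ∈ pvehrO 𝔓 m := by
    show max |(x - 0).re| |(x - 0).im| < pvehDl 𝔓 m / 4
    rw [sub_zero]
    exact max_lt (abs_lt.2 ⟨by linarith, by linarith⟩) (abs_lt.2 ⟨by linarith, by linarith⟩)
  have := pvvz_eY_front (by linarith) hL (pvjiG_fine h) hT (pvxr_geo h) hv ⟨x, hxO, e'.symm⟩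
  rw [e', add_sub_cancel_left] at this
  linarith

/-- the disc of the gate of the reference plug lies in the region of the plug -/
theorem pvjiG_disc {m0 : ℕ} {Cth : ℝ} {r κs : ℕ → ℝ} (H : PvieEng.Wf 𝔓 𝔈 m0 Cth r κs) (hm : m0 ≤ m) (z : ℂ) (t : τ) :
    ball (pvilLe 𝔓 𝔈 m z t).p.z (pvkdP (pvilLe 𝔓 𝔈 m z t).p.h).b ⊆ pvieSh z (pviwRo 𝔓 𝔈 m t) := by
  intro w hw
  have hu := H.rp_h m hm
  have hw' : ‖w - pvieZu 𝔓 m z t‖ < 2 * (𝔈.rp m).h := by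
    rw [mem_ball, dist_eq_norm] at hw
    exact hw
  refine ⟨(𝔓.Γ m).zu t + (w - pvieZu 𝔓 m z t), ⟨w - pvieZu 𝔓 m z t, H.rp_win m hm ⟨?_, ?_⟩, rfl⟩, ?_⟩
  · rw [sub_zero]; exact ((abs_re_le_norm _).trans hw'.le).trans (by linarith)
  · rw [sub_zero]; exact ((abs_im_le_norm _).trans hw'.le).trans (by linarith)
  · show z + ((𝔓.Γ m).zu t + (w - (z + (𝔓.Γ m).zu t))) = w
    ring

/-- **FIELD `offBox`**, ANY engine of the contract -/
theorem pvjiG_offBox {m0 : ℕ} {Cth : ℝ} {r κs : ℕ → ℝ} (H : PvieEng.Wf 𝔓 𝔈 m0 Cth r κs) (hm : m0 ≤ m) (hT : pviwTyOk 𝔓 t) (z : ℂ) :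
    Disjoint (ball (pvilLe 𝔓 𝔈 m z t).p.z (pvkdP (pvilLe 𝔓 𝔈 m z t).p.h).b) (pvhaBx 𝔓.num (pvilLe 𝔓 𝔈 m z t).p') := by
  rw [disjoint_left]
  intro w hw hb
  obtain ⟨v, hv, rfl⟩ := pvjiG_disc H hm z t hw
  have hd : Disjoint (pviwRo 𝔓 𝔈 m t) (pviwBox 𝔓 m t) := H.res_off m hm 0 t hT _ (by simp [pviwRes])
  refine disjoint_left.1 hd hv ?_
  have hb' : (starRingEnd ℂ) 1 * (z + v) ∈ pvwSq ((starRingEnd ℂ) 1 * z) (pviwRad 𝔓 m t) := hb
  rw [map_one, one_mul, one_mul] at hb'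
  obtain ⟨b1, b2⟩ := hb'
  rw [add_sub_cancel_left] at b1 b2
  have hδ := pvlm_Del_pos c m
  exact ⟨by rw [sub_zero]; linarith, by rw [sub_zero]; linarith⟩

/-- **FIELD `offTip`**, ANY engine of the contract -/
theorem pvjiG_offTip {m0 : ℕ} {Cth : ℝ} {r κs : ℕ → ℝ} (H : PvieEng.Wf 𝔓 𝔈 m0 Cth r κs) (hm : m0 ≤ m) (hT : pviwTyOk 𝔓 t) (hρ : 0 < 𝔓.num.rho) (z : ℂ) :
    Disjoint (ball (pvilLe 𝔓 𝔈 m z t).p.z (pvkdP (pvilLe 𝔓 𝔈 m z t).p.h).b) (pvilLe 𝔓 𝔈 m z t).p'.cm := by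
  rw [disjoint_left]
  intro w hw hb
  obtain ⟨v, hv, rfl⟩ := pvjiG_disc H hm z t hw
  obtain ⟨x, hx, e⟩ : z + v ∈ pvxPl z (pvlmH m) (𝔓.cm t) := hb
  have e' : v = (pvlmH m : ℂ) * x := by
    have e2 : z + (pvlmH m : ℂ) * x = z + v := e
    linear_combination -e2
  have hM : v ∈ 𝔈.eM m t := by
    rw [e']
    exact H.eM_tip m hm t hT x hx (mem_ball_self (by have := pvlm_H_pos m; positivity))
  have hd : Disjoint (𝔈.eM m t) (pviwRo 𝔓 𝔈 m t) := by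
    have := H.th_disj m hm t hT
    simp only [List.pairwise_cons, List.mem_cons, List.not_mem_nil, or_false, forall_eq_or_imp, forall_eq] at this
    exact this.1.2.2.2
  exact disjoint_left.1 hd hM hv

/-! ## 4. the engine lines of the tip record `PvhuTipD` -/

/-- **FIELD `offK` of `PvhuTipD`**, ANY engine of the contract -/
theorem pvjiG_offK {m0 : ℕ} {Cth : ℝ} {r κs : ℕ → ℝ} (H : PvieEng.Wf 𝔓 𝔈 m0 Cth r κs) (hm : m0 ≤ m) (hT : pviwTyOk 𝔓 t) : Disjoint (𝔈.eK m t) (pviwBox 𝔓 m t) :=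
  H.res_off m hm 0 t hT _ (by simp [pviwRes])

/-- **FIELD `offD` of `PvhuTipD`**, ANY engine of the contract -/
theorem pvjiG_offD {m0 : ℕ} {Cth : ℝ} {r κs : ℕ → ℝ} (H : PvieEng.Wf 𝔓 𝔈 m0 Cth r κs) (hm : m0 ≤ m) (hT : pviwTyOk 𝔓 t) : Disjoint (pviwRo 𝔓 𝔈 m t) (pviwBox 𝔓 m t) :=
  H.res_off m hm 0 t hT _ (by simp [pviwRes])

theorem pvjiG_sh_disj {A B : Set ℂ} (h : Disjoint A B) (z : ℂ) : Disjoint (pvieSh z A) (pvieSh z B) := by
  rw [disjoint_left]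
  rintro _ ⟨a, ha, rfl⟩ ⟨b, hb, e⟩
  have e' : z + b = z + a := e
  exact disjoint_left.1 h ha (add_left_cancel e' ▸ hb)

/-- **FIELD `MK` of `PvhuTipD`**, ANY engine of the contract -/
theorem pvjiG_MK {m0 : ℕ} {Cth : ℝ} {r κs : ℕ → ℝ} (H : PvieEng.Wf 𝔓 𝔈 m0 Cth r κs) (hm : m0 ≤ m) (hT : pviwTyOk 𝔓 t) (z : ℂ) : Disjoint (pvieSh z (𝔈.eM m t)) (pvieSh z (𝔈.eK m t)) := by
  have := H.th_disj m hm t hT
  simp only [List.pairwise_cons, List.mem_cons, List.not_mem_nil, or_false, forall_eq_or_imp, forall_eq] at this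
  exact pvjiG_sh_disj this.1.1 z

/-- **FIELD `MD` of `PvhuTipD`**, ANY engine of the contract -/
theorem pvjiG_MD {m0 : ℕ} {Cth : ℝ} {r κs : ℕ → ℝ} (H : PvieEng.Wf 𝔓 𝔈 m0 Cth r κs) (hm : m0 ≤ m) (hT : pviwTyOk 𝔓 t) (z : ℂ) : Disjoint (pvieSh z (𝔈.eM m t)) (pvieSh (pvieZu 𝔓 m z t) (𝔈.rO m)) := by
  have := H.th_disj m hm t hT
  simp only [List.pairwise_cons, List.mem_cons, List.not_mem_nil, or_false, forall_eq_or_imp, forall_eq] at this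
  have h2 := pvjiG_sh_disj this.1.2.2.2 z
  refine h2.mono_right ?_
  rintro _ ⟨x, hx, rfl⟩
  exact ⟨(𝔓.Γ m).zu t + x, ⟨x, hx, rfl⟩, (add_assoc _ _ _).symm⟩

/-- **FIELD `ball` of `PvhuTipD`** -/
theorem pvjiG_ball (hM : 𝔈.eM m t = pvegIM 𝔓 m t) (z : ℂ) {r : ℝ} (hr : r ≤ 5 * pvegR 𝔓 m / 16) : closedBall ((𝔓.ty t).cm (pvlmH m) z) r ⊆ pvieSh z (𝔈.eM m t) := by
  intro w hw
  rw [hM]
  refine ⟨w - z, ?_, by ring⟩
  show w - z ∈ closedBall (pvegYm 𝔓 m t) (5 * pvegR 𝔓 m / 16)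
  rw [mem_closedBall, dist_eq_norm] at hw ⊢
  rw [show w - z - pvegYm 𝔓 m t = w - (𝔓.ty t).cm (pvlmH m) z by unfold PvwTy.cm pvegYm; ring]
  linarith

end fields

end Claimed.Agent.R289
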