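-- KEEP
import Claimed.Agent.R289.Tr.LinkME
import Claimed.Agent.R289.Exit.EngYe
import Claimed.Agent.R289.Tr.InstL
import Claimed.Agent.R289.Tr.HookTD

/-!
# Row 289 (S0537, Cardy for Poisson-Voronoi), THE WALL, ROAD E, file Exit/FrcTM : THE FIELD `mid` OF `PvhuLay` (66, `Tr/HookTA`) AT THE THICK LINK `e`      (helper209; prefix `pveb_`)

The routes of the pattern of record `pvmvPatE 𝔓 m z t up cl` of 21 (`Tr/LinkME`) are listed FROM THE TIP: `legC :: legN :: mid legs`.   The field `mid` speaks of the TAIL `legN :: mid legs` of each route: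
every point `w` of the tail is DEEP IN THE ROOM (`closedBall w (2 μ) ⊆ z + eY`, `eY = pvvzEY` of 118 = room of the engine v3) and its `μ`-ball is FRESH (`⊆ (z + eM) ∪ (z + eK)`, off the own-level box; `eM = pvegIM`, `eK = pvnuEK` of 84).
* sec. 1 (model free)  `pveb_tail_R`, **`pveb_tail_win`** : the tail lies in ONE rectangle of the funnel `[11 r/100, Sc - Δ/2] × [-33 r/200, 33 r/200]`, the lanes `[-23/256, 23/256]` of the blocks, the cap `[-21/64, 0]` behind the first door;   `pveb_tail_S` : `11 r/100 ≤ S` on the tail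
* sec. 2 (model)  `pveb_fun_ball` (funnel: ball in mouth and funnel tile), `pveb_old_tile` (OLD room off the NEW region of the plug lies in mouth and tile of U4), `pveb_off_box`
* sec. 3  **`pveb_mid_in`** (tail in the inner room `pvvzIe 𝔓 (1/100)` of 118), **`pveb_mid_fr`** (ball `Δ/128` fresh), **`pveb_mid_e`** = the field, in the words of `PvhuLay.mid`, for the regions of L2;   `pveb_mid_eng` : the same for ANY engine with the three lines `eY eM eK`.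
-/

set_option autoImplicit false
set_option linter.unusedSectionVars false
set_option linter.unusedVariables false

namespace Claimed.Agent.R289

open Set Metric Complex

/-! ## 1. the tail of a route of the pattern of record (model free) -/

/-- the region of the tail of a route `legs of the arm ++ M` -/
theorem pveb_tail_R (Y u : ℂ) (sd : Bool) (a t e₁ s₁ x₂ : ℝ) (M : List (Set ℂ × ℂ × ℂ)) :
    pvkqRtR (pvge2LegsO Y u sd a t e₁ s₁ x₂ ++ M).tail = pvge2RN Y u sd a t s₁ x₂ ∪ pvkqRtR M := by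
  show pvkqRtR ([(pvge2RN Y u sd a t s₁ x₂, pvge2P Y u sd s₁ a, pvge2P Y u sd x₂ a)] ++ M) = _
  rw [pvmv_RtR_append]
  congr 1
  ext v
  simp [pvkqRtR]

section recd

variable {Y u : ℂ} {up : Bool} {z d : ℂ} {l : List PvtTurn} {r Δ ρ b μ Sc lam : ℝ}

/-- **THE WINDOW OF THE TAILS OF THE PATTERN OF RECORD** -/
theorem pveb_tail_win (G : PvmvGeo Y u up z d l Δ (Sc - Δ / 2) lam (21 / 64)) (R : PvmvRec r Δ ρ b μ Sc lam) (c : Bool) :
    ∀ x ∈ pvmvPatRec Y u up c r Δ Sc lam z d l, pvkqRtR x.2.tail ⊆ pvge2R Y u up (11 * r / 100) (Sc - Δ / 2) (-(33 * r / 200)) (33 * r / 200) ∪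
      (pvfeLanes (-(23 / 256)) (23 / 256) z d l ∪ pvccPl z d (pvljRect (-(21 / 64)) 0 (-(23 / 256)) (23 / 256))) := by
  have h1 := R.r0; have h2 := R.Δ0; have h3 := R.Δhi; have h4 := R.Δlo; have h8 := R.s_lo; have h9 := abs_le.1 R.lat
  have lo : ∀ (sd : Bool) (g : ℝ), 0 ≤ g → -(23 / 256) ≤ pvmvLo sd g (23 / 256) := fun sd g hg => by cases sd <;> simp only [pvmvLo, if_true, Bool.false_eq_true, if_false] <;> linarith
  have hi : ∀ (sd : Bool) (g : ℝ), 0 ≤ g → pvmvHi sd g (23 / 256) ≤ 23 / 256 := fun sd g hg => by cases sd <;> simp only [pvmvHi, if_true, Bool.false_eq_true, if_false] <;> linarith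
  have hcor : ∀ (sd : Bool) (lm : ℝ), PvmvGeo Y u sd z d l Δ (Sc - Δ / 2) lm (21 / 64) → |lm| ≤ r / 1000 → ∀ v, v ∈ pvmvLeg (!sd) (19 / 256) (23 / 256) (21 / 64) (51 / 100) z d l ∪ pvmvBar (!sd) (23 / 256) (51 / 160) (1 / 128) (1 / 100) z d →
      (29 * r / 200 ≤ pvge2S Y u v ∧ pvge2S Y u v ≤ Sc - Δ / 2 ∧ 0 ≤ pvge2T Y u sd v ∧ pvge2T Y u sd v ≤ 33 * r / 200) ∨
        v ∈ pvfeLanes (-(23 / 256)) (23 / 256) z d l ∪ pvccPl z d (pvljRect (-(21 / 64)) 0 (-(23 / 256)) (23 / 256)) := by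
    intro sd lm G' hlm v hv
    have hl9 := abs_le.1 hlm
    rcases hv with ((hv | hv) | hv) | hv
    · exact Or.inr (Or.inr (pvccPl_mono _ _ (pvlj_rect_mono le_rfl le_rfl (lo _ _ (by norm_num)) (hi _ _ (by norm_num))) hv))
    · exact Or.inr (Or.inl (pvlj_lanes_mono (lo _ _ (by norm_num)) (hi _ _ (by norm_num)) _ _ _ hv))
    · obtain ⟨q1, q2, q3, q4⟩ := G'.cap hv
      exact Or.inl ⟨by linarith, by linarith, by linarith [hl9.1], by linarith [hl9.2]⟩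
    · exact Or.inr (Or.inr (pvccPl_mono _ _ (pvlj_rect_mono (by norm_num) (by norm_num) (lo _ _ (by norm_num)) (hi _ _ (by norm_num))) hv))
  intro x hx v hv
  simp only [pvmvPatRec, pvmvPat, List.mem_cons, List.not_mem_nil, or_false] at hx
  rcases hx with rfl | rfl
  · dsimp only at hv
    rw [pveb_tail_R, pvmv_mid_R] at hv
    rcases hv with hv | (((hv | hv) | hv) | hv)
    · exact Or.inl (pvge2_R_mono (by linarith) (by linarith) (by linarith) (by linarith) hv)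
    · exact Or.inl (pvge2_R_mono (by linarith) (by linarith) (by linarith) (by linarith) hv)
    · exact Or.inl (pvge2_R_mono (by linarith) (by linarith) (by linarith [h9.1]) (by linarith) hv)
    · rcases hcor up lam G R.lat v (Or.inl hv) with ⟨q1, q2, q3, q4⟩ | h
      · exact Or.inl ⟨by linarith, q2, by linarith, q4⟩
      · exact Or.inr h
    · rcases hcor up lam G R.lat v (Or.inr hv) with ⟨q1, q2, q3, q4⟩ | h
      · exact Or.inl ⟨by linarith, q2, by linarith, q4⟩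
      · exact Or.inr h
  · dsimp only at hv
    rw [pveb_tail_R, pvmv_mid_R] at hv
    rcases hv with hv | (((hv | hv) | hv) | hv)
    · unfold pvge2RN at hv
      rw [pvge2_R_flip] at hv
      exact Or.inl (pvge2_R_mono (by linarith) (by linarith) (by linarith) (by linarith) hv)
    · unfold pvmvRH at hv
      rw [pvge2_R_flip] at hv
      exact Or.inl (pvge2_R_mono (by linarith) (by linarith) (by linarith) (by linarith) hv)
    · unfold pvmvRV at hv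
      rw [pvge2_R_flip] at hv
      exact Or.inl (pvge2_R_mono (by linarith) (by linarith) (by linarith) (by linarith [h9.2]) hv)
    · rcases hcor (!up) (-lam) G.flip R.flip.lat v (Or.inl hv) with ⟨q1, q2, q3, q4⟩ | h
      · rw [pvge2_T_flip] at q3 q4
        exact Or.inl ⟨by linarith, q2, by linarith, by linarith⟩
      · exact Or.inr h
    · rcases hcor (!up) (-lam) G.flip R.flip.lat v (Or.inr hv) with ⟨q1, q2, q3, q4⟩ | h
      · rw [pvge2_T_flip] at q3 q4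
        exact Or.inl ⟨by linarith, q2, by linarith, by linarith⟩
      · exact Or.inr h

/-- the tails stay `11 r/100` in front of the centre of the tip cell (the box ends at `r/10`) -/
theorem pveb_tail_S (G : PvmvGeo Y u up z d l Δ (Sc - Δ / 2) lam (21 / 64)) (R : PvmvRec r Δ ρ b μ Sc lam) (c : Bool) :
    ∀ x ∈ pvmvPatRec Y u up c r Δ Sc lam z d l, ∀ w ∈ pvkqRtR x.2.tail, 11 * r / 100 ≤ pvge2S Y u w := by
  have h1 := R.r0; have h2 := R.Δ0; have h3 := R.Δhi; have h8 := R.s_lo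
  intro x hx w hw
  rcases pveb_tail_win G R c x hx hw with hw | hw | hw
  · exact hw.1
  · have := G.front w (Or.inl (pvlj_lanes_mono (by norm_num) (by norm_num) _ _ _ hw))
    linarith
  · have := G.front w (Or.inr (pvccPl_mono _ _ (pvlj_rect_mono le_rfl le_rfl (by norm_num) (by norm_num)) hw))
    linarith

end recd

/-! ## 2. at the model: funnel, old room against the tile of U4, the box -/

section model

variable {τ : Type} {c : ℝ} {𝔓 : PvxPar τ c} {m : ℕ} {t : τ}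

/-- **the funnel**: the `s Δ`-ball of a point of the shrunk funnel rectangle lies in mouth `∪` funnel tile -/
theorem pveb_fun_ball (hΓ : 𝔓.Γ m = pvxrGam 𝔓 m) (hL : PvegLev 𝔓 m) (hT : pviwTyOk 𝔓 t) {s : ℝ} {v : ℂ} (h1 : pvegR 𝔓 m / 10 + 2 * pvlmDel c m + s * pvehDl 𝔓 m ≤ pvegS (pvegYm 𝔓 m t) (I ^ pvxrB 𝔓 t) v)
    (h2 : pvegS (pvegYm 𝔓 m t) (I ^ pvxrB 𝔓 t) v ≤ 3 * pvegR 𝔓 m / 8 - 9 * pvlmDel c m / 4 - s * pvehDl 𝔓 m) (h3 : |pvegL (pvegYm 𝔓 m t) (I ^ pvxrB 𝔓 t) v| ≤ pvegR 𝔓 m / 5 - pvlmDel c m - s * pvehDl 𝔓 m) :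
    closedBall v (s * pvehDl 𝔓 m) ⊆ pvegIM 𝔓 m t ∪ pvegIK 𝔓 m t := by
  have H := pveg_door_i hL hT
  rw [hΓ, pvxr_gam_din, neg_neg] at H
  have s_lo := H.s_lo
  have lat := abs_le.1 H.lat
  rw [abs_le] at h3
  have hv : v ∈ pveyRe (pvegYm 𝔓 m t) (I ^ pvxrB 𝔓 t) (pvegR 𝔓 m / 10 + 2 * pvlmDel c m + s * pvehDl 𝔓 m) (pvegS (pvegYm 𝔓 m t) (I ^ pvxrB 𝔓 t) ((pvxrGam 𝔓 m).pin t) - pvlmDel c m / 4 - s * pvehDl 𝔓 m)
      (pvegL (pvegYm 𝔓 m t) (I ^ pvxrB 𝔓 t) ((pvxrGam 𝔓 m).pin t)) (pvegR 𝔓 m / 5 - s * pvehDl 𝔓 m) :=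
    ⟨h1, by linarith, abs_le.2 ⟨by linarith [h3.1, lat.2], by linarith [h3.2, lat.1]⟩⟩
  intro x hx
  have hx' := pvey_Re_mono (s₀' := pvegR 𝔓 m / 10 + 2 * pvlmDel c m) (s₁' := pvegS (pvegYm 𝔓 m t) (I ^ pvxrB 𝔓 t) ((pvxrGam 𝔓 m).pin t) - pvlmDel c m / 4) (r' := pvegR 𝔓 m / 5) _ _ (by linarith) (by linarith) (by linarith) (pvey_Re_collar H.u4 _ hv hx)
  by_cases hM : x ∈ pvegIM 𝔓 m t
  · exact Or.inl hM
  · right
    unfold pvegIK
    rw [hΓ, pvxr_gam_din, neg_neg]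
    exact ⟨hx', hM⟩

/-- **THE OLD ROOM, OFF THE NEW REGION OF THE PLUG, LIES IN MOUTH `∪` TILE OF U4** -/
theorem pveb_old_tile (h : PvxrNdg 𝔓 m t) (hΓ : 𝔓.Γ m = pvxrGam 𝔓 m) {x : ℂ} (hx : x ∈ pveheY 𝔓 (pvegIM 𝔓) m t ∪ pvegIK 𝔓 m t)
    (hq : 13 * pvehDl 𝔓 m / 80 ≤ pvccN (x - (pvxrGam 𝔓 m).zu t)) : x ∈ pvegIM 𝔓 m t ∪ pvnuEK 𝔓 m t := by
  have hΔ : 0 < pvehDl 𝔓 m := by
    have h1 := (pvmv_Dl_bounds h).1
    have h2 := pvmv_R_pos h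
    linarith
  by_cases hM : x ∈ pvegIM 𝔓 m t
  · exact Or.inl hM
  right
  have key : x ∈ pvehBody (pvehDl 𝔓 m) ((pvxrGam 𝔓 m).zu t) (pvxrLe (pvxrB 𝔓 t)) \ pvccSq ((pvxrGam 𝔓 m).zu t) (pvehDl 𝔓 m / 4) → x ∈ pvnuEK 𝔓 m t :=
    fun hw => Or.inl (Or.inl ⟨hw.1, fun hq => hq.elim hw.2 hM⟩)
  rcases hx with ((hx | hx) | hx) | hx
  · obtain ⟨a1, a2, a3, a4⟩ := hx
    by_cases hs : x ∈ pvccSq ((pvxrGam 𝔓 m).zu t) (pvehDl 𝔓 m / 4)
    · refine Or.inr ?_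
      rw [hΓ, pveh_mem_sh]
      refine ⟨⟨?_, ?_⟩, ?_⟩
      · show pvccN (x - (pvxrGam 𝔓 m).zu t - 0) < pvehDl 𝔓 m / 4
        rw [sub_zero]
        exact hs
      · rw [pvnu4_RO_sq h.rho0]
        intro hc
        have hc' : pvccN (x - (pvxrGam 𝔓 m).zu t - 0) < 13 * pvehDl 𝔓 m / 80 := hc
        rw [sub_zero] at hc'
        linarith
      · show 0 ≤ (x - (pvxrGam 𝔓 m).zu t).re
        rw [sub_re]
        linarith
    · refine key ⟨Or.inl ⟨?_, by linarith⟩, hs⟩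
      rw [pveh_mem_sq]
      exact ⟨⟨by linarith, by linarith⟩, by linarith, by linarith⟩
  · exact key (pvmv_lanes_off hΔ _ (pveh_W_le _) (by norm_num) (by norm_num) hx)
  · exact absurd hx hM
  · exact Or.inl (Or.inr hx)

/-- the sup norm is `1`-Lipschitz for the Euclidean norm -/
theorem pveb_N_lip (a b : ℂ) : pvccN a - ‖b - a‖ ≤ pvccN b := by
  have h1 : pvccN a ≤ pvccN b + pvccN (a - b) := by
    have := pvccN_add_le b (a - b)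
    rwa [add_sub_cancel] at this
  have h2 : pvccN (a - b) ≤ ‖b - a‖ := by
    rw [norm_sub_rev]
    exact max_le (Complex.abs_re_le_norm _) (Complex.abs_im_le_norm _)
  linarith

/-- **OFF THE OWN-LEVEL BOX**: a point more than `R/10` in front of the centre of the entrance tip cell -/
theorem pveb_off_box (hΓ : 𝔓.Γ m = pvxrGam 𝔓 m) (hL : PvegLev 𝔓 m) (hT : pviwTyOk 𝔓 t) (z : ℂ) {x : ℂ} (hS : pvegR 𝔓 m / 10 < pvge2S (z + pvegYm 𝔓 m t) (I ^ pvxrB 𝔓 t) x) :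
    x ∉ pvwSq z (pviwRad 𝔓 m t) := by
  have H := pveg_door_i hL hT
  rw [hΓ, pvxr_gam_din, neg_neg] at H
  have out := H.out
  intro hx
  refine pveh_front_off (b := pvxrB 𝔓 t) (w := x - z) (ρ := pviwRad 𝔓 m t) ?_ ⟨by rw [sub_zero]; exact hx.1, by rw [sub_zero]; exact hx.2⟩
  rw [pvmv_front_eq]
  have e : pvge2S (z + pvegYm 𝔓 m t) (I ^ pvxrB 𝔓 t) x = ((x - z) * (starRingEnd ℂ) (I ^ pvxrB 𝔓 t)).re - (pvegYm 𝔓 m t * (starRingEnd ℂ) (I ^ pvxrB 𝔓 t)).re := by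
    unfold pvge2S
    rw [← sub_re]
    congr 1
    ring
  linarith

/-! ## 3. the field `mid` -/

/-- the numbers of record at the model, at the trivial mesh -/
theorem pveb_rec0 (h : PvxrNdg 𝔓 m t) (up : Bool) : PvmvRec (pvegR 𝔓 m) (pvehDl 𝔓 m) 0 0 0 (pvmvSc 𝔓 m t) (pvmvLam 𝔓 m t up) :=
  pvmv_rec_e h up le_rfl (by have := pvmv_R_pos h; linarith) (by norm_num) (by have := pvmv_R_pos h; linarith)

/-- the three inequalities of the funnel at a point of the rectangle of the tails -/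
theorem pveb_fun_num (h : PvxrNdg 𝔓 m t) (z : ℂ) (up : Bool) {w : ℂ}
    (hw : w ∈ pvge2R (z + pvegYm 𝔓 m t) (I ^ pvxrB 𝔓 t) up (11 * pvegR 𝔓 m / 100) (pvmvSc 𝔓 m t - pvehDl 𝔓 m / 2) (-(33 * pvegR 𝔓 m / 200)) (33 * pvegR 𝔓 m / 200)) :
    pvegR 𝔓 m / 10 + 2 * pvlmDel c m + 1 / 100 * pvehDl 𝔓 m ≤ pvegS (pvegYm 𝔓 m t) (I ^ pvxrB 𝔓 t) (w - z) ∧
      pvegS (pvegYm 𝔓 m t) (I ^ pvxrB 𝔓 t) (w - z) ≤ 3 * pvegR 𝔓 m / 8 - 9 * pvlmDel c m / 4 - 1 / 100 * pvehDl 𝔓 m ∧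
      |pvegL (pvegYm 𝔓 m t) (I ^ pvxrB 𝔓 t) (w - z)| ≤ pvegR 𝔓 m / 5 - pvlmDel c m - 1 / 100 * pvehDl 𝔓 m := by
  have hf := pvmv_fine h
  have hr := pvmv_R_pos h
  have hd := pvlm_Del_pos c m
  obtain ⟨d1, d2⟩ := pvmv_Dl_bounds h
  obtain ⟨n1, n2⟩ := pvmv_ce_near 𝔓 m t up
  have n1' := abs_le.1 n1
  obtain ⟨q1, q2, q3, q4⟩ := hw
  rw [pvmv_S_sh] at q1 q2
  rw [pvmv_T_sh] at q3 q4
  have lv : |pvegL (pvegYm 𝔓 m t) (I ^ pvxrB 𝔓 t) (w - z)| ≤ 33 * pvegR 𝔓 m / 200 := by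
    have : |pvge2T (pvegYm 𝔓 m t) (I ^ pvxrB 𝔓 t) up (w - z)| = |pvegL (pvegYm 𝔓 m t) (I ^ pvxrB 𝔓 t) (w - z)| := by
      unfold pvge2T pvegL
      rw [abs_mul, pvge2_sg_abs, one_mul]
    rw [← this, abs_le]
    exact ⟨q3, q4⟩
  refine ⟨?_, ?_, by linarith⟩
  · show _ ≤ pvge2S (pvegYm 𝔓 m t) (I ^ pvxrB 𝔓 t) (w - z)
    linarith
  · show pvge2S (pvegYm 𝔓 m t) (I ^ pvxrB 𝔓 t) (w - z) ≤ _
    linarith [n1'.2]

/-- **(MID-e, ROOM) THE TAILS LIE IN THE INNER ROOM `s = 1/100` OF 118** -/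
theorem pveb_mid_in (hΓ : 𝔓.Γ m = pvxrGam 𝔓 m) (hL : PvegLev 𝔓 m) (hT : pviwTyOk 𝔓 t) (h : PvxrNdg 𝔓 m t) (z : ℂ) (up cl : Bool) :
    ∀ x ∈ pvmvPatE 𝔓 m z t up cl, ∀ w ∈ pvkqRtR x.2.tail, w - z ∈ pvvzIe 𝔓 (1 / 100) m t := by
  intro x hx w hw
  rcases pveb_tail_win (pvmv_geo_model h z up) (pveb_rec0 h up) cl x hx hw with hw | hw | hw
  · obtain ⟨f1, f2, f3⟩ := pveb_fun_num h z up hw
    exact pvvz_Ie_fun hΓ hL hT f1 f2 f3
  · rw [pvmv_Z_sh] at hw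
    exact pvvz_Ie_lanes (by norm_num) (by norm_num) t (pvmv_lanes_sh hw)
  · rw [pvmv_Z_sh] at hw
    exact pvvz_Ie_cap (by norm_num) le_rfl (by norm_num) (by norm_num) t (pvmv_pl_sh hw)

/-- **(MID-e, FRESH) THE `Δ/128`-BALL OF A POINT OF A TAIL LIES IN MOUTH `∪` TILE OF U4, OFF THE OWN-LEVEL BOX** -/
theorem pveb_mid_fr (hΓ : 𝔓.Γ m = pvxrGam 𝔓 m) (hL : PvegLev 𝔓 m) (hT : pviwTyOk 𝔓 t) (h : PvxrNdg 𝔓 m t) (z : ℂ) (up cl : Bool) :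
    ∀ x ∈ pvmvPatE 𝔓 m z t up cl, ∀ w ∈ pvkqRtR x.2.tail,
      closedBall w (pvehDl 𝔓 m / 128) ⊆ (pvieSh z (pvegIM 𝔓 m t) ∪ pvieSh z (pvnuEK 𝔓 m t)) \ pvwSq z (pviwRad 𝔓 m t) := by
  have hf := pvmv_fine h
  have hr := pvmv_R_pos h
  have hd := pvlm_Del_pos c m
  obtain ⟨d1, d2⟩ := pvmv_Dl_bounds h
  have hΔ : 0 < pvehDl 𝔓 m := by linarith
  have hu := pvmv_norm_I (pvxrB 𝔓 t)
  intro x hx w hw y hy
  rw [mem_closedBall, dist_eq_norm] at hy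
  refine ⟨?_, ?_⟩
  · have hyb : y - z ∈ closedBall (w - z) (1 / 100 * pvehDl 𝔓 m) := by
      rw [mem_closedBall, dist_eq_norm, sub_sub_sub_cancel_right]
      linarith
    have out : y - z ∈ pvegIM 𝔓 m t ∪ pvnuEK 𝔓 m t := by
      rcases pveb_tail_win (pvmv_geo_model h z up) (pveb_rec0 h up) cl x hx hw with hw' | hw'
      · obtain ⟨f1, f2, f3⟩ := pveb_fun_num h z up hw'
        rcases pveb_fun_ball hΓ hL hT f1 f2 f3 hyb with h1 | h1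
        · exact Or.inl h1
        · exact Or.inr (Or.inl (Or.inr h1))
      · have hold := pvvz_Ie_old hΓ hL hT h (by norm_num) (by norm_num) (pveb_mid_in hΓ hL hT h z up cl x hx w hw) hyb
        refine pveb_old_tile h hΓ hold ?_
        have hN : 11 * pvehDl 𝔓 m / 64 ≤ pvccN (w - z - (pvxrGam 𝔓 m).zu t) := by
          rcases hw' with hw' | hw'
          · rw [pvmv_Z_sh] at hw'
            have h1 : ¬ pvccN (w - z - (pvxrGam 𝔓 m).zu t) < pvehDl 𝔓 m / 4 := (pvmv_lanes_off hΔ _ (pveh_W_le _) (by norm_num) (by norm_num) (pvmv_lanes_sh hw')).2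
            linarith [not_lt.1 h1]
          · rw [pvmv_Z_sh] at hw'
            have h1 : ¬ pvccN (w - z - (pvxrGam 𝔓 m).zu t) < 11 / 64 * pvehDl 𝔓 m :=
              (pvmv_cap_east hΔ ((pvxrGam 𝔓 m).zu t) (q := 11 / 64) (x₀ := -(21 / 64)) (x₁ := 0) (y₀ := -(23 / 256)) (y₁ := 23 / 256) (by norm_num) (by norm_num) le_rfl (by norm_num) (by norm_num) (pvmv_pl_sh hw')).2
            linarith [not_lt.1 h1]
        have h2 := pveb_N_lip (w - z - (pvxrGam 𝔓 m).zu t) (y - z - (pvxrGam 𝔓 m).zu t)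
        rw [show y - z - (pvxrGam 𝔓 m).zu t - (w - z - (pvxrGam 𝔓 m).zu t) = y - w by ring] at h2
        linarith
    rcases out with h1 | h1
    · exact Or.inl (pveh_mem_sh.2 h1)
    · exact Or.inr (pveh_mem_sh.2 h1)
  · refine pveb_off_box hΓ hL hT z ?_
    have hS := pveb_tail_S (pvmv_geo_model h z up) (pveb_rec0 h up) cl x hx w hw
    have h2 := abs_le.1 ((pvge2_S_lip hu (z + pvegYm 𝔓 m t) y w).trans hy)
    linarith [h2.1]

theorem pveb_mu_le (𝔓 : PvxPar τ c) (m : ℕ) : pvilMu 𝔓 m ≤ pvlmDel c m / 1000 := by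
  unfold pvilMu
  exact div_le_div_of_nonneg_right (min_le_left _ _) (by norm_num)

/-- **THE FIELD `mid` OF `PvhuLay` AT THE THICK LINK `e`, REGIONS OF L2** (`eY = pvvzEY` of 118, `eM = pvegIM`, `eK = pvnuEK` of 84): for each route `x.2 = eC :: eN :: tt` of the pattern of record, `x.2.tail = eN :: tt` -/
theorem pveb_mid_e (hΓ : 𝔓.Γ m = pvxrGam 𝔓 m) (hL : PvegLev 𝔓 m) (hT : pviwTyOk 𝔓 t) (h : PvxrNdg 𝔓 m t) (z : ℂ) (up cl : Bool) :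
    ∀ x ∈ pvmvPatE 𝔓 m z t up cl, ∀ w ∈ pvkqRtR x.2.tail, closedBall w (2 * pvilMu 𝔓 m) ⊆ pvieSh z (pvvzEY 𝔓 m t) ∧
      closedBall w (pvilMu 𝔓 m) ⊆ (pvieSh z (pvegIM 𝔓 m t) ∪ pvieSh z (pvnuEK 𝔓 m t)) \ pvwSq z (pviwRad 𝔓 m t) := by
  have hf := pvmv_fine h
  have hr := pvmv_R_pos h
  have hd := pvlm_Del_pos c m
  obtain ⟨d1, d2⟩ := pvmv_Dl_bounds h
  have hμ := pveb_mu_le 𝔓 m
  have e : pviwMu 𝔓 m = pvilMu 𝔓 m := rfl
  intro x hx w hw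
  refine ⟨pvvz_Ie_eY_sh hΓ hL hT h (s := 1 / 100) (by norm_num) (by norm_num) (by rw [e]; linarith) z (pveb_mid_in hΓ hL hT h z up cl x hx w hw), ?_⟩
  exact (closedBall_subset_closedBall (by linarith)).trans (pveb_mid_fr hΓ hL hT h z up cl x hx w hw)

/-- **THE FIELD, IN THE WORDS OF `PvhuLay.mid` AT `pvhu_ev_e`**, for ANY engine with the three lines of L2 -/
theorem pveb_mid_eng (𝔈 : PvieEng τ) (hΓ : 𝔓.Γ m = pvxrGam 𝔓 m) (hL : PvegLev 𝔓 m) (hT : pviwTyOk 𝔓 t) (h : PvxrNdg 𝔓 m t) (heY : 𝔈.eY m t = pvvzEY 𝔓 m t) (heM : 𝔈.eM m t = pvegIM 𝔓 m t) (heK : 𝔈.eK m t = pvnuEK 𝔓 m t)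
    (z : ℂ) (up cl : Bool) {eC eN : Bool → Set ℂ × ℂ × ℂ} {tt : Bool → List (Set ℂ × ℂ × ℂ)} (hpat : ∀ β, ∃ b : Bool, (b, eC β :: eN β :: tt β) ∈ pvmvPatE 𝔓 m z t up cl) :
    ∀ β, ∀ w ∈ pvkqRtR (eN β :: tt β), closedBall w (2 * pvilMu 𝔓 m) ⊆ (pvilLe 𝔓 𝔈 m z t).Yin ∧
      closedBall w (pvilMu 𝔓 m) ⊆ (pvieSh z (𝔈.eM m t) ∪ pvieSh z (𝔈.eK m t)) \ pvwSq z (pviwRad 𝔓 m t) := by
  intro β w hw
  obtain ⟨b, hb⟩ := hpat β
  show closedBall w (2 * pvilMu 𝔓 m) ⊆ pvieSh z (𝔈.eY m t) ∧ _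
  rw [heY, heM, heK]
  exact pveb_mid_e hΓ hL hT h z up cl _ hb w hw

/-- **THE FIELD `mid` OF `PvhuLayD` AT THE DATA OF RECORD OF 165** (`Tr/HookTD`: `eN := pvhtdN 𝔓 m z t`, `tt := pvhtdT 𝔓 m z t`) -/
theorem pveb_mid_td (𝔈 : PvieEng τ) (hΓ : 𝔓.Γ m = pvxrGam 𝔓 m) (hL : PvegLev 𝔓 m) (hT : pviwTyOk 𝔓 t) (h : PvxrNdg 𝔓 m t) (heY : 𝔈.eY m t = pvvzEY 𝔓 m t) (heM : 𝔈.eM m t = pvegIM 𝔓 m t) (heK : 𝔈.eK m t = pvnuEK 𝔓 m t) (z : ℂ) :
    ∀ β, ∀ w ∈ pvkqRtR (pvhtdN 𝔓 m z t β :: pvhtdT 𝔓 m z t β), closedBall w (2 * pvilMu 𝔓 m) ⊆ (pvilLe 𝔓 𝔈 m z t).Yin ∧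
      closedBall w (pvilMu 𝔓 m) ⊆ (pvieSh z (𝔈.eM m t) ∪ pvieSh z (𝔈.eK m t)) \ pvwSq z (pviwRad 𝔓 m t) :=
  pveb_mid_eng 𝔈 hΓ hL hT h heY heM heK z false (𝔓.col t) (eC := pvhtdC 𝔓 m z t) fun β => ⟨_, pvhtd_mem 𝔓 m z t β⟩

end model

end Claimed.Agent.R289
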