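-- KEEP
import Claimed.Agent.R289.Tr.HookTM
import Claimed.Agent.R289.Tr.FrcDetA
import Claimed.Agent.R289.Tr.FrcCarF
import Claimed.Agent.R289.Tr.HookTD

/-!
# Row 289 (S0537), THE WALL, ROAD E, E10, LINK e, (b3) DET, file Exit/HookTE : **BRIDGES INTO THE CONTRACT `PvetDet` (`Exit/FrcT`)**      (helper66, pen of the contract; prefix `pvhu_`, `Pvhu` continued)

The contract speaks the words of `Tr/HookTM` (`PvhuTipD`, `PvhuLayD`, `PvhuDoorRegD`).      WHAT IS TYPED IN THE WORDS OF 266 (`Tr/FrcDetA`: `PvhoLay`, `PvhoTip`) OR OF 298 (`Tr/GoodD`: `Pvge4DoorReg`; paid for the bars of 21 by 165 `pvht_e_doorReg`) PAYS IT AS IT IS: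
* `PvhuDoorRegD.of_ge4` : the cut door records of 298 (either orientation) + feet before the cut + targets ⟹ `PvhuDoorRegD` (`xs := xc`)
* `PvhuLayD.of_ho` : `PvhoLay` ⟹ `PvhuLayD` (same data, `xs := xc`)
* **`pvhu_tipD_of`** : THE FIELD `tip` PAID at any engine with `eM = pvegIM` (numbers and side of 266), `rs rt` and the meshes free in their ranges;   **`pvhu_tipD_wf`** : the same IN THE WORDS OF `PvetDet.tip`, at any well formed engine (`PvieEng.Wf`) with `eM = pvegIM`;   **`pvhu_tipD_data`** : AT THE DATA OF 165 (`Tr/HookTD`)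
0 SORRY.
-/

set_option autoImplicit false
set_option linter.unusedSectionVars false
set_option linter.unusedVariables false

namespace Claimed.Agent.R289

open Relation Set Metric Claims.C0465
open scoped ComplexConjugate

/-- **the cut door records of 298 pay the door record of the contract** -/
theorem PvhuDoorRegD.of_ge4 {ζd : ℂ} {δ ρd : ℝ} {B : Set ℂ} {Rm Dr : Bool → Set ℂ} {eD : Bool → Set ℂ × ℂ × ℂ} {xc xa xb y0 y1 : Bool → ℝ} (nz : ‖ζd‖ = 1)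
    (door : ∀ β, Pvge4DoorReg ζd δ ρd (xc β) (xa β) (xb β) (y0 β) (y1 β) (Rm β) (eD β)) (foot : ∀ β, ∀ w ∈ B, (ζd * w).re ≤ xc β) (tgt : ∀ β, ∀ w ∈ Dr β, xb β ≤ (ζd * w).re) :
    PvhuDoorRegD ζd δ ρd B Rm Dr eD xc xa xb y0 y1 where
  nz := nz
  rho := (door true).ρ0
  reg := fun β => by
    rcases (door β).ends with e | e
    · exact Or.inl ⟨fun w hw => (door β).room w hw.1 hw.2, (door β).col, e.1, e.2⟩
    · exact Or.inr ⟨fun w hw => (door β).room w hw.1 hw.2, (door β).col, e.2, e.1⟩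
  sa := fun β => (door β).cut
  ab := fun β => (door β).ab
  foot := fun β w hw => by
    have h1 := foot β w hw
    have h2 := (door β).cut
    have h3 := (door β).ρ0
    linarith
  tgt := tgt

/-- **the record of 266 pays the record of the contract** -/
theorem PvhuLayD.of_ho {L : PvilLk} {N : PvwNum} {W Fr : Set ℂ} {μ : ℝ} {ζ c : ℂ} {rs ρ rt e₀ ρl δ : ℝ}
    {eC eN eD : Bool → Set ℂ × ℂ × ℂ} {t : Bool → List (Set ℂ × ℂ × ℂ)} {Sg : Bool → Set ℂ} {jN jS : Bool → ℕ} {ζd : ℂ} {Rm Dr : Bool → Set ℂ} {xc xa xb y0 y1 : Bool → ℝ}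
    (Λ : PvhoLay L N W Fr μ ζ c rs ρ rt e₀ ρl δ eC eN eD t Sg jN jS ζd Rm Dr xc xa xb y0 y1) : PvhuLayD L N W Fr μ ζ c rs ρ rt e₀ ρl δ eC eN eD t Sg jN jS ζd Rm Dr xc xa xb y0 y1 where
  mu := Λ.mu
  rho := Λ.rho
  bdd := Λ.bdd
  co := Λ.co
  collar := Λ.collar
  dl := Λ.dl
  route := Λ.route
  e0 := Λ.he
  arm₁ := Λ.arm1
  arm₂ := Λ.arm2
  rl := Λ.rl
  mul := Λ.mul
  sgW := Λ.sgW
  jN4 := Λ.jN4
  jS4 := Λ.jS4
  sN := Λ.sN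
  sS := Λ.sS
  mouth := Λ.mouth
  mid := Λ.mid
  leg := Λ.leg
  door := PvhuDoorRegD.of_ge4 Λ.nz Λ.door Λ.foot Λ.tgt
  room := Λ.room
  roomF := Λ.roomF
  gm := Λ.gm
  offBox := Λ.offBox
  offTip := Λ.offTip

/-! ## 2. the field `tip`, any engine -/

section tip

variable {τ : Type} {c : ℝ} {𝔓 : PvxPar τ c} {𝔈 : PvieEng τ} {m : ℕ} {t : τ} {μ₀ μ' ρ rs rt : ℝ}

/-- **`PvhuTipD` PAID, ANY ENGINE WHOSE MOUTH IS THE BALL OF RECORD** (numbers and side of 266, `Tr/FrcDetO`): `R = ρ h`, `r := ρ₂ h`, `r₁ := R / 2`, `ζ := conj (- din t)`;   FREE: the three meshes `μ₀ μ' ρ`, `rs ∈ [R / 4, 5 R / 16 - 4ρ - 3μ']`, `rt ∈ [R / 10 + 4ρ, R / 4 - 5ρ / 2]` -/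
theorem pvhu_tipD_of (n : PvhoNum 𝔓) (hL : PvegLev 𝔓 m) (hT : pviwTyOk 𝔓 t) (hc : ∀ x ∈ 𝔓.cm t, ‖x - (𝔓.ty t).ym‖ ≤ 𝔓.num.rho / 10) (z : ℂ)
    (hμ₀ : 0 < μ₀) (h3 : 3 * μ₀ ≤ pvlmDel c m) (hr : μ₀ < (𝔓.ty t).b * pvlmH m) (hμ' : 0 < μ') (hρ : 0 < ρ) (h80 : 80 * ρ ≤ 𝔓.num.rho * pvlmH m)
    (rs0 : 𝔓.num.rho * pvlmH m / 4 ≤ rs) (rs1 : rs + 4 * ρ + 3 * μ' ≤ 5 * (𝔓.num.rho * pvlmH m) / 16) (rt0 : 𝔓.num.rho * pvlmH m / 10 + 4 * ρ ≤ rt) (rt1 : 2 * rt + 5 * ρ ≤ 𝔓.num.rho * pvlmH m / 2)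
    (offK : Disjoint (𝔈.eK m t) (pviwBox 𝔓 m t)) (offD : Disjoint (pviwRo 𝔓 𝔈 m t) (pviwBox 𝔓 m t))
    (MK : Disjoint (pvieSh z (𝔈.eM m t)) (pvieSh z (𝔈.eK m t))) (MD : Disjoint (pvieSh z (𝔈.eM m t)) (pvieSh (pvieZu 𝔓 m z t) (𝔈.rO m))) (hM : 𝔈.eM m t = pvegIM 𝔓 m t) :
    PvhuTipD 𝔓 𝔈 m z t μ₀ μ' (𝔓.num.rho2 * pvlmH m) (𝔓.num.rho * pvlmH m / 2) ρ rs rt ((starRingEnd ℂ) (-(𝔓.Γ m).din t)) := by
  obtain ⟨s1, s2, s3, s0⟩ := pvho_small n m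
  have hh := pvlm_H_pos m
  have hrad := pvho_rad n m t
  have hb0 : 0 ≤ (𝔓.ty t).b * pvlmH m := mul_nonneg (n.b0 t) hh.le
  refine
    { mu0 := hμ₀
      h3 := h3
      hb := by unfold pviwRad; linarith
      hr := hr
      offK := offK
      offD := offD
      MK := MK
      MD := MD
      mu' := hμ'
      num := pvho_endNum n m t hρ h80 rs0 (by linarith)
      rt0 := fun w hw => ?_
      rt1 := rt1
      big := by unfold pviwRad; linarith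
      dir := pvho_dir_i hL t
      dom := ?_
      ball := by rw [hM, pvho_iM]; exact closedBall_subset_closedBall rs1 }
  · have h1 : ‖w - (z + (pvlmH m : ℂ) * (𝔓.ty t).ym)‖ ≤ 𝔓.num.rho / 10 * pvlmH m := pvho_cell hc hh hw
    have h2 : ‖w - (𝔓.ty t).cm (pvlmH m) z‖ ≤ 𝔓.num.rho / 10 * pvlmH m := h1
    linarith
  · obtain ⟨e, u, hu, -, h2, -, h4⟩ := hL.doors.inn t
    have h5 : ((starRingEnd ℂ) (-(𝔓.Γ m).din t) * (𝔓.ty t).ym).re = max |(𝔓.ty t).ym.re| |(𝔓.ty t).ym.im| := by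
      rw [mul_comm, h2, neg_neg]
      exact h4
    have h6 := pvhj_dom_of_sup hh.le h5
    have e1 : (𝔓.ty t).cm (pvlmH m) z - z = (pvlmH m : ℂ) * (𝔓.ty t).ym := by
      unfold PvwTy.cm
      ring
    rw [e1]
    exact h6

/-- **`PvhuTipD` IN THE WORDS OF `PvetDet.tip` (`Exit/FrcT`), ANY WELL FORMED ENGINE WITH `eM = pvegIM`** (survives the swaps of `eK eY rO`): meshes `δ / 3`, `μ / 40`, `ρ := μ / 40`;   `rs rt` free in their ranges -/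
theorem pvhu_tipD_wf {m0 : ℕ} {Cth : ℝ} {r κs : ℕ → ℝ} (n : PvhoNum 𝔓) (hW : 𝔓.WfB) (H : PvieEng.Wf 𝔓 𝔈 m0 Cth r κs) (hm : m0 ≤ m) (hL : PvegLev 𝔓 m) (hT : pviwTyOk 𝔓 t)
    (hc : ∀ x ∈ 𝔓.cm t, ‖x - (𝔓.ty t).ym‖ ≤ 𝔓.num.rho / 10) (h3 : 0 < 𝔓.num.rho3) (z : ℂ) (hM : 𝔈.eM m t = pvegIM 𝔓 m t)
    (rs0 : 𝔓.num.rho * pvlmH m / 4 ≤ rs) (rs1 : rs + 7 * (pvilMu 𝔓 m / 40) ≤ 5 * (𝔓.num.rho * pvlmH m) / 16) (rt0 : 𝔓.num.rho * pvlmH m / 10 + 4 * (pvilMu 𝔓 m / 40) ≤ rt)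
    (rt1 : 2 * rt + 5 * (pvilMu 𝔓 m / 40) ≤ 𝔓.num.rho * pvlmH m / 2) :
    PvhuTipD 𝔓 𝔈 m z t (pvlmDel c m / 3) (pvilMu 𝔓 m / 40) (𝔓.num.rho2 * pvlmH m) (𝔓.num.rho * pvlmH m / 2) (pvilMu 𝔓 m / 40) rs rt ((starRingEnd ℂ) (-(𝔓.Γ m).din t)) := by
  obtain ⟨u1, u2, u3⟩ := pvho_mu hL h3
  have hδ := pvlm_Del_pos c m
  have hd := H.th_disj m hm t hT
  have h1 : Disjoint (𝔈.eM m t) (𝔈.eK m t) := (List.pairwise_cons.1 hd).1 _ (by simp)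
  have h2 : Disjoint (𝔈.eM m t) (pviwRo 𝔓 𝔈 m t) := (List.pairwise_cons.1 hd).1 _ (by simp)
  refine pvhu_tipD_of n hL hT hc z (by positivity) (by linarith) (pvjv_carf_hr 𝔓 hW (by linarith) t) (by linarith) (by linarith) (by linarith) rs0 (by linarith) rt0 rt1
    (pvjv_carf_off_e H hm 0 hT).1 (pvjv_carf_off_e H hm 0 hT).2 ((Set.disjoint_image_iff (add_right_injective z)).2 h1) ?_ hM
  rw [Set.disjoint_left] at h2 ⊢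
  rintro _ ⟨a, ha, rfl⟩ ⟨b, hb, hab⟩
  refine h2 ha ⟨b, hb, ?_⟩
  have e : z + (𝔓.Γ m).zu t + b = z + a := hab
  have e2 : z + ((𝔓.Γ m).zu t + b) = z + a := by rw [← e]; ring
  exact add_left_cancel e2

/-- **THE FIELD `tip` OF `PvetDet` AT THE DATA OF 165** (`Tr/HookTD`), any well formed engine with `eM = pvegIM` -/
theorem pvhu_tipD_data {m0 : ℕ} {Cth : ℝ} {r κs : ℕ → ℝ} (n : PvhoNum 𝔓) (hW : 𝔓.WfB) (H : PvieEng.Wf 𝔓 𝔈 m0 Cth r κs) (hm : m0 ≤ m) (hL : PvegLev 𝔓 m) (hT : pviwTyOk 𝔓 t)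
    (hc : ∀ x ∈ 𝔓.cm t, ‖x - (𝔓.ty t).ym‖ ≤ 𝔓.num.rho / 10) (h3 : 0 < 𝔓.num.rho3) (z : ℂ) (hM : 𝔈.eM m t = pvegIM 𝔓 m t) (hGam : 𝔓.Γ m = pvxrGam 𝔓 m) :
    PvhuTipD 𝔓 𝔈 m z t (pvlmDel c m / 3) (pvilMu 𝔓 m / 40) (pvhtdR 𝔓 m) (pvhtdR1 𝔓 m) (pvhtdRho 𝔓 m) (pvhtdRs 𝔓 m) (pvhtdRt 𝔓 m) (pvhtdZe 𝔓 t) := by
  obtain ⟨u1, u2, u3⟩ := pvho_mu hL h3
  have e : pvhtdZe 𝔓 t = (starRingEnd ℂ) (-(𝔓.Γ m).din t) := by
    rw [hGam, pvxr_gam_din, neg_neg]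
    rfl
  have eR : pvegR 𝔓 m = 𝔓.num.rho * pvlmH m := rfl
  rw [e]
  unfold pvhtdR pvhtdR1 pvhtdRho pvhtdRs pvhtdRt
  rw [eR]
  exact pvhu_tipD_wf n hW H hm hL hT hc h3 z hM le_rfl (by linarith) le_rfl (by linarith)

end tip

end Claimed.Agent.R289
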