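-- KEEP
import Claimed.Agent.R289.Exit.EngU4
import Claimed.Agent.R289.Exit.ParBd
import Claimed.Agent.R289.Tr.FrcDoor

/-!
# Row 289 (S0537), THE WALL, ROAD E, E10, file Exit/RefWin : THE WINDOWS OF THE SIDE EVENTS OF THE REFERENCE PLUG AGAINST THE U4 TILES = ACCEPTANCE TEST (i) OF L2      (owner helper173; prefix `pvvn_`)

AT THE U4 NAMES OF 84 (`Exit/EngU4`: `pvnuRO pvnuEK pvnuFK pvnuRK`, scale `pvurS 𝔓 m = 2 Δ_m` of 31) AND THE OPEN WINDOWS OF 258 (`Tr/KitGeo`: `pvkgEp = O₀ ∪ (0, 11/80) × (-1/16, 1/16)`, `pvkgEm` = mirror; R24 of 234).      NO NAME OF `Exit/EngRec`: nothing here moves with L1 / L2.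
* sec. 1  numbers: `pvvn_Ep`, `pvvn_Em` (the dilated windows: in the new region `sq (13 Δ / 80)`, or in the east / west half of the closed block);   `pvvn_block_off_o` (the whole block of the reference plug is off the EXIT mouth `pvegOM`; the entrance mouth: `pvbd_block_off` of 73)
* sec. 2  **`pvvn_win_e`** : `zu + s • Ep ⊆ (zu + pvnuRO) ∪ (z + pvnuEK)`;   **`pvvn_win_f`** : `zu + s • Em ⊆ (zu + pvnuRO) ∪ (z + pvnuFK)`;   **`pvvn_win_r`** : `s • Em ⊆ pvnuRO ∪ pvnuRK` (door region of the last door in `sq r`, `r ≤ 9 δ / 40`)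
* sec. 4  the other region lines of the door half of `up` (`pvdp_side_sec` of 77): `pvvn_Ew` (`hEw`), `pvvn_Ln_Ep _Em` (truncated rooms in the windows), **`pvvn_Ln_e _f _r`** (`hb hw`: off the region of the plug the placed rooms lie in the tile)
* sec. 3  READERS, generic in the side event `S` (ANY event read in `Ep ×ˢ univ`, resp. `Em ×ˢ univ`: `pvna_Hf_reads` after R24): **`pvvn_rH_e`**, **`pvvn_rH_f`**, **`pvvn_rH_r`** = the field `rH` of `PvjeTest.Ok` / `PvifTest.Ok` at the thick ends, spelling `pvdpPl zu 1 b (cfMap (pvthInv 0 s) ⁻¹' S)` (`= pvurEH` of 31)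
-/

set_option autoImplicit false

namespace Claimed.Agent.R289

open Set Metric Complex Claims.C0465

/-! ## 1. numbers -/

section num

variable {Δ : ℝ} {w : ℂ}

theorem pvvn_re (s : ℝ) (w : ℂ) : ((s : ℂ) * w).re = s * w.re := Complex.re_ofReal_mul s w
theorem pvvn_im (s : ℝ) (w : ℂ) : ((s : ℂ) * w).im = s * w.im := Complex.im_ofReal_mul s w

/-- the dilated window of `S⁺`: new region, or east half of the closed block -/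
theorem pvvn_Ep (hΔ : 0 < Δ) (hw : w ∈ pvkgEp) : ((2 * Δ : ℝ) : ℂ) * w ∈ pvccSq 0 (13 * Δ / 80) ∨ (0 ≤ (((2 * Δ : ℝ) : ℂ) * w).re ∧ ((2 * Δ : ℝ) : ℂ) * w ∈ pvehSq 0 (Δ / 2)) := by
  rcases hw with ⟨h1, h2, h3, h4⟩ | ⟨h1, h2, h3, h4⟩
  · left
    rw [pvccm_mem_sq, pvvn_re, pvvn_im]
    simp only [Complex.zero_re, Complex.zero_im, zero_sub, zero_add]
    refine ⟨⟨?_, ?_⟩, ?_, ?_⟩ <;> nlinarith
  · right
    rw [pveh_mem_sq, pvvn_re, pvvn_im]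
    simp only [Complex.zero_re, Complex.zero_im, zero_sub, zero_add]
    refine ⟨?_, ⟨?_, ?_⟩, ?_, ?_⟩ <;> nlinarith

/-- the dilated window of `S⁻`: new region, or west half of the closed block, at most `11 Δ / 40` behind the centre -/
theorem pvvn_Em (hΔ : 0 < Δ) (hw : w ∈ pvkgEm) : ((2 * Δ : ℝ) : ℂ) * w ∈ pvccSq 0 (13 * Δ / 80) ∨
    ((((2 * Δ : ℝ) : ℂ) * w).re < 0 ∧ -(11 * Δ / 40) < (((2 * Δ : ℝ) : ℂ) * w).re ∧ ((2 * Δ : ℝ) : ℂ) * w ∈ pvehSq 0 (Δ / 2)) := by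
  rcases hw with ⟨h1, h2, h3, h4⟩ | ⟨h1, h2, h3, h4⟩
  · left
    rw [pvccm_mem_sq, pvvn_re, pvvn_im]
    simp only [Complex.zero_re, Complex.zero_im, zero_sub, zero_add]
    refine ⟨⟨?_, ?_⟩, ?_, ?_⟩ <;> nlinarith
  · right
    rw [pveh_mem_sq, pvvn_re, pvvn_im]
    simp only [Complex.zero_re, Complex.zero_im, zero_sub, zero_add]
    refine ⟨?_, ?_, ⟨?_, ?_⟩, ?_, ?_⟩ <;> nlinarith

theorem pvvn_sq_add (cu v : ℂ) (r : ℝ) : cu + v ∈ pvehSq cu r ↔ v ∈ pvehSq 0 r := by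
  show pvccN (cu + v - cu) ≤ r ↔ pvccN (v - 0) ≤ r
  rw [add_sub_cancel_left, sub_zero]

theorem pvvn_sqo_add (cu v : ℂ) (r : ℝ) : cu + v ∈ pvccSq cu r ↔ v ∈ pvccSq 0 r := by
  show pvccN (cu + v - cu) < r ↔ pvccN (v - 0) < r
  rw [add_sub_cancel_left, sub_zero]

end num

section model

variable {τ : Type} {c : ℝ} {𝔓 : PvxPar τ c} {m0 : ℕ}

/-- **THE WHOLE BLOCK OF THE REFERENCE PLUG IS OFF THE EXIT MOUTH**      (proof of (E5) of 124, `pvea_end_o`, read on the block) -/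
theorem pvvn_block_off_o (H : PveaPar 𝔓 m0) {m : ℕ} (hm : m0 ≤ m) {t : τ} (hT : pviwTyOk 𝔓 t) :
    Disjoint (pvehSq ((pvxrGam 𝔓 m).zu t) (pvehDl 𝔓 m / 2)) (pvegOM 𝔓 m t) := by
  rw [Set.disjoint_left]
  intro v hv hM
  have G := H.geo m hm t hT
  have hΔ := pveh_Dl_pos G.n0
  have hδ := pvlm_Del_pos c m
  have h1 : v ∈ pvehSq ((pvxrGam 𝔓 m).zu t) (pvehDl 𝔓 m / 2) ∪ pvehBody (pvehDl 𝔓 m) ((pvxrGam 𝔓 m).zu t) (pvxrLe (pvxrB 𝔓 t)) := Or.inl hv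
  rw [G.zu'] at h1
  have h2 := pveh_body_near hΔ _ _ h1
  have h3 := pvea_em_near H m t
  have h4 := pvea_Dl_le 𝔓 m
  have h5 : 7 * pvegR 𝔓 m / 4 ≤ ‖pvegYp 𝔓 m t - pvegYm 𝔓 m t‖ := by
    have e : pvegYp 𝔓 m t - pvegYm 𝔓 m t = (pvlmH m : ℂ) * ((𝔓.ty t).yp - (𝔓.ty t).ym) := by
      unfold pvegYp pvegYm; ring
    rw [e, norm_mul, Complex.norm_real, Real.norm_eq_abs, abs_of_pos (pvlm_H_pos m)]
    have := H.far t hT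
    have hh := pvlm_H_pos m
    unfold pvegR
    nlinarith
  have h6 : 1024 * pvlmDel c m ≤ pvegR 𝔓 m := H.fine m hm
  have h7 : ‖pvegYp 𝔓 m t - pvegYm 𝔓 m t‖ ≤ ‖v - pvegYp 𝔓 m t‖ + ‖v - pvtCtr (pvlmDel c m) (pvxrEm 𝔓 m t)‖ + ‖pvtCtr (pvlmDel c m) (pvxrEm 𝔓 m t) - pvegYm 𝔓 m t‖ := by
    have a1 := norm_add_le (pvegYp 𝔓 m t - v) (v - pvegYm 𝔓 m t)
    have a2 := norm_add_le (v - pvtCtr (pvlmDel c m) (pvxrEm 𝔓 m t)) (pvtCtr (pvlmDel c m) (pvxrEm 𝔓 m t) - pvegYm 𝔓 m t)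
    rw [sub_add_sub_cancel] at a1 a2
    rw [norm_sub_rev (pvegYp 𝔓 m t) v] at a1
    linarith
  unfold pvegOM at hM
  rw [mem_closedBall_iff_norm] at hM
  linarith

/-! ## 2. the three inclusions -/

theorem pvvn_zu (H : PveaPar 𝔓 m0) (m : ℕ) (z : ℂ) (t : τ) : pvieZu 𝔓 m z t = z + (pvxrGam 𝔓 m).zu t := by
  unfold pvieZu; rw [H.gam]

/-- **(e)** the window of the exit side event `S⁺` of the reference plug, scale `pvurS`, placed at `zu` -/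
theorem pvvn_win_e (H : PveaPar 𝔓 m0) {m : ℕ} (hm : m0 ≤ m) {t : τ} (hT : pviwTyOk 𝔓 t) (z : ℂ) :
    pvthSim (pvieZu 𝔓 m z t) (pvurS 𝔓 m : ℂ) '' pvkgEp ⊆ pvieSh (pvieZu 𝔓 m z t) (pvnuRO 𝔓 m) ∪ pvieSh z (pvnuEK 𝔓 m t) := by
  have G := H.geo m hm t hT
  have hΔ := pveh_Dl_pos G.n0
  have hoff := pvbd_block_off H hm hT
  rintro _ ⟨w, hw, rfl⟩
  unfold pvurS
  rcases pvvn_Ep hΔ hw with h | ⟨h0, hsq⟩
  · left
    rw [pvnu4_RO_sq H.rho0]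
    exact ⟨_, h, rfl⟩
  · by_cases hn : ((2 * pvehDl 𝔓 m : ℝ) : ℂ) * w ∈ pvnuRO 𝔓 m
    · left
      exact ⟨_, hn, rfl⟩
    right
    refine ⟨(pvxrGam 𝔓 m).zu t + ((2 * pvehDl 𝔓 m : ℝ) : ℂ) * w, ?_, by rw [pvvn_zu H]; unfold pvthSim; ring⟩
    by_cases ho : ((2 * pvehDl 𝔓 m : ℝ) : ℂ) * w ∈ pvehrO 𝔓 m
    · exact Or.inr ⟨_, ⟨⟨ho, hn⟩, h0⟩, by show (𝔓.Γ m).zu t + _ = _; rw [H.gam]⟩
    · refine Or.inl (Or.inl ⟨Or.inl ⟨(pvvn_sq_add _ _ _).2 hsq, ?_⟩, ?_⟩)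
      · rw [add_re]; linarith
      · rintro (h | h)
        · exact ho ((pvvn_sqo_add _ _ _).1 h)
        · exact Set.disjoint_left.1 hoff ((pvvn_sq_add _ _ _).2 hsq) h

/-- **(f)** the window of the entrance side event `S⁻` of the reference plug, scale `pvurS`, placed at `zu`, against the tile of the thick return -/
theorem pvvn_win_f (H : PveaPar 𝔓 m0) {m : ℕ} (hm : m0 ≤ m) {t : τ} (hT : pviwTyOk 𝔓 t) (z : ℂ) :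
    pvthSim (pvieZu 𝔓 m z t) (pvurS 𝔓 m : ℂ) '' pvkgEm ⊆ pvieSh (pvieZu 𝔓 m z t) (pvnuRO 𝔓 m) ∪ pvieSh z (pvnuFK 𝔓 m t) := by
  have G := H.geo m hm t hT
  have hΔ := pveh_Dl_pos G.n0
  have hoff := pvvn_block_off_o H hm hT
  rintro _ ⟨w, hw, rfl⟩
  unfold pvurS
  rcases pvvn_Em hΔ hw with h | ⟨h0, -, hsq⟩
  · left
    rw [pvnu4_RO_sq H.rho0]
    exact ⟨_, h, rfl⟩
  · by_cases hn : ((2 * pvehDl 𝔓 m : ℝ) : ℂ) * w ∈ pvnuRO 𝔓 m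
    · left
      exact ⟨_, hn, rfl⟩
    right
    refine ⟨(pvxrGam 𝔓 m).zu t + ((2 * pvehDl 𝔓 m : ℝ) : ℂ) * w, ?_, by rw [pvvn_zu H]; unfold pvthSim; ring⟩
    by_cases ho : ((2 * pvehDl 𝔓 m : ℝ) : ℂ) * w ∈ pvehrO 𝔓 m
    · exact Or.inr ⟨_, ⟨⟨ho, hn⟩, h0⟩, by show (𝔓.Γ m).zu t + _ = _; rw [H.gam]⟩
    · refine Or.inl ⟨Or.inr ⟨(pvvn_sq_add _ _ _).2 hsq, ?_⟩, ?_⟩
      · rw [add_re]; linarith
      · rintro (h | h)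
        · exact ho ((pvvn_sqo_add _ _ _).1 h)
        · exact Set.disjoint_left.1 hoff ((pvvn_sq_add _ _ _).2 hsq) h

/-- **(r)** the window of the entrance side event `S⁻` of the reference plug, centre `0`, against the tile of the last link of the thin chain -/
theorem pvvn_win_r (hρ : 0 < 𝔓.num.rho) {m : ℕ} (hn : 0 ≤ pvxrNw 𝔓 m) {O0 : ℕ → Set ℂ} {r : ℝ} (hO : O0 m ⊆ pvccSq 0 r) (hr : r ≤ 9 * pvlmDel c m / 40) :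
    pvthSim 0 (pvurS 𝔓 m : ℂ) '' pvkgEm ⊆ pvnuRO 𝔓 m ∪ pvnuRK 𝔓 O0 m := by
  have hΔ := pveh_Dl_pos hn
  have hδΔ := pveh_Del_le_Dl hn
  rintro _ ⟨w, hw, rfl⟩
  have e : pvthSim 0 (pvurS 𝔓 m : ℂ) w = ((2 * pvehDl 𝔓 m : ℝ) : ℂ) * w := by unfold pvthSim pvurS; rw [zero_add]
  rw [e]
  rcases pvvn_Em hΔ hw with h | ⟨h0, h1, hsq⟩
  · left
    rw [pvnu4_RO_sq hρ]
    exact h
  · by_cases hn' : ((2 * pvehDl 𝔓 m : ℝ) : ℂ) * w ∈ pvnuRO 𝔓 m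
    · exact Or.inl hn'
    right
    by_cases ho : ((2 * pvehDl 𝔓 m : ℝ) : ℂ) * w ∈ pvehrO 𝔓 m
    · exact Or.inr ⟨⟨ho, hn'⟩, h0⟩
    · refine Or.inl ⟨hsq, h0, ho, ?_⟩
      rintro ⟨u, hu, hu'⟩
      have hu2 : pvccN (u - 0) < r := hO hu
      rw [sub_zero] at hu2
      have hre : |u.re| < r := lt_of_le_of_lt (le_max_left _ _) hu2
      have e2 : (pvthSim (pvxrGam 𝔓 m).pin0 (pvxrGam 𝔓 m).din0 u).re = -(pvehDl 𝔓 m / 2) + u.re := by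
        unfold pvthSim
        rw [pvxr_gam_din0, pvxr_gam_pin0, pvehDl]
        simp
        ring
      rw [hu'] at e2
      have := (abs_lt.1 hre).2
      linarith

/-! ## 3. readers -/

/-- the spelling of 31 / 54 of a placed scaled event -/
theorem pvvn_Pl (z : ℂ) (s : ℝ) (b : Bool) (S : Set (Conf PvPt)) : pvdpPl z 1 b (cfMap (pvthInv 0 (s : ℂ)) ⁻¹' S) = pvdpPl z (s : ℂ) b S := by
  ext η
  show cfMap (pvthInv 0 (s : ℂ)) (pvdpT z 1 b η) ∈ S ↔ pvdpT z (s : ℂ) b η ∈ S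
  rw [pvdp_T_comp _ _ _ _ one_ne_zero, mul_zero, add_zero, one_mul]

theorem pvvn_S_ne (hρ : 0 < 𝔓.num.rho) (m : ℕ) : (pvurS 𝔓 m : ℂ) ≠ 0 := Complex.ofReal_ne_zero.2 (pvur_S_pos hρ m).ne'

/-- **`rH` AT THE THICK LINK `e`** -/
theorem pvvn_rH_e (H : PveaPar 𝔓 m0) {m : ℕ} (hm : m0 ≤ m) {t : τ} (hT : pviwTyOk 𝔓 t) (z : ℂ) (b : Bool) {S : Set (Conf PvPt)} (hS : Conf.ReadsSet (pvkgEp ×ˢ (univ : Set Bool)) S) :
    Conf.ReadsSet ((pvieSh (pvieZu 𝔓 m z t) (pvnuRO 𝔓 m) ∪ pvieSh z (pvnuEK 𝔓 m t)) ×ˢ (univ : Set Bool)) (pvdpPl (pvieZu 𝔓 m z t) 1 b (cfMap (pvthInv 0 (pvurS 𝔓 m : ℂ)) ⁻¹' S)) := by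
  rw [pvvn_Pl]
  exact (pvdp_reads _ _ (pvvn_S_ne H.rho0 m) b hS).mono (Set.prod_mono (pvvn_win_e H hm hT z) le_rfl)

/-- **`rH` AT THE THICK RETURN `f`** -/
theorem pvvn_rH_f (H : PveaPar 𝔓 m0) {m : ℕ} (hm : m0 ≤ m) {t : τ} (hT : pviwTyOk 𝔓 t) (z : ℂ) (b : Bool) {S : Set (Conf PvPt)} (hS : Conf.ReadsSet (pvkgEm ×ˢ (univ : Set Bool)) S) :
    Conf.ReadsSet ((pvieSh (pvieZu 𝔓 m z t) (pvnuRO 𝔓 m) ∪ pvieSh z (pvnuFK 𝔓 m t)) ×ˢ (univ : Set Bool)) (pvdpPl (pvieZu 𝔓 m z t) 1 b (cfMap (pvthInv 0 (pvurS 𝔓 m : ℂ)) ⁻¹' S)) := by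
  rw [pvvn_Pl]
  exact (pvdp_reads _ _ (pvvn_S_ne H.rho0 m) b hS).mono (Set.prod_mono (pvvn_win_f H hm hT z) le_rfl)

/-- **`rH` AT THE LAST LINK `r` OF THE THIN CHAIN** (centre `0`, black form) -/
theorem pvvn_rH_r (hρ : 0 < 𝔓.num.rho) {m : ℕ} (hn : 0 ≤ pvxrNw 𝔓 m) {O0 : ℕ → Set ℂ} {r : ℝ} (hO : O0 m ⊆ pvccSq 0 r) (hr : r ≤ 9 * pvlmDel c m / 40) (b : Bool) {S : Set (Conf PvPt)}
    (hS : Conf.ReadsSet (pvkgEm ×ˢ (univ : Set Bool)) S) :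
    Conf.ReadsSet ((pvnuRO 𝔓 m ∪ pvnuRK 𝔓 O0 m) ×ˢ (univ : Set Bool)) (pvdpPl 0 1 b (cfMap (pvthInv 0 (pvurS 𝔓 m : ℂ)) ⁻¹' S)) := by
  rw [pvvn_Pl]
  exact (pvdp_reads _ _ (pvvn_S_ne hρ m) b hS).mono (Set.prod_mono (pvvn_win_r hρ hn hO hr) le_rfl)

/-! ## 4. the other region lines of the door half of `up` (`pvdp_side_sec` of 77: `hEw hb hw`) -/

theorem pvvn_sim_sh (z s : ℂ) (E : Set ℂ) : pvthSim z s '' E = pvieSh z (pvthSim 0 s '' E) := by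
  unfold pvieSh
  rw [Set.image_image]
  refine Set.image_congr fun w _ => ?_
  unfold pvthSim
  ring

/-- `hEw`: the placed window of the plug lies in the new region -/
theorem pvvn_Ew (z : ℂ) (m : ℕ) : pvthSim z (pvurS 𝔓 m : ℂ) '' pvkgG.Ew ⊆ pvieSh z (pvnuRO 𝔓 m) := by
  rw [pvvn_sim_sh]
  exact Set.image_mono (Set.image_mono pvkgg_ze.EO)

/-- the truncated rooms of the exit side lie in the window `Ep` -/
theorem pvvn_Ln_Ep (β : Bool) : (pvhfT pvkgG.a).Ln true β ⊆ pvkgEp := by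
  have ha : pvkgG.a = 1 / 40 := rfl
  rw [ha]
  intro w hw
  right
  cases β <;> simp only [pvhfT, pvkdRect, rswRect, if_true, if_false, Bool.false_eq_true, mem_union, mem_ofPred_eq] at hw <;>
    rcases hw with ⟨h1, h2, h3, h4⟩ | ⟨h1, h2, h3, h4⟩ <;> refine ⟨?_, ?_, ?_, ?_⟩ <;> linarith

/-- the truncated rooms of the entrance side lie in the window `Em` -/
theorem pvvn_Ln_Em (β : Bool) : (pvhfT pvkgG.a).Ln false β ⊆ pvkgEm := by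
  have ha : pvkgG.a = 1 / 40 := rfl
  rw [ha]
  intro w hw
  right
  cases β <;> simp only [pvhfT, pvkdRect, rswRect, if_true, if_false, Bool.false_eq_true, mem_union, mem_ofPred_eq] at hw <;>
    rcases hw with ⟨h1, h2, h3, h4⟩ | ⟨h1, h2, h3, h4⟩ <;> refine ⟨?_, ?_, ?_, ?_⟩ <;> linarith

/-- `hb hw` at `e`: off the region of the plug the placed rooms lie in the tile -/
theorem pvvn_Ln_e (H : PveaPar 𝔓 m0) {m : ℕ} (hm : m0 ≤ m) {t : τ} (hT : pviwTyOk 𝔓 t) (z : ℂ) (β : Bool) :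
    pvthSim (pvieZu 𝔓 m z t) (pvurS 𝔓 m : ℂ) '' (pvhfT pvkgG.a).Ln true β \ pvieSh (pvieZu 𝔓 m z t) (pvnuRO 𝔓 m) ⊆ pvieSh z (pvnuEK 𝔓 m t) := by
  rintro v ⟨hv, hn⟩
  exact (pvvn_win_e H hm hT z (Set.image_mono (pvvn_Ln_Ep β) hv)).resolve_left hn

/-- `hb hw` at `f` -/
theorem pvvn_Ln_f (H : PveaPar 𝔓 m0) {m : ℕ} (hm : m0 ≤ m) {t : τ} (hT : pviwTyOk 𝔓 t) (z : ℂ) (β : Bool) :
    pvthSim (pvieZu 𝔓 m z t) (pvurS 𝔓 m : ℂ) '' (pvhfT pvkgG.a).Ln false β \ pvieSh (pvieZu 𝔓 m z t) (pvnuRO 𝔓 m) ⊆ pvieSh z (pvnuFK 𝔓 m t) := by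
  rintro v ⟨hv, hn⟩
  exact (pvvn_win_f H hm hT z (Set.image_mono (pvvn_Ln_Em β) hv)).resolve_left hn

/-- `hb hw` at `r` -/
theorem pvvn_Ln_r (hρ : 0 < 𝔓.num.rho) {m : ℕ} (hn : 0 ≤ pvxrNw 𝔓 m) {O0 : ℕ → Set ℂ} {r : ℝ} (hO : O0 m ⊆ pvccSq 0 r) (hr : r ≤ 9 * pvlmDel c m / 40) (β : Bool) :
    pvthSim 0 (pvurS 𝔓 m : ℂ) '' (pvhfT pvkgG.a).Ln false β \ pvnuRO 𝔓 m ⊆ pvnuRK 𝔓 O0 m := by
  rintro v ⟨hv, hn'⟩
  exact (pvvn_win_r hρ hn hO hr (Set.image_mono (pvvn_Ln_Em β) hv)).resolve_left hn'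

end model

end Claimed.Agent.R289
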