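-- KEEP
import Claimed.Agent.R289.Exit.RefWin
import Claimed.Agent.R289.Tr.HookTE
import Claimed.Agent.R289.Tr.GoodH
import Claimed.Agent.R289.Tr.LinkME
import Claimed.Agent.R289.Tr.FrcDetA
import Claimed.Agent.R289.Tr.HookTD
import Claimed.Agent.R289.Exit.HookTE

/-!
# Row 289 (S0537), THE WALL, ROAD E, E10 (b3) DET AT THE THICK LINK `e`, file Exit/FrcTR : THE DOOR FIELDS OF `PvhoLay` (266, `Tr/FrcDetA`) AT THE REFERENCE PLUG, NUMERALS OF U4      (helper80; prefix `pvji_`, `Pvji`)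

SHARE OF 80 IN THE SPLIT OF `pvet_rtE_det` (54, `Exit/FrcT` v2): fields **`nz door foot tgt roomF`**.      `ζd := 1` (the reference plug sits at `(zu, 1)`), cut `xc := re zu + 13 q / 4` (`q` = unit of the plug `= s r₀`), bars of 21 (`pvmvBar β ..` behind the first door `pvehZ Δ zu = zu + Δ/2` of the corridor, frame `(Δ : ℂ)`).
* sec. 1  MODEL FREE, NUMERAL FREE: `PvjiNum Δ q μ dl tb wb ob u₀` (the four inequalities at the door + signs), `pvji_door` (`Pvge4DoorReg`, := `pvht_e_doorReg` of 165 + `Pvge5Side` of 298), `pvji_foot`, `pvji_tgt`, `pvji_off` (beyond the cut a point is off the open square `13 q / 4`)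
* sec. 2  NUMERALS OF RECORD (R26 of 234; 21 `Tr/LinkME` v3.1): `pvji_num_u4 : PvjiNum Δ (Δ/20) μ (Δ/512) (51/160) (1/128) (1/100) (21/256)` for `0 < μ ≤ Δ / 1000`
* sec. 4  **AT THE DATA OF RECORD OF 165 (`Tr/HookTD`), IN THE WORDS OF THE CONTRACT `PvetDet.lay : PvhuLayD` (66, `Tr/HookTM`)**: `pvji_d_ge4` (cut record), **`pvji_d_door`** (= field `door`), **`pvji_d_roomF`** (= field `roomF`), generic engine, scale, truncation;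
          **`pvji_u4_door`, `pvji_u4_roomF`** = the same at the U4 lines (`pvilRu = pvurRu`, `rO = pvnuRO`, `eK = pvnuEK`, scale `pvurS`, rooms and targets of `pvhfT pvkgG.a`: `.fine`, `pvk2T` included)
* sec. 3  AT THE MODEL, GENERIC ENGINE: names of the legs `pvjiD` (the bar of the relative colour `β`), of the five numbers `pvjiXc pvjiXa pvjiXb pvjiY0 pvjiY1`;   **`pvji_e_door _foot _tgt _roomF`** in the words of the fields;   region lines as hypotheses (`hO hK offK`), paid at the U4 names of 84 by `pvji_u4_O`, `pvji_u4_K` (173 `pvvn_Ln_e`)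
-/

set_option autoImplicit false
set_option linter.unusedSectionVars false
set_option linter.unusedVariables false

namespace Claimed.Agent.R289

open Set Metric Complex Claims.C0465

/-! ## 1. model free -/

/-- **THE NUMBERS AT THE DOOR OF THE REFERENCE PLUG**: block `Δ`, unit of the plug `q`, mesh `μ`, grid of the pattern `dl`, bar of 21 at the abscissa `-tb` behind the first door (half thickness `wb`), from the line `u₀` to the offset `ob` -/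
structure PvjiNum (Δ q μ dl tb wb ob u₀ : ℝ) : Prop where
  Δ0 : 0 < Δ
  q0 : 0 < q
  mu : 0 < μ
  w0 : 0 ≤ wb
  /-- the bar stands beyond the cut -/
  cut : 13 * q / 4 + 2 * μ ≤ Δ / 2 - Δ * (tb + wb)
  /-- the bar stands before the targets -/
  tgt : Δ / 2 - Δ * (tb - wb) ≤ 4 * q
  lo : Δ * ob + 3 / 2 * dl + μ ≤ q / 2
  hi : 3 * q / 2 + μ + 3 / 2 * dl ≤ Δ * u₀

section gen

variable {r₀ s q Δ μ dl tb wb ob u₀ b₀ : ℝ} {Ln Dr : Bool → Set ℂ}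

theorem pvji_Z_re (Δ : ℝ) (p : ℂ) : ((1 : ℂ) * pvehZ Δ p).re = p.re + Δ / 2 := by
  unfold pvehZ; simp

theorem pvji_Z_im (Δ : ℝ) (p : ℂ) : ((1 : ℂ) * pvehZ Δ p).im = p.im := by
  unfold pvehZ; simp

theorem pvji_at_re (p : ℂ) (s : ℝ) (v : ℂ) : ((1 : ℂ) * pvthSim p (1 * (s : ℂ)) v).re = p.re + s * v.re := by
  unfold pvthSim; simp

theorem pvji_at_im (p : ℂ) (s : ℝ) (v : ℂ) : ((1 : ℂ) * pvthSim p (1 * (s : ℂ)) v).im = p.im + s * v.im := by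
  unfold pvthSim; simp

/-- **field `door`**: the bar of 21 of the side `β` is a leg across the room of the half lane of colour `β` of the exit side, beyond the cut `13 q / 4` -/
theorem pvji_door (G : Pvge5Side r₀ true Ln Dr) (hs : 0 < s) (hq : q = s * r₀) (N : PvjiNum Δ q μ dl tb wb ob u₀) (p : ℂ) (l : List PvtTurn) (β : Bool) :
    Pvge4DoorReg 1 dl μ (p.re + 13 * q / 4) (((1 : ℂ) * pvehZ Δ p).re - Δ * (tb + wb)) (((1 : ℂ) * pvehZ Δ p).re - Δ * (tb - wb))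
      (((1 : ℂ) * pvehZ Δ p).im + pvmvLo β (q / 2 - μ) (3 * q / 2 + μ)) (((1 : ℂ) * pvehZ Δ p).im + pvmvHi β (q / 2 - μ) (3 * q / 2 + μ)) (pvkdAt p (1 * (s : ℂ)) (Ln β))
      (pvmvBar β b₀ tb wb ob (pvehZ Δ p) (Δ : ℂ), pvljPt (pvehZ Δ p) (Δ : ℂ) l 0 (-tb) (pvge2Sg β * u₀), pvljPt (pvehZ Δ p) (Δ : ℂ) l 0 (-tb) (pvge2Sg β * ob)) := by
  refine pvht_e_doorReg (ζd := 1) (one_mul _) N.Δ0 β l N.mu N.w0 ?_ ?_ N.lo N.hi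
  · rw [pvji_Z_re]
    linarith [N.cut]
  · rintro _ ⟨v, hv, rfl⟩ hx
    rw [pvji_at_re] at hx
    rw [pvji_at_im, pvji_Z_im]
    have h1 : 13 * r₀ / 4 < pvge5E true * v.re := by
      have e : pvge5E true = 1 := by simp [pvge5E]
      rw [e, one_mul]
      have : s * (13 * r₀ / 4) < s * v.re := by rw [hq] at hx; nlinarith
      exact lt_of_mul_lt_mul_left this hs.le
    obtain ⟨h2, h3⟩ := G.room β v hv h1
    have e : pvge2Sg β * (p.im + s * v.im - p.im) = s * (pvge2Sg β * v.im) := by ring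
    rw [e, hq]
    constructor <;> nlinarith

/-- **field `foot`**: the disc of the gate lies before the cut -/
theorem pvji_foot (hq : 0 < q) (p : ℂ) : ∀ w ∈ ball p (pvkdP q).b, ((1 : ℂ) * w).re ≤ p.re + 13 * q / 4 := by
  intro w hw
  rw [mem_ball, dist_eq_norm] at hw
  have h1 : ‖w - p‖ < 2 * q := hw
  have h2 := (le_abs_self _).trans (Complex.abs_re_le_norm (w - p))
  rw [sub_re] at h2
  rw [one_mul]
  linarith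

/-- **field `tgt`**: the targets lie beyond the bar -/
theorem pvji_tgt (G : Pvge5Side r₀ true Ln Dr) (hs : 0 < s) (hq : q = s * r₀) (N : PvjiNum Δ q μ dl tb wb ob u₀) (p : ℂ) (β : Bool) :
    ∀ w ∈ pvkdAt p (1 * (s : ℂ)) (Dr β), ((1 : ℂ) * pvehZ Δ p).re - Δ * (tb - wb) ≤ ((1 : ℂ) * w).re := by
  rintro _ ⟨v, hv, rfl⟩
  rw [pvji_at_re, pvji_Z_re]
  have h1 := G.tgt β v hv
  have e : pvge5E true = 1 := by simp [pvge5E]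
  rw [e, one_mul] at h1
  have h2 : s * (4 * r₀) ≤ s * v.re := mul_le_mul_of_nonneg_left h1 hs.le
  have := N.tgt
  rw [hq] at this
  nlinarith

/-- beyond the cut a point is off the placed open square `13 q / 4` -/
theorem pvji_off {p w : ℂ} {O : Set ℂ} (hO : O ⊆ pvccSq 0 (13 * q / 4)) (hx : p.re + 13 * q / 4 < ((1 : ℂ) * w).re) : w ∉ pvieSh p O := by
  rintro ⟨v, hv, rfl⟩
  have h1 : pvccN (v - 0) < 13 * q / 4 := hO hv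
  rw [sub_zero] at h1
  have h2 : |v.re| < 13 * q / 4 := lt_of_le_of_lt (le_max_left _ _) h1
  have h3 := (abs_lt.1 h2).2
  simp only [one_mul, add_re] at hx
  linarith

end gen

/-! ## 2. the numerals of record (U4) -/

/-- **R26 of 234, numerals of 31 / 21 (`Tr/LinkME` v3.1)**: unit `q = Δ / 20`, bar `tb = 51/160`, `wb = 1/128`, inner end `ob = 1/100`, line `u₀ = 21/256`, grid `Δ / 512` -/
theorem pvji_num_u4 {Δ μ : ℝ} (hμ : 0 < μ) (h : 1000 * μ ≤ Δ) : PvjiNum Δ (Δ / 20) μ (Δ / 512) (51 / 160) (1 / 128) (1 / 100) (21 / 256) := by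
  have hΔ : 0 < Δ := by linarith
  refine ⟨hΔ, by linarith, hμ, by norm_num, ?_, ?_, ?_, ?_⟩ <;> linarith

/-! ## 3. at the model -/

section model

variable {τ : Type} {c : ℝ} (𝔓 : PvxPar τ c)

/-- **the bar in front of the reference plug, relative colour `β`** = the last leg of the route of relative colour `β` of the pattern of record `pvmvPatE 𝔓 m z t false (𝔓.col t)` of 21 -/
noncomputable def pvjiD (m : ℕ) (z : ℂ) (t : τ) (β : Bool) : Set ℂ × ℂ × ℂ :=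
  (pvmvBar β (23 / 256) (51 / 160) (1 / 128) (1 / 100) (pvehZ (pvehDl 𝔓 m) (z + (pvxrGam 𝔓 m).zu t)) (pvehDl 𝔓 m : ℂ),
    pvljPt (pvehZ (pvehDl 𝔓 m) (z + (pvxrGam 𝔓 m).zu t)) (pvehDl 𝔓 m : ℂ) (pvxrLe (pvxrB 𝔓 t)) 0 (-(51 / 160)) (pvge2Sg β * (21 / 256)),
    pvljPt (pvehZ (pvehDl 𝔓 m) (z + (pvxrGam 𝔓 m).zu t)) (pvehDl 𝔓 m : ℂ) (pvxrLe (pvxrB 𝔓 t)) 0 (-(51 / 160)) (pvge2Sg β * (1 / 100)))

/-- the cut -/
noncomputable def pvjiXc (m : ℕ) (z : ℂ) (t : τ) (_ : Bool) : ℝ := (z + (pvxrGam 𝔓 m).zu t).re + 13 * (pvehDl 𝔓 m / 20) / 4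
/-- the bar, near side -/
noncomputable def pvjiXa (m : ℕ) (z : ℂ) (t : τ) (_ : Bool) : ℝ := ((1 : ℂ) * pvehZ (pvehDl 𝔓 m) (z + (pvxrGam 𝔓 m).zu t)).re - pvehDl 𝔓 m * (51 / 160 + 1 / 128)
/-- the bar, far side -/
noncomputable def pvjiXb (m : ℕ) (z : ℂ) (t : τ) (_ : Bool) : ℝ := ((1 : ℂ) * pvehZ (pvehDl 𝔓 m) (z + (pvxrGam 𝔓 m).zu t)).re - pvehDl 𝔓 m * (51 / 160 - 1 / 128)
/-- the strip of the room with its collar, lower end -/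
noncomputable def pvjiY0 (m : ℕ) (z : ℂ) (t : τ) (β : Bool) : ℝ :=
  ((1 : ℂ) * pvehZ (pvehDl 𝔓 m) (z + (pvxrGam 𝔓 m).zu t)).im + pvmvLo β (pvehDl 𝔓 m / 20 / 2 - pvilMu 𝔓 m) (3 * (pvehDl 𝔓 m / 20) / 2 + pvilMu 𝔓 m)
/-- upper end -/
noncomputable def pvjiY1 (m : ℕ) (z : ℂ) (t : τ) (β : Bool) : ℝ :=
  ((1 : ℂ) * pvehZ (pvehDl 𝔓 m) (z + (pvxrGam 𝔓 m).zu t)).im + pvmvHi β (pvehDl 𝔓 m / 20 / 2 - pvilMu 𝔓 m) (3 * (pvehDl 𝔓 m / 20) / 2 + pvilMu 𝔓 m)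

theorem pvji_eqns_cite : True := by
  have := @pvjiD.eq_1; have := @pvjiXc.eq_1; have := @pvjiXa.eq_1; have := @pvjiXb.eq_1; have := @pvjiY0.eq_1; have := @pvjiY1.eq_1
  trivial

variable {𝔓} {𝔈 : PvieEng τ} {m : ℕ} {t : τ} {r₀ s : ℝ} {𝔱 : PvhfTr}

/-- the mesh of the windows against the block -/
theorem pvji_mu_Dl (hn : 0 ≤ pvxrNw 𝔓 m) : 1000 * pvilMu 𝔓 m ≤ pvehDl 𝔓 m := by
  have h1 := pveh_Del_le_Dl (𝔓 := 𝔓) hn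
  have h2 := min_le_left (pvlmDel c m) (𝔓.num.rho3 * pvlmH m)
  unfold pvilMu
  linarith

/-- the numbers at the model -/
theorem pvji_num (hρ3 : 0 < 𝔓.num.rho3) (hn : 0 ≤ pvxrNw 𝔓 m) : PvjiNum (pvehDl 𝔓 m) (pvehDl 𝔓 m / 20) (pvilMu 𝔓 m) (pvehDl 𝔓 m / 512) (51 / 160) (1 / 128) (1 / 100) (21 / 256) :=
  pvji_num_u4 (div_pos (lt_min (pvlm_Del_pos c m) (mul_pos hρ3 (pvlm_H_pos m))) (by norm_num)) (pvji_mu_Dl hn)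

/-- **field `door` of `PvhoLay` at `e`** -/
theorem pvji_e_door (hΓ : 𝔓.Γ m = pvxrGam 𝔓 m) (hρ3 : 0 < 𝔓.num.rho3) (hn : 0 ≤ pvxrNw 𝔓 m) (G : Pvge5Side r₀ true (𝔱.Ln true) (𝔱.Dr true)) (hs : 0 < s) (hq : pvehDl 𝔓 m / 20 = s * r₀) (z : ℂ) (β : Bool) :
    Pvge4DoorReg 1 (pvehDl 𝔓 m / 512) (pvilMu 𝔓 m) (pvjiXc 𝔓 m z t β) (pvjiXa 𝔓 m z t β) (pvjiXb 𝔓 m z t β) (pvjiY0 𝔓 m z t β) (pvjiY1 𝔓 m z t β)
      (pvkdAt (pvieZu 𝔓 m z t) (1 * (s : ℂ)) (𝔱.Ln true β)) (pvjiD 𝔓 m z t β) := by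
  have e : pvieZu 𝔓 m z t = z + (pvxrGam 𝔓 m).zu t := by unfold pvieZu; rw [hΓ]
  rw [e]
  exact pvji_door G hs hq (pvji_num hρ3 hn) _ _ β

/-- **field `foot` of `PvhoLay` at `e`** -/
theorem pvji_e_foot (hΓ : 𝔓.Γ m = pvxrGam 𝔓 m) (hn : 0 ≤ pvxrNw 𝔓 m) (hu : pvilRu 𝔈 m = pvehDl 𝔓 m / 20) (z : ℂ) (β : Bool) :
    ∀ w ∈ ball (pvilLe 𝔓 𝔈 m z t).p.z (pvkdP (pvilLe 𝔓 𝔈 m z t).p.h).b, ((1 : ℂ) * w).re ≤ pvjiXc 𝔓 m z t β := by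
  have e : pvieZu 𝔓 m z t = z + (pvxrGam 𝔓 m).zu t := by unfold pvieZu; rw [hΓ]
  show ∀ w ∈ ball (pvieZu 𝔓 m z t) (pvkdP (pvilRu 𝔈 m)).b, _
  rw [e, hu]
  exact pvji_foot (by have := pveh_Dl_pos (𝔓 := 𝔓) hn; linarith) _

/-- **field `tgt` of `PvhoLay` at `e`** -/
theorem pvji_e_tgt (hΓ : 𝔓.Γ m = pvxrGam 𝔓 m) (hρ3 : 0 < 𝔓.num.rho3) (hn : 0 ≤ pvxrNw 𝔓 m) (G : Pvge5Side r₀ true (𝔱.Ln true) (𝔱.Dr true)) (hs : 0 < s) (hq : pvehDl 𝔓 m / 20 = s * r₀) (z : ℂ) (β : Bool) :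
    ∀ w ∈ pvkdAt (pvieZu 𝔓 m z t) (1 * (s : ℂ)) (𝔱.Dr true β), pvjiXb 𝔓 m z t β ≤ ((1 : ℂ) * w).re := by
  have e : pvieZu 𝔓 m z t = z + (pvxrGam 𝔓 m).zu t := by unfold pvieZu; rw [hΓ]
  rw [e]
  exact pvji_tgt G hs hq (pvji_num hρ3 hn) _ β

/-- **field `roomF` of `PvhoLay` at `e`**, generic engine: `hO` (the region of the plug lies in the open square `13 q / 4`), `hK` (off the region of the plug the placed rooms lie in the tile), `offK` (the tile is off the own-level box) -/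
theorem pvji_e_roomF (hΓ : 𝔓.Γ m = pvxrGam 𝔓 m) (hO : 𝔈.rO m ⊆ pvccSq 0 (13 * (pvehDl 𝔓 m / 20) / 4)) (z : ℂ) (β : Bool)
    (hK : pvthSim (pvieZu 𝔓 m z t) (s : ℂ) '' 𝔱.Ln true β \ pvieSh (pvieZu 𝔓 m z t) (𝔈.rO m) ⊆ pvieSh z (𝔈.eK m t)) (offK : Disjoint (𝔈.eK m t) (pviwBox 𝔓 m t)) :
    ∀ w ∈ pvkdAt (pvieZu 𝔓 m z t) (1 * (s : ℂ)) (𝔱.Ln true β), pvjiXc 𝔓 m z t β < ((1 : ℂ) * w).re → w ∈ (pvieSh z (𝔈.eM m t) ∪ pvieSh z (𝔈.eK m t)) \ pvwSq z (pviwRad 𝔓 m t) := by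
  have e : pvieZu 𝔓 m z t = z + (pvxrGam 𝔓 m).zu t := by unfold pvieZu; rw [hΓ]
  intro w hw hx
  have h1 : w ∉ pvieSh (pvieZu 𝔓 m z t) (𝔈.rO m) := by
    rw [e]
    exact pvji_off hO hx
  have h2 : w ∈ pvieSh z (𝔈.eK m t) := by
    refine hK ⟨?_, h1⟩
    unfold pvkdAt at hw
    rwa [one_mul] at hw
  refine ⟨Or.inr h2, fun hb => ?_⟩
  obtain ⟨v, hv, rfl⟩ := h2
  refine Set.disjoint_left.1 offK hv ?_
  have hδ := pvlm_Del_pos c m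
  obtain ⟨b1, b2⟩ := hb
  rw [add_sub_cancel_left] at b1 b2
  exact ⟨by rw [sub_zero]; linarith, by rw [sub_zero]; linarith⟩

/-- `hO` at the U4 region of 84 -/
theorem pvji_u4_O (hρ : 0 < 𝔓.num.rho) (m : ℕ) : pvnuRO 𝔓 m ⊆ pvccSq 0 (13 * (pvehDl 𝔓 m / 20) / 4) := by
  rw [pvnu4_RO_sq hρ]
  have e : 13 * (pvehDl 𝔓 m / 20) / 4 = 13 * pvehDl 𝔓 m / 80 := by ring
  rw [e]

/-- the scale and the unit of U4 -/
theorem pvji_u4_q (m : ℕ) : pvehDl 𝔓 m / 20 = pvurS 𝔓 m * (1 / 40) := by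
  unfold pvurS; ring

end model

/-! ## 4. at the data of record of 165, in the words of the contract -/

section data

variable {τ : Type} {c : ℝ} {𝔓 : PvxPar τ c} {𝔈 : PvieEng τ} {m : ℕ} {t : τ} {r₀ s : ℝ} {𝔱 : PvhfTr}

theorem pvji_d_Xs (m : ℕ) (z : ℂ) (t : τ) (β : Bool) : pvhtdXs 𝔓 m z t = pvjiXc 𝔓 m z t β := by
  unfold pvhtdXs pvjiXc pvhtdZ
  rw [pvji_Z_re]
  ring

theorem pvji_d_Y0 (m : ℕ) (z : ℂ) (t : τ) (β : Bool) : pvhtdY0 𝔓 m z t β = pvjiY0 𝔓 m z t β := by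
  unfold pvhtdY0 pvjiY0 pvhtdZ
  rw [Bool.not_not]
  have e1 : pvehDl 𝔓 m / 40 - pvilMu 𝔓 m = pvehDl 𝔓 m / 20 / 2 - pvilMu 𝔓 m := by ring
  have e2 : 3 * pvehDl 𝔓 m / 40 + pvilMu 𝔓 m = 3 * (pvehDl 𝔓 m / 20) / 2 + pvilMu 𝔓 m := by ring
  rw [e1, e2]

theorem pvji_d_Y1 (m : ℕ) (z : ℂ) (t : τ) (β : Bool) : pvhtdY1 𝔓 m z t β = pvjiY1 𝔓 m z t β := by
  unfold pvhtdY1 pvjiY1 pvhtdZ
  rw [Bool.not_not]
  have e1 : pvehDl 𝔓 m / 40 - pvilMu 𝔓 m = pvehDl 𝔓 m / 20 / 2 - pvilMu 𝔓 m := by ring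
  have e2 : 3 * pvehDl 𝔓 m / 40 + pvilMu 𝔓 m = 3 * (pvehDl 𝔓 m / 20) / 2 + pvilMu 𝔓 m := by ring
  rw [e1, e2]

theorem pvji_d_D (m : ℕ) (z : ℂ) (t : τ) (β : Bool) : pvhtdD 𝔓 m z t β = pvjiD 𝔓 m z t β := by
  unfold pvhtdD pvjiD pvhtdZ
  rw [Bool.not_not]

/-- the cut door record of 298 at the data of record -/
theorem pvji_d_ge4 (hΓ : 𝔓.Γ m = pvxrGam 𝔓 m) (hρ3 : 0 < 𝔓.num.rho3) (hn : 0 ≤ pvxrNw 𝔓 m) (G : Pvge5Side r₀ true (𝔱.Ln true) (𝔱.Dr true)) (hs : 0 < s) (hq : pvehDl 𝔓 m / 20 = s * r₀) (z : ℂ) (β : Bool) :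
    Pvge4DoorReg 1 (pvehDl 𝔓 m / 512) (pvilMu 𝔓 m) (pvhtdXs 𝔓 m z t) (pvhtdXa 𝔓 m z t) (pvhtdXb 𝔓 m z t) (pvhtdY0 𝔓 m z t β) (pvhtdY1 𝔓 m z t β)
      (pvkdAt (pvieZu 𝔓 m z t) (1 * (s : ℂ)) (𝔱.Ln true β)) (pvhtdD 𝔓 m z t β) := by
  rw [pvji_d_Xs m z t β, pvji_d_Y0, pvji_d_Y1, pvji_d_D]
  exact pvji_e_door hΓ hρ3 hn G hs hq z β

/-- **FIELD `door` OF `PvhuLayD` AT THE DATA OF RECORD**, generic engine (`hu`: the unit of the reference plug is `Δ / 20`), scale `s`, truncation `𝔱` -/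
theorem pvji_d_door (hΓ : 𝔓.Γ m = pvxrGam 𝔓 m) (hρ3 : 0 < 𝔓.num.rho3) (hn : 0 ≤ pvxrNw 𝔓 m) (hu : pvilRu 𝔈 m = pvehDl 𝔓 m / 20) (G : Pvge5Side r₀ true (𝔱.Ln true) (𝔱.Dr true)) (hs : 0 < s)
    (hq : pvehDl 𝔓 m / 20 = s * r₀) (z : ℂ) :
    PvhuDoorRegD 1 (pvehDl 𝔓 m / 512) (pvilMu 𝔓 m) (ball (pvilLe 𝔓 𝔈 m z t).p.z (pvkdP (pvilLe 𝔓 𝔈 m z t).p.h).b)
      (fun β => pvkdAt (pvieZu 𝔓 m z t) (1 * (s : ℂ)) (𝔱.Ln true β)) (fun β => pvkdAt (pvieZu 𝔓 m z t) (1 * (s : ℂ)) (𝔱.Dr true β)) (pvhtdD 𝔓 m z t)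
      (fun _ => pvhtdXs 𝔓 m z t) (fun _ => pvhtdXa 𝔓 m z t) (fun _ => pvhtdXb 𝔓 m z t) (pvhtdY0 𝔓 m z t) (pvhtdY1 𝔓 m z t) :=
  PvhuDoorRegD.of_ge4 (by simp) (fun β => pvji_d_ge4 hΓ hρ3 hn G hs hq z β)
    (fun β w hw => by
      show ((1 : ℂ) * w).re ≤ pvhtdXs 𝔓 m z t
      rw [pvji_d_Xs m z t β]
      exact pvji_e_foot hΓ hn hu z β w hw)
    (fun β => pvji_e_tgt hΓ hρ3 hn G hs hq z β)

/-- **FIELD `roomF` OF `PvhuLayD` AT THE DATA OF RECORD**, generic engine -/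
theorem pvji_d_roomF (hΓ : 𝔓.Γ m = pvxrGam 𝔓 m) (hO : 𝔈.rO m ⊆ pvccSq 0 (13 * (pvehDl 𝔓 m / 20) / 4)) (z : ℂ)
    (hK : ∀ β, pvthSim (pvieZu 𝔓 m z t) (s : ℂ) '' 𝔱.Ln true β \ pvieSh (pvieZu 𝔓 m z t) (𝔈.rO m) ⊆ pvieSh z (𝔈.eK m t)) (offK : Disjoint (𝔈.eK m t) (pviwBox 𝔓 m t)) :
    ∀ β, ∀ w ∈ pvkdAt (pvieZu 𝔓 m z t) (1 * (s : ℂ)) (𝔱.Ln true β), pvhtdXs 𝔓 m z t < ((1 : ℂ) * w).re → w ∈ (pvieSh z (𝔈.eM m t) ∪ pvieSh z (𝔈.eK m t)) \ pvwSq z (pviwRad 𝔓 m t) := by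
  intro β w hw hx
  rw [pvji_d_Xs m z t β] at hx
  exact pvji_e_roomF hΓ hO z β (hK β) offK w hw hx

/-- what is read of a truncation with the rooms and targets of record -/
theorem pvji_side_of (hLn : 𝔱.Ln = (pvhfT pvkgG.a).Ln) (hDr : 𝔱.Dr = (pvhfT pvkgG.a).Dr) (σ : Bool) : Pvge5Side (1 / 40) σ (𝔱.Ln σ) (𝔱.Dr σ) := by
  rw [hLn, hDr]
  exact pvge5_side_T (r₀ := 1 / 40) (by norm_num) σ

variable {m0 : ℕ}

/-- **FIELD `door` AT THE U4 LINES** -/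
theorem pvji_u4_door (H : PveaPar 𝔓 m0) (hm : m0 ≤ m) (hT : pviwTyOk 𝔓 t) (hρ3 : 0 < 𝔓.num.rho3) (hu : pvilRu 𝔈 m = pvurRu 𝔓 m) (hLn : 𝔱.Ln = (pvhfT pvkgG.a).Ln) (hDr : 𝔱.Dr = (pvhfT pvkgG.a).Dr) (z : ℂ) :
    PvhuDoorRegD 1 (pvehDl 𝔓 m / 512) (pvilMu 𝔓 m) (ball (pvilLe 𝔓 𝔈 m z t).p.z (pvkdP (pvilLe 𝔓 𝔈 m z t).p.h).b)
      (fun β => pvkdAt (pvieZu 𝔓 m z t) (1 * (pvurS 𝔓 m : ℂ)) (𝔱.Ln true β)) (fun β => pvkdAt (pvieZu 𝔓 m z t) (1 * (pvurS 𝔓 m : ℂ)) (𝔱.Dr true β)) (pvhtdD 𝔓 m z t)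
      (fun _ => pvhtdXs 𝔓 m z t) (fun _ => pvhtdXa 𝔓 m z t) (fun _ => pvhtdXb 𝔓 m z t) (pvhtdY0 𝔓 m z t) (pvhtdY1 𝔓 m z t) := by
  have G := H.geo m hm t hT
  exact pvji_d_door (by rw [H.gam]) hρ3 G.n0 hu (pvji_side_of hLn hDr true) (pvur_S_pos H.rho0 m) (pvji_u4_q m) z

/-- **FIELD `roomF` AT THE U4 LINES** (`hK` := `pvvn_Ln_e` of 173) -/
theorem pvji_u4_roomF (H : PveaPar 𝔓 m0) (hm : m0 ≤ m) (hT : pviwTyOk 𝔓 t) (hO : 𝔈.rO m = pvnuRO 𝔓 m) (hK : 𝔈.eK m t = pvnuEK 𝔓 m t) (offK : Disjoint (𝔈.eK m t) (pviwBox 𝔓 m t)) (hLn : 𝔱.Ln = (pvhfT pvkgG.a).Ln) (z : ℂ) :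
    ∀ β, ∀ w ∈ pvkdAt (pvieZu 𝔓 m z t) (1 * (pvurS 𝔓 m : ℂ)) (𝔱.Ln true β), pvhtdXs 𝔓 m z t < ((1 : ℂ) * w).re → w ∈ (pvieSh z (𝔈.eM m t) ∪ pvieSh z (𝔈.eK m t)) \ pvwSq z (pviwRad 𝔓 m t) := by
  refine pvji_d_roomF (by rw [H.gam]) (by rw [hO]; exact pvji_u4_O H.rho0 m) z (fun β => ?_) offK
  rw [hO, hK, hLn]
  exact pvvn_Ln_e H hm hT z β

end data

end Claimed.Agent.R289
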