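-- KEEP
import Claimed.Agent.R289.Tr.HookTM
import Claimed.Agent.R289.Tr.HookTD
import Claimed.Agent.R289.Tr.FrcDetO
import Claimed.Agent.R289.Tr.CycD
import Claimed.Agent.R289.Exit.EngRec
import Claimed.Agent.R289.Exit.ParGr

/-!
# Row 289 (S0537), THE WALL, ROAD E, Exit/FrcTT : THE FIELD `tip : PvhuTipD` OF `PvetDet` (66, `Tr/HookTM`, `Exit/FrcT`) AT THE RECORD      (helper274; prefix `pvffk_`)

DATA OF THE TIP (`R = ρ h`):   `μ₀ := δ_m / 3`,  `μ' := pvilMu / 40`,  `r := ρ₂ h`,  `r₁ := R / 2`,  `ρ := pvilMu / 40`,  `rs := R / 4`,  `ζ := conj (- din t)`;   `rt` FREE in the range of the field `rt0` .. `R / 4 - 5 ρ / 2`.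
* `pvffk_tip_gen` : ANY parameters with `PvhoNum` (266) + `PvegLev`, ANY engine with `PvieEng.Wf` and ONE line on the regions: `closedBall c⁻ (5 R / 16) ⊆ z + eM`.   NO other property of the engine: survives every swap of `eK eY rO`.
* `pvffk_tip` : at `pvxParOf`, engine of record.
-/

set_option autoImplicit false

namespace Claimed.Agent.R289

open MeasureTheory Filter Topology Set Metric Claims.C0465
open scoped ENNReal

section gen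

variable {τ : Type} {c : ℝ} {𝔓 : PvxPar τ c} {𝔈 : PvieEng τ} {m : ℕ} {t : τ}

/-- the mesh of record is positive -/
theorem pvffk_mu_pos (h3 : 0 < 𝔓.num.rho3) (m : ℕ) : 0 < pvilMu 𝔓 m := by
  unfold pvilMu
  have := lt_min (pvlm_Del_pos c m) (mul_pos h3 (pvlm_H_pos m))
  positivity

/-- the mesh of record against the cells -/
theorem pvffk_mu_le (𝔓 : PvxPar τ c) (m : ℕ) : 1000 * pvilMu 𝔓 m ≤ pvlmDel c m := by
  unfold pvilMu
  have := min_le_left (pvlmDel c m) (𝔓.num.rho3 * pvlmH m)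
  linarith

/-- `ζ = conj (- din t)` is a dominant direction of `c⁻ - z` -/
theorem pvffk_dom_i (hL : PvegLev 𝔓 m) (t : τ) (z : ℂ) : ∀ ζ' ∈ pvtzdDir, (ζ' * ((𝔓.ty t).cm (pvlmH m) z - z)).re ≤ ((starRingEnd ℂ) (-(𝔓.Γ m).din t) * ((𝔓.ty t).cm (pvlmH m) z - z)).re := by
  obtain ⟨e, u, hu, -, h2, -, h4⟩ := hL.doors.inn t
  have e1 : (𝔓.ty t).cm (pvlmH m) z - z = (pvlmH m : ℂ) * (𝔓.ty t).ym := by unfold PvwTy.cm; ring
  rw [e1]
  refine pvhj_dom_of_sup (pvlm_H_pos m).le ?_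
  rw [h2, neg_neg, mul_comm]
  exact h4

/-- `ζ = conj (dout t)` is a dominant direction of `c⁺ - z` -/
theorem pvffk_dom_o (hL : PvegLev 𝔓 m) (t : τ) (z : ℂ) : ∀ ζ' ∈ pvtzdDir, (ζ' * ((𝔓.ty t).cp (pvlmH m) z - z)).re ≤ ((starRingEnd ℂ) ((𝔓.Γ m).dout t) * ((𝔓.ty t).cp (pvlmH m) z - z)).re := by
  obtain ⟨e, u, hu, -, h2, -, h4⟩ := hL.doors.out t
  have e1 : (𝔓.ty t).cp (pvlmH m) z - z = (pvlmH m : ℂ) * (𝔓.ty t).yp := by unfold PvwTy.cp; ring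
  rw [e1]
  refine pvhj_dom_of_sup (pvlm_H_pos m).le ?_
  rw [h2, mul_comm]
  exact h4

/-- **THE TIP RECORD OF THE THICK LINK `e`, ANY ENGINE** -/
theorem pvffk_tip_gen {m0 : ℕ} {Cth : ℝ} {r κs : ℕ → ℝ} (H : PvieEng.Wf 𝔓 𝔈 m0 Cth r κs) (hm : m0 ≤ m) (n : PvhoNum 𝔓) (hL : PvegLev 𝔓 m) (hT : pviwTyOk 𝔓 t) (h3 : 0 < 𝔓.num.rho3) (hb1 : 1 ≤ (𝔓.ty t).b) (z : ℂ)
    (hc : ∀ w ∈ 𝔓.cm t, ‖w - (𝔓.ty t).ym‖ ≤ 𝔓.num.rho / 10)
    (hM : closedBall ((𝔓.ty t).cm (pvlmH m) z) (5 * (𝔓.num.rho * pvlmH m) / 16) ⊆ pvieSh z (𝔈.eM m t)) {rt : ℝ}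
    (ht0 : 𝔓.num.rho * pvlmH m / 10 + 4 * (pvilMu 𝔓 m / 40) ≤ rt) (ht1 : 2 * rt + 5 * (pvilMu 𝔓 m / 40) ≤ 𝔓.num.rho * pvlmH m / 2) :
    PvhuTipD 𝔓 𝔈 m z t (pvlmDel c m / 3) (pvilMu 𝔓 m / 40) (𝔓.num.rho2 * pvlmH m) (𝔓.num.rho * pvlmH m / 2) (pvilMu 𝔓 m / 40) (𝔓.num.rho * pvlmH m / 4) rt ((starRingEnd ℂ) (-(𝔓.Γ m).din t)) := by
  have hδ := pvlm_Del_pos c m
  have hh := pvlm_H_pos m
  have hμ := pvffk_mu_pos (𝔓 := 𝔓) h3 m
  have hμ' := pvffk_mu_le 𝔓 m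
  have hf := hL.fine
  obtain ⟨s1, s2, s3, s0⟩ := pvho_small n m
  have hr := pvho_rad n m t
  have hD := pvjh_disj H hm 0 z hT
  exact
    { mu0 := by positivity
      h3 := by linarith
      hb := by unfold pviwRad; linarith
      hr := by nlinarith
      offK := H.res_off m hm 0 t hT _ (by simp [pviwRes])
      offD := H.res_off m hm 0 t hT _ (by simp [pviwRes])
      MK := hD.MeKe
      MD := hD.MeRo
      mu' := by positivity
      num := pvho_endNum n m t (by positivity) (by linarith) le_rfl (by linarith)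
      rt0 := fun w hw => by
        have := pvho_cell hc hh (show w ∈ pvxPl z (pvlmH m) (𝔓.cm t) from hw)
        have e : (𝔓.ty t).cm (pvlmH m) z = z + (pvlmH m : ℂ) * (𝔓.ty t).ym := rfl
        rw [e]
        linarith
      rt1 := ht1
      big := by
        have := mul_nonneg (n.b0 t) hh.le
        unfold pviwRad
        linarith
      dir := pvho_dir_i hL t
      dom := pvffk_dom_i hL t z
      ball := (closedBall_subset_closedBall (by linarith)).trans hM }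

end gen

section rec

variable {c : ℝ} {N : PvxNums}

/-- **THE TIP RECORD OF THE THICK LINK `e` AT THE PARAMETERS OF RECORD, ANY ENGINE WITH THE MOUTH OF RECORD** -/
theorem pvffk_tip_par (hN : N.Ok) (c0 : 0 < c) {𝔈 : PvieEng (pvxTau N)} (hE : PvnaWf (pvxParOf N hN c) 𝔈) {m : ℕ} (hm : (pvxParOf N hN c).m0 ≤ m) (z : ℂ) (t : pvxTau N)
    (hM : pvegIM (pvxParOf N hN c) m t ⊆ 𝔈.eM m t) {rt : ℝ}
    (ht0 : (pvxParOf N hN c).num.rho * pvlmH m / 10 + 4 * (pvilMu (pvxParOf N hN c) m / 40) ≤ rt) (ht1 : 2 * rt + 5 * (pvilMu (pvxParOf N hN c) m / 40) ≤ (pvxParOf N hN c).num.rho * pvlmH m / 2) :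
    PvhuTipD (pvxParOf N hN c) 𝔈 m z t (pvlmDel c m / 3) (pvilMu (pvxParOf N hN c) m / 40) ((pvxParOf N hN c).num.rho2 * pvlmH m) ((pvxParOf N hN c).num.rho * pvlmH m / 2) (pvilMu (pvxParOf N hN c) m / 40)
      ((pvxParOf N hN c).num.rho * pvlmH m / 4) rt ((starRingEnd ℂ) (-((pvxParOf N hN c).Γ m).din t)) := by
  obtain ⟨Cth, r, κs, H⟩ := hE.wf
  refine pvffk_tip_gen H hm (pvho_num_par hN c) (pvqh_lev hN c0 hm) (pvqh_tyOk hN c t) hN.msk0 ?_ z (pvqh_cm hN c t) ?_ ht0 ht1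
  · show 1 ≤ N.b1
    linarith [hN.m_gt, hN.m_lt, hN.B_lt, hN.ab1]
  · rw [← pvho_iM]
    exact image_mono hM

/-- **`Θ` AT THE DATA OF RECORD OF 165 (`Tr/HookTD`), ANY ENGINE WITH THE MOUTH OF RECORD** = the field `tip` of `PvetDet` -/
theorem pvffk_tip_td (hN : N.Ok) (c0 : 0 < c) {𝔈 : PvieEng (pvxTau N)} (hE : PvnaWf (pvxParOf N hN c) 𝔈) {m : ℕ} (hm : (pvxParOf N hN c).m0 ≤ m) (z : ℂ) (t : pvxTau N)
    (hM : pvegIM (pvxParOf N hN c) m t ⊆ 𝔈.eM m t) :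
    PvhuTipD (pvxParOf N hN c) 𝔈 m z t (pvlmDel c m / 3) (pvilMu (pvxParOf N hN c) m / 40) (pvhtdR (pvxParOf N hN c) m) (pvhtdR1 (pvxParOf N hN c) m) (pvhtdRho (pvxParOf N hN c) m)
      (pvhtdRs (pvxParOf N hN c) m) (pvhtdRt (pvxParOf N hN c) m) (pvhtdZe (pvxParOf N hN c) t) := by
  have h := pvffk_tip_par hN c0 hE hm z t hM (rt := pvhtdRt (pvxParOf N hN c) m) le_rfl (by
    have h1 := pvqh_fine hN c0 hm
    have h2 := pvffk_mu_le (pvxParOf N hN c) m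
    have h3 := pvffk_mu_pos (𝔓 := pvxParOf N hN c) hN.msk0 m
    have h4 := pvlm_Del_pos c m
    unfold pvhtdRt pvegR
    linarith)
  have e : (starRingEnd ℂ) (-((pvxParOf N hN c).Γ m).din t) = pvhtdZe (pvxParOf N hN c) t := by
    show (starRingEnd ℂ) (- - Complex.I ^ pvxrB (pvxParOf N hN c) t) = (starRingEnd ℂ) (Complex.I ^ pvxrB (pvxParOf N hN c) t)
    rw [neg_neg]
  rw [e] at h
  exact h

/-- **`Θ` AT THE ENGINE OF RECORD** -/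
theorem pvffk_tip (hN : N.Ok) (c0 : 0 < c) {𝔈 : PvieEng (pvxTau N)} (hE : PvnaWf (pvxParOf N hN c) 𝔈) (hR : PvnaRec N hN c 𝔈) {m : ℕ} (hm : (pvxParOf N hN c).m0 ≤ m) (z : ℂ) (t : pvxTau N) :
    PvhuTipD (pvxParOf N hN c) 𝔈 m z t (pvlmDel c m / 3) (pvilMu (pvxParOf N hN c) m / 40) (pvhtdR (pvxParOf N hN c) m) (pvhtdR1 (pvxParOf N hN c) m) (pvhtdRho (pvxParOf N hN c) m)
      (pvhtdRs (pvxParOf N hN c) m) (pvhtdRt (pvxParOf N hN c) m) (pvhtdZe (pvxParOf N hN c) t) := by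
  obtain ⟨nb, rfl⟩ := hR
  exact pvffk_tip_td hN c0 hE hm z t (pvnr_eM N hN c nb m t).ge

end rec

end Claimed.Agent.R289
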