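-- KEEP
import Claimed.Agent.R289.Tr.LinkME
import Claimed.Agent.R289.Tr.UpMix

/-!
# Row 289 (S0537), THE WALL, ROAD E, file Exit/FrcTU : E10, LINK e, **THE PAYMENT OF THE FIELD `up` OF `PvetRt.Ok` AT THE ROUTES OF RECORD**      (helper232; prefix `pvuu_`)      0 sorry

GLUE over 21 (`Tr/LinkM`, `Tr/LinkME`: `pvmvPatE`, `pvmv_mid_cases`, `pvmv_side_disj`), 17 (`Tr/UpMix`: `PvubGeo`, `pvub_geo_rec`, `pvubOut`), 248 (`Tr/FrcPat`: `pvjpRm`).   NO NAME OF THE ENGINE OF RECORD: the scale `s` and the frozen region `D` are ARGUMENTS (survives U4: `s = 5 Δ / 2` or `2 Δ`).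
* sec. 1  model free, no numeral: **`pvuu_route_off`** : the route of one colour (mouth side `sd`, corridor side `!sd`) misses every set on the side `sd` of the extended corridor, in front of the last door
* sec. 2  `pvuu_out_pl` (the placed outer rectangle `pvubOut r true β` in the frame of the first door), `pvuu_front_e` (the east half of the block of the plug is in front of the last door)
* sec. 3  **`pvuu_off_e`** = the region line `off` of `pvub_geo_rec` at `pvmvPatE 𝔓 m zc t false cl`, frame `(zc + zu, s, cl)`, EVERY `Δ ≤ s ≤ 5 Δ / 2`;   **`pvuu_geo_e`** : `PvubGeo (pvkdP (1/40)) 𝔱 true (zc + zu) s cl D W (pvmvPatE ..)`;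
          **`pvuu_up_e`** : `Disjoint (pvjpRm true F ∪ (placed 𝔱.Ln true cl \ D)) (pvjpRm false F ∪ (placed 𝔱.Ln true (!cl) \ D))` (field `up` of 54, v2)
* sec. 4  `pvuu_ew_sq`, `pvuu_ew_sim` : the hypothesis `ew` for `D = zu + (open square)` and for `D = zu + s • (open square)`
-/

set_option autoImplicit false

namespace Claimed.Agent.R289

open Set Metric Complex

/-! ## 1. model free: a route of a thick link misses what lies on the other side of the corridor, in front of the last door -/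

section free

variable {Y u : ℂ} {sd : Bool} {z d : ℂ} {l : List PvtTurn} {Δ Sn lam dl a₀ b₀ u₀ s₀ tb wb ob c₀ t₁ c₁ a t e₁ s₁ x₂ t₂ ρ e₀ b μ rs : ℝ}

theorem pvuu_side_mono (pos : Bool) {g g' b b' : ℝ} (hg : g' ≤ g) (hb : b ≤ b') (z d : ℂ) (l : List PvtTurn) : pvmvSide pos g b z d l ⊆ pvmvSide pos g' b' z d l :=
  pvlj_lanes_mono (pvmv_lo_mono pos hg hb) (pvmv_hi_mono pos hg hb) _ _ _

/-- **THE ROUTE OF ONE COLOUR** (mouth side `sd`, corridor side `!sd`) **MISSES** every set on the side `sd` of the extended corridor, in front of the last door -/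
theorem pvuu_route_off (G : PvmvGeo Y u sd z d l Δ Sn lam c₀) (N : Pvge2Num a t e₁ s₁ x₂ dl ρ e₀ b μ rs) (Nc : PvmvNum Δ dl a₀ b₀ u₀ s₀ tb wb ob c₀ t₁ c₁) (A : PvmvArm Δ dl u₀ t₁ c₁ a t e₁ s₁ x₂ t₂ Sn lam)
    {g b' : ℝ} (hg : 0 < g) (hg' : g ≤ ob - wb) (hb : b₀ ≤ b') (hb' : b' < 1 / 2) {X : Set ℂ} (hX1 : X ⊆ pvmvSide sd g b' z d l) (hX2 : ∀ w ∈ X, Sn ≤ pvge2S Y u w) :
    Disjoint (pvkqRtR (pvge2LegsO Y u sd a t e₁ s₁ x₂ ++ pvmvMid Y u sd a t x₂ (Sn - Δ * t₁) t₂ (lam + Δ * u₀) a₀ b₀ u₀ tb wb ob c₀ c₁ z d l)) X := by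
  rw [Set.disjoint_left]
  intro v hv hX
  have hS := hX2 v hX
  rw [pvmv_RtR_append, pvmv_legsO_R] at hv
  have hΔ := G.Δ0
  have q3 := Nc.t1; have q4 := Nc.cap1; have q5 := Nc.s0
  have q6 : 0 ≤ Δ * c₁ := mul_nonneg hΔ.le (by linarith)
  rcases hv with hv | hv
  · obtain ⟨w1, -, -, -⟩ := pvmv_arm_where N A.he A.hs hv
    have := A.capS
    linarith
  · rcases pvmv_mid_cases G Nc A hv with ⟨-, x2, -⟩ | ⟨-, x2, -⟩ | ⟨x1, -⟩
    · linarith
    · linarith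
    · have hd := pvmv_side_disj sd hg hb' G.simple G.back z G.d0
      exact Set.disjoint_left.1 hd (hX1 hX) (pvuu_side_mono (!sd) hg' hb z d l x1)

end free

/-! ## 2. the outer rectangles of the lane rooms of the reference plug, in the frame of the first door of the corridor -/

/-- the placed outer rectangle of the lane `β` (exit side) of a plug of unit `r`, scale `s`, centre `cu` = centre of the block behind the first door -/
theorem pvuu_out_pl {Δ s r g b' : ℝ} (hΔ : 0 < Δ) (hr : 0 ≤ r) (hs : 0 ≤ s) (h5 : 5 * r * s ≤ Δ / 2) (hg : g * Δ ≤ r * s / 2) (hb : 3 * r * s / 2 ≤ b' * Δ) (cu : ℂ) (β : Bool) :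
    pvthSim cu (s : ℂ) '' pvubOut r true β ⊆ pvccPl (pvehZ Δ cu) (Δ : ℂ) (pvljRect (-(1 / 2)) 0 (pvmvLo β g b') (pvmvHi β g b')) := by
  rintro _ ⟨w, hw, rfl⟩
  have hΔc : (Δ : ℂ) ≠ 0 := Complex.ofReal_ne_zero.2 hΔ.ne'
  refine ⟨((s / Δ : ℝ) : ℂ) * w - ((1 / 2 : ℝ) : ℂ), ?_, ?_⟩
  · have e1 : (((s / Δ : ℝ) : ℂ) * w - ((1 / 2 : ℝ) : ℂ)).re = s / Δ * w.re - 1 / 2 := by rw [sub_re, Complex.re_ofReal_mul, ofReal_re]
    have e2 : (((s / Δ : ℝ) : ℂ) * w - ((1 / 2 : ℝ) : ℂ)).im = s / Δ * w.im := by rw [sub_im, Complex.im_ofReal_mul, ofReal_im, sub_zero]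
    have k : ∀ x : ℝ, s / Δ * x = s * x / Δ := fun x => by ring
    show _ ≤ _ ∧ _ ≤ _ ∧ _ ≤ _ ∧ _ ≤ _
    rw [e1, e2, k, k]
    cases β
    · simp only [pvubOut, pvkdRect, rswRect, if_true, if_false, Bool.false_eq_true, mem_ofPred_eq] at hw
      obtain ⟨a1, a2, a3, a4⟩ := hw
      simp only [pvmvLo, pvmvHi, if_false, Bool.false_eq_true]
      refine ⟨?_, ?_, ?_, ?_⟩
      · have : 0 ≤ s * w.re / Δ := div_nonneg (mul_nonneg hs (by nlinarith)) hΔ.le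
        linarith
      · have : s * w.re / Δ ≤ 1 / 2 := by rw [div_le_iff₀ hΔ]; nlinarith
        linarith
      · rw [le_div_iff₀ hΔ]; nlinarith
      · rw [div_le_iff₀ hΔ]; nlinarith
    · simp only [pvubOut, pvkdRect, rswRect, if_true, mem_ofPred_eq] at hw
      obtain ⟨a1, a2, a3, a4⟩ := hw
      simp only [pvmvLo, pvmvHi, if_true]
      refine ⟨?_, ?_, ?_, ?_⟩
      · have : 0 ≤ s * w.re / Δ := div_nonneg (mul_nonneg hs (by nlinarith)) hΔ.le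
        linarith
      · have : s * w.re / Δ ≤ 1 / 2 := by rw [div_le_iff₀ hΔ]; nlinarith
        linarith
      · rw [le_div_iff₀ hΔ]; nlinarith
      · rw [div_le_iff₀ hΔ]; nlinarith
  · show pvehZ Δ cu + (Δ : ℂ) * (((s / Δ : ℝ) : ℂ) * w - ((1 / 2 : ℝ) : ℂ)) = cu + (s : ℂ) * w
    unfold pvehZ
    push_cast
    field_simp
    ring

/-- the whole east half of the block of the plug lies in front of the last door -/
theorem pvuu_front_e {Δ : ℝ} (hΔ : 0 < Δ) (Y ce : ℂ) (b : ℕ) {y₀ y₁ : ℝ} (h0 : -(1 / 2) ≤ y₀) (h1 : y₁ ≤ 1 / 2) :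
    ∀ w ∈ pvccPl (pvehZ Δ (ce + (Δ : ℂ) * pvtZ (pvxrUo b 1))) (Δ : ℂ) (pvljRect (-(1 / 2)) 0 y₀ y₁), pvge2S Y (I ^ b) ce - Δ / 2 ≤ pvge2S Y (I ^ b) w := by
  intro w hw
  have hB : w ∈ pvehBody Δ (ce + (Δ : ℂ) * pvtZ (pvxrUo b 1)) (pvxrLe b) :=
    Or.inl (pvmv_cap_east hΔ _ (q := 0) le_rfl (by norm_num) le_rfl h0 h1 hw).1
  have h1 := pveh_body_front hΔ ce b (Or.inr hB)
  rw [pvmv_front_eq, pvmv_front_eq] at h1
  unfold pvge2S
  rw [sub_mul, sub_mul, sub_re, sub_re]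
  linarith

/-! ## 3. at the model -/

section model

variable {τ : Type} {c : ℝ} {𝔓 : PvxPar τ c} {m : ℕ} {t : τ}

theorem pvuu_Dl_pos (h : PvxrNdg 𝔓 m t) : 0 < pvehDl 𝔓 m := by
  have := (pvmv_Dl_bounds h).1
  have := pvmv_R_pos h
  linarith

theorem pvuu_front (h : PvxrNdg 𝔓 m t) (zc : ℂ) {y₀ y₁ : ℝ} (h0 : -(1 / 2) ≤ y₀) (h1 : y₁ ≤ 1 / 2) :
    ∀ w ∈ pvccPl (pvehZ (pvehDl 𝔓 m) (zc + (pvxrGam 𝔓 m).zu t)) (pvehDl 𝔓 m : ℂ) (pvljRect (-(1 / 2)) 0 y₀ y₁), pvmvSc 𝔓 m t - pvehDl 𝔓 m / 2 ≤ pvge2S (zc + pvegYm 𝔓 m t) (I ^ pvxrB 𝔓 t) w := by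
  have G := pvuu_front_e (pvuu_Dl_pos h) (zc + pvegYm 𝔓 m t) (zc + pvmvCe 𝔓 m t) (pvxrB 𝔓 t) h0 h1
  have e1 : zc + pvmvCe 𝔓 m t + (pvehDl 𝔓 m : ℂ) * pvtZ (pvxrUo (pvxrB 𝔓 t) 1) = zc + (pvxrGam 𝔓 m).zu t := by
    rw [(pvxr_geo h).zu']
    unfold pvmvCe
    ring
  rw [e1, pvmv_S_sh, add_sub_cancel_left] at G
  exact G

/-- **THE REGION LINE `off` OF `pvub_geo_rec` (17) AT THE ROUTES OF RECORD OF THE THICK LINK `e`**: the routes of the colour `!(β == cl)` miss the outer rectangle of the room of the lane `β` of the reference plug (unit `1/40`), at EVERY scale `Δ ≤ s ≤ 5 Δ / 2` -/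
theorem pvuu_off_e (h : PvxrNdg 𝔓 m t) (zc : ℂ) (cl : Bool) {s : ℝ} (h1 : pvehDl 𝔓 m ≤ s) (h2 : s ≤ 5 / 2 * pvehDl 𝔓 m) (β : Bool) :
    Disjoint (pvjpRm (!pvubCl cl β) (pvmvPatE 𝔓 m zc t false cl)) (pvthSim (zc + (pvxrGam 𝔓 m).zu t) (s : ℂ) '' pvubOut (1 / 40) true β) := by
  have hΔ := pvuu_Dl_pos h
  have hr := pvmv_R_pos h
  have G := pvmv_geo_model h zc false
  have R := pvmv_rec_e h false (ρ := 0) (b := 0) (μ := 0) le_rfl (by linarith) (by norm_num) (by linarith)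
  have hpl := pvuu_out_pl (r := 1 / 40) (g := 1 / 1000) (b' := 1 / 4) hΔ (by norm_num) (by linarith : (0 : ℝ) ≤ s) (by linarith) (by linarith) (by linarith) (zc + (pvxrGam 𝔓 m).zu t) β
  have hside : pvthSim (zc + (pvxrGam 𝔓 m).zu t) (s : ℂ) '' pvubOut (1 / 40) true β ⊆ pvmvSide β (1 / 1000) (1 / 4) (pvehZ (pvehDl 𝔓 m) (zc + (pvxrGam 𝔓 m).zu t)) (pvehDl 𝔓 m : ℂ) (pvxrLe (pvxrB 𝔓 t)) :=
    hpl.trans (pvmv_cap0_X (by norm_num) le_rfl _ _ _)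
  have hfr : ∀ w ∈ pvthSim (zc + (pvxrGam 𝔓 m).zu t) (s : ℂ) '' pvubOut (1 / 40) true β, pvmvSc 𝔓 m t - pvehDl 𝔓 m / 2 ≤ pvge2S (zc + pvegYm 𝔓 m t) (I ^ pvxrB 𝔓 t) w := fun w hw =>
    pvuu_front h zc (by cases β <;> simp only [pvmvLo, if_true, if_false, Bool.false_eq_true] <;> norm_num) (by cases β <;> simp only [pvmvHi, if_true, if_false, Bool.false_eq_true] <;> norm_num) w (hpl hw)
  rw [Set.disjoint_left]
  intro v hv hX
  obtain ⟨x, hx, hc, hv'⟩ := pvjp_mem_rm.1 hv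
  simp only [pvmvPatE, pvmvPatRec, pvmvPat, List.mem_cons, List.not_mem_nil, or_false] at hx
  rcases hx with rfl | rfl
  · have hβ : β = false := by
      revert hc
      cases β <;> cases cl <;> simp [pvubCl]
    subst hβ
    exact Set.disjoint_left.1 (pvuu_route_off G R.num₁ (pvmv_num_rec hΔ) R.arm₁ (g := 1 / 1000) (b' := 1 / 4) (by norm_num) (by norm_num) (by norm_num) (by norm_num) hside hfr) hv' hX
  · have hβ : β = true := by
      revert hc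
      cases β <;> cases cl <;> simp [pvubCl]
    subst hβ
    exact Set.disjoint_left.1 (pvuu_route_off G.flip R.num₂ (pvmv_num_rec hΔ) R.flip.arm₂ (g := 1 / 1000) (b' := 1 / 4) (by norm_num) (by norm_num) (by norm_num) (by norm_num) hside hfr) hv' hX

/-- **THE CONTRACT `PvubGeo` OF 17 AT THE ROUTES OF RECORD OF `e`**: any truncation with the rooms of record, any frozen region `D` which contains the placed window of the plug, any window `W` of the guard which contains the placed window of the side event -/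
theorem pvuu_geo_e (h : PvxrNdg 𝔓 m t) (zc : ℂ) (cl : Bool) {s : ℝ} (h1 : pvehDl 𝔓 m ≤ s) (h2 : s ≤ 5 / 2 * pvehDl 𝔓 m) {𝔱 : PvhfTr} (hL : 𝔱.Ln = (pvhfT (1 / 40)).Ln) {D W : Set ℂ}
    (ew : pvthSim (zc + (pvxrGam 𝔓 m).zu t) (s : ℂ) '' pvwSq 0 (3 * (1 / 40)) ⊆ D) (es : pvthSim (zc + (pvxrGam 𝔓 m).zu t) (s : ℂ) '' 𝔱.Es true ⊆ W) :
    PvubGeo (pvkdP (1 / 40)) 𝔱 true (zc + (pvxrGam 𝔓 m).zu t) (s : ℂ) cl D W (pvmvPatE 𝔓 m zc t false cl) :=
  pvub_geo_rec (by norm_num) hL true _ (Complex.ofReal_ne_zero.2 (by have := pvuu_Dl_pos h; linarith : (0 : ℝ) < s).ne') cl ew es (pvuu_off_e h zc cl h1 h2)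

/-- **THE FIELD `up` OF `PvetRt.Ok` (v2 of 54) AT THE ROUTES OF RECORD**, in the words of the consumers: (routes of colour `true`) ∪ (placed room of the lane `cl`, off `D`) misses (routes of colour `false`) ∪ (placed room of the lane `!cl`, off `D`) -/
theorem pvuu_up_e (h : PvxrNdg 𝔓 m t) (zc : ℂ) (cl : Bool) {s : ℝ} (h1 : pvehDl 𝔓 m ≤ s) (h2 : s ≤ 5 / 2 * pvehDl 𝔓 m) {𝔱 : PvhfTr} (hL : 𝔱.Ln = (pvhfT (1 / 40)).Ln) {D : Set ℂ}
    (ew : pvthSim (zc + (pvxrGam 𝔓 m).zu t) (s : ℂ) '' pvwSq 0 (3 * (1 / 40)) ⊆ D) :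
    Disjoint (pvjpRm true (pvmvPatE 𝔓 m zc t false cl) ∪ (pvthSim (zc + (pvxrGam 𝔓 m).zu t) (s : ℂ) '' 𝔱.Ln true cl \ D))
      (pvjpRm false (pvmvPatE 𝔓 m zc t false cl) ∪ (pvthSim (zc + (pvxrGam 𝔓 m).zu t) (s : ℂ) '' 𝔱.Ln true (!cl) \ D)) := by
  have k := (pvuu_geo_e h zc cl h1 h2 hL ew Subset.rfl).disj (pvmv_fit_e h zc false cl)
  unfold pvubK at k
  cases cl
  · exact k
  · exact k

end model

/-! ## 4. the placed window of the plug lies in the frozen region: the two shapes of `rO` (open square; scaled region of the kit) -/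

theorem pvuu_ew_sq {s q : ℝ} (hs : 0 ≤ s) (hq : 3 / 40 * s < q) (zu : ℂ) : pvthSim zu (s : ℂ) '' pvwSq 0 (3 * (1 / 40)) ⊆ pvieSh zu (pvccSq 0 q) := by
  rintro _ ⟨w, ⟨a1, a2⟩, rfl⟩
  rw [sub_zero] at a1 a2
  refine ⟨(s : ℂ) * w, ?_, rfl⟩
  show pvccN ((s : ℂ) * w - 0) < q
  rw [sub_zero]
  unfold pvccN
  rw [Complex.re_ofReal_mul, Complex.im_ofReal_mul, abs_mul, abs_mul, abs_of_nonneg hs, max_lt_iff]
  constructor <;> nlinarith

theorem pvuu_ew_sim {q : ℝ} (hq : 3 / 40 < q) (zu a : ℂ) : pvthSim zu a '' pvwSq 0 (3 * (1 / 40)) ⊆ pvieSh zu (pvthSim 0 a '' pvccSq 0 q) := by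
  rintro _ ⟨w, ⟨a1, a2⟩, rfl⟩
  rw [sub_zero] at a1 a2
  refine ⟨a * w, ⟨w, ?_, by unfold pvthSim; ring⟩, rfl⟩
  show pvccN (w - 0) < q
  rw [sub_zero]
  unfold pvccN
  rw [max_lt_iff]
  constructor <;> linarith

end Claimed.Agent.R289
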