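-- KEEP
import Claimed.Agent.R289.Exit.EngRec
import Claimed.Agent.R289.Exit.FrcDefs
import Claimed.Agent.R289.Exit.ParEngF

/-!
# Row 289 (S0537), THE WALL, ROAD E, file Exit/MeshT : (b6) OF E10 = WHO PAYS THE MESH CLAUSE OF THE PLAIN EVENT, THICK LINKS `e` AND `f`      (helper64, post of RULING 22 (3) of 234; prefix `pvmm_`, `pvmm`, `Pvmm`)

TARGET: the conjunct `pvilMs 𝔓 m (pvilWne ..)` of `pvilMe`, `pvilMs 𝔓 m (pvilWnf ..)` of `pvilMf` (`Tr/InstL` v2.2.1, sec. 8) AT A FINAL CONFIGURATION (`PvjeFin` of 35, `PvrgDet` of 256).      0 sorry.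
WHY NOT `Tr/MeshG` (206) / `Tr/MeshCv` (256) HERE: the funnel (frame of the tip cell, NOT on the grid) overlaps the blocks (on the grid): no lower bound on the gaps of the thresholds (206);   the number of convex pieces of `fK` grows with the level (256: scale `μ / 3 / 4 ^ n`).
HERE: ONE FREE SCALE `ρ ≤ μ₀ / 40` for every level and type, plug scale `ρD ≤ μ₀ / 3` (R23 (1') of 234), no threshold, no count of pieces.
* sec. 1  model free: `pvmm_mesh_mono`, `pvmm_cover`, **`PvmmCov μ ρ ρD K D`** = (COV-μ), `Z`-free, ALL points of the plane;   **`pvmm_three`** : (COV-μ) + base mesh on ANY `B ⊇ Wn \ (K ∪ D)` + tile mesh + plug mesh `⟹ PvtrMesh μ Wn`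
* sec. 2  **`PvmmFat a ρ G`** (every point of `G` is within `a` of the centre of a `ρ`-ball inside `G`): unions, closed balls, closed rectangles in any frame `pvmmRc`, closed / open squares, half blocks (closed, half open), funnels `pvegRc`
* sec. 3  `pvmm_near_osq`, **`pvmm_cov_of`** : `M G` fat, `D` an open square of half side `≥ μ/2`, `G \ (D ∪ M) ⊆ K ⊆ G \ M`, `M ∩ D = ∅` `⟹ PvmmCov μ ρ (μ/3) K D` (`40 ρ ≤ μ`);   `PvmmCov.sh`;   `pvmm_fat_e`, `pvmm_fat_f`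
* sec. 4  tools: `pvmm_sites_of` (sites in the form of `PvrgDet`), `pvmm_kept`, **`pvmm_mesh_u`**, **`pvmm_mesh_Gr`** ((MESH-u): `rG ⊆ pvrgMesh ρD rO ⟹` every configuration with a usable reference plug at `z'` has the mesh `ρD` on `z' + rO`)
* sec. 5  **`PvmmShape 𝔓 m t Yc G s M K O`** = ALL THAT IS READ OF THE REGIONS (rooms are not read);   `.cov`, `.mesh`, `.bdd`;   bodies `pvmmGe pvmmGf`, `pvmm_fat_Ge`, `pvmm_fat_Gf`;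
          producers: `pvmm_shape_e0`, `pvmm_shape_f0` (regions of 166 124 182 as they stand), **`pvmm_shape_e4`, `pvmm_shape_f4`** (after (U4) of R23 (2): `rO := pvccSq 0 s`, annulus to the tiles), generic `pvmm_shape_e`, `pvmm_shape_f`
* sec. 6  **`pvmm_e`, `pvmm_f`** (sets of sites), **`pvmm_fin_e`** (`PvjeFin` at `pvjeE`), **`pvmm_det_e`, `pvmm_det_f`** (sites in the form of `PvrgDet` / `pvlhg_forced`)
WHAT THE INTEGRATORS OWE (54 66: `e`;   196 281: `f`):   `Mc ∋ pvrgMesh ρ (pvilBx 𝔓 m z t ∪ (z + M))` at the base (bounded: `PvmmShape.bdd`; free: `pvgu_frc_mesh`);   `𝒦 ⊆ pvrgMesh ρ (z + K)`;   `rG ⊆ pvrgMesh ρD rO`;   `ρ := pvilMu 𝔓 m / 40`.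
-/

set_option autoImplicit false

namespace Claimed.Agent.R289

open Set Metric Complex

/-! ## 1. model free -/

/-- a finer mesh is a mesh -/
theorem pvmm_mesh_mono {ρ ρ' : ℝ} {E Y : Set ℂ} (h : PvtrMesh ρ E Y) (hρ : ρ ≤ ρ') : PvtrMesh ρ' E Y := by
  intro w hw
  obtain ⟨u, hu, h1⟩ := h w ((closedBall_subset_closedBall hρ).trans hw)
  exact ⟨u, hu, h1.trans hρ⟩

/-- **MODEL FREE** (234, R22 (3)): every point of the `μ`-core is within `μ - ρ` of a point of the `ρ`-core of a region which carries the mesh `ρ` -/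
theorem pvmm_cover {μ : ℝ} {E Y : Set ℂ} (cov : ∀ w ∈ pvtrCore μ E, ∃ (ρ : ℝ) (E' : Set ℂ), PvtrMesh ρ E' Y ∧ ∃ w' ∈ pvtrCore ρ E', ‖w - w'‖ ≤ μ - ρ) : PvtrMesh μ E Y := by
  intro w hw
  obtain ⟨ρ, E', hm, w', hw', h1⟩ := cov w hw
  obtain ⟨u, hu, h2⟩ := hm w' hw'
  refine ⟨u, hu, ?_⟩
  have := norm_sub_le_norm_sub_add_norm_sub w w' u
  linarith

/-- **THE COVERING PROPERTY OF A TILE `K` AND A PLUG REGION `D`** (COV-μ, `Z`-free form): every point of the plane is within `μ - ρ` of the centre of a `ρ`-ball which lies in the kept part or in the tile, or within `μ - ρD` of the centre of a `ρD`-ball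
which lies in the plug region      (`ρ` = the FREE scale of the base certificate and of the geometry clause of the pattern, `ρD` = the GIVEN scale of the usable states of the plug) -/
def PvmmCov (μ ρ ρD : ℝ) (K D : Set ℂ) : Prop :=
  ∀ w : ℂ, (∃ w', ‖w - w'‖ ≤ μ - ρ ∧ (closedBall w' ρ ⊆ (K ∪ D)ᶜ ∨ closedBall w' ρ ⊆ K)) ∨ ∃ w', ‖w - w'‖ ≤ μ - ρD ∧ closedBall w' ρD ⊆ D

/-- **THE THREE SOURCES OF THE MESH OF A WINDOW**: kept part `←` the base `Y₀` (mesh certificate on ANY `B ⊇ Wn \ (K ∪ D)`), tile `←` the geometry clause of the pattern, plug region `←` the usable states of the plug -/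
theorem pvmm_three {μ ρ ρD : ℝ} {Wn K D B Y Y₀ : Set ℂ} (cov : PvmmCov μ ρ ρD K D) (hB : Wn \ (K ∪ D) ⊆ B) (hs : Y ∩ (Wn \ (K ∪ D)) = Y₀ ∩ (Wn \ (K ∪ D)))
    (h0 : PvtrMesh ρ B Y₀) (hK : PvtrMesh ρ K Y) (hD : PvtrMesh ρD D Y) : PvtrMesh μ Wn Y := by
  intro w hw
  have fin : ∀ (r : ℝ) (w' u : ℂ), ‖w - w'‖ ≤ μ - r → ‖w' - u‖ ≤ r → ‖w - u‖ ≤ μ := by
    intro r w' u h1 hu
    have := norm_sub_le_norm_sub_add_norm_sub w w' u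
    linarith
  rcases cov w with ⟨w', h1, h2⟩ | ⟨w', h1, h2⟩
  · have hsub : closedBall w' ρ ⊆ Wn := by
      refine Subset.trans (closedBall_subset_closedBall' ?_) hw
      rw [dist_eq_norm, norm_sub_rev]
      linarith
    rcases h2 with h2 | h2
    · have h3 : closedBall w' ρ ⊆ Wn \ (K ∪ D) := fun v hv => ⟨hsub hv, h2 hv⟩
      obtain ⟨u, hu, h4⟩ := h0 w' (h3.trans hB)
      have h5 : u ∈ closedBall w' ρ := by rw [mem_closedBall, dist_eq_norm, norm_sub_rev]; exact h4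
      exact ⟨u, (hs.symm.subset ⟨hu, h3 h5⟩).1, fin ρ w' u h1 h4⟩
    · obtain ⟨u, hu, h4⟩ := hK w' h2
      exact ⟨u, hu, fin ρ w' u h1 h4⟩
  · obtain ⟨u, hu, h4⟩ := hD w' h2
    exact ⟨u, hu, fin ρD w' u h1 h4⟩

/-! ## 2. fat sets -/

/-- **`G` IS FAT**: every point of `G` is within `a` of the centre of a `ρ`-ball inside `G` -/
def PvmmFat (a ρ : ℝ) (G : Set ℂ) : Prop := ∀ x ∈ G, ∃ w', ‖x - w'‖ ≤ a ∧ closedBall w' ρ ⊆ G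

theorem pvmm_eqns_cite : True := by
  have := @PvmmCov.eq_1; have := @PvmmFat.eq_1
  trivial

theorem PvmmFat.mono {a a' ρ : ℝ} {G : Set ℂ} (h : PvmmFat a ρ G) (ha : a ≤ a') : PvmmFat a' ρ G := fun x hx => by
  obtain ⟨w', h1, h2⟩ := h x hx
  exact ⟨w', h1.trans ha, h2⟩

/-- a set which is covered from inside by fat sets -/
theorem pvmm_fat_of {a ρ : ℝ} {G : Set ℂ} (h : ∀ x ∈ G, ∃ G', x ∈ G' ∧ G' ⊆ G ∧ PvmmFat a ρ G') : PvmmFat a ρ G := fun x hx => by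
  obtain ⟨G', h1, h2, h3⟩ := h x hx
  obtain ⟨w', h4, h5⟩ := h3 x h1
  exact ⟨w', h4, h5.trans h2⟩

theorem PvmmFat.union {a ρ : ℝ} {G G' : Set ℂ} (h : PvmmFat a ρ G) (h' : PvmmFat a ρ G') : PvmmFat a ρ (G ∪ G') :=
  pvmm_fat_of fun _ hx => hx.elim (fun h1 => ⟨G, h1, subset_union_left, h⟩) fun h1 => ⟨G', h1, subset_union_right, h'⟩

theorem pvmm_fat_biUnion {a ρ : ℝ} {ι : Type} (s : Finset ι) {G : ι → Set ℂ} (h : ∀ i ∈ s, PvmmFat a ρ (G i)) : PvmmFat a ρ (⋃ i ∈ s, G i) :=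
  pvmm_fat_of fun _ hx => by
    simp only [mem_iUnion, exists_prop] at hx
    obtain ⟨i, hi, hx⟩ := hx
    exact ⟨G i, hx, subset_biUnion_of_mem (u := G) (show i ∈ (s : Set ι) from hi), h i hi⟩

theorem pvmm_mem_sh {z v : ℂ} {S : Set ℂ} : v ∈ pvieSh z S ↔ v - z ∈ S := by
  unfold pvieSh
  constructor
  · rintro ⟨w, hw, rfl⟩
    simpa using hw
  · intro h
    exact ⟨v - z, h, by ring⟩

/-- a closed ball -/
theorem pvmm_fat_ball {ρ r : ℝ} (hρ : 0 ≤ ρ) (hr : ρ ≤ r) (Y : ℂ) : PvmmFat ρ ρ (closedBall Y r) := by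
  intro x hx
  rw [mem_closedBall_iff_norm] at hx
  rcases hρ.eq_or_lt with h0 | h0
  · refine ⟨x, by simp [← h0], ?_⟩
    rw [← h0, closedBall_zero]
    exact singleton_subset_iff.2 (mem_closedBall_iff_norm.2 hx)
  have hr0 : 0 < r := lt_of_lt_of_le h0 hr
  refine ⟨Y + (((r - ρ) / r : ℝ) : ℂ) * (x - Y), ?_, ?_⟩
  · have e : x - (Y + (((r - ρ) / r : ℝ) : ℂ) * (x - Y)) = ((ρ / r : ℝ) : ℂ) * (x - Y) := by
      push_cast
      have : (r : ℂ) ≠ 0 := by exact_mod_cast hr0.ne'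
      field_simp
      ring
    rw [e, norm_mul, Complex.norm_real, Real.norm_of_nonneg (by positivity), div_mul_eq_mul_div, div_le_iff₀ hr0]
    exact mul_le_mul_of_nonneg_left hx hρ
  · refine closedBall_subset_closedBall' ?_
    rw [dist_eq_norm, add_sub_cancel_left, norm_mul, Complex.norm_real, Real.norm_of_nonneg (div_nonneg (by linarith) hr0.le)]
    have : (r - ρ) / r * ‖x - Y‖ ≤ (r - ρ) / r * r := mul_le_mul_of_nonneg_left hx (div_nonneg (by linarith) hr0.le)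
    rw [div_mul_cancel₀ _ hr0.ne'] at this
    linarith

/-- the closed rectangle `[s₁, s₂] × [l₁, l₂]` in the frame `(Y, u)` of 124 -/
def pvmmRc (Y u : ℂ) (s₁ s₂ l₁ l₂ : ℝ) : Set ℂ := {v | s₁ ≤ pvegS Y u v ∧ pvegS Y u v ≤ s₂ ∧ l₁ ≤ pvegL Y u v ∧ pvegL Y u v ≤ l₂}

theorem pvmm_clamp {a b x ρ : ℝ} (hρ : 0 ≤ ρ) (h : a + 2 * ρ ≤ b) (h1 : a ≤ x) (h2 : x ≤ b) : ∃ y, a + ρ ≤ y ∧ y ≤ b - ρ ∧ |x - y| ≤ ρ := by
  refine ⟨max (a + ρ) (min x (b - ρ)), le_max_left _ _, max_le (by linarith) (min_le_right _ _), ?_⟩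
  rw [abs_le]
  constructor
  · rcases le_total (a + ρ) (min x (b - ρ)) with h3 | h3
    · rw [max_eq_right h3]; linarith [min_le_left x (b - ρ)]
    · rw [max_eq_left h3]; linarith
  · rcases le_total x (b - ρ) with h3 | h3
    · rw [min_eq_left h3]; linarith [le_max_right (a + ρ) x]
    · rw [min_eq_right h3]; linarith [le_max_right (a + ρ) (b - ρ)]

/-- **a closed rectangle with sides `≥ 2 ρ`** -/
theorem pvmm_fat_rc {ρ : ℝ} (hρ : 0 ≤ ρ) {Y u : ℂ} (hu : ‖u‖ = 1) {s₁ s₂ l₁ l₂ : ℝ} (hs : s₁ + 2 * ρ ≤ s₂) (hl : l₁ + 2 * ρ ≤ l₂) : PvmmFat (2 * ρ) ρ (pvmmRc Y u s₁ s₂ l₁ l₂) := by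
  rintro x ⟨a1, a2, a3, a4⟩
  obtain ⟨s, b1, b2, b3⟩ := pvmm_clamp hρ hs a1 a2
  obtain ⟨l, c1, c2, c3⟩ := pvmm_clamp hρ hl a3 a4
  have huu : u * (starRingEnd ℂ) u = 1 := by
    rw [Complex.mul_conj, Complex.normSq_eq_norm_sq, hu]; norm_num
  have hcu : ‖(starRingEnd ℂ) u‖ = 1 := by rw [Complex.norm_conj, hu]
  obtain ⟨w', hw'⟩ : ∃ w' : ℂ, w' = Y + ((s : ℂ) + (l : ℂ) * I) * u := ⟨_, rfl⟩
  have e0 : (w' - Y) * (starRingEnd ℂ) u = (s : ℂ) + (l : ℂ) * I := by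
    rw [hw', add_sub_cancel_left, mul_assoc, huu, mul_one]
  have eS : pvegS Y u w' = s := by unfold pvegS; rw [e0]; simp
  have eL : pvegL Y u w' = l := by unfold pvegL; rw [e0]; simp
  have key : ∀ v : ℂ, |pvegS Y u v - s| ≤ ‖v - w'‖ ∧ |pvegL Y u v - l| ≤ ‖v - w'‖ := by
    intro v
    have e1 : ‖v - w'‖ = ‖(v - w') * (starRingEnd ℂ) u‖ := by rw [norm_mul, hcu, mul_one]
    rw [← eS, ← eL, pveg_S_sub, pveg_L_sub, e1]
    exact ⟨Complex.abs_re_le_norm _, Complex.abs_im_le_norm _⟩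
  refine ⟨w', ?_, ?_⟩
  · have e1 : ‖x - w'‖ = ‖(x - w') * (starRingEnd ℂ) u‖ := by rw [norm_mul, hcu, mul_one]
    rw [e1]
    refine (Complex.norm_le_abs_re_add_abs_im _).trans ?_
    rw [← pveg_S_sub Y, ← pveg_L_sub Y, eS, eL]
    linarith
  · intro v hv
    rw [mem_closedBall_iff_norm] at hv
    obtain ⟨k1, k2⟩ := key v
    have k1' := abs_le.1 (k1.trans hv)
    have k2' := abs_le.1 (k2.trans hv)
    exact ⟨by linarith [k1'.1], by linarith [k1'.2], by linarith [k2'.1], by linarith [k2'.2]⟩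

/-- the closed squares of 166 -/
theorem pvmm_sq_eq (c : ℂ) (r : ℝ) : pvehSq c r = pvmmRc c 1 (-r) r (-r) r := by
  ext w
  simp only [pvehSq, pvccN, pvmmRc, pvegS, pvegL, mem_ofPred_eq, max_le_iff, abs_le, map_one, mul_one]
  tauto

theorem pvmm_fat_sq {ρ r : ℝ} (hρ : 0 ≤ ρ) (hr : ρ ≤ r) (c : ℂ) : PvmmFat (2 * ρ) ρ (pvehSq c r) := by
  rw [pvmm_sq_eq]
  exact pvmm_fat_rc hρ norm_one (by linarith) (by linarith)

/-- an open square -/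
theorem pvmm_fat_osq {ρ r : ℝ} (hρ : 0 ≤ ρ) (hr : ρ < r) (c : ℂ) : PvmmFat (2 * ρ) ρ (pvccSq c r) :=
  pvmm_fat_of fun x hx => ⟨pvehSq c (max ρ (pvccN (x - c))), show pvccN (x - c) ≤ _ from le_max_right _ _, fun v hv => lt_of_le_of_lt (show pvccN (v - c) ≤ _ from hv) (max_lt hr hx), pvmm_fat_sq hρ (le_max_left _ _) c⟩

/-- the east half of a block -/
theorem pvmm_fat_east {ρ Δ : ℝ} (hρ : 0 ≤ ρ) (hΔ : 4 * ρ ≤ Δ) (cu : ℂ) : PvmmFat (2 * ρ) ρ (pvehEast Δ cu) := by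
  have e : pvehEast Δ cu = pvmmRc cu 1 0 (Δ / 2) (-(Δ / 2)) (Δ / 2) := by
    ext w
    simp only [pvehEast, pvmm_sq_eq, pvmmRc, pvegS, pvegL, mem_ofPred_eq, map_one, mul_one, sub_re]
    constructor
    · rintro ⟨⟨-, h2, h3, h4⟩, h5⟩
      exact ⟨by linarith, h2, h3, h4⟩
    · rintro ⟨h1, h2, h3, h4⟩
      exact ⟨⟨by linarith, h2, h3, h4⟩, by linarith⟩
  rw [e]
  exact pvmm_fat_rc hρ norm_one (by linarith) (by linarith)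

/-- the (half open) west half of a block -/
theorem pvmm_fat_west {ρ Δ : ℝ} (hρ : 0 ≤ ρ) (hΔ : 4 * ρ < Δ) (cu : ℂ) : PvmmFat (2 * ρ) ρ (pvefWest Δ cu) := by
  refine pvmm_fat_of fun x hx => ⟨pvmmRc cu 1 (-(Δ / 2)) (max (-(Δ / 2) + 2 * ρ) (x - cu).re) (-(Δ / 2)) (Δ / 2), ?_, ?_, pvmm_fat_rc hρ norm_one (le_max_left _ _) (by linarith)⟩
  · obtain ⟨h1, -⟩ := hx
    rw [pvmm_sq_eq] at h1
    obtain ⟨h1, -, h3, h4⟩ := h1
    refine ⟨h1, ?_, h3, h4⟩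
    simp only [pvegS, map_one, mul_one]
    exact le_max_right _ _
  · rintro v ⟨h1, h2, h3, h4⟩
    have h5 : (x - cu).re < 0 := by rw [sub_re]; linarith [hx.2]
    have h6 : pvegS cu 1 v < 0 := lt_of_le_of_lt h2 (max_lt (by linarith) h5)
    refine ⟨?_, ?_⟩
    · rw [pvmm_sq_eq]
      exact ⟨h1, by linarith, h3, h4⟩
    · simp only [pvegS, map_one, mul_one, sub_re] at h6
      linarith

/-- the rectangle of a funnel of 124 -/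
theorem pvmm_fat_funnel {ρ : ℝ} (hρ : 0 ≤ ρ) {Y u p : ℂ} (hu : ‖u‖ = 1) {e δ w : ℝ} (hs : e + 2 * δ + 2 * ρ ≤ pvegS Y u p - δ / 4) (hw : ρ ≤ w) : PvmmFat (2 * ρ) ρ (pvegRc Y u p e δ w) := by
  have e1 : pvegRc Y u p e δ w = pvmmRc Y u (e + 2 * δ) (pvegS Y u p - δ / 4) (pvegL Y u p - w) (pvegL Y u p + w) := by
    ext v
    simp only [pvegRc, pvmmRc, mem_ofPred_eq, abs_le]
    constructor
    · rintro ⟨h1, h2, h3, h4⟩
      exact ⟨h1, h2, by linarith, by linarith⟩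
    · rintro ⟨h1, h2, h3, h4⟩
      exact ⟨h1, h2, by linarith, by linarith⟩
  rw [e1]
  exact pvmm_fat_rc hρ hu hs (by linarith)

/-! ## 3. the covering property of a tile `G \\ (D ∪ M) ⊆ K ⊆ G \\ M`, `G M` fat, `D` an open square -/

theorem pvmm_clamp0 {x s d : ℝ} (hs : 0 ≤ s) (hd : 0 ≤ d) (h : |x| ≤ s + d) : ∃ y, |y| ≤ s ∧ |x - y| ≤ d := by
  rw [abs_le] at h
  refine ⟨max (-s) (min x s), abs_le.2 ⟨le_max_left _ _, max_le (by linarith) (min_le_right _ _)⟩, ?_⟩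
  rw [abs_le]
  constructor
  · rcases le_total (-s) (min x s) with h3 | h3
    · rw [max_eq_right h3]; linarith [min_le_left x s]
    · rw [max_eq_left h3]; linarith [h.1]
  · rcases le_total x s with h3 | h3
    · rw [min_eq_left h3]; linarith [le_max_right (-s) x]
    · rw [min_eq_right h3]; linarith [le_max_right (-s) s, h.2]

/-- **a point near an open square of half side `s ≥ μ / 2`** is within `2 μ / 3` of the centre of a ball of radius `μ / 3` inside the square -/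
theorem pvmm_near_osq {μ s : ℝ} (hμ : 0 < μ) (hs : μ / 2 ≤ s) {c w : ℂ} (h : (closedBall w (μ / 10) ∩ pvccSq c s).Nonempty) : ∃ w', ‖w - w'‖ ≤ μ - μ / 3 ∧ closedBall w' (μ / 3) ⊆ pvccSq c s := by
  obtain ⟨y, hy, hyD⟩ := h
  rw [mem_closedBall_iff_norm] at hy
  have hyD' : max |(y - c).re| |(y - c).im| < s := hyD
  obtain ⟨h1, h2⟩ := max_lt_iff.1 hyD'
  have a1 : |(w - c).re| ≤ (s - μ / 3 - μ / 40) + 11 * μ / 24 := by
    have e : (w - c).re = (y - c).re - (y - w).re := by simp only [sub_re]; ring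
    have := abs_sub (y - c).re (y - w).re
    have := Complex.abs_re_le_norm (y - w)
    rw [e]; linarith
  have a2 : |(w - c).im| ≤ (s - μ / 3 - μ / 40) + 11 * μ / 24 := by
    have e : (w - c).im = (y - c).im - (y - w).im := by simp only [sub_im]; ring
    have := abs_sub (y - c).im (y - w).im
    have := Complex.abs_im_le_norm (y - w)
    rw [e]; linarith
  obtain ⟨x', b1, b2⟩ := pvmm_clamp0 (by linarith) (by positivity) a1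
  obtain ⟨y', c1, c2⟩ := pvmm_clamp0 (by linarith) (by positivity) a2
  refine ⟨c + ((x' : ℂ) + (y' : ℂ) * I), ?_, ?_⟩
  · have e : w - (c + ((x' : ℂ) + (y' : ℂ) * I)) = (((w - c).re - x' : ℝ) : ℂ) + (((w - c).im - y' : ℝ) : ℂ) * I := by
      apply Complex.ext <;> simp <;> ring
    have hsq : ‖w - (c + ((x' : ℂ) + (y' : ℂ) * I))‖ ^ 2 = ((w - c).re - x') ^ 2 + ((w - c).im - y') ^ 2 := by
      rw [e, Complex.sq_norm, Complex.normSq_add_mul_I]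
    have k1 : ((w - c).re - x') ^ 2 ≤ (11 * μ / 24) ^ 2 := sq_le_sq' (by linarith [(abs_le.1 b2).1]) (abs_le.1 b2).2
    have k2 : ((w - c).im - y') ^ 2 ≤ (11 * μ / 24) ^ 2 := sq_le_sq' (by linarith [(abs_le.1 c2).1]) (abs_le.1 c2).2
    refine abs_le_of_sq_le_sq' ?_ (by linarith) |>.2
    rw [hsq]
    nlinarith
  · intro v hv
    rw [mem_closedBall_iff_norm] at hv
    have e1 : (v - c).re = (v - (c + ((x' : ℂ) + (y' : ℂ) * I))).re + x' := by simp; ring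
    have e2 : (v - c).im = (v - (c + ((x' : ℂ) + (y' : ℂ) * I))).im + y' := by simp; ring
    have g1 := Complex.abs_re_le_norm (v - (c + ((x' : ℂ) + (y' : ℂ) * I)))
    have g2 := Complex.abs_im_le_norm (v - (c + ((x' : ℂ) + (y' : ℂ) * I)))
    show max |(v - c).re| |(v - c).im| < s
    refine max_lt ?_ ?_
    · rw [e1]
      have := abs_add_le (v - (c + ((x' : ℂ) + (y' : ℂ) * I))).re x'
      linarith
    · rw [e2]
      have := abs_add_le (v - (c + ((x' : ℂ) + (y' : ℂ) * I))).im y'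
      linarith

/-- **(COV-μ) FROM THE SHAPE**: mouth `M` and body `G` fat at the free scale `ρ ≤ μ / 40`, plug region `D` = an open square of half side `≥ μ / 2`;   `G \\ (D ∪ M) ⊆ K ⊆ G \\ M`, `M ∩ D = ∅` -/
theorem pvmm_cov_of {μ ρ s : ℝ} (_hρ : 0 ≤ ρ) (hμ : 0 < μ) (h40 : 40 * ρ ≤ μ) (hs : μ / 2 ≤ s) {cu : ℂ} {M G K : Set ℂ} (fM : PvmmFat (2 * ρ) ρ M) (fG : PvmmFat (2 * ρ) ρ G) (hKG : K ⊆ G) (hKM : Disjoint K M)
    (hMD : Disjoint M (pvccSq cu s)) (hGK : G \ (pvccSq cu s ∪ M) ⊆ K) : PvmmCov μ ρ (μ / 3) K (pvccSq cu s) := by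
  intro w
  have tri : ∀ x y : ℂ, ‖w - y‖ ≤ ‖w - x‖ + ‖x - y‖ := fun x y => norm_sub_le_norm_sub_add_norm_sub w x y
  by_cases h2 : (closedBall w (μ / 10) ∩ pvccSq cu s).Nonempty
  · exact Or.inr (pvmm_near_osq hμ hs h2)
  left
  by_cases h1 : (closedBall w (4 * ρ) ∩ M).Nonempty
  · obtain ⟨y, hy, hyM⟩ := h1
    obtain ⟨w', h2, h3⟩ := fM y hyM
    rw [mem_closedBall_iff_norm, norm_sub_rev] at hy
    refine ⟨w', by linarith [tri y w'], Or.inl fun v hv hc => ?_⟩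
    rcases hc with hc | hc
    · exact disjoint_left.1 hKM hc (h3 hv)
    · exact disjoint_left.1 hMD (h3 hv) hc
  by_cases h3 : (closedBall w ρ ∩ G).Nonempty
  · obtain ⟨x, hx, hxG⟩ := h3
    obtain ⟨w', h4, h5⟩ := fG x hxG
    rw [mem_closedBall_iff_norm, norm_sub_rev] at hx
    refine ⟨w', by linarith [tri x w'], Or.inr fun v hv => hGK ⟨h5 hv, ?_⟩⟩
    have hv' : v ∈ closedBall w (4 * ρ) := by
      rw [mem_closedBall_iff_norm] at hv ⊢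
      rw [norm_sub_rev]
      have := norm_sub_le_norm_sub_add_norm_sub w w' v
      rw [norm_sub_rev w' v] at this
      linarith [tri x w']
    rintro (hc | hc)
    · exact h2 ⟨v, closedBall_subset_closedBall (by linarith) hv', hc⟩
    · exact h1 ⟨v, hv', hc⟩
  · refine ⟨w, by simp only [sub_self, norm_zero]; linarith, Or.inl fun v hv hc => ?_⟩
    rcases hc with hc | hc
    · exact h3 ⟨v, hv, hKG hc⟩
    · exact h2 ⟨v, closedBall_subset_closedBall (by linarith) hv, hc⟩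

/-- the covering property is invariant under translations -/
theorem PvmmCov.sh {μ ρ ρD : ℝ} {K D : Set ℂ} (h : PvmmCov μ ρ ρD K D) (z : ℂ) : PvmmCov μ ρ ρD (pvieSh z K) (pvieSh z D) := by
  intro w
  have hb : ∀ (r : ℝ) (w' : ℂ), ∀ v ∈ closedBall (z + w') r, v - z ∈ closedBall w' r := by
    intro r w' v hv
    rw [mem_closedBall_iff_norm] at hv ⊢
    rwa [show v - z - w' = v - (z + w') by ring]
  rcases h (w - z) with ⟨w', h1, h2⟩ | ⟨w', h1, h2⟩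
  · refine Or.inl ⟨z + w', by rwa [show w - (z + w') = w - z - w' by ring], ?_⟩
    rcases h2 with h2 | h2
    · refine Or.inl fun v hv hc => h2 (hb ρ w' v hv) ?_
      rcases hc with hc | hc
      · exact Or.inl (pvmm_mem_sh.1 hc)
      · exact Or.inr (pvmm_mem_sh.1 hc)
    · exact Or.inr fun v hv => pvmm_mem_sh.2 (h2 (hb ρ w' v hv))
  · exact Or.inr ⟨z + w', by rwa [show w - (z + w') = w - z - w' by ring], fun v hv => pvmm_mem_sh.2 (h2 (hb ρD w' v hv))⟩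

/-- the body of the thick link `e`: blocks of 166 and the rectangle of the funnel of 124 -/
theorem pvmm_fat_e {ρ Δ : ℝ} (hρ : 0 ≤ ρ) (hΔ : 4 * ρ ≤ Δ) (cu : ℂ) (lb : List PvtTurn) {Y u p : ℂ} (hu : ‖u‖ = 1) {e δ w : ℝ} (hs : e + 2 * δ + 2 * ρ ≤ pvegS Y u p - δ / 4) (hw : ρ ≤ w) :
    PvmmFat (2 * ρ) ρ (pvehBody Δ cu lb ∪ pvegRc Y u p e δ w) := by
  unfold pvehBody
  refine PvmmFat.union (PvmmFat.union (pvmm_fat_east hρ hΔ cu) (pvmm_fat_biUnion _ fun j _ => ?_)) (pvmm_fat_funnel hρ hu hs hw)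
  unfold pvehB
  exact pvmm_fat_sq hρ (by linarith) _

/-- the body of the thick return `f` of 182 -/
theorem pvmm_fat_f {ρ Δ : ℝ} (hρ : 0 ≤ ρ) (hΔ : 4 * ρ < Δ) (cu z d : ℂ) (l : List PvtTurn) {Y u p : ℂ} (hu : ‖u‖ = 1) {e δ w : ℝ} (hs : e + 2 * δ + 2 * ρ ≤ pvegS Y u p - δ / 4) (hw : ρ ≤ w) :
    PvmmFat (2 * ρ) ρ (pvefBody Δ cu z d l (pvegRc Y u p e δ w)) := by
  unfold pvefBody pvefBlocks
  refine PvmmFat.union (PvmmFat.union (pvmm_fat_funnel hρ hu hs hw) (pvmm_fat_biUnion _ fun j _ => ?_)) (pvmm_fat_west hρ hΔ cu)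
  unfold pvefBl
  exact pvmm_fat_sq hρ (by linarith) _

/-! ## 4. small tools -/

theorem pvmm_sh_add (z a : ℂ) (S : Set ℂ) : pvieSh (z + a) S = pvieSh z (pvieSh a S) := by
  ext v
  rw [pvmm_mem_sh, pvmm_mem_sh, pvmm_mem_sh, sub_add_eq_sub_sub]

theorem pvmm_sh_sq (a : ℂ) (s : ℝ) : pvieSh a (pvccSq 0 s) = pvccSq a s := by
  ext v
  rw [pvmm_mem_sh]
  simp only [pvccSq, mem_ofPred_eq, sub_zero]

/-- the hypothesis on the sites in the form of `PvrgDet` of 256 -/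
theorem pvmm_sites_of {Wn K D Y Y₀ : Set ℂ} (h : ∀ v ∈ Wn, v ∉ K → v ∉ D → (v ∈ Y ↔ v ∈ Y₀)) : Y ∩ (Wn \ (K ∪ D)) = Y₀ ∩ (Wn \ (K ∪ D)) := by
  ext v
  simp only [mem_inter_iff, Set.mem_sdiff, mem_union, not_or]
  exact ⟨fun a => ⟨(h v a.2.1 a.2.2.1 a.2.2.2).1 a.1, a.2⟩, fun a => ⟨(h v a.2.1 a.2.2.1 a.2.2.2).2 a.1, a.2⟩⟩

/-- the kept part of a window `Wz ∪ M ∪ K ∪ D` -/
theorem pvmm_kept (Wz M K D : Set ℂ) : (Wz ∪ M ∪ K ∪ D) \ (K ∪ D) = (Wz ∪ M) \ (K ∪ D) := by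
  ext v
  simp only [Set.mem_sdiff, mem_union]
  tauto

theorem pvmm_sites_fl (b : Bool) (η : Conf PvPt) : cfSites (pvkyFl b η) = cfSites η := by
  cases b
  · ext v
    simp only [pvkyFl, cfSites, cfFlip, Conf.image, mem_image, Bool.false_eq_true, if_false]
    constructor
    · rintro ⟨_, ⟨p, hp, rfl⟩, rfl⟩
      exact ⟨p, hp, rfl⟩
    · rintro ⟨p, hp, rfl⟩
      exact ⟨_, ⟨p, hp, rfl⟩, rfl⟩
  · rfl

/-- **(MESH-u)** the mesh clause of the usable states of the reference plug (frame of the plug, black form) is the mesh of the placed region -/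
theorem pvmm_mesh_u {ρ : ℝ} {O : Set ℂ} {b : Bool} {z' : ℂ} {η : Conf PvPt} (h : PvtrMesh ρ O (cfSites (cfMap (pvthInv z' 1) (pvkyFl b η)))) : PvtrMesh ρ (pvieSh z' O) (cfSites η) := by
  intro w hw
  have hw' : w - z' ∈ pvtrCore ρ O := by
    intro v hv
    have : z' + v ∈ pvieSh z' O := hw (by
      rw [mem_closedBall_iff_norm] at hv ⊢
      rwa [show z' + v - w = v - (w - z') by ring])
    simpa [pvmm_mem_sh] using this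
  obtain ⟨u, hu, h1⟩ := h _ hw'
  have e : cfSites (cfMap (pvthInv z' 1) (pvkyFl b η)) = pvthInv z' 1 '' cfSites η := by
    rw [← pvmm_sites_fl b η]
    exact vorc_sites_image _ _
  rw [e] at hu
  obtain ⟨x, hx, rfl⟩ := hu
  refine ⟨x, hx, ?_⟩
  have e2 : w - z' - pvthInv z' 1 x = w - x := by
    unfold pvthInv
    rw [div_one]
    ring
  rwa [e2] at h1

/-- the usable states of the reference plug carry the mesh of its region `⟹` so does every configuration whose reference plug at `z'` is usable -/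
theorem pvmm_mesh_Gr {τ : Type} {𝔈 : PvieEng τ} {m : ℕ} {ε ρ : ℝ} (hG : 𝔈.rG m ε ⊆ pvrgMesh ρ (𝔈.rO m)) {b : Bool} {z' : ℂ} {η : Conf PvPt} (h : η ∈ pvrgGr 𝔈 m ε b z') : η ∈ pvrgMesh ρ (pvieSh z' (𝔈.rO m)) :=
  pvmm_mesh_u (hG h)

/-! ## 5. THE SHAPE OF THE REGIONS OF A THICK LINK, (COV-μ), THE MESH OF THE WINDOW -/

section model

variable {τ : Type} {c : ℝ} (𝔓 : PvxPar τ c)

/-- the body of the thick link `e`, relative to the centre of the pin: blocks of 166, rectangle of the entrance funnel of 124 -/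
noncomputable def pvmmGe (m : ℕ) (t : τ) : Set ℂ :=
  pvehBody (pvehDl 𝔓 m) ((pvxrGam 𝔓 m).zu t) (pvxrLe (pvxrB 𝔓 t)) ∪ pvegRc (pvegYm 𝔓 m t) (-(𝔓.Γ m).din t) ((𝔓.Γ m).pin t) (pvegR 𝔓 m / 10) (pvlmDel c m) (pvegR 𝔓 m / 5)

/-- the body of the thick return `f` of 182, relative to the centre of the pin -/
noncomputable def pvmmGf (m : ℕ) (t : τ) : Set ℂ := pvefBody (pvehDl 𝔓 m) ((pvxrGam 𝔓 m).zu t) (pvefZ 𝔓 m t) (pvefD 𝔓 m t) (pvefW 𝔓 m t) (pvefF 𝔓 m t)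

/-- **THE SHAPE** which (b6) reads of the regions of a thick link (`Yc` = centre of the mouth, `G` = body, `s` = half side of the region of the reference plug): mouth `M`, tile `K` relative to the centre of the pin, `O` = region of the reference plug in its own frame.
ROOMS ARE NOT READ.      Robust under (U4) of R23 (2): the annulus `old rO \\ rO` goes to the tiles -/
structure PvmmShape (m : ℕ) (t : τ) (Yc : ℂ) (G : Set ℂ) (s : ℝ) (M K O : Set ℂ) : Prop where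
  M_eq : M = closedBall Yc (5 * pvegR 𝔓 m / 16)
  O_eq : O = pvccSq 0 s
  s_lo : pvlmDel c m / 2000 ≤ s
  K_sub : K ⊆ G \ M
  sub_K : G \ (pvccSq ((pvxrGam 𝔓 m).zu t) s ∪ M) ⊆ K
  MD : Disjoint M (pvccSq ((pvxrGam 𝔓 m).zu t) s)

theorem pvmm_eqns_cite2 : True := by
  have := @pvmmRc.eq_1; have := @pvmmGe.eq_1; have := @pvmmGf.eq_1
  trivial

variable {𝔓} {m0 m : ℕ} {t : τ}

theorem pvmm_Mu_le (𝔓 : PvxPar τ c) (m : ℕ) : pvilMu 𝔓 m ≤ pvlmDel c m / 1000 := by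
  unfold pvilMu
  exact div_le_div_of_nonneg_right (min_le_left _ _) (by norm_num)

theorem pvmm_Mu_pos (hρ3 : 0 < 𝔓.num.rho3) (m : ℕ) : 0 < pvilMu 𝔓 m := by
  unfold pvilMu
  exact div_pos (lt_min (pvlm_Del_pos c m) (mul_pos hρ3 (pvlm_H_pos m))) (by norm_num)

/-- **(COV-μ) FROM THE SHAPE**, placed -/
theorem PvmmShape.cov {Yc : ℂ} {G M K O : Set ℂ} {s μ ρ : ℝ} (S : PvmmShape 𝔓 m t Yc G s M K O) (hΓ : 𝔓.Γ m = pvxrGam 𝔓 m) (hρ : 0 ≤ ρ) (hμ : 0 < μ) (h40 : 40 * ρ ≤ μ) (hμ' : μ ≤ pvlmDel c m / 1000)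
    (hR : pvlmDel c m ≤ pvegR 𝔓 m) (fG : PvmmFat (2 * ρ) ρ G) (z : ℂ) : PvmmCov μ ρ (μ / 3) (pvieSh z K) (pvieSh (pvieZu 𝔓 m z t) O) := by
  have hd := pvlm_Del_pos c m
  unfold pvieZu
  rw [hΓ, pvmm_sh_add, S.O_eq, pvmm_sh_sq]
  refine PvmmCov.sh ?_ z
  refine pvmm_cov_of hρ hμ h40 (by linarith [S.s_lo]) (M := M) ?_ fG (fun v hv => (S.K_sub hv).1) (disjoint_left.2 fun v hv => (S.K_sub hv).2) S.MD S.sub_K
  rw [S.M_eq]
  exact (pvmm_fat_ball hρ (by linarith) Yc).mono (by linarith)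

/-- **THE MESH OF A WINDOW `Wz ∪ M ∪ K ∪ D` FROM THE SHAPE**: ANY `Wz`, any base region `B ⊇ Wz ∪ M` -/
theorem PvmmShape.mesh {Yc : ℂ} {G M K O : Set ℂ} {s μ ρ ρD : ℝ} (S : PvmmShape 𝔓 m t Yc G s M K O) (hΓ : 𝔓.Γ m = pvxrGam 𝔓 m) (hρ : 0 ≤ ρ) (hμ : 0 < μ) (h40 : 40 * ρ ≤ μ) (hμ' : μ ≤ pvlmDel c m / 1000)
    (hR : pvlmDel c m ≤ pvegR 𝔓 m) (fG : PvmmFat (2 * ρ) ρ G) (hρD : ρD ≤ μ / 3) (z : ℂ) {Wz B Y Y₀ : Set ℂ} (hB : Wz ∪ pvieSh z M ⊆ B)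
    (hs : Y ∩ ((Wz ∪ pvieSh z M) \ (pvieSh z K ∪ pvieSh (pvieZu 𝔓 m z t) O)) = Y₀ ∩ ((Wz ∪ pvieSh z M) \ (pvieSh z K ∪ pvieSh (pvieZu 𝔓 m z t) O)))
    (h0 : PvtrMesh ρ B Y₀) (hK : PvtrMesh ρ (pvieSh z K) Y) (hD : PvtrMesh ρD (pvieSh (pvieZu 𝔓 m z t) O) Y) :
    PvtrMesh μ (Wz ∪ pvieSh z M ∪ pvieSh z K ∪ pvieSh (pvieZu 𝔓 m z t) O) Y := by
  refine pvmm_three (S.cov hΓ hρ hμ h40 hμ' hR fG z) (B := B) ?_ ?_ h0 hK (pvmm_mesh_mono hD hρD)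
  · rw [pvmm_kept]
    exact sdiff_subset.trans hB
  · rw [pvmm_kept]
    exact hs

/-! ### the bodies are fat -/

theorem pvmm_fat_Ge (H : PveaPar 𝔓 m0) (hm : m0 ≤ m) (hT : pviwTyOk 𝔓 t) {ρ : ℝ} (hρ : 0 ≤ ρ) (h8 : 8 * ρ ≤ pvlmDel c m) : PvmmFat (2 * ρ) ρ (pvmmGe 𝔓 m t) := by
  have hd := pvlm_Del_pos c m
  have hf : 1024 * pvlmDel c m ≤ pvegR 𝔓 m := H.fine m hm
  have hD := pveg_door_i (H.lev hm) hT
  have hΔ := pveh_Del_le_Dl (𝔓 := 𝔓) (H.geo m hm t hT).n0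
  exact pvmm_fat_e hρ (by linarith) _ _ (pveg_norm_unit hD.u4) (by linarith [hD.s_lo]) (by linarith)

theorem pvmm_fat_Gf (H : PveaPar 𝔓 m0) (hm : m0 ≤ m) (hT : pviwTyOk 𝔓 t) {ρ : ℝ} (hρ : 0 ≤ ρ) (h8 : 8 * ρ ≤ pvlmDel c m) : PvmmFat (2 * ρ) ρ (pvmmGf 𝔓 m t) := by
  have hd := pvlm_Del_pos c m
  have hf : 1024 * pvlmDel c m ≤ pvegR 𝔓 m := H.fine m hm
  have hΔ := pveh_Del_le_Dl (𝔓 := 𝔓) (H.geo m hm t hT).n0
  have hC := (pvef_C0_frame (pvef_ndg_of (H.ndg m hm t hT) hT)).1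
  exact pvmm_fat_f hρ (by linarith) _ _ _ _ (pveg_norm_unit (pvef_I_pow _)) (by linarith) (by linarith)

/-! ### the regions of record have the shape -/

/-- a block of the thick link misses the open square of half side `Δ / 4` round the centre of the plug -/
theorem pvmm_B_off {Δ : ℝ} (hΔ : 0 < Δ) (cu : ℂ) {lb : List PvtTurn} (hW : PvehW lb) {j : ℕ} (hj : j < lb.length) : Disjoint (pvehB Δ cu lb j) (pvccSq cu (Δ / 4)) := by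
  unfold pvehB
  refine pveh_sq_disjoint_open ?_
  rw [pveh_C_eq, show cu + (Δ : ℂ) * pvtZ (pvehV lb j) - cu = (Δ : ℂ) * pvtZ (pvehV lb j) by ring, pvccN_real_mul hΔ.le, pveh_N_Z]
  have h1 : (1 : ℝ) ≤ max |((pvehV lb j).1 : ℝ)| |((pvehV lb j).2 : ℝ)| := by
    rcases hW j hj with h | h | h
    · rw [h]; simp
    · have h2 : (2 : ℝ) ≤ |((pvehV lb j).1 : ℝ)| := by exact_mod_cast h
      exact le_max_of_le_left (by linarith)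
    · have h2 : (2 : ℝ) ≤ |((pvehV lb j).2 : ℝ)| := by exact_mod_cast h
      exact le_max_of_le_right (by linarith)
  nlinarith

/-- **THE SHAPE OF `e`**: mouth `pvegIM`, tile `pveheK ∪ pvegIK ∪ A`, `A` = the EAST part of the annulus `old rO \\ rO` (placed at `zu`, relative to the pin), `rO` = open square of half side `s ≤ Δ / 4` -/
theorem pvmm_shape_e (H : PveaPar 𝔓 m0) (J : PveaIn) (hm : m0 ≤ m) (hT : pviwTyOk 𝔓 t) {s : ℝ} (hs1 : pvlmDel c m / 2000 ≤ s) (hs2 : s ≤ pvehDl 𝔓 m / 4) {A : Set ℂ}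
    (hA1 : A ⊆ pvehEast (pvehDl 𝔓 m) ((pvxrGam 𝔓 m).zu t) ∩ pvccSq ((pvxrGam 𝔓 m).zu t) (pvehDl 𝔓 m / 4))
    (hA2 : (pvehEast (pvehDl 𝔓 m) ((pvxrGam 𝔓 m).zu t) ∩ pvccSq ((pvxrGam 𝔓 m).zu t) (pvehDl 𝔓 m / 4)) \ pvccSq ((pvxrGam 𝔓 m).zu t) s ⊆ A) :
    PvmmShape 𝔓 m t (pvegYm 𝔓 m t) (pvmmGe 𝔓 m t) s (pvegIM 𝔓 m t) (pveheK 𝔓 (pvegIM 𝔓) m t ∪ pvegIK 𝔓 m t ∪ A) (pvccSq 0 s) := by
  have hΔ := pveh_Dl_pos (𝔓 := 𝔓) (H.geo m hm t hT).n0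
  have hMD : Disjoint (pvegIM 𝔓 m t) (pvccSq ((pvxrGam 𝔓 m).zu t) (pvehDl 𝔓 m / 4)) := by
    rw [← pveh_sh_rO]
    exact (pvea_i_plug (J := J) H hm hT).mono subset_union_left subset_union_right
  refine ⟨rfl, rfl, hs1, ?_, ?_, hMD.mono_right (pvcc_sq_mono _ hs2)⟩
  · rintro v ((hv | hv) | hv)
    · exact ⟨Or.inl hv.1, fun h => hv.2 (Or.inr h)⟩
    · exact ⟨Or.inr hv.1, hv.2⟩
    · exact ⟨Or.inl (Or.inl (hA1 hv).1), fun h => disjoint_left.1 hMD h (hA1 hv).2⟩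
  · rintro v ⟨hv, hn⟩
    by_cases hO : v ∈ pvccSq ((pvxrGam 𝔓 m).zu t) (pvehDl 𝔓 m / 4)
    · rcases hv with (hv | hv) | hv
      · exact Or.inr (hA2 ⟨⟨hv, hO⟩, fun h => hn (Or.inl h)⟩)
      · simp only [mem_iUnion, exists_prop, Finset.mem_range] at hv
        obtain ⟨j, hj, hv⟩ := hv
        exact absurd hO (disjoint_left.1 (pvmm_B_off hΔ _ (pveh_W_le _) hj) hv)
      · have h1 := pvea_end_i (J := J) H hm hT v (Or.inr (by rw [pveh_sh_rO]; exact hO))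
        exact absurd hv.2.1 (not_le.2 h1)
    · rcases hv with hv | hv
      · exact Or.inl (Or.inl ⟨hv, fun h => h.elim hO fun h => hn (Or.inr h)⟩)
      · exact Or.inl (Or.inr ⟨hv, fun h => hn (Or.inr h)⟩)

/-- **THE SHAPE OF `f`**: mouth `pvegOM`, tile `pveffK ∪ A`, `A` = the WEST part of the annulus -/
theorem pvmm_shape_f (H : PveaPar 𝔓 m0) (J : PveaIn) (hm : m0 ≤ m) (hT : pviwTyOk 𝔓 t) {s : ℝ} (hs1 : pvlmDel c m / 2000 ≤ s) (hs2 : s ≤ pvehDl 𝔓 m / 4) {A : Set ℂ}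
    (hA1 : A ⊆ pvefWest (pvehDl 𝔓 m) ((pvxrGam 𝔓 m).zu t) ∩ pvccSq ((pvxrGam 𝔓 m).zu t) (pvehDl 𝔓 m / 4))
    (hA2 : (pvefWest (pvehDl 𝔓 m) ((pvxrGam 𝔓 m).zu t) ∩ pvccSq ((pvxrGam 𝔓 m).zu t) (pvehDl 𝔓 m / 4)) \ pvccSq ((pvxrGam 𝔓 m).zu t) s ⊆ A) :
    PvmmShape 𝔓 m t (pvegYp 𝔓 m t) (pvmmGf 𝔓 m t) s (pvegOM 𝔓 m t) (pveffK 𝔓 m t ∪ A) (pvccSq 0 s) := by
  have hΔ := pveh_Dl_pos (𝔓 := 𝔓) (H.geo m hm t hT).n0
  have hnd := pvef_ndg_of (H.ndg m hm t hT) hT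
  have hend : ∀ v ∈ pvccSq ((pvxrGam 𝔓 m).zu t) (pvehDl 𝔓 m / 4), v ∈ pveaEnd 𝔓 J m t := fun v hv => Or.inr (by rw [pveh_sh_rO]; exact hv)
  have hMD : Disjoint (pvegOM 𝔓 m t) (pvccSq ((pvxrGam 𝔓 m).zu t) (pvehDl 𝔓 m / 4)) :=
    (pvea_o_end (J := J) H hm hT).mono subset_union_left hend
  refine ⟨rfl, rfl, hs1, ?_, ?_, hMD.mono_right (pvcc_sq_mono _ hs2)⟩
  · rintro v (hv | hv)
    · exact ⟨hv.1, fun h => hv.2 (Or.inr h)⟩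
    · exact ⟨Or.inr (hA1 hv).1, fun h => disjoint_left.1 hMD h (hA1 hv).2⟩
  · rintro v ⟨hv, hn⟩
    by_cases hO : v ∈ pvccSq ((pvxrGam 𝔓 m).zu t) (pvehDl 𝔓 m / 4)
    · rcases hv with (hv | hv) | hv
      · have h1 := pvea_end_o (J := J) H hm hT v (hend v hO)
        have h2 := pvef_F_ball hnd hv
        rw [mem_closedBall_iff_norm] at h2
        exact absurd h2 (not_le.2 h1)
      · exfalso
        have hO' : max |(v - (pvxrGam 𝔓 m).zu t).re| |(v - (pvxrGam 𝔓 m).zu t).im| < pvehDl 𝔓 m / 4 := hO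
        rcases pvef_q296_block_u hnd hv with h1 | h1
        · have h2 := h1 v (show pvccN (v - (pvxrGam 𝔓 m).zu t) ≤ pvehDl 𝔓 m / 2 from le_of_lt (lt_of_lt_of_le hO (by linarith)))
          rw [sub_self] at h2
          simp only [pvccN, zero_re, zero_im, abs_zero, max_self] at h2
          linarith
        · have h2 := (abs_lt.1 (max_lt_iff.1 hO').1).1
          rw [sub_re] at h2
          linarith
      · exact Or.inr (hA2 ⟨⟨hv, hO⟩, fun h => hn (Or.inl h)⟩)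
    · exact Or.inl ⟨hv, fun h => h.elim hO fun h => hn (Or.inr h)⟩

/-- `e` at the regions of 166 / 124 as they stand (`rO` = the whole square `Δ / 4`) -/
theorem pvmm_shape_e0 (H : PveaPar 𝔓 m0) (J : PveaIn) (hm : m0 ≤ m) (hT : pviwTyOk 𝔓 t) :
    PvmmShape 𝔓 m t (pvegYm 𝔓 m t) (pvmmGe 𝔓 m t) (pvehDl 𝔓 m / 4) (pvegIM 𝔓 m t) (pveheK 𝔓 (pvegIM 𝔓) m t ∪ pvegIK 𝔓 m t) (pvehrO 𝔓 m) := by
  have hd := pvlm_Del_pos c m
  have hΔ := pveh_Del_le_Dl (𝔓 := 𝔓) (H.geo m hm t hT).n0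
  have h := pvmm_shape_e H J hm hT (s := pvehDl 𝔓 m / 4) (A := ∅) (by linarith) le_rfl (empty_subset _) (fun v hv => hv.2 hv.1.2)
  rwa [union_empty] at h

/-- `f` at the regions of 182 as they stand -/
theorem pvmm_shape_f0 (H : PveaPar 𝔓 m0) (J : PveaIn) (hm : m0 ≤ m) (hT : pviwTyOk 𝔓 t) :
    PvmmShape 𝔓 m t (pvegYp 𝔓 m t) (pvmmGf 𝔓 m t) (pvehDl 𝔓 m / 4) (pvegOM 𝔓 m t) (pveffK 𝔓 m t) (pvehrO 𝔓 m) := by
  have hd := pvlm_Del_pos c m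
  have hΔ := pveh_Del_le_Dl (𝔓 := 𝔓) (H.geo m hm t hT).n0
  have h := pvmm_shape_f H J hm hT (s := pvehDl 𝔓 m / 4) (A := ∅) (by linarith) le_rfl (empty_subset _) (fun v hv => hv.2 hv.1.2)
  rwa [union_empty] at h

/-- **`e` AFTER (U4)** of R23 (2): `rO := pvccSq 0 s`, `eK := old eK ∪ (zu + AnE)`, `AnE = (old rO \\ rO) ∩ {0 ≤ re}` -/
theorem pvmm_shape_e4 (H : PveaPar 𝔓 m0) (J : PveaIn) (hm : m0 ≤ m) (hT : pviwTyOk 𝔓 t) {s : ℝ} (hs1 : pvlmDel c m / 2000 ≤ s) (hs2 : s ≤ pvehDl 𝔓 m / 4) :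
    PvmmShape 𝔓 m t (pvegYm 𝔓 m t) (pvmmGe 𝔓 m t) s (pvegIM 𝔓 m t)
      (pveheK 𝔓 (pvegIM 𝔓) m t ∪ pvegIK 𝔓 m t ∪ pvieSh ((pvxrGam 𝔓 m).zu t) ((pvehrO 𝔓 m \ pvccSq 0 s) ∩ {w | 0 ≤ w.re})) (pvccSq 0 s) := by
  have hΔ := pveh_Dl_pos (𝔓 := 𝔓) (H.geo m hm t hT).n0
  refine pvmm_shape_e H J hm hT hs1 hs2 ?_ ?_
  · intro v hv
    rw [pvmm_mem_sh] at hv
    obtain ⟨⟨h1, -⟩, h3⟩ := hv
    have h1' : pvccN (v - (pvxrGam 𝔓 m).zu t - 0) < pvehDl 𝔓 m / 4 := h1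
    rw [sub_zero] at h1'
    have h3' : 0 ≤ (v - (pvxrGam 𝔓 m).zu t).re := h3
    rw [sub_re] at h3'
    exact ⟨⟨show pvccN (v - (pvxrGam 𝔓 m).zu t) ≤ pvehDl 𝔓 m / 2 by linarith, by linarith⟩, h1'⟩
  · rintro v ⟨⟨h1, h2⟩, h3⟩
    rw [pvmm_mem_sh]
    refine ⟨⟨show pvccN (v - (pvxrGam 𝔓 m).zu t - 0) < pvehDl 𝔓 m / 4 by rw [sub_zero]; exact h2, fun h => h3 ?_⟩, show 0 ≤ (v - (pvxrGam 𝔓 m).zu t).re by rw [sub_re]; linarith [h1.2]⟩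
    have h' : pvccN (v - (pvxrGam 𝔓 m).zu t - 0) < s := h
    rw [sub_zero] at h'
    exact h'

/-- **`f` AFTER (U4)**: `fK := fK of 182 ∪ (zu + AnW)`, `AnW = (old rO \\ rO) ∩ {re < 0}` -/
theorem pvmm_shape_f4 (H : PveaPar 𝔓 m0) (J : PveaIn) (hm : m0 ≤ m) (hT : pviwTyOk 𝔓 t) {s : ℝ} (hs1 : pvlmDel c m / 2000 ≤ s) (hs2 : s ≤ pvehDl 𝔓 m / 4) :
    PvmmShape 𝔓 m t (pvegYp 𝔓 m t) (pvmmGf 𝔓 m t) s (pvegOM 𝔓 m t) (pveffK 𝔓 m t ∪ pvieSh ((pvxrGam 𝔓 m).zu t) ((pvehrO 𝔓 m \ pvccSq 0 s) ∩ {w | w.re < 0})) (pvccSq 0 s) := by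
  have hΔ := pveh_Dl_pos (𝔓 := 𝔓) (H.geo m hm t hT).n0
  refine pvmm_shape_f H J hm hT hs1 hs2 ?_ ?_
  · intro v hv
    rw [pvmm_mem_sh] at hv
    obtain ⟨⟨h1, -⟩, h3⟩ := hv
    have h1' : pvccN (v - (pvxrGam 𝔓 m).zu t - 0) < pvehDl 𝔓 m / 4 := h1
    rw [sub_zero] at h1'
    have h3' : (v - (pvxrGam 𝔓 m).zu t).re < 0 := h3
    rw [sub_re] at h3'
    exact ⟨⟨show pvccN (v - (pvxrGam 𝔓 m).zu t) ≤ pvehDl 𝔓 m / 2 by linarith, by linarith⟩, h1'⟩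
  · rintro v ⟨⟨h1, h2⟩, h3⟩
    rw [pvmm_mem_sh]
    refine ⟨⟨show pvccN (v - (pvxrGam 𝔓 m).zu t - 0) < pvehDl 𝔓 m / 4 by rw [sub_zero]; exact h2, fun h => h3 ?_⟩, show (v - (pvxrGam 𝔓 m).zu t).re < 0 by rw [sub_re]; linarith [h1.2]⟩
    have h' : pvccN (v - (pvxrGam 𝔓 m).zu t - 0) < s := h
    rw [sub_zero] at h'
    exact h'

/-! ## 6. (b6): THE MESH CONJUNCT OF `pvilMe`, `pvilMf` AT A FINAL CONFIGURATION -/

/-- **(b6) FOR `e`**: `η` = the sites of `η₀` on the kept part of the window, base certificate `pvrgMesh ρ (own-level box ∪ mouth)` (`Z`-free, bounded), tile `pvrgMesh ρ`, plug region `pvrgMesh ρD`, `40 ρ ≤ μ₀`, `ρD ≤ μ₀ / 3` -/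
theorem pvmm_e (H : PveaPar 𝔓 m0) (hm : m0 ≤ m) (hT : pviwTyOk 𝔓 t) {𝔈 : PvieEng τ} {s : ℝ} (S : PvmmShape 𝔓 m t (pvegYm 𝔓 m t) (pvmmGe 𝔓 m t) s (𝔈.eM m t) (𝔈.eK m t) (𝔈.rO m)) (hμ : 0 < pvilMu 𝔓 m)
    {ρ ρD : ℝ} (hρ : 0 ≤ ρ) (h40 : 40 * ρ ≤ pvilMu 𝔓 m) (hρD : ρD ≤ pvilMu 𝔓 m / 3) (z : ℂ) (Z : Set (ℤ × ℤ)) {η₀ η : Conf PvPt}
    (hs : cfSites η ∩ ((pvilWz 𝔓 m z t Z ∪ pvieSh z (𝔈.eM m t)) \ (pvieSh z (𝔈.eK m t) ∪ pvieSh (pvieZu 𝔓 m z t) (𝔈.rO m))) =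
      cfSites η₀ ∩ ((pvilWz 𝔓 m z t Z ∪ pvieSh z (𝔈.eM m t)) \ (pvieSh z (𝔈.eK m t) ∪ pvieSh (pvieZu 𝔓 m z t) (𝔈.rO m))))
    (h0 : η₀ ∈ pvrgMesh ρ (pvilBx 𝔓 m z t ∪ pvieSh z (𝔈.eM m t))) (hK : η ∈ pvrgMesh ρ (pvieSh z (𝔈.eK m t))) (hD : η ∈ pvrgMesh ρD (pvieSh (pvieZu 𝔓 m z t) (𝔈.rO m))) :
    η ∈ pvilMs 𝔓 m (pvilWne 𝔓 𝔈 m z t Z) := by
  have hd := pvlm_Del_pos c m
  have hf : 1024 * pvlmDel c m ≤ pvegR 𝔓 m := H.fine m hm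
  have hle := pvmm_Mu_le 𝔓 m
  exact S.mesh (H.gam m) hρ hμ h40 hle (by linarith) (pvmm_fat_Ge H hm hT hρ (by linarith)) hρD z (union_subset_union_left _ inter_subset_right) hs h0 hK hD

/-- **(b6) FOR `f`** -/
theorem pvmm_f (H : PveaPar 𝔓 m0) (hm : m0 ≤ m) (hT : pviwTyOk 𝔓 t) {𝔈 : PvieEng τ} {s : ℝ} (S : PvmmShape 𝔓 m t (pvegYp 𝔓 m t) (pvmmGf 𝔓 m t) s (𝔈.fM m t) (𝔈.fK m t) (𝔈.rO m)) (hμ : 0 < pvilMu 𝔓 m)
    {ρ ρD : ℝ} (hρ : 0 ≤ ρ) (h40 : 40 * ρ ≤ pvilMu 𝔓 m) (hρD : ρD ≤ pvilMu 𝔓 m / 3) (z : ℂ) (Z : Set (ℤ × ℤ)) {η₀ η : Conf PvPt}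
    (hs : cfSites η ∩ ((pvilWz 𝔓 m z t Z ∪ pvieSh z (𝔈.fM m t)) \ (pvieSh z (𝔈.fK m t) ∪ pvieSh (pvieZu 𝔓 m z t) (𝔈.rO m))) =
      cfSites η₀ ∩ ((pvilWz 𝔓 m z t Z ∪ pvieSh z (𝔈.fM m t)) \ (pvieSh z (𝔈.fK m t) ∪ pvieSh (pvieZu 𝔓 m z t) (𝔈.rO m))))
    (h0 : η₀ ∈ pvrgMesh ρ (pvilBx 𝔓 m z t ∪ pvieSh z (𝔈.fM m t))) (hK : η ∈ pvrgMesh ρ (pvieSh z (𝔈.fK m t))) (hD : η ∈ pvrgMesh ρD (pvieSh (pvieZu 𝔓 m z t) (𝔈.rO m))) :
    η ∈ pvilMs 𝔓 m (pvilWnf 𝔓 𝔈 m z t Z) := by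
  have hd := pvlm_Del_pos c m
  have hf : 1024 * pvlmDel c m ≤ pvegR 𝔓 m := H.fine m hm
  have hle := pvmm_Mu_le 𝔓 m
  exact S.mesh (H.gam m) hρ hμ h40 hle (by linarith) (pvmm_fat_Gf H hm hT hρ (by linarith)) hρD z (union_subset_union_left _ inter_subset_right) hs h0 hK hD

/-- **(b6) FOR `e` AT THE RECORDS OF 35**: the third conjunct of `PvjeDet.ev` at `pvjeE` -/
theorem pvmm_fin_e (H : PveaPar 𝔓 m0) (hm : m0 ≤ m) (hT : pviwTyOk 𝔓 t) {𝔈 : PvieEng τ} {s : ℝ} (S : PvmmShape 𝔓 m t (pvegYm 𝔓 m t) (pvmmGe 𝔓 m t) s (𝔈.eM m t) (𝔈.eK m t) (𝔈.rO m)) (hμ : 0 < pvilMu 𝔓 m)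
    {ρ ρD : ℝ} (hρ : 0 ≤ ρ) (h40 : 40 * ρ ≤ pvilMu 𝔓 m) (hρD : ρD ≤ pvilMu 𝔓 m / 3) {w : ∀ η : Conf PvPt, (delbPl (pvieY η)).Dart → ℂ} {ε : ℝ} {z : ℂ} {T : PvjeTest} {η₀ η : Conf PvPt}
    (hf : PvjeFin (pvjeE 𝔓 𝔈 w m ε z t) T η₀ η) (h0 : η₀ ∈ pvrgMesh ρ (pvilBx 𝔓 m z t ∪ pvieSh z (𝔈.eM m t))) (mK : T.𝒦 ⊆ pvrgMesh ρ (pvieSh z (𝔈.eK m t)))
    (hD : η ∈ pvrgMesh ρD (pvieSh (pvieZu 𝔓 m z t) (𝔈.rO m))) : η ∈ pvilMs 𝔓 m (pvilWne 𝔓 𝔈 m z t (pvilZi 𝔓 m z t η₀)) := by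
  obtain ⟨κ, hκ, -⟩ := hf.copy
  have hK : η ∈ pvrgMesh ρ (pvieSh z (𝔈.eK m t)) := by
    have := mK hκ
    rw [pvrgMesh, mem_ofPred_eq, cfOf_sites] at this
    exact this
  exact pvmm_e H hm hT S hμ hρ h40 hρD z _ hf.sites h0 hK hD

/-- **(b6) FOR `e`**, sites in the form of `PvrgDet` of 256 -/
theorem pvmm_det_e (H : PveaPar 𝔓 m0) (hm : m0 ≤ m) (hT : pviwTyOk 𝔓 t) {𝔈 : PvieEng τ} {s : ℝ} (S : PvmmShape 𝔓 m t (pvegYm 𝔓 m t) (pvmmGe 𝔓 m t) s (𝔈.eM m t) (𝔈.eK m t) (𝔈.rO m)) (hμ : 0 < pvilMu 𝔓 m)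
    {ρ ρD : ℝ} (hρ : 0 ≤ ρ) (h40 : 40 * ρ ≤ pvilMu 𝔓 m) (hρD : ρD ≤ pvilMu 𝔓 m / 3) (z : ℂ) (Z : Set (ℤ × ℤ)) {η₀ η : Conf PvPt}
    (hs : ∀ v ∈ pvilWne 𝔓 𝔈 m z t Z, v ∉ pvieSh z (𝔈.eK m t) → v ∉ pvieSh (pvieZu 𝔓 m z t) (𝔈.rO m) → (v ∈ cfSites η ↔ v ∈ cfSites η₀))
    (h0 : η₀ ∈ pvrgMesh ρ (pvilBx 𝔓 m z t ∪ pvieSh z (𝔈.eM m t))) (hK : η ∈ pvrgMesh ρ (pvieSh z (𝔈.eK m t))) (hD : η ∈ pvrgMesh ρD (pvieSh (pvieZu 𝔓 m z t) (𝔈.rO m))) :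
    η ∈ pvilMs 𝔓 m (pvilWne 𝔓 𝔈 m z t Z) := by
  have h := pvmm_sites_of hs
  unfold pvilWne at h
  rw [pvmm_kept] at h
  exact pvmm_e H hm hT S hμ hρ h40 hρD z Z h h0 hK hD

/-- **(b6) FOR `f`**, sites in the form of `PvrgDet` of 256 -/
theorem pvmm_det_f (H : PveaPar 𝔓 m0) (hm : m0 ≤ m) (hT : pviwTyOk 𝔓 t) {𝔈 : PvieEng τ} {s : ℝ} (S : PvmmShape 𝔓 m t (pvegYp 𝔓 m t) (pvmmGf 𝔓 m t) s (𝔈.fM m t) (𝔈.fK m t) (𝔈.rO m)) (hμ : 0 < pvilMu 𝔓 m)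
    {ρ ρD : ℝ} (hρ : 0 ≤ ρ) (h40 : 40 * ρ ≤ pvilMu 𝔓 m) (hρD : ρD ≤ pvilMu 𝔓 m / 3) (z : ℂ) (Z : Set (ℤ × ℤ)) {η₀ η : Conf PvPt}
    (hs : ∀ v ∈ pvilWnf 𝔓 𝔈 m z t Z, v ∉ pvieSh z (𝔈.fK m t) → v ∉ pvieSh (pvieZu 𝔓 m z t) (𝔈.rO m) → (v ∈ cfSites η ↔ v ∈ cfSites η₀))
    (h0 : η₀ ∈ pvrgMesh ρ (pvilBx 𝔓 m z t ∪ pvieSh z (𝔈.fM m t))) (hK : η ∈ pvrgMesh ρ (pvieSh z (𝔈.fK m t))) (hD : η ∈ pvrgMesh ρD (pvieSh (pvieZu 𝔓 m z t) (𝔈.rO m))) :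
    η ∈ pvilMs 𝔓 m (pvilWnf 𝔓 𝔈 m z t Z) := by
  have h := pvmm_sites_of hs
  unfold pvilWnf at h
  rw [pvmm_kept] at h
  exact pvmm_f H hm hT S hμ hρ h40 hρD z Z h h0 hK hD

/-- the region of the base certificate is bounded (so the certificate is free: `pvgu_frc_mesh`, `pvrg_mesh_small`) -/
theorem PvmmShape.bdd {Yc : ℂ} {G M K O : Set ℂ} {s : ℝ} (S : PvmmShape 𝔓 m t Yc G s M K O) (z : ℂ) : Bornology.IsBounded (pvilBx 𝔓 m z t ∪ pvieSh z M) := by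
  refine Bornology.IsBounded.union ?_ ?_
  · refine (isBounded_closedBall (x := z) (r := 2 * (pvwRad 𝔓.num (pvlmH m) (𝔓.ty t) (𝔓.ty t).k + pvlmDel c m))).subset fun v hv => ?_
    obtain ⟨h1, h2⟩ := hv
    rw [mem_closedBall_iff_norm]
    have := Complex.norm_le_abs_re_add_abs_im (v - z)
    linarith
  · rw [S.M_eq]
    refine (isBounded_closedBall (x := z + Yc) (r := 5 * pvegR 𝔓 m / 16)).subset fun v hv => ?_
    rw [pvmm_mem_sh, mem_closedBall_iff_norm] at hv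
    rw [mem_closedBall_iff_norm]
    rwa [show v - (z + Yc) = v - z - Yc by ring]

end model

end Claimed.Agent.R289
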