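-- KEEP
import Claimed.Agent.R289.Exit.MeshT
import Claimed.Agent.R289.Exit.EngU4

/-!
# Row 289 (S0537), THE WALL, ROAD E, file Exit/MeshTR : (b6) OF E10 FOR `e f` AT THE NAMES OF RECORD OF (U4)      (helper64; prefix `pvmm_`)

`Exit/MeshT` reads the regions through `PvmmShape`;   here: the shape AT THE REGIONS OF `Exit/EngU4` of 84 (`pvnuRO pvnuEK pvnuFK`), and (MESH-u) at `pvnuRG`.      0 sorry.
* **`pvmm_shape_eU`**, **`pvmm_shape_fU`** : `PvmmShape` at `(pvegIM, pvnuEK, pvnuRO)`, `(pvegOM, pvnuFK, pvnuRO)`, half side `13 Δ / 80`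
* **`pvmm_RG_mesh`** : `pvnuRG 𝔓 𝔊 b m ε ⊆ pvrgMesh (pvilMu 𝔓 m / 3) (pvnuRO 𝔓 m)`
-/

set_option autoImplicit false

namespace Claimed.Agent.R289

open Set Metric Complex
open scoped ENNReal

variable {τ : Type} {c : ℝ} {𝔓 : PvxPar τ c} {m0 m : ℕ} {t : τ}

/-- **`e` AT THE REGIONS OF RECORD AFTER (U4)** -/
theorem pvmm_shape_eU (H : PveaPar 𝔓 m0) (J : PveaIn) (hm : m0 ≤ m) (hT : pviwTyOk 𝔓 t) :
    PvmmShape 𝔓 m t (pvegYm 𝔓 m t) (pvmmGe 𝔓 m t) (13 * pvehDl 𝔓 m / 80) (pvegIM 𝔓 m t) (pvnuEK 𝔓 m t) (pvnuRO 𝔓 m) := by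
  have hd := pvlm_Del_pos c m
  have hΔ := pveh_Del_le_Dl (𝔓 := 𝔓) (H.geo m hm t hT).n0
  have h := pvmm_shape_e4 H J hm hT (s := 13 * pvehDl 𝔓 m / 80) (by linarith) (by linarith)
  unfold pvnuEK pvnuAE
  rw [pvnu4_RO_sq H.rho0, H.gam]
  exact h

/-- **`f` AT THE REGIONS OF RECORD AFTER (U4)** -/
theorem pvmm_shape_fU (H : PveaPar 𝔓 m0) (J : PveaIn) (hm : m0 ≤ m) (hT : pviwTyOk 𝔓 t) :
    PvmmShape 𝔓 m t (pvegYp 𝔓 m t) (pvmmGf 𝔓 m t) (13 * pvehDl 𝔓 m / 80) (pvegOM 𝔓 m t) (pvnuFK 𝔓 m t) (pvnuRO 𝔓 m) := by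
  have hd := pvlm_Del_pos c m
  have hΔ := pveh_Del_le_Dl (𝔓 := 𝔓) (H.geo m hm t hT).n0
  have h := pvmm_shape_f4 H J hm hT (s := 13 * pvehDl 𝔓 m / 80) (by linarith) (by linarith)
  unfold pvnuFK pvnuAW
  rw [pvnu4_RO_sq H.rho0, H.gam]
  exact h

/-- **(MESH-u) AT THE USABLE STATES OF RECORD AFTER (U4)** -/
theorem pvmm_RG_mesh (hμ : 0 ≤ pvilMu 𝔓 m) (𝔊 : PvpgGlob) (b : ℝ≥0∞) (ε : ℝ) : pvnuRG 𝔓 𝔊 b m ε ⊆ pvrgMesh (pvilMu 𝔓 m / 3) (pvnuRO 𝔓 m) :=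
  fun _ h => pvmm_mesh_mono h.2.2 (by linarith)

end Claimed.Agent.R289
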