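-- KEEP
import Claimed.Agent.R289.Exit.FrcE
import Claimed.Agent.R289.Exit.EngRec
import Claimed.Agent.R289.Exit.GdRec
import Claimed.Agent.R289.Tr.FrcDoor
import Claimed.Agent.R289.Tr.LinkQ
import Claimed.Agent.R289.Tr.PlugFrcR
import Claimed.Agent.R289.Tr.LinkME
import Claimed.Agent.R289.Tr.FrcCarF
import Claimed.Agent.R289.Tr.LinkDet
import Claimed.Agent.R289.Tr.AtCylL
import Claimed.Agent.R289.Tr.MeasL
import Claimed.Agent.R289.Exit.ParBd
import Claimed.Agent.R289.Tr.InstLB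
import Claimed.Agent.R289.Exit.RefPlug
import Claimed.Agent.R289.Tr.InvE
import Claimed.Agent.R289.Exit.MeshTR
import Claimed.Agent.R289.Tr.HookTM
import Claimed.Agent.R289.Exit.FrcTU
import Claimed.Agent.R289.Exit.RefEnd
import Claimed.Agent.R289.Exit.RefWin
import Claimed.Agent.R289.Tr.HookTD
import Claimed.Agent.R289.Exit.FrcTG
import Claimed.Agent.R289.Exit.FrcTM
import Claimed.Agent.R289.Exit.FrcTR
import Claimed.Agent.R289.Exit.FrcTT
import Claimed.Agent.R289.Exit.ThickCR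

/-!
# Row 289 (S0537), THE WALL, ROAD E, file Exit/FrcT : E10, LINK e = THE THICK LINK `reference plug → t` IS FORCED, CONSTANT FREE OF THE LEVEL      (helper54, integrator of `exit_pvgu_e`, T15 / T16 of 24; prefix `pvet_`, `pvet`, `Pvet`)

SKELETON (order of 24, 12:58Z): **`pvet_exit`** = the statement of `exit_pvgu_e` (`Exit/GdCut.lean`, 238) VERBATIM (`PvguFrc` unfolded) `:= pvje_cut ..` (35, `Exit/FrcE.lean`) at
      `E ε := pvetE .. = pvjeE 𝔓 𝔈 pvilQ m ε z t`   (`𝔓 = pvxParOf N hN c`, `𝔈 = pvnaEngRec N hN c nb`: T12),      `T := pvetT ..` (EXPLICIT, sec. 1),      `Mc := pvetMc ..`,      `θ := nb.b / 2`,      `qe := pvetT0 q0 Mq Kq Lq * (nb.b - nb.b / 2)`.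
EVERY HYPOTHESIS OF `pvje_cut` = NAMED LEAVES, field by field.      A PROVER TAKES ONE LEAF (claim289 row `pvet_<leaf>`), proves it IN PLACE or in his own file (then one line to 54).
* sec. 1  DEFS: `PvetRt` (route data `dl F` of the copy pattern), contract `PvetRt.Ok` (`fit len meas win`, `up` = record `PvubGeo` of 17, `det` = `PvetDet` of 66: `rho tip lay mem`), names `pvetSc` (scale of the reference plug `= pvurSr` of 31), `pvetTn` (truncation of record),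
          `pvetS` (side event `S⁺` of the reference plug, centre `0`, black form), `pvetC` (plain plug), `pvetT0`, **`pvetT`**, `pvetMc`, `pvetE`
* sec. 2  [Wf]  `pvet_mK mD mM mWz bK bD bM KD MK MD fin mX rG stop`  ⟹ `pvet_wf`
* sec. 3  [Ok]  `pvet_mO bO O_sub mP rP mH win rH thr loc up`  ⟹ `pvet_ok`
* sec. 4  [q] `pvet_b`, `pvet_T0_anti`, `pvet_T0_ne`;   [cost] `pvet_cost`;   [Mc] `pvet_Mc_small`;   [U] `pvet_U`
* sec. 5  [DET] `pvet_ev_mesh` (b6, 64), **`pvet_ev`** (b1) (b2) (b3) `:= pvhu_ev_eD` of 66 (`Tr/HookTM`) at the data of `PvetRt.Ok.det`, `pvet_val` (b5, 128 22)  ⟹ `pvet_det`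
* sec. 6  THE ROUTES OF RECORD `pvetRtE` (276; pattern `pvmvPatE` of 21), payments `pvet_rt_win` (21), `pvet_rtE_det` (165 21 274 118 1 209 80), `pvet_rtE_up` (232 17 73 173) ⟹ `pvet_rtE_ok` ⟹ `exit_pvet_rt`,   `pvet_frc`,   **`pvet_exit`**
**0 SORRY; `#print axioms pvet_exit` = `propext, Classical.choice, Quot.sound` (15:40Z, engine v4 = L2, FROZEN).**
-/

set_option autoImplicit false

namespace Claimed.Agent.R289

open Set MeasureTheory Filter Topology Claims.C0465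
open scoped ENNReal

/-! ## 1. the definitions -/

/-- **the route data of the copy pattern of the thick link**: mesh of the pattern grid, coloured routes (legs `(region, start, end)` of 21 / 298, `Tr/LinkQ`) -/
structure PvetRt where
  dl : ℝ
  F : List (Bool × List (Set ℂ × ℂ × ℂ))

section defs

variable {τ : Type} {c : ℝ} (𝔓 : PvxPar τ c) (𝔈 : PvieEng τ)

/-- **the scale of the reference plug of record, BY NAME** (`= 40 ×` its unit `pvilRu`): `pvurSr` of 31 (`Exit/RefRec`): MOVES WITH THE ENGINE (L2: `2 Δ_m`), this file cites the plug side through `pvur_end_*` (31, `Exit/RefEnd`) only -/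
noncomputable def pvetSc (m : ℕ) : ℝ := pvurSr 𝔓 m

/-- **the truncation of record of the side events** at a generic parameter (`pvetTn (pvxParOf N hN c) = pvnaT N` by `rfl`; R24 of 234, `Exit/EngRec` v3 of 9): rooms `Ln`, targets `Dr` = those of `pvk2T` -/
noncomputable def pvetTn : PvhfTr := pvk2T.fine (pvwyMu 𝔓.num.rho3) pvkgO

/-- **THE DET SIDE OF THE CONTRACT ON THE ROUTES** (66, pen of the text by order of 24, 13:46Z) = WHAT `pvhu_ev_eD` (`Tr/HookTM`) EATS: REGIONS AND NUMBERS ONLY, no configuration, no state.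
DATA: big mouth `r r₁ ρ`, small mouth `rs`, radius `rt` of the tip face, half band `e₀`, mesh `ρl` of the lanes, side `ζ` of the tip cell; the two routes LISTED FROM THE TIP `eC β :: eN β :: tt β` (`β` = colour RELATIVE to the strand: `true` = the colour `col t`),
closing sets `Sg β`, sides `jN β jS β` of the end cells; door frame `ζd`, bars `eD β` across the half lanes of the exit side of the reference plug, numbers `xs xa xb y0 y1`.
* `rho`  the mesh `ρ` of the big mouth is paid by the certificate `pvetMc` (mesh `μ / 40` of the ball `|w - c⁻| ≤ pviwRad`)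
* `tip`  `PvhuTipD` : numbers of the tip (`PvhgEndNum`, `rt0 rt1 big`), `ζ` dominant direction of `c⁻ - z`, tile and region of the plug off the own-level box, mouth / tile / region of the plug disjoint, small mouth with collar inside the mouth `eM`
* `lay`  `PvhuLayD` : (Rd) `bdd co`, (Rc) `collar`, `route`, THE TWO ARM RECORDS `arm₁ arm₂` (298 `pvge2_armReg`), closing sets, `mouth`, `mid` (arm and middle legs `2μ`-deep in `eY` and `μ`-deep in the fresh part), THE DOOR RECORD `door` (bars either way),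
         `room roomF` (rooms of the half lanes `μ`-deep in `eY`, fresh beyond `xs`), `gm` (`g⁻` off `eY`), `offBox offTip`
* `mem`  the two routes are routes of the pattern, colours relative to the strand (`pvw7_pat_col` of 88) -/
structure PvetDet (R : PvetRt) (m : ℕ) (z : ℂ) (t : τ) (r r₁ ρ rs rt e₀ ρl : ℝ) (ζ : ℂ) (eC eN eD : Bool → Set ℂ × ℂ × ℂ) (tt : Bool → List (Set ℂ × ℂ × ℂ)) (Sg : Bool → Set ℂ) (jN jS : Bool → ℕ)
    (ζd : ℂ) (xs xa xb y0 y1 : Bool → ℝ) : Prop where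
  rho : pvilMu 𝔓 m / 40 ≤ ρ
  tip : PvhuTipD 𝔓 𝔈 m z t (pvlmDel c m / 3) (pvilMu 𝔓 m / 40) r r₁ ρ rs rt ζ
  lay : PvhuLayD (pvilLe 𝔓 𝔈 m z t) 𝔓.num (pvieSh z (𝔈.eM m t) ∪ pvieSh z (𝔈.eK m t) ∪ pvieSh (pvieZu 𝔓 m z t) (𝔈.rO m)) ((pvieSh z (𝔈.eM m t) ∪ pvieSh z (𝔈.eK m t)) \ pvwSq z (pviwRad 𝔓 m t))
      (pvilMu 𝔓 m) ζ ((𝔓.ty t).cm (pvlmH m) z) rs ρ rt e₀ ρl R.dl eC eN eD tt Sg jN jS ζd
      (fun β => pvkdAt (pvieZu 𝔓 m z t) (1 * (pvetSc 𝔓 m : ℝ)) ((pvetTn 𝔓).Ln true β)) (fun β => pvkdAt (pvieZu 𝔓 m z t) (1 * (pvetSc 𝔓 m : ℝ)) ((pvetTn 𝔓).Dr true β)) xs xa xb y0 y1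
  mem : ∀ β, (β == 𝔓.col t, eC β :: eN β :: tt β) ∈ R.F

/-- **THE CONTRACT ON THE ROUTES** at `(m, z, t)`; `Mq Kq Lq` = size of a leg in cells, number of legs of a route, number of routes.      ONE PEN = 66 (order of 24, 13:46Z): the provers of `pvet_up` send him their line -/
structure PvetRt.Ok (R : PvetRt) (Mq Kq Lq : ℕ) (m : ℕ) (z : ℂ) (t : τ) : Prop where
  fit : PvkqFit R.dl Mq Kq R.F
  len : R.F.length ≤ Lq
  meas : MeasurableSet (pvkqPatR R.F)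
  /-- the window of the pattern lies in (recoloured mouth) ∪ (resampled tile): it misses the region of the reference plug -/
  win : pvkqPatR R.F ⊆ pvieSh z (𝔈.eM m t) ∪ pvieSh z (𝔈.eK m t)
  /-- **[up] ONE MIXED ORDER**, the record of 17 (`Tr/UpMix`: regions only; `ew es ll off`; producers `pvub_geo_rec` of 17, `pvuu_geo_e` of 232) -/
  up : PvubGeo pvkgG.toPvkdPlug (pvetTn 𝔓) true (pvieZu 𝔓 m z t) ((pvetSc 𝔓 m : ℝ) : ℂ) (𝔓.col t) (pvieSh (pvieZu 𝔓 m z t) (𝔈.rO m)) (pvieSh (pvieZu 𝔓 m z t) (𝔈.rO m) ∪ pvieSh z (𝔈.eK m t)) R.F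
  /-- **(b3) DET** -/
  det : ∃ (r r₁ ρ rs rt e₀ ρl : ℝ) (ζ : ℂ) (eC eN eD : Bool → Set ℂ × ℂ × ℂ) (tt : Bool → List (Set ℂ × ℂ × ℂ)) (Sg : Bool → Set ℂ) (jN jS : Bool → ℕ) (ζd : ℂ) (xs xa xb y0 y1 : Bool → ℝ),
    PvetDet 𝔓 𝔈 R m z t r r₁ ρ rs rt e₀ ρl ζ eC eN eD tt Sg jN jS ζd xs xa xb y0 y1

/-- **the side event `S⁺` (exit side) of the reference plug**, centre `0`, black form, scale `pvetSc` -/
noncomputable def pvetS (m : ℕ) : Set (Conf PvPt) := cfMap (pvthInv 0 ((pvetSc 𝔓 m : ℝ) : ℂ)) ⁻¹' (pvkgG.glob (pvnaHfP 𝔓)).H 0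

/-- **the plain reference plug**, centre `0`, black form, scale `pvetSc` -/
noncomputable def pvetC (m : ℕ) : Set (Conf PvPt) := cfMap (pvthInv 0 ((pvetSc 𝔓 m : ℝ) : ℂ)) ⁻¹' (pvkgG.glob (pvnaHfP 𝔓)).C

/-- the threshold of a pattern of `L` routes with its mesh clause (`pvkq_pat_lim`, `pvkq_with_lim` of 21) -/
noncomputable def pvetT0 (q0 : ℝ) (Mq Kq L : ℕ) : ℝ≥0∞ := ENNReal.ofReal ((q0 ^ (15 * (Kq * (2 * Mq + 1) ^ 2)) / 2) ^ L) / 2

/-- **THE TESTS OF THE THICK LINK**: copy pattern = routes ∩ mesh `μ / 40` of the tile (exact reader of 52), side event and plain plug = those of the datum of record, placed at `(zu, 1)`, colour of the strand -/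
noncomputable def pvetT (b : ℝ≥0∞) (q0 : ℝ) (Mq Kq : ℕ) (R : PvetRt) (m : ℕ) (z : ℂ) (t : τ) : PvjeTest where
  O := pvkqPatR R.F ∪ pvieSh z (𝔈.eK m t)
  𝒦 := pvkqPat R.dl R.F ∩ pvjoMesh (pvilMu 𝔓 m / 40) (pvieSh z (𝔈.eK m t))
  ℋ := pvdpPl (pvieZu 𝔓 m z t) 1 (𝔓.col t) (pvetS 𝔓 m)
  Cd := pvdpPl (pvieZu 𝔓 m z t) 1 (𝔓.col t) (pvetC 𝔓 m)
  t := pvetT0 q0 Mq Kq R.F.length
  b := b

/-- **THE CERTIFICATE OF DET** (kept part): mesh `δ / 3` of the own-level box with its collar, mesh `μ / 40` of (own-level box + collar) ∪ mouth (64: ONE free scale of `Exit/MeshT`), mesh `μ / 40` of the ball `|w - c⁻| ≤ pviwRad` (big mouth of the tip: 66).      GROWS IN PLACE (mesh sets are free: `pvrg_mesh_small`) -/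
def pvetMc (m : ℕ) (z : ℂ) (t : τ) : Set (Conf PvPt) := pvrgB 𝔓 m z t ∩ (pvrgMesh (pvilMu 𝔓 m / 40) (pvilBx 𝔓 m z t ∪ pvieSh z (𝔈.eM m t)) ∩
  pvrgMesh (pvilMu 𝔓 m / 40) (Metric.closedBall ((𝔓.ty t).cm (pvlmH m) z) (pviwRad 𝔓 m t)))

end defs

/-- **the thick end at the engine of record** -/
noncomputable def pvetE (N : PvxNums) (hN : N.Ok) (c : ℝ) (nb : PvnaNb N) (m : ℕ) (ε : ℝ) (z : ℂ) (t : pvxTau N) : PvjeEnd := pvjeE (pvxParOf N hN c) (pvnaEngRec N hN c nb) pvilQ m ε z t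

/-- **its tests** -/
noncomputable def pvetTr (N : PvxNums) (hN : N.Ok) (c : ℝ) (nb : PvnaNb N) (q0 : ℝ) (Mq Kq : ℕ) (R : PvetRt) (m : ℕ) (z : ℂ) (t : pvxTau N) : PvjeTest :=
  pvetT (pvxParOf N hN c) (pvnaEngRec N hN c nb) nb.b q0 Mq Kq R m z t

theorem pvet_eqns_cite : True := by
  have := @pvetSc.eq_1; have := @pvetTn.eq_1; have := @pvetS.eq_1; have := @pvetC.eq_1; have := @pvetT0.eq_1; have := @pvetT.eq_1; have := @pvetMc.eq_1; have := @pvetE.eq_1; have := @pvetTr.eq_1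
  trivial

section leaves

variable {c : ℝ} (c0 : 0 < c) (N : PvxNums) (hN : N.Ok) (nb : PvnaNb N) {m : ℕ} (hm : (pvxParOf N hN c).m0 ≤ m) (ε : ℝ) (z : ℂ) (t : pvxTau N)

/-! ## 2. [Wf] -/

omit c0 hm in
theorem pvet_sh_meas_153 (z : ℂ) {S : Set ℂ} (hS : MeasurableSet S) : MeasurableSet (pvieSh z S) := by
  have e : pvieSh z S = (fun w : ℂ => w - z) ⁻¹' S := by
    ext w
    constructor
    · rintro ⟨u, hu, rfl⟩
      show z + u - z ∈ S
      rwa [add_sub_cancel_left]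
    · intro hw
      exact ⟨w - z, hw, by ring⟩
  rw [e]
  exact (measurable_id.sub_const z) hS

omit c0 hm in
theorem pvet_sh_bdd_153 (z : ℂ) {S : Set ℂ} (h : Bornology.IsBounded S) : Bornology.IsBounded (pvieSh z S) := by
  obtain ⟨R, hR⟩ := h.subset_closedBall (0 : ℂ)
  refine (Metric.isBounded_closedBall (x := z) (r := R)).subset ?_
  rintro _ ⟨w, hw, rfl⟩
  have := hR hw
  rw [mem_closedBall_iff_norm, sub_zero] at this
  rw [mem_closedBall_iff_norm]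
  simpa using this

include c0 hm in
theorem pvet_mK : MeasurableSet (pvetE N hN c nb m ε z t).K := by
  obtain ⟨Cth, r, κs, H⟩ := (pvnr_wf hN c0 nb).wf
  exact pvet_sh_meas_153 z (H.m_eK m t)

include c0 hm in
theorem pvet_mD : MeasurableSet (pvetE N hN c nb m ε z t).D := by
  obtain ⟨Cth, r, κs, H⟩ := (pvnr_wf hN c0 nb).wf
  exact pvet_sh_meas_153 _ (H.m_rO m)

include c0 hm in
theorem pvet_mM : MeasurableSet (pvetE N hN c nb m ε z t).M := by
  obtain ⟨Cth, r, κs, H⟩ := (pvnr_wf hN c0 nb).wf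
  exact pvet_sh_meas_153 z (H.m_eM m t)

include c0 hm in
theorem pvet_mWz (Z : Set (ℤ × ℤ)) : MeasurableSet ((pvetE N hN c nb m ε z t).Wz Z) := by
  have h1 : ∀ (z : ℂ) (r : ℝ), MeasurableSet (pvwSq z r) := fun z r =>
    (measurableSet_le (Complex.measurable_re.comp (measurable_id.sub_const z)).abs measurable_const).inter
      (measurableSet_le (Complex.measurable_im.comp (measurable_id.sub_const z)).abs measurable_const)
  have h2 : MeasurableSet (pvilFat (pvlmDel c m) Z) := MeasurableSet.biUnion (Set.to_countable _) fun _ _ => pvt_sq_closed.measurableSet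
  exact h2.inter (h1 _ _)

include c0 hm in
theorem pvet_bK : Bornology.IsBounded (pvetE N hN c nb m ε z t).K := by
  obtain ⟨Cth, r, κs, H⟩ := (pvnr_wf hN c0 nb).wf
  refine pvet_sh_bdd_153 z (Metric.isBounded_closedBall.subset ((subset_union_right.trans subset_union_left).trans (H.e_bdd m hm t (pvea_tyOk hN t))))

include c0 hm in
theorem pvet_bD : Bornology.IsBounded (pvetE N hN c nb m ε z t).D := by
  obtain ⟨Cth, r, κs, W⟩ := (pvnr_wf (N := N) (hN := hN) c0 nb).wf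
  have hb := W.e_bdd m hm t (pvea_tyOk hN t)
  have h1 : Bornology.IsBounded (pviwRo (pvxParOf N hN c) (pvnaEngRec N hN c nb) m t) :=
    Metric.isBounded_closedBall.subset (subset_trans Set.subset_union_right hb)
  have e : (pvetE N hN c nb m ε z t).D = (fun w : ℂ => z + w) '' pviwRo (pvxParOf N hN c) (pvnaEngRec N hN c nb) m t := by
    show pvieSh (pvieZu (pvxParOf N hN c) m z t) ((pvnaEngRec N hN c nb).rO m) = _
    unfold pviwRo pvieSh pvieZu
    rw [Set.image_image]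
    exact Set.image_congr fun w _ => add_assoc _ _ _
  rw [e]
  exact (isometry_add_left z).lipschitz.isBounded_image h1

include c0 hm in
theorem pvet_bM : Bornology.IsBounded (pvetE N hN c nb m ε z t).M := by
  obtain ⟨Cth, r, κs, W⟩ := (pvnr_wf (N := N) (hN := hN) c0 nb).wf
  have hb := W.e_bdd m hm t (pvea_tyOk hN t)
  have h1 : Bornology.IsBounded ((pvnaEngRec N hN c nb).eM m t) :=
    Metric.isBounded_closedBall.subset (subset_trans (subset_trans Set.subset_union_left Set.subset_union_left) hb)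
  exact (isometry_add_left z).lipschitz.isBounded_image h1

include c0 hm in
theorem pvet_KD : Disjoint (pvetE N hN c nb m ε z t).K (pvetE N hN c nb m ε z t).D := by
  obtain ⟨Cth, r, κs, W⟩ := (pvnr_wf (N := N) (hN := hN) c0 nb).wf
  have hd := W.th_disj m hm t (pvea_tyOk hN t)
  have h1 : Disjoint ((pvnaEngRec N hN c nb).eK m t) (pviwRo (pvxParOf N hN c) (pvnaEngRec N hN c nb) m t) := by
    simp only [List.pairwise_cons, List.mem_cons, List.not_mem_nil, or_false, forall_eq_or_imp, forall_eq] at hd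
    exact hd.2.1.2.2
  have e : (pvetE N hN c nb m ε z t).D = (fun w : ℂ => z + w) '' pviwRo (pvxParOf N hN c) (pvnaEngRec N hN c nb) m t := by
    show pvieSh (pvieZu (pvxParOf N hN c) m z t) ((pvnaEngRec N hN c nb).rO m) = _
    unfold pviwRo pvieSh pvieZu
    rw [Set.image_image]
    exact Set.image_congr fun w _ => add_assoc _ _ _
  rw [e]
  exact (Set.disjoint_image_iff (add_right_injective z)).2 h1

include c0 hm in
theorem pvet_MK : Disjoint (pvetE N hN c nb m ε z t).M (pvetE N hN c nb m ε z t).K := by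
  obtain ⟨Cth, r, κs, W⟩ := (pvnr_wf (N := N) (hN := hN) c0 nb).wf
  have hd := W.th_disj m hm t (pvea_tyOk hN t)
  have h1 : Disjoint ((pvnaEngRec N hN c nb).eM m t) ((pvnaEngRec N hN c nb).eK m t) := by
    simp only [List.pairwise_cons, List.mem_cons, List.not_mem_nil, or_false, forall_eq_or_imp, forall_eq] at hd
    exact hd.1.1
  exact (Set.disjoint_image_iff (add_right_injective z)).2 h1

include c0 hm in
theorem pvet_MD : Disjoint (pvetE N hN c nb m ε z t).M (pvetE N hN c nb m ε z t).D := by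
  obtain ⟨Cth, r, κs, hW⟩ := (pvnr_wf hN c0 nb).wf
  have h := hW.th_disj m hm t (pvea_tyOk hN t)
  have h1 : Disjoint ((pvnaEngRec N hN c nb).eM m t) (pviwRo (pvxParOf N hN c) (pvnaEngRec N hN c nb) m t) :=
    (List.pairwise_cons.1 h).1 _ (by simp)
  show Disjoint (pvieSh z ((pvnaEngRec N hN c nb).eM m t)) (pvieSh (pvieZu (pvxParOf N hN c) m z t) ((pvnaEngRec N hN c nb).rO m))
  rw [Set.disjoint_left] at h1 ⊢
  rintro _ ⟨a, ha, rfl⟩ ⟨b, hb, hab⟩
  refine h1 ha ⟨b, hb, ?_⟩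
  have h2 : z + ((pvxParOf N hN c).Γ m).zu t + b = z + a := hab
  show ((pvxParOf N hN c).Γ m).zu t + b = a
  have h3 : z + (((pvxParOf N hN c).Γ m).zu t + b) = z + a := by rw [← h2]; ring
  exact add_left_cancel h3

/-- the hull of a half state is finite      [255 `pvkfl_Zi_finite`] -/
theorem pvet_fin : ∀ η₀ ∈ (pvetE N hN c nb m ε z t).U, ((pvetE N hN c nb m ε z t).Hu η₀).Finite := by
  intro η₀ _
  exact pvkfl_Zi_finite (pvxParOf N hN c) m z t (pvlm_Del_pos c m) η₀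

include c0 hm in
/-- [MEAS] the plain value on the plain success      [247 `Tr/MeasGM` (`pvym_LA_null pvym_LX_aem pvym_HuI_null pvym_M_null`), (A): 231 `Tr/RetMkA`, 289 `Tr/MeasL`] -/
theorem pvet_mX (hε : 0 < ε) (Z : Set (ℤ × ℤ)) (hZ : Z.Finite) : AEMeasurable (((pvetE N hN c nb m ε z t).Pl Z).indicator (pvetE N hN c nb m ε z t).X) (pvP ε) := by
  obtain ⟨Cth, r, κs, hW⟩ := (pvnr_wf hN c0 nb).wf
  exact pvml_IXe_aem (pvxo_wf N hN c).toWfB (pvml_engB hW) hε pvml_wm_Q m z t Z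

/-- the usable reference plug is read in its region      [31 `pvur_U_reads`, 77 `pvdp_reads`] -/
theorem pvet_rG : Conf.ReadsSet ((pvetE N hN c nb m ε z t).D ×ˢ (univ : Set Bool)) (pvetE N hN c nb m ε z t).G :=
  pvur_end_rG hN c nb m ε _ _

include c0 hm in
/-- [STOP]      [255 `pvkfl_stop_in`, 96 `pvsm_R_congr`, guard `pvsmGd`] -/
theorem pvet_stop : ∃ yf : Conf PvPt → Set ℂ, PvdyStop yf ∧ ∀ η₀ ∈ (pvetE N hN c nb m ε z t).U, ∀ p,
    pvdyR ((pvetE N hN c nb m ε z t).K ∪ (pvetE N hN c nb m ε z t).D) yf η₀ p = (pvetE N hN c nb m ε z t).R η₀ p := by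
  obtain ⟨Cth, r, κs, hW⟩ := (pvnr_wf hN c0 nb).wf
  have hb0 : Bornology.IsBounded ((pvnaEngRec N hN c nb).eM m t) :=
    Metric.isBounded_closedBall.subset (hW.eM_half m hm t (pvea_tyOk hN t))
  have hb : Bornology.IsBounded (pvieSh z ((pvnaEngRec N hN c nb).eM m t)) := by
    obtain ⟨C, hC⟩ := hb0.exists_norm_le
    refine (Metric.isBounded_closedBall (x := (0 : ℂ)) (r := ‖z‖ + C)).subset ?_
    rintro _ ⟨a, ha, rfl⟩
    rw [mem_closedBall_zero_iff]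
    exact (norm_add_le _ _).trans (by linarith [hC a ha])
  refine ⟨_, pvkfl_stop_in (N := (pvxParOf N hN c).num) (b := (pvxParOf N hN c).col t) (pvkfl_pin_fr (pvxParOf N hN c) m z t) hb, ?_⟩
  intro η₀ hU p
  exact congrFun (pvsm_R_congr _ (pvsm_gd_mem hU _)) p

include c0 hm in
theorem pvet_wf (hε : 0 < ε) : (pvetE N hN c nb m ε z t).Wf ε where
  mK := pvet_mK c0 N hN nb hm ε z t
  mD := pvet_mD c0 N hN nb hm ε z t
  mM := pvet_mM c0 N hN nb hm ε z t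
  mWz := pvet_mWz c0 N hN nb hm ε z t
  bK := pvet_bK c0 N hN nb hm ε z t
  bD := pvet_bD c0 N hN nb hm ε z t
  bM := pvet_bM c0 N hN nb hm ε z t
  KD := pvet_KD c0 N hN nb hm ε z t
  MK := pvet_MK c0 N hN nb hm ε z t
  MD := pvet_MD c0 N hN nb hm ε z t
  fin := pvet_fin N hN nb ε z t
  mX := pvet_mX c0 N hN nb hm ε z t hε
  rG := pvet_rG N hN nb ε z t
  stop := pvet_stop c0 N hN nb hm ε z t

/-! ## 3. [Ok] -/

variable (q0 : ℝ) {Mq Kq Lq : ℕ} {R : PvetRt} (hR : R.Ok (pvxParOf N hN c) (pvnaEngRec N hN c nb) Mq Kq Lq m z t)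

include c0 hm hR in
theorem pvet_mO : MeasurableSet (pvetTr N hN c nb q0 Mq Kq R m z t).O := by
  obtain ⟨Cth, r, κs, hW⟩ := (pvnr_wf hN c0 nb).wf
  exact hR.meas.union ((MeasurableEquiv.addLeft z).measurableSet_image.2 (hW.m_eK m t))

include c0 hm hR in
theorem pvet_bO : Bornology.IsBounded (pvetTr N hN c nb q0 Mq Kq R m z t).O := by
  refine ((pvet_bM c0 N hN nb hm 0 z t).union (pvet_bK c0 N hN nb hm 0 z t)).subset ?_
  exact union_subset hR.win subset_union_right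

include hR in
theorem pvet_O_sub : (pvetTr N hN c nb q0 Mq Kq R m z t).O ⊆ (pvetE N hN c nb m ε z t).M ∪ (pvetE N hN c nb m ε z t).K := by
  exact union_subset hR.win subset_union_right

include c0 hm hR in
theorem pvet_mP : MeasurableSet (pvetTr N hN c nb q0 Mq Kq R m z t).𝒦 :=
  hR.fit.meas.inter (pvjo_mesh_meas _ (pvet_mK c0 N hN nb hm 0 z t))

include hR in
theorem pvet_rP : Conf.ReadsSet ((pvetTr N hN c nb q0 Mq Kq R m z t).O ×ˢ (univ : Set Bool)) (pvetTr N hN c nb q0 Mq Kq R m z t).𝒦 := by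
  exact (hR.fit.reads.mono (prod_mono subset_union_left subset_rfl)).inter ((pvjo_mesh_reads _ _).mono (prod_mono subset_union_right subset_rfl))

/-- [174 `pvhf_mH`, `pvhf_geo`; 77 `pvdp_meas`] -/
theorem pvet_mH : MeasurableSet (pvetTr N hN c nb q0 Mq Kq R m z t).ℋ :=
  pvur_end_mH hN c nb m _ _ 0

include c0 hm in
/-- **THE WINDOW OF THE SIDE EVENT `S⁺`**, placed at `zu`, scale of record, lies in (region of the reference plug) ∪ (tile)      [BI-GREEN: engine v4 (L2 = U4): 73 `pvbd_nu_Ep` | engine v3: 73 `pvbd_rH_win`] -/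
theorem pvet_win : pvthSim (pvieZu (pvxParOf N hN c) m z t) ((pvetSc (pvxParOf N hN c) m : ℝ) : ℂ) '' (pvetTn (pvxParOf N hN c)).Es true ⊆
    pvieSh (pvieZu (pvxParOf N hN c) m z t) ((pvnaEngRec N hN c nb).rO m) ∪ pvieSh z ((pvnaEngRec N hN c nb).eK m t) := by
  exact pvbd_nu_Ep (pvea_par hN c0) hm (pvea_tyOk hN t) _ _ _ _ z

include c0 hm in
/-- the side event is read over (region of the reference plug) ∪ (tile)      [31 `pvur_end_rH`; regions: `pvet_win`] -/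
theorem pvet_rH : Conf.ReadsSet (((pvetE N hN c nb m ε z t).D ∪ (pvetE N hN c nb m ε z t).K) ×ˢ (univ : Set Bool)) (pvetTr N hN c nb q0 Mq Kq R m z t).ℋ := by
  have h := pvur_end_rH hN c nb m (pvieZu (pvxParOf N hN c) m z t) ((pvxParOf N hN c).col t) 0
  rw [one_mul] at h
  exact h.mono (prod_mono (pvet_win c0 N hN nb hm z t) le_rfl)

/-- the soft threshold of the usable reference plugs: BY DEFINITION of `pvnaRG`      [77 `pvdp_thr_r`] -/
theorem pvet_thr : ∀ η ∈ (pvetE N hN c nb m ε z t).G, (pvetTr N hN c nb q0 Mq Kq R m z t).b ≤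
    pvtiP (pvP ε) ((pvetE N hN c nb m ε z t).D ×ˢ (univ : Set Bool)) (pvetTr N hN c nb q0 Mq Kq R m z t).ℋ η :=
  pvur_end_thr hN c nb m ε _ _ 0

include c0 hm in
/-- a.s. a usable plug is a plain plug      [31 `pvur_G_sure`; 77 `pvdp_law`] -/
theorem pvet_loc (hε : 0 < ε) : ∀ᵐ η ∂pvP ε, η ∈ (pvetE N hN c nb m ε z t).G → η ∈ (pvetTr N hN c nb q0 Mq Kq R m z t).Cd :=
  pvur_end_loc hN c nb m ε _ _

include c0 hm hR in
/-- **ONE MIXED ORDER** for the section of the side event and for the copy pattern      [174 `PvhfIs.mono` / `pvhf_S_mono`; 77 `PvdpUp.pl .sec`; pattern: 21 / 250 `pvlhSg`; rooms of the routes: `PvetRt.Ok`] -/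
theorem pvet_up : ∀ (η₀ : Conf PvPt) (Y Fz : Set ℂ) (σ : ℂ → Bool), Y.Countable →
    (∃ η, PvatNice (cfSites η) ∧ cfSites η ∩ (pvetE N hN c nb m ε z t).Wn ((pvetE N hN c nb m ε z t).Hu η₀) = Y ∩ (pvetE N hN c nb m ε z t).Wn ((pvetE N hN c nb m ε z t).Hu η₀)) → Fz ⊆ Y →
    (∀ v ∈ Y, v ∈ (pvetE N hN c nb m ε z t).D → v ∈ Fz) → (∀ v ∈ Fz, v ∉ (pvetE N hN c nb m ε z t).K ∧ v ∉ (pvetE N hN c nb m ε z t).y η₀) →
    ∃ s : ℂ → Option Bool, {z | s z ≠ none}.Countable ∧ PvlhUp s (pvlhSec Y Fz σ (pvetTr N hN c nb q0 Mq Kq R m z t).ℋ) ∧ PvlhUp s (pvlhCp Y (pvetTr N hN c nb q0 Mq Kq R m z t).𝒦) := by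
  have e : (pvetTr N hN c nb q0 Mq Kq R m z t).ℋ = pvdpPl (pvieZu (pvxParOf N hN c) m z t) ((pvetSc (pvxParOf N hN c) m : ℝ) : ℂ) ((pvxParOf N hN c).col t) (pvhfS pvkgG.toPvkdPlug (pvnaT N) true) := by
    have h := pvub_pl_comp (pvieZu (pvxParOf N hN c) m z t) 1 0 ((pvetSc (pvxParOf N hN c) m : ℝ) : ℂ) one_ne_zero ((pvxParOf N hN c).col t) (pvhfS pvkgG.toPvkdPlug (pvnaT N) true)
    rw [mul_zero, add_zero, one_mul] at h
    exact h
  rw [e]
  exact hR.up.field (E := pvetE N hN c nb m ε z t) (pvna_geo hN) hR.fit (pvub_blind_mesh _ _)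

include c0 hm hR in
theorem pvet_ok (hε : 0 < ε) : (pvetTr N hN c nb q0 Mq Kq R m z t).Ok (pvetE N hN c nb m ε z t) ε where
  mO := pvet_mO c0 N hN nb hm z t q0 hR
  bO := pvet_bO c0 N hN nb hm z t q0 hR
  O_sub := pvet_O_sub N hN nb ε z t q0 hR
  mK := pvet_mP c0 N hN nb hm z t q0 hR
  rK := pvet_rP N hN nb z t q0 hR
  mH := pvet_mH N hN nb z t q0
  rH := pvet_rH c0 N hN nb hm ε z t q0
  thr := pvet_thr N hN nb ε z t q0
  loc := pvet_loc c0 N hN nb hm ε z t q0 hε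
  up := pvet_up c0 N hN nb hm ε z t q0 hR

/-! ## 4. [q], [cost], [Mc], [U] -/

/-- the threshold of the propensities is a positive number      [`PvpgGlob.Ok.b0`, `.adm`] -/
theorem pvet_b {N : PvxNums} (nb : PvnaNb N) : nb.b ≠ 0 ∧ nb.b ≠ ∞ := by
  obtain ⟨ε, hε, h0⟩ := (nb.H.ok.and self_mem_nhdsWithin).exists
  refine ⟨hε.b0, fun hb => ?_⟩
  have h1 := hε.adm
  have h2 : pvP ε ((pvkgG.glob (pvnaHf N)).C ∩ ⋂ i, (pvkgG.glob (pvnaHf N)).H i) ≤ 1 := prob_le_one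
  rw [hb] at h1
  have h3 : (∞ : ℝ≥0∞) ≤ 1 := by
    calc (∞ : ℝ≥0∞) = nb.β' + 4 * ∞ := by
          rw [ENNReal.mul_top (by norm_num), add_top]
      _ ≤ 1 := h1.trans h2
  exact absurd h3 (by simp)

theorem pvet_T0_anti {q0 : ℝ} (h0 : 0 < q0) (h1 : q0 ≤ 1) (Mq Kq : ℕ) {L L' : ℕ} (h : L ≤ L') : pvetT0 q0 Mq Kq L' ≤ pvetT0 q0 Mq Kq L := by
  unfold pvetT0
  refine ENNReal.div_le_div_right (ENNReal.ofReal_le_ofReal ?_) _
  have hp : 0 < q0 ^ (15 * (Kq * (2 * Mq + 1) ^ 2)) := pow_pos h0 _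
  have hl : q0 ^ (15 * (Kq * (2 * Mq + 1) ^ 2)) ≤ 1 := pow_le_one₀ h0.le h1
  exact pow_le_pow_of_le_one (by positivity) (by linarith) h

theorem pvet_T0_ne {q0 : ℝ} (h0 : 0 < q0) (Mq Kq L : ℕ) : pvetT0 q0 Mq Kq L ≠ 0 := by
  unfold pvetT0
  have hp : 0 < q0 ^ (15 * (Kq * (2 * Mq + 1) ^ 2)) := pow_pos h0 _
  refine (ENNReal.div_pos ?_ (by norm_num)).ne'
  rw [Ne, ENNReal.ofReal_eq_zero, not_le]
  positivity

include c0 hm hR in
/-- **[cost]** the soft threshold of the copy pattern fails with small probability      [256 `pvrg_test_small`; 21 `pvkq_pat_lim`, `pvkq_with_lim`; 52 `pvjo_mesh_meas`, `pvjo_mesh_lim`].      `H` = the conclusion of `pvkq_pat_lim` at `q0` -/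
theorem pvet_cost (H : ∀ (M K : ℕ) (δ : ℝ) (F : List (Bool × List (Set ℂ × ℂ × ℂ))), PvkqFit δ M K F →
      Tendsto (fun ε : ℝ => pvGeo ε {g | pvQc (pvkqPat δ F) g < ENNReal.ofReal ((q0 ^ (15 * (K * (2 * M + 1) ^ 2)) / 2) ^ F.length)}) (𝓝[>] (0 : ℝ)) (𝓝 0)) (h0 : 0 < q0) :
    PvrgSmall fun ε => (pvayGood2 ε (pvetE N hN c nb m ε z t).K (pvetTr N hN c nb q0 Mq Kq R m z t).O (pvetTr N hN c nb q0 Mq Kq R m z t).𝒦 (pvetTr N hN c nb q0 Mq Kq R m z t).t (nb.b / 2))ᶜ := by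
  have hμ : 0 < pvilMu (pvxParOf N hN c) m := by
    unfold pvilMu
    have h2 : 0 < (pvxParOf N hN c).num.rho3 * pvlmH m := mul_pos hN.msk0 (pvlm_H_pos m)
    have h3 := lt_min (pvlm_Del_pos c m) h2
    positivity
  have hb := pvet_b nb
  have hpos : 0 < (q0 ^ (15 * (Kq * (2 * Mq + 1) ^ 2)) / 2) ^ R.F.length := by positivity
  refine pvrg_test_small (pvet_mK c0 N hN nb hm 0 z t) (pvet_mO c0 N hN nb hm z t q0 hR) (pvet_bO c0 N hN nb hm z t q0 hR) (pvet_mP c0 N hN nb hm z t q0 hR) (pvet_rP N hN nb z t q0 hR) ?_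
    (ENNReal.half_pos hb.1).ne' (ENNReal.div_ne_top hb.2 (by norm_num))
  exact pvkq_with_lim (pvjo_mesh_meas _ (pvet_mK c0 N hN nb hm 0 z t)) (ENNReal.ofReal_pos.2 hpos).ne' ENNReal.ofReal_ne_top (H Mq Kq R.dl R.F hR.fit)
    (pvjo_mesh_lim (by positivity) (pvet_bK c0 N hN nb hm 0 z t))

include c0 hm in
/-- **[Mc]** mesh certificates are free      [256 `pvrg_mesh_small`, `pvrg_small_inter`] -/
theorem pvet_Mc_small : PvrgSmall fun _ : ℝ => (pvetMc (pvxParOf N hN c) (pvnaEngRec N hN c nb) m z t)ᶜ := by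
  have hd : 0 < pvlmDel c m := pvlm_Del_pos c m
  have hμ : 0 < pvilMu (pvxParOf N hN c) m := by
    unfold pvilMu
    have h2 : 0 < (pvxParOf N hN c).num.rho3 * pvlmH m := mul_pos hN.msk0 (pvlm_H_pos m)
    have h3 := lt_min hd h2
    positivity
  refine pvrg_small_inter (S := fun _ => pvrgB (pvxParOf N hN c) m z t) (T := fun _ => pvrgMesh (pvilMu (pvxParOf N hN c) m / 40) (pvilBx (pvxParOf N hN c) m z t ∪ pvieSh z ((pvnaEngRec N hN c nb).eM m t)) ∩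
    pvrgMesh (pvilMu (pvxParOf N hN c) m / 40) (Metric.closedBall (((pvxParOf N hN c).ty t).cm (pvlmH m) z) (pviwRad (pvxParOf N hN c) m t))) ?_
    (pvrg_small_inter (S := fun _ => pvrgMesh (pvilMu (pvxParOf N hN c) m / 40) (pvilBx (pvxParOf N hN c) m z t ∪ pvieSh z ((pvnaEngRec N hN c nb).eM m t)))
      (T := fun _ => pvrgMesh (pvilMu (pvxParOf N hN c) m / 40) (Metric.closedBall (((pvxParOf N hN c).ty t).cm (pvlmH m) z) (pviwRad (pvxParOf N hN c) m t))) ?_ ?_)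
  · exact pvrg_mesh_small (by positivity) (pvbd_sh z (pvbd_wSq _ _))
  · exact pvrg_mesh_small (by positivity) ((pvbd_wSq _ _).union ((pvbd_rec N hN c nb).sh_eM z m t))
  · exact pvrg_mesh_small (by positivity) Metric.isBounded_closedBall

/-- **[U]** a usable candidate carries its entrance half state      [38 `pvza_U_conf`, `PvilAt.inn`] -/
theorem pvet_U : ∀ ω ∈ pvxU (pvxParOf N hN c) m z t, pvConf ω ∈ (pvetE N hN c nb m ε z t).U := by
  intro ω hω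
  rw [pvza_U_conf] at hω
  obtain ⟨𝔖, h𝔖⟩ := hω
  exact ⟨𝔖, h𝔖.inn⟩

/-! ## 5. [DET] -/

variable {η₀ η : Conf PvPt} (hU : η₀ ∈ (pvetE N hN c nb m ε z t).U) (hMc : η₀ ∈ pvetMc (pvxParOf N hN c) (pvnaEngRec N hN c nb) m z t) (hOK : CfOK η₀)

include c0 hm in
/-- (b6) ALL THAT IS READ OF THE REGIONS `eM eK rO` OF THE ENGINE OF RECORD      [64 `Exit/MeshT` `Exit/MeshTR`: `pvmm_shape_e0` today, `pvmm_shape_eU` after the swap (U4) of 84: BOTH TYPED, the swap costs nothing] -/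
theorem pvet_shape : ∃ s : ℝ, PvmmShape (pvxParOf N hN c) m t (pvegYm (pvxParOf N hN c) m t) (pvmmGe (pvxParOf N hN c) m t) s ((pvnaEngRec N hN c nb).eM m t) ((pvnaEngRec N hN c nb).eK m t) ((pvnaEngRec N hN c nb).rO m) :=
  by
  exact ⟨_, pvmm_shape_eU (pvea_par hN c0) (pvnaInRec N hN c nb) hm (pvea_tyOk hN t)⟩

/-- (b6), (MESH-u) of R22 (3) / R23 (1') of 234: THE USABLE STATES OF THE REFERENCE PLUG CARRY THE MESH OF ITS REGION.      FALSE UNTIL THE SWAP (C) OF 84 (`rG := pvnuRG`), THEN CLOSED BY ITSELF (`pvmm_RG_mesh`, first branch): NOBODY PROVES THIS LEAF -/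
theorem pvet_rG_mesh : (pvnaEngRec N hN c nb).rG m ε ⊆ pvrgMesh (pvilMu (pvxParOf N hN c) m / 3) ((pvnaEngRec N hN c nb).rO m) := by
  exact pvmm_RG_mesh (pvmm_Mu_pos hN.msk0 m).le _ _ ε

include c0 hm hMc in
/-- **(b6) THE MESH OF THE WINDOW**: kept part ← `pvetMc`, tile ← the mesh clause of the copy pattern, region of the reference plug ← the usable state.      [R22 (3) of 234; 64 `Exit/MeshT` `pvmm_fin_e`] -/
theorem pvet_ev_mesh (hF : PvjeFin (pvetE N hN c nb m ε z t) (pvetTr N hN c nb q0 Mq Kq R m z t) η₀ η) :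
    η ∈ pvilMs (pvxParOf N hN c) m (pvilWne (pvxParOf N hN c) (pvnaEngRec N hN c nb) m z t (pvilZi (pvxParOf N hN c) m z t η₀)) := by
  obtain ⟨s, S⟩ := pvet_shape c0 N hN nb hm t
  have hμ : 0 < pvilMu (pvxParOf N hN c) m := pvmm_Mu_pos hN.msk0 m
  exact pvmm_fin_e (pvea_par hN c0) hm (pvea_tyOk hN t) S hμ (ρ := pvilMu (pvxParOf N hN c) m / 40) (by positivity) (by linarith) le_rfl hF hMc.2.1
    (fun _ h => pvjo_mesh_of h.2) (pvmm_mesh_Gr (pvet_rG_mesh N hN nb ε) hF.use)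

include c0 hm hR hU hMc in
/-- **(b1) (b2) (b3) IN ONE CALL**: the plain success of the thick link with the hull of the base at every final configuration `:= pvhu_ev_eD` (66, `Tr/HookTM`) at the data of `hR.det`;
side event `←` `pvetS` (`pvdp_T_comp`), routes `←` `PvetDet.mem` (`pvw7_pat_col` of 88), certificates `←` `pvetMc` -/
theorem pvet_ev (hF : PvjeFin (pvetE N hN c nb m ε z t) (pvetTr N hN c nb q0 Mq Kq R m z t) η₀ η) :
    η ∈ pvilMe (pvxParOf N hN c) (pvnaEngRec N hN c nb) m z t (pvilZi (pvxParOf N hN c) m z t η₀) := by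
  obtain ⟨r, r₁, ρ, rs, rt, e₀, ρl, ζ, eC, eN, eD, tt, Sg, jN, jS, ζd, xs, xa, xb, y0, y1, D⟩ := hR.det
  obtain ⟨𝔖₀, h₀⟩ := hU
  have hs : 0 < pvetSc (pvxParOf N hN c) m := pvur_Sr_pos hN.rho0 m
  have hsc : pvkgG.toPvkdPlug.sc (pvetSc (pvxParOf N hN c) m) = pvkdP (pvilRu (pvnaEngRec N hN c nb) m) := pvur_end_unit hN c nb m
  have n := D.tip.num
  refine pvhu_ev_eD (𝔭 := pvkgG.toPvkdPlug) (𝔱 := pvnaT N) (s := pvetSc (pvxParOf N hN c) m) D.tip D.lay (pvna_geo hN) hs hsc ?_ ?_ hMc.1 ?_ ?_ h₀ hF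
    (pvet_ev_mesh c0 N hN nb hm ε z t q0 hMc hF)
  · intro η hη
    have h1 : cfMap (pvthInv 0 ((pvetSc (pvxParOf N hN c) m : ℝ) : ℂ)) (pvdpT (pvieZu (pvxParOf N hN c) m z t) 1 ((pvxParOf N hN c).col t) η) ∈ pvhfS pvkgG.toPvkdPlug (pvnaT N) true := hη
    rw [pvdp_T_comp _ _ _ _ one_ne_zero, mul_zero, add_zero] at h1
    exact h1
  · intro Y κ hκ β
    exact pvw7_pat_col hκ.1 (D.mem β)
  · exact VorDense.mono hMc.2.1 Subset.rfl (pvtr_core_mono subset_union_right) le_rfl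
  · refine VorDense.mono hMc.2.2 Subset.rfl (fun x hx => ?_) D.rho
    have hx' : ‖x - ((pvxParOf N hN c).ty t).cm (pvlmH m) z‖ ≤ r + 3 * ρ := by rwa [Metric.mem_closedBall, dist_eq_norm] at hx
    refine (pvhu_ball_ball hx').trans (Metric.closedBall_subset_closedBall ?_)
    have h1 := n.far
    have h2 := n.r1
    have h3 := n.rho0
    have h4 := D.tip.hr
    have h5 := D.tip.mu0
    have h6 := D.rho
    have h7 := n.rho
    show _ ≤ pvwRad _ _ _ _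
    linarith

include c0 hm in
/-- **(Rc) OF R22 AT THE ENGINE OF RECORD**, relative form of 22 (`pvly_room_e`) = `rce` of 290 (`Exit/ThickLJ`): the room of the thick link lies in the `3 μ`-core of mouth ∪ tile ∪ region of the reference plug.
FALSE UNTIL THE SWAP OF `eY` BY 124 (T22; rooms with (Rc): 118 `Exit/ThickCR` / 285 `Exit/ParRoom`): THIS LEAF MOVES WITH THE SWAP, then it is one citation -/
theorem pvet_rce : ∀ v ∈ (pvnaEngRec N hN c nb).eY m t, Metric.closedBall v (3 * pvilMu (pvxParOf N hN c) m) ⊆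
    (pvnaEngRec N hN c nb).eM m t ∪ (pvnaEngRec N hN c nb).eK m t ∪ pviwRo (pvxParOf N hN c) (pvnaEngRec N hN c nb) m t :=
  exit_pvly_col_e N hN nb c0 hm t

include c0 hm hU hMc in
/-- **THE RECORD OF 22 FOR THE THICK LINK AT THE ENGINE OF RECORD, WINDOW OF THE HULL OF THE BASE**: room ← (Rc), door end ← `rp_h rp_win` of `PvieEng.Wf` + `μ ≤ δ / 1000 ≤ Δ / 1000`, gate disc ← the mesh `μ / 3` of the box in `pvetMc` -/
theorem pvet_reg : PvlyReg (pvilLe (pvxParOf N hN c) (pvnaEngRec N hN c nb) m z t) (pvilMu (pvxParOf N hN c) m) (pvilWne (pvxParOf N hN c) (pvnaEngRec N hN c nb) m z t (pvilZi (pvxParOf N hN c) m z t η₀)) := by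
  obtain ⟨Cth, r, κs, H⟩ := (pvnr_wf hN c0 nb).wf
  have hδ := pvlm_Del_pos c m
  have hW := (pvxo_wf N hN c).toWfB
  have hρ : 0 < (pvxParOf N hN c).num.rho3 * pvlmH m := mul_pos hN.msk0 (pvlm_H_pos m)
  have hμ := pvly_mu_pos (pvxParOf N hN c) hδ hρ
  have hμδ := pvly_mu_le (pvxParOf N hN c) hδ
  have hb2 : ∀ t, ((pvxParOf N hN c).ty t).b ≤ 2 * ((pvxParOf N hN c).ty t).b2 := fun _ => by
    show N.b1 ≤ 2 * N.b2
    linarith [hN.gap, hN.ab2, hN.m_gt, hN.m_lt, hN.B_lt, hN.ab1]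
  have hb := pvjv_carf_hb (pvxParOf N hN c) hW hb2 m t
  have hμu : 10 * pvilMu (pvxParOf N hN c) m ≤ 3 * pvilRu (pvnaEngRec N hN c nb) m := by
    have h1 : pvlmDel c m ≤ pvehDl (pvxParOf N hN c) m := pveh_Del_le_Dl (by unfold pvxrNw; exact Int.ceil_nonneg (by have : 0 < (pvxParOf N hN c).num.rho := hN.rho0; positivity))
    have e : pvilRu (pvnaEngRec N hN c nb) m = _ := pvnr_rp_h N hN c nb m
    rw [e]
    linarith
  refine pvly_reg_e (pvxParOf N hN c) (pvnaEngRec N hN c nb) hδ hρ (H.rp_h m hm) hμu (H.rp_win m hm) (pvly_room_e _ _ (pvet_rce c0 N hN nb hm t) z _) ?_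
  refine (pvly_disc_i (pvxParOf N hN c) hδ hμ le_rfl (by linarith) ?_ hb hU ?_).trans (pvll_core_mono _ (pvly_wz_e _ _))
  · exact (pvjv_carf_hr (pvxParOf N hN c) hW (μ := 2 * pvilMu (pvxParOf N hN c) m) (m := m) (by linarith) t).le
  · intro a ha
    have h2 : PvtrMesh (pvilMu (pvxParOf N hN c) m / 40) (pvilBx (pvxParOf N hN c) m z t ∪ pvieSh z ((pvnaEngRec N hN c nb).eM m t)) (cfSites η₀) := hMc.2.1
    obtain ⟨u, hu, hau⟩ := h2 a (pvll_core_mono _ subset_union_left (pvll_sq_core (by linarith) (pvll_ball_sq hb ha)))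
    exact ⟨u, hu, by linarith⟩

include c0 hm hR hU hMc hOK in
/-- **(b5) THE PLAIN VALUE IS READ IN THE WINDOW**      [22 `Tr/LinkDet` `pvly_val_e`; 74] -/
theorem pvet_val {η' : Conf PvPt} (hF : PvjeFin (pvetE N hN c nb m ε z t) (pvetTr N hN c nb q0 Mq Kq R m z t) η₀ η) (hF' : PvjeFin (pvetE N hN c nb m ε z t) (pvetTr N hN c nb q0 Mq Kq R m z t) η₀ η')
    (he : Conf.restr ((pvetE N hN c nb m ε z t).Wn ((pvetE N hN c nb m ε z t).Hu η₀) ×ˢ (univ : Set Bool)) η = Conf.restr ((pvetE N hN c nb m ε z t).Wn ((pvetE N hN c nb m ε z t).Hu η₀) ×ˢ (univ : Set Bool)) η') :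
    (pvetE N hN c nb m ε z t).X η = (pvetE N hN c nb m ε z t).X η' := by
  have ev : ∀ η, PvjeFin (pvjeE (pvxParOf N hN c) (pvnaEngRec N hN c nb) pvilQ m ε z t) (pvetTr N hN c nb q0 Mq Kq R m z t) η₀ η →
      η ∈ pvilMe (pvxParOf N hN c) (pvnaEngRec N hN c nb) m z t (pvilZi (pvxParOf N hN c) m z t η₀) := fun η hF => pvet_ev c0 N hN nb hm ε z t q0 hR hU hMc hF
  exact (pvly_det_e (pvxParOf N hN c) (pvnaEngRec N hN c nb) (pvet_reg c0 N hN nb hm ε z t hU hMc) (pvlm_Del_pos c m) pvly_wt_Q ev).val η η' hF hF' he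

include c0 hm hR hU hMc hOK in
/-- **DET** -/
theorem pvet_det : PvjeDet (pvetE N hN c nb m ε z t) (pvetTr N hN c nb q0 Mq Kq R m z t) η₀ where
  ev := fun η hF => pvet_ev c0 N hN nb hm ε z t q0 hR hU hMc hF
  val := fun η η' hF hF' he => pvet_val c0 N hN nb hm ε z t q0 hR hU hMc hOK hF hF' he

end leaves

/-! ## 6. the routes, the exit -/

section exit

variable {c : ℝ}

/-- **THE ROUTES OF RECORD OF THE THICK LINK** = the pattern of record `pvmvPatE` of 21 (`Tr/LinkME`): colour of the strand on the RIGHT of the outer normal of the entrance mouth (= on the left of the direction of travel, as `pvge3PatI` of 298), grid `Δ_m / 512`      (276) -/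
noncomputable def pvetRtE {τ : Type} {c : ℝ} (𝔓 : PvxPar τ c) (m : ℕ) (z : ℂ) (t : τ) : PvetRt := ⟨pvehDl 𝔓 m / 512, pvmvPatE 𝔓 m z t false (𝔓.col t)⟩

theorem pvet_eqns_cite2 : True := by
  have := @pvetRtE.eq_1
  trivial

/-- **[WAITS FOR L2 = ENGINE v3, U4 of R23 (2)]** the window of the routes of record.      HOOK-u (234): the bar of the pattern stands in the zone `(13u/4, 4u)` of the reference plug (`Tr/LinkME` v3), which lies in `eK` ONLY AFTER U4 (`eK := old eK ∪ (zu + AnE)`): FALSE at the engine v2, and after the swap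
`:= (pvmv_win_e (pvxr_ndg_par hN c0 hm t) rfl z false _).trans ..` with `pvmv_AnE_sub` (21: I close it as soon as L2 is on main) -/
theorem pvet_rt_win (c0 : 0 < c) (N : PvxNums) (hN : N.Ok) (nb : PvnaNb N) {m : ℕ} (hm : (pvxParOf N hN c).m0 ≤ m) (z : ℂ) (t : pvxTau N) :
    pvkqPatR (pvetRtE (pvxParOf N hN c) m z t).F ⊆ pvieSh z ((pvnaEngRec N hN c nb).eM m t) ∪ pvieSh z ((pvnaEngRec N hN c nb).eK m t) := by
  exact pvmv_win_u4 (pvxr_ndg_par hN c0 hm t) rfl z false _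

/-- **THE DET SIDE OF THE CONTRACT AT THE ROUTES OF RECORD: PAID AT THE ENGINE v4 (L2)**, data `pvhtd*` of 165 (`Tr/HookTD`): pattern fields + assembly `pvhtd_lay` (165), legs (21), `tip` (274 `pvffk_tip`; twin 66 `pvhu_tipD_data`), `bdd co` (118 `Exit/ThickCR`),
`collar mouth room gm offBox offTip` (1 `Exit/FrcTG`), `mid` (209 `Exit/FrcTM`), `door roomF` (80 `Exit/FrcTR`), `mem` (165). -/
theorem pvet_rtE_det (c0 : 0 < c) (N : PvxNums) (hN : N.Ok) (nb : PvnaNb N) {m : ℕ} (hm : (pvxParOf N hN c).m0 ≤ m) (z : ℂ) (t : pvxTau N) :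
    ∃ (r r₁ ρ rs rt e₀ ρl : ℝ) (ζ : ℂ) (eC eN eD : Bool → Set ℂ × ℂ × ℂ) (tt : Bool → List (Set ℂ × ℂ × ℂ)) (Sg : Bool → Set ℂ) (jN jS : Bool → ℕ) (ζd : ℂ) (xs xa xb y0 y1 : Bool → ℝ),
      PvetDet (pvxParOf N hN c) (pvnaEngRec N hN c nb) (pvetRtE (pvxParOf N hN c) m z t) m z t r r₁ ρ rs rt e₀ ρl ζ eC eN eD tt Sg jN jS ζd xs xa xb y0 y1 := by
  have H := pvea_par hN c0
  have hT := pvea_tyOk hN (c := c) t
  have hL := H.lev hm
  have h := pvxr_ndg_par hN c0 hm t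
  have hΓ : (pvxParOf N hN c).Γ m = pvxrGam (pvxParOf N hN c) m := rfl
  have hμ : 0 < pvilMu (pvxParOf N hN c) m := pvmm_Mu_pos hN.msk0 m
  have hΔ : 0 < pvehDl (pvxParOf N hN c) m := pvur_Dl_pos hN.rho0 m
  obtain ⟨Cth, r, κs, W⟩ := (pvnr_wf hN c0 nb).wf
  have hf := pvmv_fine h
  have hd := pvlm_Del_pos c m
  obtain ⟨d1, d2⟩ := pvmv_Dl_bounds h
  have hμΔ : pvilMu (pvxParOf N hN c) m ≤ pvehDl (pvxParOf N hN c) m / 1000 := pvjiG_mu_Dl h
  have mouth : Metric.closedBall (((pvxParOf N hN c).ty t).cm (pvlmH m) z) (pvhtdRs (pvxParOf N hN c) m + 4 * pvhtdRho (pvxParOf N hN c) m + pvilMu (pvxParOf N hN c) m) ⊆ (pvilLe (pvxParOf N hN c) (pvnaEngRec N hN c nb) m z t).Yin :=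
    pvjiG_mouth hΓ hL hT h rfl z (by unfold pvhtdRs pvhtdRho; linarith)
  have collar := pvjiG_collar (𝔈 := pvnaEngRec N hN c nb) hΓ hL hT h rfl rfl rfl rfl z
  have eu : pvilRu (pvnaEngRec N hN c nb) m = pvehDl (pvxParOf N hN c) m / 20 := pvnr_rp_h N hN c nb m
  have tip := pvffk_tip hN c0 (pvnr_wf hN c0 nb) ⟨nb, rfl⟩ hm z t
  refine ⟨pvhtdR (pvxParOf N hN c) m, pvhtdR1 (pvxParOf N hN c) m, pvhtdRho (pvxParOf N hN c) m, pvhtdRs (pvxParOf N hN c) m, pvhtdRt (pvxParOf N hN c) m, pvhtdE0 (pvxParOf N hN c) m, pvhtdRl (pvxParOf N hN c) m,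
    pvhtdZe (pvxParOf N hN c) t, pvhtdC (pvxParOf N hN c) m z t, pvhtdN (pvxParOf N hN c) m z t, pvhtdD (pvxParOf N hN c) m z t, pvhtdT (pvxParOf N hN c) m z t, pvhtdSg (pvxParOf N hN c) m z t, fun _ => 0, fun _ => 0, 1,
    fun _ => pvhtdXs (pvxParOf N hN c) m z t, fun _ => pvhtdXa (pvxParOf N hN c) m z t, fun _ => pvhtdXb (pvxParOf N hN c) m z t, pvhtdY0 (pvxParOf N hN c) m z t, pvhtdY1 (pvxParOf N hN c) m z t,
    ⟨le_rfl, tip, ?_, pvhtd_mem _ m z t⟩⟩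
  refine pvhtd_lay h hμ z (pvvz_lay_bdd (H.mu3 m) hL hT Subset.rfl z) (pvvz_lay_co hΓ hL hT h rfl z) collar ?mouthW mouth (pveb_mid_td _ hΓ hL hT h rfl rfl rfl z) (pvji_u4_door H hm hT hN.msk0 rfl rfl rfl z)
    (pvjiG_room_T hΓ hL hT h rfl z (sc := pvetSc (pvxParOf N hN c) m) (by unfold pvetSc pvurSr; linarith) (by unfold pvetSc pvurSr; linarith)) (pvji_u4_roomF H hm hT rfl rfl tip.offK rfl z)
    (pvjiG_gm hΓ hL hT h (by have := H.mu3 m; linarith) rfl z (by rw [eu]; positivity) (by rw [eu]; linarith)) (pvjiG_offBox W hm hT z) (pvjiG_offTip W hm hT hN.rho0 z)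
  intro w hw
  refine collar w (mouth (Metric.closedBall_subset_closedBall ?_ hw)) (Metric.mem_closedBall_self (by positivity))
  unfold pvhtdRho
  linarith

/-- **PAYMENT OF `up` AT THE ROUTES OF RECORD** := `pvuu_geo_e` of 232 (`Exit/FrcTU`: scale and frozen region are arguments) over `ew` (`pvuu_ew_sq`; after U4 `pvuu_ew_sim`) and `es` (73 `pvbd_rH_win`; after U4 `pvbd_nu_Ep` of 73 / `pvvn_win_e` of 173) -/
theorem pvet_rtE_up (c0 : 0 < c) (N : PvxNums) (hN : N.Ok) (nb : PvnaNb N) {m : ℕ} (hm : (pvxParOf N hN c).m0 ≤ m) (z : ℂ) (t : pvxTau N) :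
    PvubGeo pvkgG.toPvkdPlug (pvetTn (pvxParOf N hN c)) true (pvieZu (pvxParOf N hN c) m z t) ((pvetSc (pvxParOf N hN c) m : ℝ) : ℂ) ((pvxParOf N hN c).col t) (pvieSh (pvieZu (pvxParOf N hN c) m z t) ((pvnaEngRec N hN c nb).rO m))
      (pvieSh (pvieZu (pvxParOf N hN c) m z t) ((pvnaEngRec N hN c nb).rO m) ∪ pvieSh z ((pvnaEngRec N hN c nb).eK m t)) (pvetRtE (pvxParOf N hN c) m z t).F := by
  have hΔ : 0 < pvehDl (pvxParOf N hN c) m := pvur_Dl_pos hN.rho0 m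
  have hs : 0 < pvetSc (pvxParOf N hN c) m := pvur_Sr_pos hN.rho0 m
  have ew : pvthSim (z + (pvxrGam (pvxParOf N hN c) m).zu t) ((pvetSc (pvxParOf N hN c) m : ℝ) : ℂ) '' pvwSq 0 (3 * (1 / 40)) ⊆ pvieSh (pvieZu (pvxParOf N hN c) m z t) ((pvnaEngRec N hN c nb).rO m) := by
    exact pvvn_Ew _ m
  exact pvuu_geo_e (𝔱 := pvetTn (pvxParOf N hN c)) (pvxr_ndg_par hN c0 hm t) z ((pvxParOf N hN c).col t) (s := pvetSc (pvxParOf N hN c) m) (by unfold pvetSc pvurSr; linarith) (by unfold pvetSc pvurSr; linarith) rfl ew (pvet_win c0 N hN nb hm z t)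

/-- the contract AT THE ROUTES OF RECORD: a new field of `PvetRt.Ok` is paid HERE      (`fit win meas` : 21 `pvmv_fit_e pvmv_win_e pvmv_pat_meas`) -/
theorem pvet_rtE_ok (c0 : 0 < c) (N : PvxNums) (hN : N.Ok) (nb : PvnaNb N) {m : ℕ} (hm : (pvxParOf N hN c).m0 ≤ m) (z : ℂ) (t : pvxTau N) :
    (pvetRtE (pvxParOf N hN c) m z t).Ok (pvxParOf N hN c) (pvnaEngRec N hN c nb) 8704 6 2 m z t where
  fit := pvmv_fit_e (pvxr_ndg_par hN c0 hm t) z false _
  len := le_rfl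
  meas := by
    have hd : ((pvehDl (pvxParOf N hN c) m : ℝ) : ℂ) ≠ 0 := by
      have h := pvxr_ndg_par hN c0 hm t
      have h1 := (pvmv_Dl_bounds h).1
      have h2 := pvmv_R_pos h
      exact Complex.ofReal_ne_zero.2 (by linarith : (0 : ℝ) < pvehDl (pvxParOf N hN c) m).ne'
    exact pvmv_pat_meas _ _ _ _ _ _ _ _ _ _ _ _ _ _ _ _ _ _ _ _ _ _ _ hd _
  win := pvet_rt_win c0 N hN nb hm z t
  up := pvet_rtE_up c0 N hN nb hm z t
  det := pvet_rtE_det c0 N hN nb hm z t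

/-- **THE ROUTES OF THE THICK LINK EXIST, WITH NUMBERS FREE OF THE LEVEL**      [:= the routes of record `pvetRtE` (21 `Tr/LinkME`), `Mq Kq Lq = 8704 6 2`; DET side of the routes: 165 `Tr/HookTR`, 66 `Tr/HookT`] -/
theorem exit_pvet_rt (c0 : 0 < c) (N : PvxNums) (hN : N.Ok) (nb : PvnaNb N) : ∃ Mq Kq Lq : ℕ, ∀ m, (pvxParOf N hN c).m0 ≤ m → ∀ (p : ℤ × ℤ) (t : pvxTau N),
    ∃ R : PvetRt, R.Ok (pvxParOf N hN c) (pvnaEngRec N hN c nb) Mq Kq Lq m (l9Pt (pvlmH m) p) t :=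
  ⟨8704, 6, 2, fun _ hm _ t => ⟨_, pvet_rtE_ok c0 N hN nb hm _ t⟩⟩

/-- the thick link is forced at one candidate -/
theorem pvet_frc (c0 : 0 < c) (N : PvxNums) (hN : N.Ok) (nb : PvnaNb N) {m : ℕ} (hm : (pvxParOf N hN c).m0 ≤ m) (z : ℂ) (t : pvxTau N) {q0 : ℝ} (h0 : 0 < q0) (h1 : q0 ≤ 1)
    (H : ∀ (M K : ℕ) (δ : ℝ) (F : List (Bool × List (Set ℂ × ℂ × ℂ))), PvkqFit δ M K F →
      Tendsto (fun ε : ℝ => pvGeo ε {g | pvQc (pvkqPat δ F) g < ENNReal.ofReal ((q0 ^ (15 * (K * (2 * M + 1) ^ 2)) / 2) ^ F.length)}) (𝓝[>] (0 : ℝ)) (𝓝 0))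
    {Mq Kq Lq : ℕ} {R : PvetRt} (hR : R.Ok (pvxParOf N hN c) (pvnaEngRec N hN c nb) Mq Kq Lq m z t) :
    ∃ Cert : ℝ → Set (Conf PvPt), Tendsto (fun ε => ((pvhbUp ε).P {x | pvConf (pvMerge x) ∉ Cert ε}).toReal) (𝓝[>] (0 : ℝ)) (𝓝 0) ∧
      ∀ᶠ ε in 𝓝[>] (0 : ℝ), ∀ ω ∈ pvxU (pvxParOf N hN c) m z t, pvConf ω ∈ Cert ε → pvConf ω ∈ pvrgFe (pvxParOf N hN c) (pvnaEngRec N hN c nb) (pvetT0 q0 Mq Kq Lq * (nb.b - nb.b / 2)) m ε z t := by
  have hpos : ∀ᶠ ε in 𝓝[>] (0 : ℝ), 0 < ε := eventually_mem_nhdsWithin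
  exact pvje_cut (pvxParOf N hN c) m z t (E := fun ε => pvetE N hN c nb m ε z t) (T := fun _ => pvetTr N hN c nb q0 Mq Kq R m z t) (θ := nb.b / 2)
    (Mc := fun _ => pvetMc (pvxParOf N hN c) (pvnaEngRec N hN c nb) m z t)
    (hpos.mono fun ε hε => pvet_wf c0 N hN nb hm ε z t hε) (hpos.mono fun ε hε => pvet_ok c0 N hN nb hm ε z t q0 hR hε)
    (Eventually.of_forall fun _ => mul_le_mul' (pvet_T0_anti h0 h1 Mq Kq hR.len) le_rfl)
    (pvet_cost c0 N hN nb hm z t q0 hR H h0) (pvet_Mc_small c0 N hN nb hm z t) (Eventually.of_forall fun ε => pvet_U N hN nb ε z t)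
    (Eventually.of_forall fun ε η₀ hU hMc hOK => pvet_det c0 N hN nb hm ε z t q0 hR hU hMc hOK)

/-- **THE STATEMENT OF `exit_pvgu_e`** (`Exit/GdCut.lean`), `PvguFrc` unfolded -/
theorem pvet_exit (c0 : 0 < c) (N : PvxNums) (hN : N.Ok) (𝔈 : PvieEng (pvxTau N)) (_hE : PvnaWf (pvxParOf N hN c) 𝔈) (hR : PvnaRec N hN c 𝔈) :
    ∃ qe : ℝ≥0∞, qe ≠ 0 ∧ ∀ m, (pvxParOf N hN c).m0 ≤ m → ∀ (p : ℤ × ℤ) (t : pvxTau N),
      ∃ Cert : ℝ → Set (Conf PvPt), Tendsto (fun ε => ((pvhbUp ε).P {x | pvConf (pvMerge x) ∉ Cert ε}).toReal) (𝓝[>] (0 : ℝ)) (𝓝 0) ∧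
        ∀ᶠ ε in 𝓝[>] (0 : ℝ), ∀ ω ∈ pvxU (pvxParOf N hN c) m (l9Pt (pvlmH m) p) t, pvConf ω ∈ Cert ε → pvConf ω ∈ pvrgFe (pvxParOf N hN c) 𝔈 qe m ε (l9Pt (pvlmH m) p) t := by
  obtain ⟨nb, rfl⟩ := hR
  obtain ⟨q0, h0, h1, H⟩ := pvkq_pat_lim
  obtain ⟨Mq, Kq, Lq, hRt⟩ := exit_pvet_rt c0 N hN nb
  obtain ⟨hb0, hb1⟩ := pvet_b nb
  refine ⟨pvetT0 q0 Mq Kq Lq * (nb.b - nb.b / 2), mul_ne_zero (pvet_T0_ne h0 Mq Kq Lq) ?_, fun m hm p t => ?_⟩
  · rw [ENNReal.sub_half hb1]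
    exact (ENNReal.half_pos hb0).ne'
  · obtain ⟨R, hR⟩ := hRt m hm p t
    exact pvet_frc c0 N hN nb hm _ t h0 h1 (fun M K δ F hF => (H M K δ F hF).1) hR

end exit

end Claimed.Agent.R289
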