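-- KEEP
import Claimed.Agent.R289.Exit.FrcE
import Claimed.Agent.R289.Exit.GdRec
import Claimed.Agent.R289.Tr.MeasL
import Claimed.Agent.R289.Tr.LinkLocE

/-!
# Row 289 (S0537), THE WALL, ROAD E, E10, file Exit/FrcTW : A HYBRID END READS ITS WEIGHT IN THE FIELD `X` ONLY; `mX` AND `val` OF THE THICK END FOR EVERY WEIGHT      (helper231, racer of `exit_pvgu_ev`; prefix `pvzj_v_`, `PvzjV`)

Imports NEITHER `Exit/FrcT` (54) NOR the engine of record: `Exit/FrcT` may import THIS file (`pvet_mX := pvzj_v_mX ..`, `pvet_val := pvzj_v_val ..`).      The exit at the weight `V` is in `Exit/FrcTV`.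
WHY (ev) IS FREE.   Of a hybrid end `E : PvjeEnd` (35, `Exit/FrcDefs`) the weight enters THE FIELD `X` ONLY.   `E.Wf` reads `X` in `mX` only, `T.Ok E ε` and `PvjeFin E T η₀ η` do not read it, `PvjeDet` reads it in `val` only.
* sec. 1  MODEL FREE: `PvjeEnd.pvzjSetX E X'` (the same end with another plain value), `pvzj_v_wf`, `pvzj_v_ok`, `pvzj_v_fin`, `pvzj_v_det`, **`pvzj_v_cut`** = `pvje_cut` of 35 for `E.pvzjSetX X'` from the hypotheses at `E` (of DET: `ev` only) + `mX` + `val` at `X'`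
* sec. 2  THE THICK END, ANY ENGINE, ANY WEIGHT: `pvzj_v_set` (`pvjeE .. w' = (pvjeE .. w).pvzjSetX ..`, `rfl`), `pvzj_v_FeV` (`pvguFeV = Frc` at `pvilV`, `rfl`), **`pvzj_v_mX`** ([MEAS] of 289), record **`PvzjVReg 𝔓 𝔈 m t`** (what (b5) asks of the regions: numbers of the pin, `3 μ ≤ r_u`, `rp_win`, (Rc) in the relative form of R22),
          **`pvzj_v_val`** ((b5) = `pvll_tr_e` of 74, in the wording of `PvjeDet.val`)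
-/

set_option autoImplicit false

namespace Claimed.Agent.R289

open Set MeasureTheory Filter Topology Claims.C0465
open scoped ENNReal

/-! ## 1. model free: another plain value -/

/-- the same hybrid end with another plain value -/
def PvjeEnd.pvzjSetX (E : PvjeEnd) (X' : Conf PvPt → ℂ) : PvjeEnd := { E with X := X' }

theorem pvzj_v_eqns_cite : True := by
  have := @PvjeEnd.pvzjSetX.eq_1
  trivial

section free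

variable {E : PvjeEnd} {T : PvjeTest} {X' : Conf PvPt → ℂ} {ε : ℝ} {η₀ η : Conf PvPt}

theorem pvzj_v_wf (h : E.Wf ε) (mX : ∀ Z : Set (ℤ × ℤ), Z.Finite → AEMeasurable ((E.Pl Z).indicator X') (pvP ε)) : (E.pvzjSetX X').Wf ε where
  mK := h.mK
  mD := h.mD
  mM := h.mM
  mWz := h.mWz
  bK := h.bK
  bD := h.bD
  bM := h.bM
  KD := h.KD
  MK := h.MK
  MD := h.MD
  fin := h.fin
  mX := mX
  rG := h.rG
  stop := h.stop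

theorem pvzj_v_ok (h : T.Ok E ε) : T.Ok (E.pvzjSetX X') ε where
  mO := h.mO
  bO := h.bO
  O_sub := h.O_sub
  mK := h.mK
  rK := h.rK
  mH := h.mH
  rH := h.rH
  thr := h.thr
  loc := h.loc
  up := h.up

theorem pvzj_v_fin : PvjeFin (E.pvzjSetX X') T η₀ η ↔ PvjeFin E T η₀ η :=
  ⟨fun h => ⟨h.nice, h.one, h.sites, h.cols, h.use, h.plug, h.side, h.copy⟩, fun h => ⟨h.nice, h.one, h.sites, h.cols, h.use, h.plug, h.side, h.copy⟩⟩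

theorem pvzj_v_det (ev : ∀ η, PvjeFin E T η₀ η → η ∈ E.Pl (E.Hu η₀))
    (val : ∀ η η', PvjeFin E T η₀ η → PvjeFin E T η₀ η' → Conf.restr (E.Wn (E.Hu η₀) ×ˢ (univ : Set Bool)) η = Conf.restr (E.Wn (E.Hu η₀) ×ˢ (univ : Set Bool)) η' → X' η = X' η') :
    PvjeDet (E.pvzjSetX X') T η₀ where
  ev := fun η h => ev η (pvzj_v_fin.1 h)
  val := fun η η' h h' e => val η η' (pvzj_v_fin.1 h) (pvzj_v_fin.1 h') e

end free

/-- **THE GENERIC ROOF OF 35 AT ANOTHER PLAIN VALUE**: the hypotheses of `pvje_cut` at `E` (of `PvjeDet` only `ev`), `mX` and `val` at `X'` -/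
theorem pvzj_v_cut {τ : Type} {c : ℝ} (𝔓 : PvxPar τ c) (m : ℕ) (z : ℂ) (t : τ) {E : ℝ → PvjeEnd} {T : ℝ → PvjeTest} {θ q : ℝ≥0∞} {Mc : ℝ → Set (Conf PvPt)} (X' : ℝ → Conf PvPt → ℂ)
    (hE : ∀ᶠ ε in 𝓝[>] (0 : ℝ), (E ε).Wf ε) (hT : ∀ᶠ ε in 𝓝[>] (0 : ℝ), (T ε).Ok (E ε) ε)
    (hq : ∀ᶠ ε in 𝓝[>] (0 : ℝ), q ≤ (T ε).t * ((T ε).b - θ))
    (hG : PvrgSmall fun ε => (pvayGood2 ε (E ε).K (T ε).O (T ε).𝒦 (T ε).t θ)ᶜ)
    (hM : PvrgSmall fun ε => (Mc ε)ᶜ)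
    (hU : ∀ᶠ ε in 𝓝[>] (0 : ℝ), ∀ ω ∈ pvxU 𝔓 m z t, pvConf ω ∈ (E ε).U)
    (hD : ∀ᶠ ε in 𝓝[>] (0 : ℝ), ∀ η₀ ∈ (E ε).U, η₀ ∈ Mc ε → CfOK η₀ → ∀ η, PvjeFin (E ε) (T ε) η₀ η → η ∈ (E ε).Pl ((E ε).Hu η₀))
    (mX : ∀ᶠ ε in 𝓝[>] (0 : ℝ), ∀ Z : Set (ℤ × ℤ), Z.Finite → AEMeasurable (((E ε).Pl Z).indicator (X' ε)) (pvP ε))
    (hV : ∀ᶠ ε in 𝓝[>] (0 : ℝ), ∀ η₀ ∈ (E ε).U, η₀ ∈ Mc ε → CfOK η₀ → ∀ η η', PvjeFin (E ε) (T ε) η₀ η → PvjeFin (E ε) (T ε) η₀ η' →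
      Conf.restr ((E ε).Wn ((E ε).Hu η₀) ×ˢ (univ : Set Bool)) η = Conf.restr ((E ε).Wn ((E ε).Hu η₀) ×ˢ (univ : Set Bool)) η' → X' ε η = X' ε η') :
    ∃ Cert : ℝ → Set (Conf PvPt), Tendsto (fun ε => ((pvhbUp ε).P {x | pvConf (pvMerge x) ∉ Cert ε}).toReal) (𝓝[>] (0 : ℝ)) (𝓝 0) ∧
      ∀ᶠ ε in 𝓝[>] (0 : ℝ), ∀ ω ∈ pvxU 𝔓 m z t, pvConf ω ∈ Cert ε → pvConf ω ∈ ((E ε).pvzjSetX (X' ε)).Frc ε q :=
  pvje_cut 𝔓 m z t (E := fun ε => (E ε).pvzjSetX (X' ε)) (T := T) (θ := θ) (Mc := Mc)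
    (by filter_upwards [hE, mX] with ε a1 a2 using pvzj_v_wf a1 a2) (hT.mono fun _ h => pvzj_v_ok h) hq hG hM hU
    (by filter_upwards [hD, hV] with ε a1 a2 η₀ h1 h2 h3 using pvzj_v_det (a1 η₀ h1 h2 h3) (a2 η₀ h1 h2 h3))

/-! ## 2. the thick end: any engine, any weight -/

section thick

variable {τ : Type} {c : ℝ} (𝔓 : PvxPar τ c) (𝔈 : PvieEng τ) {w w' : ∀ η : Conf PvPt, (delbPl (pvieY η)).Dart → ℂ} {m : ℕ} {ε : ℝ} {z : ℂ} {t : τ}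

/-- the thick end at another weight -/
theorem pvzj_v_set (w w' : ∀ η : Conf PvPt, (delbPl (pvieY η)).Dart → ℂ) (m : ℕ) (ε : ℝ) (z : ℂ) (t : τ) :
    pvjeE 𝔓 𝔈 w' m ε z t = (pvjeE 𝔓 𝔈 w m ε z t).pvzjSetX ((pvilLe 𝔓 𝔈 m z t).X 𝔓.num (𝔓.col t) w') := rfl

/-- the named set of 238 IS the forced set of the thick end at the weight `V` -/
theorem pvzj_v_FeV (q : ℝ≥0∞) (m : ℕ) (ε : ℝ) (z : ℂ) (t : τ) : pvguFeV 𝔓 𝔈 q m ε z t = (pvjeE 𝔓 𝔈 pvilV m ε z t).Frc ε q := rfl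

/-- the window of the thick end -/
theorem pvzj_v_Wn (w : ∀ η : Conf PvPt, (delbPl (pvieY η)).Dart → ℂ) (m : ℕ) (ε : ℝ) (z : ℂ) (t : τ) (Z : Set (ℤ × ℤ)) : (pvjeE 𝔓 𝔈 w m ε z t).Wn Z = pvilWne 𝔓 𝔈 m z t Z := rfl

variable {𝔓 𝔈}

/-- **[MEAS]** the field `mX` of the thick end, every weight of 289 -/
theorem pvzj_v_mX (h𝔓 : 𝔓.WfB) (H : PvmlEngB 𝔈) (hε : 0 < ε) (hw : PvmlWm w) (Z : Set (ℤ × ℤ)) :
    AEMeasurable (((pvjeE 𝔓 𝔈 w m ε z t).Pl Z).indicator (pvjeE 𝔓 𝔈 w m ε z t).X) (pvP ε) := pvml_IXe_aem h𝔓 H hε hw m z t Z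

/-- **WHAT (b5) ASKS OF THE REGIONS OF THE THICK LINK**: the numbers of the pin (74), `3 μ ≤ r_u`, the mesh window of the reference plug (`rp_win`), (Rc) of RULING 22 in relative form -/
structure PvzjVReg (𝔓 : PvxPar τ c) (𝔈 : PvieEng τ) (m : ℕ) (t : τ) : Prop where
  pin : PvllPin 𝔓 m t
  ru : 3 * pvilMu 𝔓 m ≤ pvilRu 𝔈 m
  win : pvwSq 0 (3 * pvilRu 𝔈 m) ⊆ 𝔈.rO m
  room : ∀ v ∈ 𝔈.eY m t, Metric.closedBall v (3 * pvilMu 𝔓 m) ⊆ 𝔈.eM m t ∪ 𝔈.eK m t ∪ pviwRo 𝔓 𝔈 m t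

/-- (Rc), placed -/
theorem PvzjVReg.room_z (H : PvzjVReg 𝔓 𝔈 m t) (z : ℂ) :
    pvieSh z (𝔈.eY m t) ⊆ pvtrCore (3 * pvilMu 𝔓 m) (pvieSh z (𝔈.eM m t) ∪ pvieSh z (𝔈.eK m t) ∪ pvieSh (pvieZu 𝔓 m z t) (𝔈.rO m)) := by
  rintro _ ⟨v, hv, rfl⟩ q hq
  have h1 : q - z ∈ Metric.closedBall v (3 * pvilMu 𝔓 m) := by
    rw [mem_closedBall_iff_norm] at hq ⊢
    have e : q - z - v = q - (z + v) := by ring
    rw [e]
    exact hq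
  rcases H.room v hv h1 with (h2 | h2) | h2
  · exact Or.inl (Or.inl ⟨q - z, h2, by ring⟩)
  · exact Or.inl (Or.inr ⟨q - z, h2, by ring⟩)
  · obtain ⟨a, ha, e⟩ := h2
    refine Or.inr ⟨a, ha, ?_⟩
    have e2 : (𝔓.Γ m).zu t + a = q - z := e
    show pvieZu 𝔓 m z t + a = q
    unfold pvieZu
    rw [add_assoc, e2]
    ring

/-- **(b5) THE PLAIN VALUE OF THE THICK LINK IS READ IN THE WINDOW**, every weight read on the plane map, in the wording of `PvjeDet.val` -/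
theorem pvzj_v_val (H : PvzjVReg 𝔓 𝔈 m t) (hw : PvllWt w) {Z : Set (ℤ × ℤ)} {η η' : Conf PvPt} (ev : η ∈ pvilMe 𝔓 𝔈 m z t Z) (hn' : PvatNice (cfSites η'))
    (he : Conf.restr ((pvjeE 𝔓 𝔈 w m ε z t).Wn Z ×ˢ (univ : Set Bool)) η = Conf.restr ((pvjeE 𝔓 𝔈 w m ε z t).Wn Z ×ˢ (univ : Set Bool)) η') :
    (pvjeE 𝔓 𝔈 w m ε z t).X η = (pvjeE 𝔓 𝔈 w m ε z t).X η' :=
  (pvll_tr_e H.pin H.ru H.win (H.room_z z) hw hn' he ev).2.1.symm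

end thick

end Claimed.Agent.R289
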