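-- KEEP
import Claimed.Agent.R289.Exit.FrcT
import Claimed.Agent.R289.Exit.FrcTW

/-!
# Row 289 (S0537), THE WALL, ROAD E, E10, file Exit/FrcTV : THE THICK LINK IS FORCED AT THE WEIGHT `V` = `exit_pvgu_ev`, COMPILED GLUE OVER THE LEAVES OF `Exit/FrcT` (54)      (helper231, racer of `exit_pvgu_ev`; prefix `pvzj_v_`)

NO NEW PROBABILITY, NO NEW GEOMETRY OF THE LINK: the end, the tests, the certificate, the routes, the constant are THOSE OF 54 (`pvetE pvetTr pvetMc exit_pvet_rt pvetT0`);   `pvzj_v_cut` (`Exit/FrcTW`) changes the plain value.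
* `pvzj_v_pin`, `pvzj_v_ru`, `pvzj_v_win` PROVED (numbers of `pvxParOf`, `rp_win`)
* `exit_pvzj_v_room` := `pvet_rce` of `Exit/FrcT` (128) = (Rc) OF RULING 22 FOR THE ROOM `eY` AT THE ENGINE OF RECORD (ONE leaf for `Q` and `V`; owed by the authors of the rooms 124 166 118 285).      0 SORRY IN THIS FILE.
* `pvzj_v_reg` : `PvzjVReg` at the engine of record;   **`pvzj_v_frc`**;   **`pvzj_v_exit`** = the statement of `exit_pvgu_ev` (`Exit/GdCut.lean`, 238) VERBATIM (`PvguFrc` unfolded)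
-/

set_option autoImplicit false

namespace Claimed.Agent.R289

open Set MeasureTheory Filter Topology Claims.C0465
open scoped ENNReal

section rec

variable {c : ℝ}

/-- the numbers of the pin -/
theorem pvzj_v_pin (N : PvxNums) (hN : N.Ok) (m : ℕ) (t : pvxTau N) : PvllPin (pvxParOf N hN c) m t := by
  have h3 : 0 < N.rho3 := hN.msk0
  have hg : (0 : ℝ) ≤ (N.g : ℝ) := Nat.cast_nonneg _
  have h4 : N.rho3 ≤ 1 := by nlinarith [hN.msk, hN.rho_lt_one]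
  refine pvll_pin_mk (𝔓 := pvxParOf N hN c) (t := t) h3 ?_ ?_ m
  · show 1 + N.rho3 / 500 ≤ N.b1
    linarith [hN.m_gt, hN.m_lt, hN.B_lt, hN.ab1]
  · show N.b1 ≤ 2 * N.b2 + (pvxoK t : ℝ) * N.rho1
    have h5 : (0 : ℝ) ≤ (pvxoK t : ℝ) * N.rho1 := mul_nonneg (Nat.cast_nonneg _) hN.rho1_pos.le
    linarith [hN.gap, hN.ab2, hN.b2_pos]

/-- the unit of the reference plug against the mesh of the windows -/
theorem pvzj_v_ru (N : PvxNums) (hN : N.Ok) (nb : PvnaNb N) (m : ℕ) : 3 * pvilMu (pvxParOf N hN c) m ≤ pvilRu (pvnaEngRec N hN c nb) m :=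
  pvly_rec_ru N hN nb m

/-- the mesh window of the reference plug -/
theorem pvzj_v_win (c0 : 0 < c) (N : PvxNums) (hN : N.Ok) (nb : PvnaNb N) {m : ℕ} (hm : (pvxParOf N hN c).m0 ≤ m) :
    pvwSq 0 (3 * pvilRu (pvnaEngRec N hN c nb) m) ⊆ (pvnaEngRec N hN c nb).rO m := by
  obtain ⟨Cth, r, κs, H⟩ := (pvnr_wf hN c0 nb).wf
  exact H.rp_win m hm

/-- **(Rc) OF RULING 22 FOR THE ROOM OF THE THICK LINK, AT THE ENGINE OF RECORD**: the `3 μ`-neighbourhood of the room `eY` lies in (mouth) ∪ (tile) ∪ (region of the reference plug)      [authors of the rooms: 124 166 (`Exit/ParEngR` `pvehEY`, `Exit/EngAll`); v5.1 of `Defs/InstWf`: a LEMMA AT THE CONCRETE ENGINE] -/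
theorem exit_pvzj_v_room (c0 : 0 < c) (N : PvxNums) (hN : N.Ok) (nb : PvnaNb N) {m : ℕ} (hm : (pvxParOf N hN c).m0 ≤ m) (t : pvxTau N) :
    ∀ v ∈ (pvnaEngRec N hN c nb).eY m t, Metric.closedBall v (3 * pvilMu (pvxParOf N hN c) m) ⊆
      (pvnaEngRec N hN c nb).eM m t ∪ (pvnaEngRec N hN c nb).eK m t ∪ pviwRo (pvxParOf N hN c) (pvnaEngRec N hN c nb) m t :=
  pvet_rce c0 N hN nb hm t

/-- what (b5) asks of the regions, at the engine of record -/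
theorem pvzj_v_reg (c0 : 0 < c) (N : PvxNums) (hN : N.Ok) (nb : PvnaNb N) {m : ℕ} (hm : (pvxParOf N hN c).m0 ≤ m) (t : pvxTau N) : PvzjVReg (pvxParOf N hN c) (pvnaEngRec N hN c nb) m t :=
  ⟨pvzj_v_pin N hN m t, pvzj_v_ru N hN nb m, pvzj_v_win c0 N hN nb hm, exit_pvzj_v_room c0 N hN nb hm t⟩

/-- the thick link is forced at the weight `V`, at one candidate -/
theorem pvzj_v_frc (c0 : 0 < c) (N : PvxNums) (hN : N.Ok) (nb : PvnaNb N) {m : ℕ} (hm : (pvxParOf N hN c).m0 ≤ m) (z : ℂ) (t : pvxTau N) {q0 : ℝ} (h0 : 0 < q0) (h1 : q0 ≤ 1)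
    (H : ∀ (M K : ℕ) (δ : ℝ) (F : List (Bool × List (Set ℂ × ℂ × ℂ))), PvkqFit δ M K F →
      Tendsto (fun ε : ℝ => pvGeo ε {g | pvQc (pvkqPat δ F) g < ENNReal.ofReal ((q0 ^ (15 * (K * (2 * M + 1) ^ 2)) / 2) ^ F.length)}) (𝓝[>] (0 : ℝ)) (𝓝 0))
    {Mq Kq Lq : ℕ} {R : PvetRt} (hR : R.Ok (pvxParOf N hN c) (pvnaEngRec N hN c nb) Mq Kq Lq m z t) :
    ∃ Cert : ℝ → Set (Conf PvPt), Tendsto (fun ε => ((pvhbUp ε).P {x | pvConf (pvMerge x) ∉ Cert ε}).toReal) (𝓝[>] (0 : ℝ)) (𝓝 0) ∧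
      ∀ᶠ ε in 𝓝[>] (0 : ℝ), ∀ ω ∈ pvxU (pvxParOf N hN c) m z t, pvConf ω ∈ Cert ε → pvConf ω ∈ pvguFeV (pvxParOf N hN c) (pvnaEngRec N hN c nb) (pvetT0 q0 Mq Kq Lq * (nb.b - nb.b / 2)) m ε z t := by
  have hpos : ∀ᶠ ε in 𝓝[>] (0 : ℝ), 0 < ε := eventually_mem_nhdsWithin
  obtain ⟨Cth, r, κs, HW⟩ := (pvnr_wf hN c0 nb).wf
  exact pvzj_v_cut (pvxParOf N hN c) m z t (E := fun ε => pvetE N hN c nb m ε z t) (T := fun _ => pvetTr N hN c nb q0 Mq Kq R m z t) (θ := nb.b / 2)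
    (Mc := fun _ => pvetMc (pvxParOf N hN c) (pvnaEngRec N hN c nb) m z t)
    (fun _ => (pvilLe (pvxParOf N hN c) (pvnaEngRec N hN c nb) m z t).X (pvxParOf N hN c).num ((pvxParOf N hN c).col t) pvilV)
    (hpos.mono fun ε hε => pvet_wf c0 N hN nb hm ε z t hε) (hpos.mono fun ε hε => pvet_ok c0 N hN nb hm ε z t q0 hR hε)
    (Eventually.of_forall fun _ => mul_le_mul' (pvet_T0_anti h0 h1 Mq Kq hR.len) le_rfl)
    (pvet_cost c0 N hN nb hm z t q0 hR H h0) (pvet_Mc_small c0 N hN nb hm z t) (Eventually.of_forall fun ε => pvet_U N hN nb ε z t)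
    (Eventually.of_forall fun ε η₀ hU hMc hOK => (pvet_det c0 N hN nb hm ε z t q0 hR hU hMc hOK).ev)
    (hpos.mono fun ε hε Z _ => pvzj_v_mX (m := m) (z := z) (t := t) (pvxo_wf N hN c).toWfB (pvml_engB HW) hε pvml_wm_V Z)
    (Eventually.of_forall fun ε η₀ hU hMc hOK η η' hF hF' he =>
      pvzj_v_val (ε := ε) (pvzj_v_reg c0 N hN nb hm t) pvll_wt_V ((pvet_det c0 N hN nb hm ε z t q0 hR hU hMc hOK).ev η hF) hF'.nice he)

/-- **THE STATEMENT OF `exit_pvgu_ev`** (`Exit/GdCut.lean`), `PvguFrc` unfolded -/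
theorem pvzj_v_exit (c0 : 0 < c) (N : PvxNums) (hN : N.Ok) (𝔈 : PvieEng (pvxTau N)) (_hE : PvnaWf (pvxParOf N hN c) 𝔈) (hR : PvnaRec N hN c 𝔈) :
    ∃ qe : ℝ≥0∞, qe ≠ 0 ∧ ∀ m, (pvxParOf N hN c).m0 ≤ m → ∀ (p : ℤ × ℤ) (t : pvxTau N),
      PvguFrc (pvxParOf N hN c) m (l9Pt (pvlmH m) p) t fun ε => pvguFeV (pvxParOf N hN c) 𝔈 qe m ε (l9Pt (pvlmH m) p) t := by
  obtain ⟨nb, rfl⟩ := hR
  obtain ⟨q0, h0, h1, H⟩ := pvkq_pat_lim
  obtain ⟨Mq, Kq, Lq, hRt⟩ := exit_pvet_rt c0 N hN nb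
  obtain ⟨hb0, hb1⟩ := pvet_b nb
  refine ⟨pvetT0 q0 Mq Kq Lq * (nb.b - nb.b / 2), mul_ne_zero (pvet_T0_ne h0 Mq Kq Lq) ?_, fun m hm p t => ?_⟩
  · rw [ENNReal.sub_half hb1]
    exact (ENNReal.half_pos hb0).ne'
  · obtain ⟨R, hR⟩ := hRt m hm p t
    exact pvzj_v_frc c0 N hN nb hm _ t h0 h1 (fun M K δ F hF => (H M K δ F hF).1) hR

/-- THE NAME CITED BY `Exit/GdCut.lean` (238; his text of this path, 13:30Z, was overwritten twice at 13:45Z-13:46Z by 269 and 231: the three texts are the same transport) -/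
theorem pvgu_ev_exit (c0 : 0 < c) (N : PvxNums) (hN : N.Ok) (𝔈 : PvieEng (pvxTau N)) (hE : PvnaWf (pvxParOf N hN c) 𝔈) (hR : PvnaRec N hN c 𝔈) :
    ∃ qe : ℝ≥0∞, qe ≠ 0 ∧ ∀ m, (pvxParOf N hN c).m0 ≤ m → ∀ (p : ℤ × ℤ) (t : pvxTau N),
      PvguFrc (pvxParOf N hN c) m (l9Pt (pvlmH m) p) t fun ε => pvguFeV (pvxParOf N hN c) 𝔈 qe m ε (l9Pt (pvlmH m) p) t :=
  pvzj_v_exit c0 N hN 𝔈 hE hR

end rec

end Claimed.Agent.R289
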