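-- KEEP
import Claimed.Agent.R289.Exit.GdRec
import Claimed.Agent.R289.Exit.EngRec
import Claimed.Agent.R289.Exit.FrcTV
import Claimed.Agent.R289.Exit.FrcO
import Claimed.Agent.R289.Exit.FrcI
import Claimed.Agent.R289.Exit.FrcF

/-!
# Row 289 (S0537), THE WALL, ROAD E, file Exit/GdCut : THE CUT OF `exit_pvie_gd` = COMPILED GLUE OVER FIVE NAMED SUB-EXITS      (helper238, pen by RULING T14 of 24; prefix `pvgu_`, `pvgu`, `Pvgu`, exits `exit_pvgu_*`)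

v2 = RULINGS T12 + T14 of 24.   TARGET: **`pvgu_exit`** : `∃ 𝔊, 𝔊.Wf 𝔓 𝔈 ∧ PvguRec 𝔓 𝔈 𝔊` = the statement of `exit_pvie_gd` (`Exit/Ana.lean`, 271) in the form of T14 (2).
THE GOOD PART OF RECORD = `pvguGd 𝔓 𝔈 q qe qf`, `PvguRec` : **`Exit/GdRec.lean`** (defs + accessors; THE FILE A ROOF IMPORTS).
EVERY SUB-EXIT IS OWED AT THE ENGINE OF RECORD ONLY: binder `(hR : PvnaRec N hN c 𝔈)` of `Exit/EngRec.lean` (124; T12): `obtain ⟨nb, rfl⟩ := hR` and unfold (`pvnr_*`).      [216, 44: for an arbitrary `𝔈` with `PvnaWf` the sub-exits are FALSE: empty rooms, abstract kit.]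
* (`Exit/GdRec.lean` sec. 2)  CALCULUS OF NEGLIGIBLE DEFECTS.   `PvguNeg 𝔓 m z t S` : `(pvhbUp ε).P (U(z,t) \ S ε) → 0` (`ε ↓ 0`, level fixed).      `.inter`, `.mono`, `pvgu_neg_of_small`, `pvgu_up_of_P` (`pvP ε (S ε)ᶜ → 0`, OUTER measure: no measurability),
          **`PvguFrc.neg`** : [CERTIFICATE `Cert ε` of negligible cost over `pvhbUp ε`] + [eventually `U ∩ Cert ε ⊆ S ε`] ⟹ `PvguNeg S`,   **`pvgu_neg_mesh`** (every mesh certificate `pvrgMesh r E`, `E` bounded).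
* (`Exit/GdRec.lean` sec. 2)  `PvguFrc 𝔓 m z t S` = THE SHAPE OF A SUB-EXIT: `∃ Cert`, small, `U ∩ Cert ⊆ S` eventually.      The prover CHOOSES his certificate (soft thresholds `pvayGood2` of 196 / `pvqhSoft` of 77, `pvrgCert` of 256, mesh of the kept mouth and of the box, ..): nothing of it is seen by the roofs.
* sec. 3  **`pvgu_bad`** (PROVED), the five sub-exits `exit_pvgu_o`, `exit_pvgu_i`, `exit_pvgu_e`, `exit_pvgu_ev`, `exit_pvgu_f` (E10 AT THE MODEL: 35 `Exit/FrcE.lean`, 100 `Exit/FrcEB.lean`; 256 250 252 298 139 23 21 196 77 165), **`pvgu_gd`**, **`pvgu_exit`**.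
-/

set_option autoImplicit false

namespace Claimed.Agent.R289

open MeasureTheory Filter Topology Set Claims.C0465
open scoped ENNReal

/-! ## 2. the good part of record -/

section gd

variable {τ : Type} {c : ℝ} (𝔓 : PvxPar τ c) (𝔈 : PvieEng τ)

variable {𝔓 𝔈}

theorem pvgu_sh_bdd (z : ℂ) {S : Set ℂ} (h : Bornology.IsBounded S) : Bornology.IsBounded (pvieSh z S) := by
  obtain ⟨R, hR⟩ := h.subset_closedBall (0 : ℂ)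
  refine (Metric.isBounded_closedBall (x := z) (r := R)).subset ?_
  rintro _ ⟨w, hw, rfl⟩
  have := hR hw
  rw [mem_closedBall_iff_norm, sub_zero] at this
  rw [mem_closedBall_iff_norm]
  simpa using this

theorem pvgu_sq_bdd (z : ℂ) (r : ℝ) : Bornology.IsBounded (pvwSq z r) := by
  refine (Metric.isBounded_closedBall (x := z) (r := |r| + |r|)).subset ?_
  rintro w ⟨h1, h2⟩
  rw [mem_closedBall_iff_norm]
  calc ‖w - z‖ ≤ |(w - z).re| + |(w - z).im| := Complex.norm_le_abs_re_add_abs_im _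
    _ ≤ |r| + |r| := add_le_add (h1.trans (le_abs_self r)) (h2.trans (le_abs_self r))

/-- the certificate of the own-level box is free -/
theorem pvgu_neg_B (hc : ∀ m, 0 < pvlmDel c m) (m : ℕ) (z : ℂ) (t : τ) : PvguNeg 𝔓 m z t fun _ => pvrgB 𝔓 m z t :=
  pvgu_neg_mesh 𝔓 m z t (by have := hc m; positivity) (pvgu_sh_bdd z (pvgu_sq_bdd _ _))

/-- **(BAD) FROM THE FORCED LINKS** -/
theorem pvgu_bad (hc : ∀ m, 0 < pvlmDel c m) {q : ℕ → ℝ≥0∞} {qe qf : ℝ≥0∞} {m0 : ℕ}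
    (ho : ∀ m, m0 ≤ m → ∀ (p : ℤ × ℤ) (t : τ), PvguFrc 𝔓 m (l9Pt (pvlmH m) p) t fun ε => pvrgFo 𝔓 𝔈 (q m) m ε (l9Pt (pvlmH m) p) t)
    (hi : ∀ m, m0 ≤ m → ∀ (p : ℤ × ℤ) (t : τ), PvguFrc 𝔓 m (l9Pt (pvlmH m) p) t fun ε => pvrgFi 𝔓 𝔈 (q m) m ε (l9Pt (pvlmH m) p) t)
    (he : ∀ m, m0 ≤ m → ∀ (p : ℤ × ℤ) (t : τ), PvguFrc 𝔓 m (l9Pt (pvlmH m) p) t fun ε => pvrgFe 𝔓 𝔈 qe m ε (l9Pt (pvlmH m) p) t)
    (hf : ∀ m, m0 ≤ m → ∀ (p : ℤ × ℤ) (t : τ), PvguFrc 𝔓 m (l9Pt (pvlmH m) p) t fun ε => pvrgFf 𝔓 𝔈 qf m ε (l9Pt (pvlmH m) p) t)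
    (hv : ∀ m, m0 ≤ m → ∀ (p : ℤ × ℤ) (t : τ), PvguFrc 𝔓 m (l9Pt (pvlmH m) p) t fun ε => pvguFeV 𝔓 𝔈 qe m ε (l9Pt (pvlmH m) p) t) :
    PvnaBad 𝔓 (pvguGd 𝔓 𝔈 q qe qf) m0 := fun m hm p t =>
  (((ho m hm p t).neg).inter (((((hi m hm p t).neg).inter ((he m hm p t).neg)).inter ((hf m hm p t).neg)).inter ((hv m hm p t).neg))).inter (pvgu_neg_B hc m _ t)

end gd

/-! ## 3. THE SUB-EXITS = E10 AT THE MODEL, AND THE CUT -/

section exits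

variable {c : ℝ}

theorem pvgu_end_anti (ε : ℝ) (e : PvkyEnd) (D : Set ℂ) (G : Set (Conf PvPt)) {q q' : ℝ≥0∞} (h : q' ≤ q) : pvrgEnd ε e D G q ⊆ pvrgEnd ε e D G q' :=
  pvrg_frc_anti ε _ _ G _ h

theorem pvgu_Fo_anti {τ : Type} (𝔓 : PvxPar τ c) (𝔈 : PvieEng τ) {q q' : ℝ≥0∞} (h : q' ≤ q) (m : ℕ) (ε : ℝ) (z : ℂ) (t : τ) : pvrgFo 𝔓 𝔈 q m ε z t ⊆ pvrgFo 𝔓 𝔈 q' m ε z t := by
  intro η hη
  rw [pvrgFo, mem_ofPred_eq] at hη ⊢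
  exact pvgu_end_anti ε _ _ _ h hη

theorem pvgu_Fi_anti {τ : Type} (𝔓 : PvxPar τ c) (𝔈 : PvieEng τ) {q q' : ℝ≥0∞} (h : q' ≤ q) (m : ℕ) (ε : ℝ) (z : ℂ) (t : τ) : pvrgFi 𝔓 𝔈 q m ε z t ⊆ pvrgFi 𝔓 𝔈 q' m ε z t := by
  intro η hη
  rw [pvrgFi, mem_ofPred_eq] at hη ⊢
  exact pvgu_end_anti ε _ _ _ h hη

theorem pvgu_Fe_anti {τ : Type} (𝔓 : PvxPar τ c) (𝔈 : PvieEng τ) {q q' : ℝ≥0∞} (h : q' ≤ q) (m : ℕ) (ε : ℝ) (z : ℂ) (t : τ) : pvrgFe 𝔓 𝔈 q m ε z t ⊆ pvrgFe 𝔓 𝔈 q' m ε z t := by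
  intro η hη
  rw [pvrgFe, mem_ofPred_eq] at hη ⊢
  exact pvgu_end_anti ε _ _ _ h hη

theorem pvgu_FeV_anti {τ : Type} (𝔓 : PvxPar τ c) (𝔈 : PvieEng τ) {q q' : ℝ≥0∞} (h : q' ≤ q) (m : ℕ) (ε : ℝ) (z : ℂ) (t : τ) : pvguFeV 𝔓 𝔈 q m ε z t ⊆ pvguFeV 𝔓 𝔈 q' m ε z t := by
  intro η hη
  rw [pvguFeV, mem_ofPred_eq] at hη ⊢
  exact pvgu_end_anti ε _ _ _ h hη

/-- **(o) THE FIRST LINK `t → door plug` IS FORCED ON THE CERTIFIED USABLE CANDIDATES**      [WIRED: 35 `Exit/FrcO.lean`, compiled glue over his leaves `exit_pvj0_*`].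
At fixed level `m ≥ m0`, grid centre `z`, type `t`: a certificate `Cert ε` (chosen by the prover: mesh of the box, of the kept mouth, soft thresholds of the tests of the link) whose failure is negligible as `ε ↓ 0`, and, for `ε` small,
every usable candidate with a certified configuration lies in `pvrgFo (q m)`: for a.e. seed of the experiment of `pvilKout` with a usable door plug, `q m ≤ pvdyQ ε e.K e.y e.A`, `e` = the first link at the base data.      `q m` is free of `ε`, `p`, `t`. -/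
theorem exit_pvgu_o (c0 : 0 < c) (N : PvxNums) (hN : N.Ok) (𝔈 : PvieEng (pvxTau N)) (hE : PvnaWf (pvxParOf N hN c) 𝔈) (hR : PvnaRec N hN c 𝔈) :
    ∃ q : ℕ → ℝ≥0∞, (∀ m, q m ≠ 0) ∧ ∀ m, (pvxParOf N hN c).m0 ≤ m → ∀ (p : ℤ × ℤ) (t : pvxTau N),
      PvguFrc (pvxParOf N hN c) m (l9Pt (pvlmH m) p) t fun ε => pvrgFo (pvxParOf N hN c) 𝔈 (q m) m ε (l9Pt (pvlmH m) p) t :=
  pvj0_exit c0 N hN 𝔈 hE hR

/-- **(i) THE LAST LINK `door plug → t` IS FORCED ON THE CERTIFIED USABLE CANDIDATES** (the experiment of `pvilKin`)      [WIRED: 116 `Exit/FrcI.lean` `pvii_exit`, compiled glue over his nodes `exit_pvii_*`;   twin of 96 `Exit/FrcIM.lean` `pvij_exit`, field by field] -/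
theorem exit_pvgu_i (c0 : 0 < c) (N : PvxNums) (hN : N.Ok) (𝔈 : PvieEng (pvxTau N)) (hE : PvnaWf (pvxParOf N hN c) 𝔈) (hR : PvnaRec N hN c 𝔈) :
    ∃ q : ℕ → ℝ≥0∞, (∀ m, q m ≠ 0) ∧ ∀ m, (pvxParOf N hN c).m0 ≤ m → ∀ (p : ℤ × ℤ) (t : pvxTau N),
      PvguFrc (pvxParOf N hN c) m (l9Pt (pvlmH m) p) t fun ε => pvrgFi (pvxParOf N hN c) 𝔈 (q m) m ε (l9Pt (pvlmH m) p) t :=
  pvii_exit c0 N hN 𝔈 hE hR

/-- **(e) THE THICK LINK `reference plug → t` IS FORCED ON THE CERTIFIED USABLE CANDIDATES** (the experiment of `pvilKe`), WITH A CONSTANT FREE OF THE LEVEL      [WIRED: 54 `Exit/FrcT.lean`, compiled glue over his named leaves `pvet_*`] -/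
theorem exit_pvgu_e (c0 : 0 < c) (N : PvxNums) (hN : N.Ok) (𝔈 : PvieEng (pvxTau N)) (hE : PvnaWf (pvxParOf N hN c) 𝔈) (hR : PvnaRec N hN c 𝔈) :
    ∃ qe : ℝ≥0∞, qe ≠ 0 ∧ ∀ m, (pvxParOf N hN c).m0 ≤ m → ∀ (p : ℤ × ℤ) (t : pvxTau N),
      PvguFrc (pvxParOf N hN c) m (l9Pt (pvlmH m) p) t fun ε => pvrgFe (pvxParOf N hN c) 𝔈 qe m ε (l9Pt (pvlmH m) p) t :=
  pvet_exit c0 N hN 𝔈 hE hR

/-- **(ev) THE THICK LINK IS FORCED AT THE WEIGHT `V`** (same experiment, same plain event; the success `pvilSA` reads the weight through `{plain value = soft value}`), WITH A CONSTANT FREE OF THE LEVEL      [(M3), (L5) of 200;   WIRED: `Exit/FrcTV.lean` of 231 (`pvzj_v_exit`) = transport of `Exit/FrcT.lean` (54) + ONE region leaf `exit_pvzj_v_room`] -/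
theorem exit_pvgu_ev (c0 : 0 < c) (N : PvxNums) (hN : N.Ok) (𝔈 : PvieEng (pvxTau N)) (hE : PvnaWf (pvxParOf N hN c) 𝔈) (hR : PvnaRec N hN c 𝔈) :
    ∃ qe : ℝ≥0∞, qe ≠ 0 ∧ ∀ m, (pvxParOf N hN c).m0 ≤ m → ∀ (p : ℤ × ℤ) (t : pvxTau N),
      PvguFrc (pvxParOf N hN c) m (l9Pt (pvlmH m) p) t fun ε => pvguFeV (pvxParOf N hN c) 𝔈 qe m ε (l9Pt (pvlmH m) p) t :=
  pvzj_v_exit c0 N hN 𝔈 hE hR

/-- **(f) THE THICK RETURN `t → reference plug` IS FORCED ON THE CERTIFIED USABLE CANDIDATES**, in its own experiment `(fK ∪ (zu + rO), fM \ F_out)`, WITH A CONSTANT FREE OF THE LEVEL      [WIRED: 196 `Exit/FrcF.lean` `pvif_exit`, compiled glue over his leaves `pvif_l_*`, `exit_pvif_rt`] -/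
theorem exit_pvgu_f (c0 : 0 < c) (N : PvxNums) (hN : N.Ok) (𝔈 : PvieEng (pvxTau N)) (hE : PvnaWf (pvxParOf N hN c) 𝔈) (hR : PvnaRec N hN c 𝔈) :
    ∃ qf : ℝ≥0∞, qf ≠ 0 ∧ ∀ m, (pvxParOf N hN c).m0 ≤ m → ∀ (p : ℤ × ℤ) (t : pvxTau N),
      PvguFrc (pvxParOf N hN c) m (l9Pt (pvlmH m) p) t fun ε => pvrgFf (pvxParOf N hN c) 𝔈 qf m ε (l9Pt (pvlmH m) p) t :=
  pvif_exit c0 N hN 𝔈 hE hR

/-- **THE CUT OF `exit_pvie_gd`**: the good part of record, its constants, `bad` -/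
theorem pvgu_gd (c0 : 0 < c) (N : PvxNums) (hN : N.Ok) (𝔈 : PvieEng (pvxTau N)) (hE : PvnaWf (pvxParOf N hN c) 𝔈) (hR : PvnaRec N hN c 𝔈) :
    ∃ (q : ℕ → ℝ≥0∞) (qe qf : ℝ≥0∞), (∀ m, q m ≠ 0) ∧ qe ≠ 0 ∧ qf ≠ 0 ∧ PvnaBad (pvxParOf N hN c) (pvguGd (pvxParOf N hN c) 𝔈 q qe qf) (pvxParOf N hN c).m0 := by
  obtain ⟨qo, ho0, ho⟩ := exit_pvgu_o c0 N hN 𝔈 hE hR
  obtain ⟨qi, hi0, hi⟩ := exit_pvgu_i c0 N hN 𝔈 hE hR
  obtain ⟨qe, he0, he⟩ := exit_pvgu_e c0 N hN 𝔈 hE hR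
  obtain ⟨qv, hv0, hv⟩ := exit_pvgu_ev c0 N hN 𝔈 hE hR
  obtain ⟨qf, hf0, hf⟩ := exit_pvgu_f c0 N hN 𝔈 hE hR
  refine ⟨fun m => min (qo m) (qi m), min qe qv, qf, fun m => ?_, ?_, hf0, pvgu_bad (pvlm_Del_pos c) (fun m hm p t => ?_) (fun m hm p t => ?_) (fun m hm p t => ?_) hf (fun m hm p t => ?_)⟩
  · show min (qo m) (qi m) ≠ 0
    rcases min_choice (qo m) (qi m) with h | h <;> rw [h]
    · exact ho0 m
    · exact hi0 m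
  · rcases min_choice qe qv with h | h <;> rw [h]
    · exact he0
    · exact hv0
  · exact (ho m hm p t).mono (Eventually.of_forall fun ε ω _ h => pvgu_Fo_anti _ _ (min_le_left _ _) m ε _ t h)
  · exact (hi m hm p t).mono (Eventually.of_forall fun ε ω _ h => pvgu_Fi_anti _ _ (min_le_right _ _) m ε _ t h)
  · exact (he m hm p t).mono (Eventually.of_forall fun ε ω _ h => pvgu_Fe_anti _ _ (min_le_left _ _) m ε _ t h)
  · exact (hv m hm p t).mono (Eventually.of_forall fun ε ω _ h => pvgu_FeV_anti _ _ (min_le_right _ _) m ε _ t h)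

/-- **the statement of `exit_pvie_gd`** (`Exit/Ana.lean`) in the form of T14 (2): the contract AND the equation -/
theorem pvgu_exit (c0 : 0 < c) (N : PvxNums) (hN : N.Ok) (𝔈 : PvieEng (pvxTau N)) (hE : PvnaWf (pvxParOf N hN c) 𝔈) (hR : PvnaRec N hN c 𝔈) :
    ∃ 𝔊 : PvnaGd (pvxTau N), 𝔊.Wf (pvxParOf N hN c) 𝔈 ∧ PvguRec (pvxParOf N hN c) 𝔈 𝔊 := by
  obtain ⟨q, qe, qf, h1, h2, h3, hB⟩ := pvgu_gd c0 N hN 𝔈 hE hR
  exact ⟨_, ⟨hB⟩, q, qe, qf, h1, h2, h3, rfl⟩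

end exits

end Claimed.Agent.R289
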