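-- KEEP
import Claimed.Agent.R289.Tr.InstL
import Claimed.Agent.R289.Tr.Blind
import Claimed.Agent.R289.S1P.Fin

/-!
# Row 289 (S0537), THE WALL, ROAD E, file Exit/N1YD : THE TWO CLAUSES WHICH THE GUARD OF N1' OWES TO THE `Y` SIDE      (helper214, second cutter of `exit_pvn1a_Y`, post T16 of 24; prefix `pvyk1_`, `pvyk1`, `Pvyk1`)

DEFS ONLY, BELOW `Exit/N1All` (imports `Tr/InstL`, `Tr/Blind`): the guard `pvn1aS` of 159 can cite them.      ALL SETS ARE SETS OF ACTUAL CONFIGURATIONS `η` (as `pvrgFo pvrgFi` of 256);   in the guard: `pvxnFl b ζ ∈ ..`.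
WHY.   The fields `jen yh_stab` of `Pvn1aY` are asked at EVERY base of `A i`.   The producers on main (218 `pvkyi_chain`, 141 `PvkyChain.pvbq_all`) need at the base, besides the forced links (`pvrgFo pvrgFi`) and the hulls:
* (SQ)   `pvyk1SqO`, `pvyk1SqI` : the end link has a finite second moment in its OWN experiment (`pvueSq` of 141 at the base data of the configuration): TR2 is an identity between Bochner integrals.      TRUE at a.e. configuration.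
* (GEN)  `pvyk1Gen` : the GEOMETRY is generic (`pvbqGen` of 141) for the two windows of the pattern `pvilWno .. π.Zt`, `pvilWni .. π.Zs`: the soft objects `toMeasurable`, `AEMeasurable.mk` are junk on null sets, at ONE fixed `(Y, σ)` nothing can be said.
         COLOUR BLIND (a property of `cfSites η`), invariant under every splice in `C` (`pvbq_gen_Yc`), TRUE at a.e. geometry (`pvbq_gen_ae`, `pvbq_gen_up`) as soon as [MEAS] holds (`pvbq_ok_ae`).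
-/

set_option autoImplicit false

namespace Claimed.Agent.R289

open MeasureTheory Set Claims.C0465
open scoped ENNReal

section defs

variable {τ : Type} {c : ℝ} (𝔓 : PvxPar τ c) (𝔈 : PvieEng τ)

/-- **(SQ, first link)** finite second moment in the own experiment, at the base data of the configuration -/
def pvyk1SqO (m : ℕ) (ε : ℝ) (z : ℂ) (t : τ) : Set (Conf PvPt) :=
  {η | η ∈ pvueSq (𝔈.kit m ε) ε (pvilEoAt 𝔓 𝔈 m ε pvilQ z t η) (pvieZo 𝔓 m z t) ((𝔓.Γ m).dout t)}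

/-- **(SQ, last link)** -/
def pvyk1SqI (m : ℕ) (ε : ℝ) (z : ℂ) (t : τ) : Set (Conf PvPt) :=
  {η | η ∈ pvueSq (𝔈.kit m ε) ε (pvilEiAt 𝔓 𝔈 m ε pvilQ z t η) (pvieZi 𝔓 m z t) ((𝔓.Γ m).din t)}

/-- the plain value of the first link -/
noncomputable def pvyk1Fo (m : ℕ) (z : ℂ) (t : τ) : Conf PvPt → ℂ := (pvilLo 𝔓 𝔈 m z t).X 𝔓.num (𝔓.col t) pvilQ

/-- the plain value of the last link -/
noncomputable def pvyk1Fi (m : ℕ) (z : ℂ) (t : τ) : Conf PvPt → ℂ := (pvilLi 𝔓 𝔈 m z t).X 𝔓.num (𝔓.col t) pvilQ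

/-- the almost sure property of the first link at the hull `Z`: the measurable versions are the plain objects, the configuration is good -/
def pvyk1Po (m : ℕ) (ε : ℝ) (z : ℂ) (t : τ) (Z : Set (ℤ × ℤ)) (ζ : Conf PvPt) : Prop :=
  pvbqOk (pvP ε) (pvilMo 𝔓 𝔈 m ε z t Z ∩ {η | pvyk1Fo 𝔓 𝔈 m z t η = pvilLoc ε (pvilWno 𝔓 𝔈 m ε z t Z) (pvilMo 𝔓 𝔈 m ε z t Z) (pvyk1Fo 𝔓 𝔈 m z t) η})
    ((pvilMo 𝔓 𝔈 m ε z t Z).indicator (pvyk1Fo 𝔓 𝔈 m z t)) ζ ∧ PvqfGood ζ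

/-- the almost sure property of the last link at the hull `Z` -/
def pvyk1Pi (m : ℕ) (ε : ℝ) (z : ℂ) (t : τ) (Z : Set (ℤ × ℤ)) (ζ : Conf PvPt) : Prop :=
  pvbqOk (pvP ε) (pvilMi 𝔓 𝔈 m ε z t Z ∩ {η | pvyk1Fi 𝔓 𝔈 m z t η = pvilLoc ε (pvilWni 𝔓 𝔈 m ε z t Z) (pvilMi 𝔓 𝔈 m ε z t Z) (pvyk1Fi 𝔓 𝔈 m z t) η})
    ((pvilMi 𝔓 𝔈 m ε z t Z).indicator (pvyk1Fi 𝔓 𝔈 m z t)) ζ ∧ PvqfGood ζ

/-- **(GEN)** the geometry is generic for the two windows of the pattern, resampled region `C_c` -/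
def pvyk1Gen (m : ℕ) (π : PvxIx τ) (ε : ℝ) : Set (Conf PvPt) :=
  {η | pvbqGen ε (pvieCc 𝔓 𝔈 m ε π.p) (pvilWno 𝔓 𝔈 m ε π.p.zt π.p.tt (π.Zt : Set (ℤ × ℤ))) (pvyk1Po 𝔓 𝔈 m ε π.p.zt π.p.tt (π.Zt : Set (ℤ × ℤ))) (cfSites η) ∧
    pvbqGen ε (pvieCc 𝔓 𝔈 m ε π.p) (pvilWni 𝔓 𝔈 m ε π.p.zs π.p.ts (π.Zs : Set (ℤ × ℤ))) (pvyk1Pi 𝔓 𝔈 m ε π.p.zs π.p.ts (π.Zs : Set (ℤ × ℤ))) (cfSites η)}

/-- **WHAT THE GUARD OWES TO THE `Y` SIDE BESIDES `pvrgFo pvrgFi` AND THE HULLS** (actual configurations) -/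
def pvyk1Gd (m : ℕ) (π : PvxIx τ) (ε : ℝ) : Set (Conf PvPt) :=
  pvyk1SqO 𝔓 𝔈 m ε π.p.zt π.p.tt ∩ pvyk1SqI 𝔓 𝔈 m ε π.p.zs π.p.ts ∩ pvyk1Gen 𝔓 𝔈 m π ε

end defs

theorem pvyk1_eqns_cite : True := by
  have := @pvyk1SqO.eq_1; have := @pvyk1SqI.eq_1; have := @pvyk1Fo.eq_1; have := @pvyk1Fi.eq_1; have := @pvyk1Po.eq_1; have := @pvyk1Pi.eq_1; have := @pvyk1Gen.eq_1; have := @pvyk1Gd.eq_1
  trivial

end Claimed.Agent.R289
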