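import Claimed.Agent.R289.Exit.N1Stab
import Claimed.Agent.R289.Exit.N1Rd
import Claimed.Agent.R289.Tr.MeasL
import Claimed.Agent.R289.Tr.LinkMeas
import Claimed.Agent.R289.Tr.SqFin
import Claimed.Agent.R289.Tr.PatWinR
import Claimed.Agent.R289.Tr.FrcCarF
import Claimed.Agent.R289.Exit.ParBd
import Claimed.Agent.R289.Exit.N1YD

/-!
# Row 289 (S0537), THE WALL, ROAD E, file Exit/N1GenA : TWO LEAVES OF (S1') `pvn1z_stab` OF 107: [win] AND [Gen IS ALMOST SURE]      (helper121; split of 107 13:12Z; prefix `pvn1h_`)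

BELOW `Exit/N1All.lean` (never imports it).
* sec. 1  the tiles and the doors of the two end links lie in `C_c`: `pvn1h_oK_sub pvn1h_iK_sub pvn1h_Di_sub pvn1h_Do_sub` (empty word: the first door IS the last door, `PvtsGeo.Ok`)
* sec. 2  **[win]** `pvn1h_win_o`, `pvn1h_win_i` : `C_c ∩ Wn = (tile ∪ door) ∩ Wn` = the hypothesis `win` of `pvn1z_end_o / _i` of 107 (`⊆` = `pvn1y_win_o / _i` of 101), `pvn1h_win_o_reg / _i_reg` from the regions of record (148 `pvzu_simple_pat`, `pvzu_clear_pat`)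
* sec. 3  `Wn \ C_c` is bounded: `pvn1h_bdd_o`, `pvn1h_bdd_i`      (`PvieEng.Wf` has no bound on the tiles: `pvbq_gen_ae'` of 141 asks `Wn \ C` only)
* sec. 4  the property tested at the completions is almost sure: `pvn1h_Po_ae`, `pvn1h_Pi_ae`      ([MEAS] of 289 + `pvbq_ok_ae` of 141 + `pvqf_good_ae`)
* sec. 5  **[Gen a.s.]** `pvn1h_gen_geo` (a.e. geometry), `pvn1h_gen_law` (a.e. sample), **`pvn1h_gen_up`** : `(pvhbUp ε).P {p | ¬ pvn1zGen 𝔓 𝔈 m ε π (pvxY (pvMerge p))} = 0`, `pvn1h_gen_up_ev`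
* sec. 6  the other deterministic debts, any parameter: `pvn1h_clr_o _i` (the chain misses `Z⁺ ∩ box`), `pvn1h_y_o _i` (the mouth against the own tile and door), `pvn1h_di1`
* sec. 7  AT THE BINDERS OF RECORD `hE hR hm hπ` (Ana v4): `pvn1h_hb`, `pvn1h_mC`, `pvn1h_gen_rec` (= leaf `exit_pvn1a_gen` of N1All v2 of 136)      [the record `Pvn1zGc` of (S1) at the guard (c) is paid by 87, `Exit/N1Gc`: `pvn1gc_rec`];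
          `pvn1h_mem_gen` (`pvyk1Gen` of 214 = `pvn1zGen` of 107), `pvn1h_sq_o _i` (SQ of 193 at a.e. configuration), **`pvn1h_gd_rec`** `: ∀ᶠ ε, (pvhbUp ε).P {p | pvConf (pvMerge p) ∉ pvyk1Gd .. m π ε} = 0` (guard (c) of 170)
-/

set_option autoImplicit false
set_option linter.unusedVariables false
set_option linter.unusedSectionVars false

namespace Claimed.Agent.R289

open MeasureTheory Filter Topology Set Claims.C0465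
open scoped ENNReal

/-! ## 1. the tiles and the doors of the two end links lie in `C_c` -/

section tiles

variable {τ : Type} {c : ℝ} {𝔓 : PvxPar τ c} {𝔈 : PvieEng τ} {m : ℕ} {ε : ℝ} {π : PvtsPat τ}

theorem pvn1h_oK_sub : pvieSh π.zt (𝔈.oK m π.tt) ⊆ pvieCc 𝔓 𝔈 m ε π := fun w hw => ⟨_, by simp [pvieTiles], hw⟩

theorem pvn1h_iK_sub : pvieSh π.zs (𝔈.iK m π.ts) ⊆ pvieCc 𝔓 𝔈 m ε π := fun w hw => ⟨_, by simp [pvieTiles], hw⟩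

theorem pvn1h_Di_sub : pvieDoor 𝔈 m ε (pvieZi 𝔓 m π.zs π.ts) ((𝔓.Γ m).din π.ts) ⊆ pvieCc 𝔓 𝔈 m ε π := fun w hw => ⟨_, by simp [pvieTiles], hw⟩

/-- the first door of the chain is a tile (empty word: it is the last door) -/
theorem pvn1h_Do_sub (h : (𝔓.Γ m).Ok π) : pvieDoor 𝔈 m ε (pvieZo 𝔓 m π.zt π.tt) ((𝔓.Γ m).dout π.tt) ⊆ pvieCc 𝔓 𝔈 m ε π := by
  intro w hw
  by_cases hl : π.l = []
  · obtain ⟨h1, h2⟩ := h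
    rw [hl] at h1 h2
    have e1 : pvieZi 𝔓 m π.zs π.ts = pvieZo 𝔓 m π.zt π.tt := by
      have : (π.zs + (𝔓.Γ m).pin π.ts) - (π.zt + (𝔓.Γ m).pout π.tt) = 0 := by
        rw [← h1]
        simp [pvtDisp]
      exact sub_eq_zero.1 this
    have e2 : (𝔓.Γ m).din π.ts = (𝔓.Γ m).dout π.tt := by
      rw [← h2]
      simp [pvtDir]
    refine pvn1h_Di_sub ?_
    rw [e1, e2]
    exact hw
  · have hpos : 0 < π.l.length := List.length_pos_iff.2 hl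
    refine ⟨pvieDoor 𝔈 m ε (pvthZ (𝔈.kit m ε).δ (pvieZo 𝔓 m π.zt π.tt) ((𝔓.Γ m).dout π.tt) π.l 0) (pvthD ((𝔓.Γ m).dout π.tt) π.l 0), ?_, ?_⟩
    · unfold pvieTiles
      simp only [List.mem_append, List.mem_map, List.mem_range]
      exact Or.inl (Or.inr ⟨0, hpos, rfl⟩)
    · have e1 : pvthZ (𝔈.kit m ε).δ (pvieZo 𝔓 m π.zt π.tt) ((𝔓.Γ m).dout π.tt) π.l 0 = pvieZo 𝔓 m π.zt π.tt := by
        simp [pvthZ, pvtDisp]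
      have e2 : pvthD ((𝔓.Γ m).dout π.tt) π.l 0 = (𝔓.Γ m).dout π.tt := by
        simp [pvthD]
      rw [e1, e2]
      exact hw

end tiles

/-! ## 2. [win] -/

section win

variable {τ : Type} {c : ℝ} {𝔓 : PvxPar τ c} {𝔈 : PvieEng τ} {m : ℕ} {ε : ℝ} {π : PvxIx τ} {x : ℂ} {R : ℝ}

/-- **[win] OF THE FIRST LINK** = the hypothesis `win` of `pvn1z_end_o` of 107 at `C := pvieCc ..`, `Z := π.Zt` -/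
theorem pvn1h_win_o (hok : (𝔓.Γ m).Ok π.p) (hs : PvieSimple 𝔓 𝔈 m ε π.p)
    (hc : ∀ S ∈ pvieTiles 𝔓 𝔈 m ε π.p, Disjoint S (pvieSh π.p.zt (pviwBox 𝔓 m π.p.tt) ∩ pvtU (pvlmDel c m) (pvtN8 (↑π.Zs ∪ ↑π.Zt)))) :
    pvieCc 𝔓 𝔈 m ε π.p ∩ pvilWno 𝔓 𝔈 m ε π.p.zt π.p.tt ↑π.Zt =
      (pvieSh π.p.zt (𝔈.oK m π.p.tt) ∪ pvkyDoor (𝔈.kit m ε) (pvieZo 𝔓 m π.p.zt π.p.tt) ((𝔓.Γ m).dout π.p.tt)) ∩ pvilWno 𝔓 𝔈 m ε π.p.zt π.p.tt ↑π.Zt := by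
  refine Subset.antisymm (fun w hw => ⟨pvn1y_win_o hs hc hw, hw.2⟩) ?_
  rintro w ⟨h | h, h2⟩
  · exact ⟨pvn1h_oK_sub h, h2⟩
  · exact ⟨pvn1h_Do_sub hok h, h2⟩

/-- **[win] OF THE LAST LINK** = the hypothesis `win` of `pvn1z_end_i` of 107 at `C := pvieCc ..`, `Z := π.Zs` -/
theorem pvn1h_win_i (hs : PvieSimple 𝔓 𝔈 m ε π.p)
    (hc : ∀ S ∈ pvieTiles 𝔓 𝔈 m ε π.p, Disjoint S (pvieSh π.p.zs (pviwBox 𝔓 m π.p.ts) ∩ pvtU (pvlmDel c m) (pvtN8 (↑π.Zs ∪ ↑π.Zt)))) :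
    pvieCc 𝔓 𝔈 m ε π.p ∩ pvilWni 𝔓 𝔈 m ε π.p.zs π.p.ts ↑π.Zs =
      (pvieSh π.p.zs (𝔈.iK m π.p.ts) ∪ pvkyDoor (𝔈.kit m ε) (pvieZi 𝔓 m π.p.zs π.p.ts) ((𝔓.Γ m).din π.p.ts)) ∩ pvilWni 𝔓 𝔈 m ε π.p.zs π.p.ts ↑π.Zs := by
  refine Subset.antisymm (fun w hw => ⟨pvn1y_win_i hs hc hw, hw.2⟩) ?_
  rintro w ⟨h | h, h2⟩
  · exact ⟨pvn1h_iK_sub h, h2⟩
  · exact ⟨pvn1h_Di_sub h, h2⟩

/-- [win] of the first link FROM THE REGIONS OF RECORD (same hypotheses as `pvn1y_rd_reg` of 101; ALL `ε`) -/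
theorem pvn1h_win_o_reg (hW : 𝔓.Wf) (hE : PvnaWf 𝔓 𝔈) (hπ : π ∈ pvxPatSet 𝔓 x R m) (hL : PvegLev 𝔓 m) (hT : ∀ t, pviwTyOk 𝔓 t)
    (hoM : ∀ t, 𝔈.oM m t ⊆ pvegOM 𝔓 m t) (hoK : ∀ t, 𝔈.oK m t ⊆ pvegOK 𝔓 m t) (hiM : ∀ t, 𝔈.iM m t ⊆ pvegIM 𝔓 m t) (hiK : ∀ t, 𝔈.iK m t ⊆ pvegIK 𝔓 m t) (ε : ℝ) :
    pvieCc 𝔓 𝔈 m ε π.p ∩ pvilWno 𝔓 𝔈 m ε π.p.zt π.p.tt ↑π.Zt =
      (pvieSh π.p.zt (𝔈.oK m π.p.tt) ∪ pvkyDoor (𝔈.kit m ε) (pvieZo 𝔓 m π.p.zt π.p.tt) ((𝔓.Γ m).dout π.p.tt)) ∩ pvilWno 𝔓 𝔈 m ε π.p.zt π.p.tt ↑π.Zt := by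
  obtain ⟨Cth, r', κs, H⟩ := hE.wf
  exact pvn1h_win_o hπ.1.1 (pvzu_simple_pat hW.toWfB hL hT (H.kit_ref m ε) (H.kit_del m ε) hoM hoK hiM hiK hπ)
    fun S hS => (pvzu_clear_pat hW.toWfB hL hT (H.kit_ref m ε) (H.kit_del m ε) hoK hiK hπ S hS).1

/-- [win] of the last link FROM THE REGIONS OF RECORD -/
theorem pvn1h_win_i_reg (hW : 𝔓.Wf) (hE : PvnaWf 𝔓 𝔈) (hπ : π ∈ pvxPatSet 𝔓 x R m) (hL : PvegLev 𝔓 m) (hT : ∀ t, pviwTyOk 𝔓 t)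
    (hoM : ∀ t, 𝔈.oM m t ⊆ pvegOM 𝔓 m t) (hoK : ∀ t, 𝔈.oK m t ⊆ pvegOK 𝔓 m t) (hiM : ∀ t, 𝔈.iM m t ⊆ pvegIM 𝔓 m t) (hiK : ∀ t, 𝔈.iK m t ⊆ pvegIK 𝔓 m t) (ε : ℝ) :
    pvieCc 𝔓 𝔈 m ε π.p ∩ pvilWni 𝔓 𝔈 m ε π.p.zs π.p.ts ↑π.Zs =
      (pvieSh π.p.zs (𝔈.iK m π.p.ts) ∪ pvkyDoor (𝔈.kit m ε) (pvieZi 𝔓 m π.p.zs π.p.ts) ((𝔓.Γ m).din π.p.ts)) ∩ pvilWni 𝔓 𝔈 m ε π.p.zs π.p.ts ↑π.Zs := by
  obtain ⟨Cth, r', κs, H⟩ := hE.wf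
  exact pvn1h_win_i (pvzu_simple_pat hW.toWfB hL hT (H.kit_ref m ε) (H.kit_del m ε) hoM hoK hiM hiK hπ)
    fun S hS => (pvzu_clear_pat hW.toWfB hL hT (H.kit_ref m ε) (H.kit_del m ε) hoK hiK hπ S hS).2

end win

/-! ## 3. `Wn \ C_c` is bounded -/

section bdd

variable {τ : Type} {c : ℝ} {𝔓 : PvxPar τ c} {𝔈 : PvieEng τ} {m : ℕ} {ε : ℝ} {π : PvtsPat τ}

theorem pvn1h_bdd_o (hok : (𝔓.Γ m).Ok π) (bM : Bornology.IsBounded (𝔈.oM m π.tt)) (Z : Set (ℤ × ℤ)) : Bornology.IsBounded (pvilWno 𝔓 𝔈 m ε π.zt π.tt Z \ pvieCc 𝔓 𝔈 m ε π) := by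
  refine ((pvsv_Wz_bdd 𝔓 m π.zt π.tt Z).union (pvsv_sh_bdd π.zt bM)).subset ?_
  rintro w ⟨((h | h) | h) | h, h2⟩
  · exact Or.inl h
  · exact Or.inr h
  · exact absurd (pvn1h_oK_sub h) h2
  · exact absurd (pvn1h_Do_sub hok h) h2

theorem pvn1h_bdd_i (bM : Bornology.IsBounded (𝔈.iM m π.ts)) (Z : Set (ℤ × ℤ)) : Bornology.IsBounded (pvilWni 𝔓 𝔈 m ε π.zs π.ts Z \ pvieCc 𝔓 𝔈 m ε π) := by
  refine ((pvsv_Wz_bdd 𝔓 m π.zs π.ts Z).union (pvsv_sh_bdd π.zs bM)).subset ?_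
  rintro w ⟨((h | h) | h) | h, h2⟩
  · exact Or.inl h
  · exact Or.inr h
  · exact absurd (pvn1h_iK_sub h) h2
  · exact absurd (pvn1h_Di_sub h) h2

end bdd

/-! ## 4. the property tested at the completions is almost sure -/

section ae

variable {τ : Type} {c : ℝ} {𝔓 : PvxPar τ c} {𝔈 : PvieEng τ} {ε : ℝ} {w : ∀ η : Conf PvPt, (delbPl (pvieY η)).Dart → ℂ}

theorem pvn1h_Po_ae (h𝔓 : 𝔓.WfB) (H : PvmlEngB 𝔈) (hε : 0 < ε) (hw : PvmlWm w) (m : ℕ) (z : ℂ) (t : τ) (Z : Set (ℤ × ℤ)) (hW : MeasurableSet (pvilWno 𝔓 𝔈 m ε z t Z)) :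
    ∀ᵐ ζ ∂pvP ε, pvn1zPo 𝔓 𝔈 m ε w z t Z ζ :=
  (pvbq_ok_ae (pvml_SAo_null h𝔓 H hε hw m z t Z hW) (pvml_IXo_aem h𝔓 H hε hw m z t Z)).and (pvqf_good_ae ε hε.ne')

theorem pvn1h_Pi_ae (h𝔓 : 𝔓.WfB) (H : PvmlEngB 𝔈) (hε : 0 < ε) (hw : PvmlWm w) (m : ℕ) (z : ℂ) (t : τ) (Z : Set (ℤ × ℤ)) (hW : MeasurableSet (pvilWni 𝔓 𝔈 m ε z t Z)) :
    ∀ᵐ ζ ∂pvP ε, pvn1zPi 𝔓 𝔈 m ε w z t Z ζ :=
  (pvbq_ok_ae (pvml_SAi_null h𝔓 H hε hw m z t Z hW) (pvml_IXi_aem h𝔓 H hε hw m z t Z)).and (pvqf_good_ae ε hε.ne')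

end ae

/-! ## 5. [Gen a.s.] -/

section gen

variable {τ : Type} {c : ℝ} {𝔓 : PvxPar τ c} {𝔈 : PvieEng τ} {m : ℕ} {ε : ℝ} {π : PvxIx τ} {x : ℂ} {R : ℝ}

/-- **ALMOST EVERY GEOMETRY IS GENERIC FOR THE PATTERN `π`**, one mesh `ε > 0` -/
theorem pvn1h_gen_geo (hW : 𝔓.Wf) (hE : PvnaWf 𝔓 𝔈) (hm : 𝔓.m0 ≤ m) (hok : (𝔓.Γ m).Ok π.p) (hTt : pviwTyOk 𝔓 π.p.tt) (hTs : pviwTyOk 𝔓 π.p.ts) (hε : 0 < ε)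
    (mO : MeasurableSet (𝔈.kit m ε).O₀) (mC : MeasurableSet (pvieCc 𝔓 𝔈 m ε π.p)) : ∀ᵐ g ∂(pvGeo ε), pvn1zGen 𝔓 𝔈 m ε π (pvgSites g) := by
  obtain ⟨Cth, r', κs, H⟩ := hE.wf
  have m1 := pvzi2_mWno H mO π.p.zt π.p.tt (↑π.Zt : Set (ℤ × ℤ))
  have m2 := pvzi2_mWni H mO π.p.zs π.p.ts (↑π.Zs : Set (ℤ × ℤ))
  exact (pvbq_gen_ae' ε mC m1 (pvn1h_bdd_o hok (Metric.isBounded_closedBall.subset (H.oM_cen m hm _ hTt)) _) (pvn1h_Po_ae hW.toWfB (pvml_engB H) hε pvml_wm_Q m _ _ _ m1)).and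
    (pvbq_gen_ae' ε mC m2 (pvn1h_bdd_i (Metric.isBounded_closedBall.subset (H.iM_cen m hm _ hTs)) _) (pvn1h_Pi_ae hW.toWfB (pvml_engB H) hε pvml_wm_Q m _ _ _ m2))

/-- a.e. sample -/
theorem pvn1h_gen_law (hW : 𝔓.Wf) (hE : PvnaWf 𝔓 𝔈) (hm : 𝔓.m0 ≤ m) (hok : (𝔓.Γ m).Ok π.p) (hTt : pviwTyOk 𝔓 π.p.tt) (hTs : pviwTyOk 𝔓 π.p.ts) (hε : 0 < ε)
    (mO : MeasurableSet (𝔈.kit m ε).O₀) (mC : MeasurableSet (pvieCc 𝔓 𝔈 m ε π.p)) : ∀ᵐ ω ∂(pvLaw ε), pvn1zGen 𝔓 𝔈 m ε π (pvxY ω) :=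
  pvbq_geo_law ε (Φ := pvn1zGen 𝔓 𝔈 m ε π) (pvn1h_gen_geo hW hE hm hok hTt hTs hε mO mC)

/-- **[Gen a.s.] IN THE FORM OF `pvn1a_bad`**: the new conjunct of `pvn1aGam` costs nothing -/
theorem pvn1h_gen_up (hW : 𝔓.Wf) (hE : PvnaWf 𝔓 𝔈) (hm : 𝔓.m0 ≤ m) (hok : (𝔓.Γ m).Ok π.p) (hTt : pviwTyOk 𝔓 π.p.tt) (hTs : pviwTyOk 𝔓 π.p.ts) (hε : 0 < ε)
    (mO : MeasurableSet (𝔈.kit m ε).O₀) (mC : MeasurableSet (pvieCc 𝔓 𝔈 m ε π.p)) : (pvhbUp ε).P {p | ¬ pvn1zGen 𝔓 𝔈 m ε π (pvxY (pvMerge p))} = 0 :=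
  pvbq_geo_up ε (Φ := pvn1zGen 𝔓 𝔈 m ε π) (pvn1h_gen_geo hW hE hm hok hTt hTs hε mO mC)

/-- the same for small `ε`, at a pattern of the patch (`mC` = `pvn1a_mC` of 159) -/
theorem pvn1h_gen_up_ev (hW : 𝔓.Wf) (hE : PvnaWf 𝔓 𝔈) (hm : 𝔓.m0 ≤ m) (hπ : π ∈ pvxPatSet 𝔓 x R m) (hT : ∀ t, pviwTyOk 𝔓 t)
    (mC : ∀ᶠ ε in 𝓝[>] (0 : ℝ), MeasurableSet (pvieCc 𝔓 𝔈 m ε π.p)) : ∀ᶠ ε in 𝓝[>] (0 : ℝ), (pvhbUp ε).P {p | ¬ pvn1zGen 𝔓 𝔈 m ε π (pvxY (pvMerge p))} = 0 := by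
  filter_upwards [mC, pvn1y_kit_wf hE m, self_mem_nhdsWithin] with ε h1 h2 h3
  exact pvn1h_gen_up hW hE hm hπ.1.1 (hT _) (hT _) h3 h2.mO h1

end gen

/-! ## 6. the other deterministic debts of (S1') -/

section debts

variable {τ : Type} {c : ℝ} {𝔓 : PvxPar τ c} {𝔈 : PvieEng τ} {m m0 : ℕ} {ε Cth : ℝ} {r κs : ℕ → ℝ} {π : PvxIx τ} {x : ℂ} {R : ℝ}

theorem pvn1h_clr_o (hc : ∀ S ∈ pvieTiles 𝔓 𝔈 m ε π.p, Disjoint S (pvieSh π.p.zt (pviwBox 𝔓 m π.p.tt) ∩ pvtU (pvlmDel c m) (pvtN8 (↑π.Zs ∪ ↑π.Zt)))) :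
    Disjoint (pvieCc 𝔓 𝔈 m ε π.p) (pvilWz 𝔓 m π.p.zt π.p.tt ↑π.Zt) := by
  rw [Set.disjoint_left]
  rintro w ⟨S, hS, hw⟩ h
  exact disjoint_left.1 (hc S hS) hw ⟨pvn1y_bx_sub 𝔓 m _ _ h.2, pvt_U_mono (pvt_N8_mono subset_union_right) h.1⟩

theorem pvn1h_clr_i (hc : ∀ S ∈ pvieTiles 𝔓 𝔈 m ε π.p, Disjoint S (pvieSh π.p.zs (pviwBox 𝔓 m π.p.ts) ∩ pvtU (pvlmDel c m) (pvtN8 (↑π.Zs ∪ ↑π.Zt)))) :
    Disjoint (pvieCc 𝔓 𝔈 m ε π.p) (pvilWz 𝔓 m π.p.zs π.p.ts ↑π.Zs) := by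
  rw [Set.disjoint_left]
  rintro w ⟨S, hS, hw⟩ h
  exact disjoint_left.1 (hc S hS) hw ⟨pvn1y_bx_sub 𝔓 m _ _ h.2, pvt_U_mono (pvt_N8_mono subset_union_left) h.1⟩

/-- the exit mouth misses the own tile and the own door -/
theorem pvn1h_y_o (H : PvieEng.Wf 𝔓 𝔈 m0 Cth r κs) (hm : m0 ≤ m) (ε : ℝ) (z : ℂ) {t : τ} (ht : pviwTyOk 𝔓 t) :
    Disjoint (pvieSh z (𝔈.oM m t)) (pvieSh z (𝔈.oK m t) ∪ pvkyDoor (𝔈.kit m ε) (pvieZo 𝔓 m z t) ((𝔓.Γ m).dout t)) := by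
  have hd := H.o_disj m hm ε t ht
  simp only [List.pairwise_cons, List.mem_cons, List.not_mem_nil, or_false, forall_eq_or_imp, forall_eq] at hd
  refine Disjoint.union_right (pvzi2_sh_disj z hd.1.1) ?_
  have h2 := pvzi2_sh_disj z hd.1.2
  unfold pviwDo at h2
  rw [pvzi2_sh_door] at h2
  exact h2

/-- the entrance mouth misses the own tile and the own door -/
theorem pvn1h_y_i (H : PvieEng.Wf 𝔓 𝔈 m0 Cth r κs) (hm : m0 ≤ m) (ε : ℝ) (z : ℂ) {t : τ} (ht : pviwTyOk 𝔓 t) :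
    Disjoint (pvieSh z (𝔈.iM m t)) (pvieSh z (𝔈.iK m t) ∪ pvkyDoor (𝔈.kit m ε) (pvieZi 𝔓 m z t) ((𝔓.Γ m).din t)) := by
  have hd := H.i_disj m hm ε t ht
  simp only [List.pairwise_cons, List.mem_cons, List.not_mem_nil, or_false, forall_eq_or_imp, forall_eq] at hd
  refine Disjoint.union_right (pvzi2_sh_disj z hd.1.1) ?_
  have h2 := pvzi2_sh_disj z hd.1.2
  unfold pviwDi at h2
  rw [pvzi2_sh_door] at h2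
  exact h2

theorem pvn1h_di1 {p : PvtsPat τ} (h : (𝔓.Γ m).Ok p) : ‖(𝔓.Γ m).din p.ts‖ = 1 := by
  have h1 := pvt_norm_dir ((𝔓.Γ m).dout p.tt) p.l
  rw [h.2, (𝔓.Γ m).dout1] at h1
  exact h1

end debts

/-! ## 7. at the binders of record -/

section record

variable {c : ℝ} {N : PvxNums} {hN : N.Ok} {𝔈 : PvieEng (pvxTau N)} {m : ℕ} {ε : ℝ} {x : ℂ} {R : ℝ} {π : PvxIx (pvxTau N)}

theorem pvn1h_hb (N : PvxNums) (hN : N.Ok) (c : ℝ) (m : ℕ) (t : pvxTau N) : ((pvxParOf N hN c).ty t).b * pvlmH m ≤ pviwRad (pvxParOf N hN c) m t :=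
  pvjv_carf_hb (pvxParOf N hN c) (pvxo_wf N hN c).toWfB (fun t => by
    show N.b1 ≤ 2 * N.b2
    linarith [hN.gap, hN.ab2, hN.b2_pos]) m t

/-- the resampled region of the chain is Borel -/
theorem pvn1h_mC {τ : Type} {𝔓 : PvxPar τ c} {𝔈 : PvieEng τ} {m0 : ℕ} {Cth : ℝ} {r κs : ℕ → ℝ} (H : PvieEng.Wf 𝔓 𝔈 m0 Cth r κs) {m : ℕ} {ε : ℝ} (hk : (𝔈.kit m ε).WF) (p : PvtsPat τ) :
    MeasurableSet (pvieCc 𝔓 𝔈 m ε p) := by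
  have e : pvieCc 𝔓 𝔈 m ε p = ⋃ S ∈ {S | S ∈ pvieTiles 𝔓 𝔈 m ε p}, S := by
    ext w
    simp only [pvieCc, mem_ofPred_eq, mem_iUnion, exists_prop]
  rw [e]
  refine MeasurableSet.biUnion (List.finite_toSet _).countable fun S hS => ?_
  have hS' : S ∈ pvieTiles 𝔓 𝔈 m ε p := hS
  unfold pvieTiles at hS'
  simp only [List.mem_append, List.mem_cons, List.not_mem_nil, or_false, List.mem_map, List.mem_range] at hS'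
  rcases hS' with ((rfl | rfl | rfl) | ⟨j, -, rfl⟩) | ⟨j, -, rfl⟩
  · exact pvzi2_sh _ (H.m_oK m _)
  · exact pvzi2_sh _ (H.m_iK m _)
  · exact pvzi2_door 𝔈 hk.mO _ _
  · exact pvzi2_door 𝔈 hk.mO _ _
  · exact pvzi2_sim _ _ (hk.mK _)

/-- **[Gen a.s.] AT THE BINDERS OF RECORD** = the leaf `exit_pvn1a_gen` of N1All v2 (136) -/
theorem pvn1h_gen_rec (hE : PvnaWf (pvxParOf N hN c) 𝔈) (hm : (pvxParOf N hN c).m0 ≤ m) (hπ : π ∈ pvxPatSet (pvxParOf N hN c) x R m) :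
    ∀ᶠ ε in 𝓝[>] (0 : ℝ), (pvhbUp ε).P {p | ¬ pvn1zGen (pvxParOf N hN c) 𝔈 m ε π (pvxY (pvMerge p))} = 0 := by
  obtain ⟨Cth, r, κs, H⟩ := hE.wf
  exact pvn1h_gen_up_ev (pvxo_wf N hN c) hE hm hπ (pvqh_tyOk hN c) ((pvn1y_kit_wf hE m).mono fun _ hk => pvn1h_mC H hk _)

/-- `pvyk1Gen` of 214 IS `pvn1zGen` of 107 -/
theorem pvn1h_mem_gen {τ : Type} (𝔓 : PvxPar τ c) (𝔈 : PvieEng τ) (m : ℕ) (π : PvxIx τ) (ε : ℝ) (η : Conf PvPt) : η ∈ pvyk1Gen 𝔓 𝔈 m π ε ↔ pvn1zGen 𝔓 𝔈 m ε π (cfSites η) := Iff.rfl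

theorem pvn1h_sq_o_mem {τ : Type} {𝔓 : PvxPar τ c} {𝔈 : PvieEng τ} {m : ℕ} {ε : ℝ} (z : ℂ) {t : τ} (η : Conf PvPt) (h2 : PvqfGood η)
    (h1 : ∀ (σ : ℂ → Bool) (Z : Set (ℤ × ℤ)) (F : Set ℂ), cfOf (cfSites η) σ ∈ pvueSq (𝔈.kit m ε) ε (pvilEo 𝔓 𝔈 m ε pvilQ z t Z F) (pvieZo 𝔓 m z t) ((𝔓.Γ m).dout t)) :
    η ∈ pvyk1SqO 𝔓 𝔈 m ε z t := by
  have h3 := h1 (cfCol η) (pvilZo 𝔓 m z t η) (pvilFo 𝔓 m z t η)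
  rw [pvn1a_cfOf_self h2.one] at h3
  unfold pvyk1SqO
  rw [mem_ofPred_eq]
  unfold pvilEoAt
  exact h3

theorem pvn1h_sq_i_mem {τ : Type} {𝔓 : PvxPar τ c} {𝔈 : PvieEng τ} {m : ℕ} {ε : ℝ} (z : ℂ) {t : τ} (η : Conf PvPt) (h2 : PvqfGood η)
    (h1 : ∀ (σ : ℂ → Bool) (Z : Set (ℤ × ℤ)) (F : Set ℂ), cfOf (cfSites η) σ ∈ pvueSq (𝔈.kit m ε) ε (pvilEi 𝔓 𝔈 m ε pvilQ z t Z F) (pvieZi 𝔓 m z t) ((𝔓.Γ m).din t)) :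
    η ∈ pvyk1SqI 𝔓 𝔈 m ε z t := by
  have h3 := h1 (cfCol η) (pvilZi 𝔓 m z t η) (pvilFi 𝔓 m z t η)
  rw [pvn1a_cfOf_self h2.one] at h3
  unfold pvyk1SqI
  rw [mem_ofPred_eq]
  unfold pvilEiAt
  exact h3

/-- (SQ) of the first link at almost every configuration -/
theorem pvn1h_sq_o {τ : Type} {𝔓 : PvxPar τ c} {𝔈 : PvieEng τ} {m0 : ℕ} {Cth : ℝ} {r κs : ℕ → ℝ} (H : PvieEng.Wf 𝔓 𝔈 m0 Cth r κs) (B : PvbdEng 𝔈) {m : ℕ} {ε : ℝ} (hε : 0 < ε) (hk : (𝔈.kit m ε).WF)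
    (z : ℂ) {t : τ} (hd : (𝔓.Γ m).dout t ≠ 0) : ∀ᵐ η ∂pvP ε, η ∈ pvyk1SqO 𝔓 𝔈 m ε z t :=
  ((pvsv_rg_o 𝔓 𝔈 (w := pvilQ) (z := z) (Or.inl rfl) (B.oY m t) (B.oM m t) (B.oK m t) (B.O₀ m ε) (H.m_oM m t) (H.m_oK m t) hk.mO hd).and (pvqf_good_ae ε hε.ne')).mono
    fun η h => pvn1h_sq_o_mem z η h.2 h.1

/-- (SQ) of the last link at almost every configuration -/
theorem pvn1h_sq_i {τ : Type} {𝔓 : PvxPar τ c} {𝔈 : PvieEng τ} {m0 : ℕ} {Cth : ℝ} {r κs : ℕ → ℝ} (H : PvieEng.Wf 𝔓 𝔈 m0 Cth r κs) (B : PvbdEng 𝔈) {m : ℕ} {ε : ℝ} (hε : 0 < ε) (hk : (𝔈.kit m ε).WF)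
    (z : ℂ) {t : τ} (hd : (𝔓.Γ m).din t ≠ 0) : ∀ᵐ η ∂pvP ε, η ∈ pvyk1SqI 𝔓 𝔈 m ε z t :=
  ((pvsv_rg_i 𝔓 𝔈 (w := pvilQ) (z := z) (Or.inl rfl) (B.iY m t) (B.iM m t) (B.iK m t) (B.O₀ m ε) (H.m_iM m t) (H.m_iK m t) hk.mO hd).and (pvqf_good_ae ε hε.ne')).mono
    fun η h => pvn1h_sq_i_mem z η h.2 h.1

/-- **THE CLAUSE `pvyk1Gd` OF THE GUARD (c) OF 170 COSTS NOTHING** -/
theorem pvn1h_gd_rec (hE : PvnaWf (pvxParOf N hN c) 𝔈) (hR : PvnaRec N hN c 𝔈) (hm : (pvxParOf N hN c).m0 ≤ m) (hπ : π ∈ pvxPatSet (pvxParOf N hN c) x R m) :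
    ∀ᶠ ε in 𝓝[>] (0 : ℝ), (pvhbUp ε).P {p | pvConf (pvMerge p) ∉ pvyk1Gd (pvxParOf N hN c) 𝔈 m π ε} = 0 := by
  obtain ⟨Cth, r, κs, H⟩ := hE.wf
  have B := pvbd_of_rec hR
  have hdo : ((pvxParOf N hN c).Γ m).dout π.p.tt ≠ 0 := fun h => by
    have := ((pvxParOf N hN c).Γ m).dout1 π.p.tt
    rw [h, norm_zero] at this
    exact zero_ne_one this
  have hdi : ((pvxParOf N hN c).Γ m).din π.p.ts ≠ 0 := fun h => by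
    have := pvn1h_di1 hπ.1.1
    rw [h, norm_zero] at this
    exact zero_ne_one this
  filter_upwards [pvn1h_gen_rec hE hm hπ, pvn1y_kit_wf hE m, self_mem_nhdsWithin] with ε h1 hk hε
  have h2 : (pvhbUp ε).P {p | pvConf (pvMerge p) ∈ (pvyk1SqO (pvxParOf N hN c) 𝔈 m ε π.p.zt π.p.tt)ᶜ} = 0 :=
    le_antisymm ((pvhb_up_P_conf ε _).trans (le_of_eq (ae_iff.1 (pvn1h_sq_o H B hε hk π.p.zt hdo)))) zero_le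
  have h3 : (pvhbUp ε).P {p | pvConf (pvMerge p) ∈ (pvyk1SqI (pvxParOf N hN c) 𝔈 m ε π.p.zs π.p.ts)ᶜ} = 0 :=
    le_antisymm ((pvhb_up_P_conf ε _).trans (le_of_eq (ae_iff.1 (pvn1h_sq_i H B hε hk π.p.zs hdi)))) zero_le
  have hsub : {p | pvConf (pvMerge p) ∉ pvyk1Gd (pvxParOf N hN c) 𝔈 m π ε} ⊆
      ({p | pvConf (pvMerge p) ∈ (pvyk1SqO (pvxParOf N hN c) 𝔈 m ε π.p.zt π.p.tt)ᶜ} ∪ {p | pvConf (pvMerge p) ∈ (pvyk1SqI (pvxParOf N hN c) 𝔈 m ε π.p.zs π.p.ts)ᶜ}) ∪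
        {p | ¬ pvn1zGen (pvxParOf N hN c) 𝔈 m ε π (pvxY (pvMerge p))} := by
    intro p hp
    by_cases g1 : pvConf (pvMerge p) ∈ pvyk1SqO (pvxParOf N hN c) 𝔈 m ε π.p.zt π.p.tt
    · by_cases g2 : pvConf (pvMerge p) ∈ pvyk1SqI (pvxParOf N hN c) 𝔈 m ε π.p.zs π.p.ts
      · exact Or.inr fun g3 => hp ⟨⟨g1, g2⟩, (pvn1h_mem_gen _ _ _ _ _ _).2 g3⟩
      · exact Or.inl (Or.inr g2)
    · exact Or.inl (Or.inl g1)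
  refine le_antisymm ?_ zero_le
  calc (pvhbUp ε).P {p | pvConf (pvMerge p) ∉ pvyk1Gd (pvxParOf N hN c) 𝔈 m π ε} ≤ _ := (pvhbUp ε).P_mono hsub
    _ ≤ _ := (pvhbUp ε).P_union_le _ _
    _ ≤ _ := add_le_add ((pvhbUp ε).P_union_le _ _) le_rfl
    _ = 0 := by rw [h1, h2, h3]; simp

end record

end Claimed.Agent.R289
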