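import Claimed.Agent.R289.Exit.AnaDefs
import Claimed.Agent.R289.Exit.N1Guard
import Claimed.Agent.R289.Defs.GdReg
import Claimed.Agent.R289.Tr.Blind
import Claimed.Agent.R289.Tr.AtUniq
import Claimed.Agent.R289.Tr.BlindP

/-!
# Row 289 (S0537), THE WALL, ROAD E, file Exit/N1Stab : (S1) THE GUARD DOES NOT READ THE COLOURS OFF THE FROZEN SITES OF A DATUM      (helper107; prefix `pvn1z_`, `pvn1z`, `Pvn1z`)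

BELOW `Exit/N1All.lean` (159): that file imports this one.      (S1) AS TYPED IN N1All v0 IS OUT OF REACH (208 id 92602 = FLAG BLIND of 141): the soft events are versions, at ONE geometry nothing can be said.   CURE: fifth clause `Gen` (generic geometry of 141, colour blind).
* sec. 1  the half states and the base data ON A FIXED SITE SET `Y` (no dependent types in the colouring): `Pvn1zOut Pvn1zIn`, `pvn1zFo Fi Zo Zi`;   `pvn1z_out_iff`, `pvn1z_Fo_eq ..` (`= pvilFzO ..` at `pvieY η`, `pvieCol η b`), `pvn1z_transport`.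
* sec. 2  `pvn1z_out_recol`, `pvn1z_in_recol`: ANY carrier `𝔗` of `AtOut` / `AtIn` at `s`, `s' = s` on its frozen sites ⟹ the SAME carriers of `PvilOut` / `PvilIn` at `s'` (uniqueness of 150 + cylinders of `Tr/StKit`);   `pvn1z_Fo_recol ..`, `pvn1z_Fo_sub`.
* sec. 3  `pvn1z_fl_cf` : `pvxnFl b (pvn1aCf Y σ) = cfOf Y (pvn1zC b Y σ)`;   `pvn1z_Fo_cf ..` : base data of that configuration `=` the fixed-site-set forms at `σ`.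
* sec. 4  **`pvn1z_base`** : `𝔇.Ok`, `σ ∈ Cyl`, `σ' = σ` on `fzY(D)` ⟹ `Fo Zo Fi Zi` of `pvxnFl b (pvn1aCf Y σ')` = those of `σ`.      `pvn1z_Fo_dat`, `pvn1z_Fi_dat` (`F ⊆` frozen sites of the datum).
* sec. 5  MODEL FREE **`pvn1z_forced`** : a blind end (`PvbqEnd` of 141) is forced (`pvueForced` = `pvrgEnd`) at `cfOf Y σ` iff at `cfOf Y σ'`.
* sec. 6  **`pvn1zGen 𝔓 𝔈 m ε π Y`** = THE FIFTH CLAUSE (`pvbqGen` of 141 at `C = pvieCc`, the two windows at the hulls `π.Zt`, `π.Zs`; tested property `pvn1zPo`, `pvn1zPi` = `pvbqOk` of the versions under `pvilSA` / `pvilLoc` + `PvqfGood`);   `pvn1z_gen_Yc` (rd: free).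
* sec. 7  `pvn1z_end_o`, `pvn1z_end_i` : `PvbqEnd` at `pvilEo` / `pvilEi` from [Z finite, window Borel, win, Gen, `PvbqPlain`];   `pvn1z_rA_o ..`;   `pvn1z_end_forced`, `pvn1z_mem_Fo`, `pvn1z_mem_Fi` (`pvrgFo` / `pvrgFi` of 256 = `pvueForced` of 141; NOT by `Iff.rfl`: the kernel times out).
* sec. 8  (FZ) FROM THE MESH OF THE BASE IN `Wz(Z) = Z⁺ ∩ box` ALONE + **(D) `Pvn1zD 𝔓 m z t μ Z`** (gate disc with collar `μ` inside `Wz(Z)`: a property of the INDEX): `pvn1z_fz_o/_i` (`pvfc7_out_hull` of 71 at `E := Wz`), **`pvn1z_pl_o/_i`** = `PvbqPlain` at the model (`pvbw_pl_o_wf` of 197 + (FZ)).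
          WHY NOT THE MESH OF THE WHOLE BOX (`pvbw_pl_o_top`): the chain of a pattern may cross the own-level box off `Z⁺` (`PvfeLk` keeps it off the hull cells only): that clause is NOT invariant under the resampling of `C`: (S2) would fail.
* sec. 9  **`pvn1zGn 𝔓 𝔈 m π ε Y`** = ALL THE COLOUR BLIND CLAUSES = `pvn1zGen` + mesh `δ_m/3` in `Wz(π.Zt)`, `Wz(π.Zs)` + (D) at the two pins;   `pvn1zS` = the guard v3 (4 clauses of 159 + `pvn1zGn`);   `Pvn1zGeo` = THE DETERMINISTIC DEBTS;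
          **`pvn1z_gn_Yc`** (rd), `Pvn1zGeo.plain_o/_i`, **`Pvn1zGeo.end_o/_i`** (the two `PvbqEnd` at a base of the guard), **`pvn1z_stab_cl`** (clause form), **`pvn1z_stab`** = (S1'), PROVED: no hypothesis on plain blindness is left.
* sec. 10 (fit) `pvn1z_D_core` (geometry), **`pvn1z_D_o/_i`** ((D) holds at the hull of a carried half state on the certificate `pvrgB` of the box), `pvn1z_mesh_Wz`, **`pvn1z_gn_of`** : Gen + `pvrgB` at the two pins + the two half states with the hulls of the index ⟹ `pvn1zGn`.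
-/

set_option autoImplicit false
set_option linter.unusedVariables false
set_option linter.unusedSectionVars false

namespace Claimed.Agent.R289

open MeasureTheory Filter Topology Set Claims.C0465
open scoped ENNReal ComplexConjugate

/-! ## 1. the half states and the base data ON A FIXED SITE SET -/

/-- `PvilOut` on the fixed site set `Y`, colouring `s` (already in the vocabulary of the rim) -/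
structure Pvn1zOut (N : PvwNum) (p : PvilPl) (Y : Set ℂ) (s : ↥Y → Bool) (𝔖 : PvwSt (delbPl Y).toMap) : Prop where
  good : DelGood Y
  st : 𝔖.AtOut (fun v : ↥Y => conj p.fr * (v : ℂ)) N p.h p.zf p.ty s
  tip : (((delbPl Y).toMap.src (𝔖.ep 𝔖.np) : ↥Y) : ℂ) ∈ p.cp
  mask : ∀ y : (delbPl Y).toMap.Pth, PvwLE (delbPl Y).toMap (fun i => (delbPl Y).toMap.src (𝔖.ep i)) 𝔖.np y → ∀ v ∈ y.verts, ((v : ↥Y) : ℂ) ∈ p.Mp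
  mask_i : ∀ i, 𝔖.ip ≤ i → i ≤ 𝔖.inn.n → (N.m - 1) * p.h < ‖((𝔖.inn.v i : ↥Y) : ℂ) - p.z‖ → ((𝔖.inn.v i : ↥Y) : ℂ) ∈ p.Mp
  lev0 : p.lev

/-- `PvilIn` on the fixed site set `Y` -/
structure Pvn1zIn (N : PvwNum) (p : PvilPl) (Y : Set ℂ) (s : ↥Y → Bool) (𝔖 : PvwSt (delbPl Y).toMap) : Prop where
  good : DelGood Y
  st : 𝔖.AtIn (fun v : ↥Y => conj p.fr * (v : ℂ)) N p.h p.zf p.ty s
  tip : (((delbPl Y).toMap.src (𝔖.em 𝔖.nm) : ↥Y) : ℂ) ∈ p.cm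
  mask : ∀ y : (delbPl Y).toMap.Pth, PvwLE (delbPl Y).toMap (fun i => (delbPl Y).toMap.src (𝔖.em i)) 𝔖.nm y → ∀ v ∈ y.verts, ((v : ↥Y) : ℂ) ∈ p.Mm
  mask_i : ∀ i, i ≤ 𝔖.ip → (N.m - 1) * p.h < ‖((𝔖.inn.v i : ↥Y) : ℂ) - p.z‖ → ((𝔖.inn.v i : ↥Y) : ℂ) ∈ p.Mm
  lev0 : p.lev

theorem pvn1z_out_iff (N : PvwNum) (b : Bool) (p : PvilPl) (η : Conf PvPt) (𝔖 : PvwSt (pvieT η)) : PvilOut N b p η 𝔖 ↔ Pvn1zOut N p (pvieY η) (pvieCol η b) 𝔖 :=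
  ⟨fun h => ⟨h.good, h.st, h.tip, h.mask, h.mask_i, h.lev0⟩, fun h => ⟨h.good, h.st, h.tip, h.mask, h.mask_i, h.lev0⟩⟩

theorem pvn1z_in_iff (N : PvwNum) (b : Bool) (p : PvilPl) (η : Conf PvPt) (𝔖 : PvwSt (pvieT η)) : PvilIn N b p η 𝔖 ↔ Pvn1zIn N p (pvieY η) (pvieCol η b) 𝔖 :=
  ⟨fun h => ⟨h.good, h.st, h.tip, h.mask, h.mask_i, h.lev0⟩, fun h => ⟨h.good, h.st, h.tip, h.mask, h.mask_i, h.lev0⟩⟩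

/-- frozen positions of `Σ_out`, fixed site set -/
def pvn1zFo (N : PvwNum) (p : PvilPl) (Y : Set ℂ) (s : ↥Y → Bool) : Set ℂ := {v | ∃ 𝔖 : PvwSt (delbPl Y).toMap, Pvn1zOut N p Y s 𝔖 ∧ ∃ u ∈ 𝔖.fzOut, (u : ℂ) = v}
/-- frozen positions of `Σ_in`, fixed site set -/
def pvn1zFi (N : PvwNum) (p : PvilPl) (Y : Set ℂ) (s : ↥Y → Bool) : Set ℂ := {v | ∃ 𝔖 : PvwSt (delbPl Y).toMap, Pvn1zIn N p Y s 𝔖 ∧ ∃ u ∈ 𝔖.fzIn, (u : ℂ) = v}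
/-- hull of record of `Σ_out`, fixed site set -/
def pvn1zZo (δ r : ℝ) (N : PvwNum) (p : PvilPl) (Y : Set ℂ) (s : ↥Y → Bool) : Set (ℤ × ℤ) :=
  {q | ∃ 𝔖 : PvwSt (delbPl Y).toMap, Pvn1zOut N p Y s 𝔖 ∧ q ∈ pvtCells δ (Subtype.val '' 𝔖.fzOut ∪ Metric.closedBall (p.ty.cp p.h p.z) r)}
/-- hull of record of `Σ_in`, fixed site set -/
def pvn1zZi (δ r : ℝ) (N : PvwNum) (p : PvilPl) (Y : Set ℂ) (s : ↥Y → Bool) : Set (ℤ × ℤ) :=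
  {q | ∃ 𝔖 : PvwSt (delbPl Y).toMap, Pvn1zIn N p Y s 𝔖 ∧ q ∈ pvtCells δ (Subtype.val '' 𝔖.fzIn ∪ Metric.closedBall (p.ty.cm p.h p.z) r)}

theorem pvn1z_eqns_cite : True := by
  have := @pvn1zFo.eq_1; have := @pvn1zFi.eq_1; have := @pvn1zZo.eq_1; have := @pvn1zZi.eq_1
  trivial

theorem pvn1z_Fo_eq (N : PvwNum) (b : Bool) (p : PvilPl) (η : Conf PvPt) : pvilFzO N b p η = pvn1zFo N p (pvieY η) (pvieCol η b) := by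
  ext v
  exact ⟨fun ⟨𝔖, h, hu⟩ => ⟨𝔖, (pvn1z_out_iff N b p η 𝔖).1 h, hu⟩, fun ⟨𝔖, h, hu⟩ => ⟨𝔖, (pvn1z_out_iff N b p η 𝔖).2 h, hu⟩⟩

theorem pvn1z_Fi_eq (N : PvwNum) (b : Bool) (p : PvilPl) (η : Conf PvPt) : pvilFzI N b p η = pvn1zFi N p (pvieY η) (pvieCol η b) := by
  ext v
  exact ⟨fun ⟨𝔖, h, hu⟩ => ⟨𝔖, (pvn1z_in_iff N b p η 𝔖).1 h, hu⟩, fun ⟨𝔖, h, hu⟩ => ⟨𝔖, (pvn1z_in_iff N b p η 𝔖).2 h, hu⟩⟩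

theorem pvn1z_Zo_eq (δ r : ℝ) (N : PvwNum) (b : Bool) (p : PvilPl) (η : Conf PvPt) : pvilHuO δ r N b p η = pvn1zZo δ r N p (pvieY η) (pvieCol η b) := by
  ext v
  exact ⟨fun ⟨𝔖, h, hu⟩ => ⟨𝔖, (pvn1z_out_iff N b p η 𝔖).1 h, hu⟩, fun ⟨𝔖, h, hu⟩ => ⟨𝔖, (pvn1z_out_iff N b p η 𝔖).2 h, hu⟩⟩

theorem pvn1z_Zi_eq (δ r : ℝ) (N : PvwNum) (b : Bool) (p : PvilPl) (η : Conf PvPt) : pvilHuI δ r N b p η = pvn1zZi δ r N p (pvieY η) (pvieCol η b) := by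
  ext v
  exact ⟨fun ⟨𝔖, h, hu⟩ => ⟨𝔖, (pvn1z_in_iff N b p η 𝔖).1 h, hu⟩, fun ⟨𝔖, h, hu⟩ => ⟨𝔖, (pvn1z_in_iff N b p η 𝔖).2 h, hu⟩⟩

/-- transport along an equality of the site sets -/
theorem pvn1z_transport {β : Sort*} (Φ : ∀ Y : Set ℂ, (↥Y → Bool) → β) {Y Y' : Set ℂ} (h : Y' = Y) (s' : ↥Y' → Bool) (s : ↥Y → Bool) (hs : ∀ (z : ℂ) (h1 : z ∈ Y') (h2 : z ∈ Y), s' ⟨z, h1⟩ = s ⟨z, h2⟩) :
    Φ Y' s' = Φ Y s := by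
  subst h
  have : s' = s := funext fun v => hs v.1 v.2 v.2
  rw [this]

/-! ## 2. the base data read the frozen colours of ANY carrier of the half state -/

section stab

variable {N : PvwNum} {p : PvilPl} {Y : Set ℂ} {s s' : ↥Y → Bool} {𝔗 𝔖 : PvwSt (delbPl Y).toMap}

theorem pvn1z_pos_inj (hp : p.fr ≠ 0) : Function.Injective fun v : ↥Y => conj p.fr * (v : ℂ) := fun a b h =>
  Subtype.val_injective (mul_left_cancel₀ ((map_ne_zero _).2 hp) h)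

/-- one direction, exit half -/
theorem Pvn1zOut.recol (hp : p.fr ≠ 0) (h : Pvn1zOut N p Y s 𝔖) (hT : 𝔗.AtOut (fun v : ↥Y => conj p.fr * (v : ℂ)) N p.h p.zf p.ty s) (hs : ∀ v ∈ 𝔗.fzOut, s' v = s v) : Pvn1zOut N p Y s' 𝔖 := by
  have hu := pvuq_atOut (delb_plane_isSph h.good) (pvgy_m_simple Y) (pvn1z_pos_inj hp) h.st hT
  have e : 𝔖.fzOut = 𝔗.fzOut := hu.1.fzOut hu.2
  exact ⟨h.good, pvwk_atOut_congr (delb_plane_isSph h.good) h.st (fun v hv => (hs v (e ▸ hv)).symm), h.tip, h.mask, h.mask_i, h.lev0⟩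

/-- one direction, entrance half -/
theorem Pvn1zIn.recol (hp : p.fr ≠ 0) (h : Pvn1zIn N p Y s 𝔖) (hT : 𝔗.AtIn (fun v : ↥Y => conj p.fr * (v : ℂ)) N p.h p.zf p.ty s) (hs : ∀ v ∈ 𝔗.fzIn, s' v = s v) : Pvn1zIn N p Y s' 𝔖 := by
  have hu := pvuq_atIn (delb_plane_isSph h.good) (pvgy_m_simple Y) (pvn1z_pos_inj hp) h.st hT
  have e : 𝔖.fzIn = 𝔗.fzIn := hu.1.fzIn hu.2
  exact ⟨h.good, pvwk_atIn_congr (delb_plane_isSph h.good) h.st (fun v hv => (hs v (e ▸ hv)).symm), h.tip, h.mask, h.mask_i, h.lev0⟩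

/-- **the carriers of `Σ_out` are the same for the two colourings** -/
theorem pvn1z_out_recol (hY : DelGood Y) (hp : p.fr ≠ 0) (hT : 𝔗.AtOut (fun v : ↥Y => conj p.fr * (v : ℂ)) N p.h p.zf p.ty s) (hs : ∀ v ∈ 𝔗.fzOut, s' v = s v) (𝔖 : PvwSt (delbPl Y).toMap) :
    Pvn1zOut N p Y s' 𝔖 ↔ Pvn1zOut N p Y s 𝔖 :=
  ⟨fun h => h.recol hp (pvwk_atOut_congr (delb_plane_isSph hY) hT fun v hv => (hs v hv).symm) fun v hv => (hs v hv).symm, fun h => h.recol hp hT hs⟩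

/-- **the carriers of `Σ_in` are the same for the two colourings** -/
theorem pvn1z_in_recol (hY : DelGood Y) (hp : p.fr ≠ 0) (hT : 𝔗.AtIn (fun v : ↥Y => conj p.fr * (v : ℂ)) N p.h p.zf p.ty s) (hs : ∀ v ∈ 𝔗.fzIn, s' v = s v) (𝔖 : PvwSt (delbPl Y).toMap) :
    Pvn1zIn N p Y s' 𝔖 ↔ Pvn1zIn N p Y s 𝔖 :=
  ⟨fun h => h.recol hp (pvwk_atIn_congr (delb_plane_isSph hY) hT fun v hv => (hs v hv).symm) fun v hv => (hs v hv).symm, fun h => h.recol hp hT hs⟩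

theorem pvn1z_Fo_recol (hY : DelGood Y) (hp : p.fr ≠ 0) (hT : 𝔗.AtOut (fun v : ↥Y => conj p.fr * (v : ℂ)) N p.h p.zf p.ty s) (hs : ∀ v ∈ 𝔗.fzOut, s' v = s v) : pvn1zFo N p Y s' = pvn1zFo N p Y s := by
  unfold pvn1zFo
  simp only [pvn1z_out_recol hY hp hT hs]

theorem pvn1z_Fi_recol (hY : DelGood Y) (hp : p.fr ≠ 0) (hT : 𝔗.AtIn (fun v : ↥Y => conj p.fr * (v : ℂ)) N p.h p.zf p.ty s) (hs : ∀ v ∈ 𝔗.fzIn, s' v = s v) : pvn1zFi N p Y s' = pvn1zFi N p Y s := by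
  unfold pvn1zFi
  simp only [pvn1z_in_recol hY hp hT hs]

theorem pvn1z_Zo_recol (δ r : ℝ) (hY : DelGood Y) (hp : p.fr ≠ 0) (hT : 𝔗.AtOut (fun v : ↥Y => conj p.fr * (v : ℂ)) N p.h p.zf p.ty s) (hs : ∀ v ∈ 𝔗.fzOut, s' v = s v) :
    pvn1zZo δ r N p Y s' = pvn1zZo δ r N p Y s := by
  unfold pvn1zZo
  simp only [pvn1z_out_recol hY hp hT hs]

theorem pvn1z_Zi_recol (δ r : ℝ) (hY : DelGood Y) (hp : p.fr ≠ 0) (hT : 𝔗.AtIn (fun v : ↥Y => conj p.fr * (v : ℂ)) N p.h p.zf p.ty s) (hs : ∀ v ∈ 𝔗.fzIn, s' v = s v) :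
    pvn1zZi δ r N p Y s' = pvn1zZi δ r N p Y s := by
  unfold pvn1zZi
  simp only [pvn1z_in_recol hY hp hT hs]

/-- the frozen positions are those of the carrier `𝔗` or nothing -/
theorem pvn1z_Fo_sub (hY : DelGood Y) (hp : p.fr ≠ 0) (hT : 𝔗.AtOut (fun v : ↥Y => conj p.fr * (v : ℂ)) N p.h p.zf p.ty s) : pvn1zFo N p Y s ⊆ Subtype.val '' 𝔗.fzOut := by
  rintro v ⟨𝔖, h, u, hu, rfl⟩
  have hq := pvuq_atOut (delb_plane_isSph hY) (pvgy_m_simple Y) (pvn1z_pos_inj hp) h.st hT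
  exact ⟨u, (hq.1.fzOut hq.2) ▸ hu, rfl⟩

theorem pvn1z_Fi_sub (hY : DelGood Y) (hp : p.fr ≠ 0) (hT : 𝔗.AtIn (fun v : ↥Y => conj p.fr * (v : ℂ)) N p.h p.zf p.ty s) : pvn1zFi N p Y s ⊆ Subtype.val '' 𝔗.fzIn := by
  rintro v ⟨𝔖, h, u, hu, rfl⟩
  have hq := pvuq_atIn (delb_plane_isSph hY) (pvgy_m_simple Y) (pvn1z_pos_inj hp) h.st hT
  exact ⟨u, (hq.1.fzIn hq.2) ▸ hu, rfl⟩

end stab

/-! ## 3. the base data of the configuration `pvxnFl b (pvn1aCf Y σ)` -/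

open Classical in
/-- the ACTUAL colours of the configuration with the sites `Y` and the colours `σ` in the vocabulary of a rim of colour `b` -/
noncomputable def pvn1zC (b : Bool) (Y : Set ℂ) (σ : ↥Y → Bool) : ℂ → Bool := fun z => (if h : z ∈ Y then σ ⟨z, h⟩ else false) == b

theorem pvn1z_eqns_cite2 : True := by
  have := @pvn1zC.eq_1
  trivial

theorem pvn1z_C_mem (b : Bool) {Y : Set ℂ} (σ : ↥Y → Bool) {z : ℂ} (hz : z ∈ Y) : pvn1zC b Y σ z = (σ ⟨z, hz⟩ == b) := by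
  unfold pvn1zC
  rw [dif_pos hz]

theorem pvn1z_fl_cf (b : Bool) (Y : Set ℂ) (σ : ↥Y → Bool) : pvxnFl b (pvn1aCf Y σ) = cfOf Y (pvn1zC b Y σ) := by
  ext p
  show p ∈ (pvkyFl b (pvn1aCf Y σ)).pts ↔ _
  rw [pvky_mem_fl]
  simp only [pvn1aCf, cfOf, mem_ofPred_eq, pvn1zC]
  refine and_congr_right fun hz => ?_
  rw [dif_pos hz]
  cases b <;> cases p.2 <;> cases σ ⟨p.1, hz⟩ <;> simp

theorem pvn1z_col_cf (b : Bool) (Y : Set ℂ) (σ : ↥Y → Bool) (z : ℂ) (h1 : z ∈ pvieY (cfOf Y (pvn1zC b Y σ))) (h2 : z ∈ Y) : pvieCol (cfOf Y (pvn1zC b Y σ)) b ⟨z, h1⟩ = σ ⟨z, h2⟩ := by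
  show (cfCol (cfOf Y (pvn1zC b Y σ)) z == b) = _
  rw [pvdy_cfCol_cfOf _ h2, pvn1z_C_mem b σ h2]
  cases b <;> cases σ ⟨z, h2⟩ <;> rfl

section model

variable {τ : Type} {c : ℝ} (𝔓 : PvxPar τ c) (m : ℕ) (z : ℂ) (t : τ) (Y : Set ℂ) (σ : ↥Y → Bool)

theorem pvn1z_Fo_cf : pvilFo 𝔓 m z t (cfOf Y (pvn1zC (𝔓.col t) Y σ)) = pvn1zFo 𝔓.num (pvilPin 𝔓 m z t) Y σ := by
  unfold pvilFo
  rw [pvn1z_Fo_eq]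
  exact pvn1z_transport (fun Y s => pvn1zFo 𝔓.num (pvilPin 𝔓 m z t) Y s) (cfOf_sites Y _) _ σ (pvn1z_col_cf (𝔓.col t) Y σ)

theorem pvn1z_Fi_cf : pvilFi 𝔓 m z t (cfOf Y (pvn1zC (𝔓.col t) Y σ)) = pvn1zFi 𝔓.num (pvilPin 𝔓 m z t) Y σ := by
  unfold pvilFi
  rw [pvn1z_Fi_eq]
  exact pvn1z_transport (fun Y s => pvn1zFi 𝔓.num (pvilPin 𝔓 m z t) Y s) (cfOf_sites Y _) _ σ (pvn1z_col_cf (𝔓.col t) Y σ)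

theorem pvn1z_Zo_cf : pvilZo 𝔓 m z t (cfOf Y (pvn1zC (𝔓.col t) Y σ)) = pvn1zZo (pvlmDel c m) (𝔓.num.rho * pvlmH m) 𝔓.num (pvilPin 𝔓 m z t) Y σ := by
  unfold pvilZo
  rw [pvn1z_Zo_eq]
  exact pvn1z_transport (fun Y s => pvn1zZo (pvlmDel c m) (𝔓.num.rho * pvlmH m) 𝔓.num (pvilPin 𝔓 m z t) Y s) (cfOf_sites Y _) _ σ (pvn1z_col_cf (𝔓.col t) Y σ)

theorem pvn1z_Zi_cf : pvilZi 𝔓 m z t (cfOf Y (pvn1zC (𝔓.col t) Y σ)) = pvn1zZi (pvlmDel c m) (𝔓.num.rho * pvlmH m) 𝔓.num (pvilPin 𝔓 m z t) Y σ := by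
  unfold pvilZi
  rw [pvn1z_Zi_eq]
  exact pvn1z_transport (fun Y s => pvn1zZi (pvlmDel c m) (𝔓.num.rho * pvlmH m) 𝔓.num (pvilPin 𝔓 m z t) Y s) (cfOf_sites Y _) _ σ (pvn1z_col_cf (𝔓.col t) Y σ)

theorem pvn1z_pin_fr : (pvilPin 𝔓 m z t).fr = 1 := rfl
theorem pvn1z_pin_h : (pvilPin 𝔓 m z t).h = pvlmH m := rfl
theorem pvn1z_pin_ty : (pvilPin 𝔓 m z t).ty = 𝔓.ty t := rfl
theorem pvn1z_pin_zf : (pvilPin 𝔓 m z t).zf = z := by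
  show conj (1 : ℂ) * z = z
  simp
theorem pvn1z_pin_pos : (fun v : ↥Y => conj (pvilPin 𝔓 m z t).fr * (v : ℂ)) = Subtype.val := by
  funext v
  show conj (1 : ℂ) * (v : ℂ) = v
  simp

end model

/-! ## 4. the base data at a datum -/

section datum

variable {τ : Type} {c : ℝ} {𝔓 : PvxPar τ c} {m : ℕ} {π : PvxIx τ} {Y : Set ℂ} {𝔇 : PvwDat (delbPl Y).toMap} {σ σ' : ↥Y → Bool}

theorem pvn1z_dat_out (hW : 𝔓.Wf) (hY : DelGood Y) (hOk : 𝔇.Ok Subtype.val 𝔓.num (pvlmH m) (𝔓.reg m π)) (hc : σ ∈ 𝔇.Cyl) :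
    𝔇.t.AtOut (fun v : ↥Y => conj (pvilPin 𝔓 m π.p.zt π.p.tt).fr * (v : ℂ)) 𝔓.num (pvilPin 𝔓 m π.p.zt π.p.tt).h (pvilPin 𝔓 m π.p.zt π.p.tt).zf (pvilPin 𝔓 m π.p.zt π.p.tt).ty σ := by
  rw [pvn1z_pin_pos, pvn1z_pin_zf, pvn1z_pin_h, pvn1z_pin_ty]
  have h := hOk.st_t
  rw [hW.reg_zt, hW.reg_tt] at h
  exact pvwk_atOut_congr (delb_plane_isSph hY) h fun v hv => (hc.1 v (Or.inl hv)).symm

theorem pvn1z_dat_in (hW : 𝔓.Wf) (hY : DelGood Y) (hOk : 𝔇.Ok Subtype.val 𝔓.num (pvlmH m) (𝔓.reg m π)) (hc : σ ∈ 𝔇.Cyl) :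
    𝔇.s.AtIn (fun v : ↥Y => conj (pvilPin 𝔓 m π.p.zs π.p.ts).fr * (v : ℂ)) 𝔓.num (pvilPin 𝔓 m π.p.zs π.p.ts).h (pvilPin 𝔓 m π.p.zs π.p.ts).zf (pvilPin 𝔓 m π.p.zs π.p.ts).ty σ := by
  rw [pvn1z_pin_pos, pvn1z_pin_zf, pvn1z_pin_h, pvn1z_pin_ty]
  have h := hOk.st_s
  rw [hW.reg_zs, hW.reg_ts] at h
  exact pvwk_atIn_congr (delb_plane_isSph hY) h fun v hv => (hc.1 v (Or.inr hv)).symm

/-- **THE BASE DATA `(Z, F)` OF THE TWO HALF STATES DO NOT SEE THE COLOURS OFF `fzY(D)`** -/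
theorem pvn1z_base (hW : 𝔓.Wf) (hY : DelGood Y) (hOk : 𝔇.Ok Subtype.val 𝔓.num (pvlmH m) (𝔓.reg m π)) (hc : σ ∈ 𝔇.Cyl) (hs : ∀ v ∈ 𝔇.fzY, σ' v = σ v) (b : Bool) (hbt : 𝔓.col π.p.tt = b) (hbs : 𝔓.col π.p.ts = b) :
    pvilFo 𝔓 m π.p.zt π.p.tt (pvxnFl b (pvn1aCf Y σ')) = pvilFo 𝔓 m π.p.zt π.p.tt (pvxnFl b (pvn1aCf Y σ)) ∧
    pvilZo 𝔓 m π.p.zt π.p.tt (pvxnFl b (pvn1aCf Y σ')) = pvilZo 𝔓 m π.p.zt π.p.tt (pvxnFl b (pvn1aCf Y σ)) ∧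
    pvilFi 𝔓 m π.p.zs π.p.ts (pvxnFl b (pvn1aCf Y σ')) = pvilFi 𝔓 m π.p.zs π.p.ts (pvxnFl b (pvn1aCf Y σ)) ∧
    pvilZi 𝔓 m π.p.zs π.p.ts (pvxnFl b (pvn1aCf Y σ')) = pvilZi 𝔓 m π.p.zs π.p.ts (pvxnFl b (pvn1aCf Y σ)) := by
  have h1 : (pvilPin 𝔓 m π.p.zt π.p.tt).fr ≠ 0 := one_ne_zero
  have h2 : (pvilPin 𝔓 m π.p.zs π.p.ts).fr ≠ 0 := one_ne_zero
  have ho := pvn1z_dat_out hW hY hOk hc
  have hi := pvn1z_dat_in hW hY hOk hc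
  have so : ∀ v ∈ 𝔇.t.fzOut, σ' v = σ v := fun v hv => hs v (Or.inl hv)
  have si : ∀ v ∈ 𝔇.s.fzIn, σ' v = σ v := fun v hv => hs v (Or.inr hv)
  rw [pvn1z_fl_cf, pvn1z_fl_cf]
  refine ⟨?_, ?_, ?_, ?_⟩
  · subst hbt
    rw [pvn1z_Fo_cf, pvn1z_Fo_cf]
    exact pvn1z_Fo_recol hY h1 ho so
  · subst hbt
    rw [pvn1z_Zo_cf, pvn1z_Zo_cf]
    exact pvn1z_Zo_recol _ _ hY h1 ho so
  · subst hbs
    rw [pvn1z_Fi_cf, pvn1z_Fi_cf]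
    exact pvn1z_Fi_recol hY h2 hi si
  · subst hbs
    rw [pvn1z_Zi_cf, pvn1z_Zi_cf]
    exact pvn1z_Zi_recol _ _ hY h2 hi si

/-- the frozen positions of the base data are frozen sites of the datum -/
theorem pvn1z_Fo_dat (hW : 𝔓.Wf) (hY : DelGood Y) (hOk : 𝔇.Ok Subtype.val 𝔓.num (pvlmH m) (𝔓.reg m π)) (hc : σ ∈ 𝔇.Cyl) :
    pvilFo 𝔓 m π.p.zt π.p.tt (pvxnFl (𝔓.col π.p.tt) (pvn1aCf Y σ)) ⊆ Subtype.val '' 𝔇.t.fzOut := by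
  rw [pvn1z_fl_cf, pvn1z_Fo_cf]
  exact pvn1z_Fo_sub hY one_ne_zero (pvn1z_dat_out hW hY hOk hc)

theorem pvn1z_Fi_dat (hW : 𝔓.Wf) (hY : DelGood Y) (hOk : 𝔇.Ok Subtype.val 𝔓.num (pvlmH m) (𝔓.reg m π)) (hc : σ ∈ 𝔇.Cyl) :
    pvilFi 𝔓 m π.p.zs π.p.ts (pvxnFl (𝔓.col π.p.ts) (pvn1aCf Y σ)) ⊆ Subtype.val '' 𝔇.s.fzIn := by
  rw [pvn1z_fl_cf, pvn1z_Fi_cf]
  exact pvn1z_Fi_sub hY one_ne_zero (pvn1z_dat_in hW hY hOk hc)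

end datum

/-! ## 5. MODEL FREE: `pvueForced` at two base colourings, for a blind end -/

section forced

variable {kit : PvthKit} {ε : ℝ} {b : Bool} {e : PvkyEnd} {z d : ℂ} {q : ℝ≥0∞} {C Wn Y Fz : Set ℂ} {σ σ' : ℂ → Bool}

/-- **a blind end is forced at `σ` iff it is forced at `σ'`**, `σ' = σ` on the frozen sites -/
theorem pvn1z_forced (hk : kit.WF) (hd : d ≠ 0) (hY : Y.Countable) (B : PvbqEnd ε C (pvkyDoor kit z d) e Y Fz σ) (mK : MeasurableSet e.K)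
    (rA : Conf.Reads (Wn ×ˢ univ) fun η => η ∈ e.A) (rX : Conf.Reads (Wn ×ˢ univ) e.X) (yC : Disjoint (e.y (cfOf Y σ)) (e.K ∪ pvkyDoor kit z d))
    (hσ : ∀ v ∈ Y, v ∈ Fz → σ' v = σ v) : cfOf Y σ ∈ pvueForced kit ε b e z d q ↔ cfOf Y σ' ∈ pvueForced kit ε b e z d q := by
  have w : PvueWin (cfOf Y σ) (e.K ∪ pvkyDoor kit z d) e.y e (pvkyDoor kit z d) Wn :=
    ⟨B.mKD, by rw [cfOf_sites]; exact hY, mK, B.mA, B.mX, rA, rX, fun η => B.cst _ _, subset_rfl, inter_subset_left, subset_rfl, yC, fun _ _ _ _ h => h⟩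
  have ag := (w.rd b).ag ε
  have ok := (w.rd b).ok
  have ag' : PvkyAg ε b (cfOf Y σ') (e.K ∪ pvkyDoor kit z d) e.y e (pvkyFun b (e.K ∪ pvkyDoor kit z d) e.y (cfOf Y σ) e) := by
    refine ag.pvbq_base (fun η => B.cst _ _) (by rw [B.cst (cfOf Y σ') (cfOf Y σ)]) (B.bl'.phi_ae b B.mKD hY B.mA B.mX hσ B.dis ?_ (fun v _ hv => hv) ?_)
    · intro v h1 h2
      rw [B.cst (cfOf Y σ') (cfOf Y σ)]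
      exact B.dis v h1 h2
    · intro v _ hv
      rw [B.cst (cfOf Y σ') (cfOf Y σ)]
      exact hv
  exact pvbq_forced_base hk hd ag ag' ok.mK ok.mA

end forced

/-! ## 6. THE FIFTH CLAUSE OF THE GUARD: GENERIC GEOMETRY AT THE TWO WINDOWS -/

section gen

variable {τ : Type} {c : ℝ} (𝔓 : PvxPar τ c) (𝔈 : PvieEng τ) (m : ℕ) (ε : ℝ) (w : ∀ η : Conf PvPt, (delbPl (pvieY η)).Dart → ℂ) (z : ℂ) (t : τ) (Z : Set (ℤ × ℤ))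

/-- the almost sure property tested at the completions of the window of the FIRST link: the versions under `pvilSA`, `pvilLoc` are the plain objects, the configuration is good -/
def pvn1zPo (ζ : Conf PvPt) : Prop :=
  pvbqOk (pvP ε) (pvilMo 𝔓 𝔈 m ε z t Z ∩ {η | (pvilLo 𝔓 𝔈 m z t).X 𝔓.num (𝔓.col t) w η = pvilLoc ε (pvilWno 𝔓 𝔈 m ε z t Z) (pvilMo 𝔓 𝔈 m ε z t Z) ((pvilLo 𝔓 𝔈 m z t).X 𝔓.num (𝔓.col t) w) η})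
    ((pvilMo 𝔓 𝔈 m ε z t Z).indicator ((pvilLo 𝔓 𝔈 m z t).X 𝔓.num (𝔓.col t) w)) ζ ∧ PvqfGood ζ

/-- the same for the LAST link -/
def pvn1zPi (ζ : Conf PvPt) : Prop :=
  pvbqOk (pvP ε) (pvilMi 𝔓 𝔈 m ε z t Z ∩ {η | (pvilLi 𝔓 𝔈 m z t).X 𝔓.num (𝔓.col t) w η = pvilLoc ε (pvilWni 𝔓 𝔈 m ε z t Z) (pvilMi 𝔓 𝔈 m ε z t Z) ((pvilLi 𝔓 𝔈 m z t).X 𝔓.num (𝔓.col t) w) η})
    ((pvilMi 𝔓 𝔈 m ε z t Z).indicator ((pvilLi 𝔓 𝔈 m z t).X 𝔓.num (𝔓.col t) w)) ζ ∧ PvqfGood ζ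

/-- **GENERIC GEOMETRY FOR THE PATTERN `π`** (a property of the SET of sites: colour blind; `C` = all the tiles and doors of the chain) -/
def pvn1zGen (π : PvxIx τ) (Y : Set ℂ) : Prop :=
  pvbqGen ε (pvieCc 𝔓 𝔈 m ε π.p) (pvilWno 𝔓 𝔈 m ε π.p.zt π.p.tt ↑π.Zt) (pvn1zPo 𝔓 𝔈 m ε pvilQ π.p.zt π.p.tt ↑π.Zt) Y ∧
  pvbqGen ε (pvieCc 𝔓 𝔈 m ε π.p) (pvilWni 𝔓 𝔈 m ε π.p.zs π.p.ts ↑π.Zs) (pvn1zPi 𝔓 𝔈 m ε pvilQ π.p.zs π.p.ts ↑π.Zs) Y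

theorem pvn1z_eqns_cite3 : True := by
  have := @pvn1zPo.eq_1; have := @pvn1zPi.eq_1; have := @pvn1zGen.eq_1
  trivial

/-- (rd) the clause does not read the resampled region -/
theorem pvn1z_gen_Yc (π : PvxIx τ) (Y Y₂ : Set ℂ) : pvn1zGen 𝔓 𝔈 m ε π (Y \ pvieCc 𝔓 𝔈 m ε π.p ∪ Y₂ ∩ pvieCc 𝔓 𝔈 m ε π.p) ↔ pvn1zGen 𝔓 𝔈 m ε π Y :=
  and_congr (pvbq_gen_Yc _ _ _ _ _ _) (pvbq_gen_Yc _ _ _ _ _ _)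

end gen

/-! ## 7. one end is stable -/

section ends

variable {τ : Type} {c : ℝ} {𝔓 : PvxPar τ c} {𝔈 : PvieEng τ} {m : ℕ} {ε : ℝ} {w : ∀ η : Conf PvPt, (delbPl (pvieY η)).Dart → ℂ} {z : ℂ} {t : τ} {Z : Set (ℤ × ℤ)} {C Y F : Set ℂ} {σ σ' : ℂ → Bool} {q : ℝ≥0∞}

/-- **the first link at the base data `(Z, F)` is a blind end at a generic geometry** -/
theorem pvn1z_end_o (hZ : Z.Finite) (mW : MeasurableSet (pvilWno 𝔓 𝔈 m ε z t Z)) (mKD : MeasurableSet (pvieSh z (𝔈.oK m t) ∪ pvkyDoor (𝔈.kit m ε) (pvieZo 𝔓 m z t) ((𝔓.Γ m).dout t)))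
    (win : C ∩ pvilWno 𝔓 𝔈 m ε z t Z = (pvieSh z (𝔈.oK m t) ∪ pvkyDoor (𝔈.kit m ε) (pvieZo 𝔓 m z t) ((𝔓.Γ m).dout t)) ∩ pvilWno 𝔓 𝔈 m ε z t Z)
    (hG : pvbqGen ε C (pvilWno 𝔓 𝔈 m ε z t Z) (pvn1zPo 𝔓 𝔈 m ε w z t Z) Y)
    (hP : PvbqPlain C (pvilWno 𝔓 𝔈 m ε z t Z) (pvn1zPo 𝔓 𝔈 m ε w z t Z) (pvilMo 𝔓 𝔈 m ε z t Z) ((pvilLo 𝔓 𝔈 m z t).X 𝔓.num (𝔓.col t) w) Y F (pvieSh z (𝔈.oM m t) \ F) σ) :
    PvbqEnd ε C (pvkyDoor (𝔈.kit m ε) (pvieZo 𝔓 m z t) ((𝔓.Γ m).dout t)) (pvilEo 𝔓 𝔈 m ε w z t Z F) Y F σ := by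
  refine pvbq_end' (Wn := pvilWno 𝔓 𝔈 m ε z t Z) (p := pvn1zPo 𝔓 𝔈 m ε w z t Z) (M := pvilMo 𝔓 𝔈 m ε z t Z) (F := (pvilLo 𝔓 𝔈 m z t).X 𝔓.num (𝔓.col t) w) mW mKD rfl ?_ (fun _ _ => rfl)
    (fun v _ hv h => h.2 hv) win hG (fun ζ h => h.1) hP
  show pvilFin Z _ = _
  unfold pvilFin
  rw [if_pos hZ]
  rfl

/-- **the last link at the base data `(Z, F)` is a blind end at a generic geometry** -/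
theorem pvn1z_end_i (hZ : Z.Finite) (mW : MeasurableSet (pvilWni 𝔓 𝔈 m ε z t Z)) (mKD : MeasurableSet (pvieSh z (𝔈.iK m t) ∪ pvkyDoor (𝔈.kit m ε) (pvieZi 𝔓 m z t) ((𝔓.Γ m).din t)))
    (win : C ∩ pvilWni 𝔓 𝔈 m ε z t Z = (pvieSh z (𝔈.iK m t) ∪ pvkyDoor (𝔈.kit m ε) (pvieZi 𝔓 m z t) ((𝔓.Γ m).din t)) ∩ pvilWni 𝔓 𝔈 m ε z t Z)
    (hG : pvbqGen ε C (pvilWni 𝔓 𝔈 m ε z t Z) (pvn1zPi 𝔓 𝔈 m ε w z t Z) Y)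
    (hP : PvbqPlain C (pvilWni 𝔓 𝔈 m ε z t Z) (pvn1zPi 𝔓 𝔈 m ε w z t Z) (pvilMi 𝔓 𝔈 m ε z t Z) ((pvilLi 𝔓 𝔈 m z t).X 𝔓.num (𝔓.col t) w) Y F (pvieSh z (𝔈.iM m t) \ F) σ) :
    PvbqEnd ε C (pvkyDoor (𝔈.kit m ε) (pvieZi 𝔓 m z t) ((𝔓.Γ m).din t)) (pvilEi 𝔓 𝔈 m ε w z t Z F) Y F σ := by
  refine pvbq_end' (Wn := pvilWni 𝔓 𝔈 m ε z t Z) (p := pvn1zPi 𝔓 𝔈 m ε w z t Z) (M := pvilMi 𝔓 𝔈 m ε z t Z) (F := (pvilLi 𝔓 𝔈 m z t).X 𝔓.num (𝔓.col t) w) mW mKD rfl ?_ (fun _ _ => rfl)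
    (fun v _ hv h => h.2 hv) win hG (fun ζ h => h.1) hP
  show pvilFin Z _ = _
  unfold pvilFin
  rw [if_pos hZ]
  rfl

/-- the events and the values of the ends read their windows -/
theorem pvn1z_rA_o : Conf.Reads (pvilWno 𝔓 𝔈 m ε z t Z ×ˢ univ) fun η => η ∈ (pvilEo 𝔓 𝔈 m ε w z t Z F).A := by
  show Conf.Reads _ fun η => η ∈ pvilFin Z _
  unfold pvilFin
  split_ifs
  · exact pvsu_sure_reads _ _ _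
  · exact fun η => rfl

theorem pvn1z_rX_o : Conf.Reads (pvilWno 𝔓 𝔈 m ε z t Z ×ˢ univ) (pvilEo 𝔓 𝔈 m ε w z t Z F).X := pvsu_loc_reads _ _ _

theorem pvn1z_rA_i : Conf.Reads (pvilWni 𝔓 𝔈 m ε z t Z ×ˢ univ) fun η => η ∈ (pvilEi 𝔓 𝔈 m ε w z t Z F).A := by
  show Conf.Reads _ fun η => η ∈ pvilFin Z _
  unfold pvilFin
  split_ifs
  · exact pvsu_sure_reads _ _ _
  · exact fun η => rfl

theorem pvn1z_rX_i : Conf.Reads (pvilWni 𝔓 𝔈 m ε z t Z ×ˢ univ) (pvilEi 𝔓 𝔈 m ε w z t Z F).X := pvsu_loc_reads _ _ _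

end ends

/-- `pvrgEnd` of 256 at a door plug IS `pvueForced` of 141 -/
theorem pvn1z_end_forced (kit : PvthKit) (ε : ℝ) (b : Bool) (e : PvkyEnd) (z d : ℂ) (q : ℝ≥0∞) :
    pvrgEnd ε e (pvkyDoor kit z d) (pvkyFl b ⁻¹' kit.G z d) q = pvueForced kit ε b e z d q := by
  unfold pvrgEnd pvrgFrc pvueForced
  rfl

/-- `pvrgFo` of 256 in the words of 141 -/
theorem pvn1z_mem_Fo {τ : Type} {c : ℝ} (𝔓 : PvxPar τ c) (𝔈 : PvieEng τ) (q : ℝ≥0∞) (m : ℕ) (ε : ℝ) (z : ℂ) (t : τ) (η : Conf PvPt) :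
    η ∈ pvrgFo 𝔓 𝔈 q m ε z t ↔ η ∈ pvueForced (𝔈.kit m ε) ε (𝔓.col t) (pvilEo 𝔓 𝔈 m ε pvilQ z t (pvilZo 𝔓 m z t η) (pvilFo 𝔓 m z t η)) (pvieZo 𝔓 m z t) ((𝔓.Γ m).dout t) q := by
  unfold pvrgFo
  rw [mem_ofPred_eq]
  unfold pvrgGk pvilEoAt
  rw [pvn1z_end_forced]

/-- `pvrgFi` of 256 in the words of 141 -/
theorem pvn1z_mem_Fi {τ : Type} {c : ℝ} (𝔓 : PvxPar τ c) (𝔈 : PvieEng τ) (q : ℝ≥0∞) (m : ℕ) (ε : ℝ) (z : ℂ) (t : τ) (η : Conf PvPt) :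
    η ∈ pvrgFi 𝔓 𝔈 q m ε z t ↔ η ∈ pvueForced (𝔈.kit m ε) ε (𝔓.col t) (pvilEi 𝔓 𝔈 m ε pvilQ z t (pvilZi 𝔓 m z t η) (pvilFi 𝔓 m z t η)) (pvieZi 𝔓 m z t) ((𝔓.Γ m).din t) q := by
  unfold pvrgFi
  rw [mem_ofPred_eq]
  unfold pvrgGk pvilEiAt
  rw [pvn1z_end_forced]

/-! ## 8. (FZ) FROM THE MESH OF THE BASE IN `Wz(Z)` ALONE      (the chain may cross the own-level box off `Z⁺`: a mesh clause on the whole box is not invariant under the resampling) -/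

section fz

variable {τ : Type} {c : ℝ} {𝔓 : PvxPar τ c} {m : ℕ} {z : ℂ} {t : τ} {μ : ℝ} {C Wn Y : Set ℂ} {σ τ' : ℂ → Bool}

/-- **(D)** the gate disc with the collar `μ` lies in the part `Wz(Z)` of the windows      (a property of the INDEX) -/
def Pvn1zD (𝔓 : PvxPar τ c) (m : ℕ) (z : ℂ) (t : τ) (μ : ℝ) (Z : Set (ℤ × ℤ)) : Prop := ∀ w : ℂ, ‖w - z‖ < (𝔓.ty t).b * pvlmH m → Metric.closedBall w μ ⊆ pvilWz 𝔓 m z t Z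

theorem pvn1z_eqns_cite5 : True := by
  have := @Pvn1zD.eq_1
  trivial

/-- (D) makes the hull non empty -/
theorem Pvn1zD.ne {Z : Set (ℤ × ℤ)} (hD : Pvn1zD 𝔓 m z t μ Z) (hμ : 0 < μ) (hr : μ < (𝔓.ty t).b * pvlmH m) : Z.Nonempty := by
  have h1 : z ∈ pvilWz 𝔓 m z t Z := hD z (by rw [sub_self, norm_zero]; exact hμ.trans hr) (Metric.mem_closedBall_self hμ.le)
  have h2 : z ∈ pvtU (pvlmDel c m) (pvtN8 Z) := h1.1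
  unfold pvtU at h2
  simp only [mem_iUnion] at h2
  obtain ⟨q, ⟨q', hq', -⟩, -⟩ := h2
  exact ⟨q', hq'⟩

theorem pvn1z_Uo_of {η : Conf PvPt} (h : (pvilZo 𝔓 m z t η).Nonempty) : η ∈ pvilUo 𝔓.num (𝔓.col t) (pvilPin 𝔓 m z t) := by
  obtain ⟨q, 𝔖, h𝔖, -⟩ := h
  exact ⟨𝔖, h𝔖⟩

theorem pvn1z_Ui_of {η : Conf PvPt} (h : (pvilZi 𝔓 m z t η).Nonempty) : η ∈ pvilUi 𝔓.num (𝔓.col t) (pvilPin 𝔓 m z t) := by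
  obtain ⟨q, 𝔖, h𝔖, -⟩ := h
  exact ⟨𝔖, h𝔖⟩

/-- **(FZ), EXIT HALF** -/
theorem pvn1z_fz_o (hμ : 0 < μ) (h3 : 3 * μ ≤ pvlmDel c m) (hb : (𝔓.ty t).b * pvlmH m ≤ pviwRad 𝔓 m t) (hr : μ < (𝔓.ty t).b * pvlmH m)
    (hm : PvtrMesh μ (pvilWz 𝔓 m z t (pvilZo 𝔓 m z t (cfOf Y σ))) Y) (hD : Pvn1zD 𝔓 m z t μ (pvilZo 𝔓 m z t (cfOf Y σ)))
    (hW : pvilWz 𝔓 m z t (pvilZo 𝔓 m z t (cfOf Y σ)) ⊆ Wn) (hC : Disjoint C (pvilWz 𝔓 m z t (pvilZo 𝔓 m z t (cfOf Y σ)))) (a : ∀ v ∈ Y, v ∈ pvilFo 𝔓 m z t (cfOf Y σ) → τ' v = σ v) (ω₂ ξ : Conf PvPt)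
    (hG : DelGood (cfSites (pvbqZ C Wn Y τ' ω₂ ξ))) :
    pvilFo 𝔓 m z t (pvbqZ C Wn Y τ' ω₂ ξ) = pvilFo 𝔓 m z t (cfOf Y σ) ∧ pvilZo 𝔓 m z t (pvbqZ C Wn Y τ' ω₂ ξ) = pvilZo 𝔓 m z t (cfOf Y σ) := by
  obtain ⟨𝔖₀, h₀⟩ := pvn1z_Uo_of (hD.ne hμ hr)
  have hcore : pvilFo 𝔓 m z t (cfOf Y σ) ⊆ pvtrCore (pvlmDel c m) (pvilWz 𝔓 m z t (pvilZo 𝔓 m z t (cfOf Y σ))) := by
    rw [← pvbw_pl_Wo]
    exact pvfc7_fo_core hb h₀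
  have hFW : pvilFo 𝔓 m z t (cfOf Y σ) ⊆ pvilWz 𝔓 m z t (pvilZo 𝔓 m z t (cfOf Y σ)) := hcore.trans (pvfc7_core_sub (pvlm_Del_pos c m).le _)
  have hFY : pvilFo 𝔓 m z t (cfOf Y σ) ⊆ Y := fun v hv => by
    have := pvfc7_fzO_sites hv
    rwa [cfOf_sites] at this
  have eU : pvfc7Uo (pvlmDel c m) (𝔓.num.rho * pvlmH m) 𝔓.num (𝔓.col t) (pvilPin 𝔓 m z t) (pvilWz 𝔓 m z t (pvilZo 𝔓 m z t (cfOf Y σ))) (cfOf Y σ) = pvilWz 𝔓 m z t (pvilZo 𝔓 m z t (cfOf Y σ)) :=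
    inter_eq_right.2 inter_subset_left
  have hA := pvbw_pl_agr (τ' := τ') hW hC hFW hFY a ω₂ ξ
  rw [← eU] at hA
  obtain ⟨-, -, -, e1, e2⟩ := pvfc7_out_hull (E := pvilWz 𝔓 m z t (pvilZo 𝔓 m z t (cfOf Y σ))) (ϱ := 𝔓.num.rho * pvlmH m) (pvlm_Del_pos c m) hμ h3 (pvfc7_pin_fr 𝔓 m z t) hG h₀
    (by rw [cfOf_sites]; exact hm) (fun a ha => hcore ha) hD hr hA
  exact ⟨e1, e2⟩

/-- **(FZ), ENTRANCE HALF** -/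
theorem pvn1z_fz_i (hμ : 0 < μ) (h3 : 3 * μ ≤ pvlmDel c m) (hb : (𝔓.ty t).b * pvlmH m ≤ pviwRad 𝔓 m t) (hr : μ < (𝔓.ty t).b * pvlmH m)
    (hm : PvtrMesh μ (pvilWz 𝔓 m z t (pvilZi 𝔓 m z t (cfOf Y σ))) Y) (hD : Pvn1zD 𝔓 m z t μ (pvilZi 𝔓 m z t (cfOf Y σ)))
    (hW : pvilWz 𝔓 m z t (pvilZi 𝔓 m z t (cfOf Y σ)) ⊆ Wn) (hC : Disjoint C (pvilWz 𝔓 m z t (pvilZi 𝔓 m z t (cfOf Y σ)))) (a : ∀ v ∈ Y, v ∈ pvilFi 𝔓 m z t (cfOf Y σ) → τ' v = σ v) (ω₂ ξ : Conf PvPt)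
    (hG : DelGood (cfSites (pvbqZ C Wn Y τ' ω₂ ξ))) :
    pvilFi 𝔓 m z t (pvbqZ C Wn Y τ' ω₂ ξ) = pvilFi 𝔓 m z t (cfOf Y σ) ∧ pvilZi 𝔓 m z t (pvbqZ C Wn Y τ' ω₂ ξ) = pvilZi 𝔓 m z t (cfOf Y σ) := by
  obtain ⟨𝔖₀, h₀⟩ := pvn1z_Ui_of (hD.ne hμ hr)
  have hcore : pvilFi 𝔓 m z t (cfOf Y σ) ⊆ pvtrCore (pvlmDel c m) (pvilWz 𝔓 m z t (pvilZi 𝔓 m z t (cfOf Y σ))) := by
    rw [← pvbw_pl_Wi]
    exact pvfc7_fi_core hb h₀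
  have hFW : pvilFi 𝔓 m z t (cfOf Y σ) ⊆ pvilWz 𝔓 m z t (pvilZi 𝔓 m z t (cfOf Y σ)) := hcore.trans (pvfc7_core_sub (pvlm_Del_pos c m).le _)
  have hFY : pvilFi 𝔓 m z t (cfOf Y σ) ⊆ Y := fun v hv => by
    have := pvfc7_fzI_sites hv
    rwa [cfOf_sites] at this
  have eU : pvfc7Ui (pvlmDel c m) (𝔓.num.rho * pvlmH m) 𝔓.num (𝔓.col t) (pvilPin 𝔓 m z t) (pvilWz 𝔓 m z t (pvilZi 𝔓 m z t (cfOf Y σ))) (cfOf Y σ) = pvilWz 𝔓 m z t (pvilZi 𝔓 m z t (cfOf Y σ)) :=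
    inter_eq_right.2 inter_subset_left
  have hA := pvbw_pl_agr (τ' := τ') hW hC hFW hFY a ω₂ ξ
  rw [← eU] at hA
  obtain ⟨-, -, -, e1, e2⟩ := pvfc7_in_hull (E := pvilWz 𝔓 m z t (pvilZi 𝔓 m z t (cfOf Y σ))) (ϱ := 𝔓.num.rho * pvlmH m) (pvlm_Del_pos c m) hμ h3 (pvfc7_pin_fr 𝔓 m z t) hG h₀
    (by rw [cfOf_sites]; exact hm) (fun a ha => hcore ha) hD hr hA
  exact ⟨e1, e2⟩

variable {𝔈 : PvieEng τ} {ε : ℝ} {m0 : ℕ} {Cth : ℝ} {r κs : ℕ → ℝ} {p : Conf PvPt → Prop}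

/-- **`PvbqPlain` OF THE FIRST LINK AT THE BASE DATA OF `cfOf Y σ`**, mesh of the base in `Wz(Z)` only      (`pvbw_pl_o_wf` of 197 + (FZ)) -/
theorem pvn1z_pl_o (hE : PvieEng.Wf 𝔓 𝔈 m0 Cth r κs) (hm0 : m0 ≤ m) (ht : pviwTyOk 𝔓 t) (hd : ‖(𝔓.Γ m).dout t‖ = 1) (W : ∀ Y : Set ℂ, (delbPl Y).Dart → ℂ)
    (hμ : 0 < μ) (h3 : 3 * μ ≤ pvlmDel c m) (hb : (𝔓.ty t).b * pvlmH m ≤ pviwRad 𝔓 m t) (hr : μ < (𝔓.ty t).b * pvlmH m)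
    (hm : PvtrMesh μ (pvilWz 𝔓 m z t (pvilZo 𝔓 m z t (cfOf Y σ))) Y) (hD : Pvn1zD 𝔓 m z t μ (pvilZo 𝔓 m z t (cfOf Y σ))) (hp : ∀ ζ, p ζ → DelGood (cfSites ζ))
    (hC : pvieSh z (𝔈.oK m t) ∪ pvieDoor 𝔈 m ε (pvieZo 𝔓 m z t) ((𝔓.Γ m).dout t) ⊆ C) (hCW : Disjoint C (pvilWz 𝔓 m z t (pvilZo 𝔓 m z t (cfOf Y σ)))) :
    PvbqPlain C (pvilWno 𝔓 𝔈 m ε z t (pvilZo 𝔓 m z t (cfOf Y σ))) p (pvilMo 𝔓 𝔈 m ε z t (pvilZo 𝔓 m z t (cfOf Y σ))) ((pvilLo 𝔓 𝔈 m z t).X 𝔓.num (𝔓.col t) fun η => W (cfSites η)) Y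
      (pvilFo 𝔓 m z t (cfOf Y σ)) (pvieSh z (𝔈.oM m t) \ pvilFo 𝔓 m z t (cfOf Y σ)) σ := by
  refine pvbw_pl_o_wf hE hm0 ht hd W hC fun τ' a ω₂ ξ c _ v hv _ _ _ => Or.inl ?_
  have hW : pvilWz 𝔓 m z t (pvilZo 𝔓 m z t (cfOf Y σ)) ⊆ pvilWno 𝔓 𝔈 m ε z t (pvilZo 𝔓 m z t (cfOf Y σ)) := fun v hv => Or.inl (Or.inl (Or.inl hv))
  rw [(pvn1z_fz_o hμ h3 hb hr hm hD hW hCW a ω₂ ξ (hp _ c)).1] at hv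
  exact hv

/-- **`PvbqPlain` OF THE LAST LINK AT THE BASE DATA OF `cfOf Y σ`**, mesh of the base in `Wz(Z)` only -/
theorem pvn1z_pl_i (hE : PvieEng.Wf 𝔓 𝔈 m0 Cth r κs) (hm0 : m0 ≤ m) (ht : pviwTyOk 𝔓 t) (hd : ‖(𝔓.Γ m).din t‖ = 1) (W : ∀ Y : Set ℂ, (delbPl Y).Dart → ℂ)
    (hμ : 0 < μ) (h3 : 3 * μ ≤ pvlmDel c m) (hb : (𝔓.ty t).b * pvlmH m ≤ pviwRad 𝔓 m t) (hr : μ < (𝔓.ty t).b * pvlmH m)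
    (hm : PvtrMesh μ (pvilWz 𝔓 m z t (pvilZi 𝔓 m z t (cfOf Y σ))) Y) (hD : Pvn1zD 𝔓 m z t μ (pvilZi 𝔓 m z t (cfOf Y σ))) (hp : ∀ ζ, p ζ → DelGood (cfSites ζ))
    (hC : pvieSh z (𝔈.iK m t) ∪ pvieDoor 𝔈 m ε (pvieZi 𝔓 m z t) ((𝔓.Γ m).din t) ⊆ C) (hCW : Disjoint C (pvilWz 𝔓 m z t (pvilZi 𝔓 m z t (cfOf Y σ)))) :
    PvbqPlain C (pvilWni 𝔓 𝔈 m ε z t (pvilZi 𝔓 m z t (cfOf Y σ))) p (pvilMi 𝔓 𝔈 m ε z t (pvilZi 𝔓 m z t (cfOf Y σ))) ((pvilLi 𝔓 𝔈 m z t).X 𝔓.num (𝔓.col t) fun η => W (cfSites η)) Y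
      (pvilFi 𝔓 m z t (cfOf Y σ)) (pvieSh z (𝔈.iM m t) \ pvilFi 𝔓 m z t (cfOf Y σ)) σ := by
  refine pvbw_pl_i_wf hE hm0 ht hd W hC fun τ' a ω₂ ξ c _ v hv _ _ _ => Or.inl ?_
  have hW : pvilWz 𝔓 m z t (pvilZi 𝔓 m z t (cfOf Y σ)) ⊆ pvilWni 𝔓 𝔈 m ε z t (pvilZi 𝔓 m z t (cfOf Y σ)) := fun v hv => Or.inl (Or.inl (Or.inl hv))
  rw [(pvn1z_fz_i hμ h3 hb hr hm hD hW hCW a ω₂ ξ (hp _ c)).1] at hv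
  exact hv

end fz

/-! ## 9. (S1') THE GUARD WITH ITS COLOUR BLIND CLAUSES IS STABLE -/

section top

variable {τ : Type} {c : ℝ} (𝔓 : PvxPar τ c) (𝔈 : PvieEng τ) (m : ℕ) (π : PvxIx τ) (ε : ℝ)

/-- **THE COLOUR BLIND CLAUSES OF THE GUARD** (properties of the SET of sites, read off the resampled region of the chain): generic geometry, mesh `δ_m / 3` in the parts `Wz` of the two windows, (D) at the two pins -/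
def pvn1zGn (Y : Set ℂ) : Prop :=
  pvn1zGen 𝔓 𝔈 m ε π Y ∧
  PvtrMesh (pvlmDel c m / 3) (pvilWz 𝔓 m π.p.zt π.p.tt ↑π.Zt) Y ∧ PvtrMesh (pvlmDel c m / 3) (pvilWz 𝔓 m π.p.zs π.p.ts ↑π.Zs) Y ∧
  Pvn1zD 𝔓 m π.p.zt π.p.tt (pvlmDel c m / 3) ↑π.Zt ∧ Pvn1zD 𝔓 m π.p.zs π.p.ts (pvlmDel c m / 3) ↑π.Zs

/-- **THE GUARD OF RECORD, v3** = the four clauses of `pvn1aS` v0 (159) + the colour blind clauses -/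
def pvn1zS (qf : ℝ≥0∞) : Set (Conf PvPt) :=
  {ζ | pvxnFl (𝔓.col π.p.ts) ζ ∈ pvrgFo 𝔓 𝔈 qf m ε π.p.zt π.p.tt ∧ pvxnFl (𝔓.col π.p.ts) ζ ∈ pvrgFi 𝔓 𝔈 qf m ε π.p.zs π.p.ts ∧
    pvilZo 𝔓 m π.p.zt π.p.tt (pvxnFl (𝔓.col π.p.ts) ζ) = (π.Zt : Set (ℤ × ℤ)) ∧ pvilZi 𝔓 m π.p.zs π.p.ts (pvxnFl (𝔓.col π.p.ts) ζ) = (π.Zs : Set (ℤ × ℤ)) ∧
    pvn1zGn 𝔓 𝔈 m π ε (cfSites ζ)}

/-- **THE DETERMINISTIC DEBTS OF (S1')** at `(m, π, ε)`: kit, doors, types, numbers, Borel sets, the chain against the windows, the mouths against the own tile and door -/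
structure Pvn1zGeo : Prop where
  wf : ∃ (Cth : ℝ) (r κs : ℕ → ℝ), PvieEng.Wf 𝔓 𝔈 𝔓.m0 Cth r κs
  lev : 𝔓.m0 ≤ m
  kit : (𝔈.kit m ε).WF
  do1 : ‖(𝔓.Γ m).dout π.p.tt‖ = 1
  di1 : ‖(𝔓.Γ m).din π.p.ts‖ = 1
  tyt : pviwTyOk 𝔓 π.p.tt
  tys : pviwTyOk 𝔓 π.p.ts
  bt : (𝔓.ty π.p.tt).b * pvlmH m ≤ pviwRad 𝔓 m π.p.tt
  bs : (𝔓.ty π.p.ts).b * pvlmH m ≤ pviwRad 𝔓 m π.p.ts
  rt : pvlmDel c m / 3 < (𝔓.ty π.p.tt).b * pvlmH m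
  rs : pvlmDel c m / 3 < (𝔓.ty π.p.ts).b * pvlmH m
  mWo : MeasurableSet (pvilWno 𝔓 𝔈 m ε π.p.zt π.p.tt ↑π.Zt)
  mWi : MeasurableSet (pvilWni 𝔓 𝔈 m ε π.p.zs π.p.ts ↑π.Zs)
  mKo : MeasurableSet (pvieSh π.p.zt (𝔈.oK m π.p.tt))
  mKi : MeasurableSet (pvieSh π.p.zs (𝔈.iK m π.p.ts))
  mDo : MeasurableSet (pvkyDoor (𝔈.kit m ε) (pvieZo 𝔓 m π.p.zt π.p.tt) ((𝔓.Γ m).dout π.p.tt))
  mDi : MeasurableSet (pvkyDoor (𝔈.kit m ε) (pvieZi 𝔓 m π.p.zs π.p.ts) ((𝔓.Γ m).din π.p.ts))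
  /-- the own tile and door belong to the chain -/
  subo : pvieSh π.p.zt (𝔈.oK m π.p.tt) ∪ pvieDoor 𝔈 m ε (pvieZo 𝔓 m π.p.zt π.p.tt) ((𝔓.Γ m).dout π.p.tt) ⊆ pvieCc 𝔓 𝔈 m ε π.p
  subi : pvieSh π.p.zs (𝔈.iK m π.p.ts) ∪ pvieDoor 𝔈 m ε (pvieZi 𝔓 m π.p.zs π.p.ts) ((𝔓.Γ m).din π.p.ts) ⊆ pvieCc 𝔓 𝔈 m ε π.p
  /-- the chain misses `Z⁺ ∩ box` at both pins      [148 `pvzu_clear_pat`] -/
  clro : Disjoint (pvieCc 𝔓 𝔈 m ε π.p) (pvilWz 𝔓 m π.p.zt π.p.tt ↑π.Zt)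
  clri : Disjoint (pvieCc 𝔓 𝔈 m ε π.p) (pvilWz 𝔓 m π.p.zs π.p.ts ↑π.Zs)
  /-- of the chain a window meets the own tile and door only      [148 `pvzu_win_o`, `pvzu_win_i`; 121] -/
  wino : pvieCc 𝔓 𝔈 m ε π.p ∩ pvilWno 𝔓 𝔈 m ε π.p.zt π.p.tt ↑π.Zt =
    (pvieSh π.p.zt (𝔈.oK m π.p.tt) ∪ pvkyDoor (𝔈.kit m ε) (pvieZo 𝔓 m π.p.zt π.p.tt) ((𝔓.Γ m).dout π.p.tt)) ∩ pvilWno 𝔓 𝔈 m ε π.p.zt π.p.tt ↑π.Zt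
  wini : pvieCc 𝔓 𝔈 m ε π.p ∩ pvilWni 𝔓 𝔈 m ε π.p.zs π.p.ts ↑π.Zs =
    (pvieSh π.p.zs (𝔈.iK m π.p.ts) ∪ pvkyDoor (𝔈.kit m ε) (pvieZi 𝔓 m π.p.zs π.p.ts) ((𝔓.Γ m).din π.p.ts)) ∩ pvilWni 𝔓 𝔈 m ε π.p.zs π.p.ts ↑π.Zs
  yo : Disjoint (pvieSh π.p.zt (𝔈.oM m π.p.tt)) (pvieSh π.p.zt (𝔈.oK m π.p.tt) ∪ pvkyDoor (𝔈.kit m ε) (pvieZo 𝔓 m π.p.zt π.p.tt) ((𝔓.Γ m).dout π.p.tt))
  yi : Disjoint (pvieSh π.p.zs (𝔈.iM m π.p.ts)) (pvieSh π.p.zs (𝔈.iK m π.p.ts) ∪ pvkyDoor (𝔈.kit m ε) (pvieZi 𝔓 m π.p.zs π.p.ts) ((𝔓.Γ m).din π.p.ts))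

theorem pvn1z_eqns_cite4 : True := by
  have := @pvn1zS.eq_1; have := @pvn1zGn.eq_1
  trivial

variable {𝔓 𝔈 m π ε}

/-- (rd) the colour blind clauses do not read the resampled region -/
theorem pvn1z_gn_Yc (hg : Pvn1zGeo 𝔓 𝔈 m π ε) (Y Y₂ : Set ℂ) : pvn1zGn 𝔓 𝔈 m π ε (Y \ pvieCc 𝔓 𝔈 m ε π.p ∪ Y₂ ∩ pvieCc 𝔓 𝔈 m ε π.p) ↔ pvn1zGn 𝔓 𝔈 m π ε Y := by
  have key : ∀ E : Set ℂ, Disjoint (pvieCc 𝔓 𝔈 m ε π.p) E → (Y \ pvieCc 𝔓 𝔈 m ε π.p ∪ Y₂ ∩ pvieCc 𝔓 𝔈 m ε π.p) ∩ E = Y ∩ E := by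
    intro E hd
    ext v
    simp only [mem_inter_iff, mem_union, Set.mem_sdiff]
    constructor
    · rintro ⟨⟨h1, -⟩ | ⟨-, h2⟩, h3⟩
      · exact ⟨h1, h3⟩
      · exact absurd h3 (disjoint_left.1 hd h2)
    · rintro ⟨h1, h3⟩
      exact ⟨Or.inl ⟨h1, fun h2 => disjoint_left.1 hd h2 h3⟩, h3⟩
  unfold pvn1zGn
  rw [pvn1z_gen_Yc, pvtr_mesh_congr (key _ hg.clro), pvtr_mesh_congr (key _ hg.clri)]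

/-- plain colour blindness of the first link at the hull of the pattern -/
theorem Pvn1zGeo.plain_o (hg : Pvn1zGeo 𝔓 𝔈 m π ε) {Y : Set ℂ} {σ : ℂ → Bool} (h3 : pvilZo 𝔓 m π.p.zt π.p.tt (cfOf Y σ) = (π.Zt : Set (ℤ × ℤ)))
    (hm : PvtrMesh (pvlmDel c m / 3) (pvilWz 𝔓 m π.p.zt π.p.tt ↑π.Zt) Y) (hD : Pvn1zD 𝔓 m π.p.zt π.p.tt (pvlmDel c m / 3) ↑π.Zt) :
    PvbqPlain (pvieCc 𝔓 𝔈 m ε π.p) (pvilWno 𝔓 𝔈 m ε π.p.zt π.p.tt ↑π.Zt) (pvn1zPo 𝔓 𝔈 m ε pvilQ π.p.zt π.p.tt ↑π.Zt) (pvilMo 𝔓 𝔈 m ε π.p.zt π.p.tt ↑π.Zt)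
      ((pvilLo 𝔓 𝔈 m π.p.zt π.p.tt).X 𝔓.num (𝔓.col π.p.tt) pvilQ) Y (pvilFo 𝔓 m π.p.zt π.p.tt (cfOf Y σ)) (pvieSh π.p.zt (𝔈.oM m π.p.tt) \ pvilFo 𝔓 m π.p.zt π.p.tt (cfOf Y σ)) σ := by
  obtain ⟨Cth, r, κs, hE⟩ := hg.wf
  have hδ := pvlm_Del_pos c m
  have := pvn1z_pl_o (Y := Y) (σ := σ) (z := π.p.zt) (ε := ε) (C := pvieCc 𝔓 𝔈 m ε π.p) (p := pvn1zPo 𝔓 𝔈 m ε pvilQ π.p.zt π.p.tt ↑π.Zt) (μ := pvlmDel c m / 3) hE hg.lev hg.tyt hg.do1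
    (fun Y : Set ℂ => (pvbwT Y).qpart Subtype.val) (by positivity) (by linarith) hg.bt hg.rt (by rw [h3]; exact hm) (by rw [h3]; exact hD) (fun ζ h => h.2.del) hg.subo (by rw [h3]; exact hg.clro)
  rw [h3] at this
  exact this

/-- plain colour blindness of the last link at the hull of the pattern -/
theorem Pvn1zGeo.plain_i (hg : Pvn1zGeo 𝔓 𝔈 m π ε) {Y : Set ℂ} {σ : ℂ → Bool} (h3 : pvilZi 𝔓 m π.p.zs π.p.ts (cfOf Y σ) = (π.Zs : Set (ℤ × ℤ)))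
    (hm : PvtrMesh (pvlmDel c m / 3) (pvilWz 𝔓 m π.p.zs π.p.ts ↑π.Zs) Y) (hD : Pvn1zD 𝔓 m π.p.zs π.p.ts (pvlmDel c m / 3) ↑π.Zs) :
    PvbqPlain (pvieCc 𝔓 𝔈 m ε π.p) (pvilWni 𝔓 𝔈 m ε π.p.zs π.p.ts ↑π.Zs) (pvn1zPi 𝔓 𝔈 m ε pvilQ π.p.zs π.p.ts ↑π.Zs) (pvilMi 𝔓 𝔈 m ε π.p.zs π.p.ts ↑π.Zs)
      ((pvilLi 𝔓 𝔈 m π.p.zs π.p.ts).X 𝔓.num (𝔓.col π.p.ts) pvilQ) Y (pvilFi 𝔓 m π.p.zs π.p.ts (cfOf Y σ)) (pvieSh π.p.zs (𝔈.iM m π.p.ts) \ pvilFi 𝔓 m π.p.zs π.p.ts (cfOf Y σ)) σ := by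
  obtain ⟨Cth, r, κs, hE⟩ := hg.wf
  have hδ := pvlm_Del_pos c m
  have := pvn1z_pl_i (Y := Y) (σ := σ) (z := π.p.zs) (ε := ε) (C := pvieCc 𝔓 𝔈 m ε π.p) (p := pvn1zPi 𝔓 𝔈 m ε pvilQ π.p.zs π.p.ts ↑π.Zs) (μ := pvlmDel c m / 3) hE hg.lev hg.tys hg.di1
    (fun Y : Set ℂ => (pvbwT Y).qpart Subtype.val) (by positivity) (by linarith) hg.bs hg.rs (by rw [h3]; exact hm) (by rw [h3]; exact hD) (fun ζ h => h.2.del) hg.subi (by rw [h3]; exact hg.clri)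
  rw [h3] at this
  exact this

/-- **THE TWO BLIND ENDS AT A BASE OF THE GUARD** (= the two `PvbqEnd` of `PvkyChain.pvbq_all`, `.pvbq_enl` of 141) -/
theorem Pvn1zGeo.end_o (hg : Pvn1zGeo 𝔓 𝔈 m π ε) {Y : Set ℂ} {σ : ℂ → Bool} (h3 : pvilZo 𝔓 m π.p.zt π.p.tt (cfOf Y σ) = (π.Zt : Set (ℤ × ℤ))) (h5 : pvn1zGn 𝔓 𝔈 m π ε Y) :
    PvbqEnd ε (pvieCc 𝔓 𝔈 m ε π.p) (pvkyDoor (𝔈.kit m ε) (pvieZo 𝔓 m π.p.zt π.p.tt) ((𝔓.Γ m).dout π.p.tt)) (pvilEo 𝔓 𝔈 m ε pvilQ π.p.zt π.p.tt ↑π.Zt (pvilFo 𝔓 m π.p.zt π.p.tt (cfOf Y σ))) Y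
      (pvilFo 𝔓 m π.p.zt π.p.tt (cfOf Y σ)) σ :=
  pvn1z_end_o (w := pvilQ) π.Zt.finite_toSet hg.mWo (hg.mKo.union hg.mDo) hg.wino h5.1.1 (hg.plain_o h3 h5.2.1 h5.2.2.2.1)

theorem Pvn1zGeo.end_i (hg : Pvn1zGeo 𝔓 𝔈 m π ε) {Y : Set ℂ} {σ : ℂ → Bool} (h4 : pvilZi 𝔓 m π.p.zs π.p.ts (cfOf Y σ) = (π.Zs : Set (ℤ × ℤ))) (h5 : pvn1zGn 𝔓 𝔈 m π ε Y) :
    PvbqEnd ε (pvieCc 𝔓 𝔈 m ε π.p) (pvkyDoor (𝔈.kit m ε) (pvieZi 𝔓 m π.p.zs π.p.ts) ((𝔓.Γ m).din π.p.ts)) (pvilEi 𝔓 𝔈 m ε pvilQ π.p.zs π.p.ts ↑π.Zs (pvilFi 𝔓 m π.p.zs π.p.ts (cfOf Y σ))) Y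
      (pvilFi 𝔓 m π.p.zs π.p.ts (cfOf Y σ)) σ :=
  pvn1z_end_i (w := pvilQ) π.Zs.finite_toSet hg.mWi (hg.mKi.union hg.mDi) hg.wini h5.1.2 (hg.plain_i h4 h5.2.2.1 h5.2.2.2.2)

/-- **(S1'), CLAUSE FORM** -/
theorem pvn1z_stab_cl (hW : 𝔓.Wf) (hcol : 𝔓.col π.p.ts = 𝔓.col π.p.tt) (hg : Pvn1zGeo 𝔓 𝔈 m π ε) (qf : ℝ≥0∞) {Y : Set ℂ} {𝔇 : PvwDat (delbPl Y).toMap} {σ σ' : ↥Y → Bool}
    (hY : DelGood Y) (hOk : 𝔇.Ok Subtype.val 𝔓.num (pvlmH m) (𝔓.reg m π)) (hc : σ ∈ 𝔇.Cyl) (hs : ∀ v ∈ 𝔇.fzY, σ' v = σ v)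
    (h1 : pvxnFl (𝔓.col π.p.ts) (pvn1aCf Y σ) ∈ pvrgFo 𝔓 𝔈 qf m ε π.p.zt π.p.tt) (h2 : pvxnFl (𝔓.col π.p.ts) (pvn1aCf Y σ) ∈ pvrgFi 𝔓 𝔈 qf m ε π.p.zs π.p.ts)
    (h3 : pvilZo 𝔓 m π.p.zt π.p.tt (pvxnFl (𝔓.col π.p.ts) (pvn1aCf Y σ)) = (π.Zt : Set (ℤ × ℤ))) (h4 : pvilZi 𝔓 m π.p.zs π.p.ts (pvxnFl (𝔓.col π.p.ts) (pvn1aCf Y σ)) = (π.Zs : Set (ℤ × ℤ)))
    (h5 : pvn1zGn 𝔓 𝔈 m π ε Y) :
    pvxnFl (𝔓.col π.p.ts) (pvn1aCf Y σ') ∈ pvrgFo 𝔓 𝔈 qf m ε π.p.zt π.p.tt ∧ pvxnFl (𝔓.col π.p.ts) (pvn1aCf Y σ') ∈ pvrgFi 𝔓 𝔈 qf m ε π.p.zs π.p.ts ∧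
    pvilZo 𝔓 m π.p.zt π.p.tt (pvxnFl (𝔓.col π.p.ts) (pvn1aCf Y σ')) = (π.Zt : Set (ℤ × ℤ)) ∧ pvilZi 𝔓 m π.p.zs π.p.ts (pvxnFl (𝔓.col π.p.ts) (pvn1aCf Y σ')) = (π.Zs : Set (ℤ × ℤ)) := by
  obtain ⟨b1, b2, b3, b4⟩ := pvn1z_base (σ' := σ') hW hY hOk hc hs (𝔓.col π.p.ts) hcol.symm rfl
  have hcnt : Y.Countable := hY.lf.countable
  have Fo := pvn1z_Fo_dat (σ := σ) hW hY hOk hc
  rw [← hcol] at Fo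
  have Fi := pvn1z_Fi_dat (σ := σ) hW hY hOk hc
  have do0 : (𝔓.Γ m).dout π.p.tt ≠ 0 := fun h => by have := hg.do1; rw [h, norm_zero] at this; exact zero_ne_one this
  have di0 : (𝔓.Γ m).din π.p.ts ≠ 0 := fun h => by have := hg.di1; rw [h, norm_zero] at this; exact zero_ne_one this
  refine ⟨?_, ?_, b2.trans h3, b4.trans h4⟩
  · -- the first link
    have h1' := (pvn1z_mem_Fo _ _ _ _ _ _ _ _).1 h1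
    rw [pvn1z_mem_Fo, b1, b2]
    rw [pvn1z_fl_cf] at h1' h3 Fo ⊢
    rw [pvn1z_fl_cf]
    rw [h3] at h1' ⊢
    refine (pvn1z_forced (b := 𝔓.col π.p.tt) (q := qf) hg.kit do0 hcnt (hg.end_o h3 h5) hg.mKo pvn1z_rA_o pvn1z_rX_o (hg.yo.mono_left sdiff_subset) ?_).1 h1'
    intro v hv hF
    obtain ⟨u, hu, rfl⟩ := Fo hF
    rw [pvn1z_C_mem _ σ' u.2, pvn1z_C_mem _ σ u.2, hs u (Or.inl hu)]
  · -- the last link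
    have h2' := (pvn1z_mem_Fi _ _ _ _ _ _ _ _).1 h2
    rw [pvn1z_mem_Fi, b3, b4]
    rw [pvn1z_fl_cf] at h2' h4 Fi ⊢
    rw [pvn1z_fl_cf]
    rw [h4] at h2' ⊢
    refine (pvn1z_forced (b := 𝔓.col π.p.ts) (q := qf) hg.kit di0 hcnt (hg.end_i h4 h5) hg.mKi pvn1z_rA_i pvn1z_rX_i (hg.yi.mono_left sdiff_subset) ?_).1 h2'
    intro v hv hF
    obtain ⟨u, hu, rfl⟩ := Fi hF
    rw [pvn1z_C_mem _ σ' u.2, pvn1z_C_mem _ σ u.2, hs u (Or.inr hu)]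

/-- **(S1')** at the guard of record v3 -/
theorem pvn1z_stab (hW : 𝔓.Wf) (hcol : 𝔓.col π.p.ts = 𝔓.col π.p.tt) (hg : Pvn1zGeo 𝔓 𝔈 m π ε) (qf : ℝ≥0∞) {Y : Set ℂ} {𝔇 : PvwDat (delbPl Y).toMap} {σ σ' : ↥Y → Bool}
    (hY : DelGood Y) (hOk : 𝔇.Ok Subtype.val 𝔓.num (pvlmH m) (𝔓.reg m π)) (hc : σ ∈ 𝔇.Cyl) (hs : ∀ v ∈ 𝔇.fzY, σ' v = σ v) (hS : pvn1aCf Y σ ∈ pvn1zS 𝔓 𝔈 m π ε qf) :
    pvn1aCf Y σ' ∈ pvn1zS 𝔓 𝔈 m π ε qf := by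
  obtain ⟨h1, h2, h3, h4, h5⟩ := hS
  have e5 : cfSites (pvn1aCf Y σ) = Y := cfOf_sites _ _
  have e5' : cfSites (pvn1aCf Y σ') = Y := cfOf_sites _ _
  rw [e5] at h5
  obtain ⟨a1, a2, a3, a4⟩ := pvn1z_stab_cl hW hcol hg qf hY hOk hc hs h1 h2 h3 h4 h5
  exact ⟨a1, a2, a3, a4, by rw [e5']; exact h5⟩

end top

/-! ## 10. (fit) THE COLOUR BLIND CLAUSES AT A CONFIGURATION WHICH CARRIES THE TWO HALF STATES, ON THE CERTIFICATE `pvrgB` OF THE TWO BOXES -/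

/-- a disc whose sites carry `δ`-balls inside `U` lies in `U` with its collar, on the mesh -/
theorem pvn1z_D_core {z : ℂ} {ρ μ δ : ℝ} {Y E U : Set ℂ} (hμ : 0 < μ) (h3 : 3 * μ ≤ δ) (hr : μ < ρ) (hmesh : PvtrMesh μ E Y) (hdisc : ∀ w, ‖w - z‖ < ρ → Metric.closedBall w μ ⊆ E)
    (hfz : ∀ a ∈ Y, ‖a - z‖ < ρ → Metric.closedBall a δ ⊆ U) : ∀ w, ‖w - z‖ < ρ → Metric.closedBall w μ ⊆ U := by
  intro w hw v hv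
  rw [mem_closedBall_iff_norm] at hv
  obtain ⟨w', h1, h2⟩ : ∃ w' : ℂ, ‖w - w'‖ ≤ μ ∧ ‖w' - z‖ + μ < ρ := by
    by_cases hc : ‖w - z‖ ≤ μ
    · exact ⟨z, hc, by rw [sub_self, norm_zero, zero_add]; exact hr⟩
    · have hc' : μ < ‖w - z‖ := not_le.1 hc
      have hpos : 0 < ‖w - z‖ := hμ.trans hc'
      refine ⟨w - ((μ / ‖w - z‖ : ℝ) : ℂ) * (w - z), ?_, ?_⟩
      · rw [sub_sub_cancel, norm_mul, Complex.norm_real, Real.norm_eq_abs, abs_of_pos (div_pos hμ hpos), div_mul_cancel₀ _ hpos.ne']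
      · have e : w - ((μ / ‖w - z‖ : ℝ) : ℂ) * (w - z) - z = ((1 - μ / ‖w - z‖ : ℝ) : ℂ) * (w - z) := by push_cast; ring
        have h0 : 0 < 1 - μ / ‖w - z‖ := by rw [sub_pos, div_lt_one hpos]; exact hc'
        rw [e, norm_mul, Complex.norm_real, Real.norm_eq_abs, abs_of_pos h0, sub_mul, one_mul, div_mul_cancel₀ _ hpos.ne']
        linarith
  obtain ⟨a, ha, h4⟩ := hmesh w' (hdisc w' (by linarith))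
  have h5 : ‖a - z‖ < ρ := by
    have : ‖a - z‖ ≤ ‖w' - a‖ + ‖w' - z‖ := by
      have e : a - z = -(w' - a) + (w' - z) := by ring
      rw [e]
      exact (norm_add_le _ _).trans (by rw [norm_neg])
    linarith
  refine hfz a ha h5 ?_
  rw [mem_closedBall_iff_norm]
  have e : v - a = (v - w) + (w - w') + (w' - a) := by ring
  rw [e]
  have := norm_add₃_le (a := v - w) (b := w - w') (c := w' - a)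
  linarith

section fit

variable {τ : Type} {c : ℝ} {𝔓 : PvxPar τ c} {𝔈 : PvieEng τ} {m : ℕ} {z : ℂ} {t : τ} {η₀ : Conf PvPt}

theorem pvn1z_box_disc (hb : (𝔓.ty t).b * pvlmH m ≤ pviwRad 𝔓 m t) : ∀ w, ‖w - z‖ < (𝔓.ty t).b * pvlmH m → Metric.closedBall w (pvlmDel c m / 3) ⊆ pvieSh z (pviwBox 𝔓 m t) := fun w hw =>
  (Metric.closedBall_subset_closedBall (by have := pvlm_Del_pos c m; linarith)).trans (pvfc7_ball_box (δ := pvlmDel c m) (pvfc7_disc_sq (hw.le.trans hb)))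

/-- **(D) HOLDS AT THE HULL OF A CARRIED EXIT HALF STATE**, on the certificate of the box -/
theorem pvn1z_D_o (hb : (𝔓.ty t).b * pvlmH m ≤ pviwRad 𝔓 m t) (hr : pvlmDel c m / 3 < (𝔓.ty t).b * pvlmH m) (hB : η₀ ∈ pvrgB 𝔓 m z t) (h₀ : η₀ ∈ pvilUo 𝔓.num (𝔓.col t) (pvilPin 𝔓 m z t)) :
    Pvn1zD 𝔓 m z t (pvlmDel c m / 3) (pvilZo 𝔓 m z t η₀) := by
  obtain ⟨𝔖₀, h₀⟩ := h₀
  have hδ := pvlm_Del_pos c m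
  refine pvn1z_D_core (δ := pvlmDel c m) (Y := cfSites η₀) (E := pvieSh z (pviwBox 𝔓 m t)) (by positivity) (by linarith) hr hB (pvn1z_box_disc hb) fun a ha hlt => ?_
  have haF : a ∈ pvilFo 𝔓 m z t η₀ := by
    unfold pvilFo
    rw [pvfc7_fzO (pvfc7_pin_fr 𝔓 m z t) h₀]
    refine ⟨⟨a, ha⟩, Or.inl (Or.inl ((pvwk_mem_core h₀.st.gate).2 ?_)), rfl⟩
    show ‖conj (pvilPin 𝔓 m z t).fr * a - conj (pvilPin 𝔓 m z t).fr * (pvilPin 𝔓 m z t).z‖ < _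
    rw [pvfc7_fr_norm (pvfc7_pin_fr 𝔓 m z t)]
    exact hlt
  have := pvfc7_fo_core hb h₀ haF
  rw [pvbw_pl_Wo] at this
  exact this

/-- **(D) HOLDS AT THE HULL OF A CARRIED ENTRANCE HALF STATE**, on the certificate of the box -/
theorem pvn1z_D_i (hb : (𝔓.ty t).b * pvlmH m ≤ pviwRad 𝔓 m t) (hr : pvlmDel c m / 3 < (𝔓.ty t).b * pvlmH m) (hB : η₀ ∈ pvrgB 𝔓 m z t) (h₀ : η₀ ∈ pvilUi 𝔓.num (𝔓.col t) (pvilPin 𝔓 m z t)) :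
    Pvn1zD 𝔓 m z t (pvlmDel c m / 3) (pvilZi 𝔓 m z t η₀) := by
  obtain ⟨𝔖₀, h₀⟩ := h₀
  have hδ := pvlm_Del_pos c m
  refine pvn1z_D_core (δ := pvlmDel c m) (Y := cfSites η₀) (E := pvieSh z (pviwBox 𝔓 m t)) (by positivity) (by linarith) hr hB (pvn1z_box_disc hb) fun a ha hlt => ?_
  have haF : a ∈ pvilFi 𝔓 m z t η₀ := by
    unfold pvilFi
    rw [pvfc7_fzI (pvfc7_pin_fr 𝔓 m z t) h₀]
    refine ⟨⟨a, ha⟩, Or.inl (Or.inl ((pvwk_mem_core h₀.st.gate).2 ?_)), rfl⟩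
    show ‖conj (pvilPin 𝔓 m z t).fr * a - conj (pvilPin 𝔓 m z t).fr * (pvilPin 𝔓 m z t).z‖ < _
    rw [pvfc7_fr_norm (pvfc7_pin_fr 𝔓 m z t)]
    exact hlt
  have := pvfc7_fi_core hb h₀ haF
  rw [pvbw_pl_Wi] at this
  exact this

/-- the certificate of the box gives the mesh in `Wz(Z)`, any `Z` -/
theorem pvn1z_mesh_Wz (hB : η₀ ∈ pvrgB 𝔓 m z t) (Z : Set (ℤ × ℤ)) : PvtrMesh (pvlmDel c m / 3) (pvilWz 𝔓 m z t Z) (cfSites η₀) := by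
  have h : pvilWz 𝔓 m z t Z ⊆ pvieSh z (pviwBox 𝔓 m t) := by
    rw [← pvza_Bx_eq]
    exact inter_subset_right
  exact pvrg_mesh_mono h hB

variable {π : PvxIx τ} {ε : ℝ}

/-- **(fit) THE COLOUR BLIND CLAUSES** from: generic geometry (a.s.), the certificates `pvrgB` of the two boxes (good part), the two half states with the hulls of the index (fit) -/
theorem pvn1z_gn_of (bt : (𝔓.ty π.p.tt).b * pvlmH m ≤ pviwRad 𝔓 m π.p.tt) (bs : (𝔓.ty π.p.ts).b * pvlmH m ≤ pviwRad 𝔓 m π.p.ts)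
    (rt : pvlmDel c m / 3 < (𝔓.ty π.p.tt).b * pvlmH m) (rs : pvlmDel c m / 3 < (𝔓.ty π.p.ts).b * pvlmH m) {η : Conf PvPt} (hG : pvn1zGen 𝔓 𝔈 m ε π (cfSites η))
    (Bt : η ∈ pvrgB 𝔓 m π.p.zt π.p.tt) (Bs : η ∈ pvrgB 𝔓 m π.p.zs π.p.ts) (Uo : η ∈ pvilUo 𝔓.num (𝔓.col π.p.tt) (pvilPin 𝔓 m π.p.zt π.p.tt)) (Ui : η ∈ pvilUi 𝔓.num (𝔓.col π.p.ts) (pvilPin 𝔓 m π.p.zs π.p.ts))
    (h3 : pvilZo 𝔓 m π.p.zt π.p.tt η = (π.Zt : Set (ℤ × ℤ))) (h4 : pvilZi 𝔓 m π.p.zs π.p.ts η = (π.Zs : Set (ℤ × ℤ))) : pvn1zGn 𝔓 𝔈 m π ε (cfSites η) :=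
  ⟨hG, pvn1z_mesh_Wz Bt _, pvn1z_mesh_Wz Bs _, h3 ▸ pvn1z_D_o bt rt Bt Uo, h4 ▸ pvn1z_D_i bs rs Bs Ui⟩

end fit

end Claimed.Agent.R289
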