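-- KEEP
import Claimed.Agent.R289.Exit.N1Stab
import Claimed.Agent.R289.Exit.N1YD
import Claimed.Agent.R289.Tr.PlainR

/-!
# Row 289 (S0537), THE WALL, ROAD E, file Exit/N1StabC : (S1) AT THE GUARD (c) OF 170      (helper107; prefix `pvn1z_`, `pvn1z`, `Pvn1z` continued)

GUARD (c) (ruling N1-B of 170): `pvn1zSc` = `pvrgFo`, `pvrgFi`, hull = `π.Zt`, hull = `π.Zs`, AND `fl ζ ∈ pvyk1Gd 𝔓 𝔈 m π ε` of 214 (`SqO ∩ SqI ∩ Gen`).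
NO MESH CLAUSE, NO (D): `PvbqPlain` at the base data is `pvkfp_plain_o`, `pvkfp_plain_i` of 255 (`Tr/PlainR`): the guard v3 of `Exit/N1Stab` sec. 8-10 is NOT needed any more.

* `pvn1z_sq`        model free: a blind end has a finite second moment at `σ` iff at `σ'` (`pvbq_sq_base` of 141; same `ag ag'` as `pvn1z_forced`).
* `pvn1z_gen_iff`   `η ∈ pvyk1Gen 𝔓 𝔈 m π ε ↔ pvn1zGen 𝔓 𝔈 m ε π (cfSites η)`.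
* `Pvn1zGc`         THE DETERMINISTIC DEBTS (24 fields = `Pvn1zGeo` without `rt rs`, with `rho`);   `Pvn1zGeo.toGc`.
* `Pvn1zGc.plain_o/_i`, `.end_o/_i`   the two blind ends at a base whose hulls are those of the index, at a generic geometry.
* **`pvn1z_stab_c_cl`** (clause form), **`pvn1z_stab_c`** (at `pvn1zSc`) = (S1) PROVED over `Pvn1zGc` only.
-/

set_option autoImplicit false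
set_option linter.unusedVariables false
set_option linter.unusedSectionVars false

namespace Claimed.Agent.R289

open MeasureTheory Filter Topology Set Claims.C0465
open scoped ENNReal ComplexConjugate

/-! ## 1. MODEL FREE: `pvueSq` at two base colourings, for a blind end -/

section sq

variable {kit : PvthKit} {ε : ℝ} {e : PvkyEnd} {z d : ℂ} {C Wn Y Fz : Set ℂ} {σ σ' : ℂ → Bool}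

/-- **a blind end is square integrable in its own experiment at `σ` iff at `σ'`**, `σ' = σ` on the frozen sites -/
theorem pvn1z_sq (hY : Y.Countable) (B : PvbqEnd ε C (pvkyDoor kit z d) e Y Fz σ) (mK : MeasurableSet e.K)
    (rA : Conf.Reads (Wn ×ˢ univ) fun η => η ∈ e.A) (rX : Conf.Reads (Wn ×ˢ univ) e.X) (yC : Disjoint (e.y (cfOf Y σ)) (e.K ∪ pvkyDoor kit z d))
    (hσ : ∀ v ∈ Y, v ∈ Fz → σ' v = σ v) : cfOf Y σ ∈ pvueSq kit ε e z d ↔ cfOf Y σ' ∈ pvueSq kit ε e z d := by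
  have w : PvueWin (cfOf Y σ) (e.K ∪ pvkyDoor kit z d) e.y e (pvkyDoor kit z d) Wn :=
    ⟨B.mKD, by rw [cfOf_sites]; exact hY, mK, B.mA, B.mX, rA, rX, fun η => B.cst _ _, subset_rfl, inter_subset_left, subset_rfl, yC, fun _ _ _ _ h => h⟩
  have ag := (w.rd true).ag ε
  have ag' : PvkyAg ε true (cfOf Y σ') (e.K ∪ pvkyDoor kit z d) e.y e (pvkyFun true (e.K ∪ pvkyDoor kit z d) e.y (cfOf Y σ) e) := by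
    refine ag.pvbq_base (fun η => B.cst _ _) (by rw [B.cst (cfOf Y σ') (cfOf Y σ)]) (B.bl'.phi_ae true B.mKD hY B.mA B.mX hσ B.dis ?_ (fun v _ hv => hv) ?_)
    · intro v h1 h2
      rw [B.cst (cfOf Y σ') (cfOf Y σ)]
      exact B.dis v h1 h2
    · intro v _ hv
      rw [B.cst (cfOf Y σ') (cfOf Y σ)]
      exact hv
  exact pvbq_sq_base ag ag'

end sq

/-! ## 2. the clauses of 214 in the words of `Exit/N1Stab` -/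

section words

variable {τ : Type} {c : ℝ} (𝔓 : PvxPar τ c) (𝔈 : PvieEng τ) (m : ℕ) (π : PvxIx τ) (ε : ℝ) (z : ℂ) (t : τ) (Z : Set (ℤ × ℤ)) (η : Conf PvPt)

theorem pvn1z_Po_eq : pvyk1Po 𝔓 𝔈 m ε z t Z = pvn1zPo 𝔓 𝔈 m ε pvilQ z t Z := rfl

theorem pvn1z_Pi_eq : pvyk1Pi 𝔓 𝔈 m ε z t Z = pvn1zPi 𝔓 𝔈 m ε pvilQ z t Z := rfl

/-- (GEN) of 214 = the fifth clause of `Exit/N1Stab` -/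
theorem pvn1z_gen_iff : η ∈ pvyk1Gen 𝔓 𝔈 m π ε ↔ pvn1zGen 𝔓 𝔈 m ε π (cfSites η) := by
  unfold pvyk1Gen pvn1zGen
  rw [mem_ofPred_eq, pvn1z_Po_eq, pvn1z_Pi_eq]

theorem pvn1z_mem_SqO : η ∈ pvyk1SqO 𝔓 𝔈 m ε z t ↔ η ∈ pvueSq (𝔈.kit m ε) ε (pvilEo 𝔓 𝔈 m ε pvilQ z t (pvilZo 𝔓 m z t η) (pvilFo 𝔓 m z t η)) (pvieZo 𝔓 m z t) ((𝔓.Γ m).dout t) := by
  unfold pvyk1SqO
  rw [mem_ofPred_eq]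
  unfold pvilEoAt
  rfl

theorem pvn1z_mem_SqI : η ∈ pvyk1SqI 𝔓 𝔈 m ε z t ↔ η ∈ pvueSq (𝔈.kit m ε) ε (pvilEi 𝔓 𝔈 m ε pvilQ z t (pvilZi 𝔓 m z t η) (pvilFi 𝔓 m z t η)) (pvieZi 𝔓 m z t) ((𝔓.Γ m).din t) := by
  unfold pvyk1SqI
  rw [mem_ofPred_eq]
  unfold pvilEiAt
  rfl

end words

/-! ## 3. (S1) AT THE GUARD (c) -/

section top

variable {τ : Type} {c : ℝ} (𝔓 : PvxPar τ c) (𝔈 : PvieEng τ) (m : ℕ) (π : PvxIx τ) (ε : ℝ)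

/-- **THE GUARD (c)** (layer 2 of `Exit/N1All` v5 of 170) -/
def pvn1zSc (qf : ℝ≥0∞) : Set (Conf PvPt) :=
  {ζ | pvxnFl (𝔓.col π.p.ts) ζ ∈ pvrgFo 𝔓 𝔈 qf m ε π.p.zt π.p.tt ∧ pvxnFl (𝔓.col π.p.ts) ζ ∈ pvrgFi 𝔓 𝔈 qf m ε π.p.zs π.p.ts ∧
    pvilZo 𝔓 m π.p.zt π.p.tt (pvxnFl (𝔓.col π.p.ts) ζ) = (π.Zt : Set (ℤ × ℤ)) ∧ pvilZi 𝔓 m π.p.zs π.p.ts (pvxnFl (𝔓.col π.p.ts) ζ) = (π.Zs : Set (ℤ × ℤ)) ∧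
    pvxnFl (𝔓.col π.p.ts) ζ ∈ pvyk1Gd 𝔓 𝔈 m π ε}

/-- **THE DETERMINISTIC DEBTS OF (S1)** at `(m, π, ε)`: kit, doors, types, numbers, Borel sets, the chain against the windows, the mouths against the own tile and door -/
structure Pvn1zGc : Prop where
  wf : ∃ (Cth : ℝ) (r κs : ℕ → ℝ), PvieEng.Wf 𝔓 𝔈 𝔓.m0 Cth r κs
  lev : 𝔓.m0 ≤ m
  kit : (𝔈.kit m ε).WF
  do1 : ‖(𝔓.Γ m).dout π.p.tt‖ = 1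
  di1 : ‖(𝔓.Γ m).din π.p.ts‖ = 1
  tyt : pviwTyOk 𝔓 π.p.tt
  tys : pviwTyOk 𝔓 π.p.ts
  bt : (𝔓.ty π.p.tt).b * pvlmH m ≤ pviwRad 𝔓 m π.p.tt
  bs : (𝔓.ty π.p.ts).b * pvlmH m ≤ pviwRad 𝔓 m π.p.ts
  rho : 0 < 𝔓.num.rho3
  mWo : MeasurableSet (pvilWno 𝔓 𝔈 m ε π.p.zt π.p.tt ↑π.Zt)
  mWi : MeasurableSet (pvilWni 𝔓 𝔈 m ε π.p.zs π.p.ts ↑π.Zs)
  mKo : MeasurableSet (pvieSh π.p.zt (𝔈.oK m π.p.tt))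
  mKi : MeasurableSet (pvieSh π.p.zs (𝔈.iK m π.p.ts))
  mDo : MeasurableSet (pvkyDoor (𝔈.kit m ε) (pvieZo 𝔓 m π.p.zt π.p.tt) ((𝔓.Γ m).dout π.p.tt))
  mDi : MeasurableSet (pvkyDoor (𝔈.kit m ε) (pvieZi 𝔓 m π.p.zs π.p.ts) ((𝔓.Γ m).din π.p.ts))
  /-- the own tile and door belong to the chain      [121 `pvn1h_oK_sub`, `pvn1h_Do_sub`, `pvn1h_iK_sub`, `pvn1h_Di_sub`] -/
  subo : pvieSh π.p.zt (𝔈.oK m π.p.tt) ∪ pvieDoor 𝔈 m ε (pvieZo 𝔓 m π.p.zt π.p.tt) ((𝔓.Γ m).dout π.p.tt) ⊆ pvieCc 𝔓 𝔈 m ε π.p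
  subi : pvieSh π.p.zs (𝔈.iK m π.p.ts) ∪ pvieDoor 𝔈 m ε (pvieZi 𝔓 m π.p.zs π.p.ts) ((𝔓.Γ m).din π.p.ts) ⊆ pvieCc 𝔓 𝔈 m ε π.p
  /-- the chain misses `Z⁺ ∩ box` at both pins      [148 `pvzu_clear_pat`] -/
  clro : Disjoint (pvieCc 𝔓 𝔈 m ε π.p) (pvilWz 𝔓 m π.p.zt π.p.tt ↑π.Zt)
  clri : Disjoint (pvieCc 𝔓 𝔈 m ε π.p) (pvilWz 𝔓 m π.p.zs π.p.ts ↑π.Zs)
  /-- of the chain a window meets the own tile and door only      [121 `pvn1h_win_o_reg`, `pvn1h_win_i_reg`] -/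
  wino : pvieCc 𝔓 𝔈 m ε π.p ∩ pvilWno 𝔓 𝔈 m ε π.p.zt π.p.tt ↑π.Zt =
    (pvieSh π.p.zt (𝔈.oK m π.p.tt) ∪ pvkyDoor (𝔈.kit m ε) (pvieZo 𝔓 m π.p.zt π.p.tt) ((𝔓.Γ m).dout π.p.tt)) ∩ pvilWno 𝔓 𝔈 m ε π.p.zt π.p.tt ↑π.Zt
  wini : pvieCc 𝔓 𝔈 m ε π.p ∩ pvilWni 𝔓 𝔈 m ε π.p.zs π.p.ts ↑π.Zs =
    (pvieSh π.p.zs (𝔈.iK m π.p.ts) ∪ pvkyDoor (𝔈.kit m ε) (pvieZi 𝔓 m π.p.zs π.p.ts) ((𝔓.Γ m).din π.p.ts)) ∩ pvilWni 𝔓 𝔈 m ε π.p.zs π.p.ts ↑π.Zs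
  yo : Disjoint (pvieSh π.p.zt (𝔈.oM m π.p.tt)) (pvieSh π.p.zt (𝔈.oK m π.p.tt) ∪ pvkyDoor (𝔈.kit m ε) (pvieZo 𝔓 m π.p.zt π.p.tt) ((𝔓.Γ m).dout π.p.tt))
  yi : Disjoint (pvieSh π.p.zs (𝔈.iM m π.p.ts)) (pvieSh π.p.zs (𝔈.iK m π.p.ts) ∪ pvkyDoor (𝔈.kit m ε) (pvieZi 𝔓 m π.p.zs π.p.ts) ((𝔓.Γ m).din π.p.ts))

theorem pvn1z_eqns_cite6 : True := by
  have := @pvn1zSc.eq_1
  trivial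

variable {𝔓 𝔈 m π ε}

theorem Pvn1zGeo.toGc (hg : Pvn1zGeo 𝔓 𝔈 m π ε) (hρ : 0 < 𝔓.num.rho3) : Pvn1zGc 𝔓 𝔈 m π ε :=
  ⟨hg.wf, hg.lev, hg.kit, hg.do1, hg.di1, hg.tyt, hg.tys, hg.bt, hg.bs, hρ, hg.mWo, hg.mWi, hg.mKo, hg.mKi, hg.mDo, hg.mDi, hg.subo, hg.subi, hg.clro, hg.clri, hg.wino, hg.wini, hg.yo, hg.yi⟩

/-- plain colour blindness of the first link at the hull of the pattern      [255 `pvkfp_plain_o`] -/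
theorem Pvn1zGc.plain_o (hg : Pvn1zGc 𝔓 𝔈 m π ε) {Y : Set ℂ} {σ : ℂ → Bool} (h3 : pvilZo 𝔓 m π.p.zt π.p.tt (cfOf Y σ) = (π.Zt : Set (ℤ × ℤ))) :
    PvbqPlain (pvieCc 𝔓 𝔈 m ε π.p) (pvilWno 𝔓 𝔈 m ε π.p.zt π.p.tt ↑π.Zt) (pvn1zPo 𝔓 𝔈 m ε pvilQ π.p.zt π.p.tt ↑π.Zt) (pvilMo 𝔓 𝔈 m ε π.p.zt π.p.tt ↑π.Zt)
      ((pvilLo 𝔓 𝔈 m π.p.zt π.p.tt).X 𝔓.num (𝔓.col π.p.tt) pvilQ) Y (pvilFo 𝔓 m π.p.zt π.p.tt (cfOf Y σ)) (pvieSh π.p.zt (𝔈.oM m π.p.tt) \ pvilFo 𝔓 m π.p.zt π.p.tt (cfOf Y σ)) σ := by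
  obtain ⟨Cth, r, κs, hE⟩ := hg.wf
  have := pvkfp_plain_o (Y := Y) (σ := σ) (z := π.p.zt) (ε := ε) (C := pvieCc 𝔓 𝔈 m ε π.p) (Wn := pvilWno 𝔓 𝔈 m ε π.p.zt π.p.tt ↑π.Zt) (p := pvn1zPo 𝔓 𝔈 m ε pvilQ π.p.zt π.p.tt ↑π.Zt) hE hg.lev hg.tyt hg.do1
    (fun Y : Set ℂ => (pvbwT Y).qpart Subtype.val) hg.rho hg.bt (by rw [h3]; exact pvkfp_Wz_o _ _ _ _ _ _ _) (by rw [h3]; exact hg.clro) hg.subo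
  rw [h3] at this
  exact this

/-- plain colour blindness of the last link at the hull of the pattern      [255 `pvkfp_plain_i`] -/
theorem Pvn1zGc.plain_i (hg : Pvn1zGc 𝔓 𝔈 m π ε) {Y : Set ℂ} {σ : ℂ → Bool} (h3 : pvilZi 𝔓 m π.p.zs π.p.ts (cfOf Y σ) = (π.Zs : Set (ℤ × ℤ))) :
    PvbqPlain (pvieCc 𝔓 𝔈 m ε π.p) (pvilWni 𝔓 𝔈 m ε π.p.zs π.p.ts ↑π.Zs) (pvn1zPi 𝔓 𝔈 m ε pvilQ π.p.zs π.p.ts ↑π.Zs) (pvilMi 𝔓 𝔈 m ε π.p.zs π.p.ts ↑π.Zs)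
      ((pvilLi 𝔓 𝔈 m π.p.zs π.p.ts).X 𝔓.num (𝔓.col π.p.ts) pvilQ) Y (pvilFi 𝔓 m π.p.zs π.p.ts (cfOf Y σ)) (pvieSh π.p.zs (𝔈.iM m π.p.ts) \ pvilFi 𝔓 m π.p.zs π.p.ts (cfOf Y σ)) σ := by
  obtain ⟨Cth, r, κs, hE⟩ := hg.wf
  have := pvkfp_plain_i (Y := Y) (σ := σ) (z := π.p.zs) (ε := ε) (C := pvieCc 𝔓 𝔈 m ε π.p) (Wn := pvilWni 𝔓 𝔈 m ε π.p.zs π.p.ts ↑π.Zs) (p := pvn1zPi 𝔓 𝔈 m ε pvilQ π.p.zs π.p.ts ↑π.Zs) hE hg.lev hg.tys hg.di1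
    (fun Y : Set ℂ => (pvbwT Y).qpart Subtype.val) hg.rho hg.bs (by rw [h3]; exact pvkfp_Wz_i _ _ _ _ _ _ _) (by rw [h3]; exact hg.clri) hg.subi
  rw [h3] at this
  exact this

/-- **THE TWO BLIND ENDS AT A BASE OF THE GUARD** (= the two `PvbqEnd` of `PvkyChain.pvbq_all`, `.pvbq_enl` of 141) -/
theorem Pvn1zGc.end_o (hg : Pvn1zGc 𝔓 𝔈 m π ε) {Y : Set ℂ} {σ : ℂ → Bool} (h3 : pvilZo 𝔓 m π.p.zt π.p.tt (cfOf Y σ) = (π.Zt : Set (ℤ × ℤ))) (h5 : pvn1zGen 𝔓 𝔈 m ε π Y) :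
    PvbqEnd ε (pvieCc 𝔓 𝔈 m ε π.p) (pvkyDoor (𝔈.kit m ε) (pvieZo 𝔓 m π.p.zt π.p.tt) ((𝔓.Γ m).dout π.p.tt)) (pvilEo 𝔓 𝔈 m ε pvilQ π.p.zt π.p.tt ↑π.Zt (pvilFo 𝔓 m π.p.zt π.p.tt (cfOf Y σ))) Y
      (pvilFo 𝔓 m π.p.zt π.p.tt (cfOf Y σ)) σ :=
  pvn1z_end_o (w := pvilQ) π.Zt.finite_toSet hg.mWo (hg.mKo.union hg.mDo) hg.wino h5.1 (hg.plain_o h3)

theorem Pvn1zGc.end_i (hg : Pvn1zGc 𝔓 𝔈 m π ε) {Y : Set ℂ} {σ : ℂ → Bool} (h4 : pvilZi 𝔓 m π.p.zs π.p.ts (cfOf Y σ) = (π.Zs : Set (ℤ × ℤ))) (h5 : pvn1zGen 𝔓 𝔈 m ε π Y) :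
    PvbqEnd ε (pvieCc 𝔓 𝔈 m ε π.p) (pvkyDoor (𝔈.kit m ε) (pvieZi 𝔓 m π.p.zs π.p.ts) ((𝔓.Γ m).din π.p.ts)) (pvilEi 𝔓 𝔈 m ε pvilQ π.p.zs π.p.ts ↑π.Zs (pvilFi 𝔓 m π.p.zs π.p.ts (cfOf Y σ))) Y
      (pvilFi 𝔓 m π.p.zs π.p.ts (cfOf Y σ)) σ :=
  pvn1z_end_i (w := pvilQ) π.Zs.finite_toSet hg.mWi (hg.mKi.union hg.mDi) hg.wini h5.2 (hg.plain_i h4)

/-- **(S1), CLAUSE FORM**: forced links, hulls, second moments; `Gen` is a hypothesis on the SET of sites -/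
theorem pvn1z_stab_c_cl (hW : 𝔓.Wf) (hcol : 𝔓.col π.p.ts = 𝔓.col π.p.tt) (hg : Pvn1zGc 𝔓 𝔈 m π ε) (qf : ℝ≥0∞) {Y : Set ℂ} {𝔇 : PvwDat (delbPl Y).toMap} {σ σ' : ↥Y → Bool}
    (hY : DelGood Y) (hOk : 𝔇.Ok Subtype.val 𝔓.num (pvlmH m) (𝔓.reg m π)) (hc : σ ∈ 𝔇.Cyl) (hs : ∀ v ∈ 𝔇.fzY, σ' v = σ v)
    (h3 : pvilZo 𝔓 m π.p.zt π.p.tt (pvxnFl (𝔓.col π.p.ts) (pvn1aCf Y σ)) = (π.Zt : Set (ℤ × ℤ))) (h4 : pvilZi 𝔓 m π.p.zs π.p.ts (pvxnFl (𝔓.col π.p.ts) (pvn1aCf Y σ)) = (π.Zs : Set (ℤ × ℤ)))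
    (h5 : pvn1zGen 𝔓 𝔈 m ε π Y) :
    (pvxnFl (𝔓.col π.p.ts) (pvn1aCf Y σ) ∈ pvrgFo 𝔓 𝔈 qf m ε π.p.zt π.p.tt ↔ pvxnFl (𝔓.col π.p.ts) (pvn1aCf Y σ') ∈ pvrgFo 𝔓 𝔈 qf m ε π.p.zt π.p.tt) ∧
    (pvxnFl (𝔓.col π.p.ts) (pvn1aCf Y σ) ∈ pvrgFi 𝔓 𝔈 qf m ε π.p.zs π.p.ts ↔ pvxnFl (𝔓.col π.p.ts) (pvn1aCf Y σ') ∈ pvrgFi 𝔓 𝔈 qf m ε π.p.zs π.p.ts) ∧
    pvilZo 𝔓 m π.p.zt π.p.tt (pvxnFl (𝔓.col π.p.ts) (pvn1aCf Y σ')) = (π.Zt : Set (ℤ × ℤ)) ∧ pvilZi 𝔓 m π.p.zs π.p.ts (pvxnFl (𝔓.col π.p.ts) (pvn1aCf Y σ')) = (π.Zs : Set (ℤ × ℤ)) ∧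
    (pvxnFl (𝔓.col π.p.ts) (pvn1aCf Y σ) ∈ pvyk1SqO 𝔓 𝔈 m ε π.p.zt π.p.tt ↔ pvxnFl (𝔓.col π.p.ts) (pvn1aCf Y σ') ∈ pvyk1SqO 𝔓 𝔈 m ε π.p.zt π.p.tt) ∧
    (pvxnFl (𝔓.col π.p.ts) (pvn1aCf Y σ) ∈ pvyk1SqI 𝔓 𝔈 m ε π.p.zs π.p.ts ↔ pvxnFl (𝔓.col π.p.ts) (pvn1aCf Y σ') ∈ pvyk1SqI 𝔓 𝔈 m ε π.p.zs π.p.ts) := by
  obtain ⟨b1, b2, b3, b4⟩ := pvn1z_base (σ' := σ') hW hY hOk hc hs (𝔓.col π.p.ts) hcol.symm rfl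
  have hcnt : Y.Countable := hY.lf.countable
  have Fo := pvn1z_Fo_dat (σ := σ) hW hY hOk hc
  rw [← hcol] at Fo
  have Fi := pvn1z_Fi_dat (σ := σ) hW hY hOk hc
  have do0 : (𝔓.Γ m).dout π.p.tt ≠ 0 := fun h => by have := hg.do1; rw [h, norm_zero] at this; exact zero_ne_one this
  have di0 : (𝔓.Γ m).din π.p.ts ≠ 0 := fun h => by have := hg.di1; rw [h, norm_zero] at this; exact zero_ne_one this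
  have e3 := h3
  have e4 := h4
  rw [pvn1z_fl_cf] at e3 e4 Fo Fi
  have so : ∀ v ∈ Y, v ∈ pvilFo 𝔓 m π.p.zt π.p.tt (cfOf Y (pvn1zC (𝔓.col π.p.ts) Y σ)) → pvn1zC (𝔓.col π.p.ts) Y σ' v = pvn1zC (𝔓.col π.p.ts) Y σ v := by
    intro v hv hF
    obtain ⟨u, hu, rfl⟩ := Fo hF
    rw [pvn1z_C_mem _ σ' u.2, pvn1z_C_mem _ σ u.2, hs u (Or.inl hu)]
  have si : ∀ v ∈ Y, v ∈ pvilFi 𝔓 m π.p.zs π.p.ts (cfOf Y (pvn1zC (𝔓.col π.p.ts) Y σ)) → pvn1zC (𝔓.col π.p.ts) Y σ' v = pvn1zC (𝔓.col π.p.ts) Y σ v := by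
    intro v hv hF
    obtain ⟨u, hu, rfl⟩ := Fi hF
    rw [pvn1z_C_mem _ σ' u.2, pvn1z_C_mem _ σ u.2, hs u (Or.inr hu)]
  refine ⟨?_, ?_, b2.trans h3, b4.trans h4, ?_, ?_⟩
  · rw [pvn1z_mem_Fo, pvn1z_mem_Fo, b1, b2, h3, pvn1z_fl_cf, pvn1z_fl_cf]
    exact pvn1z_forced (b := 𝔓.col π.p.tt) (q := qf) hg.kit do0 hcnt (hg.end_o e3 h5) hg.mKo pvn1z_rA_o pvn1z_rX_o (hg.yo.mono_left sdiff_subset) so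
  · rw [pvn1z_mem_Fi, pvn1z_mem_Fi, b3, b4, h4, pvn1z_fl_cf, pvn1z_fl_cf]
    exact pvn1z_forced (b := 𝔓.col π.p.ts) (q := qf) hg.kit di0 hcnt (hg.end_i e4 h5) hg.mKi pvn1z_rA_i pvn1z_rX_i (hg.yi.mono_left sdiff_subset) si
  · rw [pvn1z_mem_SqO, pvn1z_mem_SqO, b1, b2, h3, pvn1z_fl_cf, pvn1z_fl_cf]
    exact pvn1z_sq hcnt (hg.end_o e3 h5) hg.mKo pvn1z_rA_o pvn1z_rX_o (hg.yo.mono_left sdiff_subset) so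
  · rw [pvn1z_mem_SqI, pvn1z_mem_SqI, b3, b4, h4, pvn1z_fl_cf, pvn1z_fl_cf]
    exact pvn1z_sq hcnt (hg.end_i e4 h5) hg.mKi pvn1z_rA_i pvn1z_rX_i (hg.yi.mono_left sdiff_subset) si

/-- **(S1)** at the guard (c) -/
theorem pvn1z_stab_c (hW : 𝔓.Wf) (hcol : 𝔓.col π.p.ts = 𝔓.col π.p.tt) (hg : Pvn1zGc 𝔓 𝔈 m π ε) (qf : ℝ≥0∞) {Y : Set ℂ} {𝔇 : PvwDat (delbPl Y).toMap} {σ σ' : ↥Y → Bool}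
    (hY : DelGood Y) (hOk : 𝔇.Ok Subtype.val 𝔓.num (pvlmH m) (𝔓.reg m π)) (hc : σ ∈ 𝔇.Cyl) (hs : ∀ v ∈ 𝔇.fzY, σ' v = σ v) (hS : pvn1aCf Y σ ∈ pvn1zSc 𝔓 𝔈 m π ε qf) :
    pvn1aCf Y σ' ∈ pvn1zSc 𝔓 𝔈 m π ε qf := by
  obtain ⟨h1, h2, h3, h4, ⟨h6, h7⟩, h5⟩ := hS
  have e5 : cfSites (pvxnFl (𝔓.col π.p.ts) (pvn1aCf Y σ)) = Y := by rw [pvn1z_fl_cf, cfOf_sites]
  have e5' : cfSites (pvxnFl (𝔓.col π.p.ts) (pvn1aCf Y σ')) = Y := by rw [pvn1z_fl_cf, cfOf_sites]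
  rw [pvn1z_gen_iff, e5] at h5
  obtain ⟨a1, a2, a3, a4, a6, a7⟩ := pvn1z_stab_c_cl hW hcol hg qf hY hOk hc hs h3 h4 h5
  exact ⟨a1.1 h1, a2.1 h2, a3, a4, ⟨a6.1 h6, a7.1 h7⟩, by rw [pvn1z_gen_iff, e5']; exact h5⟩

end top

end Claimed.Agent.R289
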