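-- KEEP
import Claimed.Agent.R289.Exit.N1StabC
import Claimed.Agent.R289.Exit.N1GenA
import Claimed.Agent.R289.Exit.N1Meas
import Claimed.Agent.R289.Tr.PatWinR

/-!
# Row 289 (S0537), THE WALL, ROAD E, file Exit/N1Gc : THE ONLY DEBT OF (S1) `pvn1z_stab_c` OF 107 = `Pvn1zGc` (24 fields), PAID      (helper87; prefix `pvn1gc_`)

BELOW `Exit/N1All.lean` (never imports it).      0 sorry.
* `pvn1gc_of`   ANY parameter, ANY engine with `PvnaWf`: `PvieSimple` + clearance of 148 + `kit.WF` + the two numbers `b h ≤ pviwRad`, `0 < ρ''`  ⟹  `Pvn1zGc 𝔓 𝔈 m π ε`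
* **`pvn1gc_zgeo`** = (Z) `exit_pvn1l_zgeo` of 170 (`Exit/N1Lv`) VERBATIM (`Pvn1zGc.toGeo` + `pvn1gc_rt`)
* **`pvn1gc_rec`**   at the binders of record `c0 hE hR hm hπ` : `∀ᶠ ε in 𝓝[>] 0, Pvn1zGc (pvxParOf N hN c) 𝔈 m π ε`      (180 `pvjh_pr_simple`, `pvjh_pr_clear`)
-/

set_option autoImplicit false
set_option linter.unusedVariables false
set_option linter.unusedSectionVars false

namespace Claimed.Agent.R289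

open MeasureTheory Filter Topology Set Claims.C0465
open scoped ENNReal

section gen

variable {τ : Type} {c : ℝ} {𝔓 : PvxPar τ c} {𝔈 : PvieEng τ} {m : ℕ} {ε : ℝ} {π : PvxIx τ} {x : ℂ} {R : ℝ}

/-- the exit mouth of a simple chain misses the resampled region -/
theorem pvn1gc_oM (hs : PvieSimple 𝔓 𝔈 m ε π.p) : Disjoint (pvieSh π.p.zt (𝔈.oM m π.p.tt)) (pvieCc 𝔓 𝔈 m ε π.p) := by
  have h := (List.pairwise_append.1 hs).2.2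
  rw [Set.disjoint_left]
  rintro w hw ⟨S, hS, hwS⟩
  exact Set.disjoint_left.1 (h _ (by simp) S hS) hw hwS

/-- the entrance mouth of a simple chain misses the resampled region -/
theorem pvn1gc_iM (hs : PvieSimple 𝔓 𝔈 m ε π.p) : Disjoint (pvieSh π.p.zs (𝔈.iM m π.p.ts)) (pvieCc 𝔓 𝔈 m ε π.p) := by
  have h := (List.pairwise_append.1 hs).2.2
  rw [Set.disjoint_left]
  rintro w hw ⟨S, hS, hwS⟩
  exact Set.disjoint_left.1 (h _ (by simp) S hS) hw hwS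

/-- the chain misses `Z⁺ ∩ box` as soon as every tile does, `Z` a part of the two hulls -/
theorem pvn1gc_clr {z : ℂ} {t : τ} {Z Z' : Set (ℤ × ℤ)} (hZ : Z ⊆ Z')
    (hc : ∀ S ∈ pvieTiles 𝔓 𝔈 m ε π.p, Disjoint S (pvieSh z (pviwBox 𝔓 m t) ∩ pvtU (pvlmDel c m) (pvtN8 Z'))) : Disjoint (pvieCc 𝔓 𝔈 m ε π.p) (pvilWz 𝔓 m z t Z) := by
  rw [Set.disjoint_left]
  rintro w ⟨S, hS, hwS⟩ ⟨h1, h2⟩
  exact Set.disjoint_left.1 (hc S hS) hwS ⟨pvza_Bx_sub 𝔓 m z t h2, pvt_U_mono (pvt_N8_mono hZ) h1⟩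

/-- **`Pvn1zGc` FOR ANY ENGINE WITH `PvnaWf`**, from the simplicity and the clearance of 148 -/
theorem pvn1gc_of (hE : PvnaWf 𝔓 𝔈) (hm : 𝔓.m0 ≤ m) (hπ : π ∈ pvxPatSet 𝔓 x R m) (hT : ∀ t, pviwTyOk 𝔓 t) (hb : ∀ t, (𝔓.ty t).b * pvlmH m ≤ pviwRad 𝔓 m t) (hρ : 0 < 𝔓.num.rho3)
    (hk : (𝔈.kit m ε).WF) (hs : PvieSimple 𝔓 𝔈 m ε π.p)
    (hc : ∀ S ∈ pvieTiles 𝔓 𝔈 m ε π.p, Disjoint S (pvieSh π.p.zt (pviwBox 𝔓 m π.p.tt) ∩ pvtU (pvlmDel c m) (pvtN8 (↑π.Zs ∪ ↑π.Zt))) ∧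
      Disjoint S (pvieSh π.p.zs (pviwBox 𝔓 m π.p.ts) ∩ pvtU (pvlmDel c m) (pvtN8 (↑π.Zs ∪ ↑π.Zt)))) : Pvn1zGc 𝔓 𝔈 m π ε := by
  obtain ⟨Cth, r, κs, H⟩ := hE.wf
  have do1 : ‖(𝔓.Γ m).dout π.p.tt‖ = 1 := (𝔓.Γ m).dout1 π.p.tt
  have di1 : ‖(𝔓.Γ m).din π.p.ts‖ = 1 := by
    have h1 := pvt_norm_dir ((𝔓.Γ m).dout π.p.tt) π.p.l
    rw [hπ.1.1.2, do1] at h1
    exact h1
  have hdo : (𝔓.Γ m).dout π.p.tt ≠ 0 := fun h => by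
    rw [h, norm_zero] at do1
    exact zero_ne_one do1
  have hdi : (𝔓.Γ m).din π.p.ts ≠ 0 := fun h => by
    rw [h, norm_zero] at di1
    exact zero_ne_one di1
  have subo : pvieSh π.p.zt (𝔈.oK m π.p.tt) ∪ pvieDoor 𝔈 m ε (pvieZo 𝔓 m π.p.zt π.p.tt) ((𝔓.Γ m).dout π.p.tt) ⊆ pvieCc 𝔓 𝔈 m ε π.p :=
    union_subset pvn1h_oK_sub (pvn1h_Do_sub hπ.1.1)
  have subi : pvieSh π.p.zs (𝔈.iK m π.p.ts) ∪ pvieDoor 𝔈 m ε (pvieZi 𝔓 m π.p.zs π.p.ts) ((𝔓.Γ m).din π.p.ts) ⊆ pvieCc 𝔓 𝔈 m ε π.p :=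
    union_subset pvn1h_iK_sub pvn1h_Di_sub
  exact
    { wf := hE.wf
      lev := hm
      kit := hk
      do1 := do1
      di1 := di1
      tyt := hT _
      tys := hT _
      bt := hb _
      bs := hb _
      rho := hρ
      mWo := pvzi2_mWno H hk.mO _ _ _
      mWi := pvzi2_mWni H hk.mO _ _ _
      mKo := pvnm_sh _ (H.m_oK m _)
      mKi := pvnm_sh _ (H.m_iK m _)
      mDo := pvnm_door 𝔈 hk _ hdo
      mDi := pvnm_door 𝔈 hk _ hdi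
      subo := subo
      subi := subi
      clro := pvn1gc_clr subset_union_right fun S hS => (hc S hS).1
      clri := pvn1gc_clr subset_union_left fun S hS => (hc S hS).2
      wino := pvn1h_win_o hπ.1.1 hs fun S hS => (hc S hS).1
      wini := pvn1h_win_i hs fun S hS => (hc S hS).2
      yo := (pvn1gc_oM hs).mono_right subo
      yi := (pvn1gc_iM hs).mono_right subi }

/-- the cell kit of an engine with `PvnaWf` is well formed for small `ε` -/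
theorem pvn1gc_kit (hE : PvnaWf 𝔓 𝔈) (m : ℕ) : ∀ᶠ ε in 𝓝[>] (0 : ℝ), (𝔈.kit m ε).WF := by
  obtain ⟨U, hU⟩ := hE.num
  rw [hU.kit]
  exact ((U.fam (pvlm_Del_pos c)).ok m).mono fun ε h => h.wf

end gen

section rec

variable {c : ℝ} {N : PvxNums} {hN : N.Ok} {𝔈 : PvieEng (pvxTau N)} {m : ℕ} {x : ℂ} {R : ℝ} {π : PvxIx (pvxTau N)}

theorem pvn1gc_hb (m : ℕ) (t : pvxTau N) : ((pvxParOf N hN c).ty t).b * pvlmH m ≤ pviwRad (pvxParOf N hN c) m t := by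
  have hh := pvlm_H_pos m
  have h1 : ((pvxParOf N hN c).ty t).b ≤ 2 * ((pvxParOf N hN c).ty t).b2 := by
    show N.b1 ≤ 2 * N.b2
    linarith [hN.gap, hN.ab2, hN.rho_lt_one, hN.b2_pos, hN.rho0]
  have hk : 0 ≤ (((pvxParOf N hN c).ty t).k : ℝ) * (pvxParOf N hN c).num.rho1 := mul_nonneg (Nat.cast_nonneg _) hN.rho1_pos.le
  unfold pviwRad pvwRad
  nlinarith

/-- **THE DETERMINISTIC DEBTS OF (S1) AT THE BINDERS OF RECORD**: one `ε` with a well formed kit -/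
theorem pvn1gc_rec_at (c0 : 0 < c) (hE : PvnaWf (pvxParOf N hN c) 𝔈) (hR : PvnaRec N hN c 𝔈) (hm : (pvxParOf N hN c).m0 ≤ m) (hπ : π ∈ pvxPatSet (pvxParOf N hN c) x R m) {ε : ℝ}
    (hk : (𝔈.kit m ε).WF) : Pvn1zGc (pvxParOf N hN c) 𝔈 m π ε :=
  pvn1gc_of hE hm hπ (pvqh_tyOk hN c) (pvn1gc_hb m) hN.msk0 hk (pvjh_pr_simple c0 hE hR hm hπ ε) (pvjh_pr_clear c0 hE hR hm hπ ε)

/-- **THE DETERMINISTIC DEBTS OF (S1) AT THE BINDERS OF RECORD, FOR SMALL `ε`** -/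
theorem pvn1gc_rec (c0 : 0 < c) (hE : PvnaWf (pvxParOf N hN c) 𝔈) (hR : PvnaRec N hN c 𝔈) (hm : (pvxParOf N hN c).m0 ≤ m) (hπ : π ∈ pvxPatSet (pvxParOf N hN c) x R m) :
    ∀ᶠ ε in 𝓝[>] (0 : ℝ), Pvn1zGc (pvxParOf N hN c) 𝔈 m π ε :=
  (pvn1gc_kit hE m).mono fun ε hk => pvn1gc_rec_at c0 hE hR hm hπ hk

end rec

section rec2

variable {c : ℝ} {N : PvxNums} {hN : N.Ok} {𝔈 : PvieEng (pvxTau N)} {m : ℕ} {x : ℂ} {R : ℝ} {π : PvxIx (pvxTau N)}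

theorem pvn1gc_rt (c0 : 0 < c) (hm : N.m0 ≤ m) (t : pvxTau N) : pvlmDel c m / 3 < ((pvxParOf N hN c).ty t).b * pvlmH m := by
  have h1 : 1000000 * pvlmDel c m ≤ N.rho * pvlmH m := pvxo_fine hN c0 hm
  have h2 := pvlm_Del_pos c m
  have h3 := pvlm_H_pos m
  have h4 : N.rho ≤ 1 := by linarith [hN.rho0, hN.rho1, hN.rho2, hN.rho3]
  have h5 : (1 : ℝ) ≤ N.b1 := by linarith [hN.m_gt, hN.m_lt, hN.B_lt, hN.ab1]
  show pvlmDel c m / 3 < N.b1 * pvlmH m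
  nlinarith

/-- `Pvn1zGeo` of 107 (guard v3) from `Pvn1zGc` and the two numbers `rt rs` -/
theorem Pvn1zGc.toGeo {τ : Type} {c : ℝ} {𝔓 : PvxPar τ c} {𝔈 : PvieEng τ} {m : ℕ} {π : PvxIx τ} {ε : ℝ} (hg : Pvn1zGc 𝔓 𝔈 m π ε)
    (rt : pvlmDel c m / 3 < (𝔓.ty π.p.tt).b * pvlmH m) (rs : pvlmDel c m / 3 < (𝔓.ty π.p.ts).b * pvlmH m) : Pvn1zGeo 𝔓 𝔈 m π ε :=
  ⟨hg.wf, hg.lev, hg.kit, hg.do1, hg.di1, hg.tyt, hg.tys, hg.bt, hg.bs, rt, rs, hg.mWo, hg.mWi, hg.mKo, hg.mKi, hg.mDo, hg.mDi, hg.subo, hg.subi, hg.clro, hg.clri, hg.wino, hg.wini, hg.yo, hg.yi⟩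

/-- **(Z) = `exit_pvn1l_zgeo` OF 170 (`Exit/N1Lv`) VERBATIM** -/
theorem pvn1gc_zgeo (c0 : 0 < c) (hN : N.Ok) (nb : PvnaNb N) (hm : N.m0 ≤ m) (hπ : π ∈ pvxPatSet (pvxParOf N hN c) x R m) :
    ∀ᶠ ε in 𝓝[>] (0 : ℝ), Pvn1zGeo (pvxParOf N hN c) (pvnaEngRec N hN c nb) m π ε :=
  (pvn1gc_rec c0 (pvnr_wf hN c0 nb) ⟨nb, rfl⟩ hm hπ).mono fun ε h => h.toGeo (pvn1gc_rt c0 hm _) (pvn1gc_rt c0 hm _)

end rec2

end Claimed.Agent.R289
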