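-- KEEP
import Claimed.Agent.R289.Exit.N1Rd
import Claimed.Agent.R289.Exit.N1StabC

/-!
# Row 289 (S0537), THE WALL, ROAD E, file Exit/N1RdC : (S2) AT THE GUARD (c) OF 170      (helper237; prefix `pvn1v_`)

BELOW `Exit/N1All`.      GUARD (c) = `pvn1zSc 𝔓 𝔈 m π ε qf` of 107 (`Exit/N1StabC`): `pvrgFo`, `pvrgFi`, hull = `π.Zt`, hull = `π.Zs`, `fl ζ ∈ pvyk1Gd 𝔓 𝔈 m π ε` of 214 (`SqO ∩ SqI ∩ Gen`).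
`Exit/N1Rd` of 101 proves (S2) at the four clauses `pvn1yS`; here the three clauses of 214 are added (ask of 170, ruling N1-B; 101 left the row 13:51Z).
* `pvn1v_sq`      MODEL FREE: `pvueSq` of an end link with a constant choice, `A X` read in `Wn`, `C ∩ Wn ⊆ K ∪ D`, does not see the difference between two configurations with the same points off `C`
* `pvn1v_SqO`, `pvn1v_SqI`, `pvn1v_Gen`      the three clauses of 214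
* **`pvn1v_guard`** (two configurations, same base data), **`pvn1v_rd`** (one `ε`, one `ω₂`, a present datum), **`pvn1v_rd_kit`** = the field `rd` of `Pvn1aS` at `pvn1zSc` for ANY kits with `C = pvieCc`, collar radius `r`, **`pvn1v_rd_reg`** (`hs hc` paid by 148)
-/

set_option autoImplicit false

namespace Claimed.Agent.R289

open MeasureTheory Filter Topology Set Metric Claims.C0465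
open scoped ENNReal

/-! ## 1. the second moment of an end link in its own experiment does not see what happens in `C` off its tile and its door -/

/-- **MODEL FREE**: `pvueSq` (141) at two configurations which differ inside `C` only -/
theorem pvn1v_sq {kit : PvthKit} {ε : ℝ} {e : PvkyEnd} {z d : ℂ} {Wn C : Set ℂ} {η η' : Conf PvPt} (hy : ∀ ξ ξ', e.y ξ = e.y ξ')
    (rA : Conf.ReadsSet (Wn ×ˢ (univ : Set Bool)) e.A) (rX : Conf.Reads (Wn ×ˢ (univ : Set Bool)) e.X) (hW : C ∩ Wn ⊆ e.K ∪ pvkyDoor kit z d) (h : Pvn1yAg C η η') :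
    η' ∈ pvueSq kit ε e z d ↔ η ∈ pvueSq kit ε e z d := by
  have dW : Disjoint Wn (C \ (e.K ∪ pvkyDoor kit z d)) := disjoint_left.2 fun w hw hc => hc.2 (hW ⟨hc.1, hw⟩)
  have key : ∀ p, ‖e.X (pvdyR (e.K ∪ pvkyDoor kit z d) e.y η' p)‖ₑ ^ 2 * e.A.indicator (1 : Conf PvPt → ℝ≥0∞) (pvdyR (e.K ∪ pvkyDoor kit z d) e.y η' p) =
      ‖e.X (pvdyR (e.K ∪ pvkyDoor kit z d) e.y η p)‖ₑ ^ 2 * e.A.indicator (1 : Conf PvPt → ℝ≥0∞) (pvdyR (e.K ∪ pvkyDoor kit z d) e.y η p) := by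
    intro p
    have h1 := h.R (e.K ∪ pvkyDoor kit z d) (hy η' η) p
    have e1 : e.X (pvdyR (e.K ∪ pvkyDoor kit z d) e.y η' p) = e.X (pvdyR (e.K ∪ pvkyDoor kit z d) e.y η p) := by
      rw [← rX (pvdyR (e.K ∪ pvkyDoor kit z d) e.y η' p), ← rX (pvdyR (e.K ∪ pvkyDoor kit z d) e.y η p), h1.restr dW]
    have e2 : pvdyR (e.K ∪ pvkyDoor kit z d) e.y η' p ∈ e.A ↔ pvdyR (e.K ∪ pvkyDoor kit z d) e.y η p ∈ e.A := h1.reads dW rA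
    rw [e1]
    congr 1
    by_cases hA : pvdyR (e.K ∪ pvkyDoor kit z d) e.y η p ∈ e.A
    · rw [indicator_of_mem hA, indicator_of_mem (e2.2 hA)]
      rfl
    · rw [indicator_of_notMem hA, indicator_of_notMem fun h' => hA (e2.1 h')]
  unfold pvueSq
  simp only [mem_ofPred_eq, key]

/-! ## 2. the three clauses of 214 -/

section clauses

variable {τ : Type} {c : ℝ} {𝔓 : PvxPar τ c} {𝔈 : PvieEng τ} {m : ℕ} {π : PvxIx τ} {ε : ℝ} {η η' : Conf PvPt}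

/-- (SQ, first link) -/
theorem pvn1v_SqO (hs : PvieSimple 𝔓 𝔈 m ε π.p)
    (hc : ∀ S ∈ pvieTiles 𝔓 𝔈 m ε π.p, Disjoint S (pvieSh π.p.zt (pviwBox 𝔓 m π.p.tt) ∩ pvtU (pvlmDel c m) (pvtN8 (↑π.Zs ∪ ↑π.Zt))))
    (h : Pvn1yAg (pvieCc 𝔓 𝔈 m ε π.p) η η') (eF : pvilFo 𝔓 m π.p.zt π.p.tt η' = pvilFo 𝔓 m π.p.zt π.p.tt η) (eZ : pvilZo 𝔓 m π.p.zt π.p.tt η' = pvilZo 𝔓 m π.p.zt π.p.tt η)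
    (hZ : pvilZo 𝔓 m π.p.zt π.p.tt η = (π.Zt : Set (ℤ × ℤ))) : η' ∈ pvyk1SqO 𝔓 𝔈 m ε π.p.zt π.p.tt ↔ η ∈ pvyk1SqO 𝔓 𝔈 m ε π.p.zt π.p.tt := by
  rw [pvn1z_mem_SqO, pvn1z_mem_SqO, eF, eZ, hZ]
  exact pvn1v_sq (Wn := pvilWno 𝔓 𝔈 m ε π.p.zt π.p.tt ↑π.Zt) (fun _ _ => rfl) (pvks_Eo_A_reads 𝔓 𝔈 m ε pvilQ _ _ _ _) pvn1z_rX_o (pvn1y_win_o hs hc) h

/-- (SQ, last link) -/
theorem pvn1v_SqI (hs : PvieSimple 𝔓 𝔈 m ε π.p)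
    (hc : ∀ S ∈ pvieTiles 𝔓 𝔈 m ε π.p, Disjoint S (pvieSh π.p.zs (pviwBox 𝔓 m π.p.ts) ∩ pvtU (pvlmDel c m) (pvtN8 (↑π.Zs ∪ ↑π.Zt))))
    (h : Pvn1yAg (pvieCc 𝔓 𝔈 m ε π.p) η η') (eF : pvilFi 𝔓 m π.p.zs π.p.ts η' = pvilFi 𝔓 m π.p.zs π.p.ts η) (eZ : pvilZi 𝔓 m π.p.zs π.p.ts η' = pvilZi 𝔓 m π.p.zs π.p.ts η)
    (hZ : pvilZi 𝔓 m π.p.zs π.p.ts η = (π.Zs : Set (ℤ × ℤ))) : η' ∈ pvyk1SqI 𝔓 𝔈 m ε π.p.zs π.p.ts ↔ η ∈ pvyk1SqI 𝔓 𝔈 m ε π.p.zs π.p.ts := by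
  rw [pvn1z_mem_SqI, pvn1z_mem_SqI, eF, eZ, hZ]
  exact pvn1v_sq (Wn := pvilWni 𝔓 𝔈 m ε π.p.zs π.p.ts ↑π.Zs) (fun _ _ => rfl) (pvks_Ei_A_reads 𝔓 𝔈 m ε pvilQ _ _ _ _) pvn1z_rX_i (pvn1y_win_i hs hc) h

/-- (GEN): colour blind, does not read `C_c` -/
theorem pvn1v_Gen (h : Pvn1yAg (pvieCc 𝔓 𝔈 m ε π.p) η η') : η' ∈ pvyk1Gen 𝔓 𝔈 m π ε ↔ η ∈ pvyk1Gen 𝔓 𝔈 m π ε := by
  have e : cfSites η' = cfSites η \ pvieCc 𝔓 𝔈 m ε π.p ∪ cfSites η' ∩ pvieCc 𝔓 𝔈 m ε π.p := by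
    ext w
    by_cases hw : w ∈ pvieCc 𝔓 𝔈 m ε π.p
    · simp [hw]
    · simp [hw, h.sites hw]
  rw [pvn1z_gen_iff, pvn1z_gen_iff, e]
  exact pvn1z_gen_Yc 𝔓 𝔈 m ε π (cfSites η) (cfSites η')

end clauses

/-! ## 3. the guard (c) -/

section guard

variable {τ : Type} {c : ℝ} {𝔓 : PvxPar τ c} {𝔈 : PvieEng τ} {x : ℂ} {R : ℝ} {m : ℕ} {π : PvxIx τ} {r : ℝ}

/-- the guard (c) = the four clauses of 159 (text of 101) + the clauses of 214 -/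
theorem pvn1v_mem_Sc (𝔓 : PvxPar τ c) (𝔈 : PvieEng τ) (m : ℕ) (π : PvxIx τ) (ε : ℝ) (qf : ℝ≥0∞) (ζ : Conf PvPt) :
    ζ ∈ pvn1zSc 𝔓 𝔈 m π ε qf ↔ ζ ∈ pvn1yS 𝔓 𝔈 m π qf ε ∧ pvxnFl (𝔓.col π.p.ts) ζ ∈ pvyk1Gd 𝔓 𝔈 m π ε := by
  unfold pvn1zSc pvn1yS
  simp only [mem_ofPred_eq, and_assoc]

/-- **THE GUARD (c) AT TWO CONFIGURATIONS WHICH DIFFER INSIDE `C_c` ONLY** (black vocabulary), with the same base data `(F, Z)` at the two pins -/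
theorem pvn1v_guard {ε : ℝ} {ζ ζ' : Conf PvPt} (hk : (𝔈.kit m ε).WF) (hdo : (𝔓.Γ m).dout π.p.tt ≠ 0) (hdi : (𝔓.Γ m).din π.p.ts ≠ 0) (hs : PvieSimple 𝔓 𝔈 m ε π.p)
    (hc : ∀ S ∈ pvieTiles 𝔓 𝔈 m ε π.p, Disjoint S (pvieSh π.p.zt (pviwBox 𝔓 m π.p.tt) ∩ pvtU (pvlmDel c m) (pvtN8 (↑π.Zs ∪ ↑π.Zt))) ∧
      Disjoint S (pvieSh π.p.zs (pviwBox 𝔓 m π.p.ts) ∩ pvtU (pvlmDel c m) (pvtN8 (↑π.Zs ∪ ↑π.Zt)))) (qf : ℝ≥0∞)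
    (h : Pvn1yAg (pvieCc 𝔓 𝔈 m ε π.p) ζ ζ')
    (hB : pvilFo 𝔓 m π.p.zt π.p.tt (pvxnFl (𝔓.col π.p.ts) ζ') = pvilFo 𝔓 m π.p.zt π.p.tt (pvxnFl (𝔓.col π.p.ts) ζ) ∧
      pvilZo 𝔓 m π.p.zt π.p.tt (pvxnFl (𝔓.col π.p.ts) ζ') = pvilZo 𝔓 m π.p.zt π.p.tt (pvxnFl (𝔓.col π.p.ts) ζ) ∧
      pvilFi 𝔓 m π.p.zs π.p.ts (pvxnFl (𝔓.col π.p.ts) ζ') = pvilFi 𝔓 m π.p.zs π.p.ts (pvxnFl (𝔓.col π.p.ts) ζ) ∧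
      pvilZi 𝔓 m π.p.zs π.p.ts (pvxnFl (𝔓.col π.p.ts) ζ') = pvilZi 𝔓 m π.p.zs π.p.ts (pvxnFl (𝔓.col π.p.ts) ζ)) : ζ' ∈ pvn1zSc 𝔓 𝔈 m π ε qf ↔ ζ ∈ pvn1zSc 𝔓 𝔈 m π ε qf := by
  have ha := h.fl (𝔓.col π.p.ts)
  have i0 := pvn1y_guard hk hdo hdi hs hc qf h hB
  obtain ⟨eFo, eZo, eFi, eZi⟩ := hB
  rw [pvn1v_mem_Sc, pvn1v_mem_Sc, i0]
  refine and_congr_right fun hS => ?_
  obtain ⟨-, -, h3, h4⟩ := hS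
  have j1 := pvn1v_SqO hs (fun S hS => (hc S hS).1) ha eFo eZo h3
  have j2 := pvn1v_SqI hs (fun S hS => (hc S hS).2) ha eFi eZi h4
  have j3 := pvn1v_Gen ha
  unfold pvyk1Gd
  simp only [mem_inter_iff, j1, j2, j3]

/-- **(S2) AT THE GUARD (c), THE BODY**, one `ε`, one `ω₂`: at a PRESENT DATUM the guard does not read the resampled region      (base data: (B) of 38, `pvza_n1_rd`) -/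
theorem pvn1v_rd {ε : ℝ} {ζ ω₂ : Conf PvPt} (hW : 𝔓.Wf) (hπ : π ∈ pvxPatSet 𝔓 x R m) (hk : (𝔈.kit m ε).WF) (hr : 0 < r)
    (hks : closedBall (𝔓.reg m π).zs ((𝔓.reg m π).ts.b * pvlmH m) ⊆ pvgeFar (pvieCc 𝔓 𝔈 m ε π.p) r) (hkt : closedBall (𝔓.reg m π).zt ((𝔓.reg m π).tt.b * pvlmH m) ⊆ pvgeFar (pvieCc 𝔓 𝔈 m ε π.p) r)
    (hs : PvieSimple 𝔓 𝔈 m ε π.p)
    (hc : ∀ S ∈ pvieTiles 𝔓 𝔈 m ε π.p, Disjoint S (pvieSh π.p.zt (pviwBox 𝔓 m π.p.tt) ∩ pvtU (pvlmDel c m) (pvtN8 (↑π.Zs ∪ ↑π.Zt))) ∧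
      Disjoint S (pvieSh π.p.zs (pviwBox 𝔓 m π.p.ts) ∩ pvtU (pvlmDel c m) (pvtN8 (↑π.Zs ∪ ↑π.Zt)))) (qf : ℝ≥0∞)
    (hg : DelGood (cfSites ζ)) (hg' : DelGood (cfSites ζ \ pvieCc 𝔓 𝔈 m ε π.p ∪ cfSites ω₂ ∩ pvieCc 𝔓 𝔈 m ε π.p)) (hm : VorDense (cfSites ζ) (pvgeCollar (pvieCc 𝔓 𝔈 m ε π.p) r) r)
    (h1 : ∀ p ∈ ζ.pts, ∀ q ∈ ζ.pts, p.1 = q.1 → p = q) (h2 : ∀ p ∈ ω₂.pts, ∀ q ∈ ω₂.pts, p.1 = q.1 → p = q)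
    {𝔇 : PvwDat (delbPl (cfSites ζ)).toMap} (hok : 𝔇.Ok Subtype.val 𝔓.num (pvlmH m) (𝔓.reg m π)) (hcyl : (fun v : ↥(cfSites ζ) => cfCol ζ v) ∈ 𝔇.Cyl)
    (hf : ∀ v ∈ 𝔇.fzY, (v : ℂ) ∈ pvgeFar (pvieCc 𝔓 𝔈 m ε π.p) r) :
    Conf.spl (pvdmU (pvieCc 𝔓 𝔈 m ε π.p)) (ζ, ω₂) ∈ pvn1zSc 𝔓 𝔈 m π ε qf ↔ ζ ∈ pvn1zSc 𝔓 𝔈 m π ε qf := by
  have hdo : (𝔓.Γ m).dout π.p.tt ≠ 0 := fun h => by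
    have := (𝔓.Γ m).dout1 π.p.tt
    rw [h, norm_zero] at this
    exact zero_ne_one this
  have hdi : (𝔓.Γ m).din π.p.ts ≠ 0 := fun h => by
    have h1 := pvt_norm_dir ((𝔓.Γ m).dout π.p.tt) π.p.l
    rw [hπ.1.1.2, h, norm_zero, (𝔓.Γ m).dout1] at h1
    exact zero_ne_one h1
  exact pvn1v_guard hk hdo hdi hs hc qf (pvn1y_ag_spl _ _ _) (pvza_n1_rd hW hπ hr hks hkt hg hg' hm h1 h2 hok hcyl hf)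

/-- **(S2) AT THE GUARD (c) = THE FIELD `rd` OF `Pvn1aS`** for ANY family of kits with `C = C_c`, collar radius `r` -/
theorem pvn1v_rd_kit (hW : 𝔓.Wf) (hE : PvnaWf 𝔓 𝔈) (hπ : π ∈ pvxPatSet 𝔓 x R m)
    (G : ∀ᶠ ε in 𝓝[>] (0 : ℝ), PvknGeo 𝔓.num (pvlmH m) (𝔓.reg m π) x (5 * R) (6 * R) (pvieCc 𝔓 𝔈 m ε π.p) r) (hs : ∀ᶠ ε in 𝓝[>] (0 : ℝ), PvieSimple 𝔓 𝔈 m ε π.p)
    (hc : ∀ᶠ ε in 𝓝[>] (0 : ℝ), ∀ S ∈ pvieTiles 𝔓 𝔈 m ε π.p, Disjoint S (pvieSh π.p.zt (pviwBox 𝔓 m π.p.tt) ∩ pvtU (pvlmDel c m) (pvtN8 (↑π.Zs ∪ ↑π.Zt))) ∧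
      Disjoint S (pvieSh π.p.zs (pviwBox 𝔓 m π.p.ts) ∩ pvtU (pvlmDel c m) (pvtN8 (↑π.Zs ∪ ↑π.Zt)))) (qf : ℝ≥0∞)
    (𝔎s : ℝ → PvxnKit) (hC : ∀ ε, (𝔎s ε).C = pvieCc 𝔓 𝔈 m ε π.p) (hr : ∀ ε, (𝔎s ε).r = r) (a : ℂ) (𝔜 : PvxnYd) :
    ∀ᶠ ε in 𝓝[>] (0 : ℝ), ∀ Y, (pvxnSys 𝔓 m π a (𝔎s ε) 𝔜 ε).Ok Y → ∀ σ, ∀ᵐ ω₂ ∂pvP ε, ∀ i, cfOf Y σ ∈ (pvxnSys 𝔓 m π a (𝔎s ε) 𝔜 ε).A i →
      (Conf.spl (pvdmU (𝔎s ε).C) (cfOf Y σ, ω₂) ∈ pvn1zSc 𝔓 𝔈 m π ε qf ↔ cfOf Y σ ∈ pvn1zSc 𝔓 𝔈 m π ε qf) := by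
  filter_upwards [G, hs, hc, pvn1y_kit_wf hE m] with ε g1 g2 g3 g4 Y hY σ
  have hY1 : DelGood Y := hY.1
  have hY2 : ∀ᵐ ω₂ ∂pvP ε, DelGood (Y \ (𝔎s ε).C ∪ cfSites ω₂ ∩ (𝔎s ε).C) := hY.2
  filter_upwards [hY2, delgp_ae_conf ε] with ω₂ hg' h2 i hi
  obtain ⟨hm, ⟨𝔇, hD, -, -⟩, -⟩ : PvxnPA 𝔓 m π a (𝔎s ε) i (cfSites (cfOf Y σ)) (cfCol (cfOf Y σ)) := hi
  have hf : ∀ v ∈ 𝔇.fzY, (v : ℂ) ∈ pvgeFar (𝔎s ε).C (𝔎s ε).r := fun v hv => hD.far v (hD.sub (Or.inl (Or.inl hv)))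
  rw [hC ε, hr ε] at hm hf
  rw [hC ε] at hg' ⊢
  refine pvn1v_rd hW hπ g4 g1.r0 g1.ks g1.kt g2 g3 qf (by rw [cfOf_sites]; exact hY1) (by rw [cfOf_sites]; exact hg') hm ?_ h2.2.2 hD.ok hD.cyl hf
  rintro ⟨p1, p2⟩ ⟨-, hp⟩ ⟨q1, q2⟩ ⟨-, hq⟩ e
  have e' : p1 = q1 := e
  subst e'
  exact Prod.ext rfl (hp.trans hq.symm)

/-- **(S2) AT THE GUARD (c) FROM THE REGIONS OF RECORD**: `PvieSimple` and the clearance of the hulls are paid by 148 (`Tr/SimpleE`).      At `pvxParOf N hN c`: `hL := pvqh_lev c0 hm`, `hT := pvqh_tyOk c` (`Exit/ParGr`); `hoM ..` : `Subset.rfl` at `pveaEng` -/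
theorem pvn1v_rd_reg (hW : 𝔓.Wf) (hE : PvnaWf 𝔓 𝔈) (hπ : π ∈ pvxPatSet 𝔓 x R m) (hL : PvegLev 𝔓 m) (hT : ∀ t, pviwTyOk 𝔓 t)
    (hoM : ∀ t, 𝔈.oM m t ⊆ pvegOM 𝔓 m t) (hoK : ∀ t, 𝔈.oK m t ⊆ pvegOK 𝔓 m t) (hiM : ∀ t, 𝔈.iM m t ⊆ pvegIM 𝔓 m t) (hiK : ∀ t, 𝔈.iK m t ⊆ pvegIK 𝔓 m t)
    (G : ∀ᶠ ε in 𝓝[>] (0 : ℝ), PvknGeo 𝔓.num (pvlmH m) (𝔓.reg m π) x (5 * R) (6 * R) (pvieCc 𝔓 𝔈 m ε π.p) r) (qf : ℝ≥0∞)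
    (𝔎s : ℝ → PvxnKit) (hC : ∀ ε, (𝔎s ε).C = pvieCc 𝔓 𝔈 m ε π.p) (hr : ∀ ε, (𝔎s ε).r = r) (a : ℂ) (𝔜 : PvxnYd) :
    ∀ᶠ ε in 𝓝[>] (0 : ℝ), ∀ Y, (pvxnSys 𝔓 m π a (𝔎s ε) 𝔜 ε).Ok Y → ∀ σ, ∀ᵐ ω₂ ∂pvP ε, ∀ i, cfOf Y σ ∈ (pvxnSys 𝔓 m π a (𝔎s ε) 𝔜 ε).A i →
      (Conf.spl (pvdmU (𝔎s ε).C) (cfOf Y σ, ω₂) ∈ pvn1zSc 𝔓 𝔈 m π ε qf ↔ cfOf Y σ ∈ pvn1zSc 𝔓 𝔈 m π ε qf) := by
  obtain ⟨Cth, r', κs, H⟩ := hE.wf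
  exact pvn1v_rd_kit hW hE hπ G (Eventually.of_forall fun ε => pvzu_simple_pat hW.toWfB hL hT (H.kit_ref m ε) (H.kit_del m ε) hoM hoK hiM hiK hπ)
    (Eventually.of_forall fun ε => pvzu_clear_pat hW.toWfB hL hT (H.kit_ref m ε) (H.kit_del m ε) hoK hiK hπ) qf 𝔎s hC hr a 𝔜

end guard

end Claimed.Agent.R289
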