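import Claimed.Agent.R289.Exit.N1B

/-!
# Row 289 (S0537), THE WALL, ROAD E, file Exit/N1K : **THE MESH CLAUSE OF THE GUARD OF `n1`**      (helper170, pen of `exit_pvie_in`; prefix `pvn1k_`, `pvn1k`, `Pvn1k`)      0 sorry

KIT OF RECORD = `pvknKit` of 29 (`Tr/KitN1`, R19 (5)) `.guardE Rg` `.guard S` of 159 (`Exit/N1Guard`).      WHY A GUARD: `dom`, `jen`, `yh_stab` are owed at EVERY configuration of `A i ∩ WO i` (a.e. `ω`, every `σ`): the colour-free facts
which they need must sit INSIDE `A i`, not in the bad event `G`.      LAYER 1 (`Rg`, deterministic) `= g5 ∧ mesh`: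
* `g5`    `g₀ ⊆ closedBall x (5R)`      (`pvn1aRg` of 159; for `Pvn1bQbx`: 130)
* `mesh`  **`Pvn1kMesh x R C r`** `:= VorDense Y (pvn1kOff x R C r) r` : THE MESH OFF `C` (patch `7R` minus the closed `r`-neighbourhood of `C`) = (L1) of 63 = the clause asked by 78 (`pvc4_geo_model`), 104 (`hmesh`), 194 (`hd` of `pvwm_Col_model`, off `C`).
PROVED: blind to `C` (`pvn1k_mesh_congr`: field `E` of `PvrdKit` at `Rg`; `pvn1k_mesh_spl`), contains the collar mesh (`pvn1k_mesh_collar`), the mesh of every region far from `C` (`pvn1k_mesh_sub`, `pvn1k_mesh_ball`),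
holds with high probability (`pvn1k_mesh_lim`), with the mesh `μ` ON `C` (known on `{w ≠ 0}`) gives the mesh `2r + μ` of the whole patch (`pvn1k_mesh_all`).
-/

set_option autoImplicit false

namespace Claimed.Agent.R289

open MeasureTheory Filter Topology Set Claims.C0465
open scoped ENNReal

/-- the patch `closedBall x (7R)` minus the closed `r`-neighbourhood of the annealed region -/
def pvn1kOff (x : ℂ) (R : ℝ) (C : Set ℂ) (r : ℝ) : Set ℂ := {z | ‖z - x‖ ≤ 7 * R ∧ r < Metric.infDist z C}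

/-- **THE MESH CLAUSE** of layer 1 of the guard (type of `PvxnKit.E`) -/
def Pvn1kMesh (x : ℂ) (R : ℝ) (C : Set ℂ) (r : ℝ) : ∀ Y : Set ℂ, PvwDat (delbPl Y).toMap → (↥Y → Bool) → Prop := fun Y _ _ => VorDense Y (pvn1kOff x R C r) r

theorem pvn1k_eqns_cite : True := by
  have := @pvn1kOff.eq_1; have := @Pvn1kMesh.eq_1
  trivial

variable {x : ℂ} {R : ℝ} {C : Set ℂ} {r : ℝ} {Y Y' : Set ℂ}

theorem pvn1k_off_notMem {z u : ℂ} (hz : z ∈ pvn1kOff x R C r) (hu : ‖z - u‖ ≤ r) : u ∉ C := by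
  intro hC
  have h1 := Metric.infDist_le_dist_of_mem (x := z) hC
  rw [dist_eq_norm] at h1
  exact absurd (lt_of_lt_of_le hz.2 h1) (not_lt.2 hu)

theorem pvn1k_mesh_mono (h : Y \ C ⊆ Y') (hd : VorDense Y (pvn1kOff x R C r) r) : VorDense Y' (pvn1kOff x R C r) r := by
  intro z hz
  obtain ⟨u, hu, hle⟩ := hd z hz
  exact ⟨u, h ⟨hu, pvn1k_off_notMem hz hle⟩, hle⟩

/-- **THE MESH OFF `C` IS BLIND TO `C`** (two site sets which agree off `C`: `PvrdSit` of 29) -/
theorem pvn1k_mesh_congr (h : Y \ C = Y' \ C) : VorDense Y (pvn1kOff x R C r) r ↔ VorDense Y' (pvn1kOff x R C r) r :=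
  ⟨pvn1k_mesh_mono fun _ hz => (h ▸ hz : _ ∈ Y' \ C).1, pvn1k_mesh_mono fun _ hz => (h.symm ▸ hz : _ ∈ Y \ C).1⟩

/-- the same for a splice -/
theorem pvn1k_mesh_spl (x : ℂ) (R : ℝ) (C : Set ℂ) (r : ℝ) (Y Y₂ : Set ℂ) : VorDense (Y \ C ∪ Y₂ ∩ C) (pvn1kOff x R C r) r ↔ VorDense Y (pvn1kOff x R C r) r := by
  refine pvn1k_mesh_congr ?_
  ext z
  constructor
  · rintro ⟨h1 | h1, h2⟩
    · exact h1
    · exact absurd h1.2 h2
  · exact fun h => ⟨Or.inl h, h.2⟩

/-- the mesh of every region of the patch which stays off the `r`-neighbourhood of `C` -/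
theorem pvn1k_mesh_sub {S : Set ℂ} (hS : S ⊆ pvn1kOff x R C r) (h : VorDense Y (pvn1kOff x R C r) r) : VorDense Y S r := fun z hz => h z (hS hz)

/-- a region of the patch which is FAR from `C` (29) lies off `C` -/
theorem pvn1k_far_sub {S : Set ℂ} (hr : 0 < r) (h7 : ∀ z ∈ S, ‖z - x‖ ≤ 7 * R) (hS : S ⊆ pvgeFar C r) : S ⊆ pvn1kOff x R C r :=
  fun z hz => ⟨h7 z hz, lt_of_lt_of_le (by linarith) (hS hz : 3 * r ≤ Metric.infDist z C)⟩

/-- the mesh off `C` contains the collar mesh, as soon as the collar lies in the patch -/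
theorem pvn1k_mesh_collar (hC : ∀ z ∈ pvgeCollar C r, ‖z - x‖ ≤ 7 * R) (h : VorDense Y (pvn1kOff x R C r) r) : VorDense Y (pvgeCollar C r) r :=
  fun z hz => h z ⟨hC z hz, hz.1⟩

/-- **with the mesh `μ` on `C`** (known on `{w ≠ 0}`: the meshes of the windows) **the whole patch has the mesh `2r + μ`** -/
theorem pvn1k_mesh_all {μ : ℝ} (hr : 0 < r) (hne : C.Nonempty) (h : VorDense Y (pvn1kOff x R C r) r) (hC : VorDense Y C μ) (hμ : 0 ≤ μ) : VorDense Y (Metric.closedBall x (7 * R)) (2 * r + μ) := by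
  intro z hz
  by_cases hf : r < Metric.infDist z C
  · obtain ⟨u, hu, hle⟩ := h z ⟨mem_closedBall_iff_norm.1 hz, hf⟩
    exact ⟨u, hu, by linarith⟩
  · obtain ⟨c, hc, hlt⟩ := (Metric.infDist_lt_iff hne).1 (lt_of_le_of_lt (not_lt.1 hf) (by linarith : r < 2 * r))
    obtain ⟨u, hu, hle⟩ := hC c hc
    refine ⟨u, hu, ?_⟩
    rw [dist_eq_norm] at hlt
    have h3 : ‖z - u‖ ≤ ‖z - c‖ + ‖c - u‖ := by
      have e : z - u = (z - c) + (c - u) := by ring
      rw [e]
      exact norm_add_le _ _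
    linarith

/-- **the mesh off `C` holds with high probability**, for a family of regions and radii `r₀ ≤ r ε` -/
theorem pvn1k_mesh_lim (x : ℂ) (R : ℝ) (C : ℝ → Set ℂ) (r : ℝ → ℝ) {r₀ : ℝ} (h0 : 0 < r₀) (hr : ∀ᶠ ε in 𝓝[>] (0 : ℝ), r₀ ≤ r ε) :
    Tendsto (fun ε => (pvhbUp ε).P {p | ¬ VorDense (pvxY (pvMerge p)) (pvn1kOff x R (C ε) (r ε)) (r ε)}) (𝓝[>] (0 : ℝ)) (𝓝 0) := by
  have hlim := pvn1b_dense_lim (B := Metric.closedBall x (7 * R)) Metric.isBounded_closedBall h0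
  refine tendsto_of_tendsto_of_tendsto_of_le_of_le' tendsto_const_nhds hlim (Eventually.of_forall fun _ => zero_le) ?_
  filter_upwards [hr] with ε hε
  refine (pvhbUp ε).P_mono fun p hp hd => hp fun z hz => ?_
  obtain ⟨u, hu, hle⟩ := hd z (mem_closedBall_iff_norm.2 hz.1)
  exact ⟨u, hu, hle.trans hε⟩

end Claimed.Agent.R289
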