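import Claimed.Agent.R289.Tr.HookG
import Claimed.Agent.R289.Exit.N1R
import Claimed.Agent.R289.Exit.N1B
import Claimed.Agent.R289.Exit.Par

/-!
# Row 289 (S0537), THE WALL, ROAD E, file Exit/N1T : NO TUNNEL AT THE BASE = A DETERMINISTIC CLAUSE OF LAYER 1 OF THE GUARD OF N1'      (helper27; prefix `pvn1t_`, `Pvn1t`)

WHY.   (POCKET) of 170 (N1-A (4); 158 120): the run of an end link never visits a pocket BECAUSE a bichromatic edge with both ends frozen, near the tip, is a position of the stub (NO TUNNEL: 90, `Tr/HookG`: `pvhg_tight_out`, `pvhg_tight_in`).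
90's proof asks a mesh on `closedBall y (ρ₂ h + ..)`.   `jen`, `enl` are asked at EVERY `Y` with `PvxnPA`: that ball meets the resampled region `C`, a mesh inside `C` is not splice invariant, no clause of the guard gives it.
CURE.   THE CONCLUSION of 90's lemmas is a property of `(Y, D)` alone (no colour), it reads the star of the frozen sites only: it is carried over by the twins of 29, it holds at every well formed datum of a dense sample.   So it is a clause of layer 1 (`PvxnKit.guardE`).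
* sec. 1  `Pvn1tP 𝔖 pos y ρ`, `Pvn1tM 𝔖 pos y ρ` (exit / entrance stub), `Pvn1tDat 𝔇 pos N h π`, **`Pvn1tTight 𝔓 m π`** = the clause (type of `Rg` of `PvxnKit.guardE`)
* sec. 2  MODEL FREE: `pvn1t_P_loc`, `pvn1t_M_loc`, `pvn1t_dat_loc` (carried over by a positioned local isomorphism: `PvLocSP`, `PvLocSM`, `PvLocDat`)
* sec. 3  **`pvn1t_spl`** = the hypothesis `spl` of `pvn1a_X_guardE` (159),   `pvn1t_frz` = `frz`
* sec. 4  `pvn1t_of_mesh` (any good site set with the two meshes, any `Ok` datum), `Pvn1tNum` (numbers), **`pvn1t_c1`** = the hypothesis `c1` from `VorDense (pvxY ω) (closedBall x (6 R)) μ` [to be put into the free good event `Γ`: `pvn1b_dense_lim`]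
* sec. 5  `pvn1t_num` : the numbers at `pvxParOf N hN c`, `N.m0 ≤ m`, any `0 < μ ≤ δ_m`
-/

set_option autoImplicit false
set_option linter.unusedVariables false
set_option linter.unusedSectionVars false

namespace Claimed.Agent.R289

open Set Metric Claims.C0465

/-! ## 1. the clause -/

section defs

variable {V D : Type} {T : PvMap V D}

/-- **NO TUNNEL AT THE EXIT TIP**: an edge from the black bank to the white bank of `Σ⁺`, both ends within `ρ` of `y`, is a position of `Σ⁺` -/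
def Pvn1tP (𝔖 : PvwSt T) (pos : V → ℂ) (y : ℂ) (ρ : ℝ) : Prop :=
  ∀ x : D, T.src x ∈ 𝔖.bkP → T.tgt x ∈ 𝔖.whP → ‖pos (T.src x) - y‖ ≤ ρ → ‖pos (T.tgt x) - y‖ ≤ ρ → ∃ i, i ≤ 𝔖.np ∧ x = 𝔖.ep i

/-- **NO TUNNEL AT THE ENTRANCE TIP** -/
def Pvn1tM (𝔖 : PvwSt T) (pos : V → ℂ) (y : ℂ) (ρ : ℝ) : Prop :=
  ∀ x : D, T.src x ∈ 𝔖.bkM → T.tgt x ∈ 𝔖.whM → ‖pos (T.src x) - y‖ ≤ ρ → ‖pos (T.tgt x) - y‖ ≤ ρ → ∃ i, i ≤ 𝔖.nm ∧ x = 𝔖.em i

/-- no tunnel at the two tips of a datum, radius `ρ₁ h / 2` -/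
def Pvn1tDat (𝔇 : PvwDat T) (pos : V → ℂ) (N : PvwNum) (h : ℝ) (π : PvwPat) : Prop :=
  Pvn1tP 𝔇.t pos (π.tt.cp h π.zt) (N.rho1 * h / 2) ∧ Pvn1tM 𝔇.s pos (π.ts.cm h π.zs) (N.rho1 * h / 2)

/-- **THE CLAUSE OF LAYER 1** -/
def Pvn1tTight {τ : Type} {c : ℝ} (𝔓 : PvxPar τ c) (m : ℕ) (π : PvxIx τ) : ∀ Y : Set ℂ, PvwDat (delbPl Y).toMap → (↥Y → Bool) → Prop :=
  fun _ 𝔇 _ => Pvn1tDat 𝔇 Subtype.val 𝔓.num (pvlmH m) (𝔓.reg m π)

theorem pvn1t_eqns_cite : True := by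
  have := @Pvn1tP.eq_1; have := @Pvn1tM.eq_1; have := @Pvn1tDat.eq_1; have := @Pvn1tTight.eq_1
  trivial

end defs

/-! ## 2. carried over by a positioned local isomorphism -/

section loc

variable {V D V' D' : Type} {T : PvMap V D} {T' : PvMap V' D'} {R : D → D' → Prop} {pos : V → ℂ} {pos' : V' → ℂ} {Kr : Set ℂ}

theorem pvn1t_P_loc (L : PvLocP T T' R pos pos' Kr) {𝔖 : PvwSt T} {𝔖' : PvwSt T'} (G : PvLocSP R 𝔖 𝔖') (hK : ∀ i, i ≤ 𝔖.np → pos (T.src (𝔖.ep i)) ∈ Kr) {y : ℂ} {ρ : ℝ}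
    (h : Pvn1tP 𝔖 pos y ρ) : Pvn1tP 𝔖' pos' y ρ := by
  intro x' h1 h2 h3 h4
  obtain ⟨v, hv, i, hi, rfl⟩ := (pvlw_bkP G).2 _ h1
  have hp : pos' (T'.src x') ∈ Kr := by rw [← pvlw_pos L hv]; exact hK i hi
  obtain ⟨x, hx⟩ := (L.full' _ hp).1 x' rfl
  have h1' : T.src x ∈ 𝔖.bkP := ((pvlw_bkP G).iff L.loc (pvloc_v_src hx)).2 h1
  have h2' : T.tgt x ∈ 𝔖.whP := ((pvlw_whP L.loc G).iff L.loc (pvloc_v_tgt L.loc hx)).2 h2
  obtain ⟨j, hj, rfl⟩ := h x h1' h2' (by rw [L.pos_eq x x' hx]; exact h3) (by rw [pvlw_pos L (pvloc_v_tgt L.loc hx)]; exact h4)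
  exact ⟨j, G.np ▸ hj, L.loc.iso.fn hx (G.ep j hj)⟩

theorem pvn1t_M_loc (L : PvLocP T T' R pos pos' Kr) {𝔖 : PvwSt T} {𝔖' : PvwSt T'} (G : PvLocSM R 𝔖 𝔖') (hK : ∀ i, i ≤ 𝔖.nm → pos (T.src (𝔖.em i)) ∈ Kr) {y : ℂ} {ρ : ℝ}
    (h : Pvn1tM 𝔖 pos y ρ) : Pvn1tM 𝔖' pos' y ρ := by
  intro x' h1 h2 h3 h4
  obtain ⟨v, hv, i, hi, rfl⟩ := (pvlw_bkM G).2 _ h1
  have hp : pos' (T'.src x') ∈ Kr := by rw [← pvlw_pos L hv]; exact hK i hi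
  obtain ⟨x, hx⟩ := (L.full' _ hp).1 x' rfl
  have h1' : T.src x ∈ 𝔖.bkM := ((pvlw_bkM G).iff L.loc (pvloc_v_src hx)).2 h1
  have h2' : T.tgt x ∈ 𝔖.whM := ((pvlw_whM L.loc G).iff L.loc (pvloc_v_tgt L.loc hx)).2 h2
  obtain ⟨j, hj, rfl⟩ := h x h1' h2' (by rw [L.pos_eq x x' hx]; exact h3) (by rw [pvlw_pos L (pvloc_v_tgt L.loc hx)]; exact h4)
  exact ⟨j, G.nm ▸ hj, L.loc.iso.fn hx (G.em j hj)⟩

theorem pvn1t_dat_loc (L : PvLocP T T' R pos pos' Kr) {𝔇 : PvwDat T} {𝔇' : PvwDat T'} (G : PvLocDat R 𝔇 𝔇') (hKp : ∀ i, i ≤ 𝔇.t.np → pos (T.src (𝔇.t.ep i)) ∈ Kr)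
    (hKm : ∀ i, i ≤ 𝔇.s.nm → pos (T.src (𝔇.s.em i)) ∈ Kr) {N : PvwNum} {h : ℝ} {π : PvwPat} (H : Pvn1tDat 𝔇 pos N h π) : Pvn1tDat 𝔇' pos' N h π :=
  ⟨pvn1t_P_loc L G.t hKp H.1, pvn1t_M_loc L G.s hKm H.2⟩

end loc

/-! ## 3. the hypotheses `spl`, `frz` of `pvn1a_X_guardE` -/

section guard

variable {τ : Type} {c : ℝ} {𝔓 : PvxPar τ c} {m : ℕ} {π : PvxIx τ}

/-- **`spl`**: the clause is carried over by the twins of record -/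
theorem pvn1t_spl (𝔎 : PvxnKit) (Y Y' : Set ℂ) (H : PvrdSit Y Y' 𝔎.C 𝔎.r) (σ : ↥Y → Bool) (σ' : ↥Y' → Bool) (𝔇 : PvwDat (delbPl Y).toMap) (𝔇' : PvwDat (delbPl Y').toMap)
    (hT : PvrdT 𝔓 m π 𝔎 Y Y' 𝔇 𝔇') (h : Pvn1tTight 𝔓 m π Y 𝔇 σ) : Pvn1tTight 𝔓 m π Y' 𝔇' σ' :=
  pvn1t_dat_loc H.locP hT.1 (pvrd_hKp hT.2.2) (pvrd_hKm hT.2.2) h

/-- **`frz`**: the clause reads no colour -/
theorem pvn1t_frz (Y : Set ℂ) (𝔇 : PvwDat (delbPl Y).toMap) (σ σ' : ↥Y → Bool) (h : Pvn1tTight 𝔓 m π Y 𝔇 σ) : Pvn1tTight 𝔓 m π Y 𝔇 σ' := h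

end guard

/-! ## 4. the clause at a dense site set -/

section mesh

variable {Y : Set ℂ}

theorem pvn1t_P_pl {h : DelGood Y} {P : PlTri ↥Y} (hP : P = delPl h) {𝔖 : PvwSt P.toMap} {N : PvwNum} {hh : ℝ} {z : ℂ} {τ : PvwTy} {s : ↥Y → Bool} {μ : ℝ}
    (ha : 𝔖.AtOut Subtype.val N hh z τ s) (hμ : 0 < μ) (rr : 3 * (N.rho * hh / 4 + 2 * μ) + 2 * μ ≤ N.rho2 * hh)
    (hmesh : VorDense Y (closedBall (τ.cp hh z) (N.rho2 * hh + 3 * μ)) μ) (hfar : N.rho2 * hh + 4 * μ + (N.rho * hh / 4 + 2 * μ) + τ.b * hh ≤ pvwRad N hh τ τ.k) :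
    Pvn1tP 𝔖 Subtype.val (τ.cp hh z) (N.rho1 * hh / 2) := by
  subst hP
  intro x h1 h2 h3 h4
  exact pvhg_tight_out ha hμ le_rfl le_rfl rr hmesh hfar h1 h2 h3 h4

theorem pvn1t_M_pl {h : DelGood Y} {P : PlTri ↥Y} (hP : P = delPl h) {𝔖 : PvwSt P.toMap} {N : PvwNum} {hh : ℝ} {z : ℂ} {τ : PvwTy} {s : ↥Y → Bool} {μ : ℝ}
    (ha : 𝔖.AtIn Subtype.val N hh z τ s) (hμ : 0 < μ) (rr : 3 * (N.rho * hh / 4 + 2 * μ) + 2 * μ ≤ N.rho2 * hh)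
    (hmesh : VorDense Y (closedBall (τ.cm hh z) (N.rho2 * hh + 3 * μ)) μ) (hfar : N.rho2 * hh + 4 * μ + (N.rho * hh / 4 + 2 * μ) + τ.b * hh ≤ pvwRad N hh τ τ.k) :
    Pvn1tM 𝔖 Subtype.val (τ.cm hh z) (N.rho1 * hh / 2) := by
  subst hP
  intro x h1 h2 h3 h4
  exact pvhg_tight_in ha hμ le_rfl le_rfl rr hmesh hfar h1 h2 h3 h4

/-- the numbers (no site, no colour) -/
structure Pvn1tNum (N : PvwNum) (hh μ : ℝ) (π : PvwPat) : Prop where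
  mu : 0 < μ
  rr : 3 * (N.rho * hh / 4 + 2 * μ) + 2 * μ ≤ N.rho2 * hh
  far_t : N.rho2 * hh + 4 * μ + (N.rho * hh / 4 + 2 * μ) + π.tt.b * hh ≤ pvwRad N hh π.tt π.tt.k
  far_s : N.rho2 * hh + 4 * μ + (N.rho * hh / 4 + 2 * μ) + π.ts.b * hh ≤ pvwRad N hh π.ts π.ts.k

/-- **every well formed datum of a site set which is dense round the two tips has no tunnel** -/
theorem pvn1t_of_mesh (hY : DelGood Y) {𝔇 : PvwDat (delbPl Y).toMap} {N : PvwNum} {hh μ : ℝ} {π : PvwPat} (hok : 𝔇.Ok Subtype.val N hh π) (hn : Pvn1tNum N hh μ π)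
    (mesh_t : VorDense Y (closedBall (π.tt.cp hh π.zt) (N.rho2 * hh + 3 * μ)) μ) (mesh_s : VorDense Y (closedBall (π.ts.cm hh π.zs) (N.rho2 * hh + 3 * μ)) μ) :
    Pvn1tDat 𝔇 Subtype.val N hh π :=
  ⟨pvn1t_P_pl (delb_pl_eq hY) hok.st_t hn.mu hn.rr mesh_t hn.far_t, pvn1t_M_pl (delb_pl_eq hY) hok.st_s hn.mu hn.rr mesh_s hn.far_s⟩

end mesh

section c1

variable {τ : Type} {c : ℝ} {𝔓 : PvxPar τ c} {x : ℂ} {R : ℝ} {m : ℕ} {π : PvxIx τ}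

/-- **`c1`**: at a site set which is dense in the patch every well formed datum of the pattern has the clause      (`Y := pvxY ω`, `hok := hA.1` for `hA : Pvn1bAct ..`;   `hd` = a clause of the free good event: `pvn1b_dense_lim`) -/
theorem pvn1t_c1 (hW : 𝔓.Wf) (hR : 0 < R) (hπ : π ∈ pvxPatSet 𝔓 x R m) {μ : ℝ} (hn : Pvn1tNum 𝔓.num (pvlmH m) μ (𝔓.reg m π))
    (hroom : 𝔓.num.rho * pvlmH m / 4 + 𝔓.num.rho2 * pvlmH m + 3 * μ ≤ pvlmH m) {Y : Set ℂ} (hY : DelGood Y) (hd : VorDense Y (closedBall x (6 * R)) μ)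
    {𝔇 : PvwDat (delbPl Y).toMap} (hok : 𝔇.Ok Subtype.val 𝔓.num (pvlmH m) (𝔓.reg m π)) (σ : ↥Y → Bool) : Pvn1tTight 𝔓 m π Y 𝔇 σ := by
  obtain ⟨⟨-, -, -, hzs, hzt, -⟩, -, hbs, hbt, -⟩ := hπ
  have hh := pvlm_H_pos m
  have hr1 : 0 ≤ 𝔓.num.rho1 := (hW.rho0.trans hW.rho1).le
  have hrad : ∀ (t : PvwTy) (k : ℕ), k ≤ 𝔓.num.K → pvwRad 𝔓.num (pvlmH m) t k ≤ pvwRad 𝔓.num (pvlmH m) t 𝔓.num.K := by
    intro t k hk
    unfold pvwRad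
    have : (k : ℝ) ≤ 𝔓.num.K := by exact_mod_cast hk
    gcongr
  have key : ∀ (y a z w : ℂ) (r : ℝ), ‖w - y‖ ≤ 𝔓.num.rho2 * pvlmH m + 3 * μ → ‖a - y‖ ≤ 𝔓.num.rho * pvlmH m / 4 → a ∈ pvwSq z r → 2 * r + pvlmH m ≤ R → ‖z - x‖ ≤ 3 * R → ‖w - x‖ ≤ 6 * R := by
    intro y a z w r h1 h2 h3 h4 h5
    have h6 := pvn1b_sq_norm h3
    have e : w - x = (w - y) - (a - y) + (a - z) + (z - x) := by ring
    rw [e]
    have h7 := norm_add_le ((w - y) - (a - y) + (a - z)) (z - x)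
    have h8 := norm_add_le ((w - y) - (a - y)) (a - z)
    have h9 := norm_sub_le (w - y) (a - y)
    linarith
  refine pvn1t_of_mesh hY hok hn (fun w hw => hd w ?_) (fun w hw => hd w ?_)
  · rw [mem_closedBall_iff_norm] at hw ⊢
    refine key _ _ _ w _ hw hok.st_t.good.tip_p.1 (hok.st_t.stub.ep_in _ le_rfl).1 ?_ (by rw [hW.reg_zt]; exact hzt)
    have := hrad (𝔓.reg m π).tt _ hok.st_t.lev
    rw [hW.reg_tt] at this ⊢
    linarith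
  · rw [mem_closedBall_iff_norm] at hw ⊢
    refine key _ _ _ w _ hw hok.st_s.good.tip_m.1 (hok.st_s.stub.em_in _ le_rfl).1 ?_ (by rw [hW.reg_zs]; exact hzs)
    have := hrad (𝔓.reg m π).ts _ hok.st_s.lev
    rw [hW.reg_ts] at this ⊢
    linarith

end c1

/-! ## 5. the numbers at the parameters of record -/

section model

variable {N : PvxNums} (hN : N.Ok) {c : ℝ} (c0 : 0 < c) {m : ℕ}

include c0 in
/-- **THE NUMBERS AT THE MODEL**: every level `m0 ≤ m`, every mesh `0 < μ ≤ δ_m` -/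
theorem pvn1t_num (hm : N.m0 ≤ m) (π : PvxIx (pvxTau N)) {μ : ℝ} (h0 : 0 < μ) (hμ : μ ≤ pvlmDel c m) :
    Pvn1tNum (pvxParOf N hN c).num (pvlmH m) μ ((pvxParOf N hN c).reg m π) ∧
      (pvxParOf N hN c).num.rho * pvlmH m / 4 + (pvxParOf N hN c).num.rho2 * pvlmH m + 3 * μ ≤ pvlmH m := by
  have hW := pvxo_wf N hN c
  have hh := pvlm_H_pos m
  have hf := pvxo_fine hN c0 hm
  have a1 : N.rho * pvlmH m ≤ N.rho1 * pvlmH m / 8 := by nlinarith [hN.rho1]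
  have a2 : N.rho1 * pvlmH m ≤ N.rho2 * pvlmH m / 8 := by nlinarith [hN.rho2]
  have a3 : N.rho2 * pvlmH m ≤ pvlmH m / 8 := by nlinarith [hN.rho3]
  have a0 : 0 < N.rho * pvlmH m := mul_pos hN.rho0 hh
  have a4 : 1000000 * μ ≤ N.rho * pvlmH m := by linarith
  have hb : ∀ k : ℕ, N.rho2 * pvlmH m + 4 * μ + (N.rho * pvlmH m / 4 + 2 * μ) + N.b1 * pvlmH m ≤ (2 * N.b2 + k * N.rho1) * pvlmH m := by
    intro k
    have b1 : 0 ≤ (k : ℝ) * N.rho1 * pvlmH m := by have := hN.rho1_pos; positivity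
    have b2 : (N.b1 + 2) * pvlmH m ≤ N.b2 * pvlmH m := by nlinarith [hN.gap, hN.ab2]
    have b3 : 0 < N.b2 * pvlmH m := mul_pos hN.b2_pos hh
    nlinarith
  refine ⟨⟨h0, ?_, ?_, ?_⟩, ?_⟩
  · show 3 * (N.rho * pvlmH m / 4 + 2 * μ) + 2 * μ ≤ N.rho2 * pvlmH m
    linarith
  · rw [hW.reg_tt]
    exact hb _
  · rw [hW.reg_ts]
    exact hb _
  · show N.rho * pvlmH m / 4 + N.rho2 * pvlmH m + 3 * μ ≤ pvlmH m
    linarith

end model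

end Claimed.Agent.R289
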