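import Claimed.Agent.R289.Tr.SimpleE
import Claimed.Agent.R289.Defs.FitRec

/-!
# Row 289 (S0537), Exit/N1XC : THE RESAMPLED REGION OF THE CHAIN OF A PATTERN LIES IN `Yin`      (helper213, leaf of (X) given by helper60; prefix `pvnxc_`)

`pvieCc 𝔓 𝔈 m ε π.p` = the two end tiles, the last door, the doors `j < n`, the tiles `j < n`.      `Yin = pvfeIn` = lanes `[-1/10, 4/10]` + the two inner mouths `closedBall y (ρ h / 2)`.
* sec. 1  unit geometry: the door square `(0, 1/10)`: its front half lies in the lane of the cell it opens (`pvnxc_front`), its back half in the EXIT end of the lane of the cell before (`pvnxc_back`), all three letters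
* sec. 2  the doors `0 < j < n` of a word lie in the lanes (`pvnxc_door_mid`); a door plug within `r - δ/5` of `Y` lies in `closedBall Y r` (`pvnxc_door_ball`); the doors of record are within `3 ρ h / 8 + 3 δ / 2` of the grid centres (`pvnxc_out`, `pvnxc_inn`)
* sec. 3  **`pvnxc_Cin`**, `pvnxc_ne`.      0 sorry
-/

set_option autoImplicit false
set_option linter.unusedVariables false

namespace Claimed.Agent.R289

open Set Metric Complex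

/-! ## 1. unit geometry -/

theorem pvnxc_sq {w : ℂ} {r : ℝ} (h : w ∈ pvccSq 0 r) : |w.re| < r ∧ |w.im| < r := by
  have h' : pvccN (w - 0) < r := h
  rw [sub_zero] at h'
  exact ⟨lt_of_le_of_lt (le_max_left _ _) h', lt_of_le_of_lt (le_max_right _ _) h'⟩

/-- the front half of the door square lies in the lane of the cell it opens -/
theorem pvnxc_front (t : PvtTurn) {w : ℂ} (h : w ∈ pvccSq 0 (1 / 10)) (h0 : 0 ≤ w.re) : w ∈ pvfeLane (-(1 / 10)) (4 / 10) t := by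
  obtain ⟨h1, h2⟩ := pvnxc_sq h
  rw [abs_lt] at h1 h2
  cases t with
  | S => exact ⟨h0, by linarith [h1.2], by linarith [h2.1], by linarith [h2.2]⟩
  | L => exact Or.inl ⟨h0, by linarith [h1.2], by linarith [h2.1], by linarith [h2.2]⟩
  | R => exact Or.inl ⟨h0, by linarith [h1.2], by linarith [h2.1], by linarith [h2.2]⟩

/-- the back half of the door square lies in the exit end of the lane of the cell before -/
theorem pvnxc_back (t : PvtTurn) {w : ℂ} (h : w ∈ pvccSq 0 (1 / 10)) (h0 : w.re ≤ 0) : t.mid + t.rot * w ∈ pvfeLane (-(1 / 10)) (4 / 10) t := by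
  obtain ⟨h1, h2⟩ := pvnxc_sq h
  rw [abs_lt] at h1 h2
  cases t with
  | S =>
    have e1 : (PvtTurn.S.mid + PvtTurn.S.rot * w).re = 1 + w.re := by simp [PvtTurn.mid, PvtTurn.rot]
    have e2 : (PvtTurn.S.mid + PvtTurn.S.rot * w).im = w.im := by simp [PvtTurn.mid, PvtTurn.rot]
    refine ⟨?_, ?_, ?_, ?_⟩
    · rw [e1]; linarith [h1.1]
    · rw [e1]; linarith
    · rw [e2]; linarith [h2.1]
    · rw [e2]; linarith [h2.2]
  | L =>
    have e1 : (PvtTurn.L.mid + PvtTurn.L.rot * w).re = 1 / 2 - w.im := by simp [PvtTurn.mid, PvtTurn.rot]; ring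
    have e2 : (PvtTurn.L.mid + PvtTurn.L.rot * w).im = 1 / 2 + w.re := by simp [PvtTurn.mid, PvtTurn.rot]
    refine Or.inr ⟨?_, ?_, ?_, ?_⟩
    · rw [e1]; linarith [h2.2]
    · rw [e1]; linarith [h2.1]
    · rw [e2]; linarith [h1.1]
    · rw [e2]; linarith
  | R =>
    have e1 : (PvtTurn.R.mid + PvtTurn.R.rot * w).re = 1 / 2 + w.im := by simp [PvtTurn.mid, PvtTurn.rot]
    have e2 : (PvtTurn.R.mid + PvtTurn.R.rot * w).im = -(1 / 2) - w.re := by simp [PvtTurn.mid, PvtTurn.rot]; ring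
    refine Or.inr ⟨?_, ?_, ?_, ?_⟩
    · rw [e1]; linarith [h2.1]
    · rw [e1]; linarith [h2.2]
    · rw [e2]; linarith
    · rw [e2]; linarith [h1.1]

/-! ## 2. doors -/

theorem pvnxc_K_lanes (a b : ℝ) (z d : ℂ) (l : List PvtTurn) {j : ℕ} (hj : j < l.length) : pvccK (pvfeLane a b) z d l j ⊆ pvfeLanes a b z d l := by
  intro w hw
  unfold pvfeLanes
  exact mem_iUnion₂.2 ⟨j, Finset.mem_range.2 hj, hw⟩

/-- the doors `0 < j < n` of a word lie in the lanes -/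
theorem pvnxc_door_mid (z d : ℂ) (l : List PvtTurn) {j : ℕ} (hj0 : 0 < j) (hj : j < l.length) :
    pvccO (pvccSq 0 (1 / 10)) z d l j ⊆ pvfeLanes (-(1 / 10)) (4 / 10) z d l := by
  rintro _ ⟨v, hv, rfl⟩
  rcases le_total 0 v.re with h0 | h0
  · exact pvnxc_K_lanes _ _ z d l hj ⟨v, pvnxc_front _ hv h0, rfl⟩
  · obtain ⟨i, rfl⟩ : ∃ i, j = i + 1 := ⟨j - 1, by omega⟩
    have hi : i < l.length := by omega
    refine pvnxc_K_lanes _ _ z d l hi ⟨_, pvnxc_back (pvccT l i) hv h0, ?_⟩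
    show pvccZ z d l i + pvccD d l i * ((pvccT l i).mid + (pvccT l i).rot * v) = pvccZ z d l (i + 1) + pvccD d l (i + 1) * v
    rw [pvccZ_succ z d l hi, pvccD_succ d l hi]
    ring

/-- a door plug within `r - δ/5` of `Y` lies in `closedBall Y r` -/
theorem pvnxc_door_ball {δ : ℝ} {O : Set ℂ} (hO : O ⊆ pvccSq 0 (δ / 10)) {p u Y : ℂ} (hu : ‖u‖ = 1) {r : ℝ} (h : ‖p - Y‖ + δ / 5 ≤ r) :
    pvthSim p u '' O ⊆ closedBall Y r := by
  rintro _ ⟨v, hv, rfl⟩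
  have h1 := pvzu_sq_norm (hO hv)
  rw [sub_zero] at h1
  rw [mem_closedBall, dist_eq_norm]
  have e : pvthSim p u v - Y = (p - Y) + u * v := by unfold pvthSim; ring
  have h2 : ‖(p - Y) + u * v‖ ≤ ‖p - Y‖ + ‖u * v‖ := norm_add_le _ _
  rw [norm_mul, hu, one_mul] at h2
  rw [e]
  linarith

theorem pvnxc_dir_norm {u : ℤ × ℤ} (hu : PvfeDir u) : ‖pvtZ u‖ = 1 := by
  rcases hu with rfl | rfl | rfl | rfl <;> simp [pvtZ]

theorem pvnxc_ctr_sub (δ : ℝ) (e u : ℤ × ℤ) : pvtCtr δ (e - u) = pvtCtr δ e - (δ : ℂ) * pvtZ u := by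
  apply Complex.ext
  · simp [pvtCtr, pvtZ]; ring
  · simp [pvtCtr, pvtZ]; ring

/-- the common estimate -/
theorem pvnxc_est {δ h ρ : ℝ} (hδ : 0 < δ) (hh : 0 < h) (hρ : 0 < ρ) {e u : ℤ × ℤ} (hu : PvfeDir u) {y : ℂ}
    (hc : ‖pvtCtr δ e - (h : ℂ) * (y + ((3 * ρ / 8 : ℝ) : ℂ) * pvtZ u)‖ ≤ δ) :
    ‖(pvtCtr δ (e - u) + pvtCtr δ e) / 2 - (h : ℂ) * y‖ ≤ 3 * ρ * h / 8 + 3 * δ / 2 := by
  have hn := pvnxc_dir_norm hu
  have e1 : (pvtCtr δ (e - u) + pvtCtr δ e) / 2 - (h : ℂ) * y =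
      (pvtCtr δ e - (h : ℂ) * (y + ((3 * ρ / 8 : ℝ) : ℂ) * pvtZ u)) + (((3 * ρ * h / 8 - δ / 2 : ℝ) : ℂ) * pvtZ u) := by
    rw [pvnxc_ctr_sub]; push_cast; ring
  rw [e1]
  refine (norm_add_le _ _).trans ?_
  rw [norm_mul, hn, mul_one, Complex.norm_real, Real.norm_eq_abs]
  have h3 : |3 * ρ * h / 8 - δ / 2| ≤ 3 * ρ * h / 8 + δ / 2 := by
    have : 0 < ρ * h := mul_pos hρ hh
    rw [abs_le]; constructor <;> linarith
  linarith

section model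

variable {τ : Type} {c : ℝ} {𝔓 : PvxPar τ c} {𝔈 : PvieEng τ} {x : ℂ} {R : ℝ} {m : ℕ} {ε : ℝ} {π : PvxIx τ}

/-- the exit door of record is within `3 ρ h / 8 + 3 δ / 2` of the grid centre `y⁺` -/
theorem pvnxc_out (hW : 𝔓.Wf) (hF : PvfhWf 𝔓) (m : ℕ) (z : ℂ) (t : τ) :
    ‖pvieZo 𝔓 m z t - (𝔓.ty t).cp (pvlmH m) z‖ ≤ 3 * 𝔓.num.rho * pvlmH m / 8 + 3 * pvlmDel c m / 2 := by
  obtain ⟨e, u, hu, h1, -, h3, -⟩ := (hF.doors m).out t
  rw [hW.del m] at h1 h3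
  have := pvnxc_est (pvlm_Del_pos c m) (pvlm_H_pos m) hW.rho0 hu h3
  have e1 : pvieZo 𝔓 m z t - (𝔓.ty t).cp (pvlmH m) z = (pvtCtr (pvlmDel c m) (e - u) + pvtCtr (pvlmDel c m) e) / 2 - (pvlmH m : ℂ) * (𝔓.ty t).yp := by
    unfold pvieZo PvwTy.cp; rw [h1]; ring
  rw [e1]; exact this

/-- the entrance door of record is within `3 ρ h / 8 + 3 δ / 2` of the grid centre `y⁻` -/
theorem pvnxc_inn (hW : 𝔓.Wf) (hF : PvfhWf 𝔓) (m : ℕ) (z : ℂ) (t : τ) :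
    ‖pvieZi 𝔓 m z t - (𝔓.ty t).cm (pvlmH m) z‖ ≤ 3 * 𝔓.num.rho * pvlmH m / 8 + 3 * pvlmDel c m / 2 := by
  obtain ⟨e, u, hu, h1, -, h3, -⟩ := (hF.doors m).inn t
  rw [hW.del m] at h1 h3
  have := pvnxc_est (pvlm_Del_pos c m) (pvlm_H_pos m) hW.rho0 hu h3
  have e1 : pvieZi 𝔓 m z t - (𝔓.ty t).cm (pvlmH m) z = (pvtCtr (pvlmDel c m) (e - u) + pvtCtr (pvlmDel c m) e) / 2 - (pvlmH m : ℂ) * (𝔓.ty t).ym := by
    unfold pvieZi PvwTy.cm; rw [h1]; ring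
  rw [e1]; exact this

theorem pvnxc_din (hF : PvfhWf 𝔓) (m : ℕ) (t : τ) : ‖(𝔓.Γ m).din t‖ = 1 := by
  obtain ⟨e, u, hu, -, h2, -, -⟩ := (hF.doors m).inn t
  rw [h2, norm_neg, pvnxc_dir_norm hu]

/-! ## 3. `C_c ⊆ Yin` -/

/-- **the resampled region of the chain of a pattern lies in `Yin`** -/
theorem pvnxc_Cin (hW : 𝔓.Wf) (hF : PvfhWf 𝔓) (hfine : 32 * pvlmDel c m < 𝔓.num.rho * pvlmH m) (hπ : π ∈ pvxPatSet 𝔓 x R m)
    (hd : (𝔈.kit m ε).δ = pvlmDel c m) (hO : (𝔈.kit m ε).O₀ ⊆ pvccSq 0 (pvlmDel c m / 10))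
    (hK : ∀ t, (𝔈.kit m ε).K₀ t ⊆ (fun w : ℂ => (pvlmDel c m : ℂ) * w) '' pvfeLane (-(1 / 10)) (4 / 10) t)
    (hoK : pvieSh π.p.zt (𝔈.oK m π.p.tt) ⊆ closedBall (pvxYt 𝔓 m π.p) (𝔓.num.rho * pvlmH m / 2))
    (hiK : pvieSh π.p.zs (𝔈.iK m π.p.ts) ⊆ closedBall (pvxYs 𝔓 m π.p) (𝔓.num.rho * pvlmH m / 2)) :
    pvieCc 𝔓 𝔈 m ε π.p ⊆ (𝔓.reg m π).Yin := by
  have hδ := pvlm_Del_pos c m
  have hδ' : (𝔈.kit m ε).δ ≠ 0 := by rw [hd]; exact hδ.ne'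
  have hδc : (pvlmDel c m : ℂ) ≠ 0 := by exact_mod_cast hδ.ne'
  rw [hF.reg_eq]
  show pvieCc 𝔓 𝔈 m ε π.p ⊆ pvfeLanes (-(1 / 10)) (4 / 10) (pvfeZ (𝔓.Γ m) π.p) (pvfeD (𝔓.Γ m) π.p) π.p.l ∪ closedBall (pvxYt 𝔓 m π.p) (𝔓.num.rho * pvlmH m / 2) ∪
    closedBall (pvxYs 𝔓 m π.p) (𝔓.num.rho * pvlmH m / 2)
  have hZ : pvieZo 𝔓 m π.p.zt π.p.tt = pvfeZ (𝔓.Γ m) π.p := rfl
  have hD : ((𝔈.kit m ε).δ : ℂ) * (𝔓.Γ m).dout π.p.tt = pvfeD (𝔓.Γ m) π.p := by unfold pvfeD; rw [hd, hW.del m]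
  -- the reference regions in unit coordinates
  have hO1 : (fun w : ℂ => ((𝔈.kit m ε).δ : ℂ) * w) ⁻¹' (𝔈.kit m ε).O₀ ⊆ pvccSq 0 (1 / 10) := by
    intro w hw
    have h1 := pvnxc_sq (hO hw)
    rw [hd] at h1
    simp only [Complex.re_ofReal_mul, Complex.im_ofReal_mul, abs_mul, abs_of_pos hδ] at h1
    show pvccN (w - 0) < 1 / 10
    rw [sub_zero]
    refine max_lt ?_ ?_
    · have := h1.1; rw [← sub_pos] at this ⊢
      have e : pvlmDel c m / 10 - pvlmDel c m * |w.re| = pvlmDel c m * (1 / 10 - |w.re|) := by ring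
      rw [e] at this
      exact (mul_pos_iff_of_pos_left hδ).1 this
    · have := h1.2; rw [← sub_pos] at this ⊢
      have e : pvlmDel c m / 10 - pvlmDel c m * |w.im| = pvlmDel c m * (1 / 10 - |w.im|) := by ring
      rw [e] at this
      exact (mul_pos_iff_of_pos_left hδ).1 this
  have hK1 : ∀ t, (fun w : ℂ => ((𝔈.kit m ε).δ : ℂ) * w) ⁻¹' (𝔈.kit m ε).K₀ t ⊆ pvfeLane (-(1 / 10)) (4 / 10) t := by
    intro t w hw
    obtain ⟨v, hv, e⟩ := hK t hw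
    rw [hd] at e
    have : v = w := mul_left_cancel₀ hδc e
    rw [← this]; exact hv
  rintro w ⟨S, hS, hw⟩
  simp only [pvieTiles, List.mem_append, List.mem_cons, List.mem_map, List.mem_range, List.not_mem_nil, or_false] at hS
  rcases hS with ((rfl | rfl | rfl) | ⟨j, hj, rfl⟩) | ⟨j, hj, rfl⟩
  · exact Or.inl (Or.inr (hoK hw))
  · exact Or.inr (hiK hw)
  · refine Or.inr (pvnxc_door_ball hO (pvnxc_din hF m _) ?_ hw)
    have := pvnxc_inn hW hF m π.p.zs π.p.ts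
    unfold pvxYs
    linarith
  · rcases Nat.eq_zero_or_pos j with rfl | hj0
    · refine Or.inl (Or.inr (pvnxc_door_ball hO ?_ ?_ hw))
      · simp [pvthD, (𝔓.Γ m).dout1]
      · have := pvnxc_out hW hF m π.p.zt π.p.tt
        have e0 : pvthZ (𝔈.kit m ε).δ (pvieZo 𝔓 m π.p.zt π.p.tt) ((𝔓.Γ m).dout π.p.tt) π.p.l 0 = pvieZo 𝔓 m π.p.zt π.p.tt := by simp [pvthZ, pvtDisp]
        rw [e0]
        unfold pvxYt
        linarith
    · refine Or.inl (Or.inl ?_)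
      have h1 : w ∈ pvzuO (𝔈.kit m ε) (pvieZo 𝔓 m π.p.zt π.p.tt) ((𝔓.Γ m).dout π.p.tt) π.p.l j := hw
      rw [pvzu_O_eq _ hδ', hZ, hD] at h1
      exact pvnxc_door_mid _ _ _ hj0 hj (pvccPl_mono _ _ hO1 h1)
  · refine Or.inl (Or.inl ?_)
    have h1 : w ∈ pvzuK (𝔈.kit m ε) (pvieZo 𝔓 m π.p.zt π.p.tt) ((𝔓.Γ m).dout π.p.tt) π.p.l j := hw
    rw [pvzu_K_eq _ hδ', hZ, hD] at h1
    exact pvnxc_K_lanes _ _ _ _ _ hj (pvccPl_mono _ _ (hK1 _) h1)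

/-- the resampled region is not empty -/
theorem pvnxc_ne (p : PvtsPat τ) (h0 : (0 : ℂ) ∈ (𝔈.kit m ε).O₀) : (pvieCc 𝔓 𝔈 m ε p).Nonempty :=
  ⟨_, pvieDoor 𝔈 m ε (pvieZi 𝔓 m p.zs p.ts) ((𝔓.Γ m).din p.ts), by simp [pvieTiles], ⟨0, h0, rfl⟩⟩

end model

end Claimed.Agent.R289
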