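import Claimed.Agent.R289.Exit.N1XK
import Claimed.Agent.R289.Exit.N1CX
import Claimed.Agent.R289.Exit.N1K
import Claimed.Agent.R289.Exit.N1Guard
import Claimed.Agent.R289.Exit.N1RK
import Claimed.Agent.R289.Exit.N1XE
import Claimed.Agent.R289.Exit.N1XC
import Claimed.Agent.R289.Exit.N1T
import Claimed.Agent.R289.Exit.N1Meas
import Claimed.Agent.R289.Exit.EngRec
import Claimed.Agent.R289.Tr.AtUniq
import Claimed.Agent.R289.Tr.LocalX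
import Claimed.Agent.R289.Tr.KitUni

/-!
# Row 289 (S0537), Exit/N1XA : THE `X` HALF OF `Exit/N1All` v5 AS ONE CITATION      (helper60, pen of (X) by T16 of 24; prefix `pvnxa_`, `pvnxa`)

AT THE OBJECTS OF RECORD `𝔓 := pvxParOf N hN c`, `𝔈` with `PvnaRec N hN c 𝔈`, a GOOD index (`PvjxGood` of 209: free by `pvjx_split_at`), RULING N1-A of 170:
* collar radius `r := pvnxaR c m = δ_m / 60` (v1.2: `60 r ≤ δ_m` asked by 12 63 104: `pvnxa_R60`), mesh `μ := δ_m / 4`, `C ε := pvieCc 𝔓 𝔈 m ε π.p`, `B := closedBall x (6R)`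
* layer 1 of the guard `pvnxaRg x R C r := g5 ∧ Pvn1kMesh x R C r` (170 `Exit/N1K`)
* kits `pvnxaKs .. q ε := (pvknKit 𝔓 x R m π (C ε) r B _ q).guardE (pvnxaRg x R (C ε) r)`      (kit v2 of 29)
* `pvnxa_geo` (X1: `PvknGeo` v2, 292 `Exit/N1CX`), `pvnxa_fa` (frozen sites far, apexes off `Yin`), `pvnxa_kit` (X2: `Pvn1bKit`), `pvnxa_qbx` (X3: 60 `Exit/N1XK`), `pvnxa_mC`
* v1.3 LAYER 1 MAY GROW: **`pvnxa_X_ext`** (generic), **`pvnxa_X_ext_rec`** (record): layer 1 `:= pvnxaRg ∧ Rx ε` for ANY extra deterministic clause `Rx` with `frz c1 spl`;   **`pvnxa_X_T`** : `Rx := Pvn1tTight 𝔓 m π` (NO TUNNEL of 27, `Exit/N1T`), kits `pvnxaKsT`;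
  ONE mesh clause for the free good event: `pvnxaGm x R r ω := VorDense (pvxY ω) (closedBall x (7R)) r` (`pvnxa_Gm_off`, `pvnxa_Gm_six`, `pvnxa_Gm_lim`)
* **`pvnxa_X`** : `∃ q ≠ 0, ∀ Γs` [free good event which implies the mesh off `C`, of high probability] `∀ 𝔜, Pvn1aX 𝔓 x R m π 0 𝔜 (pvnxaKs ..) Γs (δ_m / 4)`
v1.1: `hCin` PAID: **`pvnxa_Cin`** (`pvnxc_Cin` of 213 + `pvnxe_` (1)(2)(4) of 184): **`pvnxa_geo_rec`, `pvnxa_fa_rec`, `pvnxa_X_rec` HAVE NO HYPOTHESIS LEFT** but `PvnaWf`, `PvnaRec`, `0 < R`, `m0 ≤ m`, `π ∈ pvxPatSet`, `PvjxGood`.      0 sorry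
-/

set_option autoImplicit false
set_option linter.unusedVariables false
set_option linter.unusedSectionVars false

namespace Claimed.Agent.R289

open MeasureTheory Filter Topology Set Claims.C0465
open scoped ENNReal

/-! ## 1. the objects -/

/-- the collar radius of record -/
noncomputable def pvnxaR (c : ℝ) (m : ℕ) : ℝ := pvlmDel c m / 60

/-- **LAYER 1 OF THE GUARD, v5**: `g₀ ⊆ closedBall x (5R)` and the mesh `r` off `C` -/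
def pvnxaRg (x : ℂ) (R : ℝ) (C : Set ℂ) (r : ℝ) : ∀ Y : Set ℂ, PvwDat (delbPl Y).toMap → (↥Y → Bool) → Prop :=
  fun Y 𝔇 σ => (∀ k, k ≤ 𝔇.g.n → ‖((𝔇.g.v k : ↥Y) : ℂ) - x‖ ≤ 5 * R) ∧ Pvn1kMesh x R C r Y 𝔇 σ

/-- **THE KITS OF RECORD, v5** (layers 0 and 1) -/
noncomputable def pvnxaKs {τ : Type} {c : ℝ} (𝔓 : PvxPar τ c) (𝔈 : PvieEng τ) (x : ℂ) (R : ℝ) (m : ℕ) (π : PvxIx τ) (q : ℝ≥0∞) (ε : ℝ) : PvxnKit :=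
  (pvknKit 𝔓 x R m π (pvieCc 𝔓 𝔈 m ε π.p) (pvnxaR c m) (Metric.closedBall x (6 * R)) measurableSet_closedBall q).guardE (pvnxaRg x R (pvieCc 𝔓 𝔈 m ε π.p) (pvnxaR c m))

/-- **THE KITS OF RECORD WITH THE CLAUSE `NO TUNNEL` OF 27 IN LAYER 1** -/
noncomputable def pvnxaKsT {τ : Type} {c : ℝ} (𝔓 : PvxPar τ c) (𝔈 : PvieEng τ) (x : ℂ) (R : ℝ) (m : ℕ) (π : PvxIx τ) (q : ℝ≥0∞) (ε : ℝ) : PvxnKit :=
  (pvknKit 𝔓 x R m π (pvieCc 𝔓 𝔈 m ε π.p) (pvnxaR c m) (Metric.closedBall x (6 * R)) measurableSet_closedBall q).guardE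
    fun Y 𝔇 σ => pvnxaRg x R (pvieCc 𝔓 𝔈 m ε π.p) (pvnxaR c m) Y 𝔇 σ ∧ Pvn1tTight 𝔓 m π Y 𝔇 σ

theorem pvnxa_eqns_cite : True := by
  have := @pvnxaR.eq_1; have := @pvnxaRg.eq_1; have := @pvnxaKs.eq_1; have := @pvnxaKsT.eq_1
  trivial

theorem pvnxa_R_pos (c : ℝ) (m : ℕ) : 0 < pvnxaR c m := by
  have := pvlm_Del_pos c m
  unfold pvnxaR
  positivity

theorem pvnxa_R_le (c : ℝ) (m : ℕ) : 30 * pvnxaR c m ≤ pvlmDel c m := by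
  have := pvlm_Del_pos c m
  unfold pvnxaR
  linarith

theorem pvnxa_R60 (c : ℝ) (m : ℕ) : 60 * pvnxaR c m ≤ pvlmDel c m := by
  unfold pvnxaR
  linarith

/-! ## 2. generic parameters -/

section gen

variable {τ : Type} {c : ℝ} {𝔓 : PvxPar τ c} {𝔈 : PvieEng τ} {x : ℂ} {R : ℝ} {m : ℕ} {π : PvxIx τ}

/-- the resampled region is Borel -/
theorem pvnxa_mC (hE : PvnaWf 𝔓 𝔈) (hπ : π ∈ pvxPatSet 𝔓 x R m) : ∀ᶠ ε in 𝓝[>] (0 : ℝ), MeasurableSet (pvieCc 𝔓 𝔈 m ε π.p) := by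
  obtain ⟨Cth, r, κs, hWf⟩ := hE.wf
  obtain ⟨U, hU⟩ := hE.num
  have hk : ∀ᶠ ε in 𝓝[>] (0 : ℝ), (𝔈.kit m ε).WF := by
    rw [hU.kit]
    exact ((U.fam (pvlm_Del_pos c)).ok m).mono fun ε h => h.wf
  have hdo : (𝔓.Γ m).dout π.p.tt ≠ 0 := fun h => by
    have := (𝔓.Γ m).dout1 π.p.tt
    rw [h, norm_zero] at this
    exact zero_ne_one this
  have hdi : (𝔓.Γ m).din π.p.ts ≠ 0 := fun h => by
    have h1 := pvt_norm_dir ((𝔓.Γ m).dout π.p.tt) π.p.l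
    rw [hπ.1.1.2, h, norm_zero, (𝔓.Γ m).dout1] at h1
    exact zero_ne_one h1
  filter_upwards [hk] with ε hε
  have e : pvieCc 𝔓 𝔈 m ε π.p = ⋃ S ∈ {S | S ∈ pvieTiles 𝔓 𝔈 m ε π.p}, S := by
    ext w
    simp only [pvieCc, mem_ofPred_eq, mem_iUnion, exists_prop]
  rw [e]
  refine MeasurableSet.biUnion (List.finite_toSet _).countable fun S hS => ?_
  have hS' : S ∈ pvieTiles 𝔓 𝔈 m ε π.p := hS
  unfold pvieTiles at hS'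
  simp only [List.mem_append, List.mem_cons, List.not_mem_nil, or_false, List.mem_map, List.mem_range] at hS'
  rcases hS' with ((rfl | rfl | rfl) | ⟨j, -, rfl⟩) | ⟨j, -, rfl⟩
  · exact pvnm_sh _ (hWf.m_oK m _)
  · exact pvnm_sh _ (hWf.m_iK m _)
  · exact pvnm_door 𝔈 hε _ hdi
  · exact pvnm_door 𝔈 hε _ (pvthD_ne_zero hdo _ _)
  · exact pvnm_sim _ (pvthD_ne_zero hdo _ _) (hε.mK _)

/-- **(X2) THE CONTRACT OF 60 AT THE KIT v2 OF 29**, any mesh `0 < μ < h` -/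
theorem pvnxa_kit_of (hW : 𝔓.Wf) (hLR : 𝔓.𝔐.L * pvlmH m + pvlmH m ≤ R) (hR : 0 < R) (hπ : π ∈ pvxPatSet 𝔓 x R m) {r : ℝ} (q : ℝ≥0∞) {C : Set ℂ} (Γ : PVSample → Prop) {μ : ℝ} (h0 : 0 < μ) (h1 : μ < pvlmH m)
    (hfa : ∀ ω : PVSample, PvqfGood (pvConf ω) → L9Fine (pvxY ω) (Metric.closedBall x (6 * R)) μ → ∀ 𝔇 : PvwDat (pvxT ω), Pvn1bAct 𝔓 x R m π ω 𝔇 →
      (∀ v ∈ 𝔇.fz, (v : ℂ) ∈ pvgeFar C r) ∧ ∀ v ∈ 𝔇.apx, (v : ℂ) ∉ (𝔓.reg m π).Yin) :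
    Pvn1bKit 𝔓 x R m π 0 (pvknKit 𝔓 x R m π C r (Metric.closedBall x (6 * R)) measurableSet_closedBall q) Γ μ := by
  have hh := pvlm_H_pos m
  have hb : ∀ t, (1 + (𝔓.ty t).b) * pvlmH m ≤ R := fun t => by
    have := mul_le_mul_of_nonneg_right (hW.b_le t) hh.le
    nlinarith
  refine ⟨pvn1b_mu_of 𝔓 hW hπ hLR h0 h1, ?_, ?_, ?_, ?_, ?_⟩
  · intro ω hg _ _ _ 𝔇 hA
    obtain ⟨hok, ⟨P, hP, j, hact, hin⟩, -, -⟩ := hA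
    exact pvlx_act_fit hR hg.del hP (by rw [hW.reg_ts]; exact hb _) (by rw [hW.reg_tt]; exact hb _) hin hok hact (fun v hv => hv.2)
  · intro ω hg hf _ _ 𝔇 hA
    exact pvkn_subF (hfa ω hg hf 𝔇 hA).2
  · intro ω hg _ _ _ 𝔇 hA
    exact pvkn_finF hg.del.lf hA.1
  · intro ω hg hf _ _ 𝔇 hA v hv
    exact pvkn_farF (hfa ω hg hf 𝔇 hA).1 hv
  · refine pvun_uni fun Y 𝔇 𝔇' hY _ hD τ' h => ?_
    exact pvun_W_resp (𝔓.reg m π) (fun Y gv dp _ σ => ∃ w : (delbPl Y).toMap.Cyc, PvknCirc (delbPl Y).toMap Subtype.val x (5 * R) (6 * R) σ w ∧ (∀ v ∈ gv, v ∈ (delbPl Y).toMap.Int w.Left) ∧ dp ∈ w.Left)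
      Y 𝔇 𝔇' hY hD τ' h

/-- layer 1 (`g5`) holds at an actual datum -/
theorem pvnxa_g5_act {ω : PVSample} {𝔇 : PvwDat (pvxT ω)} (hA : Pvn1bAct 𝔓 x R m π ω 𝔇) : ∀ k, k ≤ 𝔇.g.n → ‖((𝔇.g.v k : ↥(pvxY ω)) : ℂ) - x‖ ≤ 5 * R := by
  obtain ⟨-, ⟨P, -, j, hact, hin⟩, -, -⟩ := hA
  intro i hi
  show ‖pvxPos ω (𝔇.g.v i) - x‖ ≤ 5 * R
  rw [← hact.arc i hi]
  exact hin _ (by omega) (by omega)

/-- **THE `X` SIDE AT THE KIT v2 WITH LAYER 1 v5, GENERIC**: from (X1) (X2) (X3), a free good event which implies the mesh off `C` -/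
theorem pvnxa_X_of (hR : 0 < R) {Cs : ℝ → Set ℂ} {r : ℝ} {q : ℝ≥0∞} (hq : q ≠ 0) {μ : ℝ} {Γs : ℝ → PVSample → Prop}
    (G : ∀ᶠ ε in 𝓝[>] (0 : ℝ), PvknGeo 𝔓.num (pvlmH m) (𝔓.reg m π) x (5 * R) (6 * R) (Cs ε) r)
    (mC : ∀ᶠ ε in 𝓝[>] (0 : ℝ), MeasurableSet (Cs ε))
    (kit : ∀ᶠ ε in 𝓝[>] (0 : ℝ), Pvn1bKit 𝔓 x R m π 0 (pvknKit 𝔓 x R m π (Cs ε) r (Metric.closedBall x (6 * R)) measurableSet_closedBall q) (Γs ε) μ)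
    (qbx : Pvn1bQbx 𝔓 m π 0 fun ε => (pvknKit 𝔓 x R m π (Cs ε) r (Metric.closedBall x (6 * R)) measurableSet_closedBall q).guardE (pvnxaRg x R (Cs ε) r))
    (hΓ : ∀ᶠ ε in 𝓝[>] (0 : ℝ), ∀ ω, Γs ε ω → VorDense (pvxY ω) (pvn1kOff x R (Cs ε) r) r)
    (bad : Tendsto (fun ε => (pvhbUp ε).P {p | ¬ Γs ε (pvMerge p)}) (𝓝[>] (0 : ℝ)) (𝓝 0)) (𝔜 : PvxnYd) :
    Pvn1aX 𝔓 x R m π 0 𝔜 (fun ε => (pvknKit 𝔓 x R m π (Cs ε) r (Metric.closedBall x (6 * R)) measurableSet_closedBall q).guardE (pvnxaRg x R (Cs ε) r)) Γs μ := by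
  obtain ⟨ε₀, hε₀⟩ := G.exists
  refine pvn1a_X_guardE (𝔎s := fun ε => pvknKit 𝔓 x R m π (Cs ε) r (Metric.closedBall x (6 * R)) measurableSet_closedBall q) (fun ε => pvnxaRg x R (Cs ε) r) mC
    ⟨Metric.closedBall x (6 * R), Metric.isBounded_closedBall, Eventually.of_forall fun _ => subset_rfl⟩ ⟨q, hq, Eventually.of_forall fun _ => le_rfl⟩ ?_ ?_ kit
    ⟨Metric.closedBall x (5 * R), r, r, Metric.isBounded_closedBall, hε₀.r0, G.mono fun ε h => ⟨fun z hz => mem_closedBall_iff_norm.2 (pvkn_C_sub h z hz).le, le_rfl, le_rfl⟩⟩ bad qbx ?_ ?_ (G.mono fun ε h => pvkn_rdKit h) ?_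
  · exact Eventually.of_forall fun ε Y 𝔇 σ σ' _ _ _ _ h5 h6 => pvkn_E_mono h5 h6
  · exact G.mono fun ε h Y 𝔇 σ σ' _ _ _ _ h5 h6 => pvkn_W_mono h h5 h6
  · exact Eventually.of_forall fun ε Y 𝔇 σ σ' _ _ _ _ _ _ h => h
  · filter_upwards [hΓ] with ε h ω _ _ _ hω 𝔇 hA
    exact ⟨pvnxa_g5_act hA, h ω hω⟩
  · refine Eventually.of_forall fun ε Y Y' H σ σ' _ 𝔇 𝔇' hT h => ⟨fun k hk => ?_, ?_⟩
    · have hk' : k ≤ 𝔇.g.n := hT.1.g.n_eq ▸ hk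
      rw [← pvge_loc_v (hT.1.g.v_rel k hk')]
      exact h.1 k hk'
    · exact (pvn1k_mesh_congr H.eq).1 h.2

/-- **THE SAME WITH ONE MORE DETERMINISTIC CLAUSE `Rx ε` IN LAYER 1** (`frz`: it does not read the colours off the frozen sites; `c1`: it holds at an actual datum of a good sample; `spl`: it is carried over by the twins of record) -/
theorem pvnxa_X_ext (hR : 0 < R) {Cs : ℝ → Set ℂ} {r : ℝ} {q : ℝ≥0∞} (hq : q ≠ 0) {μ : ℝ} {Γs : ℝ → PVSample → Prop} (Rx : ℝ → ∀ Y : Set ℂ, PvwDat (delbPl Y).toMap → (↥Y → Bool) → Prop)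
    (G : ∀ᶠ ε in 𝓝[>] (0 : ℝ), PvknGeo 𝔓.num (pvlmH m) (𝔓.reg m π) x (5 * R) (6 * R) (Cs ε) r)
    (mC : ∀ᶠ ε in 𝓝[>] (0 : ℝ), MeasurableSet (Cs ε))
    (kit : ∀ᶠ ε in 𝓝[>] (0 : ℝ), Pvn1bKit 𝔓 x R m π 0 (pvknKit 𝔓 x R m π (Cs ε) r (Metric.closedBall x (6 * R)) measurableSet_closedBall q) (Γs ε) μ)
    (qbx : Pvn1bQbx 𝔓 m π 0 fun ε => (pvknKit 𝔓 x R m π (Cs ε) r (Metric.closedBall x (6 * R)) measurableSet_closedBall q).guardE fun Y 𝔇 σ => pvnxaRg x R (Cs ε) r Y 𝔇 σ ∧ Rx ε Y 𝔇 σ)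
    (hΓ : ∀ᶠ ε in 𝓝[>] (0 : ℝ), ∀ ω, Γs ε ω → VorDense (pvxY ω) (pvn1kOff x R (Cs ε) r) r)
    (bad : Tendsto (fun ε => (pvhbUp ε).P {p | ¬ Γs ε (pvMerge p)}) (𝓝[>] (0 : ℝ)) (𝓝 0))
    (frz : ∀ᶠ ε in 𝓝[>] (0 : ℝ), ∀ (Y : Set ℂ) (𝔇 : PvwDat (delbPl Y).toMap) (σ σ' : ↥Y → Bool), DelGood Y → 𝔇.Ok Subtype.val 𝔓.num (pvlmH m) (𝔓.reg m π) → σ ∈ 𝔇.Cyl →
      (∀ v ∈ 𝔇.fz, σ' v = σ v) → Rx ε Y 𝔇 σ → Rx ε Y 𝔇 σ')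
    (c1 : ∀ᶠ ε in 𝓝[>] (0 : ℝ), ∀ ω : PVSample, PvqfGood (pvConf ω) → L9Fine (pvxY ω) (Metric.closedBall x (6 * R)) μ → Γs ε ω →
      ∀ 𝔇 : PvwDat (pvxT ω), Pvn1bAct 𝔓 x R m π ω 𝔇 → Rx ε (pvxY ω) 𝔇 (pvxCol ω (𝔓.col π.p.ts)))
    (spl : ∀ᶠ ε in 𝓝[>] (0 : ℝ), ∀ Y Y', PvrdSit Y Y' (Cs ε) r → ∀ (σ : ↥Y → Bool) (σ' : ↥Y' → Bool), PvrdCol (Cs ε) σ σ' → ∀ 𝔇 𝔇',
      PvrdT 𝔓 m π (pvknKit 𝔓 x R m π (Cs ε) r (Metric.closedBall x (6 * R)) measurableSet_closedBall q) Y Y' 𝔇 𝔇' → Rx ε Y 𝔇 σ → Rx ε Y' 𝔇' σ') (𝔜 : PvxnYd) :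
    Pvn1aX 𝔓 x R m π 0 𝔜 (fun ε => (pvknKit 𝔓 x R m π (Cs ε) r (Metric.closedBall x (6 * R)) measurableSet_closedBall q).guardE fun Y 𝔇 σ => pvnxaRg x R (Cs ε) r Y 𝔇 σ ∧ Rx ε Y 𝔇 σ) Γs μ := by
  obtain ⟨ε₀, hε₀⟩ := G.exists
  refine pvn1a_X_guardE (𝔎s := fun ε => pvknKit 𝔓 x R m π (Cs ε) r (Metric.closedBall x (6 * R)) measurableSet_closedBall q) (fun ε Y 𝔇 σ => pvnxaRg x R (Cs ε) r Y 𝔇 σ ∧ Rx ε Y 𝔇 σ) mC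
    ⟨Metric.closedBall x (6 * R), Metric.isBounded_closedBall, Eventually.of_forall fun _ => subset_rfl⟩ ⟨q, hq, Eventually.of_forall fun _ => le_rfl⟩ ?_ ?_ kit
    ⟨Metric.closedBall x (5 * R), r, r, Metric.isBounded_closedBall, hε₀.r0, G.mono fun ε h => ⟨fun z hz => mem_closedBall_iff_norm.2 (pvkn_C_sub h z hz).le, le_rfl, le_rfl⟩⟩ bad qbx ?_ ?_ (G.mono fun ε h => pvkn_rdKit h) ?_
  · exact Eventually.of_forall fun ε Y 𝔇 σ σ' _ _ _ _ h5 h6 => pvkn_E_mono h5 h6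
  · exact G.mono fun ε h Y 𝔇 σ σ' _ _ _ _ h5 h6 => pvkn_W_mono h h5 h6
  · filter_upwards [frz] with ε hf Y 𝔇 σ σ' k1 k2 k3 k4 _ _ h
    exact ⟨h.1, hf Y 𝔇 σ σ' k1 k2 k3 k4 h.2⟩
  · filter_upwards [hΓ, c1] with ε h hc ω k1 k2 _ hω 𝔇 hA
    exact ⟨⟨pvnxa_g5_act hA, h ω hω⟩, hc ω k1 k2 hω 𝔇 hA⟩
  · filter_upwards [spl] with ε hs Y Y' H σ σ' hσ 𝔇 𝔇' hT h
    refine ⟨⟨fun k hk => ?_, (pvn1k_mesh_congr H.eq).1 h.1.2⟩, hs Y Y' H σ σ' hσ 𝔇 𝔇' hT h.2⟩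
    have hk' : k ≤ 𝔇.g.n := hT.1.g.n_eq ▸ hk
    rw [← pvge_loc_v (hT.1.g.v_rel k hk')]
    exact h.1.1 k hk'

/-! ### the mesh clause of the free good event -/

/-- **ONE MESH CLAUSE FOR THE FREE GOOD EVENT**: the sites are `r`-dense in `closedBall x (7R)` -/
def pvnxaGm (x : ℂ) (R r : ℝ) (ω : PVSample) : Prop := VorDense (pvxY ω) (Metric.closedBall x (7 * R)) r

theorem pvnxa_eqns_cite2 : True := by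
  have := @pvnxaGm.eq_1
  trivial

/-- it implies the mesh off `C` of layer 1 -/
theorem pvnxa_Gm_off {r : ℝ} {ω : PVSample} (h : pvnxaGm x R r ω) (C : Set ℂ) : VorDense (pvxY ω) (pvn1kOff x R C r) r :=
  fun z hz => h z (mem_closedBall_iff_norm.2 hz.1)

/-- it implies the mesh of the patch `closedBall x (6R)` -/
theorem pvnxa_Gm_six (hR : 0 < R) {r : ℝ} {ω : PVSample} (h : pvnxaGm x R r ω) : VorDense (pvxY ω) (Metric.closedBall x (6 * R)) r :=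
  fun z hz => h z (Metric.closedBall_subset_closedBall (by linarith) hz)

/-- it has high probability -/
theorem pvnxa_Gm_lim (x : ℂ) (R : ℝ) {r : ℝ} (hr : 0 < r) : Tendsto (fun ε => (pvhbUp ε).P {p | ¬ pvnxaGm x R r (pvMerge p)}) (𝓝[>] (0 : ℝ)) (𝓝 0) :=
  pvn1b_dense_lim (B := Metric.closedBall x (7 * R)) Metric.isBounded_closedBall hr

end gen

/-! ## 3. at the record -/

/-- the resampled region of the engine of record is not empty (it contains the centre of the last door) -/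
theorem pvnxa_ne {c : ℝ} {N : PvxNums} (hN : N.Ok) {𝔈 : PvieEng (pvxTau N)} (hRec : PvnaRec N hN c 𝔈) (m : ℕ) (ε : ℝ) (p : PvtsPat (pvxTau N)) : (pvieCc (pvxParOf N hN c) 𝔈 m ε p).Nonempty := by
  obtain ⟨nb, rfl⟩ := hRec
  refine ⟨_, pvieDoor (pvnaEngRec N hN c nb) m ε (pvieZi (pvxParOf N hN c) m p.zs p.ts) (((pvxParOf N hN c).Γ m).din p.ts), ?_, pvnxe_door_cen hN nb m ε _ _⟩
  simp [pvieTiles]

section record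

variable {c : ℝ} (c0 : 0 < c) {N : PvxNums} (hN : N.Ok) {𝔈 : PvieEng (pvxTau N)} {x : ℂ} {R : ℝ} {m : ℕ} {π : PvxIx (pvxTau N)}

include c0

include hN in
/-- the mesh of record is positive and smaller than `h` -/
theorem pvnxa_mu (hm : N.m0 ≤ m) : 0 < pvlmDel c m / 4 ∧ pvlmDel c m / 4 < pvlmH m := by
  have hδ := pvlm_Del_pos c m
  have hh := pvlm_H_pos m
  have h1 := pvffz_fine_at (c := c) hN c0 hm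
  have h2 : (pvxParOf N hN c).num.rho ≤ 1 := by linarith [(pvxo_wf N hN c).rho1, (pvxo_wf N hN c).rho2, (pvxo_wf N hN c).rho3]
  refine ⟨by positivity, ?_⟩
  nlinarith

/-- **(X1) `PvknGeo` v2 AT THE RECORD** -/
theorem pvnxa_geo (hRec : PvnaRec N hN c 𝔈) (hR : 0 < R) (hm : N.m0 ≤ m) (hπ : π ∈ pvxPatSet (pvxParOf N hN c) x R m) (hgood : PvjxGood (pvxParOf N hN c) m π) {ε : ℝ}
    (hCin : pvieCc (pvxParOf N hN c) 𝔈 m ε π.p ⊆ ((pvxParOf N hN c).reg m π).Yin) :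
    PvknGeo (pvxParOf N hN c).num (pvlmH m) ((pvxParOf N hN c).reg m π) x (5 * R) (6 * R) (pvieCc (pvxParOf N hN c) 𝔈 m ε π.p) (pvnxaR c m) := by
  exact pvn1c_xgeo (pvxo_wf N hN c) (pvfhw_par N hN c) (pvffz_fine_at hN c0 hm) hR hπ hgood (pvnxa_ne hN hRec m ε π.p) hCin (pvnxa_R_pos c m) (pvnxa_R_le c m)

/-- **(X1) THE FROZEN SITES OF AN ACTUAL DATUM ARE FAR FROM `C`, ITS RIGHT APEXES ARE OFF `Yin`, AT THE RECORD** -/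
theorem pvnxa_fa (hRec : PvnaRec N hN c 𝔈) (hR : 0 < R) (hm : N.m0 ≤ m) (hπ : π ∈ pvxPatSet (pvxParOf N hN c) x R m) {ε : ℝ}
    (hCin : pvieCc (pvxParOf N hN c) 𝔈 m ε π.p ⊆ ((pvxParOf N hN c).reg m π).Yin) {μ : ℝ} (hμ : μ ≤ pvlmDel c m)
    {ω : PVSample} (hf : L9Fine (pvxY ω) (Metric.closedBall x (6 * R)) μ) {𝔇 : PvwDat (pvxT ω)} (hA : Pvn1bAct (pvxParOf N hN c) x R m π ω 𝔇) :
    (∀ v ∈ 𝔇.fz, (v : ℂ) ∈ pvgeFar (pvieCc (pvxParOf N hN c) 𝔈 m ε π.p) (pvnxaR c m)) ∧ ∀ v ∈ 𝔇.apx, (v : ℂ) ∉ ((pvxParOf N hN c).reg m π).Yin := by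
  have hne := pvnxa_ne hN hRec m ε π.p
  obtain ⟨nb, rfl⟩ := hRec
  have hcl := pvnxe_clear hN nb c0 hm ε hπ
  exact pvn1c_xfa (pvxo_wf N hN c) (pvfhw_par N hN c) hR hne hCin (pvnxa_R_pos c m) (pvnxa_R_le c m) hμ
    (pvn1c_xclear fun S hS => (hcl S hS).2) (pvn1c_xclear fun S hS => (hcl S hS).1) hf hA

/-- **(X2) AT THE RECORD** -/
theorem pvnxa_kit (hRec : PvnaRec N hN c 𝔈) (hR : 0 < R) (hm : N.m0 ≤ m) (hπ : π ∈ pvxPatSet (pvxParOf N hN c) x R m) {ε : ℝ}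
    (hCin : pvieCc (pvxParOf N hN c) 𝔈 m ε π.p ⊆ ((pvxParOf N hN c).reg m π).Yin) (q : ℝ≥0∞) (Γ : PVSample → Prop) :
    Pvn1bKit (pvxParOf N hN c) x R m π 0 (pvknKit (pvxParOf N hN c) x R m π (pvieCc (pvxParOf N hN c) 𝔈 m ε π.p) (pvnxaR c m) (Metric.closedBall x (6 * R)) measurableSet_closedBall q) Γ (pvlmDel c m / 4) :=
  pvnxa_kit_of (pvxo_wf N hN c) (pvxo_LR N hN c hπ) hR hπ q Γ (pvnxa_mu c0 hN hm).1 (pvnxa_mu c0 hN hm).2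
    fun ω _ hf 𝔇 hA => pvnxa_fa c0 hN hRec hR hm hπ hCin (by linarith [pvlm_Del_pos c m]) hf hA

/-- **THE `X` HALF OF `Exit/N1All` v5**: one constant `q ≠ 0`; the geometry; the contract `Pvn1aX` at the kits of record for EVERY free good event which implies the mesh off `C` and has high probability -/
theorem pvnxa_X (hE : PvnaWf (pvxParOf N hN c) 𝔈) (hRec : PvnaRec N hN c 𝔈) (hR : 0 < R) (hm : N.m0 ≤ m) (hπ : π ∈ pvxPatSet (pvxParOf N hN c) x R m) (hgood : PvjxGood (pvxParOf N hN c) m π)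
    (hCin : ∀ᶠ ε in 𝓝[>] (0 : ℝ), pvieCc (pvxParOf N hN c) 𝔈 m ε π.p ⊆ ((pvxParOf N hN c).reg m π).Yin) :
    ∃ q : ℝ≥0∞, q ≠ 0 ∧ ∀ Γs : ℝ → PVSample → Prop,
      (∀ᶠ ε in 𝓝[>] (0 : ℝ), ∀ ω, Γs ε ω → VorDense (pvxY ω) (pvn1kOff x R (pvieCc (pvxParOf N hN c) 𝔈 m ε π.p) (pvnxaR c m)) (pvnxaR c m)) →
      Tendsto (fun ε => (pvhbUp ε).P {p | ¬ Γs ε (pvMerge p)}) (𝓝[>] (0 : ℝ)) (𝓝 0) →
      ∀ 𝔜 : PvxnYd, Pvn1aX (pvxParOf N hN c) x R m π 0 𝔜 (pvnxaKs (pvxParOf N hN c) 𝔈 x R m π q) Γs (pvlmDel c m / 4) := by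
  obtain ⟨q, hq, H⟩ := pvnxk_qbx_kn hN c0 0 hR hm hπ
  have G := hCin.mono fun ε h => pvnxa_geo c0 hN hRec hR hm hπ hgood h
  refine ⟨q, hq, fun Γs hΓ bad 𝔜 => ?_⟩
  refine pvnxa_X_of hR hq G (pvnxa_mC hE hπ) (hCin.mono fun ε h => pvnxa_kit c0 hN hRec hR hm hπ h q (Γs ε)) ?_ hΓ bad 𝔜
  exact H _ (pvnxaR c m) _ measurableSet_closedBall (Metric.closedBall x (5 * R)) Metric.isBounded_closedBall (pvnxa_R_pos c m)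
    (G.mono fun ε h z hz => mem_closedBall_iff_norm.2 (pvkn_C_sub h z hz).le) _ fun ε Y 𝔇 σ h => h.1

/-- **THE RESAMPLED REGION LIES IN `Yin`, AT THE RECORD**      (213 `pvnxc_Cin`, 184 `pvnxe_`) -/
theorem pvnxa_Cin (hRec : PvnaRec N hN c 𝔈) (hm : N.m0 ≤ m) (hπ : π ∈ pvxPatSet (pvxParOf N hN c) x R m) (ε : ℝ) :
    pvieCc (pvxParOf N hN c) 𝔈 m ε π.p ⊆ ((pvxParOf N hN c).reg m π).Yin := by
  obtain ⟨nb, rfl⟩ := hRec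
  exact pvnxc_Cin (pvxo_wf N hN c) (pvfhw_par N hN c) (pvffz_fine_at hN c0 hm) hπ (pvnxe_del hN nb m ε) (pvnxe_O_tenth hN nb m ε) (pvnxe_K_lane hN nb m ε)
    (pvnxe_oK_ball hN nb c0 hm _ _) (pvnxe_iK_ball hN nb c0 hm _ _)

/-- (X1) at the record, every `ε` -/
theorem pvnxa_geo_rec (hRec : PvnaRec N hN c 𝔈) (hR : 0 < R) (hm : N.m0 ≤ m) (hπ : π ∈ pvxPatSet (pvxParOf N hN c) x R m) (hgood : PvjxGood (pvxParOf N hN c) m π) (ε : ℝ) :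
    PvknGeo (pvxParOf N hN c).num (pvlmH m) ((pvxParOf N hN c).reg m π) x (5 * R) (6 * R) (pvieCc (pvxParOf N hN c) 𝔈 m ε π.p) (pvnxaR c m) :=
  pvnxa_geo c0 hN hRec hR hm hπ hgood (pvnxa_Cin c0 hN hRec hm hπ ε)

/-- (X1), second half, at the record, every `ε` -/
theorem pvnxa_fa_rec (hRec : PvnaRec N hN c 𝔈) (hR : 0 < R) (hm : N.m0 ≤ m) (hπ : π ∈ pvxPatSet (pvxParOf N hN c) x R m) (ε : ℝ) {μ : ℝ} (hμ : μ ≤ pvlmDel c m)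
    {ω : PVSample} (hf : L9Fine (pvxY ω) (Metric.closedBall x (6 * R)) μ) {𝔇 : PvwDat (pvxT ω)} (hA : Pvn1bAct (pvxParOf N hN c) x R m π ω 𝔇) :
    (∀ v ∈ 𝔇.fz, (v : ℂ) ∈ pvgeFar (pvieCc (pvxParOf N hN c) 𝔈 m ε π.p) (pvnxaR c m)) ∧ ∀ v ∈ 𝔇.apx, (v : ℂ) ∉ ((pvxParOf N hN c).reg m π).Yin :=
  pvnxa_fa c0 hN hRec hR hm hπ (pvnxa_Cin c0 hN hRec hm hπ ε) hμ hf hA

/-- **THE `X` HALF OF `Exit/N1All` v5, NO HYPOTHESIS LEFT** -/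
theorem pvnxa_X_rec (hE : PvnaWf (pvxParOf N hN c) 𝔈) (hRec : PvnaRec N hN c 𝔈) (hR : 0 < R) (hm : N.m0 ≤ m) (hπ : π ∈ pvxPatSet (pvxParOf N hN c) x R m) (hgood : PvjxGood (pvxParOf N hN c) m π) :
    ∃ q : ℝ≥0∞, q ≠ 0 ∧ ∀ Γs : ℝ → PVSample → Prop,
      (∀ᶠ ε in 𝓝[>] (0 : ℝ), ∀ ω, Γs ε ω → VorDense (pvxY ω) (pvn1kOff x R (pvieCc (pvxParOf N hN c) 𝔈 m ε π.p) (pvnxaR c m)) (pvnxaR c m)) →
      Tendsto (fun ε => (pvhbUp ε).P {p | ¬ Γs ε (pvMerge p)}) (𝓝[>] (0 : ℝ)) (𝓝 0) →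
      ∀ 𝔜 : PvxnYd, Pvn1aX (pvxParOf N hN c) x R m π 0 𝔜 (pvnxaKs (pvxParOf N hN c) 𝔈 x R m π q) Γs (pvlmDel c m / 4) :=
  pvnxa_X c0 hN hE hRec hR hm hπ hgood (Eventually.of_forall fun ε => pvnxa_Cin c0 hN hRec hm hπ ε)

/-- **THE `X` HALF WITH ONE MORE CLAUSE IN LAYER 1, AT THE RECORD**: the constant `q` does not depend on the clause -/
theorem pvnxa_X_ext_rec (hE : PvnaWf (pvxParOf N hN c) 𝔈) (hRec : PvnaRec N hN c 𝔈) (hR : 0 < R) (hm : N.m0 ≤ m) (hπ : π ∈ pvxPatSet (pvxParOf N hN c) x R m) (hgood : PvjxGood (pvxParOf N hN c) m π) :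
    ∃ q : ℝ≥0∞, q ≠ 0 ∧ ∀ (Rx : ℝ → ∀ Y : Set ℂ, PvwDat (delbPl Y).toMap → (↥Y → Bool) → Prop) (Γs : ℝ → PVSample → Prop),
      (∀ᶠ ε in 𝓝[>] (0 : ℝ), ∀ ω, Γs ε ω → VorDense (pvxY ω) (pvn1kOff x R (pvieCc (pvxParOf N hN c) 𝔈 m ε π.p) (pvnxaR c m)) (pvnxaR c m)) →
      Tendsto (fun ε => (pvhbUp ε).P {p | ¬ Γs ε (pvMerge p)}) (𝓝[>] (0 : ℝ)) (𝓝 0) →
      (∀ᶠ ε in 𝓝[>] (0 : ℝ), ∀ (Y : Set ℂ) (𝔇 : PvwDat (delbPl Y).toMap) (σ σ' : ↥Y → Bool), DelGood Y → 𝔇.Ok Subtype.val (pvxParOf N hN c).num (pvlmH m) ((pvxParOf N hN c).reg m π) → σ ∈ 𝔇.Cyl →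
        (∀ v ∈ 𝔇.fz, σ' v = σ v) → Rx ε Y 𝔇 σ → Rx ε Y 𝔇 σ') →
      (∀ᶠ ε in 𝓝[>] (0 : ℝ), ∀ ω : PVSample, PvqfGood (pvConf ω) → L9Fine (pvxY ω) (Metric.closedBall x (6 * R)) (pvlmDel c m / 4) → Γs ε ω →
        ∀ 𝔇 : PvwDat (pvxT ω), Pvn1bAct (pvxParOf N hN c) x R m π ω 𝔇 → Rx ε (pvxY ω) 𝔇 (pvxCol ω ((pvxParOf N hN c).col π.p.ts))) →
      (∀ᶠ ε in 𝓝[>] (0 : ℝ), ∀ Y Y', PvrdSit Y Y' (pvieCc (pvxParOf N hN c) 𝔈 m ε π.p) (pvnxaR c m) → ∀ (σ : ↥Y → Bool) (σ' : ↥Y' → Bool), PvrdCol (pvieCc (pvxParOf N hN c) 𝔈 m ε π.p) σ σ' → ∀ 𝔇 𝔇',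
        PvrdT (pvxParOf N hN c) m π (pvknKit (pvxParOf N hN c) x R m π (pvieCc (pvxParOf N hN c) 𝔈 m ε π.p) (pvnxaR c m) (Metric.closedBall x (6 * R)) measurableSet_closedBall q) Y Y' 𝔇 𝔇' →
        Rx ε Y 𝔇 σ → Rx ε Y' 𝔇' σ') →
      ∀ 𝔜 : PvxnYd, Pvn1aX (pvxParOf N hN c) x R m π 0 𝔜
        (fun ε => (pvknKit (pvxParOf N hN c) x R m π (pvieCc (pvxParOf N hN c) 𝔈 m ε π.p) (pvnxaR c m) (Metric.closedBall x (6 * R)) measurableSet_closedBall q).guardE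
          fun Y 𝔇 σ => pvnxaRg x R (pvieCc (pvxParOf N hN c) 𝔈 m ε π.p) (pvnxaR c m) Y 𝔇 σ ∧ Rx ε Y 𝔇 σ) Γs (pvlmDel c m / 4) := by
  obtain ⟨q, hq, H⟩ := pvnxk_qbx_kn hN c0 0 hR hm hπ
  have G : ∀ᶠ ε in 𝓝[>] (0 : ℝ), _ := Eventually.of_forall fun ε => pvnxa_geo_rec c0 hN hRec hR hm hπ hgood ε
  refine ⟨q, hq, fun Rx Γs hΓ bad frz c1 spl 𝔜 => ?_⟩
  refine pvnxa_X_ext hR hq Rx G (pvnxa_mC hE hπ) (Eventually.of_forall fun ε => pvnxa_kit c0 hN hRec hR hm hπ (pvnxa_Cin c0 hN hRec hm hπ ε) q (Γs ε)) ?_ hΓ bad frz c1 spl 𝔜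
  exact H _ (pvnxaR c m) _ measurableSet_closedBall (Metric.closedBall x (5 * R)) Metric.isBounded_closedBall (pvnxa_R_pos c m)
    (G.mono fun ε h z hz => mem_closedBall_iff_norm.2 (pvkn_C_sub h z hz).le) _ fun ε Y 𝔇 σ h => h.1.1

/-- **THE `X` HALF WITH `NO TUNNEL` (27) IN LAYER 1, AT THE RECORD**: every free good event which implies the mesh `r` of `closedBall x (7R)` (`pvnxaGm`) and has high probability -/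
theorem pvnxa_X_T (hE : PvnaWf (pvxParOf N hN c) 𝔈) (hRec : PvnaRec N hN c 𝔈) (hR : 0 < R) (hm : N.m0 ≤ m) (hπ : π ∈ pvxPatSet (pvxParOf N hN c) x R m) (hgood : PvjxGood (pvxParOf N hN c) m π) :
    ∃ q : ℝ≥0∞, q ≠ 0 ∧ ∀ Γs : ℝ → PVSample → Prop, (∀ᶠ ε in 𝓝[>] (0 : ℝ), ∀ ω, Γs ε ω → pvnxaGm x R (pvnxaR c m) ω) →
      Tendsto (fun ε => (pvhbUp ε).P {p | ¬ Γs ε (pvMerge p)}) (𝓝[>] (0 : ℝ)) (𝓝 0) →
      ∀ 𝔜 : PvxnYd, Pvn1aX (pvxParOf N hN c) x R m π 0 𝔜 (pvnxaKsT (pvxParOf N hN c) 𝔈 x R m π q) Γs (pvlmDel c m / 4) := by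
  obtain ⟨q, hq, H⟩ := pvnxa_X_ext_rec c0 hN hE hRec hR hm hπ hgood
  refine ⟨q, hq, fun Γs hΓ bad 𝔜 => ?_⟩
  obtain ⟨hn, hroom⟩ := pvn1t_num hN c0 hm π (pvnxa_R_pos c m) (by linarith [pvnxa_R60 c m, pvnxa_R_pos c m])
  refine H (fun _ => Pvn1tTight (pvxParOf N hN c) m π) Γs (hΓ.mono fun ε h ω hω => pvnxa_Gm_off (h ω hω) _) bad ?_ ?_ ?_ 𝔜
  · exact Eventually.of_forall fun ε Y 𝔇 σ σ' _ _ _ _ h => h
  · filter_upwards [hΓ] with ε h ω hg _ hω 𝔇 hA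
    exact pvn1t_c1 (pvxo_wf N hN c) hR hπ hn hroom hg.del (pvnxa_Gm_six hR (h ω hω)) hA.1 _
  · exact Eventually.of_forall fun ε Y Y' Hs σ σ' _ 𝔇 𝔇' hT h => pvn1t_spl _ Y Y' Hs σ σ' 𝔇 𝔇' hT h

end record

end Claimed.Agent.R289
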