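import Claimed.Agent.R289.Exit.N1B

/-!
# Row 289 (S0537), Exit/N1XD : THE DICHOTOMY OF `n1` = ONLY THE PATTERNS WHICH ARE FITTED ON A FINE GOOD SAMPLE MATTER      (helper60; prefix `pvnxd_`, `Pvnxd`)

WHY.   `PvnaIn` asks a contract `PvxnIn 𝔓 x R m π a K` at EVERY index `π ∈ pvxPatSet 𝔓 x R m`.      The index predicates (`PvfeIx`) do not say that the corridor of `π` misses the gate discs, that the types of `π` are non degenerate, that the frozen
sites are far from the cells ..: these are facts of a FIT on a fine sample.      `PvxnIn` has a FREE system: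
* **`PvnxdReal 𝔓 x R m π μ`** : some good sample with mesh `μ` on `closedBall x (6R)` carries an arc which fits `π`
* **`pvnxd_triv`** : `¬ PvnxdReal ⟹ Nonempty (PvxnIn ..)` (empty system, `G` = the samples which are not good / not fine)
* **`pvnxd_dich`** : `(PvnxdReal .. → Nonempty (PvxnIn ..)) → Nonempty (PvxnIn ..)`
So EVERY sub-exit of `n1` may assume `PvnxdReal 𝔓 x R m π μ` for ONE mesh `μ > 0` of its choice (a function of the level): an index-level fact may be read off the witness sample.      0 sorry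
-/

set_option autoImplicit false
set_option linter.unusedVariables false
set_option linter.unusedSectionVars false

namespace Claimed.Agent.R289

open MeasureTheory Filter Topology Set Claims.C0465
open scoped ENNReal

section dich

variable {τ : Type} {c : ℝ} (𝔓 : PvxPar τ c) (x : ℂ) (R : ℝ) (m : ℕ) (π : PvxIx τ)

/-- **THE PATTERN IS REALISED**: a good sample with mesh `μ` on the patch carries an arc which fits `π` -/
def PvnxdReal (μ : ℝ) : Prop :=
  ∃ ω : PVSample, PvqfGood (pvConf ω) ∧ L9Fine (pvxY ω) (Metric.closedBall x (6 * R)) μ ∧ ∃ P ∈ pvhbAll x R ω, ∃ s t : PvbPin τ, pvxFit 𝔓 x R m ω P s t π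

theorem pvnxd_eqns_cite : True := by
  have := @PvnxdReal.eq_1
  trivial

/-- the empty system -/
def pvnxdSys : PvdmSys Empty where
  Ok _ := True
  C := ∅
  A i := i.elim
  WO i := i.elim
  frz i := i.elim
  yf i := i.elim
  X i := i.elim
  yh i := i.elim
  w _ := 0
  Y _ := 0
  H _ := 0
  q := 1

theorem pvnxd_eqns_cite2 : True := by
  have := @pvnxdSys.eq_1
  trivial

theorem pvnxd_hyp (ε : ℝ) : pvnxdSys.Hyp ε where
  ok_ae := Eventually.of_forall fun _ => trivial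
  mC := MeasurableSet.empty
  mw _ _ i := i.elim
  mY _ _ i := i.elim
  mH := measurable_const
  cnt _ _ := Set.to_countable _
  fin _ _ i := i.elim
  dis _ _ i := i.elim
  stab _ _ i := i.elim
  stabW _ _ i := i.elim
  hq _ _ i := i.elim
  rd _ _ _ := Eventually.of_forall fun _ i => i.elim
  jen _ _ i := i.elim
  dom := Eventually.of_forall fun _ => by simp

variable {𝔓 x R m π}

/-- **A PATTERN WHICH IS NEVER FITTED ON A FINE GOOD SAMPLE HAS A TRIVIAL CONTRACT** -/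
theorem pvnxd_triv (hR : 0 < R) {μ : ℝ} (hμ : 0 < μ) (a : ℂ) (K : ℝ → PVSample → ℂ) (h : ¬ PvnxdReal 𝔓 x R m π μ) : Nonempty (PvxnIn 𝔓 x R m π a K) :=
  ⟨{ ι := Empty
     S := fun _ => pvnxdSys
     q := 1
     q0 := one_ne_zero
     hyp := Eventually.of_forall fun ε => ⟨pvnxd_hyp ε, le_rfl⟩
     tail := by
       have e : (fun ε : ℝ => ∫⁻ ω, pvnxdSys.H ω ∂pvP ε) = fun _ => 0 := by
         funext ε
         exact lintegral_zero
       rw [e]
       exact tendsto_const_nhds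
     G := fun _ => {p | ¬ (PvqfGood (pvConf (pvMerge p)) ∧ L9Fine (pvxY (pvMerge p)) (Metric.closedBall x (6 * R)) μ)}
     geo := pvn1b_fine_lim x R hR hμ
     act := Eventually.of_forall fun ε p hp P hP s _ t _ hfit => by
       have hp' : PvqfGood (pvConf (pvMerge p)) ∧ L9Fine (pvxY (pvMerge p)) (Metric.closedBall x (6 * R)) μ := not_not.1 hp
       exact absurd ⟨pvMerge p, hp'.1, hp'.2, P, hP, s, t, hfit⟩ h }⟩

/-- **THE DICHOTOMY** -/
theorem pvnxd_dich (hR : 0 < R) {μ : ℝ} (hμ : 0 < μ) (a : ℂ) (K : ℝ → PVSample → ℂ) (h : PvnxdReal 𝔓 x R m π μ → Nonempty (PvxnIn 𝔓 x R m π a K)) : Nonempty (PvxnIn 𝔓 x R m π a K) := by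
  by_cases hr : PvnxdReal 𝔓 x R m π μ
  · exact h hr
  · exact pvnxd_triv hR hμ a K hr

/-- a finer witness is a witness -/
theorem PvnxdReal.mono {μ μ' : ℝ} (hμ : μ ≤ μ') (h : PvnxdReal 𝔓 x R m π μ) (hf : ∀ Y : Set ℂ, L9Fine Y (Metric.closedBall x (6 * R)) μ → L9Fine Y (Metric.closedBall x (6 * R)) μ') : PvnxdReal 𝔓 x R m π μ' := by
  obtain ⟨ω, h1, h2, h3⟩ := h
  exact ⟨ω, h1, hf _ h2, h3⟩

/-- the datum of the witness, in the words of `Exit/N1B` -/
theorem PvnxdReal.act {μ : ℝ} (h : PvnxdReal 𝔓 x R m π μ) :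
    ∃ ω : PVSample, PvqfGood (pvConf ω) ∧ L9Fine (pvxY ω) (Metric.closedBall x (6 * R)) μ ∧ ω ∈ pvxU 𝔓 m π.p.zs π.p.ts ∧ ω ∈ pvxU 𝔓 m π.p.zt π.p.tt ∧
      ∃ 𝔇 : PvwDat (pvxT ω), Pvn1bAct 𝔓 x R m π ω 𝔇 ∧ PvxAt 𝔓 m ω π.p.zs π.p.ts 𝔇.s ∧ PvxAt 𝔓 m ω π.p.zt π.p.tt 𝔇.t := by
  obtain ⟨ω, h1, h2, P, hP, s, t, ⟨hs1, hs2⟩, ⟨ht1, ht2⟩, hUs, hUt, 𝔇, j, hok, hact, hAs, hAt, -, -, hin, hZs, hZt⟩ := h
  exact ⟨ω, h1, h2, by rwa [hs1, hs2] at hUs, by rwa [ht1, ht2] at hUt, 𝔇, ⟨hok, ⟨P, hP, j, hact, hin⟩, hZs, hZt⟩, hAs, hAt⟩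

end dich

end Claimed.Agent.R289
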