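import Claimed.Agent.R289.Tr.C2ColR
import Claimed.Agent.R289.Exit.EngRec

/-!
# Row 289 (S0537), THE WALL, ROAD E, file Exit/N1CcR : THE RESAMPLED REGION OF THE CHAIN AT THE ENGINE OF RECORD LIES IN THE SKELETON `T₀ ⊆ Yin`      (helper78; prefix `pvc6_`, continuation of `Tr/C2ColR`)      0 sorry
-/

set_option autoImplicit false

namespace Claimed.Agent.R289

open Set Metric Complex

section rec

variable {N : PvxNums} (hN : N.Ok) {c : ℝ} (nb : PvnaNb N) {m : ℕ}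

theorem pvc6_lev_rec (c0 : 0 < c) (hm : N.m0 ≤ m) : PvegLev (pvxParOf N hN c) m :=
  pvc6_lev (pvxo_wf N hN c) (pvfhw_par N hN c) (by
    have h1 := pvxo_fine hN c0 hm
    have h2 := pvlm_Del_pos c m
    show 64 * pvlmDel c m ≤ N.rho * pvlmH m
    linarith)

/-- **`C_c ⊆ T₀` AT THE ENGINE OF RECORD** -/
theorem pvc6_Cc_rec (c0 : 0 < c) (hm : N.m0 ≤ m) (ε : ℝ) (p : PvtsPat (pvxTau N)) :
    pvieCc (pvxParOf N hN c) (pvnaEngRec N hN c nb) m ε p ⊆ pvc6T (pvxParOf N hN c) m p := by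
  have hd := pvlm_Del_pos c m
  have hdc : ((pvlmDel c m : ℝ) : ℂ) ≠ 0 := by exact_mod_cast hd.ne'
  refine pvc6_Cc_sub (pvc6_lev_rec hN c0 hm) (pvea_tyOk hN _) (pvea_tyOk hN _) ?_ ?_ ?_ ?_ ?_
  · exact (pvnr_num N hN c nb).kδ m ε
  · rw [pvnr_kit_O]
    rintro _ ⟨w, hw, rfl⟩
    have h1 : pvccN (w - 0) < 1 / 10 := pvkgg_O_tenth hw
    show pvccN (pvthSim 0 (pvlmDel c m) w - 0) < pvlmDel c m / 10
    rw [sub_zero] at h1 ⊢
    unfold pvthSim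
    rw [zero_add, pvccN_real_mul hd.le]
    nlinarith
  · intro t w hw
    have h1 : ((pvlmDel c m : ℝ) : ℂ) * w ∈ ((pvnaEngRec N hN c nb).kit m ε).K₀ t := hw
    rw [pvnr_kit_K] at h1
    obtain ⟨w', hw', e⟩ := h1
    have e' : w' = w := by
      unfold pvthSim at e
      rw [zero_add] at e
      exact mul_left_cancel₀ hdc e
    rw [← e']
    exact pvkgg_lane_K t hw'
  · rw [pvnr_oK]
    exact pvc6_Ka_sub _ _ _ _ _ _ (by have := pveg_A_pos c m; linarith) _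
  · rw [pvnr_iK]
    exact pvc6_Ka_sub _ _ _ _ _ _ (by have := pveg_A_pos c m; linarith) _

/-- **`C_c ⊆ Yin` AT THE ENGINE OF RECORD** -/
theorem pvc6_Cin_rec (c0 : 0 < c) (hm : N.m0 ≤ m) (ε : ℝ) (π : PvxIx (pvxTau N)) :
    pvieCc (pvxParOf N hN c) (pvnaEngRec N hN c nb) m ε π.p ⊆ ((pvxParOf N hN c).reg m π).Yin :=
  (pvc6_Cc_rec hN nb c0 hm ε π.p).trans (pvc6_T_in (pvc6_lev_rec hN c0 hm) (pvea_tyOk hN _) (pvea_tyOk hN _))

end rec

end Claimed.Agent.R289
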