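-- KEEP
import Claimed.Agent.R289.Tr.SimpleE
import Claimed.Agent.R289.Tr.FitFz
import Claimed.Agent.R289.Exit.N1B
import Claimed.Agent.R289.Exit.EngRec
import Claimed.Agent.R289.Exit.N1XE

/-!
# Row 289 (S0537), THE WALL, ROAD E, file Exit/N1Far : THE FROZEN SITES OF A DATUM ARE FAR FROM THE RESAMPLED REGION `C = pvieCc` OF THE CHAIN (cells, doors AND the two end tiles)      (helper169; post of 170, RULING N1-A (6); prefix `pvn1f_`, `Pvn1f`)      0 sorry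

`Tr/FitFz` (274) keeps the frozen sites of `D_Y` `2 δ` away from the CELL CENTRES.   `C = pvieCc 𝔓 𝔈 m ε π.p` also contains the two END TILES `oK iK` (funnels) and the door squares: HERE the whole of `C`.
* sec. 1  point form: `Pvn1fClear` := the conclusion of `pvzu_clear_pat` of 148 (every tile misses (own box with collar) ∩ fattened hull cells, both pins);   **`pvn1f_pt`** : a point of a closed own box whose cell belongs to the hulls is `> δ` away from every point of `C`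
* sec. 2  any map: **`pvn1f_fzY`** (`𝔇.Ok` + hull equalities ⟹ `∀ v ∈ 𝔇.fzY, ∀ c ∈ C, δ < ‖pos v - c‖`);   `pvn1f_in_body` (`Yin` against the complement of `Yreg`: `> 2 δ`), **`pvn1f_g`** (`g₀`: `2 δ`, from `C ⊆ Yin`)
* sec. 3  the plane of a site set `Y`: `pvn1f_apx` (right apexes: `2 δ - μ`, mesh `μ` on the patch), **`pvn1f_fz`** (ALL of `𝔇.fz`), `pvn1f_far_of` (`pvgeFar C r`, `3 r ≤ δ`)
* sec. 4  the forms of the consumers: `pvn1f_wit` (`PvxnWit`), `pvn1f_act` (`Pvn1bAct`), `pvn1f_pw` (`v ∉ Ycol ∪ (pvgeFar C r)ᶜ` = `hfz` at the fattened pattern of 63 78 292 29)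
* sec. 5  AT THE RECORD `pvxParOf N hN c`, `pvnaEngRec N hN c nb`, `N.m0 ≤ m` : **`pvn1f_clear_rec`** (`= pvnxe_clear` of 184), `pvn1f_ne_rec` (`C ≠ ∅`), **`pvn1f_fzY_rec`**, **`pvn1f_far_rec`**, `pvn1f_pw_rec`
-/

set_option autoImplicit false

namespace Claimed.Agent.R289

open Set Metric Complex Claims.C0465

/-! ## 1. point form -/

section pt

variable {τ : Type} {c : ℝ} (𝔓 : PvxPar τ c) (𝔈 : PvieEng τ)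

/-- the conclusion of `pvzu_clear_pat` of 148 -/
def Pvn1fClear (m : ℕ) (ε : ℝ) (π : PvxIx τ) : Prop :=
  ∀ S ∈ pvieTiles 𝔓 𝔈 m ε π.p, Disjoint S (pvieSh π.p.zt (pviwBox 𝔓 m π.p.tt) ∩ pvtU (pvlmDel c m) (pvtN8 (↑π.Zs ∪ ↑π.Zt))) ∧
    Disjoint S (pvieSh π.p.zs (pviwBox 𝔓 m π.p.ts) ∩ pvtU (pvlmDel c m) (pvtN8 (↑π.Zs ∪ ↑π.Zt)))

theorem pvn1f_eqns_cite : True := by
  have := @Pvn1fClear.eq_1
  trivial

/-- one set, one box -/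
theorem pvn1f_one {δ ρ : ℝ} (hδ : 0 < δ) {z w u : ℂ} {Z : Set (ℤ × ℤ)} {S : Set ℂ} (hS : Disjoint S (pvieSh z (pvwSq 0 (ρ + δ)) ∩ pvtU δ (pvtN8 Z)))
    (hw : w ∈ pvwSq z ρ) (hZ : pvtCells δ {w} ⊆ Z) (hu : u ∈ S) : δ < ‖w - u‖ := by
  by_contra hc
  rw [not_lt] at hc
  have h1 : |u.re - w.re| ≤ δ := by
    have := (Complex.abs_re_le_norm (w - u)).trans hc
    rwa [Complex.sub_re, abs_sub_comm] at this
  have h2 : |u.im - w.im| ≤ δ := by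
    have := (Complex.abs_im_le_norm (w - u)).trans hc
    rwa [Complex.sub_im, abs_sub_comm] at this
  refine Set.disjoint_left.1 hS hu ⟨⟨u - z, ?_, by simp⟩, pvt_U_mono (pvt_N8_mono hZ) (pvzu_near_fat hδ (mem_singleton w) h1 h2)⟩
  obtain ⟨a1, a2⟩ := hw
  simp only [Complex.sub_re, Complex.sub_im] at a1 a2
  simp only [pvwSq, sub_zero, mem_ofPred_eq, Complex.sub_re, Complex.sub_im]
  have b1 := abs_le.1 a1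
  have b2 := abs_le.1 a2
  have c1 := abs_le.1 h1
  have c2 := abs_le.1 h2
  exact ⟨abs_le.2 ⟨by linarith [b1.1, c1.1], by linarith [b1.2, c1.2]⟩, abs_le.2 ⟨by linarith [b2.1, c2.1], by linarith [b2.2, c2.2]⟩⟩

variable {𝔓 𝔈}

/-- **POINT FORM**: a point of one of the two closed own-level boxes whose cells belong to the hulls is more than `δ` away from `C` -/
theorem pvn1f_pt {m : ℕ} {ε : ℝ} {π : PvxIx τ} (H : Pvn1fClear 𝔓 𝔈 m ε π) {w : ℂ}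
    (hw : w ∈ pvwSq π.p.zs (pviwRad 𝔓 m π.p.ts) ∨ w ∈ pvwSq π.p.zt (pviwRad 𝔓 m π.p.tt)) (hZ : pvtCells (pvlmDel c m) {w} ⊆ ↑π.Zs ∪ ↑π.Zt) {u : ℂ} (hu : u ∈ pvieCc 𝔓 𝔈 m ε π.p) :
    pvlmDel c m < ‖w - u‖ := by
  obtain ⟨S, hS, huS⟩ := hu
  rcases hw with hw | hw
  · exact pvn1f_one (pvlm_Del_pos c m) (H S hS).2 hw hZ huS
  · exact pvn1f_one (pvlm_Del_pos c m) (H S hS).1 hw hZ huS

end pt

/-! ## 2. any map -/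

section dat

variable {V D τ : Type} {T : PvMap V D} {pos : V → ℂ} {c : ℝ} {𝔓 : PvxPar τ c} {𝔈 : PvieEng τ} {m : ℕ} {ε : ℝ} {π : PvxIx τ}

/-- **THE FROZEN SITES OF `D_Y`**: `𝔇.Ok` at the regions of the index + the hull equalities (any mouth balls) -/
theorem pvn1f_fzY (hW : 𝔓.Wf) (hb : ∀ t, (𝔓.ty t).b ≤ 2 * (𝔓.ty t).b2) (hfine : 32 * pvlmDel c m < 𝔓.num.rho * pvlmH m) (H : Pvn1fClear 𝔓 𝔈 m ε π) {𝔇 : PvwDat T}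
    (hok : 𝔇.Ok pos 𝔓.num (pvlmH m) (𝔓.reg m π)) {Bs Bt : Set ℂ}
    (hZs : (π.Zs : Set (ℤ × ℤ)) = pvtCells (pvlmDel c m) (pos '' 𝔇.s.fzIn ∪ Bs)) (hZt : (π.Zt : Set (ℤ × ℤ)) = pvtCells (pvlmDel c m) (pos '' 𝔇.t.fzOut ∪ Bt))
    {v : V} (hv : v ∈ 𝔇.fzY) {u : ℂ} (hu : u ∈ pvieCc 𝔓 𝔈 m ε π.p) : pvlmDel c m < ‖pos v - u‖ := by
  have hn := pvffz_num hW hfine
  have hs := hok.st_s
  have ht := hok.st_t
  rw [hW.reg_zs, hW.reg_ts] at hs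
  rw [hW.reg_zt, hW.reg_tt] at ht
  rcases hv with hv | hv
  · refine pvn1f_pt H (Or.inr (pvffz_out_box hn (hb _) ht hv)) ?_ hu
    rw [hZt]
    exact (pvt_cells_mono (singleton_subset_iff.2 (Or.inl ⟨v, hv, rfl⟩))).trans subset_union_right
  · refine pvn1f_pt H (Or.inl (pvffz_in_box hn (hb _) hs hv)) ?_ hu
    rw [hZs]
    exact (pvt_cells_mono (singleton_subset_iff.2 (Or.inl ⟨v, hv, rfl⟩))).trans subset_union_left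

/-- `Yin` against the complement of `Yreg` -/
theorem pvn1f_in_body {rI rO κ : ℝ} (hr : rI ≤ rO) {ys yt z d : ℂ} {l : List PvtTurn} {u w : ℂ} (hu : u ∈ pvfeIn rI ys yt z d l) (hw : w ∉ pvfeBody rO κ ys yt z d l) :
    (κ - 1) * ‖d‖ < ‖w - u‖ := by
  have hd := norm_nonneg d
  have tri : ∀ y : ℂ, ‖w - y‖ ≤ ‖w - u‖ + ‖u - y‖ := fun y => by
    have e : w - y = (w - u) + (u - y) := by ring
    rw [e]
    exact norm_add_le _ _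
  rcases hu with (hu | hu) | hu
  · obtain ⟨j, hj, hle⟩ := pvfe_mem_tube.1 (pvfe_lanes_sub_tube (by norm_num) (by norm_num) le_rfl z d l hu)
    have h1 : ¬ ‖w - pvccC z d l j‖ ≤ κ * ‖d‖ := fun h => hw (Or.inl (Or.inl (pvfe_mem_tube.2 ⟨j, hj, h⟩)))
    rw [not_le] at h1
    have := tri (pvccC z d l j)
    linarith
  · have h1 : ¬ ‖w - yt‖ ≤ rO + κ * ‖d‖ := fun h => hw (Or.inl (Or.inr (mem_closedBall_iff_norm.2 h)))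
    rw [not_le] at h1
    have := tri yt
    have h2 := mem_closedBall_iff_norm.1 hu
    linarith
  · have h1 : ¬ ‖w - ys‖ ≤ rO + κ * ‖d‖ := fun h => hw (Or.inr (mem_closedBall_iff_norm.2 h))
    rw [not_le] at h1
    have := tri ys
    have h2 := mem_closedBall_iff_norm.1 hu
    linarith

/-- a point off `Yreg` is more than `2 δ` away from `Yin`, at the regions of record -/
theorem pvn1f_reg (hW : 𝔓.Wf) (hF : PvfhWf 𝔓) {u w : ℂ} (hu : u ∈ (𝔓.reg m π).Yin) (hw : w ∉ (𝔓.reg m π).Yreg) : 2 * pvlmDel c m < ‖w - u‖ := by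
  rw [hF.reg_eq] at hu hw
  have hρ : 0 ≤ 𝔓.num.rho * pvlmH m := mul_nonneg hW.rho0.le (pvlm_H_pos m).le
  have h1 := pvn1f_in_body (rI := 𝔓.num.rho * pvlmH m / 2) (rO := 𝔓.num.rho * pvlmH m) (κ := 3) (by linarith) hu hw
  rw [pvfe_norm_D, hW.del, abs_of_pos (pvlm_Del_pos c m)] at h1
  linarith

/-- **`g₀`** is more than `2 δ` away from `C ⊆ Yin` -/
theorem pvn1f_g (hW : 𝔓.Wf) (hF : PvfhWf 𝔓) {C : Set ℂ} (hC : C ⊆ (𝔓.reg m π).Yin) {𝔇 : PvwDat T} (hok : 𝔇.Ok pos 𝔓.num (pvlmH m) (𝔓.reg m π)) {v : V} (hv : v ∈ 𝔇.g.verts)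
    {u : ℂ} (hu : u ∈ C) : 2 * pvlmDel c m < ‖pos v - u‖ :=
  pvn1f_reg hW hF (hC hu) (hok.off v hv)

end dat

/-! ## 3. the plane of a site set -/

section plane

variable {τ : Type} {c : ℝ} {𝔓 : PvxPar τ c} {𝔈 : PvieEng τ} {m : ℕ} {ε : ℝ} {π : PvxIx τ} {Y : Set ℂ} {x : ℂ} {R μ : ℝ}

/-- a right apex of `g₀` is within the mesh of a vertex of `g₀` -/
theorem pvn1f_apx_near (hR : 0 ≤ R) (hf : L9Fine Y (closedBall x (6 * R)) μ) {𝔇 : PvwDat (delbPl Y).toMap} (hg : ∀ v ∈ 𝔇.g.verts, ‖(v : ℂ) - x‖ ≤ 5 * R) {v : ↥Y} (hv : v ∈ 𝔇.apx) :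
    ∃ w ∈ 𝔇.g.verts, ‖(v : ℂ) - w‖ ≤ μ := by
  obtain ⟨i, hi, rfl⟩ := hv
  set d := (delbPl Y).toMap.opp (𝔇.g.e i) with hd'
  have hs : (delbPl Y).toMap.src d = 𝔇.g.v (i + 1) := by rw [hd', PvMap.src_opp']; exact 𝔇.g.tgt_e i hi
  have htri : DelTri Y d.1.1.1 d.1.2.1 (delApex Y d.1.1.1 d.1.2.1) := delp_apex_spec d.2.1 d.2.2
  have hs' : d.1.1 = 𝔇.g.v (i + 1) := hs
  have h5 := hg _ ⟨i + 1, hi, rfl⟩
  have hmem : d.1.1.1 ∈ closedBall x (6 * R) := by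
    rw [Metric.mem_closedBall, dist_eq_norm, hs']
    exact h5.trans (by linarith)
  have h6 := (hf _ _ _ htri (Or.inl hmem)).2.1
  have hap : (((delbPl Y).toMap.apex d : ↥Y) : ℂ) = delApex Y d.1.1.1 d.1.2.1 := rfl
  refine ⟨𝔇.g.v (i + 1), ⟨i + 1, hi, rfl⟩, ?_⟩
  rw [hap, ← hs']
  exact h6

/-- the right apexes of `g₀` -/
theorem pvn1f_apx (hW : 𝔓.Wf) (hF : PvfhWf 𝔓) (hR : 0 ≤ R) (hf : L9Fine Y (closedBall x (6 * R)) μ) {C : Set ℂ} (hC : C ⊆ (𝔓.reg m π).Yin) {𝔇 : PvwDat (delbPl Y).toMap}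
    (hok : 𝔇.Ok Subtype.val 𝔓.num (pvlmH m) (𝔓.reg m π)) (hg : ∀ v ∈ 𝔇.g.verts, ‖(v : ℂ) - x‖ ≤ 5 * R) {v : ↥Y} (hv : v ∈ 𝔇.apx) {u : ℂ} (hu : u ∈ C) :
    2 * pvlmDel c m - μ < ‖(v : ℂ) - u‖ := by
  obtain ⟨w, hw, hle⟩ := pvn1f_apx_near hR hf hg hv
  have h1 := pvn1f_g hW hF hC hok hw hu
  have e : (w : ℂ) - u = ((v : ℂ) - u) - ((v : ℂ) - w) := by ring
  have h2 : ‖(w : ℂ) - u‖ ≤ ‖(v : ℂ) - u‖ + ‖(v : ℂ) - w‖ := by rw [e]; exact norm_sub_le _ _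
  linarith

/-- **ALL THE FROZEN SITES OF THE DATUM** are more than `δ` away from `C`, on a sample of mesh `μ ≤ δ` -/
theorem pvn1f_fz (hW : 𝔓.Wf) (hF : PvfhWf 𝔓) (hfine : 32 * pvlmDel c m < 𝔓.num.rho * pvlmH m) (H : Pvn1fClear 𝔓 𝔈 m ε π) (hC : pvieCc 𝔓 𝔈 m ε π.p ⊆ (𝔓.reg m π).Yin)
    (hR : 0 ≤ R) (hμ : μ ≤ pvlmDel c m) (hf : L9Fine Y (closedBall x (6 * R)) μ) {𝔇 : PvwDat (delbPl Y).toMap} (hok : 𝔇.Ok Subtype.val 𝔓.num (pvlmH m) (𝔓.reg m π)) {Bs Bt : Set ℂ}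
    (hZs : (π.Zs : Set (ℤ × ℤ)) = pvtCells (pvlmDel c m) (Subtype.val '' 𝔇.s.fzIn ∪ Bs)) (hZt : (π.Zt : Set (ℤ × ℤ)) = pvtCells (pvlmDel c m) (Subtype.val '' 𝔇.t.fzOut ∪ Bt))
    (hg : ∀ v ∈ 𝔇.g.verts, ‖(v : ℂ) - x‖ ≤ 5 * R) {v : ↥Y} (hv : v ∈ 𝔇.fz) {u : ℂ} (hu : u ∈ pvieCc 𝔓 𝔈 m ε π.p) : pvlmDel c m < ‖(v : ℂ) - u‖ := by
  have hδ := pvlm_Del_pos c m
  rcases hv with (hv | hv) | hv
  · exact pvn1f_fzY hW hF.b_b2 hfine H hok hZs hZt hv hu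
  · have := pvn1f_g hW hF hC hok hv hu
    linarith
  · have := pvn1f_apx hW hF hR hf hC hok hg hv hu
    linarith

/-- from a lower bound on the distances to `pvgeFar` -/
theorem pvn1f_far_of {C : Set ℂ} (hne : C.Nonempty) {r δ : ℝ} (hr : 3 * r ≤ δ) {w : ℂ} (h : ∀ u ∈ C, δ < ‖w - u‖) : w ∈ pvgeFar C r := by
  show 3 * r ≤ infDist w C
  refine (Metric.le_infDist hne).2 fun u hu => ?_
  rw [dist_eq_norm]
  exact hr.trans (h u hu).le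

end plane

/-! ## 4. the forms of the consumers -/

section forms

variable {τ : Type} {c : ℝ} {𝔓 : PvxPar τ c} {𝔈 : PvieEng τ} {m : ℕ} {ε : ℝ} {π : PvxIx τ} {x : ℂ} {R : ℝ}

/-- a witness of `pvxnSys` (170) -/
theorem pvn1f_wit (hW : 𝔓.Wf) (hF : PvfhWf 𝔓) (hfine : 32 * pvlmDel c m < 𝔓.num.rho * pvlmH m) (H : Pvn1fClear 𝔓 𝔈 m ε π) {a : ℂ} {𝔎 : PvxnKit} {Y : Set ℂ} {i : PvxnIx} {σ : ↥Y → Bool}
    {𝔇 : PvwDat (delbPl Y).toMap} (h : PvxnWit 𝔓 m π a 𝔎 Y i σ 𝔇) {v : ↥Y} (hv : v ∈ 𝔇.fzY) {u : ℂ} (hu : u ∈ pvieCc 𝔓 𝔈 m ε π.p) : pvlmDel c m < ‖(v : ℂ) - u‖ :=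
  pvn1f_fzY hW hF.b_b2 hfine H h.ok h.hull_s h.hull_t hv hu

/-- an actual datum (60) -/
theorem pvn1f_act (hW : 𝔓.Wf) (hF : PvfhWf 𝔓) (hfine : 32 * pvlmDel c m < 𝔓.num.rho * pvlmH m) (H : Pvn1fClear 𝔓 𝔈 m ε π) {ω : PVSample} {𝔇 : PvwDat (pvxT ω)}
    (h : Pvn1bAct 𝔓 x R m π ω 𝔇) {v : ↥(pvxY ω)} (hv : v ∈ 𝔇.fzY) {u : ℂ} (hu : u ∈ pvieCc 𝔓 𝔈 m ε π.p) : pvlmDel c m < ‖(v : ℂ) - u‖ :=
  pvn1f_fzY (pos := pvxPos ω) hW hF.b_b2 hfine H h.1 h.2.2.1 h.2.2.2 hv hu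

/-- an actual datum on a fine sample: ALL its frozen sites -/
theorem pvn1f_act_fz (hW : 𝔓.Wf) (hF : PvfhWf 𝔓) (hfine : 32 * pvlmDel c m < 𝔓.num.rho * pvlmH m) (H : Pvn1fClear 𝔓 𝔈 m ε π) (hC : pvieCc 𝔓 𝔈 m ε π.p ⊆ (𝔓.reg m π).Yin)
    (hR : 0 ≤ R) {μ : ℝ} (hμ : μ ≤ pvlmDel c m) {ω : PVSample} (hf : L9Fine (pvxY ω) (closedBall x (6 * R)) μ) {𝔇 : PvwDat (pvxT ω)}
    (h : Pvn1bAct 𝔓 x R m π ω 𝔇) {v : ↥(pvxY ω)} (hv : v ∈ 𝔇.fz) {u : ℂ} (hu : u ∈ pvieCc 𝔓 𝔈 m ε π.p) : pvlmDel c m < ‖(v : ℂ) - u‖ := by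
  obtain ⟨hok, ⟨P, -, j, hact, hin⟩, hZs, hZt⟩ := h
  refine pvn1f_fz hW hF hfine H hC hR hμ hf hok hZs hZt ?_ hv hu
  rintro _ ⟨i, hi, rfl⟩
  show ‖pvxPos ω (𝔇.g.v i) - x‖ ≤ 5 * R
  rw [← hact.arc i hi]
  exact hin _ (by omega) (by omega)

/-- **`hfz` AT THE FATTENED PATTERN** `pw := {reg with Ycol := reg.Ycol ∪ (pvgeFar C r)ᶜ}` (63 78 292 29) -/
theorem pvn1f_pw (hW : 𝔓.Wf) (hF : PvfhWf 𝔓) (hfine : 32 * pvlmDel c m < 𝔓.num.rho * pvlmH m) (hπ : π ∈ pvxPatSet 𝔓 x R m) (H : Pvn1fClear 𝔓 𝔈 m ε π) (hne : (pvieCc 𝔓 𝔈 m ε π.p).Nonempty)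
    {r : ℝ} (hr : 3 * r ≤ pvlmDel c m) {Y : Set ℂ} {𝔇 : PvwDat (delbPl Y).toMap} (hok : 𝔇.Ok Subtype.val 𝔓.num (pvlmH m) (𝔓.reg m π)) {Bs Bt : Set ℂ}
    (hZs : (π.Zs : Set (ℤ × ℤ)) = pvtCells (pvlmDel c m) (Subtype.val '' 𝔇.s.fzIn ∪ Bs)) (hZt : (π.Zt : Set (ℤ × ℤ)) = pvtCells (pvlmDel c m) (Subtype.val '' 𝔇.t.fzOut ∪ Bt)) :
    ∀ v ∈ 𝔇.fzY, (v : ℂ) ∉ (𝔓.reg m π).Ycol ∪ (pvgeFar (pvieCc 𝔓 𝔈 m ε π.p) r)ᶜ := by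
  rintro v hv (h | h)
  · exact pvffz_model_col hW hF hfine hπ hok hZs hZt v hv h
  · exact h (pvn1f_far_of hne hr fun u hu => pvn1f_fzY hW hF.b_b2 hfine H hok hZs hZt hv hu)

end forms

/-! ## 5. at the record -/

section record

variable {N : PvxNums} (hN : N.Ok) {c : ℝ} (c0 : 0 < c) (nb : PvnaNb N) {m : ℕ} {x : ℂ} {R : ℝ} {π : PvxIx (pvxTau N)}

include c0

/-- **`pvzu_clear_pat` OF 148 AT THE PARAMETERS AND THE ENGINE OF RECORD** -/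
theorem pvn1f_clear_rec (hm : N.m0 ≤ m) (ε : ℝ) (hπ : π ∈ pvxPatSet (pvxParOf N hN c) x R m) : Pvn1fClear (pvxParOf N hN c) (pvnaEngRec N hN c nb) m ε π :=
  pvnxe_clear hN nb c0 hm ε hπ

omit c0 in
/-- the resampled region is not empty -/
theorem pvn1f_ne_rec (ε : ℝ) (p : PvtsPat (pvxTau N)) : (pvieCc (pvxParOf N hN c) (pvnaEngRec N hN c nb) m ε p).Nonempty := by
  refine ⟨_, pvieDoor (pvnaEngRec N hN c nb) m ε (pvieZi (pvxParOf N hN c) m p.zs p.ts) (((pvxParOf N hN c).Γ m).din p.ts), ?_, pvnxe_door_cen hN nb m ε _ _⟩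
  simp [pvieTiles]

/-- **THE FROZEN SITES OF `D_Y` AGAINST `C`, AT THE RECORD** -/
theorem pvn1f_fzY_rec (hm : N.m0 ≤ m) (ε : ℝ) (hπ : π ∈ pvxPatSet (pvxParOf N hN c) x R m) {Y : Set ℂ} {𝔇 : PvwDat (delbPl Y).toMap}
    (hok : 𝔇.Ok Subtype.val (pvxParOf N hN c).num (pvlmH m) ((pvxParOf N hN c).reg m π)) {Bs Bt : Set ℂ}
    (hZs : (π.Zs : Set (ℤ × ℤ)) = pvtCells (pvlmDel c m) (Subtype.val '' 𝔇.s.fzIn ∪ Bs)) (hZt : (π.Zt : Set (ℤ × ℤ)) = pvtCells (pvlmDel c m) (Subtype.val '' 𝔇.t.fzOut ∪ Bt))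
    {v : ↥Y} (hv : v ∈ 𝔇.fzY) {u : ℂ} (hu : u ∈ pvieCc (pvxParOf N hN c) (pvnaEngRec N hN c nb) m ε π.p) : pvlmDel c m < ‖(v : ℂ) - u‖ :=
  pvn1f_fzY (pvxo_wf N hN c) (pvfhw_par N hN c).b_b2 (pvffz_fine_at hN c0 hm) (pvn1f_clear_rec hN c0 nb hm ε hπ) hok hZs hZt hv hu

/-- the same in the words of `pvgeFar` -/
theorem pvn1f_far_rec (hm : N.m0 ≤ m) (ε : ℝ) (hπ : π ∈ pvxPatSet (pvxParOf N hN c) x R m) {r : ℝ} (hr : 3 * r ≤ pvlmDel c m) {Y : Set ℂ} {𝔇 : PvwDat (delbPl Y).toMap}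
    (hok : 𝔇.Ok Subtype.val (pvxParOf N hN c).num (pvlmH m) ((pvxParOf N hN c).reg m π)) {Bs Bt : Set ℂ}
    (hZs : (π.Zs : Set (ℤ × ℤ)) = pvtCells (pvlmDel c m) (Subtype.val '' 𝔇.s.fzIn ∪ Bs)) (hZt : (π.Zt : Set (ℤ × ℤ)) = pvtCells (pvlmDel c m) (Subtype.val '' 𝔇.t.fzOut ∪ Bt))
    {v : ↥Y} (hv : v ∈ 𝔇.fzY) : (v : ℂ) ∈ pvgeFar (pvieCc (pvxParOf N hN c) (pvnaEngRec N hN c nb) m ε π.p) r :=
  pvn1f_far_of (pvn1f_ne_rec hN nb ε π.p) hr fun _ hu => pvn1f_fzY_rec hN c0 nb hm ε hπ hok hZs hZt hv hu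

/-- `hfz` at the fattened pattern, at the record -/
theorem pvn1f_pw_rec (hm : N.m0 ≤ m) (ε : ℝ) (hπ : π ∈ pvxPatSet (pvxParOf N hN c) x R m) {r : ℝ} (hr : 3 * r ≤ pvlmDel c m) {Y : Set ℂ} {𝔇 : PvwDat (delbPl Y).toMap}
    (hok : 𝔇.Ok Subtype.val (pvxParOf N hN c).num (pvlmH m) ((pvxParOf N hN c).reg m π)) {Bs Bt : Set ℂ}
    (hZs : (π.Zs : Set (ℤ × ℤ)) = pvtCells (pvlmDel c m) (Subtype.val '' 𝔇.s.fzIn ∪ Bs)) (hZt : (π.Zt : Set (ℤ × ℤ)) = pvtCells (pvlmDel c m) (Subtype.val '' 𝔇.t.fzOut ∪ Bt)) :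
    ∀ v ∈ 𝔇.fzY, (v : ℂ) ∉ ((pvxParOf N hN c).reg m π).Ycol ∪ (pvgeFar (pvieCc (pvxParOf N hN c) (pvnaEngRec N hN c nb) m ε π.p) r)ᶜ :=
  pvn1f_pw (pvxo_wf N hN c) (pvfhw_par N hN c) (pvffz_fine_at hN c0 hm) hπ (pvn1f_clear_rec hN c0 nb hm ε hπ) (pvn1f_ne_rec hN nb ε π.p) hr hok hZs hZt

end record

end Claimed.Agent.R289
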