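import Claimed.Agent.R289.Exit.N1Guard
import Claimed.Agent.R289.Exit.N1Meas
import Claimed.Agent.R289.Exit.AnaDefs
import Claimed.Agent.R289.Tr.DomEK
import Claimed.Agent.R289.Tr.DomEN
import Claimed.Agent.R289.Tr.ChainI
import Claimed.Agent.R289.Tr.Blind
import Claimed.Agent.R289.Tr.Irr

/-!
# Row 289 (S0537), THE WALL, ROAD E, file Exit/N1Y : THE `Y` SIDE OF N1' = THE CONTRACT `Pvn1aY` OF 159 (`Exit/N1Guard.lean`), COMPILED GLUE      (helper93, pen of the `Y` side; prefix `pvyj_`, `pvyj`, `Pvyj`)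

THE `Y` SIDE IS GENERIC IN A FINITE FAMILY `L : List J` OF REFERENCE ENDS: `w := D 1_{⋃ Ev p} ∘ fl`, `Y := Y_c p` at the FIRST `p` of `L` with `fl ζ ∈ Ev p`, `ŷ` as in `pvjbYd` (`Tr/JenE`).
[typed against `Tr/InstL` v2.1, where the index `Z` of an end link was not a function of the pattern (seam REF-Z).   `Tr/InstL` v2.2: `Z` = the hull of record `= π.Zt`, `π.Zs` on `Fit` again: THE INSTANCE (sec. 6) USES THE SINGLETON `L = [(π.Zt, π.Zs)]`: the separation clause of `enl` is void.]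
NEW AGAINST `Tr/JenE`: the kits `𝔎s ε` depend on the mesh (so the contract is read at the GUARDED kits of 159), `chain` is asked AT THE BASE ONLY (own funnels), `kst` apart.
* sec. 1  `pvyjPick`, `pvyj_pick_spec`, `pvyj_pick_eq`, `pvyj_pick_meas`, `pvyjU`, `pvyj_U_meas`
* sec. 2  **`pvyjYd`** = THE `Y` SIDE OF RECORD, `pvyj_yh_act` (the clause `ŷ = K`: an unfolding), `pvyj_w_at`, `pvyj_Y_at`
* sec. 3  `pvyj_jen_base` : TR3 + flip at one base, ANY majorant on the large experiment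
* sec. 4  **`PvyjIn`** = THE CONTRACT (kits `𝔎s ε`: read it at the GUARDED kits): `door`, `chain` (AT THE BASE ONLY, own funnels), `kst` (`κ_out`, `κ_in` under the moves of `yh_stab`), `enl` (enlargement + reference index + separation);
          `PvyjIn.of_funnels` (form v2 of `Tr/JenE`: the same funnels at all the bases with the same frozen colours);   **`PvyjIn.jen`**, **`PvyjIn.yh_stab`**, **`pvyj_mw`**, **`pvyj_mY`**, **`pvyj_dkY`**, **`pvyj_dom`** (NO separation), `pvyj_mean`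
* sec. 4b **`PvyjBs`** = what ONE base owes (chain of 218 in the small experiment, two BLIND ENDS of 141, base data stable, inclusions),   **`PvyjIn.of_blind`** : `PvyjBs` at every present datum ⟹ `PvyjIn` (`PvkyChain.pvbq_all`, `.pvbq_K` of 141, `.pvkyr_enl` of 218: POCKETS)
* sec. 5  **`pvyj_Y`** : `Pvn1aY` VERBATIM.      * sec. 6  THE INSTANCE at the names of `Tr/InstL` v2.2: `pvyjYdL`, `PvyjInL`, `pvyj_K_eq`, `pvyj_kit_ok`, `pvyj_meas_L`, `pvyj_door`, **`pvyj_YL`**.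
-/

set_option autoImplicit false
set_option linter.unusedSectionVars false
set_option linter.unusedVariables false

namespace Claimed.Agent.R289

open MeasureTheory ProbabilityTheory Filter Topology Set Claims.C0465
open scoped ENNReal

/-! ## 1. the first index of a list at which an event holds -/

section pick

variable {J : Type} {E : J → Set (Conf PvPt)} {F : J → Conf PvPt → ℂ}

open Classical in
/-- `F p η` at the FIRST `p` of the list with `η ∈ E p`   (`0` if there is none) -/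
noncomputable def pvyjPick (E : J → Set (Conf PvPt)) (F : J → Conf PvPt → ℂ) : List J → Conf PvPt → ℂ
  | [], _ => 0
  | p :: L, η => if η ∈ E p then F p η else pvyjPick E F L η

/-- one of the events of the list holds -/
def pvyjU (E : J → Set (Conf PvPt)) (L : List J) : Set (Conf PvPt) := {η | ∃ p ∈ L, η ∈ E p}

theorem pvyj_eqns_cite : True := by
  have := @pvyjPick.eq_1; have := @pvyjPick.eq_2; have := @pvyjU.eq_1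
  trivial

theorem pvyj_pick_cons_mem {p : J} {L : List J} {η : Conf PvPt} (h : η ∈ E p) : pvyjPick E F (p :: L) η = F p η := by
  classical
  show (if η ∈ E p then F p η else pvyjPick E F L η) = _
  rw [if_pos h]

theorem pvyj_pick_cons_notMem {p : J} {L : List J} {η : Conf PvPt} (h : η ∉ E p) : pvyjPick E F (p :: L) η = pvyjPick E F L η := by
  classical
  show (if η ∈ E p then F p η else pvyjPick E F L η) = _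
  rw [if_neg h]

/-- the value is the value at SOME index of the list at which the event holds -/
theorem pvyj_pick_spec : ∀ (L : List J) {η : Conf PvPt}, η ∈ pvyjU E L → ∃ p ∈ L, η ∈ E p ∧ pvyjPick E F L η = F p η
  | [], η, h => by obtain ⟨p, hp, -⟩ := h; simp at hp
  | p :: L, η, h => by
    by_cases hp : η ∈ E p
    · exact ⟨p, List.mem_cons_self, hp, pvyj_pick_cons_mem hp⟩
    · obtain ⟨p', hp', hE⟩ := h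
      have h' : η ∈ pvyjU E L := by
        rcases List.mem_cons.1 hp' with rfl | h1
        · exact absurd hE hp
        · exact ⟨p', h1, hE⟩
      obtain ⟨p₁, h1, h2, h3⟩ := pvyj_pick_spec L h'
      exact ⟨p₁, List.mem_cons_of_mem _ h1, h2, by rw [pvyj_pick_cons_notMem hp, h3]⟩

/-- if the event holds at ONE index only, the value is the value there -/
theorem pvyj_pick_eq (L : List J) {η : Conf PvPt} {p₀ : J} (h0 : p₀ ∈ L) (hE : η ∈ E p₀) (hs : ∀ p ∈ L, p ≠ p₀ → η ∉ E p) : pvyjPick E F L η = F p₀ η := by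
  obtain ⟨p, hp, h1, h2⟩ := pvyj_pick_spec (F := F) L (⟨p₀, h0, hE⟩ : η ∈ pvyjU E L)
  by_cases e : p = p₀
  · rw [h2, e]
  · exact absurd h1 (hs p hp e)

theorem pvyj_pick_meas : ∀ (L : List J), (∀ p ∈ L, MeasurableSet (E p)) → (∀ p ∈ L, Measurable (F p)) → Measurable (pvyjPick E F L)
  | [], _, _ => measurable_const
  | p :: L, hE, hF => by
    classical
    exact Measurable.ite (hE p List.mem_cons_self) (hF p List.mem_cons_self)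
      (pvyj_pick_meas L (fun q hq => hE q (List.mem_cons_of_mem _ hq)) fun q hq => hF q (List.mem_cons_of_mem _ hq))

theorem pvyj_U_meas (L : List J) (hE : ∀ p ∈ L, MeasurableSet (E p)) : MeasurableSet (pvyjU E L) := by
  have e : pvyjU E L = ⋃ p ∈ {p | p ∈ L}, E p := by
    ext η
    simp only [pvyjU, mem_ofPred_eq, mem_iUnion, exists_prop]
  rw [e]
  exact MeasurableSet.biUnion (List.finite_toSet L).countable fun p hp => hE p hp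

end pick

/-! ## 2. the `Y` side -/

section yside

variable (kit : ℝ → PvthKit) (b : Bool) (X₀ : ℝ → PvtTurn → Conf PvPt → ℂ) (z d : ℂ) (l : List PvtTurn) (zi di : ℂ) (eo ei : ℝ → Conf PvPt → PvkyEnd)
  {J : Type} (L : List J) (eoR eiR : ℝ → J → PvkyEnd) (D : ℝ≥0∞)

/-- the chain event at the reference ends number `p` -/
def pvyjE (ε : ℝ) (p : J) : Set (Conf PvPt) := pvkyEv (kit ε) b z d l (eoR ε p) (eiR ε p)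

/-- the closing sum at the reference ends number `p` -/
noncomputable def pvyjF (ε : ℝ) (p : J) : Conf PvPt → ℂ := pvkyYc (kit ε) b z d l (eoR ε p) (eiR ε p) (X₀ ε)

/-- **THE `Y` SIDE OF N1'**, read on the configuration of the BLACK vocabulary (`ζ = fl (actual configuration)`).
* `eo ε η₀`, `ei ε η₀` = the two end links AT THE BASE DATA of the configuration `η₀` (`pvilEoAt`, `pvilEiAt`);   `eoR ε p`, `eiR ε p`, `p ∈ L` = the FINITE family of the end links at all the possible base data of the pattern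
* weight `D 1_{⋃ Ev p}`, closing sum `Y_c p` at the first `p` with `Ev p`;   `ŷ := κ_out + cell means + κ_in` BY DEFINITION -/
noncomputable def pvyjYd : PvxnYd where
  w ε ζ := D * (pvyjU (pvyjE kit b z d l eoR eiR ε) L).indicator 1 (pvkyFl b ζ)
  Y ε ζ := pvyjPick (pvyjE kit b z d l eoR eiR ε) (pvyjF kit b X₀ z d l eoR eiR ε) L (pvkyFl b ζ)
  yh ε _ ζ := pvkyK (kit ε) ε b (eo ε (pvkyFl b ζ)) z d (pvkyFl b ζ) + pvtSum ((kit ε).W (pvP ε) (X₀ ε)) d l + pvkyK (kit ε) ε b (ei ε (pvkyFl b ζ)) zi di (pvkyFl b ζ)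
  D := D

theorem pvyj_eqns_cite2 : True := by
  have := @pvyjE.eq_1; have := @pvyjF.eq_1; have := @pvyjYd.eq_1
  trivial

/-- **THE CLAUSE `ŷ = K` OF `act`**: an unfolding -/
theorem pvyj_yh_act (ε : ℝ) (i : PvxnIx) (η : Conf PvPt) :
    (pvyjYd kit b X₀ z d l zi di eo ei L eoR eiR D).yh ε i (pvxnFl b η) =
      pvkyK (kit ε) ε b (eo ε η) z d η + pvtSum ((kit ε).W (pvP ε) (X₀ ε)) d l + pvkyK (kit ε) ε b (ei ε η) zi di η := by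
  show pvkyK (kit ε) ε b (eo ε (pvkyFl b (pvkyFl b η))) z d (pvkyFl b (pvkyFl b η)) + _ + pvkyK (kit ε) ε b (ei ε (pvkyFl b (pvkyFl b η))) zi di (pvkyFl b (pvkyFl b η)) = _
  rw [pvky_fl_fl]

variable {kit b X₀ z d l zi di eo ei L eoR eiR D}

theorem pvyj_w_at {ε : ℝ} {ζ : Conf PvPt} {p₀ : J} (h0 : p₀ ∈ L) (hE : pvkyFl b ζ ∈ pvyjE kit b z d l eoR eiR ε p₀) : (pvyjYd kit b X₀ z d l zi di eo ei L eoR eiR D).w ε ζ = D := by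
  show D * (pvyjU (pvyjE kit b z d l eoR eiR ε) L).indicator 1 (pvkyFl b ζ) = D
  rw [indicator_of_mem (show pvkyFl b ζ ∈ pvyjU (pvyjE kit b z d l eoR eiR ε) L from ⟨p₀, h0, hE⟩)]
  exact mul_one D

theorem pvyj_Y_at {ε : ℝ} {ζ : Conf PvPt} {p₀ : J} (h0 : p₀ ∈ L) (hE : pvkyFl b ζ ∈ pvyjE kit b z d l eoR eiR ε p₀) (hs : ∀ p ∈ L, p ≠ p₀ → pvkyFl b ζ ∉ pvyjE kit b z d l eoR eiR ε p) :
    (pvyjYd kit b X₀ z d l zi di eo ei L eoR eiR D).Y ε ζ = pvyjF kit b X₀ z d l eoR eiR ε p₀ (pvkyFl b ζ) :=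
  pvyj_pick_eq L h0 hE hs

theorem pvyj_w_le (ε : ℝ) (ζ : Conf PvPt) : (pvyjYd kit b X₀ z d l zi di eo ei L eoR eiR D).w ε ζ ≤ D := by
  show D * (pvyjU (pvyjE kit b z d l eoR eiR ε) L).indicator 1 (pvkyFl b ζ) ≤ D
  calc D * (pvyjU (pvyjE kit b z d l eoR eiR ε) L).indicator 1 (pvkyFl b ζ) ≤ D * 1 := by
        gcongr
        exact indicator_le_self' (fun _ _ => zero_le) _
    _ = D := mul_one D

theorem pvyj_w_ne {ε : ℝ} {ζ : Conf PvPt} (h : (pvyjYd kit b X₀ z d l zi di eo ei L eoR eiR D).w ε ζ ≠ 0) : pvkyFl b ζ ∈ pvyjU (pvyjE kit b z d l eoR eiR ε) L := by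
  by_contra hn
  refine h ?_
  show D * (pvyjU (pvyjE kit b z d l eoR eiR ε) L).indicator 1 (pvkyFl b ζ) = 0
  rw [indicator_of_notMem hn, mul_zero]

theorem pvyj_w_meas {ε : ℝ} (hk : (kit ε).WF) (ho : ∀ p ∈ L, MeasurableSet (eoR ε p).A) (hi : ∀ p ∈ L, MeasurableSet (eiR ε p).A) :
    Measurable ((pvyjYd kit b X₀ z d l zi di eo ei L eoR eiR D).w ε) :=
  ((measurable_const.indicator (pvyj_U_meas L fun p hp => pvjb_Ev_meas hk b z d l (ho p hp) (hi p hp))).comp (measurable_pvkyFl b)).const_mul D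

theorem pvyj_Y_meas {ε : ℝ} (hk : (kit ε).WF) (hX : (kit ε).Fld (X₀ ε)) (ho : ∀ p ∈ L, MeasurableSet (eoR ε p).A) (hi : ∀ p ∈ L, MeasurableSet (eiR ε p).A)
    (ho' : ∀ p ∈ L, Measurable (eoR ε p).X) (hi' : ∀ p ∈ L, Measurable (eiR ε p).X) :
    Measurable ((pvyjYd kit b X₀ z d l zi di eo ei L eoR eiR D).Y ε) :=
  (pvyj_pick_meas L (fun p hp => pvjb_Ev_meas hk b z d l (ho p hp) (hi p hp)) fun p hp => pvjb_Yc_meas hX b z d l (ho' p hp) (hi' p hp)).comp (measurable_pvkyFl b)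

end yside

/-! ## 3. one base configuration -/

section base

variable {kit : PvthKit} {ε : ℝ} {b : Bool} {X₀ : PvtTurn → Conf PvPt → ℂ} {z d : ℂ} {l : List PvtTurn} {C : Set ℂ} {yf : Conf PvPt → Set ℂ}
  {eo ei : PvkyEnd} {fo fi : PvkeFun ℂ} {β' q qo qi : ℝ≥0∞}

/-- **TR3 + ENLARGEMENT + FLIP**, at the base `cfOf Y σᵇ`, for ANY majorant `G'` read on the large experiment (`N'` = the sites recoloured by the experiment of 159).      NO measurability. -/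
theorem pvyj_jen_base {Y : Set ℂ} {σ : ℂ → Bool} (H : PvkyChain kit ε b X₀ z d l (cfOf Y (pvjbC b σ)) C yf eo ei fo fi β' q qo qi) {Dc : ℝ≥0∞}
    (hD : pvkeD kit (pvP ε) l.length q qo qi ≤ Dc) (N' : Set ℂ) (x₀ : ℂ) (G' : Conf PvPt → ℝ≥0∞)
    (enl : ∀ κ : ℂ → Bool, ∀ᵐ ω₂ ∂(pvP ε), pvdyR C yf (cfOf Y (pvjbC b σ)) (κ, ω₂) ∈ pvkyEv kit b z d l eo ei →
      Dc * ‖x₀ + pvkyYc kit b z d l eo ei X₀ (pvdyR C yf (cfOf Y (pvjbC b σ)) (κ, ω₂))‖ₑ ^ 2 ≤ G' (pvdyR C (fun _ => N') (cfOf Y (pvjbC b σ)) (κ, ω₂))) :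
    ‖x₀ + pvdyHat ε C yf (pvkyWc kit ε b z d l eo ei) (pvkyYc kit b z d l eo ei X₀) (cfOf Y (pvjbC b σ))‖ₑ ^ 2 ≤
      ∫⁻ κ, ∫⁻ ω₂, G' (pvkyFl b (pvdyR C (fun _ => N') (cfOf Y σ) (κ, ω₂))) ∂(pvP ε) ∂(colLaw ℂ) := by
  have := (pv_isPpp ε).prob
  set ω : Conf PvPt := cfOf Y (pvjbC b σ) with hω
  set Ev := pvkyEv kit b z d l eo ei with hEv
  set Yc := pvkyYc kit b z d l eo ei X₀ with hYc
  let G : Conf PvPt → ℝ≥0∞ := fun η => (Dc * Ev.indicator 1 η) * ‖x₀ + Yc η‖ₑ ^ 2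
  have s1 : ‖x₀ + pvdyHat ε C yf (pvkyWc kit ε b z d l eo ei) Yc ω‖ₑ ^ 2 ≤ ∫⁻ p, G (pvdyR C yf ω p) ∂(pvdyNu ε) := by
    refine (H.jensen x₀).trans ?_
    refine (mul_le_mul_left hD _).trans ?_
    refine (lintegral_const_mul_le _ _).trans (le_of_eq (lintegral_congr fun p => ?_))
    show Dc * (‖x₀ + Yc (pvdyR C yf ω p)‖ₑ ^ 2 * Ev.indicator 1 (pvdyR C yf ω p)) = (Dc * Ev.indicator 1 (pvdyR C yf ω p)) * ‖x₀ + Yc (pvdyR C yf ω p)‖ₑ ^ 2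
    ring
  have s2 : ∫⁻ p, G (pvdyR C yf ω p) ∂(pvdyNu ε) ≤ ∫⁻ κ, ∫⁻ ω₂, G (pvdyR C yf ω (κ, ω₂)) ∂(pvP ε) ∂(colLaw ℂ) :=
    pvjb_prod_le (colLaw ℂ) (pvP ε) fun p => G (pvdyR C yf ω p)
  have s3 : ∫⁻ κ, ∫⁻ ω₂, G (pvdyR C yf ω (κ, ω₂)) ∂(pvP ε) ∂(colLaw ℂ) ≤ ∫⁻ κ, ∫⁻ ω₂, G' (pvdyR C (fun _ => N') ω (κ, ω₂)) ∂(pvP ε) ∂(colLaw ℂ) := by
    refine lintegral_mono fun κ => lintegral_mono_ae ?_
    filter_upwards [enl κ] with ω₂ h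
    by_cases hE : pvdyR C yf ω (κ, ω₂) ∈ Ev
    · refine le_trans (le_of_eq ?_) (h hE)
      show (Dc * Ev.indicator 1 _) * ‖x₀ + Yc _‖ₑ ^ 2 = _
      rw [indicator_of_mem hE]
      simp only [Pi.one_apply, mul_one]
    · show (Dc * Ev.indicator 1 _) * ‖x₀ + Yc _‖ₑ ^ 2 ≤ _
      rw [indicator_of_notMem hE, mul_zero, zero_mul]
      exact zero_le
  have s4 : ∫⁻ κ, ∫⁻ ω₂, G' (pvdyR C (fun _ => N') ω (κ, ω₂)) ∂(pvP ε) ∂(colLaw ℂ) =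
      ∫⁻ κ, ∫⁻ ω₂, G' (pvkyFl b (pvdyR C (fun _ => N') (cfOf Y σ) (κ, ω₂))) ∂(pvP ε) ∂(colLaw ℂ) := by
    rw [← pvjb_lintegral_C b fun κ => ∫⁻ ω₂, G' (pvdyR C (fun _ => N') ω (κ, ω₂)) ∂(pvP ε)]
    refine lintegral_congr fun κ => ?_
    rw [← pvjb_lintegral_F b ε fun ω₂ => G' (pvdyR C (fun _ => N') ω (pvjbC b κ, ω₂))]
    refine lintegral_congr fun ω₂ => ?_
    rw [pvjb_fl_R]
  exact s1.trans (s2.trans (s3.trans (le_of_eq s4)))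

end base

/-! ## 4. the contract; the fields of `PvxnOk` -/

section contract

variable {τ : Type} {c : ℝ} (𝔓 : PvxPar τ c) (m : ℕ) (π : PvxIx τ) (a : ℂ) (𝔎s : ℝ → PvxnKit)
  (kit : ℝ → PvthKit) (b : Bool) (X₀ : ℝ → PvtTurn → Conf PvPt → ℂ) (z d : ℂ) (l : List PvtTurn) (zi di : ℂ) (eo ei : ℝ → Conf PvPt → PvkyEnd)
  {J : Type} (L : List J) (eoR eiR : ℝ → J → PvkyEnd) (D : ℝ≥0∞)

/-- **THE CONTRACT OF THE `Y` SIDE OF N1' FOR ONE PATTERN**, v3.      `(Y, σ)` = sites and colours in the BLACK vocabulary; the base of the chain is the ACTUAL configuration `cfOf Y σᵇ`.      The kits `𝔎s ε` are ANY kits: READ IT AT THE GUARDED KITS `(𝔎s ε).guard (S ε)` of 159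
(then every base lies in `S ε`: `pvn1a_PA`).      `yf i` = the fresh set of the experiment in which the chain is produced (the fresh sites of the two mouths, or `fun _ => i.Nᶜ`).
* `door`   the last door of the word is the entrance door of `s`
* `chain`  at a present datum of index `i`, closed off by `WO`: the record of 218 AT THE BASE, with its own funnels (`pvkyi_chain`: `pvkyiFun`), constants with `D_c ≤ D`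
* `kst`    (Y-STAB) `κ_out`, `κ_in` do not move under the moves of `yh_stab`      [218 `Tr/Irr` (B), 141 `Tr/Blind`, 197 `Tr/BlindL`]
* `enl`    there is an index `p₀` of the family [the base data of the base] such that for EVERY seed `κ`, almost every `ω₂`: success in the experiment of the chain ⟹ success AT THE REFERENCE ENDS `p₀` in the experiment of 159, same closing sum [(CYL-W)],
           and NO success at the other reference ends [(SEP): the soft events imply the plain events `{hull = Z}` off a null set, which the splices of a good base avoid] -/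
structure PvyjIn (yf : PvxnIx → Conf PvPt → Set ℂ) : Prop where
  door : ∀ᶠ ε in 𝓝[>] (0 : ℝ), zi = pvthZ (kit ε).δ z d l l.length ∧ di = pvthD d l l.length
  chain : ∀ᶠ ε in 𝓝[>] (0 : ℝ), ∀ Y : Set ℂ, (DelGood Y ∧ ∀ᵐ ω₂ ∂pvP ε, DelGood (Y \ (𝔎s ε).C ∪ cfSites ω₂ ∩ (𝔎s ε).C)) → ∀ (i : PvxnIx) (σ : ℂ → Bool),
    PvxnPA 𝔓 m π a (𝔎s ε) i Y σ → PvxnPW 𝔓 m π a (𝔎s ε) i Y σ →
    ∃ (fo fi : PvkeFun ℂ) (β' q qo qi : ℝ≥0∞), pvkeD (kit ε) (pvP ε) l.length q qo qi ≤ D ∧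
      PvkyChain (kit ε) ε b (X₀ ε) z d l (cfOf Y (pvjbC b σ)) (𝔎s ε).C (yf i) (eo ε (cfOf Y (pvjbC b σ))) (ei ε (cfOf Y (pvjbC b σ))) fo fi β' q qo qi
  kst : ∀ᶠ ε in 𝓝[>] (0 : ℝ), ∀ Y : Set ℂ, (DelGood Y ∧ ∀ᵐ ω₂ ∂pvP ε, DelGood (Y \ (𝔎s ε).C ∪ cfSites ω₂ ∩ (𝔎s ε).C)) → ∀ (i : PvxnIx) (σ σ' : ℂ → Bool),
    PvxnPA 𝔓 m π a (𝔎s ε) i Y σ → (∀ v ∈ Y, v ∈ i.F → σ' v = σ v) → (∀ v ∈ Y, v ∈ i.N → σ' v ≤ σ v) →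
    pvkyK (kit ε) ε b (eo ε (cfOf Y (pvjbC b σ'))) z d (cfOf Y (pvjbC b σ')) = pvkyK (kit ε) ε b (eo ε (cfOf Y (pvjbC b σ))) z d (cfOf Y (pvjbC b σ)) ∧
    pvkyK (kit ε) ε b (ei ε (cfOf Y (pvjbC b σ'))) zi di (cfOf Y (pvjbC b σ')) = pvkyK (kit ε) ε b (ei ε (cfOf Y (pvjbC b σ))) zi di (cfOf Y (pvjbC b σ))
  enl : ∀ᶠ ε in 𝓝[>] (0 : ℝ), ∀ Y : Set ℂ, (DelGood Y ∧ ∀ᵐ ω₂ ∂pvP ε, DelGood (Y \ (𝔎s ε).C ∪ cfSites ω₂ ∩ (𝔎s ε).C)) → ∀ (i : PvxnIx) (σ : ℂ → Bool),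
    PvxnPA 𝔓 m π a (𝔎s ε) i Y σ → PvxnPW 𝔓 m π a (𝔎s ε) i Y σ →
    ∃ p₀ ∈ L, ∀ κ : ℂ → Bool, ∀ᵐ ω₂ ∂(pvP ε),
      pvdyR (𝔎s ε).C (yf i) (cfOf Y (pvjbC b σ)) (κ, ω₂) ∈ pvkyEv (kit ε) b z d l (eo ε (cfOf Y (pvjbC b σ))) (ei ε (cfOf Y (pvjbC b σ))) →
      pvdyR (𝔎s ε).C (fun _ => i.Nᶜ) (cfOf Y (pvjbC b σ)) (κ, ω₂) ∈ pvyjE kit b z d l eoR eiR ε p₀ ∧
      pvyjF kit b X₀ z d l eoR eiR ε p₀ (pvdyR (𝔎s ε).C (fun _ => i.Nᶜ) (cfOf Y (pvjbC b σ)) (κ, ω₂)) =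
        pvkyYc (kit ε) b z d l (eo ε (cfOf Y (pvjbC b σ))) (ei ε (cfOf Y (pvjbC b σ))) (X₀ ε) (pvdyR (𝔎s ε).C (yf i) (cfOf Y (pvjbC b σ)) (κ, ω₂)) ∧
      ∀ p ∈ L, p ≠ p₀ → pvdyR (𝔎s ε).C (fun _ => i.Nᶜ) (cfOf Y (pvjbC b σ)) (κ, ω₂) ∉ pvyjE kit b z d l eoR eiR ε p

variable {𝔓 m π a 𝔎s kit b X₀ z d l zi di eo ei L eoR eiR D}

/-- **FORM v2** (`PvjbIn.chain` of `Tr/JenE`): the SAME funnels at all the bases with the same frozen colours ⟹ `chain` and `kst` -/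
theorem PvyjIn.of_funnels {yf : PvxnIx → Conf PvPt → Set ℂ} (door : ∀ᶠ ε in 𝓝[>] (0 : ℝ), zi = pvthZ (kit ε).δ z d l l.length ∧ di = pvthD d l l.length)
    (chain : ∀ᶠ ε in 𝓝[>] (0 : ℝ), ∀ Y : Set ℂ, (DelGood Y ∧ ∀ᵐ ω₂ ∂pvP ε, DelGood (Y \ (𝔎s ε).C ∪ cfSites ω₂ ∩ (𝔎s ε).C)) → ∀ (i : PvxnIx) (σ : ℂ → Bool), PvxnPA 𝔓 m π a (𝔎s ε) i Y σ →
      ∃ (fo fi : PvkeFun ℂ) (β' q qo qi : ℝ≥0∞), pvkeD (kit ε) (pvP ε) l.length q qo qi ≤ D ∧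
        ∀ σ' : ℂ → Bool, (∀ v ∈ Y, v ∈ i.F → σ' v = σ v) → (∀ v ∈ Y, v ∈ i.N → σ' v ≤ σ v) →
          PvkyChain (kit ε) ε b (X₀ ε) z d l (cfOf Y (pvjbC b σ')) (𝔎s ε).C (yf i) (eo ε (cfOf Y (pvjbC b σ'))) (ei ε (cfOf Y (pvjbC b σ'))) fo fi β' q qo qi)
    (enl : ∀ᶠ ε in 𝓝[>] (0 : ℝ), ∀ Y : Set ℂ, (DelGood Y ∧ ∀ᵐ ω₂ ∂pvP ε, DelGood (Y \ (𝔎s ε).C ∪ cfSites ω₂ ∩ (𝔎s ε).C)) → ∀ (i : PvxnIx) (σ : ℂ → Bool),
      PvxnPA 𝔓 m π a (𝔎s ε) i Y σ → PvxnPW 𝔓 m π a (𝔎s ε) i Y σ →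
      ∃ p₀ ∈ L, ∀ κ : ℂ → Bool, ∀ᵐ ω₂ ∂(pvP ε),
        pvdyR (𝔎s ε).C (yf i) (cfOf Y (pvjbC b σ)) (κ, ω₂) ∈ pvkyEv (kit ε) b z d l (eo ε (cfOf Y (pvjbC b σ))) (ei ε (cfOf Y (pvjbC b σ))) →
        pvdyR (𝔎s ε).C (fun _ => i.Nᶜ) (cfOf Y (pvjbC b σ)) (κ, ω₂) ∈ pvyjE kit b z d l eoR eiR ε p₀ ∧
        pvyjF kit b X₀ z d l eoR eiR ε p₀ (pvdyR (𝔎s ε).C (fun _ => i.Nᶜ) (cfOf Y (pvjbC b σ)) (κ, ω₂)) =
          pvkyYc (kit ε) b z d l (eo ε (cfOf Y (pvjbC b σ))) (ei ε (cfOf Y (pvjbC b σ))) (X₀ ε) (pvdyR (𝔎s ε).C (yf i) (cfOf Y (pvjbC b σ)) (κ, ω₂)) ∧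
        ∀ p ∈ L, p ≠ p₀ → pvdyR (𝔎s ε).C (fun _ => i.Nᶜ) (cfOf Y (pvjbC b σ)) (κ, ω₂) ∉ pvyjE kit b z d l eoR eiR ε p) :
    PvyjIn 𝔓 m π a 𝔎s kit b X₀ z d l zi di eo ei L eoR eiR D yf where
  door := door
  chain := by
    filter_upwards [chain] with ε h Y hY i σ hA _
    obtain ⟨fo, fi, β', q, qo, qi, hD, hch⟩ := h Y hY i σ hA
    exact ⟨fo, fi, β', q, qo, qi, hD, hch σ (fun _ _ _ => rfl) fun _ _ _ => le_rfl⟩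
  kst := by
    filter_upwards [door, chain] with ε h0 h Y hY i σ σ' hA k1 k2
    obtain ⟨fo, fi, β', q, qo, qi, -, hch⟩ := h Y hY i σ hA
    have H' := hch σ' k1 k2
    have H := hch σ (fun _ _ _ => rfl) fun _ _ _ => le_rfl
    rw [h0.1, h0.2, H'.K_out, H'.K_in, H.K_out, H.K_in]
    exact ⟨rfl, rfl⟩
  enl := enl

variable {yf : PvxnIx → Conf PvPt → Set ℂ}

/-- **THE FIELD `jen` OF `PvxnOk`, VERBATIM** -/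
theorem PvyjIn.jen (h : PvyjIn 𝔓 m π a 𝔎s kit b X₀ z d l zi di eo ei L eoR eiR D yf) :
    ∀ᶠ ε in 𝓝[>] (0 : ℝ), ∀ Y, (pvxnSys 𝔓 m π a (𝔎s ε) (pvyjYd kit b X₀ z d l zi di eo ei L eoR eiR D) ε).Ok Y → ∀ i σ, cfOf Y σ ∈ (pvxnSys 𝔓 m π a (𝔎s ε) (pvyjYd kit b X₀ z d l zi di eo ei L eoR eiR D) ε).A i →
      cfOf Y σ ∈ (pvxnSys 𝔓 m π a (𝔎s ε) (pvyjYd kit b X₀ z d l zi di eo ei L eoR eiR D) ε).WO i →
    ‖i.X + (pvyjYd kit b X₀ z d l zi di eo ei L eoR eiR D).yh ε i (cfOf Y σ)‖ₑ ^ 2 ≤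
      ∫⁻ κ, ∫⁻ ω₂, (pvyjYd kit b X₀ z d l zi di eo ei L eoR eiR D).w ε ((pvxnSys 𝔓 m π a (𝔎s ε) (pvyjYd kit b X₀ z d l zi di eo ei L eoR eiR D) ε).R i Y σ κ ω₂) *
        ‖i.X + (pvyjYd kit b X₀ z d l zi di eo ei L eoR eiR D).Y ε ((pvxnSys 𝔓 m π a (𝔎s ε) (pvyjYd kit b X₀ z d l zi di eo ei L eoR eiR D) ε).R i Y σ κ ω₂)‖ₑ ^ 2 ∂pvP ε ∂colLaw ℂ := by
  filter_upwards [h.door, h.chain, h.enl] with ε h0 h1 h2 Y hY i σ hA hW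
  have hA' := (pvxn_mem_A 𝔓 m π a (𝔎s ε) _).1 hA
  have hW' := (pvxn_mem_W 𝔓 m π a (𝔎s ε) _).1 hW
  obtain ⟨fo, fi, β', q, qo, qi, hD, H⟩ := h1 Y hY i σ hA' hW'
  obtain ⟨p₀, hp₀, enl⟩ := h2 Y hY i σ hA' hW'
  let G' : Conf PvPt → ℝ≥0∞ := fun η => (D * (pvyjU (pvyjE kit b z d l eoR eiR ε) L).indicator 1 η) *
    ‖i.X + pvyjPick (pvyjE kit b z d l eoR eiR ε) (pvyjF kit b X₀ z d l eoR eiR ε) L η‖ₑ ^ 2
  have key := pvyj_jen_base H hD i.Nᶜ i.X G' fun κ => by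
    filter_upwards [enl κ] with ω₂ hh hE
    obtain ⟨e1, e2, e3⟩ := hh hE
    refine le_of_eq ?_
    show _ = (D * (pvyjU (pvyjE kit b z d l eoR eiR ε) L).indicator 1 _) * ‖i.X + pvyjPick (pvyjE kit b z d l eoR eiR ε) (pvyjF kit b X₀ z d l eoR eiR ε) L _‖ₑ ^ 2
    rw [pvyj_pick_eq L hp₀ e1 e3, e2, indicator_of_mem (show _ ∈ pvyjU (pvyjE kit b z d l eoR eiR ε) L from ⟨p₀, hp₀, e1⟩)]
    simp only [Pi.one_apply, mul_one]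
  rw [H.hat_eq, ← h0.1, ← h0.2] at key
  simp_rw [pvdy_sys_R]
  show ‖i.X + (pvkyK (kit ε) ε b (eo ε (pvkyFl b (cfOf Y σ))) z d (pvkyFl b (cfOf Y σ)) + _ + pvkyK (kit ε) ε b (ei ε (pvkyFl b (cfOf Y σ))) zi di (pvkyFl b (cfOf Y σ)))‖ₑ ^ 2 ≤ _
  rw [pvjb_fl_cfOf]
  exact key

/-- **THE FIELD `yh_stab` OF `PvxnOk`, VERBATIM** -/
theorem PvyjIn.yh_stab (h : PvyjIn 𝔓 m π a 𝔎s kit b X₀ z d l zi di eo ei L eoR eiR D yf) :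
    ∀ᶠ ε in 𝓝[>] (0 : ℝ), ∀ Y, (pvxnSys 𝔓 m π a (𝔎s ε) (pvyjYd kit b X₀ z d l zi di eo ei L eoR eiR D) ε).Ok Y → ∀ i σ σ', cfOf Y σ ∈ (pvxnSys 𝔓 m π a (𝔎s ε) (pvyjYd kit b X₀ z d l zi di eo ei L eoR eiR D) ε).A i →
      (∀ z ∈ Y, z ∈ i.F → σ' z = σ z) → (∀ z ∈ Y, z ∈ i.N → σ' z ≤ σ z) →
      (pvyjYd kit b X₀ z d l zi di eo ei L eoR eiR D).yh ε i (cfOf Y σ') = (pvyjYd kit b X₀ z d l zi di eo ei L eoR eiR D).yh ε i (cfOf Y σ) := by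
  filter_upwards [h.kst] with ε h1 Y hY i σ σ' hA k1 k2
  obtain ⟨e1, e2⟩ := h1 Y hY i σ σ' ((pvxn_mem_A 𝔓 m π a (𝔎s ε) _).1 hA) k1 k2
  show pvkyK (kit ε) ε b (eo ε (pvkyFl b (cfOf Y σ'))) z d (pvkyFl b (cfOf Y σ')) + _ + pvkyK (kit ε) ε b (ei ε (pvkyFl b (cfOf Y σ'))) zi di (pvkyFl b (cfOf Y σ')) =
    pvkyK (kit ε) ε b (eo ε (pvkyFl b (cfOf Y σ))) z d (pvkyFl b (cfOf Y σ)) + _ + pvkyK (kit ε) ε b (ei ε (pvkyFl b (cfOf Y σ))) zi di (pvkyFl b (cfOf Y σ))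
  rw [pvjb_fl_cfOf, pvjb_fl_cfOf, e1, e2]

/-- **THE FIELD `mw` OF `PvxnOk`, VERBATIM**, from the measurability ON CONFIGURATIONS of the reference ends (free for the soft localisations of 251) -/
theorem pvyj_mw (hk : ∀ᶠ ε in 𝓝[>] (0 : ℝ), MeasurableSet (𝔎s ε).C ∧ (kit ε).WF ∧ (∀ p ∈ L, MeasurableSet (eoR ε p).A) ∧ ∀ p ∈ L, MeasurableSet (eiR ε p).A) :
    ∀ᶠ ε in 𝓝[>] (0 : ℝ), ∀ Y, (pvxnSys 𝔓 m π a (𝔎s ε) (pvyjYd kit b X₀ z d l zi di eo ei L eoR eiR D) ε).Ok Y → ∀ i σ, cfOf Y σ ∈ (pvxnSys 𝔓 m π a (𝔎s ε) (pvyjYd kit b X₀ z d l zi di eo ei L eoR eiR D) ε).A i →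
      cfOf Y σ ∈ (pvxnSys 𝔓 m π a (𝔎s ε) (pvyjYd kit b X₀ z d l zi di eo ei L eoR eiR D) ε).WO i →
      Measurable fun p : (ℂ → Bool) × Conf PvPt => (pvyjYd kit b X₀ z d l zi di eo ei L eoR eiR D).w ε ((pvxnSys 𝔓 m π a (𝔎s ε) (pvyjYd kit b X₀ z d l zi di eo ei L eoR eiR D) ε).R i Y σ p.1 p.2) := by
  filter_upwards [hk] with ε h Y hY i σ _ _
  have mR := (pvxnSys 𝔓 m π a (𝔎s ε) (pvyjYd kit b X₀ z d l zi di eo ei L eoR eiR D) ε).measurable_R h.1 hY.1.lf.countable i σ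
  exact (pvyj_w_meas h.2.1 h.2.2.1 h.2.2.2).comp mR

/-- **THE FIELD `mY` OF `PvxnOk`, VERBATIM** -/
theorem pvyj_mY (hk : ∀ᶠ ε in 𝓝[>] (0 : ℝ), MeasurableSet (𝔎s ε).C ∧ (kit ε).WF ∧ (kit ε).Fld (X₀ ε) ∧ (∀ p ∈ L, MeasurableSet (eoR ε p).A) ∧ (∀ p ∈ L, MeasurableSet (eiR ε p).A) ∧
      (∀ p ∈ L, Measurable (eoR ε p).X) ∧ ∀ p ∈ L, Measurable (eiR ε p).X) :
    ∀ᶠ ε in 𝓝[>] (0 : ℝ), ∀ Y, (pvxnSys 𝔓 m π a (𝔎s ε) (pvyjYd kit b X₀ z d l zi di eo ei L eoR eiR D) ε).Ok Y → ∀ i σ, cfOf Y σ ∈ (pvxnSys 𝔓 m π a (𝔎s ε) (pvyjYd kit b X₀ z d l zi di eo ei L eoR eiR D) ε).A i →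
      cfOf Y σ ∈ (pvxnSys 𝔓 m π a (𝔎s ε) (pvyjYd kit b X₀ z d l zi di eo ei L eoR eiR D) ε).WO i →
      Measurable fun p : (ℂ → Bool) × Conf PvPt => (pvyjYd kit b X₀ z d l zi di eo ei L eoR eiR D).Y ε ((pvxnSys 𝔓 m π a (𝔎s ε) (pvyjYd kit b X₀ z d l zi di eo ei L eoR eiR D) ε).R i Y σ p.1 p.2) := by
  filter_upwards [hk] with ε h Y hY i σ _ _
  have mR := (pvxnSys 𝔓 m π a (𝔎s ε) (pvyjYd kit b X₀ z d l zi di eo ei L eoR eiR D) ε).measurable_R h.1 hY.1.lf.countable i σ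
  exact (pvyj_Y_meas h.2.1 h.2.2.1 h.2.2.2.1 h.2.2.2.2.1 h.2.2.2.2.2.1 h.2.2.2.2.2.2).comp mR

/-- **the debts `PvdkY` of 104 at the `Y` side of record**, from (COL) + (CHAIN) AT EVERY INDEX of the family (= the hypotheses of `pvdk_Y_jb` at every `p`).      NO separation: `Y` is the closing sum at SOME index at which the chain event holds. -/
theorem pvyj_dkY {𝔎 : PvxnKit} {ε : ℝ} {η : Conf PvPt}
    (hcol : ∀ p ∈ L, pvkyFl b η ∈ pvkyEv (kit ε) b z d l (eoR ε p) (eiR ε p) → ∀ i 𝔇, PvdfPr 𝔓 m π a 𝔎 η i 𝔇 → ∀ y, 𝔇.YArc Subtype.val (𝔓.reg m π) (pvdfCol η) y → 𝔇.Col Subtype.val (𝔓.reg m π))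
    (hch : ∀ p ∈ L, pvkyFl b η ∈ pvkyEv (kit ε) b z d l (eoR ε p) (eiR ε p) → ∀ i 𝔇, PvdfPr 𝔓 m π a 𝔎 η i 𝔇 →
      ∃ y, 𝔇.YArc Subtype.val (𝔓.reg m π) (pvdfCol η) y ∧
        pvkyYc (kit ε) b z d l (eoR ε p) (eiR ε p) (X₀ ε) (pvkyFl b η) = 𝔇.Yof Subtype.val (pvxnFd (cfSites η) a) 𝔓.num (pvlmH m) (𝔓.reg m π) y) :
    PvdkY 𝔓 m π a 𝔎 (pvyjYd kit b X₀ z d l zi di eo ei L eoR eiR D) ε η := by
  refine ⟨fun _ _ => pvyj_w_le ε η, fun hw => ?_, fun hw i 𝔇 hP => ?_⟩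
  · obtain ⟨p, hp, hE⟩ := pvyj_w_ne hw
    exact hcol p hp hE
  · obtain ⟨p, hp, hE, e⟩ := pvyj_pick_spec (F := pvyjF kit b X₀ z d l eoR eiR ε) L (pvyj_w_ne hw)
    obtain ⟨y, hy, e2⟩ := hch p hp hE i 𝔇 hP
    exact ⟨y, hy, e.trans e2⟩

/-- **THE FIELD `dom` OF `PvxnOk` AT THE `Y` SIDE OF RECORD, VERBATIM**: kits with the clauses of record (104) + (COL) + (CHAIN) at every index of the family -/
theorem pvyj_dom {x : ℂ} {R : ℝ} (ha : 2 ≤ (𝔓.reg m π).ts.a) (hK : ∀ᶠ ε in 𝓝[>] (0 : ℝ), PvdkKit 𝔓 x R m π (𝔎s ε))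
    (hcol : ∀ p ∈ L, ∀ᶠ ε in 𝓝[>] (0 : ℝ), ∀ᵐ η ∂pvP ε, pvkyFl b η ∈ pvkyEv (kit ε) b z d l (eoR ε p) (eiR ε p) → ∀ i 𝔇, PvdfPr 𝔓 m π a (𝔎s ε) η i 𝔇 →
      ∀ y, 𝔇.YArc Subtype.val (𝔓.reg m π) (pvdfCol η) y → 𝔇.Col Subtype.val (𝔓.reg m π))
    (hch : ∀ p ∈ L, ∀ᶠ ε in 𝓝[>] (0 : ℝ), ∀ᵐ η ∂pvP ε, pvkyFl b η ∈ pvkyEv (kit ε) b z d l (eoR ε p) (eiR ε p) → ∀ i 𝔇, PvdfPr 𝔓 m π a (𝔎s ε) η i 𝔇 →
      ∃ y, 𝔇.YArc Subtype.val (𝔓.reg m π) (pvdfCol η) y ∧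
        pvkyYc (kit ε) b z d l (eoR ε p) (eiR ε p) (X₀ ε) (pvkyFl b η) = 𝔇.Yof Subtype.val (pvxnFd (cfSites η) a) 𝔓.num (pvlmH m) (𝔓.reg m π) y) :
    ∀ᶠ ε in 𝓝[>] (0 : ℝ), ∀ᵐ ω ∂pvP ε, ∑' i, ((pvxnSys 𝔓 m π a (𝔎s ε) (pvyjYd kit b X₀ z d l zi di eo ei L eoR eiR D) ε).A i ∩ (pvxnSys 𝔓 m π a (𝔎s ε) (pvyjYd kit b X₀ z d l zi di eo ei L eoR eiR D) ε).WO i).indicator
        (fun ω => (pvyjYd kit b X₀ z d l zi di eo ei L eoR eiR D).w ε ω * ‖i.X + (pvyjYd kit b X₀ z d l zi di eo ei L eoR eiR D).Y ε ω‖ₑ ^ 2) ω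
      ≤ (pvyjYd kit b X₀ z d l zi di eo ei L eoR eiR D).D * pvclSum ω (𝔎s ε).B (pvlmH m) := by
  refine pvdk_dom ha hK ?_
  have h1 : ∀ᶠ ε in 𝓝[>] (0 : ℝ), ∀ p ∈ L, ∀ᵐ η ∂pvP ε, pvkyFl b η ∈ pvkyEv (kit ε) b z d l (eoR ε p) (eiR ε p) → ∀ i 𝔇, PvdfPr 𝔓 m π a (𝔎s ε) η i 𝔇 →
      ∀ y, 𝔇.YArc Subtype.val (𝔓.reg m π) (pvdfCol η) y → 𝔇.Col Subtype.val (𝔓.reg m π) :=
    (eventually_all_finite (List.finite_toSet L)).2 hcol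
  have h2 : ∀ᶠ ε in 𝓝[>] (0 : ℝ), ∀ p ∈ L, ∀ᵐ η ∂pvP ε, pvkyFl b η ∈ pvkyEv (kit ε) b z d l (eoR ε p) (eiR ε p) → ∀ i 𝔇, PvdfPr 𝔓 m π a (𝔎s ε) η i 𝔇 →
      ∃ y, 𝔇.YArc Subtype.val (𝔓.reg m π) (pvdfCol η) y ∧
        pvkyYc (kit ε) b z d l (eoR ε p) (eiR ε p) (X₀ ε) (pvkyFl b η) = 𝔇.Yof Subtype.val (pvxnFd (cfSites η) a) 𝔓.num (pvlmH m) (𝔓.reg m π) y :=
    (eventually_all_finite (List.finite_toSet L)).2 hch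
  filter_upwards [h1, h2] with ε k1 k2
  have k1' := (ae_ball_iff (List.finite_toSet L).countable).2 k1
  have k2' := (ae_ball_iff (List.finite_toSet L).countable).2 k2
  filter_upwards [k1', k2'] with η j1 j2
  exact pvyj_dkY j1 j2

/-- **THE FIELD `dom` OF `Pvn1aY` AT THE `Y` SIDE OF RECORD, VERBATIM, THROUGH `pvdk_dom_gm` OF 104** (kits `E ⟹ NBon M`, guard `S`): (CELL) and (CHAIN) are asked at the configurations of the guard ON THE CHAIN EVENT of an index of the family,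
for the present data of the UNGUARDED kit -/
theorem pvyj_dom_gm {x : ℂ} {R : ℝ} {Ms : ℝ → ∀ Y : Set ℂ, PvwDat (delbPl Y).toMap → Set ↥Y} {S : ℝ → Set (Conf PvPt)} (hW : 𝔓.Wf) (hb : ∀ t, (𝔓.ty t).b ≤ 2 * (𝔓.ty t).b2)
    (hπ : π ∈ pvxPatSet 𝔓 x R m) (ha : 2 ≤ (𝔓.reg m π).ts.a) (hK : ∀ᶠ ε in 𝓝[>] (0 : ℝ), PvdkCm 𝔓 x R m π (𝔎s ε) (Ms ε))
    (hmesh : ∀ᶠ ε in 𝓝[>] (0 : ℝ), ∃ μ R' : ℝ, 0 ≤ μ ∧ μ < R' ∧ 2 * μ ≤ pvlmH m ∧ ∀ η ∈ S ε,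
      VorDense (cfSites η) (Metric.closedBall π.p.zs (𝔓.num.m * pvlmH m + R')) μ ∧ VorDense (cfSites η) (Metric.closedBall π.p.zt (𝔓.num.m * pvlmH m + R')) μ)
    (hcell : ∀ p ∈ L, ∀ᶠ ε in 𝓝[>] (0 : ℝ), ∀ᵐ η ∂pvP ε, η ∈ S ε → pvkyFl b η ∈ pvkyEv (kit ε) b z d l (eoR ε p) (eiR ε p) → ∀ i 𝔇, PvdfPr 𝔓 m π a (𝔎s ε) η i 𝔇 →
      ∀ y, 𝔇.YArc Subtype.val (𝔓.reg m π) (pvdfCol η) y → ∀ (q : (delbPl (cfSites η)).toMap.Pth) (hg : 𝔇.g.Glue q), 𝔇.IsShield Subtype.val (𝔓.reg m π) (pvdfCol η) q → ∀ v : ↥(cfSites η), ‖(v : ℂ) - x‖ ≤ 6 * R →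
        v ∈ (delbPl (cfSites η)).toMap.Int (𝔇.g.glue q hg).Right → v ∈ Ms ε _ 𝔇)
    (hch : ∀ p ∈ L, ∀ᶠ ε in 𝓝[>] (0 : ℝ), ∀ᵐ η ∂pvP ε, η ∈ S ε → pvkyFl b η ∈ pvkyEv (kit ε) b z d l (eoR ε p) (eiR ε p) → ∀ i 𝔇, PvdfPr 𝔓 m π a (𝔎s ε) η i 𝔇 →
      ∃ y, 𝔇.YArc Subtype.val (𝔓.reg m π) (pvdfCol η) y ∧
        pvkyYc (kit ε) b z d l (eoR ε p) (eiR ε p) (X₀ ε) (pvkyFl b η) = 𝔇.Yof Subtype.val (pvxnFd (cfSites η) a) 𝔓.num (pvlmH m) (𝔓.reg m π) y) :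
    ∀ᶠ ε in 𝓝[>] (0 : ℝ), ∀ᵐ ω ∂pvP ε, ∑' i, ((pvxnSys 𝔓 m π a ((𝔎s ε).guard (S ε)) (pvyjYd kit b X₀ z d l zi di eo ei L eoR eiR D) ε).A i ∩
        (pvxnSys 𝔓 m π a ((𝔎s ε).guard (S ε)) (pvyjYd kit b X₀ z d l zi di eo ei L eoR eiR D) ε).WO i).indicator
        (fun ω => (pvyjYd kit b X₀ z d l zi di eo ei L eoR eiR D).w ε ω * ‖i.X + (pvyjYd kit b X₀ z d l zi di eo ei L eoR eiR D).Y ε ω‖ₑ ^ 2) ω
      ≤ (pvyjYd kit b X₀ z d l zi di eo ei L eoR eiR D).D * pvclSum ω (𝔎s ε).B (pvlmH m) := by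
  refine pvdk_dom_gm hW hb hπ ha hK hmesh (Eventually.of_forall fun ε => Eventually.of_forall fun η => pvyj_w_le ε η) ?_ ?_
  · filter_upwards [(eventually_all_finite (List.finite_toSet L)).2 hcell] with ε k1
    filter_upwards [(ae_ball_iff (List.finite_toSet L).countable).2 k1] with η j1 hS hw
    obtain ⟨p, hp, hE⟩ := pvyj_w_ne hw
    exact j1 p hp hS hE
  · filter_upwards [(eventually_all_finite (List.finite_toSet L)).2 hch] with ε k1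
    filter_upwards [(ae_ball_iff (List.finite_toSet L).countable).2 k1] with η j1 hS hw i 𝔇 hP
    obtain ⟨p, hp, hE, e⟩ := pvyj_pick_spec (F := pvyjF kit b X₀ z d l eoR eiR ε) L (pvyj_w_ne hw)
    obtain ⟨y, hy, e2⟩ := j1 p hp hS hE i 𝔇 hP
    exact ⟨y, hy, e.trans e2⟩

end contract

/-! ## 4b. the contract from BLIND ENDS (141, `Tr/Blind`) -/

/-- **WHAT ONE BASE OWES** (ACTUAL vocabulary: sites `Y`, colouring `σ`; `iF`, `iN` = frozen and read sites of the index).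
* `ch`     the record of 218 at the base, in the experiment `(C, yf)` (small: the fresh sites of the two mouths): `pvkyi_chain`
* `Bo Bi`  the two ends at the base data are BLIND ENDS of 141 (`pvbq_end'`: generic geometry + `PvbqPlain`), frozen positions `Fo`, `Fi`
* `bo bi`  (POCKETS: flag of 170 N1-A (4), cure of 218 `Tr/Irr` sec. 8) the fresh sites of a mouth may lie in `iN`: the ends are blind at the SMALLER fresh sets `e.y \ iN` (`pvkyr_end_pk`: ONE plain debt `PvbqPlain` at `e.y \ iN` gives `Bo` and `bo`)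
* `Fo_sub Fi_sub`  the frozen positions of the two half states are frozen sites of the datum;   `fr_o fr_i`  they are not recoloured
* `base`   the base data do not move when the colours off the frozen sites of the datum move (D6: 255 `pvkfl_base_out`, `_in`)
* `rA ..`  the ends at the base data have the success events and the values of the reference ends -/
structure PvyjBs (C : Set ℂ) (kit : PvthKit) (ε : ℝ) (b : Bool) (X₀ : PvtTurn → Conf PvPt → ℂ) (z d : ℂ) (l : List PvtTurn) (eo ei : Conf PvPt → PvkyEnd) (D : ℝ≥0∞) (yf : Conf PvPt → Set ℂ)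
    (eoR eiR : PvkyEnd) (iF iN Y : Set ℂ) (σ : ℂ → Bool) (Fo Fi : Set ℂ) (fo fi : PvkeFun ℂ) (β' q qo qi : ℝ≥0∞) : Prop where
  hD : pvkeD kit (pvP ε) l.length q qo qi ≤ D
  ch : PvkyChain kit ε b X₀ z d l (cfOf Y σ) C yf (eo (cfOf Y σ)) (ei (cfOf Y σ)) fo fi β' q qo qi
  Bo : PvbqEnd ε C (pvkyDoor kit z d) (eo (cfOf Y σ)) Y Fo σ
  Bi : PvbqEnd ε C (pvkyDoor kit (pvthZ kit.δ z d l l.length) (pvthD d l l.length)) (ei (cfOf Y σ)) Y Fi σ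
  Fo_sub : ∀ v ∈ Y, v ∈ Fo → v ∈ iF
  Fi_sub : ∀ v ∈ Y, v ∈ Fi → v ∈ iF
  fr_o : ∀ v ∈ Y, v ∈ Fo → v ∉ yf (cfOf Y σ)
  fr_i : ∀ v ∈ Y, v ∈ Fi → v ∉ yf (cfOf Y σ)
  bo : PvbqBlind ε C (eo (cfOf Y σ)).A (eo (cfOf Y σ)).X Y Fo ((eo (cfOf Y σ)).y (cfOf Y σ) \ iN) σ
  bi : PvbqBlind ε C (ei (cfOf Y σ)).A (ei (cfOf Y σ)).X Y Fi ((ei (cfOf Y σ)).y (cfOf Y σ) \ iN) σ
  base : ∀ σ' : ℂ → Bool, (∀ v ∈ Y, v ∈ iF → σ' v = σ v) → eo (cfOf Y σ') = eo (cfOf Y σ) ∧ ei (cfOf Y σ') = ei (cfOf Y σ) ∧ yf (cfOf Y σ') = yf (cfOf Y σ)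
  rAo : (eo (cfOf Y σ)).A = eoR.A
  rXo : (eo (cfOf Y σ)).X = eoR.X
  rAi : (ei (cfOf Y σ)).A = eiR.A
  rXi : (ei (cfOf Y σ)).X = eiR.X

section blind

variable {τ : Type} {c : ℝ} {𝔓 : PvxPar τ c} {m : ℕ} {π : PvxIx τ} {a : ℂ} {𝔎s : ℝ → PvxnKit}
  {kit : ℝ → PvthKit} {b : Bool} {X₀ : ℝ → PvtTurn → Conf PvPt → ℂ} {z d : ℂ} {l : List PvtTurn} {zi di : ℂ} {eo ei : ℝ → Conf PvPt → PvkyEnd}
  {J : Type} {L : List J} {eoR eiR : ℝ → J → PvkyEnd} {D : ℝ≥0∞} {yf : PvxnIx → Conf PvPt → Set ℂ}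

/-- the frozen sites of an index are read sites -/
theorem pvyj_F_sub_N {𝔎 : PvxnKit} {i : PvxnIx} {Y : Set ℂ} {σ : ℂ → Bool} (h : PvxnPA 𝔓 m π a 𝔎 i Y σ) : i.F ⊆ i.N := by
  obtain ⟨-, ⟨𝔇, hW, -⟩, -⟩ := h
  rw [← hW.labF, ← hW.labN]
  exact image_mono hW.sub

theorem pvyj_C_eq {b : Bool} {σ σ' : ℂ → Bool} {v : ℂ} (h : σ' v = σ v) : pvjbC b σ' v = pvjbC b σ v := by
  unfold pvjbC
  rw [h]

/-- **THE CONTRACT FROM BLIND ENDS**: at every present datum the base owes `PvyjBs`;   the family of the reference ends has ONE member -/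
theorem PvyjIn.of_blind (door : ∀ᶠ ε in 𝓝[>] (0 : ℝ), zi = pvthZ (kit ε).δ z d l l.length ∧ di = pvthD d l l.length) (mC : ∀ᶠ ε in 𝓝[>] (0 : ℝ), MeasurableSet (𝔎s ε).C)
    (hB : ∀ᶠ ε in 𝓝[>] (0 : ℝ), ∀ Y : Set ℂ, (DelGood Y ∧ ∀ᵐ ω₂ ∂pvP ε, DelGood (Y \ (𝔎s ε).C ∪ cfSites ω₂ ∩ (𝔎s ε).C)) → ∀ (i : PvxnIx) (σ : ℂ → Bool), PvxnPA 𝔓 m π a (𝔎s ε) i Y σ →
      ∃ (Fo Fi : Set ℂ) (fo fi : PvkeFun ℂ) (β' q qo qi : ℝ≥0∞), ∃ p₀ ∈ L, (∀ p ∈ L, p = p₀) ∧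
        PvyjBs (𝔎s ε).C (kit ε) ε b (X₀ ε) z d l (eo ε) (ei ε) D (yf i) (eoR ε p₀) (eiR ε p₀) i.F i.N Y (pvjbC b σ) Fo Fi fo fi β' q qo qi) :
    PvyjIn 𝔓 m π a 𝔎s kit b X₀ z d l zi di eo ei L eoR eiR D yf where
  door := door
  chain := by
    filter_upwards [hB] with ε h Y hY i σ hA _
    obtain ⟨Fo, Fi, fo, fi, β', q, qo, qi, p₀, -, -, B⟩ := h Y hY i σ hA
    exact ⟨fo, fi, β', q, qo, qi, B.hD, B.ch⟩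
  kst := by
    filter_upwards [door, mC, hB] with ε h0 hC h Y hY i σ σ' hA k1 _
    obtain ⟨Fo, Fi, fo, fi, β', q, qo, qi, p₀, -, -, B⟩ := h Y hY i σ hA
    obtain ⟨e1, e2, e3⟩ := B.base (pvjbC b σ') fun v hv hF => pvyj_C_eq (k1 v hv hF)
    have H' : PvkyChain (kit ε) ε b (X₀ ε) z d l (cfOf Y (pvjbC b σ')) (𝔎s ε).C (yf i) (eo ε (cfOf Y (pvjbC b σ))) (ei ε (cfOf Y (pvjbC b σ))) fo fi β' q qo qi :=
      B.ch.pvbq_all hC hY.1.lf.countable B.Bo B.Bi (fun v hv hF => pvyj_C_eq (k1 v hv (B.Fo_sub v hv hF))) (fun v hv hF => pvyj_C_eq (k1 v hv (B.Fi_sub v hv hF)))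
        B.fr_o (by rw [e3]; exact B.fr_o) B.fr_i (by rw [e3]; exact B.fr_i) (by rw [e3]; exact B.ch.ag_o.ysub) (by rw [e3]; exact B.ch.ag_i.ysub)
    obtain ⟨k3, k4⟩ := B.ch.pvbq_K H'
    rw [e1, e2, h0.1, h0.2]
    exact ⟨k3, k4⟩
  enl := by
    filter_upwards [hB] with ε h Y hY i σ hA _
    obtain ⟨Fo, Fi, fo, fi, β', q, qo, qi, p₀, hp₀, hL, B⟩ := h Y hY i σ hA
    have hFN := pvyj_F_sub_N hA
    refine ⟨p₀, hp₀, fun κ => ?_⟩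
    have key := B.ch.pvkyr_enl (σ' := pvjbC b σ) (yf' := fun _ => i.Nᶜ) B.bo B.bi (fun _ _ _ => rfl) (fun _ _ _ => rfl) B.fr_o (fun v hv hF hn => hn (hFN (B.Fo_sub v hv hF)))
      B.fr_i (fun v hv hF hn => hn (hFN (B.Fi_sub v hv hF))) (fun v _ hv => B.ch.ag_o.ysub hv.1) (fun v _ hv => hv.2) (fun v _ hv => B.ch.ag_i.ysub hv.1) (fun v _ hv => hv.2) κ
    have eE := pvjb_Ev_congr (kit ε) b z d l B.rAo B.rAi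
    have eY := pvjb_Yc_congr (kit ε) b z d l (X₀ ε) B.rXo B.rXi
    filter_upwards [key] with ω₂ hk hE
    refine ⟨?_, ?_, fun p hp hne => absurd (hL p hp) hne⟩
    · show _ ∈ pvkyEv (kit ε) b z d l (eoR ε p₀) (eiR ε p₀)
      rw [← eE]
      exact hk.1.1 hE
    · show pvkyYc (kit ε) b z d l (eoR ε p₀) (eiR ε p₀) (X₀ ε) _ = _
      rw [← eY]
      exact hk.2.symm

end blind

/-! ## 5. the contract `Pvn1aY` of 159 -/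

section roof

variable {τ : Type} {c : ℝ} {𝔓 : PvxPar τ c} {x : ℂ} {R : ℝ} {m : ℕ} {π : PvxIx τ} {a : ℂ} {𝔎s : ℝ → PvxnKit} {Γs : ℝ → PVSample → Prop} {μ : ℝ} {S : ℝ → Set (Conf PvPt)}
  {kit : ℝ → PvthKit} {X₀ : ℝ → PvtTurn → Conf PvPt → ℂ} {z d : ℂ} {l : List PvtTurn} {zi di : ℂ} {eo ei : ℝ → Conf PvPt → PvkyEnd}
  {J : Type} {L : List J} {eoR eiR : ℝ → J → PvkyEnd} {D : ℝ≥0∞} {yf : PvxnIx → Conf PvPt → Set ℂ}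

/-- **THE `Y` SIDE OF N1' = `Pvn1aY` OF 159, VERBATIM**, at the `Y` side of record, `K := κ_out + cell means + κ_in`.
* `hI`    the contract AT THE GUARDED KITS      * `hm`  measurability on configurations      * `hdom`  the line `dom` (`pvyj_dom_gm`: route of 104 `Tr/DomEN`;   `pvyj_dom` + `pvn1a_dom`: route `PvdkKit`) -/
theorem pvyj_Y (hD : D ≠ ⊤) (hI : PvyjIn 𝔓 m π a (fun ε => (𝔎s ε).guard (S ε)) kit (𝔓.col π.p.ts) X₀ z d l zi di eo ei L eoR eiR D yf)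
    (hm : ∀ᶠ ε in 𝓝[>] (0 : ℝ), MeasurableSet (𝔎s ε).C ∧ (kit ε).WF ∧ (kit ε).Fld (X₀ ε) ∧ (∀ p ∈ L, MeasurableSet (eoR ε p).A) ∧ (∀ p ∈ L, MeasurableSet (eiR ε p).A) ∧
      (∀ p ∈ L, Measurable (eoR ε p).X) ∧ ∀ p ∈ L, Measurable (eiR ε p).X)
    (hdom : ∀ᶠ ε in 𝓝[>] (0 : ℝ), ∀ᵐ ω ∂pvP ε, ∑' i, ((pvxnSys 𝔓 m π a ((𝔎s ε).guard (S ε)) (pvyjYd kit (𝔓.col π.p.ts) X₀ z d l zi di eo ei L eoR eiR D) ε).A i ∩
        (pvxnSys 𝔓 m π a ((𝔎s ε).guard (S ε)) (pvyjYd kit (𝔓.col π.p.ts) X₀ z d l zi di eo ei L eoR eiR D) ε).WO i).indicator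
        (fun ω => (pvyjYd kit (𝔓.col π.p.ts) X₀ z d l zi di eo ei L eoR eiR D).w ε ω * ‖i.X + (pvyjYd kit (𝔓.col π.p.ts) X₀ z d l zi di eo ei L eoR eiR D).Y ε ω‖ₑ ^ 2) ω
      ≤ (pvyjYd kit (𝔓.col π.p.ts) X₀ z d l zi di eo ei L eoR eiR D).D * pvclSum ω (𝔎s ε).B (pvlmH m)) :
    Pvn1aY 𝔓 x R m π a (pvyjYd kit (𝔓.col π.p.ts) X₀ z d l zi di eo ei L eoR eiR D) 𝔎s Γs μ S fun ε ω =>
      pvkyK (kit ε) ε (𝔓.col π.p.ts) (eo ε (pvConf ω)) z d (pvConf ω) + pvtSum ((kit ε).W (pvP ε) (X₀ ε)) d l + pvkyK (kit ε) ε (𝔓.col π.p.ts) (ei ε (pvConf ω)) zi di (pvConf ω) where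
  D1 := hD
  yh_stab := hI.yh_stab
  mw := pvyj_mw (𝔎s := fun ε => (𝔎s ε).guard (S ε)) (hm.mono fun ε h => ⟨h.1, h.2.1, h.2.2.2.1, h.2.2.2.2.1⟩)
  mY := pvyj_mY (𝔎s := fun ε => (𝔎s ε).guard (S ε)) hm
  jen := hI.jen
  dom := hdom
  mean := Eventually.of_forall fun ε ω i _ _ => pvyj_yh_act kit (𝔓.col π.p.ts) X₀ z d l zi di eo ei L eoR eiR D ε i (pvConf ω)

end roof

/-! ## 6. THE INSTANCE at the names of `Tr/InstL` v2.1 -/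

section model

variable {τ : Type} {c : ℝ} (𝔓 : PvxPar τ c) (𝔈 : PvieEng τ)

/-- **the family of the possible base data of a pattern**.      `Tr/InstL` v2.2: the hull of record is a function of the pattern again (`exit_pvn1a_hull`): ONE pair, the hulls of the index -/
def pvyjL (π : PvxIx τ) : List (Finset (ℤ × ℤ) × Finset (ℤ × ℤ)) := [(π.Zt, π.Zs)]

/-- the first link at the cells `p.1` -/
noncomputable def pvyjEoR (m : ℕ) (π : PvxIx τ) (ε : ℝ) (p : Finset (ℤ × ℤ) × Finset (ℤ × ℤ)) : PvkyEnd := pvilEo 𝔓 𝔈 m ε pvilQ π.p.zt π.p.tt ↑p.1 ∅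

/-- the last link at the cells `p.2` -/
noncomputable def pvyjEiR (m : ℕ) (π : PvxIx τ) (ε : ℝ) (p : Finset (ℤ × ℤ) × Finset (ℤ × ℤ)) : PvkyEnd := pvilEi 𝔓 𝔈 m ε pvilQ π.p.zs π.p.ts ↑p.2 ∅

/-- **THE `Y` SIDE OF RECORD OF N1' FOR THE PATTERN `π`** -/
noncomputable def pvyjYdL (m : ℕ) (π : PvxIx τ) (D : ℝ≥0∞) : PvxnYd :=
  pvyjYd (𝔈.kit m) (𝔓.col π.p.ts) (𝔈.XQ m) (pvieZo 𝔓 m π.p.zt π.p.tt) ((𝔓.Γ m).dout π.p.tt) π.p.l (pvieZi 𝔓 m π.p.zs π.p.ts) ((𝔓.Γ m).din π.p.ts)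
    (fun ε η₀ => pvilEoAt 𝔓 𝔈 m ε pvilQ π.p.zt π.p.tt η₀) (fun ε η₀ => pvilEiAt 𝔓 𝔈 m ε pvilQ π.p.zs π.p.ts η₀) (pvyjL π) (pvyjEoR 𝔓 𝔈 m π) (pvyjEiR 𝔓 𝔈 m π) D

/-- **THE CONTRACT AT THE NAMES OF RECORD** -/
def PvyjInL (m : ℕ) (π : PvxIx τ) (𝔎s : ℝ → PvxnKit) (D : ℝ≥0∞) (yf : PvxnIx → Conf PvPt → Set ℂ) : Prop :=
  PvyjIn 𝔓 m π 0 𝔎s (𝔈.kit m) (𝔓.col π.p.ts) (𝔈.XQ m) (pvieZo 𝔓 m π.p.zt π.p.tt) ((𝔓.Γ m).dout π.p.tt) π.p.l (pvieZi 𝔓 m π.p.zs π.p.ts) ((𝔓.Γ m).din π.p.ts)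
    (fun ε η₀ => pvilEoAt 𝔓 𝔈 m ε pvilQ π.p.zt π.p.tt η₀) (fun ε η₀ => pvilEiAt 𝔓 𝔈 m ε pvilQ π.p.zs π.p.ts η₀) (pvyjL π) (pvyjEoR 𝔓 𝔈 m π) (pvyjEiR 𝔓 𝔈 m π) D yf

theorem pvyj_eqns_cite3 : True := by
  have := @pvyjL.eq_1; have := @pvyjEoR.eq_1; have := @pvyjEiR.eq_1; have := @pvyjYdL.eq_1; have := @PvyjInL.eq_1
  trivial

variable {𝔓 𝔈}

theorem pvyj_mem_L {π : PvxIx τ} {p : Finset (ℤ × ℤ) × Finset (ℤ × ℤ)} : p ∈ pvyjL π ↔ p = (π.Zt, π.Zs) := List.mem_singleton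

/-- the number of the Hub is `ŷ` on the actual sample -/
theorem pvyj_K_eq {m : ℕ} {π : PvxIx τ} (hc : 𝔓.col π.p.ts = 𝔓.col π.p.tt) :
    (fun (ε : ℝ) (ω : PVSample) => pvkyK (𝔈.kit m ε) ε (𝔓.col π.p.ts) (pvilEoAt 𝔓 𝔈 m ε pvilQ π.p.zt π.p.tt (pvConf ω)) (pvieZo 𝔓 m π.p.zt π.p.tt) ((𝔓.Γ m).dout π.p.tt) (pvConf ω) +
      pvtSum ((𝔈.kit m ε).W (pvP ε) (𝔈.XQ m ε)) ((𝔓.Γ m).dout π.p.tt) π.p.l +
      pvkyK (𝔈.kit m ε) ε (𝔓.col π.p.ts) (pvilEiAt 𝔓 𝔈 m ε pvilQ π.p.zs π.p.ts (pvConf ω)) (pvieZi 𝔓 m π.p.zs π.p.ts) ((𝔓.Γ m).din π.p.ts) (pvConf ω)) = pvnaK 𝔓 (pvnaDatE 𝔓 𝔈) m π.p := by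
  funext ε ω
  show _ = pvkyK (𝔈.kit m ε) ε (𝔓.col π.p.tt) (pvilEoAt 𝔓 𝔈 m ε pvilQ π.p.zt π.p.tt (pvConf ω)) (pvieZo 𝔓 m π.p.zt π.p.tt) ((𝔓.Γ m).dout π.p.tt) (pvConf ω) +
      pvtSum ((𝔈.kit m ε).W (pvP ε) (𝔈.XQ m ε)) ((𝔓.Γ m).dout π.p.tt) π.p.l +
      pvkyK (𝔈.kit m ε) ε (𝔓.col π.p.ts) (pvilEiAt 𝔓 𝔈 m ε pvilQ π.p.zs π.p.ts (pvConf ω)) (pvieZi 𝔓 m π.p.zs π.p.ts) ((𝔓.Γ m).din π.p.ts) (pvConf ω)
  rw [hc]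

/-- the cell kit of the engine, eventually: the record of 52 for `Q`, with constants which depend neither on `ε` nor on the level -/
theorem pvyj_kit_ok (hE : PvnaWf 𝔓 𝔈) : ∃ (β' q : ℝ≥0∞) (CB : ℝ), ∀ m, ∀ᶠ ε in 𝓝[>] (0 : ℝ), ∃ r : ℝ, PvcnOkQ (𝔈.kit m ε) ε (𝔈.XQ m ε) β' q (ENNReal.ofReal (CB * pvlmDel c m ^ 2)) r := by
  obtain ⟨U, hU⟩ := hE.num
  refine ⟨U.β', U.q, U.CB, fun m => ?_⟩
  filter_upwards [(U.fam (pvlm_Del_pos c)).ok m] with ε H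
  rw [hU.kit, hU.XQ]
  exact ⟨_, H.toQ⟩

theorem pvyj_fat_meas (δ : ℝ) (Z : Set (ℤ × ℤ)) : MeasurableSet (pvilFat δ Z) :=
  MeasurableSet.biUnion (Set.to_countable _) fun _ _ => pvt_sq_closed.measurableSet

theorem pvyj_sq_meas (z : ℂ) (r : ℝ) : MeasurableSet (pvwSq z r) := by
  have h1 : Measurable fun w : ℂ => |(w - z).re| := (Complex.measurable_re.comp (measurable_id.sub_const z)).norm
  have h2 : Measurable fun w : ℂ => |(w - z).im| := (Complex.measurable_im.comp (measurable_id.sub_const z)).norm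
  exact (measurableSet_le h1 measurable_const).inter (measurableSet_le h2 measurable_const)

theorem pvyj_Wz_meas (m : ℕ) (z : ℂ) (t : τ) (Z : Set (ℤ × ℤ)) : MeasurableSet (pvilWz 𝔓 m z t Z) := (pvyj_fat_meas _ Z).inter (pvyj_sq_meas _ _)

/-- the window of the first link is Borel -/
theorem pvyj_Wno_meas {m : ℕ} {ε : ℝ} (hk : (𝔈.kit m ε).WF) (hM : ∀ t, MeasurableSet (𝔈.oM m t)) (hK : ∀ t, MeasurableSet (𝔈.oK m t)) (z : ℂ) (t : τ) (Z : Set (ℤ × ℤ)) :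
    MeasurableSet (pvilWno 𝔓 𝔈 m ε z t Z) :=
  (((pvyj_Wz_meas m z t Z).union (pvnm_sh z (hM t))).union (pvnm_sh z (hK t))).union (pvnm_door 𝔈 hk _ (pvth_ne_zero ((𝔓.Γ m).dout1 t)))

/-- the window of the last link is Borel -/
theorem pvyj_Wni_meas {m : ℕ} {ε : ℝ} (hk : (𝔈.kit m ε).WF) (hM : ∀ t, MeasurableSet (𝔈.iM m t)) (hK : ∀ t, MeasurableSet (𝔈.iK m t)) (z : ℂ) {t : τ} (hd : (𝔓.Γ m).din t ≠ 0) (Z : Set (ℤ × ℤ)) :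
    MeasurableSet (pvilWni 𝔓 𝔈 m ε z t Z) :=
  (((pvyj_Wz_meas m z t Z).union (pvnm_sh z (hM t))).union (pvnm_sh z (hK t))).union (pvnm_door 𝔈 hk _ hd)

theorem pvyj_fin_meas {Z : Set (ℤ × ℤ)} {A : Set (Conf PvPt)} (hA : MeasurableSet A) : MeasurableSet (pvilFin Z A) := by
  classical
  unfold pvilFin
  split_ifs
  · exact hA
  · exact MeasurableSet.empty

theorem pvyj_SA_meas (ε : ℝ) {Wn : Set ℂ} (hW : MeasurableSet Wn) (M : Set (Conf PvPt)) (F : Conf PvPt → ℂ) : MeasurableSet (pvilSA ε Wn M F) := by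
  have := (pv_isPpp ε).prob
  exact pvsu_sure_measurable (hW.prod MeasurableSet.univ) _

theorem pvyj_Loc_meas (ε : ℝ) {Wn : Set ℂ} (hW : MeasurableSet Wn) (M : Set (Conf PvPt)) (F : Conf PvPt → ℂ) : Measurable (pvilLoc ε Wn M F) := by
  have := (pv_isPpp ε).prob
  exact pvsu_loc_measurable (hW.prod MeasurableSet.univ) _

/-- the last door of the word of a pattern is the entrance door of `s` -/
theorem pvyj_door (hW : 𝔓.Wf) {m : ℕ} {π : PvxIx τ} (hπ : (𝔓.Γ m).Ok π.p) {ε : ℝ} (hδ : (𝔈.kit m ε).δ = pvlmDel c m) :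
    pvieZi 𝔓 m π.p.zs π.p.ts = pvthZ (𝔈.kit m ε).δ (pvieZo 𝔓 m π.p.zt π.p.tt) ((𝔓.Γ m).dout π.p.tt) π.p.l π.p.l.length ∧
      (𝔓.Γ m).din π.p.ts = pvthD ((𝔓.Γ m).dout π.p.tt) π.p.l π.p.l.length := by
  rw [pvkyi_Z_last, pvkyi_D_last, hδ, ← hW.del m, hπ.1, hπ.2]
  refine ⟨?_, rfl⟩
  unfold pvieZi pvieZo
  ring

theorem pvyj_din_ne {m : ℕ} {π : PvxIx τ} (hπ : (𝔓.Γ m).Ok π.p) : (𝔓.Γ m).din π.p.ts ≠ 0 := by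
  rw [← hπ.2, ← pvkyi_D_last]
  exact pvthD_ne_zero (pvth_ne_zero ((𝔓.Γ m).dout1 _)) _ _

/-- the measurability clause of `pvyj_Y` at the names of record -/
theorem pvyj_meas_L (hE : PvnaWf 𝔓 𝔈) {m : ℕ} {π : PvxIx τ} (hπ : (𝔓.Γ m).Ok π.p) {𝔎s : ℝ → PvxnKit} (mC : ∀ᶠ ε in 𝓝[>] (0 : ℝ), MeasurableSet (𝔎s ε).C) :
    ∀ᶠ ε in 𝓝[>] (0 : ℝ), MeasurableSet (𝔎s ε).C ∧ (𝔈.kit m ε).WF ∧ (𝔈.kit m ε).Fld (𝔈.XQ m ε) ∧ (∀ p ∈ pvyjL π, MeasurableSet (pvyjEoR 𝔓 𝔈 m π ε p).A) ∧ (∀ p ∈ pvyjL π, MeasurableSet (pvyjEiR 𝔓 𝔈 m π ε p).A) ∧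
      (∀ p ∈ pvyjL π, Measurable (pvyjEoR 𝔓 𝔈 m π ε p).X) ∧ ∀ p ∈ pvyjL π, Measurable (pvyjEiR 𝔓 𝔈 m π ε p).X := by
  obtain ⟨β', q, CB, hk⟩ := pvyj_kit_ok hE
  obtain ⟨Cth, r, κs, hw⟩ := hE.wf
  filter_upwards [mC, hk m] with ε h1 h2
  obtain ⟨r', H⟩ := h2
  have wo := fun Z => pvyj_Wno_meas (𝔓 := 𝔓) H.wf (hw.m_oM m) (hw.m_oK m) π.p.zt π.p.tt Z
  have wi := fun Z => pvyj_Wni_meas (𝔓 := 𝔓) H.wf (hw.m_iM m) (hw.m_iK m) π.p.zs (pvyj_din_ne hπ) Z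
  exact ⟨h1, H.wf, H.fQ, fun p _ => pvyj_fin_meas (pvyj_SA_meas ε (wo _) _ _), fun p _ => pvyj_fin_meas (pvyj_SA_meas ε (wi _) _ _),
    fun p _ => pvyj_Loc_meas ε (wo _) _ _, fun p _ => pvyj_Loc_meas ε (wi _) _ _⟩

/-- **THE `Y` SIDE OF N1' AT THE NAMES OF RECORD = `Pvn1aY` OF 159 VERBATIM, `a = 0`, `K = pvnaK`**.
* `hI`  the contract at the GUARDED kits      * `hK hmesh hcell hch`  the inputs of `pvdk_dom_gm` (104), (CELL) and (CHAIN) on the chain event at the reference ends `pvilEo .. π.Zt ∅`, `pvilEi .. π.Zs ∅` -/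
theorem pvyj_YL (hW : 𝔓.Wf) (hE : PvnaWf 𝔓 𝔈) {x : ℂ} {R : ℝ} {m : ℕ} {π : PvxIx τ} (hπ : π ∈ pvxPatSet 𝔓 x R m) {𝔎s : ℝ → PvxnKit} {Γs : ℝ → PVSample → Prop} {μ : ℝ} {S : ℝ → Set (Conf PvPt)}
    {D : ℝ≥0∞} {yf : PvxnIx → Conf PvPt → Set ℂ} (hD : D ≠ ⊤) (mC : ∀ᶠ ε in 𝓝[>] (0 : ℝ), MeasurableSet (𝔎s ε).C)
    (hI : PvyjInL 𝔓 𝔈 m π (fun ε => (𝔎s ε).guard (S ε)) D yf)
    {Ms : ℝ → ∀ Y : Set ℂ, PvwDat (delbPl Y).toMap → Set ↥Y} (hb : ∀ t, (𝔓.ty t).b ≤ 2 * (𝔓.ty t).b2) (ha : 2 ≤ (𝔓.reg m π).ts.a) (hK : ∀ᶠ ε in 𝓝[>] (0 : ℝ), PvdkCm 𝔓 x R m π (𝔎s ε) (Ms ε))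
    (hmesh : ∀ᶠ ε in 𝓝[>] (0 : ℝ), ∃ μ R' : ℝ, 0 ≤ μ ∧ μ < R' ∧ 2 * μ ≤ pvlmH m ∧ ∀ η ∈ S ε,
      VorDense (cfSites η) (Metric.closedBall π.p.zs (𝔓.num.m * pvlmH m + R')) μ ∧ VorDense (cfSites η) (Metric.closedBall π.p.zt (𝔓.num.m * pvlmH m + R')) μ)
    (hcell : ∀ᶠ ε in 𝓝[>] (0 : ℝ), ∀ᵐ η ∂pvP ε, η ∈ S ε → pvkyFl (𝔓.col π.p.ts) η ∈ pvkyEv (𝔈.kit m ε) (𝔓.col π.p.ts) (pvieZo 𝔓 m π.p.zt π.p.tt) ((𝔓.Γ m).dout π.p.tt) π.p.l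
        (pvilEo 𝔓 𝔈 m ε pvilQ π.p.zt π.p.tt ↑π.Zt ∅) (pvilEi 𝔓 𝔈 m ε pvilQ π.p.zs π.p.ts ↑π.Zs ∅) → ∀ i 𝔇, PvdfPr 𝔓 m π 0 (𝔎s ε) η i 𝔇 →
      ∀ y, 𝔇.YArc Subtype.val (𝔓.reg m π) (pvdfCol η) y → ∀ (q : (delbPl (cfSites η)).toMap.Pth) (hg : 𝔇.g.Glue q), 𝔇.IsShield Subtype.val (𝔓.reg m π) (pvdfCol η) q → ∀ v : ↥(cfSites η), ‖(v : ℂ) - x‖ ≤ 6 * R →
        v ∈ (delbPl (cfSites η)).toMap.Int (𝔇.g.glue q hg).Right → v ∈ Ms ε _ 𝔇)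
    (hch : ∀ᶠ ε in 𝓝[>] (0 : ℝ), ∀ᵐ η ∂pvP ε, η ∈ S ε → pvkyFl (𝔓.col π.p.ts) η ∈ pvkyEv (𝔈.kit m ε) (𝔓.col π.p.ts) (pvieZo 𝔓 m π.p.zt π.p.tt) ((𝔓.Γ m).dout π.p.tt) π.p.l
        (pvilEo 𝔓 𝔈 m ε pvilQ π.p.zt π.p.tt ↑π.Zt ∅) (pvilEi 𝔓 𝔈 m ε pvilQ π.p.zs π.p.ts ↑π.Zs ∅) → ∀ i 𝔇, PvdfPr 𝔓 m π 0 (𝔎s ε) η i 𝔇 →
      ∃ y, 𝔇.YArc Subtype.val (𝔓.reg m π) (pvdfCol η) y ∧
        pvkyYc (𝔈.kit m ε) (𝔓.col π.p.ts) (pvieZo 𝔓 m π.p.zt π.p.tt) ((𝔓.Γ m).dout π.p.tt) π.p.l (pvilEo 𝔓 𝔈 m ε pvilQ π.p.zt π.p.tt ↑π.Zt ∅) (pvilEi 𝔓 𝔈 m ε pvilQ π.p.zs π.p.ts ↑π.Zs ∅) (𝔈.XQ m ε)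
          (pvkyFl (𝔓.col π.p.ts) η) = 𝔇.Yof Subtype.val (pvxnFd (cfSites η) 0) 𝔓.num (pvlmH m) (𝔓.reg m π) y) :
    Pvn1aY 𝔓 x R m π 0 (pvyjYdL 𝔓 𝔈 m π D) 𝔎s Γs μ S (pvnaK 𝔓 (pvnaDatE 𝔓 𝔈) m π.p) := by
  rw [← pvyj_K_eq (𝔈 := 𝔈) (m := m) hπ.1.2.2.2.2.2.1]
  refine pvyj_Y hD hI (pvyj_meas_L hE hπ.1.1 mC) (pvyj_dom_gm hW hb hπ ha hK hmesh ?_ ?_)
  · intro p hp
    rw [pvyj_mem_L.1 hp]
    exact hcell
  · intro p hp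
    rw [pvyj_mem_L.1 hp]
    exact hch

end model

end Claimed.Agent.R289
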