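-- KEEP
import Claimed.Agent.R289.Defs.GdReg
import Claimed.Agent.R289.Exit.N1Y
import Claimed.Agent.R289.Exit.N1YD
import Claimed.Agent.R289.Tr.InstC

/-!
# Row 289 (S0537), THE WALL, ROAD E, file Exit/N1YK : THE `Y` SIDE OF N1', PART (B) OF THE SPLIT OF 93 (13:05Z) = THE PER BASE INPUTS AT THE MODEL      (helper214, second cutter of `exit_pvn1a_Y`; prefix `pvyk1_`, `pvyk1`, `Pvyk1`)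

FRAME = `Exit/N1Y` of 93 (`PvyjIn`, `PvyjInL`, `pvyj_YL`).      HERE: what `PvyjIn.of_blind` (93) / `pvpx_enl` (158) consume at ONE base of the guard, at the names of `Tr/InstL` v2.2.1.      0 sorry.
* sec. 1  contracts: **`Pvyk1Geo`** (GEO: deterministic, reads the index only), **`Pvyk1G`** (the guard at an ACTUAL configuration = `pvn1aS` of 159 + `pvyk1Gd` of `Exit/N1YD`), **`Pvyk1Rec`** (the record delivered at one base)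
* sec. 2  `pvyk1_tiles pvyk1_Cc pvyk1_simple` (list of 161 = list of 218), `pvyk1_win` (a soft end is a window end of 141), `pvyk1_blind` (a soft end is a blind end of 141)
* sec. 3  **`pvyk1_rec`** : GEO + guard ⟹ `Pvyk1Rec` = 2 `PvueWin` + `PvkyChain` IN THE SMALL EXPERIMENT (fresh sites of the two mouths `pvilYfc`, funnels `pvkyiFun`), ANY `yf` with `yf base = pvilYfc base`;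
          **`pvyk1_blind_o`, `pvyk1_blind_i`** : GEO + guard + `PvbqPlain` (197 `pvbw_pl_o_wf`, `pvbw_pl_i_wf` from (FZ) of 111) ⟹ the two `PvbqEnd`
* sec. 4  **`pvyk1_chain`** = THE FIELD `chain` OF `PvyjInL` VERBATIM at the guarded kits `(pvn1aKs ..).guard (S' ε)`, `yf := fun _ => pvilYfc 𝔓 𝔈 m π.p`, `D := pvyk1D β' q qf n`;   `pvyk1_D_ne_top`;   `pvyk1_ends` (per base: record + blind ends at the guarded kits)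
-/

set_option autoImplicit false
set_option linter.unusedSectionVars false
set_option linter.unusedVariables false

namespace Claimed.Agent.R289

open MeasureTheory Filter Topology Set Claims.C0465
open scoped ENNReal

/-! ## 1. the contracts -/

section defs

variable {τ : Type} {c : ℝ} (𝔓 : PvxPar τ c) (𝔈 : PvieEng τ) (m : ℕ) (π : PvxIx τ)

/-- **(GEO) THE GEOMETRY OF THE PATTERN** (deterministic, reads the index only)      [148 `Tr/SimpleE`: `pvzu_simple_pat`, `pvzu_clear_pat`; boxes of the two pins apart: (b1) of `pvxPatSet`] -/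
structure Pvyk1Geo (ε : ℝ) : Prop where
  simple : PvieSimple 𝔓 𝔈 m ε π.p
  d4 : (𝔓.Γ m).dout π.p.tt ^ 4 = 1
  /-- the tiles and doors of the chain miss the part of the windows which carries the half states -/
  clr_o : Disjoint (pvieCc 𝔓 𝔈 m ε π.p) (pvilWz 𝔓 m π.p.zt π.p.tt (π.Zt : Set (ℤ × ℤ)))
  clr_i : Disjoint (pvieCc 𝔓 𝔈 m ε π.p) (pvilWz 𝔓 m π.p.zs π.p.ts (π.Zs : Set (ℤ × ℤ)))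
  /-- the window of one pin misses the mouth of the other pin -/
  far_o : Disjoint (pvilWz 𝔓 m π.p.zt π.p.tt (π.Zt : Set (ℤ × ℤ))) (pvieSh π.p.zs (𝔈.iM m π.p.ts))
  far_i : Disjoint (pvilWz 𝔓 m π.p.zs π.p.ts (π.Zs : Set (ℤ × ℤ))) (pvieSh π.p.zt (𝔈.oM m π.p.tt))

/-- **THE GUARD OF THE `Y` SIDE AT AN ACTUAL CONFIGURATION** = the four clauses of `pvn1aS` (159) + `pvyk1Gd` (`Exit/N1YD`) -/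
structure Pvyk1G (qf : ℝ≥0∞) (ε : ℝ) (η : Conf PvPt) : Prop where
  Fo : η ∈ pvrgFo 𝔓 𝔈 qf m ε π.p.zt π.p.tt
  Fi : η ∈ pvrgFi 𝔓 𝔈 qf m ε π.p.zs π.p.ts
  Zo : pvilZo 𝔓 m π.p.zt π.p.tt η = (π.Zt : Set (ℤ × ℤ))
  Zi : pvilZi 𝔓 m π.p.zs π.p.ts η = (π.Zs : Set (ℤ × ℤ))
  gd : η ∈ pvyk1Gd 𝔓 𝔈 m π ε

/-- **THE RECORD AT ONE BASE `η`** (actual configuration), experiment `(C_c, yf)` -/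
structure Pvyk1Rec (β' q qf : ℝ≥0∞) (ε : ℝ) (yf : Conf PvPt → Set ℂ) (η : Conf PvPt) : Prop where
  eo : pvilEoAt 𝔓 𝔈 m ε pvilQ π.p.zt π.p.tt η = pvilEo 𝔓 𝔈 m ε pvilQ π.p.zt π.p.tt (π.Zt : Set (ℤ × ℤ)) (pvilFo 𝔓 m π.p.zt π.p.tt η)
  ei : pvilEiAt 𝔓 𝔈 m ε pvilQ π.p.zs π.p.ts η = pvilEi 𝔓 𝔈 m ε pvilQ π.p.zs π.p.ts (π.Zs : Set (ℤ × ℤ)) (pvilFi 𝔓 m π.p.zs π.p.ts η)
  mC : MeasurableSet (pvieCc 𝔓 𝔈 m ε π.p)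
  wo : PvueWin η (pvieCc 𝔓 𝔈 m ε π.p) yf (pvilEoAt 𝔓 𝔈 m ε pvilQ π.p.zt π.p.tt η) (pvkyDoor (𝔈.kit m ε) (pvieZo 𝔓 m π.p.zt π.p.tt) ((𝔓.Γ m).dout π.p.tt))
    (pvilWno 𝔓 𝔈 m ε π.p.zt π.p.tt (π.Zt : Set (ℤ × ℤ)))
  wi : PvueWin η (pvieCc 𝔓 𝔈 m ε π.p) yf (pvilEiAt 𝔓 𝔈 m ε pvilQ π.p.zs π.p.ts η) (pvkyDoor (𝔈.kit m ε) (pvieZi 𝔓 m π.p.zs π.p.ts) ((𝔓.Γ m).din π.p.ts))
    (pvilWni 𝔓 𝔈 m ε π.p.zs π.p.ts (π.Zs : Set (ℤ × ℤ)))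
  chain : PvkyChain (𝔈.kit m ε) ε (𝔓.col π.p.ts) (𝔈.XQ m ε) (pvieZo 𝔓 m π.p.zt π.p.tt) ((𝔓.Γ m).dout π.p.tt) π.p.l η (pvieCc 𝔓 𝔈 m ε π.p) yf
    (pvilEoAt 𝔓 𝔈 m ε pvilQ π.p.zt π.p.tt η) (pvilEiAt 𝔓 𝔈 m ε pvilQ π.p.zs π.p.ts η)
    (pvkyiFun (𝔈.kit m ε) ε (𝔓.col π.p.ts) (pvieCc 𝔓 𝔈 m ε π.p) yf η (pvilEoAt 𝔓 𝔈 m ε pvilQ π.p.zt π.p.tt η) (pvieZo 𝔓 m π.p.zt π.p.tt) ((𝔓.Γ m).dout π.p.tt) qf)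
    (pvkyiFun (𝔈.kit m ε) ε (𝔓.col π.p.ts) (pvieCc 𝔓 𝔈 m ε π.p) yf η (pvilEiAt 𝔓 𝔈 m ε pvilQ π.p.zs π.p.ts η) (pvieZi 𝔓 m π.p.zs π.p.ts) ((𝔓.Γ m).din π.p.ts) qf) β' q qf qf

/-- **THE CONSTANT `D` OF THE `Y` SIDE**: `β'`, `q` = the constants of the cell kit (258), `qf` = the forcing constant of the good part (256), `n` = the length of the word -/
noncomputable def pvyk1D (β' q qf : ℝ≥0∞) (n : ℕ) : ℝ≥0∞ := (β'⁻¹) ^ (n + 1) * ((q⁻¹) ^ n * ((min qf 1)⁻¹ * (min qf 1)⁻¹))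

end defs

theorem pvyk1_eqns_cite2 : True := by
  have := @pvyk1D.eq_1
  trivial

/-! ## 2. sets -/

section base

variable {τ : Type} {c : ℝ} {𝔓 : PvxPar τ c} {𝔈 : PvieEng τ} {m : ℕ} {π : PvxIx τ} {ε : ℝ}

/-- the list of 161 is the list of 218 -/
theorem pvyk1_tiles (hd : pvieZi 𝔓 m π.p.zs π.p.ts = pvthZ (𝔈.kit m ε).δ (pvieZo 𝔓 m π.p.zt π.p.tt) ((𝔓.Γ m).dout π.p.tt) π.p.l π.p.l.length ∧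
      (𝔓.Γ m).din π.p.ts = pvthD ((𝔓.Γ m).dout π.p.tt) π.p.l π.p.l.length) :
    pvieTiles 𝔓 𝔈 m ε π.p = pvkyiTiles (𝔈.kit m ε) (pvieZo 𝔓 m π.p.zt π.p.tt) ((𝔓.Γ m).dout π.p.tt) π.p.l (pvieSh π.p.zt (𝔈.oK m π.p.tt)) (pvieSh π.p.zs (𝔈.iK m π.p.ts)) := by
  unfold pvieTiles pvkyiTiles
  rw [hd.1, hd.2]
  rfl

theorem pvyk1_Cc (hd : pvieZi 𝔓 m π.p.zs π.p.ts = pvthZ (𝔈.kit m ε).δ (pvieZo 𝔓 m π.p.zt π.p.tt) ((𝔓.Γ m).dout π.p.tt) π.p.l π.p.l.length ∧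
      (𝔓.Γ m).din π.p.ts = pvthD ((𝔓.Γ m).dout π.p.tt) π.p.l π.p.l.length) :
    pvieCc 𝔓 𝔈 m ε π.p = pvkyiC (𝔈.kit m ε) (pvieZo 𝔓 m π.p.zt π.p.tt) ((𝔓.Γ m).dout π.p.tt) π.p.l (pvieSh π.p.zt (𝔈.oK m π.p.tt)) (pvieSh π.p.zs (𝔈.iK m π.p.ts)) := by
  unfold pvieCc pvkyiC
  rw [pvyk1_tiles hd]

theorem pvyk1_simple (hd : pvieZi 𝔓 m π.p.zs π.p.ts = pvthZ (𝔈.kit m ε).δ (pvieZo 𝔓 m π.p.zt π.p.tt) ((𝔓.Γ m).dout π.p.tt) π.p.l π.p.l.length ∧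
      (𝔓.Γ m).din π.p.ts = pvthD ((𝔓.Γ m).dout π.p.tt) π.p.l π.p.l.length) (h : PvieSimple 𝔓 𝔈 m ε π.p) :
    PvkyiSimple (𝔈.kit m ε) (pvieZo 𝔓 m π.p.zt π.p.tt) ((𝔓.Γ m).dout π.p.tt) π.p.l (pvieSh π.p.zt (𝔈.oM m π.p.tt)) (pvieSh π.p.zs (𝔈.iM m π.p.ts))
      (pvieSh π.p.zt (𝔈.oK m π.p.tt)) (pvieSh π.p.zs (𝔈.iK m π.p.ts)) := by
  unfold PvieSimple at h
  unfold PvkyiSimple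
  rw [← pvyk1_tiles hd]
  exact h

/-- **a soft end of `Tr/InstL` is a window end of 141**, from the sets -/
theorem pvyk1_win {ω : Conf PvPt} {C : Set ℂ} {yf : Conf PvPt → Set ℂ} {e : PvkyEnd} {D Zp M M' F F' : Set ℂ} {Z : Set (ℤ × ℤ)} {Mp : Set (Conf PvPt)} {Fv : Conf PvPt → ℂ}
    (mW : MeasurableSet (Zp ∪ M ∪ e.K ∪ D)) (eA : e.A = pvilFin Z (pvilSA ε (Zp ∪ M ∪ e.K ∪ D) Mp Fv)) (eX : e.X = pvilLoc ε (Zp ∪ M ∪ e.K ∪ D) Mp Fv) (ey : e.y = fun _ => M \ F)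
    (mC : MeasurableSet C) (cnt : (cfSites ω).Countable) (mK : MeasurableSet e.K) (sub : e.K ∪ D ⊆ C) (hZ : Disjoint C Zp) (hM : Disjoint M C) (hMM : Disjoint M M') (hZM : Disjoint Zp M')
    (ysub : M \ F ⊆ yf ω) (hyf : yf ω ⊆ M \ F ∪ M' \ F') : PvueWin ω C yf e D (Zp ∪ M ∪ e.K ∪ D) := by
  have := (pv_isPpp ε).prob
  refine pvkyi_win mC cnt mK ?_ ?_ ?_ ?_ ey sub ?_ hM hMM ?_ ysub hyf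
  · rw [eA]; exact pvic_fin_meas _ (pvic_SA_meas ε mW _ _)
  · rw [eX]; exact pvsu_loc_measurable (mW.prod MeasurableSet.univ) _
  · rw [eA]; exact pvic_fin_reads _ (pvic_SA_reads ε _ _ _)
  · rw [eX]; exact pvsu_loc_reads _ _ _
  · exact fun v hv => absurd hv.2 (Set.disjoint_left.1 hZ hv.1)
  · exact fun v _ h1 h2 => absurd h2 (Set.disjoint_left.1 hZM h1)

/-- **a soft end of `Tr/InstL` is a blind end of 141** at a generic geometry, from plain colour blindness -/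
theorem pvyk1_blind {C D Wn M F Y : Set ℂ} {e : PvkyEnd} {Z : Set (ℤ × ℤ)} (hZf : Z.Finite) {Mp : Set (Conf PvPt)} {Fv : Conf PvPt → ℂ} {σ : ℂ → Bool} {p : Conf PvPt → Prop}
    (mW : MeasurableSet Wn) (mKD : MeasurableSet (e.K ∪ D)) (eA : e.A = pvilFin Z (pvilSA ε Wn Mp Fv)) (eX : e.X = pvilLoc ε Wn Mp Fv) (ey : e.y = fun _ => M \ F)
    (sub : e.K ∪ D ⊆ C) (win : C ∩ Wn ⊆ e.K ∪ D) (hG : pvbqGen ε C Wn p Y)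
    (h1 : ∀ ζ, p ζ → pvbqOk (pvP ε) (Mp ∩ {η | Fv η = pvilLoc ε Wn Mp Fv η}) (Mp.indicator Fv) ζ) (hP : PvbqPlain C Wn p Mp Fv Y F (M \ F) σ) : PvbqEnd ε C D e Y F σ := by
  refine pvbq_end' (M := Mp) (F := Fv) (p := p) mW mKD eX ?_ (fun η η' => by rw [ey]) ?_ ?_ hG ?_ ?_
  · rw [eA, eX]
    unfold pvilFin
    rw [if_pos hZf]
    rfl
  · intro z _ hz
    rw [ey]
    exact fun h => h.2 hz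
  · ext v
    exact ⟨fun h => ⟨win h, h.2⟩, fun h => ⟨sub h.1, h.2⟩⟩
  · rw [eX]; exact h1
  · rw [ey]; exact hP

/-! ## 3. the record at one base -/

/-- membership in the named sets, unfolded (explicit, as `pvjg_mem_Fo` of 102: the kernel must not compare the diagonal set with the set at fixed base data) -/
theorem pvyk1_gd_o {qf : ℝ≥0∞} {z : ℂ} {t : τ} {η : Conf PvPt} (h : η ∈ pvrgFo 𝔓 𝔈 qf m ε z t) (h' : η ∈ pvyk1SqO 𝔓 𝔈 m ε z t) :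
    PvkyiGd (𝔈.kit m ε) ε (𝔓.col t) (pvilEoAt 𝔓 𝔈 m ε pvilQ z t η) (pvieZo 𝔓 m z t) ((𝔓.Γ m).dout t) qf η := by
  rw [pvrgFo, mem_ofPred_eq] at h
  rw [pvyk1SqO, mem_ofPred_eq] at h'
  exact ⟨h, h'⟩

theorem pvyk1_gd_i {qf : ℝ≥0∞} {z : ℂ} {t : τ} {η : Conf PvPt} (h : η ∈ pvrgFi 𝔓 𝔈 qf m ε z t) (h' : η ∈ pvyk1SqI 𝔓 𝔈 m ε z t) :
    PvkyiGd (𝔈.kit m ε) ε (𝔓.col t) (pvilEiAt 𝔓 𝔈 m ε pvilQ z t η) (pvieZi 𝔓 m z t) ((𝔓.Γ m).din t) qf η := by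
  rw [pvrgFi, mem_ofPred_eq] at h
  rw [pvyk1SqI, mem_ofPred_eq] at h'
  exact ⟨h, h'⟩

theorem pvyk1_end_anti (ε : ℝ) (e : PvkyEnd) (D : Set ℂ) (G : Set (Conf PvPt)) {q q' : ℝ≥0∞} (h : q' ≤ q) : pvrgEnd ε e D G q ⊆ pvrgEnd ε e D G q' :=
  pvrg_frc_anti ε _ _ G _ h

/-- the forcing constant may be lowered -/
theorem Pvyk1G.anti {qf qf' : ℝ≥0∞} (hq : qf' ≤ qf) {η : Conf PvPt} (h : Pvyk1G 𝔓 𝔈 m π qf ε η) : Pvyk1G 𝔓 𝔈 m π qf' ε η where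
  Fo := by
    have h1 := h.Fo
    rw [pvrgFo, mem_ofPred_eq] at h1 ⊢
    exact pvyk1_end_anti ε _ _ _ hq h1
  Fi := by
    have h1 := h.Fi
    rw [pvrgFi, mem_ofPred_eq] at h1 ⊢
    exact pvyk1_end_anti ε _ _ _ hq h1
  Zo := h.Zo
  Zi := h.Zi
  gd := h.gd

/-- **THE RECORD AT ONE BASE OF THE GUARD**: two window ends of 141, the chain record of 218 in the SMALL experiment -/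
theorem pvyk1_rec {Cth : ℝ} {r κs : ℕ → ℝ} {m0 : ℕ} (hWf : PvieEng.Wf 𝔓 𝔈 m0 Cth r κs) {β' q B qf : ℝ≥0∞} {r₀ : ℝ}
    (hk : PvcnOkQ (𝔈.kit m ε) ε (𝔈.XQ m ε) β' q B r₀)
    (hd : pvieZi 𝔓 m π.p.zs π.p.ts = pvthZ (𝔈.kit m ε).δ (pvieZo 𝔓 m π.p.zt π.p.tt) ((𝔓.Γ m).dout π.p.tt) π.p.l π.p.l.length ∧
      (𝔓.Γ m).din π.p.ts = pvthD ((𝔓.Γ m).dout π.p.tt) π.p.l π.p.l.length)
    (hcol : 𝔓.col π.p.ts = 𝔓.col π.p.tt) (G : Pvyk1Geo 𝔓 𝔈 m π ε) (q0 : qf ≠ 0) (q1 : qf ≤ 1)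
    {η : Conf PvPt} (cnt : (cfSites η).Countable) (hG : Pvyk1G 𝔓 𝔈 m π qf ε η) {yf : Conf PvPt → Set ℂ} (hyf : yf η = pvilYfc 𝔓 𝔈 m π.p η) :
    Pvyk1Rec 𝔓 𝔈 m π β' q qf ε yf η := by
  have hd0 : (𝔓.Γ m).dout π.p.tt ≠ 0 := pvth_ne_zero ((𝔓.Γ m).dout1 _)
  have hdi : (𝔓.Γ m).din π.p.ts ≠ 0 := by rw [hd.2]; exact pvthx_D_ne G.d4 _ _
  have hS := pvyk1_simple hd G.simple
  have hC := pvyk1_Cc (𝔓 := 𝔓) (𝔈 := 𝔈) (m := m) (π := π) (ε := ε) hd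
  have mKo : MeasurableSet (pvieSh π.p.zt (𝔈.oK m π.p.tt)) := pvic_sh_meas _ (hWf.m_oK _ _)
  have mKi : MeasurableSet (pvieSh π.p.zs (𝔈.iK m π.p.ts)) := pvic_sh_meas _ (hWf.m_iK _ _)
  have mC : MeasurableSet (pvieCc 𝔓 𝔈 m ε π.p) := by rw [hC]; exact pvkyi_measurable_C hk.wf G.d4 mKo mKi
  have mWo := pvyj_Wno_meas (𝔓 := 𝔓) hk.wf (hWf.m_oM m) (hWf.m_oK m) π.p.zt π.p.tt (π.Zt : Set (ℤ × ℤ))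
  have mWi := pvyj_Wni_meas (𝔓 := 𝔓) hk.wf (hWf.m_iM m) (hWf.m_iK m) π.p.zs hdi (π.Zs : Set (ℤ × ℤ))
  have subo : pvieSh π.p.zt (𝔈.oK m π.p.tt) ∪ pvkyDoor (𝔈.kit m ε) (pvieZo 𝔓 m π.p.zt π.p.tt) ((𝔓.Γ m).dout π.p.tt) ⊆ pvieCc 𝔓 𝔈 m ε π.p := by rw [hC]; exact pvkyi_sub_o
  have subi : pvieSh π.p.zs (𝔈.iK m π.p.ts) ∪ pvkyDoor (𝔈.kit m ε) (pvieZi 𝔓 m π.p.zs π.p.ts) ((𝔓.Γ m).din π.p.ts) ⊆ pvieCc 𝔓 𝔈 m ε π.p := by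
    rw [hC, hd.1, hd.2]; exact pvkyi_sub_i
  have hMoC : Disjoint (pvieSh π.p.zt (𝔈.oM m π.p.tt)) (pvieCc 𝔓 𝔈 m ε π.p) := by rw [hC]; exact hS.Mo_C
  have hMiC : Disjoint (pvieSh π.p.zs (𝔈.iM m π.p.ts)) (pvieCc 𝔓 𝔈 m ε π.p) := by rw [hC]; exact hS.Mi_C
  have eo_eq : pvilEoAt 𝔓 𝔈 m ε pvilQ π.p.zt π.p.tt η = pvilEo 𝔓 𝔈 m ε pvilQ π.p.zt π.p.tt (π.Zt : Set (ℤ × ℤ)) (pvilFo 𝔓 m π.p.zt π.p.tt η) := by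
    unfold pvilEoAt; rw [hG.Zo]
  have ei_eq : pvilEiAt 𝔓 𝔈 m ε pvilQ π.p.zs π.p.ts η = pvilEi 𝔓 𝔈 m ε pvilQ π.p.zs π.p.ts (π.Zs : Set (ℤ × ℤ)) (pvilFi 𝔓 m π.p.zs π.p.ts η) := by
    unfold pvilEiAt; rw [hG.Zi]
  have wo : PvueWin η (pvieCc 𝔓 𝔈 m ε π.p) yf (pvilEo 𝔓 𝔈 m ε pvilQ π.p.zt π.p.tt (π.Zt : Set (ℤ × ℤ)) (pvilFo 𝔓 m π.p.zt π.p.tt η))
      (pvkyDoor (𝔈.kit m ε) (pvieZo 𝔓 m π.p.zt π.p.tt) ((𝔓.Γ m).dout π.p.tt)) (pvilWno 𝔓 𝔈 m ε π.p.zt π.p.tt (π.Zt : Set (ℤ × ℤ))) :=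
    pvyk1_win (ε := ε) (M' := pvieSh π.p.zs (𝔈.iM m π.p.ts)) (F' := pvilFi 𝔓 m π.p.zs π.p.ts η) mWo rfl rfl rfl mC cnt mKo subo G.clr_o hMoC hS.Mo_Mi G.far_o
      (by rw [hyf]; exact subset_union_left) (by rw [hyf]; exact subset_rfl)
  have wi : PvueWin η (pvieCc 𝔓 𝔈 m ε π.p) yf (pvilEi 𝔓 𝔈 m ε pvilQ π.p.zs π.p.ts (π.Zs : Set (ℤ × ℤ)) (pvilFi 𝔓 m π.p.zs π.p.ts η))
      (pvkyDoor (𝔈.kit m ε) (pvieZi 𝔓 m π.p.zs π.p.ts) ((𝔓.Γ m).din π.p.ts)) (pvilWni 𝔓 𝔈 m ε π.p.zs π.p.ts (π.Zs : Set (ℤ × ℤ))) :=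
    pvyk1_win (ε := ε) (M' := pvieSh π.p.zt (𝔈.oM m π.p.tt)) (F' := pvilFo 𝔓 m π.p.zt π.p.tt η) mWi rfl rfl rfl mC cnt mKi subi G.clr_i hMiC hS.Mo_Mi.symm G.far_i
      (by rw [hyf]; exact subset_union_right) (by rw [hyf, union_comm]; exact subset_rfl)
  have go : PvkyiGd (𝔈.kit m ε) ε (𝔓.col π.p.tt) (pvilEoAt 𝔓 𝔈 m ε pvilQ π.p.zt π.p.tt η) (pvieZo 𝔓 m π.p.zt π.p.tt) ((𝔓.Γ m).dout π.p.tt) qf η := pvyk1_gd_o hG.Fo hG.gd.1.1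
  have gi : PvkyiGd (𝔈.kit m ε) ε (𝔓.col π.p.ts) (pvilEiAt 𝔓 𝔈 m ε pvilQ π.p.zs π.p.ts η) (pvieZi 𝔓 m π.p.zs π.p.ts) ((𝔓.Γ m).din π.p.ts) qf η := pvyk1_gd_i hG.Fi hG.gd.1.2
  rw [← hcol, eo_eq] at go
  rw [ei_eq] at gi
  refine ⟨eo_eq, ei_eq, mC, by rw [eo_eq]; exact wo, by rw [ei_eq]; exact wi, ?_⟩
  rw [eo_eq, ei_eq]
  rw [hd.1, hd.2] at wi gi ⊢
  rw [hC] at wo wi ⊢
  have H0 := pvkyi_chain hS hk G.d4 wo wi sdiff_subset sdiff_subset q0 q1 q0 q1 go gi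
  exact H0

/-- **THE FIRST LINK IS A BLIND END OF 141** at a base of the guard, from plain colour blindness      [`hP`: 197 `pvbw_pl_o_wf` from (FZ) of 111] -/
theorem pvyk1_blind_o {β' q qf : ℝ≥0∞} {yf : Conf PvPt → Set ℂ} {Y : Set ℂ} {σ : ℂ → Bool} {Cth : ℝ} {r κs : ℕ → ℝ} {m0 : ℕ} (hWf : PvieEng.Wf 𝔓 𝔈 m0 Cth r κs) (hkw : (𝔈.kit m ε).WF)
    (hG : Pvyk1G 𝔓 𝔈 m π qf ε (cfOf Y σ)) (Rc : Pvyk1Rec 𝔓 𝔈 m π β' q qf ε yf (cfOf Y σ))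
    (hP : PvbqPlain (pvieCc 𝔓 𝔈 m ε π.p) (pvilWno 𝔓 𝔈 m ε π.p.zt π.p.tt (π.Zt : Set (ℤ × ℤ))) (pvyk1Po 𝔓 𝔈 m ε π.p.zt π.p.tt (π.Zt : Set (ℤ × ℤ)))
      (pvilMo 𝔓 𝔈 m ε π.p.zt π.p.tt (π.Zt : Set (ℤ × ℤ))) (pvyk1Fo 𝔓 𝔈 m π.p.zt π.p.tt) Y (pvilFo 𝔓 m π.p.zt π.p.tt (cfOf Y σ))
      (pvieSh π.p.zt (𝔈.oM m π.p.tt) \ pvilFo 𝔓 m π.p.zt π.p.tt (cfOf Y σ)) σ) :
    PvbqEnd ε (pvieCc 𝔓 𝔈 m ε π.p) (pvkyDoor (𝔈.kit m ε) (pvieZo 𝔓 m π.p.zt π.p.tt) ((𝔓.Γ m).dout π.p.tt)) (pvilEoAt 𝔓 𝔈 m ε pvilQ π.p.zt π.p.tt (cfOf Y σ)) Y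
      (pvilFo 𝔓 m π.p.zt π.p.tt (cfOf Y σ)) σ := by
  have wo := Rc.wo
  rw [Rc.eo] at wo ⊢
  exact pvyk1_blind (ε := ε) (Finset.finite_toSet π.Zt) (pvyj_Wno_meas (𝔓 := 𝔓) hkw (hWf.m_oM m) (hWf.m_oK m) π.p.zt π.p.tt (π.Zt : Set (ℤ × ℤ)))
    ((pvic_sh_meas _ (hWf.m_oK _ _)).union (pvkyi_measurable_door hkw _ (pvth_ne_zero ((𝔓.Γ m).dout1 _)))) rfl rfl rfl wo.sub wo.win (by have := hG.gd.2.1; rwa [cfOf_sites] at this) (fun ζ h => h.1) hP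

/-- **THE LAST LINK IS A BLIND END OF 141** at a base of the guard      [`hP`: 197 `pvbw_pl_i_wf`] -/
theorem pvyk1_blind_i {β' q qf : ℝ≥0∞} {yf : Conf PvPt → Set ℂ} {Y : Set ℂ} {σ : ℂ → Bool} {Cth : ℝ} {r κs : ℕ → ℝ} {m0 : ℕ} (hWf : PvieEng.Wf 𝔓 𝔈 m0 Cth r κs) (hkw : (𝔈.kit m ε).WF) (hdi : (𝔓.Γ m).din π.p.ts ≠ 0)
    (hG : Pvyk1G 𝔓 𝔈 m π qf ε (cfOf Y σ)) (Rc : Pvyk1Rec 𝔓 𝔈 m π β' q qf ε yf (cfOf Y σ))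
    (hP : PvbqPlain (pvieCc 𝔓 𝔈 m ε π.p) (pvilWni 𝔓 𝔈 m ε π.p.zs π.p.ts (π.Zs : Set (ℤ × ℤ))) (pvyk1Pi 𝔓 𝔈 m ε π.p.zs π.p.ts (π.Zs : Set (ℤ × ℤ)))
      (pvilMi 𝔓 𝔈 m ε π.p.zs π.p.ts (π.Zs : Set (ℤ × ℤ))) (pvyk1Fi 𝔓 𝔈 m π.p.zs π.p.ts) Y (pvilFi 𝔓 m π.p.zs π.p.ts (cfOf Y σ))
      (pvieSh π.p.zs (𝔈.iM m π.p.ts) \ pvilFi 𝔓 m π.p.zs π.p.ts (cfOf Y σ)) σ) :
    PvbqEnd ε (pvieCc 𝔓 𝔈 m ε π.p) (pvkyDoor (𝔈.kit m ε) (pvieZi 𝔓 m π.p.zs π.p.ts) ((𝔓.Γ m).din π.p.ts)) (pvilEiAt 𝔓 𝔈 m ε pvilQ π.p.zs π.p.ts (cfOf Y σ)) Y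
      (pvilFi 𝔓 m π.p.zs π.p.ts (cfOf Y σ)) σ := by
  have wi := Rc.wi
  rw [Rc.ei] at wi ⊢
  exact pvyk1_blind (ε := ε) (Finset.finite_toSet π.Zs) (pvyj_Wni_meas (𝔓 := 𝔓) hkw (hWf.m_iM m) (hWf.m_iK m) π.p.zs hdi (π.Zs : Set (ℤ × ℤ)))
    ((pvic_sh_meas _ (hWf.m_iK _ _)).union (pvkyi_measurable_door hkw _ hdi)) rfl rfl rfl wi.sub wi.win (by have := hG.gd.2.2; rwa [cfOf_sites] at this) (fun ζ h => h.1) hP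

end base

/-! ## 4. the fields at the guarded kits -/

section fields

variable {τ : Type} {c : ℝ} {𝔓 : PvxPar τ c} {𝔈 : PvieEng τ} {m : ℕ} {π : PvxIx τ}

theorem pvyk1_min_ne {qf : ℝ≥0∞} (hqf : qf ≠ 0) : min qf 1 ≠ 0 := by
  intro h
  rcases min_eq_iff.1 h with h1 | h1
  · exact hqf h1.1
  · exact one_ne_zero h1.1

theorem pvyk1_D_ne_top {β' q qf : ℝ≥0∞} (hβ : β' ≠ 0) (hq : q ≠ 0) (hqf : qf ≠ 0) (n : ℕ) : pvyk1D β' q qf n ≠ ⊤ := by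
  have h1 := pvyk1_min_ne hqf
  unfold pvyk1D
  exact ENNReal.mul_ne_top (ENNReal.pow_ne_top (ENNReal.inv_ne_top.2 hβ))
    (ENNReal.mul_ne_top (ENNReal.pow_ne_top (ENNReal.inv_ne_top.2 hq)) (ENNReal.mul_ne_top (ENNReal.inv_ne_top.2 h1) (ENNReal.inv_ne_top.2 h1)))

theorem pvyk1_D_le {kit : PvthKit} {ε : ℝ} {β' q : ℝ≥0∞} (hF : kit.Forced (pvP ε) β' q) (qf : ℝ≥0∞) (n : ℕ) : pvkeD kit (pvP ε) n q (min qf 1) (min qf 1) ≤ pvyk1D β' q qf n := by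
  unfold pvkeD pvyk1D
  exact mul_le_mul_left (pow_le_pow_left₀ (zero_le) (ENNReal.inv_le_inv.2 hF.adm) _) _

/-- **ONE BASE OF THE GUARD, BLACK VOCABULARY ⟹ THE GUARD AND THE RECORD AT THE ACTUAL CONFIGURATION** `cfOf Y (pvjbC b σ)` -/
theorem pvyk1_base (hW : 𝔓.Wf) {Cth : ℝ} {r κs : ℕ → ℝ} {m0 : ℕ} (hWf : PvieEng.Wf 𝔓 𝔈 m0 Cth r κs) {x : ℂ} {R : ℝ} (hπ : π ∈ pvxPatSet 𝔓 x R m) {ε : ℝ} {β' q B qf : ℝ≥0∞} {r₀ : ℝ}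
    (hk : PvcnOkQ (𝔈.kit m ε) ε (𝔈.XQ m ε) β' q B r₀) (G : Pvyk1Geo 𝔓 𝔈 m π ε) (hqf : qf ≠ 0) {Y : Set ℂ} (hY : Y.Countable) {σ : ℂ → Bool}
    (hS : Pvyk1G 𝔓 𝔈 m π qf ε (pvxnFl (𝔓.col π.p.ts) (cfOf Y σ))) :
    Pvyk1G 𝔓 𝔈 m π (min qf 1) ε (cfOf Y (pvjbC (𝔓.col π.p.ts) σ)) ∧ Pvyk1Rec 𝔓 𝔈 m π β' q (min qf 1) ε (pvilYfc 𝔓 𝔈 m π.p) (cfOf Y (pvjbC (𝔓.col π.p.ts) σ)) := by
  have hG := hS.anti (min_le_left qf 1)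
  rw [pvjb_fl_eq, pvjb_fl_cfOf] at hG
  exact ⟨hG, pvyk1_rec hWf hk (pvyj_door hW hπ.1.1 (hWf.kit_del m ε)) hπ.1.2.2.2.2.2.1 G (pvyk1_min_ne hqf) (min_le_right qf 1) (by rw [cfOf_sites]; exact hY) hG rfl⟩

/-- **THE FIELD `chain` OF `PvyjInL` (93) VERBATIM** at the guarded kits, `yf := fun _ => pvilYfc 𝔓 𝔈 m π.p`, `D := pvyk1D β' q qf n`.
* `hk`    93 `pvyj_kit_ok`      * `hGeo`  (GEO)      * `hS'`   the guard contains the four clauses of 159 (`Fo Fi`, hulls) and the clause `pvyk1Gd` of `Exit/N1YD`: `Pvyk1G` (THIS FILE DOES NOT IMPORT `Exit/N1All`) -/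
theorem pvyk1_chain (hW : 𝔓.Wf) (hE : PvnaWf 𝔓 𝔈) {x : ℂ} {R : ℝ} (hπ : π ∈ pvxPatSet 𝔓 x R m) {β' q B qf : ℝ≥0∞} (hqf : qf ≠ 0)
    (hk : ∀ᶠ ε in 𝓝[>] (0 : ℝ), ∃ r₀ : ℝ, PvcnOkQ (𝔈.kit m ε) ε (𝔈.XQ m ε) β' q B r₀) (hGeo : ∀ᶠ ε in 𝓝[>] (0 : ℝ), Pvyk1Geo 𝔓 𝔈 m π ε)
    {𝔎s : ℝ → PvxnKit} (hC : ∀ ε, (𝔎s ε).C = pvieCc 𝔓 𝔈 m ε π.p) {S' : ℝ → Set (Conf PvPt)}
    (hS' : ∀ᶠ ε in 𝓝[>] (0 : ℝ), ∀ ζ ∈ S' ε, Pvyk1G 𝔓 𝔈 m π qf ε (pvxnFl (𝔓.col π.p.ts) ζ)) :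
    ∀ᶠ ε in 𝓝[>] (0 : ℝ), ∀ Y : Set ℂ, (DelGood Y ∧ ∀ᵐ ω₂ ∂pvP ε, DelGood (Y \ ((𝔎s ε).guard (S' ε)).C ∪ cfSites ω₂ ∩ ((𝔎s ε).guard (S' ε)).C)) → ∀ (i : PvxnIx) (σ : ℂ → Bool),
      PvxnPA 𝔓 m π 0 ((𝔎s ε).guard (S' ε)) i Y σ → PvxnPW 𝔓 m π 0 ((𝔎s ε).guard (S' ε)) i Y σ →
      ∃ (fo fi : PvkeFun ℂ) (β'' q' qo qi : ℝ≥0∞), pvkeD (𝔈.kit m ε) (pvP ε) π.p.l.length q' qo qi ≤ pvyk1D β' q qf π.p.l.length ∧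
        PvkyChain (𝔈.kit m ε) ε (𝔓.col π.p.ts) (𝔈.XQ m ε) (pvieZo 𝔓 m π.p.zt π.p.tt) ((𝔓.Γ m).dout π.p.tt) π.p.l (cfOf Y (pvjbC (𝔓.col π.p.ts) σ)) ((𝔎s ε).guard (S' ε)).C (pvilYfc 𝔓 𝔈 m π.p)
          (pvilEoAt 𝔓 𝔈 m ε pvilQ π.p.zt π.p.tt (cfOf Y (pvjbC (𝔓.col π.p.ts) σ))) (pvilEiAt 𝔓 𝔈 m ε pvilQ π.p.zs π.p.ts (cfOf Y (pvjbC (𝔓.col π.p.ts) σ))) fo fi β'' q' qo qi := by
  obtain ⟨Cth, r, κs, hWf⟩ := hE.wf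
  filter_upwards [hk, hGeo, hS'] with ε ⟨r₀, h1⟩ h2 h3 Y hY i σ hA _
  have hS := h3 _ ((pvn1a_PA 𝔓 m π 0 (𝔎s ε) (S' ε)).1 hA).1
  have Rc := (pvyk1_base hW hWf hπ h1 h2 hqf hY.1.lf.countable hS).2
  have hc := Rc.chain
  rw [← hC ε] at hc
  exact ⟨_, _, β', q, min qf 1, min qf 1, pvyk1_D_le h1.frc qf _, hc⟩

/-- **(PLAIN) THE CONTRACT OF PLAIN COLOUR BLINDNESS AT THE BASES OF THE GUARD**      [197 `Tr/BlindP`: `pvbw_pl_o_wf`, `pvbw_pl_i_wf` = (FZ) alone; (FZ): 111 `Tr/PlainB`] -/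
def Pvyk1Pl (𝔓 : PvxPar τ c) (𝔈 : PvieEng τ) (m : ℕ) (π : PvxIx τ) (𝔎s : ℝ → PvxnKit) : Prop :=
  ∀ᶠ ε in 𝓝[>] (0 : ℝ), ∀ Y : Set ℂ, (DelGood Y ∧ ∀ᵐ ω₂ ∂pvP ε, DelGood (Y \ (𝔎s ε).C ∪ cfSites ω₂ ∩ (𝔎s ε).C)) → ∀ (i : PvxnIx) (σ : ℂ → Bool), PvxnPA 𝔓 m π 0 (𝔎s ε) i Y σ →
    PvbqPlain (pvieCc 𝔓 𝔈 m ε π.p) (pvilWno 𝔓 𝔈 m ε π.p.zt π.p.tt (π.Zt : Set (ℤ × ℤ))) (pvyk1Po 𝔓 𝔈 m ε π.p.zt π.p.tt (π.Zt : Set (ℤ × ℤ)))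
      (pvilMo 𝔓 𝔈 m ε π.p.zt π.p.tt (π.Zt : Set (ℤ × ℤ))) (pvyk1Fo 𝔓 𝔈 m π.p.zt π.p.tt) Y (pvilFo 𝔓 m π.p.zt π.p.tt (cfOf Y (pvjbC (𝔓.col π.p.ts) σ)))
      (pvieSh π.p.zt (𝔈.oM m π.p.tt) \ pvilFo 𝔓 m π.p.zt π.p.tt (cfOf Y (pvjbC (𝔓.col π.p.ts) σ))) (pvjbC (𝔓.col π.p.ts) σ) ∧
    PvbqPlain (pvieCc 𝔓 𝔈 m ε π.p) (pvilWni 𝔓 𝔈 m ε π.p.zs π.p.ts (π.Zs : Set (ℤ × ℤ))) (pvyk1Pi 𝔓 𝔈 m ε π.p.zs π.p.ts (π.Zs : Set (ℤ × ℤ)))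
      (pvilMi 𝔓 𝔈 m ε π.p.zs π.p.ts (π.Zs : Set (ℤ × ℤ))) (pvyk1Fi 𝔓 𝔈 m π.p.zs π.p.ts) Y (pvilFi 𝔓 m π.p.zs π.p.ts (cfOf Y (pvjbC (𝔓.col π.p.ts) σ)))
      (pvieSh π.p.zs (𝔈.iM m π.p.ts) \ pvilFi 𝔓 m π.p.zs π.p.ts (cfOf Y (pvjbC (𝔓.col π.p.ts) σ))) (pvjbC (𝔓.col π.p.ts) σ)

theorem pvyk1_eqns_cite3 : True := by
  have := @Pvyk1Pl.eq_1
  trivial

/-- **ALL THE PER BASE INPUTS OF `PvyjIn.of_blind` (93) / `pvpx_enl` (158) AT THE GUARDED KITS**: the guard, the record (2 window ends, the chain in the small experiment), the two blind ends -/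
theorem pvyk1_ends (hW : 𝔓.Wf) (hE : PvnaWf 𝔓 𝔈) {x : ℂ} {R : ℝ} (hπ : π ∈ pvxPatSet 𝔓 x R m) {β' q B qf : ℝ≥0∞} (hqf : qf ≠ 0)
    (hk : ∀ᶠ ε in 𝓝[>] (0 : ℝ), ∃ r₀ : ℝ, PvcnOkQ (𝔈.kit m ε) ε (𝔈.XQ m ε) β' q B r₀) (hGeo : ∀ᶠ ε in 𝓝[>] (0 : ℝ), Pvyk1Geo 𝔓 𝔈 m π ε)
    {𝔎s : ℝ → PvxnKit} {S' : ℝ → Set (Conf PvPt)}
    (hS' : ∀ᶠ ε in 𝓝[>] (0 : ℝ), ∀ ζ ∈ S' ε, Pvyk1G 𝔓 𝔈 m π qf ε (pvxnFl (𝔓.col π.p.ts) ζ))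
    (hPl : Pvyk1Pl 𝔓 𝔈 m π fun ε => (𝔎s ε).guard (S' ε)) :
    ∀ᶠ ε in 𝓝[>] (0 : ℝ), ∀ Y : Set ℂ, (DelGood Y ∧ ∀ᵐ ω₂ ∂pvP ε, DelGood (Y \ ((𝔎s ε).guard (S' ε)).C ∪ cfSites ω₂ ∩ ((𝔎s ε).guard (S' ε)).C)) → ∀ (i : PvxnIx) (σ : ℂ → Bool),
      PvxnPA 𝔓 m π 0 ((𝔎s ε).guard (S' ε)) i Y σ →
      Pvyk1G 𝔓 𝔈 m π (min qf 1) ε (cfOf Y (pvjbC (𝔓.col π.p.ts) σ)) ∧ Pvyk1Rec 𝔓 𝔈 m π β' q (min qf 1) ε (pvilYfc 𝔓 𝔈 m π.p) (cfOf Y (pvjbC (𝔓.col π.p.ts) σ)) ∧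
      PvbqEnd ε (pvieCc 𝔓 𝔈 m ε π.p) (pvkyDoor (𝔈.kit m ε) (pvieZo 𝔓 m π.p.zt π.p.tt) ((𝔓.Γ m).dout π.p.tt)) (pvilEoAt 𝔓 𝔈 m ε pvilQ π.p.zt π.p.tt (cfOf Y (pvjbC (𝔓.col π.p.ts) σ))) Y
        (pvilFo 𝔓 m π.p.zt π.p.tt (cfOf Y (pvjbC (𝔓.col π.p.ts) σ))) (pvjbC (𝔓.col π.p.ts) σ) ∧
      PvbqEnd ε (pvieCc 𝔓 𝔈 m ε π.p) (pvkyDoor (𝔈.kit m ε) (pvieZi 𝔓 m π.p.zs π.p.ts) ((𝔓.Γ m).din π.p.ts)) (pvilEiAt 𝔓 𝔈 m ε pvilQ π.p.zs π.p.ts (cfOf Y (pvjbC (𝔓.col π.p.ts) σ))) Y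
        (pvilFi 𝔓 m π.p.zs π.p.ts (cfOf Y (pvjbC (𝔓.col π.p.ts) σ))) (pvjbC (𝔓.col π.p.ts) σ) := by
  obtain ⟨Cth, r, κs, hWf⟩ := hE.wf
  filter_upwards [hk, hGeo, hS', hPl] with ε ⟨r₀, h1⟩ h2 h3 h4 Y hY i σ hA
  have hS := h3 _ ((pvn1a_PA 𝔓 m π 0 (𝔎s ε) (S' ε)).1 hA).1
  obtain ⟨hG, Rc⟩ := pvyk1_base hW hWf hπ h1 h2 hqf hY.1.lf.countable hS
  obtain ⟨p1, p2⟩ := h4 Y hY i σ hA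
  exact ⟨hG, Rc, pvyk1_blind_o hWf h1.wf hG Rc p1, pvyk1_blind_i hWf h1.wf (pvyj_din_ne hπ.1.1) hG Rc p2⟩

end fields

end Claimed.Agent.R289
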