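-- KEEP
import Claimed.Agent.R289.Tr.PatWinR
import Claimed.Agent.R289.Exit.N1YK

/-!
# Row 289 (S0537), THE WALL, ROAD E, file Exit/N1YG : (GEO) OF THE `Y` SIDE OF N1' AT THE BINDERS OF RECORD      (helper180; prefix `pvjh_pg_`)

0 sorry.      **`pvjh_pg_geo`** : the contract `Pvyk1Geo` of 214 (`Exit/N1YK`: `simple d4 clr_o clr_i far_o far_i`) at `pvxParOf N hN c`, at the engine of record, for EVERY `ε`, every pattern of `pvxPatSet`      [148 `Tr/SimpleE` v2, 180 `Tr/PatWinR`];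
`pvjh_pg_geo_ev` : the hypothesis `hGeo` of `pvyk1_chain`, `pvyk1_ends` VERBATIM.
-/

set_option autoImplicit false

namespace Claimed.Agent.R289

open Set Filter Topology Claims.C0465

section pg

variable {c : ℝ} {N : PvxNums} {hN : N.Ok} {𝔈 : PvieEng (pvxTau N)} {m : ℕ} {x : ℂ} {R₀ : ℝ} {π : PvxIx (pvxTau N)}

/-- **(GEO) AT THE BINDERS OF RECORD** -/
theorem pvjh_pg_geo (c0 : 0 < c) (hE : PvnaWf (pvxParOf N hN c) 𝔈) (hR : PvnaRec N hN c 𝔈) (hm : (pvxParOf N hN c).m0 ≤ m) (hπ : π ∈ pvxPatSet (pvxParOf N hN c) x R₀ m) (ε : ℝ) :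
    Pvyk1Geo (pvxParOf N hN c) 𝔈 m π ε where
  simple := pvjh_pr_simple c0 hE hR hm hπ ε
  d4 := pveg_dout4 (pvqh_lev (hN := hN) c0 hm) _
  clr_o := (pvjh_pw_Wz_C (fun S hS => (pvjh_pr_clear c0 hE hR hm hπ ε S hS).1) subset_union_right).symm
  clr_i := (pvjh_pw_Wz_C (fun S hS => (pvjh_pr_clear c0 hE hR hm hπ ε S hS).2) subset_union_left).symm
  far_o := (pvjh_pr_far c0 hE hm hπ).1.mono_left inter_subset_right
  far_i := (pvjh_pr_far c0 hE hm hπ).2.mono_left inter_subset_right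

theorem pvjh_pg_geo_ev (c0 : 0 < c) (hE : PvnaWf (pvxParOf N hN c) 𝔈) (hR : PvnaRec N hN c 𝔈) (hm : (pvxParOf N hN c).m0 ≤ m) (hπ : π ∈ pvxPatSet (pvxParOf N hN c) x R₀ m) :
    ∀ᶠ ε in 𝓝[>] (0 : ℝ), Pvyk1Geo (pvxParOf N hN c) 𝔈 m π ε :=
  Eventually.of_forall fun ε => pvjh_pg_geo c0 hE hR hm hπ ε

end pg

end Claimed.Agent.R289
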