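-- KEEP
import Claimed.Agent.R289.Exit.N1Y
import Claimed.Agent.R289.Tr.DomEN
import Claimed.Agent.R289.Exit.N1K
import Claimed.Agent.R289.Exit.N1YD
import Claimed.Agent.R289.Defs.GdReg
import Claimed.Agent.R289.Exit.N1XD
import Claimed.Agent.R289.Exit.EngRec
import Claimed.Agent.R289.Exit.Par

/-!
# Row 289 (S0537), THE WALL, ROAD E, file Exit/N1YT : THE FIELD `dom` AT THE `Y` SIDE OF RECORD `pvyjYdL` AND THE LAST WIRING OF `exit_pvn1a_Y`      (helper12, part (C) of the split of 93; prefix `pvyy_`, `pvyy`, `Pvyy`)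

BELOW `Exit/N1All.lean` (that file may import this one).
* sec. 1  **`pvyy_dom`** : the field `dom` of `Pvn1aY` (159) VERBATIM at `pvyjYd` (93), ANY kits `𝔎s ε` with `PvdkCm` (104, class `Ms ε`), ANY guard `S ε`, from (GEO) (CELL) (CHAIN) asked a.e. at the configurations of the guard on which the chain succeeds at an index of the family,
          for the present data of the UNGUARDED kit.      [(GEO) is a hypothesis of its own: it may be paid by layer 1 (`guardE Rg`, N1-A (3) of 170) or by the guard]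
* sec. 2  `pvyyEv pvyyYc` (chain event, closing sum at the reference ends `π.Zt π.Zs`), `pvyyD β' qc qf n` (bound of the weight; `pvyy_D_ne_top`, `pvyy_D_le : pvkeD ≤ pvyyD`),   **`pvyy_roof`** : `Pvn1aY` VERBATIM at `pvyjYdL`, `K = pvnaK`
* sec. 3  `pvyyK r q Rg ε` (SAME BODY as `pvn1aKs`: kit v2 of 29 `.guardE (Rg ε)`), `pvyyM` (class `MF`), `PvyyRg` (layer 1 ⟹ `g5` ∧ mesh off `C`), `pvyyS` (the clauses which the guard must imply: `pvrgFo pvrgFi`, the two hulls, `pvyk1Gd` of 214);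
          `pvyy_cm_kn`, **`pvyy_cm`** (`PvdkCm` at the kits of record, PROVED), **`pvyy_geo`** ((GEO) from the mesh off `C`, PROVED)
* sec. 4  AT `pvxParOf N hN c`, `60 r ≤ δ_m`:   **`pvyy_exit`** (PROVED) = `exit_pvn1a_Y` for ANY `Rg` with `PvyyRg`, ANY `S ⊆ pvyyS`, from the three statements (Y-IN) (Y-CELL) (Y-CHAIN) AS HYPOTHESES.      0 sorry.
          THE THREE SUB-EXITS `exit_pvyy_in` (93 214), `exit_pvyy_cell` (63 78), `exit_pvyy_chain` (268 5 70) AND THE LAST WIRE `pvyz_exit` SIT IN `Exit/N1YZ` (above the files of their provers, which may import this one)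
-/

set_option autoImplicit false
set_option linter.unusedSectionVars false
set_option linter.unusedVariables false

namespace Claimed.Agent.R289

open MeasureTheory ProbabilityTheory Filter Topology Set Claims.C0465
open scoped ENNReal

/-! ## 1. `dom` at the `Y` side of 93 -/

section dom

variable {τ : Type} {c : ℝ} {𝔓 : PvxPar τ c} {x : ℂ} {R : ℝ} {m : ℕ} {π : PvxIx τ} {a : ℂ} {𝔎s : ℝ → PvxnKit} {Ms : ℝ → ∀ Y : Set ℂ, PvwDat (delbPl Y).toMap → Set ↥Y} {S : ℝ → Set (Conf PvPt)}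
  {kit : ℝ → PvthKit} {b : Bool} {X₀ : ℝ → PvtTurn → Conf PvPt → ℂ} {z d : ℂ} {l : List PvtTurn} {zi di : ℂ} {eo ei : ℝ → Conf PvPt → PvkyEnd}
  {J : Type} {L : List J} {eoR eiR : ℝ → J → PvkyEnd} {D : ℝ≥0∞}

/-- **THE FIELD `dom` OF `Pvn1aY`, VERBATIM, AT THE `Y` SIDE OF 93** -/
theorem pvyy_dom (ha : 2 ≤ (𝔓.reg m π).ts.a) (hK : ∀ᶠ ε in 𝓝[>] (0 : ℝ), PvdkCm 𝔓 x R m π (𝔎s ε) (Ms ε))
    (hgeo : ∀ p ∈ L, ∀ᶠ ε in 𝓝[>] (0 : ℝ), ∀ᵐ η ∂pvP ε, η ∈ S ε → pvkyFl b η ∈ pvkyEv (kit ε) b z d l (eoR ε p) (eiR ε p) → ∀ i 𝔇, PvdfPr 𝔓 m π a (𝔎s ε) η i 𝔇 →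
      𝔇.Geo Subtype.val 𝔓.num (pvlmH m) (𝔓.reg m π))
    (hcell : ∀ p ∈ L, ∀ᶠ ε in 𝓝[>] (0 : ℝ), ∀ᵐ η ∂pvP ε, η ∈ S ε → pvkyFl b η ∈ pvkyEv (kit ε) b z d l (eoR ε p) (eiR ε p) → ∀ i 𝔇, PvdfPr 𝔓 m π a (𝔎s ε) η i 𝔇 →
      ∀ y, 𝔇.YArc Subtype.val (𝔓.reg m π) (pvdfCol η) y → ∀ (q : (delbPl (cfSites η)).toMap.Pth) (hg : 𝔇.g.Glue q), 𝔇.IsShield Subtype.val (𝔓.reg m π) (pvdfCol η) q →
        ∀ v : ↥(cfSites η), ‖(v : ℂ) - x‖ ≤ 6 * R → v ∈ (delbPl (cfSites η)).toMap.Int (𝔇.g.glue q hg).Right → v ∈ Ms ε _ 𝔇)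
    (hch : ∀ p ∈ L, ∀ᶠ ε in 𝓝[>] (0 : ℝ), ∀ᵐ η ∂pvP ε, η ∈ S ε → pvkyFl b η ∈ pvkyEv (kit ε) b z d l (eoR ε p) (eiR ε p) → ∀ i 𝔇, PvdfPr 𝔓 m π a (𝔎s ε) η i 𝔇 →
      ∃ y, 𝔇.YArc Subtype.val (𝔓.reg m π) (pvdfCol η) y ∧
        pvkyYc (kit ε) b z d l (eoR ε p) (eiR ε p) (X₀ ε) (pvkyFl b η) = 𝔇.Yof Subtype.val (pvxnFd (cfSites η) a) 𝔓.num (pvlmH m) (𝔓.reg m π) y) :
    ∀ᶠ ε in 𝓝[>] (0 : ℝ), ∀ᵐ ω ∂pvP ε, ∑' i, ((pvxnSys 𝔓 m π a ((𝔎s ε).guard (S ε)) (pvyjYd kit b X₀ z d l zi di eo ei L eoR eiR D) ε).A i ∩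
          (pvxnSys 𝔓 m π a ((𝔎s ε).guard (S ε)) (pvyjYd kit b X₀ z d l zi di eo ei L eoR eiR D) ε).WO i).indicator
        (fun ω => (pvyjYd kit b X₀ z d l zi di eo ei L eoR eiR D).w ε ω * ‖i.X + (pvyjYd kit b X₀ z d l zi di eo ei L eoR eiR D).Y ε ω‖ₑ ^ 2) ω
      ≤ (pvyjYd kit b X₀ z d l zi di eo ei L eoR eiR D).D * pvclSum ω (𝔎s ε).B (pvlmH m) := by
  refine pvdk_dom_cm (𝔎s := fun ε => (𝔎s ε).guard (S ε)) (Ms := Ms) ha (hK.mono fun ε h => h.guard (S ε)) ?_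
  have h1 := (eventually_all_finite (List.finite_toSet L)).2 hgeo
  have h2 := (eventually_all_finite (List.finite_toSet L)).2 hcell
  have h3 := (eventually_all_finite (List.finite_toSet L)).2 hch
  filter_upwards [h1, h2, h3, self_mem_nhdsWithin] with ε k1 k2 k3 hε
  have k1' := (ae_ball_iff (List.finite_toSet L).countable).2 k1
  have k2' := (ae_ball_iff (List.finite_toSet L).countable).2 k2
  have k3' := (ae_ball_iff (List.finite_toSet L).countable).2 k3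
  filter_upwards [k1', k2', k3', pvqf_good_ae ε (ne_of_gt hε)] with η j1 j2 j3 j0
  refine ⟨fun _ _ => pvyj_w_le ε η, fun hw i 𝔇 hP => ?_, fun hw i 𝔇 hP => ?_, fun hw i 𝔇 hP => ?_⟩
  · obtain ⟨hS, hP'⟩ := (pvdk_pr_guard j0.one).1 hP
    obtain ⟨p, hp, hE⟩ := pvyj_w_ne hw
    exact j1 p hp hS hE i 𝔇 hP'
  · obtain ⟨hS, hP'⟩ := (pvdk_pr_guard j0.one).1 hP
    obtain ⟨p, hp, hE⟩ := pvyj_w_ne hw
    exact j2 p hp hS hE i 𝔇 hP'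
  · obtain ⟨hS, hP'⟩ := (pvdk_pr_guard j0.one).1 hP
    obtain ⟨p, hp, hE, e⟩ := pvyj_pick_spec (F := pvyjF kit b X₀ z d l eoR eiR ε) L (pvyj_w_ne hw)
    obtain ⟨y, hy, e2⟩ := j3 p hp hS hE i 𝔇 hP'
    exact ⟨y, hy, e.trans e2⟩

end dom

/-! ## 2. the roof at the names of record -/

section roof

variable {τ : Type} {c : ℝ} (𝔓 : PvxPar τ c) (𝔈 : PvieEng τ)

/-- **the chain event at the reference ends of the pattern** (hulls of the index), read on the ACTUAL configuration -/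
def pvyyEv (m : ℕ) (π : PvxIx τ) (ε : ℝ) : Set (Conf PvPt) :=
  pvkyEv (𝔈.kit m ε) (𝔓.col π.p.ts) (pvieZo 𝔓 m π.p.zt π.p.tt) ((𝔓.Γ m).dout π.p.tt) π.p.l (pvilEo 𝔓 𝔈 m ε pvilQ π.p.zt π.p.tt ↑π.Zt ∅) (pvilEi 𝔓 𝔈 m ε pvilQ π.p.zs π.p.ts ↑π.Zs ∅)

/-- **the closing sum at the reference ends of the pattern** -/
noncomputable def pvyyYc (m : ℕ) (π : PvxIx τ) (ε : ℝ) : Conf PvPt → ℂ :=
  pvkyYc (𝔈.kit m ε) (𝔓.col π.p.ts) (pvieZo 𝔓 m π.p.zt π.p.tt) ((𝔓.Γ m).dout π.p.tt) π.p.l (pvilEo 𝔓 𝔈 m ε pvilQ π.p.zt π.p.tt ↑π.Zt ∅) (pvilEi 𝔓 𝔈 m ε pvilQ π.p.zs π.p.ts ↑π.Zs ∅) (𝔈.XQ m ε)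

/-- **THE BOUND OF THE WEIGHT**: `β'` = admission of a door plug, `qc` = forcing constant of a cell, `qf` = forcing constant of the two end links, `n` = length of the word -/
noncomputable def pvyyD (β' qc qf : ℝ≥0∞) (n : ℕ) : ℝ≥0∞ := (β'⁻¹) ^ (n + 1) * ((qc⁻¹) ^ n * (qf⁻¹ * qf⁻¹))

theorem pvyy_eqns_cite : True := by
  have := @pvyyEv.eq_1; have := @pvyyYc.eq_1; have := @pvyyD.eq_1
  trivial

theorem pvyy_D_ne_top {β' qc qf : ℝ≥0∞} (h1 : β' ≠ 0) (h2 : qc ≠ 0) (h3 : qf ≠ 0) (n : ℕ) : pvyyD β' qc qf n ≠ ⊤ :=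
  ENNReal.mul_ne_top (ENNReal.pow_ne_top (ENNReal.inv_ne_top.2 h1))
    (ENNReal.mul_ne_top (ENNReal.pow_ne_top (ENNReal.inv_ne_top.2 h2)) (ENNReal.mul_ne_top (ENNReal.inv_ne_top.2 h3) (ENNReal.inv_ne_top.2 h3)))

/-- the bound `D_c` of 141 / 218 is below the bound of record -/
theorem pvyy_D_le {kit : PvthKit} {μ : Measure (Conf PvPt)} {β' qc qf : ℝ≥0∞} (h : kit.Forced μ β' qc) (n : ℕ) : pvkeD kit μ n qc qf qf ≤ pvyyD β' qc qf n := by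
  unfold pvkeD pvyyD
  gcongr
  exact h.adm

variable {𝔓 𝔈}

/-- **`Pvn1aY` OF 159 VERBATIM AT THE `Y` SIDE OF RECORD `pvyjYdL`, `K = pvnaK`**, `dom` through the parametric form of 104 -/
theorem pvyy_roof (hW : 𝔓.Wf) (hE : PvnaWf 𝔓 𝔈) {x : ℂ} {R : ℝ} {m : ℕ} {π : PvxIx τ} (hπ : π ∈ pvxPatSet 𝔓 x R m) {𝔎s : ℝ → PvxnKit} {Ms : ℝ → ∀ Y : Set ℂ, PvwDat (delbPl Y).toMap → Set ↥Y}
    {Γs : ℝ → PVSample → Prop} {μ : ℝ} {S : ℝ → Set (Conf PvPt)} {D : ℝ≥0∞} {yf : PvxnIx → Conf PvPt → Set ℂ} (hD : D ≠ ⊤) (mC : ∀ᶠ ε in 𝓝[>] (0 : ℝ), MeasurableSet (𝔎s ε).C)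
    (hI : PvyjInL 𝔓 𝔈 m π (fun ε => (𝔎s ε).guard (S ε)) D yf)
    (ha : 2 ≤ (𝔓.reg m π).ts.a) (hK : ∀ᶠ ε in 𝓝[>] (0 : ℝ), PvdkCm 𝔓 x R m π (𝔎s ε) (Ms ε))
    (hgeo : ∀ᶠ ε in 𝓝[>] (0 : ℝ), ∀ᵐ η ∂pvP ε, η ∈ S ε → pvkyFl (𝔓.col π.p.ts) η ∈ pvyyEv 𝔓 𝔈 m π ε → ∀ i 𝔇, PvdfPr 𝔓 m π 0 (𝔎s ε) η i 𝔇 → 𝔇.Geo Subtype.val 𝔓.num (pvlmH m) (𝔓.reg m π))
    (hcell : ∀ᶠ ε in 𝓝[>] (0 : ℝ), ∀ᵐ η ∂pvP ε, η ∈ S ε → pvkyFl (𝔓.col π.p.ts) η ∈ pvyyEv 𝔓 𝔈 m π ε → ∀ i 𝔇, PvdfPr 𝔓 m π 0 (𝔎s ε) η i 𝔇 →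
      ∀ y, 𝔇.YArc Subtype.val (𝔓.reg m π) (pvdfCol η) y → ∀ (q : (delbPl (cfSites η)).toMap.Pth) (hg : 𝔇.g.Glue q), 𝔇.IsShield Subtype.val (𝔓.reg m π) (pvdfCol η) q →
        ∀ v : ↥(cfSites η), ‖(v : ℂ) - x‖ ≤ 6 * R → v ∈ (delbPl (cfSites η)).toMap.Int (𝔇.g.glue q hg).Right → v ∈ Ms ε _ 𝔇)
    (hch : ∀ᶠ ε in 𝓝[>] (0 : ℝ), ∀ᵐ η ∂pvP ε, η ∈ S ε → pvkyFl (𝔓.col π.p.ts) η ∈ pvyyEv 𝔓 𝔈 m π ε → ∀ i 𝔇, PvdfPr 𝔓 m π 0 (𝔎s ε) η i 𝔇 →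
      ∃ y, 𝔇.YArc Subtype.val (𝔓.reg m π) (pvdfCol η) y ∧ pvyyYc 𝔓 𝔈 m π ε (pvkyFl (𝔓.col π.p.ts) η) = 𝔇.Yof Subtype.val (pvxnFd (cfSites η) 0) 𝔓.num (pvlmH m) (𝔓.reg m π) y) :
    Pvn1aY 𝔓 x R m π 0 (pvyjYdL 𝔓 𝔈 m π D) 𝔎s Γs μ S (pvnaK 𝔓 (pvnaDatE 𝔓 𝔈) m π.p) := by
  rw [← pvyj_K_eq (𝔈 := 𝔈) (m := m) hπ.1.2.2.2.2.2.1]
  have hm := pvyj_meas_L hE hπ.1.1 mC
  exact
    { D1 := hD
      yh_stab := hI.yh_stab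
      mw := pvyj_mw (𝔎s := fun ε => (𝔎s ε).guard (S ε)) (hm.mono fun ε h => ⟨h.1, h.2.1, h.2.2.2.1, h.2.2.2.2.1⟩)
      mY := pvyj_mY (𝔎s := fun ε => (𝔎s ε).guard (S ε)) hm
      jen := hI.jen
      dom := pvyy_dom ha hK (fun p hp => by rw [pvyj_mem_L.1 hp]; exact hgeo) (fun p hp => by rw [pvyj_mem_L.1 hp]; exact hcell) (fun p hp => by rw [pvyj_mem_L.1 hp]; exact hch)
      mean := Eventually.of_forall fun ε ω i _ _ => pvyj_yh_act (𝔈.kit m) (𝔓.col π.p.ts) (𝔈.XQ m) _ _ _ _ _ _ _ (pvyjL π) (pvyjEoR 𝔓 𝔈 m π) (pvyjEiR 𝔓 𝔈 m π) D ε i (pvConf ω) }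

end roof

/-! ## 3. the kit of record (layers 0 and 1), its class, the guard; (GEO) -/

section kit

variable {τ : Type} {c : ℝ} (𝔓 : PvxPar τ c) (𝔈 : PvieEng τ) (x : ℂ) (R : ℝ) (m : ℕ) (π : PvxIx τ)

/-- **THE KITS OF RECORD** (SAME BODY as `pvn1aKs` of 159): layer 0 = kit v2 of 29 at `C ε := pvieCc`, layer 1 = `Rg ε` -/
noncomputable def pvyyK (r : ℝ) (q : ℝ≥0∞) (Rg : ℝ → ∀ Y : Set ℂ, PvwDat (delbPl Y).toMap → (↥Y → Bool) → Prop) (ε : ℝ) : PvxnKit :=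
  (pvknKit 𝔓 x R m π (pvieCc 𝔓 𝔈 m ε π.p) r (Metric.closedBall x (6 * R)) measurableSet_closedBall q).guardE (Rg ε)

/-- the class read by `E(D)` at the kit v2 of 29 -/
def pvyyM (r : ℝ) (ε : ℝ) : ∀ Y : Set ℂ, PvwDat (delbPl Y).toMap → Set ↥Y := fun _ 𝔇 => 𝔇.MF Subtype.val (𝔓.reg m π) (pvgeFar (pvieCc 𝔓 𝔈 m ε π.p) r) x (6 * R)

/-- **WHAT LAYER 1 MUST IMPLY** (N1-A (3) of 170): `g₀ ⊆ closedBall x (5R)` and THE MESH OFF `C` -/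
def PvyyRg (r : ℝ) (Rg : ℝ → ∀ Y : Set ℂ, PvwDat (delbPl Y).toMap → (↥Y → Bool) → Prop) : Prop :=
  ∀ ε (Y : Set ℂ) (𝔇 : PvwDat (delbPl Y).toMap) (σ : ↥Y → Bool), Rg ε Y 𝔇 σ → (∀ k, k ≤ 𝔇.g.n → ‖((𝔇.g.v k : ↥Y) : ℂ) - x‖ ≤ 5 * R) ∧ VorDense Y (pvn1kOff x R (pvieCc 𝔓 𝔈 m ε π.p) r) r

/-- **WHAT THE GUARD (LAYER 2) MUST IMPLY**: the four clauses of `pvn1aS` of 159 + the clause `pvyk1Gd` of 214      (`ζ` in the black vocabulary) -/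
def pvyyS (qf : ℝ≥0∞) (ε : ℝ) : Set (Conf PvPt) :=
  {ζ | pvxnFl (𝔓.col π.p.ts) ζ ∈ pvrgFo 𝔓 𝔈 qf m ε π.p.zt π.p.tt ∧ pvxnFl (𝔓.col π.p.ts) ζ ∈ pvrgFi 𝔓 𝔈 qf m ε π.p.zs π.p.ts ∧
    pvilZo 𝔓 m π.p.zt π.p.tt (pvxnFl (𝔓.col π.p.ts) ζ) = (π.Zt : Set (ℤ × ℤ)) ∧ pvilZi 𝔓 m π.p.zs π.p.ts (pvxnFl (𝔓.col π.p.ts) ζ) = (π.Zs : Set (ℤ × ℤ)) ∧
    pvxnFl (𝔓.col π.p.ts) ζ ∈ pvyk1Gd 𝔓 𝔈 m π ε}

theorem pvyy_eqns_cite2 : True := by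
  have := @pvyyK.eq_1; have := @pvyyM.eq_1; have := @PvyyRg.eq_1; have := @pvyyS.eq_1
  trivial

variable {𝔓 𝔈 x R m π}

/-- **`PvdkCm` (104) AT THE KIT v2 OF 29**, class `MF` -/
theorem pvyy_cm_kn {C : Set ℂ} {r : ℝ} {B : Set ℂ} {mB : MeasurableSet B} {q : ℝ≥0∞} (hB : Bornology.IsBounded B) (hsub : Metric.closedBall x (6 * R) ⊆ B) (hreg : PvdfReg 𝔓.num (pvlmH m) (𝔓.reg m π) B) :
    PvdkCm 𝔓 x R m π (pvknKit 𝔓 x R m π C r B mB q) (fun _ 𝔇 => 𝔇.MF Subtype.val (𝔓.reg m π) (pvgeFar C r) x (6 * R)) where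
  E_nb _ _ _ h := h
  W_wk _ _ _ _ _ _ h := h
  N_same _ 𝔇 𝔇' h := by
    show 𝔇.NKF Subtype.val (𝔓.reg m π) (pvgeFar C r) x (6 * R) = 𝔇'.NKF Subtype.val (𝔓.reg m π) (pvgeFar C r) x (6 * R)
    unfold PvwDat.NKF PvwDat.MF
    rw [pvkn_nf_eq, pvkn_nf_eq, h.fzY, h.verts, h.apx, h.NU]
  B_bdd := hB
  B_sub := hsub
  reg := hreg

/-- `PvdkCm` at the kits of record -/
theorem pvyy_cm (hW : 𝔓.Wf) (hπ : π ∈ pvxPatSet 𝔓 x R m) (hLR : 𝔓.𝔐.L * pvlmH m + pvlmH m ≤ R) (hR : 0 < R) {r : ℝ} (q : ℝ≥0∞) (Rg : ℝ → ∀ Y : Set ℂ, PvwDat (delbPl Y).toMap → (↥Y → Bool) → Prop) {ε : ℝ}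
    (G : PvknGeo 𝔓.num (pvlmH m) (𝔓.reg m π) x (5 * R) (6 * R) (pvieCc 𝔓 𝔈 m ε π.p) r) : PvdkCm 𝔓 x R m π (pvyyK 𝔓 𝔈 x R m π r q Rg ε) (pvyyM 𝔓 𝔈 x R m π r ε) := by
  have hyin : (𝔓.reg m π).Yin ⊆ Metric.closedBall x (6 * R) := fun z hz => by
    rw [mem_closedBall_iff_norm]
    linarith [G.reg.yin z hz]
  exact (pvyy_cm_kn Metric.isBounded_closedBall Subset.rfl (pvdk_reg_of hW hπ hLR Subset.rfl hyin)).of_le (fun _ _ _ h => h.2) (fun _ _ _ h => h) rfl rfl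

/-- **(GEO)** from the mesh off `C` (layer 1): the gate discs are far from `C` (`PvknGeo.ks kt`), `m h + h < a h < b h` -/
theorem pvyy_geo (hW : 𝔓.Wf) (hb : ∀ t, (𝔓.ty t).b ≤ 2 * (𝔓.ty t).b2) (hπ : π ∈ pvxPatSet 𝔓 x R m) (hLR : 𝔓.𝔐.L * pvlmH m + pvlmH m ≤ R) {C : Set ℂ} {r : ℝ}
    (G : PvknGeo 𝔓.num (pvlmH m) (𝔓.reg m π) x (5 * R) (6 * R) C r) (hr2 : 2 * r ≤ pvlmH m) {Y : Set ℂ} (𝔇 : PvwDat (delbPl Y).toMap) (hOk : 𝔇.Ok Subtype.val 𝔓.num (pvlmH m) (𝔓.reg m π))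
    (hmesh : VorDense Y (pvn1kOff x R C r) r) : 𝔇.Geo Subtype.val 𝔓.num (pvlmH m) (𝔓.reg m π) := by
  have hh := pvlm_H_pos m
  have hr := G.r0
  have key : ∀ (z : ℂ) (t : τ), ‖z - x‖ ≤ 3 * R → Metric.closedBall z ((𝔓.ty t).b * pvlmH m) ⊆ pvgeFar C r → VorDense Y (Metric.closedBall z (𝔓.num.m * pvlmH m + pvlmH m)) r := by
    intro z t hz hfar
    have h1 : 𝔓.num.m * pvlmH m + pvlmH m < (𝔓.ty t).a * pvlmH m := pvdc_wf_num 𝔓 hW.toWfB t hh le_rfl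
    have h2 : (𝔓.ty t).a * pvlmH m < (𝔓.ty t).b * pvlmH m := mul_lt_mul_of_pos_right (hW.ab t) hh
    have h3 : (𝔓.ty t).b * pvlmH m ≤ 𝔓.𝔐.L * pvlmH m := mul_le_mul_of_nonneg_right (hW.b_le t) hh.le
    refine pvn1k_mesh_sub (pvn1k_far_sub hr (fun w hw => ?_) fun w hw => hfar ?_) hmesh
    · rw [mem_closedBall_iff_norm] at hw
      have h4 : ‖w - x‖ ≤ ‖w - z‖ + ‖z - x‖ := by simpa using norm_add_le (w - z) (z - x)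
      have h5 := norm_nonneg (w - z)
      linarith
    · rw [mem_closedBall_iff_norm] at hw ⊢
      linarith
  obtain ⟨⟨-, -, -, hzs, hzt, -⟩, -⟩ := hπ.1, hπ.2
  refine pvdk_geo_of hW hb hπ 𝔇 hOk hr.le (by linarith) hr2 (key _ π.p.ts hzs ?_) (key _ π.p.tt hzt ?_)
  · have := G.ks
    rwa [hW.reg_zs, hW.reg_ts] at this
  · have := G.kt
    rwa [hW.reg_zt, hW.reg_tt] at this

end kit

/-! ## 4. THE LAST WIRING AT THE PARAMETERS OF RECORD (the three sub-exits: `Exit/N1YZ`) -/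

section exits

variable {c : ℝ}

/-- **THE `Y` SIDE AT THE GUARDED KITS OF RECORD** = `exit_pvn1a_Y` of 159 for ANY layer 1 `Rg ⟹ g5 ∧ mesh off C`, ANY guard `S ⊆ pvyyS`, FROM THE THREE STATEMENTS (Y-IN) (Y-CELL) (Y-CHAIN)      [the three sub-exits and the last wire: `Exit/N1YZ`] -/
theorem pvyy_exit (c0 : 0 < c) (N : PvxNums) (hN : N.Ok) (𝔈 : PvieEng (pvxTau N)) (hE : PvnaWf (pvxParOf N hN c) 𝔈) {x : ℂ} {R : ℝ} {m : ℕ} {π : PvxIx (pvxTau N)}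
    (hR0 : 0 < R) (hm : (pvxParOf N hN c).m0 ≤ m) (hπ : π ∈ pvxPatSet (pvxParOf N hN c) x R m)
    {r : ℝ} (G : ∀ᶠ ε in 𝓝[>] (0 : ℝ), PvknGeo (pvxParOf N hN c).num (pvlmH m) ((pvxParOf N hN c).reg m π) x (5 * R) (6 * R) (pvieCc (pvxParOf N hN c) 𝔈 m ε π.p) r) (hr60 : 60 * r ≤ pvlmDel c m)
    (q : ℝ≥0∞) {qf : ℝ≥0∞} {Rg : ℝ → ∀ Y : Set ℂ, PvwDat (delbPl Y).toMap → (↥Y → Bool) → Prop} (hRg : PvyyRg (pvxParOf N hN c) 𝔈 x R m π r Rg)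
    {S : ℝ → Set (Conf PvPt)} (hS : ∀ ε, S ε ⊆ pvyyS (pvxParOf N hN c) 𝔈 m π qf ε) (mC : ∀ᶠ ε in 𝓝[>] (0 : ℝ), MeasurableSet (pvieCc (pvxParOf N hN c) 𝔈 m ε π.p))
    (Γs : ℝ → PVSample → Prop) (μ : ℝ)
    (hin : ∃ D : ℝ≥0∞, D ≠ ⊤ ∧ ∃ yf : PvxnIx → Conf PvPt → Set ℂ, PvyjInL (pvxParOf N hN c) 𝔈 m π (fun ε => (pvyyK (pvxParOf N hN c) 𝔈 x R m π r q Rg ε).guard (S ε)) D yf)
    (hcell : ∀ᶠ ε in 𝓝[>] (0 : ℝ), ∀ᵐ η ∂pvP ε, η ∈ pvyyS (pvxParOf N hN c) 𝔈 m π qf ε → pvkyFl ((pvxParOf N hN c).col π.p.ts) η ∈ pvyyEv (pvxParOf N hN c) 𝔈 m π ε →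
      ∀ i 𝔇, PvdfPr (pvxParOf N hN c) m π 0 (pvyyK (pvxParOf N hN c) 𝔈 x R m π r q Rg ε) η i 𝔇 →
      ∀ y, 𝔇.YArc Subtype.val ((pvxParOf N hN c).reg m π) (pvdfCol η) y → ∀ (p : (delbPl (cfSites η)).toMap.Pth) (hg : 𝔇.g.Glue p), 𝔇.IsShield Subtype.val ((pvxParOf N hN c).reg m π) (pvdfCol η) p →
        ∀ v : ↥(cfSites η), ‖(v : ℂ) - x‖ ≤ 6 * R → v ∈ (delbPl (cfSites η)).toMap.Int (𝔇.g.glue p hg).Right → v ∈ pvyyM (pvxParOf N hN c) 𝔈 x R m π r ε _ 𝔇)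
    (hch : ∀ᶠ ε in 𝓝[>] (0 : ℝ), ∀ᵐ η ∂pvP ε, η ∈ pvyyS (pvxParOf N hN c) 𝔈 m π qf ε → pvkyFl ((pvxParOf N hN c).col π.p.ts) η ∈ pvyyEv (pvxParOf N hN c) 𝔈 m π ε →
      ∀ i 𝔇, PvdfPr (pvxParOf N hN c) m π 0 (pvyyK (pvxParOf N hN c) 𝔈 x R m π r q Rg ε) η i 𝔇 →
      ∃ y, 𝔇.YArc Subtype.val ((pvxParOf N hN c).reg m π) (pvdfCol η) y ∧
        pvyyYc (pvxParOf N hN c) 𝔈 m π ε (pvkyFl ((pvxParOf N hN c).col π.p.ts) η) = 𝔇.Yof Subtype.val (pvxnFd (cfSites η) 0) (pvxParOf N hN c).num (pvlmH m) ((pvxParOf N hN c).reg m π) y) :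
    ∃ 𝔜 : PvxnYd, Pvn1aY (pvxParOf N hN c) x R m π 0 𝔜 (pvyyK (pvxParOf N hN c) 𝔈 x R m π r q Rg) Γs μ S (pvnaK (pvxParOf N hN c) (pvnaDatE (pvxParOf N hN c) 𝔈) m π.p) := by
  have hW := pvxo_wf N hN c
  have hLR : (pvxParOf N hN c).𝔐.L * pvlmH m + pvlmH m ≤ R := pvxo_LR N hN c hπ
  have hb : ∀ t, ((pvxParOf N hN c).ty t).b ≤ 2 * ((pvxParOf N hN c).ty t).b2 := fun t => by
    rw [pvxo_ty_b, pvxo_ty_b2]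
    linarith [hN.m_gt, hN.m_lt, hN.B_lt, hN.ab1, hN.gap, hN.ab2]
  have ha : 2 ≤ ((pvxParOf N hN c).reg m π).ts.a := by
    rw [hW.reg_ts, pvxo_ty_a]
    linarith [hN.m_gt, hN.m_lt, hN.B_lt]
  have hr2 : 2 * r ≤ pvlmH m := by
    have h1 : 1000000 * pvlmDel c m ≤ N.rho * pvlmH m := pvxo_fine hN c0 hm
    have h2 := pvlm_Del_pos c m
    have h3 := pvlm_H_pos m
    have h4 : N.rho ≤ 1 := by linarith [hN.rho0, hN.rho1, hN.rho2, hN.rho3]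
    nlinarith
  obtain ⟨D, hD, yf, hI⟩ := hin
  refine ⟨_, pvyy_roof hW hE hπ (Ms := pvyyM (pvxParOf N hN c) 𝔈 x R m π r) hD mC hI ha (G.mono fun ε g => pvyy_cm hW hπ hLR hR0 q Rg g) ?_ ?_ ?_⟩
  · filter_upwards [G] with ε g
    refine Eventually.of_forall fun η _ _ i 𝔇 hP => ?_
    exact pvyy_geo hW hb hπ hLR g hr2 𝔇 hP.1.ok (hRg ε _ 𝔇 _ hP.2.1.1).2
  · filter_upwards [hcell] with ε h
    filter_upwards [h] with η hη h1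
    exact hη (hS ε h1)
  · filter_upwards [hch] with ε h
    filter_upwards [h] with η hη h1
    exact hη (hS ε h1)

end exits

end Claimed.Agent.R289
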