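import Claimed.Agent.R289.Exit.N1Y
import Claimed.Agent.R289.Exit.N1YD
import Claimed.Agent.R289.Exit.N1YK
import Claimed.Agent.R289.Exit.N1YG
import Claimed.Agent.R289.Exit.N1YT
import Claimed.Agent.R289.Exit.N1Stab
import Claimed.Agent.R289.Tr.ChainL
import Claimed.Agent.R289.Tr.PatWin
import Claimed.Agent.R289.Tr.InstLB

/-!
# Row 289 (S0537), THE WALL, ROAD E, file Exit/N1YBs : `PvyjBs` AND `PvyjInL` (93, `Exit/N1Y`) AT THE MODEL, FROM THE GUARD v5      (helper218; prefix `pvkyn_`, `pvkyn`, `Pvkyn`)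

BELOW `Exit/N1All` (imports `Exit/N1Y`, `Exit/N1YD`, `Exit/N1Stab`, `Tr/ChainL`, `Tr/PatWin`, `Tr/InstLB`).      ANY kits `𝔎s ε` with `(𝔎s ε).C = pvieCc ..`, ANY guard `S ε ⊆ pvkynS ..` (= the body of the guard v5 of 170, N1-B (c)).
* sec. 0  `pvkynS` (body of the guard: `pvrgFo`, `pvrgFi`, hull `= π.Zt`, hull `= π.Zs`, `pvyk1Gd` of 214);   **`PvkynPl`** = (P2) THE ONE DETERMINISTIC DEBT (POCKETS: `PvbqPlain` at `y₀ := (mouth \ F) \ i.N`, both ends; 158 120 27 29 197).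
* sec. 1  the dictionary at a datum (`PvxnWit`, ANY kit): `pvkyn_Fo_sub`, `pvkyn_Fi_sub` (frozen positions of the half states of the base `cfOf Y (pvjbC b σ)` lie in `i.F`), **`pvkyn_base`** (`σ' = σ` on `i.F ∩ Y` ⟹ same `Fo Zo Fi Zi`; ACTUAL vocabulary);
          `pvkyn_Fo_anti`, `pvkyn_Fi_anti` (`pvrgFo` is antitone in the constant; NOT by `rfl`: kernel), `pvkyn_SqO _SqI _Po_ok _Pi_ok` (the clauses of 214 in the words of `Tr/ChainL`).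
* sec. 2  v2 (14:20Z: `Tr/PatWin` v2 crossed v1): THE GEOMETRY = `Pvyk1Geo` OF 214 (`Exit/N1YK`; at the record `pvjh_pg_geo` of 180, `Exit/N1YG`): survives the swaps of the engine.
          **`pvkyn_bs`** : ALL THE 15 FIELDS OF `PvyjBs` at one base of the guarded kit (`ch`, windows := `pvyk1_base` of 214; `Bo bo Bi bi` := `pvkyl_end_o/_i`; `fr_o fr_i` := `far_o far_i` + `pvza_Fo_Wz` of 38; constants `min qf 1`, `D := pvyk1D`).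
          **`pvkyn_inL`** : `pvyk1D .. ≠ ∞ ∧ PvyjInL 𝔓 𝔈 m π (fun ε => (𝔎s ε).guard (S ε)) (pvyk1D β' q qf n) fun _ => pvilYfc 𝔓 𝔈 m π.p`  (through `PvyjIn.of_blind` of 93).
* sec. 3  AT THE BINDERS OF RECORD: `pvkyn_S_eq` (`pvyyS` of 12 `= pvkynS`, `rfl`), `pvkyn_hb_rec`, `pvkyn_K_C`,   **`pvkyn_in_rec`** = THE STATEMENT OF `exit_pvyy_in` (12, `Exit/N1YZ`) VERBATIM + the hypothesis `hP : ∀ᶠ ε, PvkynPl ..` at `(pvyyK ..).guard (S ε)`.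
-/

set_option autoImplicit false
set_option linter.unusedSectionVars false
set_option linter.unusedVariables false

namespace Claimed.Agent.R289

open MeasureTheory Filter Topology Set Claims.C0465
open scoped ENNReal

section defs

variable {τ : Type} {c : ℝ} (𝔓 : PvxPar τ c) (𝔈 : PvieEng τ) (m : ℕ) (π : PvxIx τ)

/-- the body of the guard v5 -/
def pvkynS (qf : ℝ≥0∞) (ε : ℝ) : Set (Conf PvPt) :=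
  {ζ | pvxnFl (𝔓.col π.p.ts) ζ ∈ pvrgFo 𝔓 𝔈 qf m ε π.p.zt π.p.tt ∧ pvxnFl (𝔓.col π.p.ts) ζ ∈ pvrgFi 𝔓 𝔈 qf m ε π.p.zs π.p.ts ∧
    pvilZo 𝔓 m π.p.zt π.p.tt (pvxnFl (𝔓.col π.p.ts) ζ) = (π.Zt : Set (ℤ × ℤ)) ∧ pvilZi 𝔓 m π.p.zs π.p.ts (pvxnFl (𝔓.col π.p.ts) ζ) = (π.Zs : Set (ℤ × ℤ)) ∧
    pvxnFl (𝔓.col π.p.ts) ζ ∈ pvyk1Gd 𝔓 𝔈 m π ε}

/-- **(P2) THE PLAIN DEBT OF THE TWO ENDS** (POCKETS), at one kit (READ IT AT THE GUARDED KIT): at a present datum of index `i` the plain success and the plain value of the first / last link do not see the colours of the kept sites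
which are neither frozen positions of the half state nor fresh sites of the mouth OFF `i.N` -/
def PvkynPl (𝔎 : PvxnKit) (ε : ℝ) : Prop :=
  ∀ (Y : Set ℂ) (i : PvxnIx) (σ : ℂ → Bool), DelGood Y → PvxnPA 𝔓 m π 0 𝔎 i Y σ →
    PvbqPlain (pvieCc 𝔓 𝔈 m ε π.p) (pvilWno 𝔓 𝔈 m ε π.p.zt π.p.tt ↑π.Zt) (pvyk1Po 𝔓 𝔈 m ε π.p.zt π.p.tt ↑π.Zt) (pvilMo 𝔓 𝔈 m ε π.p.zt π.p.tt ↑π.Zt) (pvyk1Fo 𝔓 𝔈 m π.p.zt π.p.tt) Y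
      (pvilFo 𝔓 m π.p.zt π.p.tt (cfOf Y (pvjbC (𝔓.col π.p.ts) σ))) ((pvieSh π.p.zt (𝔈.oM m π.p.tt) \ pvilFo 𝔓 m π.p.zt π.p.tt (cfOf Y (pvjbC (𝔓.col π.p.ts) σ))) \ i.N) (pvjbC (𝔓.col π.p.ts) σ) ∧
    PvbqPlain (pvieCc 𝔓 𝔈 m ε π.p) (pvilWni 𝔓 𝔈 m ε π.p.zs π.p.ts ↑π.Zs) (pvyk1Pi 𝔓 𝔈 m ε π.p.zs π.p.ts ↑π.Zs) (pvilMi 𝔓 𝔈 m ε π.p.zs π.p.ts ↑π.Zs) (pvyk1Fi 𝔓 𝔈 m π.p.zs π.p.ts) Y
      (pvilFi 𝔓 m π.p.zs π.p.ts (cfOf Y (pvjbC (𝔓.col π.p.ts) σ))) ((pvieSh π.p.zs (𝔈.iM m π.p.ts) \ pvilFi 𝔓 m π.p.zs π.p.ts (cfOf Y (pvjbC (𝔓.col π.p.ts) σ))) \ i.N) (pvjbC (𝔓.col π.p.ts) σ)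

end defs

theorem pvkyn_eqns_cite : True := by
  have := @pvkynS.eq_1; have := @PvkynPl.eq_1
  trivial

section base

variable {τ : Type} {c : ℝ} {𝔓 : PvxPar τ c} {𝔈 : PvieEng τ} {m : ℕ} {π : PvxIx τ} {𝔎 : PvxnKit} {i : PvxnIx} {Y : Set ℂ} {σ : ℂ → Bool}

theorem pvkyn_fl (b : Bool) (Y : Set ℂ) (σ : ℂ → Bool) : pvxnFl b (cfOf Y σ) = cfOf Y (pvjbC b σ) := pvjb_fl_cfOf b Y σ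

/-- the frozen positions of `Σ_out` at the base are frozen sites of the index -/
theorem pvkyn_Fo_sub (hW : 𝔓.Wf) (hc : 𝔓.col π.p.ts = 𝔓.col π.p.tt) (hY : DelGood Y) {𝔇 : PvwDat (delbPl Y).toMap} (h : PvxnWit 𝔓 m π 0 𝔎 Y i (fun v => σ v) 𝔇) :
    pvilFo 𝔓 m π.p.zt π.p.tt (cfOf Y (pvjbC (𝔓.col π.p.ts) σ)) ⊆ i.F := by
  have h1 := pvn1z_Fo_dat hW hY h.ok h.cyl
  rw [pvn1a_cf, ← hc, pvkyn_fl] at h1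
  rw [← h.labF]
  exact h1.trans (image_mono fun v hv => Or.inl (Or.inl (Or.inl hv)))

/-- the frozen positions of `Σ_in` at the base are frozen sites of the index -/
theorem pvkyn_Fi_sub (hW : 𝔓.Wf) (hY : DelGood Y) {𝔇 : PvwDat (delbPl Y).toMap} (h : PvxnWit 𝔓 m π 0 𝔎 Y i (fun v => σ v) 𝔇) :
    pvilFi 𝔓 m π.p.zs π.p.ts (cfOf Y (pvjbC (𝔓.col π.p.ts) σ)) ⊆ i.F := by
  have h1 := pvn1z_Fi_dat hW hY h.ok h.cyl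
  rw [pvn1a_cf, pvkyn_fl] at h1
  rw [← h.labF]
  exact h1.trans (image_mono fun v hv => Or.inl (Or.inl (Or.inr hv)))

/-- **the base data do not move when the colours off the frozen sites of the index move** (ACTUAL vocabulary) -/
theorem pvkyn_base (hW : 𝔓.Wf) (hc : 𝔓.col π.p.ts = 𝔓.col π.p.tt) (hY : DelGood Y) {𝔇 : PvwDat (delbPl Y).toMap} (h : PvxnWit 𝔓 m π 0 𝔎 Y i (fun v => σ v) 𝔇)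
    {σ' : ℂ → Bool} (hs : ∀ v ∈ Y, v ∈ i.F → σ' v = pvjbC (𝔓.col π.p.ts) σ v) :
    pvilFo 𝔓 m π.p.zt π.p.tt (cfOf Y σ') = pvilFo 𝔓 m π.p.zt π.p.tt (cfOf Y (pvjbC (𝔓.col π.p.ts) σ)) ∧
    pvilZo 𝔓 m π.p.zt π.p.tt (cfOf Y σ') = pvilZo 𝔓 m π.p.zt π.p.tt (cfOf Y (pvjbC (𝔓.col π.p.ts) σ)) ∧
    pvilFi 𝔓 m π.p.zs π.p.ts (cfOf Y σ') = pvilFi 𝔓 m π.p.zs π.p.ts (cfOf Y (pvjbC (𝔓.col π.p.ts) σ)) ∧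
    pvilZi 𝔓 m π.p.zs π.p.ts (cfOf Y σ') = pvilZi 𝔓 m π.p.zs π.p.ts (cfOf Y (pvjbC (𝔓.col π.p.ts) σ)) := by
  have key := pvn1z_base (σ' := fun v : ↥Y => pvjbC (𝔓.col π.p.ts) σ' v) hW hY h.ok h.cyl (fun v hv => by
    have hF : (v : ℂ) ∈ i.F := by
      rw [← h.labF]
      exact ⟨v, Or.inl (Or.inl hv), rfl⟩
    show pvjbC (𝔓.col π.p.ts) σ' v = σ v
    have := hs v v.2 hF
    unfold pvjbC at this ⊢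
    rw [this]
    cases 𝔓.col π.p.ts <;> cases σ v <;> rfl) (𝔓.col π.p.ts) hc.symm rfl
  rw [pvn1a_cf, pvn1a_cf, pvkyn_fl, pvkyn_fl, pvjb_C_C] at key
  exact key

/-- a forced link is forced with a smaller constant -/
theorem pvkyn_end_anti {ε : ℝ} {e : PvkyEnd} {D : Set ℂ} {G : Set (Conf PvPt)} {q q' : ℝ≥0∞} (h : q' ≤ q) {η : Conf PvPt} (hη : η ∈ pvrgEnd ε e D G q) : η ∈ pvrgEnd ε e D G q' :=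
  pvrg_frc_anti ε (e.K ∪ D) e.y G (pvdyQ ε e.K e.y e.A) h hη

theorem pvkyn_Fo_anti {q q' : ℝ≥0∞} (h : q' ≤ q) {ε : ℝ} {z : ℂ} {t : τ} {η : Conf PvPt} (hη : η ∈ pvrgFo 𝔓 𝔈 q m ε z t) : η ∈ pvrgFo 𝔓 𝔈 q' m ε z t := by
  unfold pvrgFo at hη ⊢
  rw [mem_ofPred_eq] at hη ⊢
  exact pvkyn_end_anti h hη

theorem pvkyn_Fi_anti {q q' : ℝ≥0∞} (h : q' ≤ q) {ε : ℝ} {z : ℂ} {t : τ} {η : Conf PvPt} (hη : η ∈ pvrgFi 𝔓 𝔈 q m ε z t) : η ∈ pvrgFi 𝔓 𝔈 q' m ε z t := by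
  unfold pvrgFi at hη ⊢
  rw [mem_ofPred_eq] at hη ⊢
  exact pvkyn_end_anti h hη

theorem pvkyn_SqO {ε : ℝ} {z : ℂ} {t : τ} {η : Conf PvPt} (h : η ∈ pvyk1SqO 𝔓 𝔈 m ε z t) : η ∈ pvueSq (𝔈.kit m ε) ε (pvilEoAt 𝔓 𝔈 m ε pvilQ z t η) (pvieZo 𝔓 m z t) ((𝔓.Γ m).dout t) := by
  unfold pvyk1SqO at h
  rw [mem_ofPred_eq] at h
  exact h

theorem pvkyn_SqI {ε : ℝ} {z : ℂ} {t : τ} {η : Conf PvPt} (h : η ∈ pvyk1SqI 𝔓 𝔈 m ε z t) : η ∈ pvueSq (𝔈.kit m ε) ε (pvilEiAt 𝔓 𝔈 m ε pvilQ z t η) (pvieZi 𝔓 m z t) ((𝔓.Γ m).din t) := by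
  unfold pvyk1SqI at h
  rw [mem_ofPred_eq] at h
  exact h

theorem pvkyn_Po_ok {ε : ℝ} {z : ℂ} {t : τ} {Z : Set (ℤ × ℤ)} (F : Set ℂ) {ζ : Conf PvPt} (h : pvyk1Po 𝔓 𝔈 m ε z t Z ζ) :
    pvbqOk (pvP ε) (pvilMo 𝔓 𝔈 m ε z t Z ∩ {η | (pvilLo 𝔓 𝔈 m z t).X 𝔓.num (𝔓.col t) pvilQ η = (pvilEo 𝔓 𝔈 m ε pvilQ z t Z F).X η})
      ((pvilMo 𝔓 𝔈 m ε z t Z).indicator ((pvilLo 𝔓 𝔈 m z t).X 𝔓.num (𝔓.col t) pvilQ)) ζ := by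
  unfold pvyk1Po pvyk1Fo at h
  exact h.1

theorem pvkyn_Pi_ok {ε : ℝ} {z : ℂ} {t : τ} {Z : Set (ℤ × ℤ)} (F : Set ℂ) {ζ : Conf PvPt} (h : pvyk1Pi 𝔓 𝔈 m ε z t Z ζ) :
    pvbqOk (pvP ε) (pvilMi 𝔓 𝔈 m ε z t Z ∩ {η | (pvilLi 𝔓 𝔈 m z t).X 𝔓.num (𝔓.col t) pvilQ η = (pvilEi 𝔓 𝔈 m ε pvilQ z t Z F).X η})
      ((pvilMi 𝔓 𝔈 m ε z t Z).indicator ((pvilLi 𝔓 𝔈 m z t).X 𝔓.num (𝔓.col t) pvilQ)) ζ := by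
  unfold pvyk1Pi pvyk1Fi at h
  exact h.1

end base

section rec

variable {τ : Type} {c : ℝ} {𝔓 : PvxPar τ c} {𝔈 : PvieEng τ} {m : ℕ} {π : PvxIx τ} {𝔎 : PvxnKit} {i : PvxnIx} {Y : Set ℂ} {σ : ℂ → Bool} {ε : ℝ}

/-- the body of the guard in the words of 214 -/
theorem pvkyn_S_G {qf : ℝ≥0∞} {ζ : Conf PvPt} (h : ζ ∈ pvkynS 𝔓 𝔈 m π qf ε) : Pvyk1G 𝔓 𝔈 m π qf ε (pvxnFl (𝔓.col π.p.ts) ζ) :=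
  ⟨h.1, h.2.1, h.2.2.1, h.2.2.2.1, h.2.2.2.2⟩

/-- **WHAT ONE BASE OWES, AT THE MODEL, FROM (GEO) OF 214** -/
theorem pvkyn_bs {m0 : ℕ} {Cth : ℝ} {r κs : ℕ → ℝ} (hW : 𝔓.Wf) (H : PvieEng.Wf 𝔓 𝔈 m0 Cth r κs) (G : Pvyk1Geo 𝔓 𝔈 m π ε)
    (hb : ∀ t, (𝔓.ty t).b * pvlmH m ≤ pviwRad 𝔓 m t) {x : ℂ} {R₀ : ℝ} (hπ : π ∈ pvxPatSet 𝔓 x R₀ m)
    {β' q B : ℝ≥0∞} {r' : ℝ} (hk : PvcnOkQ (𝔈.kit m ε) ε (𝔈.XQ m ε) β' q B r') {qf : ℝ≥0∞} (hq : qf ≠ 0)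
    {S : Set (Conf PvPt)} (hS : S ⊆ pvkynS 𝔓 𝔈 m π qf ε) (hC : 𝔎.C = pvieCc 𝔓 𝔈 m ε π.p) (hY : DelGood Y) (hA : PvxnPA 𝔓 m π 0 (𝔎.guard S) i Y σ)
    (hP : PvkynPl 𝔓 𝔈 m π (𝔎.guard S) ε) :
    ∃ fo fi : PvkeFun ℂ, PvyjBs (𝔎.guard S).C (𝔈.kit m ε) ε (𝔓.col π.p.ts) (𝔈.XQ m ε) (pvieZo 𝔓 m π.p.zt π.p.tt) ((𝔓.Γ m).dout π.p.tt) π.p.l
      (fun η₀ => pvilEoAt 𝔓 𝔈 m ε pvilQ π.p.zt π.p.tt η₀) (fun η₀ => pvilEiAt 𝔓 𝔈 m ε pvilQ π.p.zs π.p.ts η₀)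
      (pvyk1D β' q qf π.p.l.length) (pvilYfc 𝔓 𝔈 m π.p) (pvyjEoR 𝔓 𝔈 m π ε (π.Zt, π.Zs)) (pvyjEiR 𝔓 𝔈 m π ε (π.Zt, π.Zs)) i.F i.N Y
      (pvjbC (𝔓.col π.p.ts) σ) (pvilFo 𝔓 m π.p.zt π.p.tt (cfOf Y (pvjbC (𝔓.col π.p.ts) σ))) (pvilFi 𝔓 m π.p.zs π.p.ts (cfOf Y (pvjbC (𝔓.col π.p.ts) σ))) fo fi β' q (min qf 1) (min qf 1) := by
  obtain ⟨Po, Pi⟩ := hP Y i σ hY hA
  obtain ⟨hg, hA'⟩ := (pvn1a_PA 𝔓 m π 0 𝔎 S).1 hA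
  obtain ⟨-, ⟨𝔇, hw, -⟩, -⟩ := hA'
  obtain ⟨hG, Rc⟩ := pvyk1_base hW H hπ hk G hq hY.lf.countable (pvkyn_S_G (hS hg))
  have eC : (𝔎.guard S).C = pvieCc 𝔓 𝔈 m ε π.p := hC
  rw [eC]
  have hcol : 𝔓.col π.p.ts = 𝔓.col π.p.tt := hπ.1.2.2.2.2.2.1
  have hδ := pvlm_Del_pos c m
  obtain ⟨hZ, hD⟩ := pvyj_door (𝔈 := 𝔈) (ε := ε) hW hπ.1.1 (H.kit_del m ε)
  have hdi : (𝔓.Γ m).din π.p.ts ≠ 0 := pvyj_din_ne hπ.1.1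
  have gGo := hG.gd.2.1
  have gGi := hG.gd.2.2
  rw [cfOf_sites] at gGo gGi
  have wo := Rc.wo
  have wi := Rc.wi
  rw [Rc.eo] at wo
  rw [Rc.ei] at wi
  have Eo := pvkyl_end_o (𝔓 := 𝔓) (𝔈 := 𝔈) (m := m) (ε := ε) (w := pvilQ) (z := π.p.zt) (t := π.p.tt) (Z := ↑π.Zt) (F := pvilFo 𝔓 m π.p.zt π.p.tt (cfOf Y (pvjbC (𝔓.col π.p.ts) σ)))
    (C := pvieCc 𝔓 𝔈 m ε π.p) (D := pvkyDoor (𝔈.kit m ε) (pvieZo 𝔓 m π.p.zt π.p.tt) ((𝔓.Γ m).dout π.p.tt)) (Y := Y) (Fz := pvilFo 𝔓 m π.p.zt π.p.tt (cfOf Y (pvjbC (𝔓.col π.p.ts) σ)))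
    π.Zt.finite_toSet (pvjh_Wno_meas H hk.wf π.p.zt π.p.tt ↑π.Zt) (wo.mK.union (pvnm_door 𝔈 hk.wf _ (pvth_ne_zero ((𝔓.Γ m).dout1 _)))) (fun v _ hv h => h.2 hv)
    (Subset.antisymm (fun v hv => ⟨wo.win hv, hv.2⟩) fun v hv => ⟨wo.sub hv.1, hv.2⟩) gGo (fun ζ h => pvkyn_Po_ok _ h) (fun v _ hv => hv.1) Po
  have Ei := pvkyl_end_i (𝔓 := 𝔓) (𝔈 := 𝔈) (m := m) (ε := ε) (w := pvilQ) (z := π.p.zs) (t := π.p.ts) (Z := ↑π.Zs) (F := pvilFi 𝔓 m π.p.zs π.p.ts (cfOf Y (pvjbC (𝔓.col π.p.ts) σ)))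
    (C := pvieCc 𝔓 𝔈 m ε π.p) (D := pvkyDoor (𝔈.kit m ε) (pvieZi 𝔓 m π.p.zs π.p.ts) ((𝔓.Γ m).din π.p.ts))
    (Y := Y) (Fz := pvilFi 𝔓 m π.p.zs π.p.ts (cfOf Y (pvjbC (𝔓.col π.p.ts) σ)))
    π.Zs.finite_toSet (pvjh_Wni_meas H hk.wf π.p.zs hdi ↑π.Zs) (wi.mK.union (pvnm_door 𝔈 hk.wf _ hdi)) (fun v _ hv h => h.2 hv)
    (Subset.antisymm (fun v hv => ⟨wi.win hv, hv.2⟩) fun v hv => ⟨wi.sub hv.1, hv.2⟩) gGi (fun ζ h => pvkyn_Pi_ok _ h) (fun v _ hv => hv.1) Pi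
  have FoB : pvilFo 𝔓 m π.p.zt π.p.tt (cfOf Y (pvjbC (𝔓.col π.p.ts) σ)) ⊆ pvilWz 𝔓 m π.p.zt π.p.tt ↑π.Zt := by
    have := pvza_Fo_Wz (hb π.p.tt) hδ π.p.zt (cfOf Y (pvjbC (𝔓.col π.p.ts) σ))
    rwa [hG.Zo] at this
  have FiB : pvilFi 𝔓 m π.p.zs π.p.ts (cfOf Y (pvjbC (𝔓.col π.p.ts) σ)) ⊆ pvilWz 𝔓 m π.p.zs π.p.ts ↑π.Zs := by
    have := pvza_Fi_Wz (hb π.p.ts) hδ π.p.zs (cfOf Y (pvjbC (𝔓.col π.p.ts) σ))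
    rwa [hG.Zi] at this
  refine ⟨pvkyiFun (𝔈.kit m ε) ε (𝔓.col π.p.ts) (pvieCc 𝔓 𝔈 m ε π.p) (pvilYfc 𝔓 𝔈 m π.p) (cfOf Y (pvjbC (𝔓.col π.p.ts) σ))
      (pvilEoAt 𝔓 𝔈 m ε pvilQ π.p.zt π.p.tt (cfOf Y (pvjbC (𝔓.col π.p.ts) σ))) (pvieZo 𝔓 m π.p.zt π.p.tt) ((𝔓.Γ m).dout π.p.tt) (min qf 1),
    pvkyiFun (𝔈.kit m ε) ε (𝔓.col π.p.ts) (pvieCc 𝔓 𝔈 m ε π.p) (pvilYfc 𝔓 𝔈 m π.p) (cfOf Y (pvjbC (𝔓.col π.p.ts) σ))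
      (pvilEiAt 𝔓 𝔈 m ε pvilQ π.p.zs π.p.ts (cfOf Y (pvjbC (𝔓.col π.p.ts) σ))) (pvieZi 𝔓 m π.p.zs π.p.ts) ((𝔓.Γ m).din π.p.ts) (min qf 1), ?_⟩
  refine { hD := pvyk1_D_le hk.frc _ _, ch := Rc.chain, Bo := ?_, Bi := ?_, Fo_sub := fun v _ hv => pvkyn_Fo_sub hW hcol hY hw hv, Fi_sub := fun v _ hv => pvkyn_Fi_sub hW hY hw hv,
           fr_o := ?_, fr_i := ?_, bo := ?_, bi := ?_, base := ?_, rAo := ?_, rXo := ?_, rAi := ?_, rXi := ?_ }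
  · show PvbqEnd _ _ _ (pvilEoAt 𝔓 𝔈 m ε pvilQ π.p.zt π.p.tt (cfOf Y (pvjbC (𝔓.col π.p.ts) σ))) _ _ _
    rw [Rc.eo]
    exact Eo.1
  · show PvbqEnd _ _ _ (pvilEiAt 𝔓 𝔈 m ε pvilQ π.p.zs π.p.ts (cfOf Y (pvjbC (𝔓.col π.p.ts) σ))) _ _ _
    rw [Rc.ei, ← hZ, ← hD]
    exact Ei.1
  · rintro v _ hv (h | h)
    · exact h.2 hv
    · exact Set.disjoint_left.1 G.far_o (FoB hv) h.1
  · rintro v _ hv (h | h)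
    · exact Set.disjoint_left.1 G.far_i (FiB hv) h.1
    · exact h.2 hv
  · show PvbqBlind _ _ (pvilEoAt 𝔓 𝔈 m ε pvilQ π.p.zt π.p.tt (cfOf Y (pvjbC (𝔓.col π.p.ts) σ))).A (pvilEoAt 𝔓 𝔈 m ε pvilQ π.p.zt π.p.tt (cfOf Y (pvjbC (𝔓.col π.p.ts) σ))).X _ _
      ((pvilEoAt 𝔓 𝔈 m ε pvilQ π.p.zt π.p.tt (cfOf Y (pvjbC (𝔓.col π.p.ts) σ))).y _ \ i.N) _
    rw [Rc.eo]
    exact Eo.2
  · show PvbqBlind _ _ (pvilEiAt 𝔓 𝔈 m ε pvilQ π.p.zs π.p.ts (cfOf Y (pvjbC (𝔓.col π.p.ts) σ))).A (pvilEiAt 𝔓 𝔈 m ε pvilQ π.p.zs π.p.ts (cfOf Y (pvjbC (𝔓.col π.p.ts) σ))).X _ _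
      ((pvilEiAt 𝔓 𝔈 m ε pvilQ π.p.zs π.p.ts (cfOf Y (pvjbC (𝔓.col π.p.ts) σ))).y _ \ i.N) _
    rw [Rc.ei]
    exact Ei.2
  · intro σ' hs
    obtain ⟨e1, e2, e3, e4⟩ := pvkyn_base hW hcol hY hw hs
    refine ⟨pvkyl_Eo_congr e2 e1, pvkyl_Ei_congr e4 e3, ?_⟩
    unfold pvilYfc
    rw [e1, e3]
  · show (pvilEoAt 𝔓 𝔈 m ε pvilQ π.p.zt π.p.tt (cfOf Y (pvjbC (𝔓.col π.p.ts) σ))).A = _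
    rw [Rc.eo]
    rfl
  · show (pvilEoAt 𝔓 𝔈 m ε pvilQ π.p.zt π.p.tt (cfOf Y (pvjbC (𝔓.col π.p.ts) σ))).X = _
    rw [Rc.eo]
    rfl
  · show (pvilEiAt 𝔓 𝔈 m ε pvilQ π.p.zs π.p.ts (cfOf Y (pvjbC (𝔓.col π.p.ts) σ))).A = _
    rw [Rc.ei]
    rfl
  · show (pvilEiAt 𝔓 𝔈 m ε pvilQ π.p.zs π.p.ts (cfOf Y (pvjbC (𝔓.col π.p.ts) σ))).X = _
    rw [Rc.ei]
    rfl

/-- **THE CONTRACT OF 93 AT THE GUARDED KITS, FROM (GEO) OF 214 AND (P2)** -/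
theorem pvkyn_inL (hW : 𝔓.Wf) (hE : PvnaWf 𝔓 𝔈) (hGeo : ∀ᶠ ε in 𝓝[>] (0 : ℝ), Pvyk1Geo 𝔓 𝔈 m π ε) (hb : ∀ t, (𝔓.ty t).b * pvlmH m ≤ pviwRad 𝔓 m t)
    {x : ℂ} {R₀ : ℝ} (hπ : π ∈ pvxPatSet 𝔓 x R₀ m) {qf : ℝ≥0∞} (hq : qf ≠ 0) {β' q B : ℝ≥0∞} (hk : ∀ᶠ ε in 𝓝[>] (0 : ℝ), ∃ r' : ℝ, PvcnOkQ (𝔈.kit m ε) ε (𝔈.XQ m ε) β' q B r')
    {𝔎s : ℝ → PvxnKit} {S : ℝ → Set (Conf PvPt)} (hS : ∀ᶠ ε in 𝓝[>] (0 : ℝ), S ε ⊆ pvkynS 𝔓 𝔈 m π qf ε) (hC : ∀ᶠ ε in 𝓝[>] (0 : ℝ), (𝔎s ε).C = pvieCc 𝔓 𝔈 m ε π.p)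
    (hP : ∀ᶠ ε in 𝓝[>] (0 : ℝ), PvkynPl 𝔓 𝔈 m π ((𝔎s ε).guard (S ε)) ε) :
    pvyk1D β' q qf π.p.l.length ≠ ∞ ∧ PvyjInL 𝔓 𝔈 m π (fun ε => (𝔎s ε).guard (S ε)) (pvyk1D β' q qf π.p.l.length) fun _ => pvilYfc 𝔓 𝔈 m π.p := by
  obtain ⟨Cth, r, κs, H⟩ := hE.wf
  refine ⟨?_, ?_⟩
  · obtain ⟨ε, r', h⟩ := hk.exists
    exact pvyk1_D_ne_top h.frc.β0 h.frc.q0 hq _
  · refine PvyjIn.of_blind (Eventually.of_forall fun ε => pvyj_door hW hπ.1.1 (H.kit_del m ε)) ?_ ?_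
    · filter_upwards [hk, hC, hGeo] with ε h1 h2 h3
      obtain ⟨r', h1⟩ := h1
      obtain ⟨hZ, hD⟩ := pvyj_door (𝔈 := 𝔈) (ε := ε) hW hπ.1.1 (H.kit_del m ε)
      show MeasurableSet (𝔎s ε).C
      rw [h2]
      exact pvjh_pw_C_meas H h1.wf h3.d4 hZ hD
    · filter_upwards [hk, hC, hS, hP, hGeo] with ε h1 h2 h3 h4 h5 Y hY i σ hA
      obtain ⟨r', h1⟩ := h1
      obtain ⟨fo, fi, hbs⟩ := pvkyn_bs hW H h5 hb hπ h1 hq h3 h2 hY.1 hA h4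
      exact ⟨_, _, fo, fi, β', q, _, _, (π.Zt, π.Zs), pvyj_mem_L.2 rfl, fun p hp => pvyj_mem_L.1 hp, hbs⟩

end rec

/-! ## 3. at the binders of record: (Y-IN) = `exit_pvyy_in` of 12 -/

section recR

variable {c : ℝ}

theorem pvkyn_S_eq {τ : Type} (𝔓 : PvxPar τ c) (𝔈 : PvieEng τ) (m : ℕ) (π : PvxIx τ) (qf : ℝ≥0∞) (ε : ℝ) : pvyyS 𝔓 𝔈 m π qf ε = pvkynS 𝔓 𝔈 m π qf ε := rfl

theorem pvkyn_hb_rec (N : PvxNums) (hN : N.Ok) (m : ℕ) (t : pvxTau N) : ((pvxParOf N hN c).ty t).b * pvlmH m ≤ pviwRad (pvxParOf N hN c) m t := by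
  have hh := pvlm_H_pos m
  have h1 : ((pvxParOf N hN c).ty t).b ≤ 2 * ((pvxParOf N hN c).ty t).b2 := by
    show N.b1 ≤ 2 * N.b2
    linarith [hN.gap, hN.ab2, hN.rho_lt_one, hN.b2_pos, hN.rho0]
  have hk : 0 ≤ (((pvxParOf N hN c).ty t).k : ℝ) * (pvxParOf N hN c).num.rho1 := mul_nonneg (Nat.cast_nonneg _) hN.rho1_pos.le
  unfold pviwRad pvwRad
  nlinarith

theorem pvkyn_K_C {τ : Type} (𝔓 : PvxPar τ c) (𝔈 : PvieEng τ) (x : ℂ) (R : ℝ) (m : ℕ) (π : PvxIx τ) (r : ℝ) (q : ℝ≥0∞) (Rg : ℝ → ∀ Y : Set ℂ, PvwDat (delbPl Y).toMap → (↥Y → Bool) → Prop) (ε : ℝ) :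
    (pvyyK 𝔓 𝔈 x R m π r q Rg ε).C = pvieCc 𝔓 𝔈 m ε π.p := rfl

/-- **(Y-IN) AT THE GUARDED KITS OF RECORD, FROM (P2)** -/
theorem pvkyn_in_rec (c0 : 0 < c) (N : PvxNums) (hN : N.Ok) (𝔈 : PvieEng (pvxTau N)) (hE : PvnaWf (pvxParOf N hN c) 𝔈) (hR : PvnaRec N hN c 𝔈) {x : ℂ} {R : ℝ} {m : ℕ} {π : PvxIx (pvxTau N)}
    (hm : (pvxParOf N hN c).m0 ≤ m) (hπ : π ∈ pvxPatSet (pvxParOf N hN c) x R m) {r : ℝ}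
    (q : ℝ≥0∞) {qf : ℝ≥0∞} (hqf : qf ≠ 0) {Rg : ℝ → ∀ Y : Set ℂ, PvwDat (delbPl Y).toMap → (↥Y → Bool) → Prop}
    {S : ℝ → Set (Conf PvPt)} (hS : ∀ ε, S ε ⊆ pvyyS (pvxParOf N hN c) 𝔈 m π qf ε) {β' qc : ℝ≥0∞} {CB : ℝ}
    (hk : ∀ᶠ ε in 𝓝[>] (0 : ℝ), ∃ r' : ℝ, PvcnOkQ (𝔈.kit m ε) ε (𝔈.XQ m ε) β' qc (ENNReal.ofReal (CB * pvlmDel c m ^ 2)) r')
    (hP : ∀ᶠ ε in 𝓝[>] (0 : ℝ), PvkynPl (pvxParOf N hN c) 𝔈 m π ((pvyyK (pvxParOf N hN c) 𝔈 x R m π r q Rg ε).guard (S ε)) ε) :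
    ∃ D : ℝ≥0∞, D ≠ ⊤ ∧ ∃ yf : PvxnIx → Conf PvPt → Set ℂ, PvyjInL (pvxParOf N hN c) 𝔈 m π (fun ε => (pvyyK (pvxParOf N hN c) 𝔈 x R m π r q Rg ε).guard (S ε)) D yf := by
  obtain ⟨h1, h2⟩ := pvkyn_inL (pvxo_wf N hN c) hE (pvjh_pg_geo_ev c0 hE hR hm hπ) (pvkyn_hb_rec N hN m) hπ hqf hk (𝔎s := pvyyK (pvxParOf N hN c) 𝔈 x R m π r q Rg) (S := S)
    (Eventually.of_forall hS) (Eventually.of_forall fun ε => rfl) hP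
  exact ⟨_, h1, _, h2⟩

end recR

end Claimed.Agent.R289
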