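import Claimed.Agent.R289.Tr.DomEN
import Claimed.Agent.R289.Tr.C2Col

/-!
# Row 289 (S0537), THE WALL, ROAD E, file Exit/N1RD : THE KIT OF RECORD v2 (`pvknKit`, `Tr/KitN1`) AGAINST THE CONTRACT OF `dom` (104 `Tr/DomEN` sec. 3bis)      (helper29; prefix `pvkn_`)

* `PvdfSame.pvkn_nf _mf _nkf` : the classes `NF MF NKF` are functions of the used data
* **`pvkn_cm`** : `PvdkCm 𝔓 x R m π (pvknKit ..) (fun _ 𝔇 => 𝔇.MF val reg Far x (6R))`;   **`pvkn_cm_rec`** (at `B := closedBall x (6R)`, all debts paid from `hW hπ hLR` + `PvknReg`);   **`pvkn_cm_gE`** (any `guardE Rg`)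
* **`pvkn_wit_ok`** : a witness `PvxnWit` of the kit v2 is `Ok` AT THE PATTERN `reg.wc (Ycol ∪ Farᶜ)` (fields `sub far` + `pvkn_ok_wk`);   `pvkn_wit_far`, `pvkn_pr_ok`
* **`pvkn_cell_of`** : the field `cell` of `PvdkYm` at `M := MF` from `Int Z.Right ⊆ NU (reg.wc (Ycol ∪ Farᶜ))` (= the conclusion of `pvc5_cell`, `pvc5_cell_model` of 78);   `pvkn_cell_col` : from `Col` at any larger collar.      0 sorry.
-/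

set_option autoImplicit false
set_option linter.unusedVariables false

namespace Claimed.Agent.R289

open MeasureTheory Set Filter Topology Claims.C0465
open scoped ENNReal

section free

variable {V D : Type} {T : PvMap V D} {𝔇 𝔇' : PvwDat T}

theorem PvdfSame.pvkn_nf (h : PvdfSame 𝔇 𝔇') (pos : V → ℂ) (π : PvwPat) (K : Set ℂ) : 𝔇.NF pos π K = 𝔇'.NF pos π K := by
  rw [pvkn_nf_eq, pvkn_nf_eq, h.NU]

theorem PvdfSame.pvkn_mf (h : PvdfSame 𝔇 𝔇') (pos : V → ℂ) (π : PvwPat) (K : Set ℂ) (x : ℂ) (r₂ : ℝ) : 𝔇.MF pos π K x r₂ = 𝔇'.MF pos π K x r₂ := by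
  unfold PvwDat.MF
  rw [h.pvkn_nf]

theorem PvdfSame.pvkn_nkf (h : PvdfSame 𝔇 𝔇') (pos : V → ℂ) (π : PvwPat) (K : Set ℂ) (x : ℂ) (r₂ : ℝ) : 𝔇.NKF pos π K x r₂ = 𝔇'.NKF pos π K x r₂ := by
  unfold PvwDat.NKF
  rw [h.pvkn_mf, h.fzY, h.verts, h.apx]

/-- `NF` in the words of 78 -/
theorem pvkn_nf_wc (𝔇 : PvwDat T) (pos : V → ℂ) (π : PvwPat) (K : Set ℂ) : 𝔇.NF pos π K = 𝔇.NU pos (π.wc (π.Ycol ∪ Kᶜ)) := pvkn_nf_eq 𝔇 pos π K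

end free

section kit

variable {τ : Type} {c : ℝ} {𝔓 : PvxPar τ c} {x : ℂ} {R : ℝ} {m : ℕ} {π : PvxIx τ}

/-- **`PvdkCm` (104) AT THE KIT OF RECORD v2**, `M := MF` -/
theorem pvkn_cm {C : Set ℂ} {r : ℝ} {B : Set ℂ} {mB : MeasurableSet B} {q : ℝ≥0∞} (hB : Bornology.IsBounded B) (hsub : Metric.closedBall x (6 * R) ⊆ B)
    (hreg : PvdfReg 𝔓.num (pvlmH m) (𝔓.reg m π) B) :
    PvdkCm 𝔓 x R m π (pvknKit 𝔓 x R m π C r B mB q) (fun _ 𝔇 => 𝔇.MF Subtype.val (𝔓.reg m π) (pvgeFar C r) x (6 * R)) where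
  E_nb _ _ _ h := h
  W_wk _ _ _ _ _ _ h := h
  N_same _ 𝔇 𝔇' h := h.pvkn_nkf _ _ _ _ _
  B_bdd := hB
  B_sub := hsub
  reg := hreg

/-- the same at `B := closedBall x (6R)`, every debt paid from the index and `PvknReg` -/
theorem pvkn_cm_rec (hW : 𝔓.Wf) (hπ : π ∈ pvxPatSet 𝔓 x R m) (hLR : 𝔓.𝔐.L * pvlmH m + pvlmH m ≤ R) (C : Set ℂ) (r : ℝ) (q : ℝ≥0∞)
    (G : PvknReg (𝔓.reg m π) x (5 * R) (6 * R)) :
    PvdkCm 𝔓 x R m π (pvknKit 𝔓 x R m π C r (Metric.closedBall x (6 * R)) measurableSet_closedBall q) (fun _ 𝔇 => 𝔇.MF Subtype.val (𝔓.reg m π) (pvgeFar C r) x (6 * R)) :=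
  pvkn_cm Metric.isBounded_closedBall Subset.rfl (pvdk_reg_of hW hπ hLR Subset.rfl fun z hz => mem_closedBall_iff_norm.2 (by linarith [G.yin z hz, G.r12]))

/-- the same under any deterministic guard (layer 1 of 159 / 170) -/
theorem pvkn_cm_gE (hW : 𝔓.Wf) (hπ : π ∈ pvxPatSet 𝔓 x R m) (hLR : 𝔓.𝔐.L * pvlmH m + pvlmH m ≤ R) (C : Set ℂ) (r : ℝ) (q : ℝ≥0∞)
    (G : PvknReg (𝔓.reg m π) x (5 * R) (6 * R)) (Rg : ∀ Y : Set ℂ, PvwDat (delbPl Y).toMap → (↥Y → Bool) → Prop) :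
    PvdkCm 𝔓 x R m π ((pvknKit 𝔓 x R m π C r (Metric.closedBall x (6 * R)) measurableSet_closedBall q).guardE Rg) (fun _ 𝔇 => 𝔇.MF Subtype.val (𝔓.reg m π) (pvgeFar C r) x (6 * R)) :=
  (pvkn_cm_rec hW hπ hLR C r q G).of_le (fun _ _ _ h => h.2) (fun _ _ _ h => h) rfl rfl

variable {a : ℂ} {C : Set ℂ} {r : ℝ} {B : Set ℂ} {mB : MeasurableSet B} {q : ℝ≥0∞}

/-- the frozen sites of a witness of the kit v2 are far from `C` -/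
theorem pvkn_wit_far {Y : Set ℂ} {i : PvxnIx} {σ : ↥Y → Bool} {𝔇 : PvwDat (delbPl Y).toMap} (h : PvxnWit 𝔓 m π a (pvknKit 𝔓 x R m π C r B mB q) Y i σ 𝔇) :
    ∀ v ∈ 𝔇.fz, (v : ℂ) ∈ pvgeFar C r := fun v hv => h.far v (h.sub hv)

/-- **A WITNESS OF THE KIT v2 IS `Ok` AT THE PATTERN WITH THE COLLAR `Ycol ∪ Farᶜ`** -/
theorem pvkn_wit_ok (hwf : (𝔓.reg m π).Wf) {Y : Set ℂ} {i : PvxnIx} {σ : ↥Y → Bool} {𝔇 : PvwDat (delbPl Y).toMap} (h : PvxnWit 𝔓 m π a (pvknKit 𝔓 x R m π C r B mB q) Y i σ 𝔇) :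
    𝔇.Ok Subtype.val 𝔓.num (pvlmH m) ((𝔓.reg m π).wc ((𝔓.reg m π).Ycol ∪ (pvgeFar C r)ᶜ)) :=
  pvkn_ok_wk h.ok hwf (pvkn_wit_far h) h.sub

/-- the same for the present data of `dom` -/
theorem pvkn_pr_ok (hwf : (𝔓.reg m π).Wf) {η : Conf PvPt} {i : PvxnIx} {𝔇 : PvwDat (delbPl (cfSites η)).toMap} (h : PvdfPr 𝔓 m π a (pvknKit 𝔓 x R m π C r B mB q) η i 𝔇) :
    𝔇.Ok Subtype.val 𝔓.num (pvlmH m) ((𝔓.reg m π).wc ((𝔓.reg m π).Ycol ∪ (pvgeFar C r)ᶜ)) := pvkn_wit_ok hwf h.1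

/-- **(CELL) AT `M := MF`** from the conclusion of `pvc5_cell`, `pvc5_cell_model` (78) -/
theorem pvkn_cell_of {Y : Set ℂ} {𝔇 : PvwDat (delbPl Y).toMap} {q' : (delbPl Y).toMap.Pth} {hg : 𝔇.g.Glue q'}
    (h : (delbPl Y).toMap.Int (𝔇.g.glue q' hg).Right ⊆ 𝔇.NU Subtype.val ((𝔓.reg m π).wc ((𝔓.reg m π).Ycol ∪ (pvgeFar C r)ᶜ))) :
    ∀ v : ↥Y, ‖(v : ℂ) - x‖ ≤ 6 * R → v ∈ (delbPl Y).toMap.Int (𝔇.g.glue q' hg).Right → v ∈ 𝔇.MF Subtype.val (𝔓.reg m π) (pvgeFar C r) x (6 * R) := by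
  intro v h1 h2
  refine ⟨?_, h1⟩
  rw [pvkn_nf_wc]
  exact h h2

/-- (CELL) at `M := MF` from `Col` at any larger collar -/
theorem pvkn_cell_col {Y : Set ℂ} (hY : DelGood Y) {𝔇 : PvwDat (delbPl Y).toMap} {σ : ↥Y → Bool} (hOk : 𝔇.Ok Subtype.val 𝔓.num (pvlmH m) (𝔓.reg m π)) (hs : 𝔇.s.gp ∉ 𝔇.t.ins) (ht : 𝔇.t.gm ∉ 𝔇.s.ins)
    {S' : Set ℂ} (hS : (𝔓.reg m π).Ycol ∪ (pvgeFar C r)ᶜ ⊆ S') (hcol : 𝔇.Col Subtype.val ((𝔓.reg m π).wc S')) (hσ : σ ∈ 𝔇.Cyl) :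
    ∀ (q' : (delbPl Y).toMap.Pth) (hg : 𝔇.g.Glue q'), 𝔇.IsShield Subtype.val (𝔓.reg m π) σ q' → ∀ v : ↥Y, ‖(v : ℂ) - x‖ ≤ 6 * R → v ∈ (delbPl Y).toMap.Int (𝔇.g.glue q' hg).Right →
      v ∈ 𝔇.MF Subtype.val (𝔓.reg m π) (pvgeFar C r) x (6 * R) :=
  fun q' hg hq => pvkn_cell_of (pvc5_cell (delb_plane_isSph hY) 𝔇 hOk hs ht hS hcol hσ hq hg)

end kit

end Claimed.Agent.R289
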