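import Claimed.Agent.R289.Tr.ColPR
import Claimed.Agent.R289.Tr.C2ColR
import Claimed.Agent.R289.Exit.N1RD
import Claimed.Agent.R289.Exit.Par

/-!
# Row 289 (S0537), THE WALL, ROAD E, file Exit/N1YC : **(Y-CELL)** = `exit_pvyy_cell` OF `Exit/N1YT` (12), PROVED      (helper63; prefix `pvq8_`)

BELOW `Exit/N1YT` (that file may import this one: no name of `N1YT` is used; `pvyyK`, `pvyyM`, `PvyyRg` are written out, they unfold by `rfl`).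
(CELL): for a present datum of the kit v2 of 29 guarded by layer 1 (mesh off `C`), with an arc of `SY` in hand, the sites of the patch in the open cell of EVERY shield lie in `MF(D)`.
ROUTE B (`Tr/ColP`, `Tr/ColPR`): the ONLY analytic input is the mesh off `C` (layer 1).      NOT USED: the guard of layer 2, the success of the chain, (MESH-C), `Col`.
* `pvq8_geo`       (GEO) from the mesh off `C` (same proof as `pvyy_geo` of 12, which sits above this file)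
* **`pvq8_cell_one`**  one configuration, ANY parameter `𝔓` (`Wf`, `PvfhWf`, `64 δ ≤ ρ h`, `pviwTyOk`), any `C ⊆ pvc6T 𝔓 m π.p` (skeleton of 78), `48 r ≤ δ`
* **`pvq8_cell`**      the statement of `exit_pvyy_cell` at `pvxParOf N hN c`, from `hC : ∀ᶠ ε, pvieCc ⊆ pvc6T ∧ Nonempty` (78 `Exit/N1CcR`: `pvc6_Cc_rec`)
-/

set_option autoImplicit false
set_option linter.unusedVariables false

namespace Claimed.Agent.R289

open MeasureTheory Filter Topology Set Claims.C0465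
open scoped ENNReal

section gen

variable {τ : Type} {c : ℝ} {𝔓 : PvxPar τ c} {x : ℂ} {R : ℝ} {m : ℕ} {π : PvxIx τ}

/-- **(GEO)** from the mesh off `C`: the gate discs are far from `C` (`PvknGeo.ks kt`), `m h + h < a h < b h` -/
theorem pvq8_geo (hW : 𝔓.Wf) (hb : ∀ t, (𝔓.ty t).b ≤ 2 * (𝔓.ty t).b2) (hπ : π ∈ pvxPatSet 𝔓 x R m) (hLR : 𝔓.𝔐.L * pvlmH m + pvlmH m ≤ R) {C : Set ℂ} {r : ℝ}
    (G : PvknGeo 𝔓.num (pvlmH m) (𝔓.reg m π) x (5 * R) (6 * R) C r) (hr2 : 2 * r ≤ pvlmH m) {Y : Set ℂ} (𝔇 : PvwDat (delbPl Y).toMap) (hOk : 𝔇.Ok Subtype.val 𝔓.num (pvlmH m) (𝔓.reg m π))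
    (hmesh : VorDense Y (pvn1kOff x R C r) r) : 𝔇.Geo Subtype.val 𝔓.num (pvlmH m) (𝔓.reg m π) := by
  have hh := pvlm_H_pos m
  have hr := G.r0
  have key : ∀ (z : ℂ) (t : τ), ‖z - x‖ ≤ 3 * R → Metric.closedBall z ((𝔓.ty t).b * pvlmH m) ⊆ pvgeFar C r → VorDense Y (Metric.closedBall z (𝔓.num.m * pvlmH m + pvlmH m)) r := by
    intro z t hz hfar
    have h1 : 𝔓.num.m * pvlmH m + pvlmH m < (𝔓.ty t).a * pvlmH m := pvdc_wf_num 𝔓 hW.toWfB t hh le_rfl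
    have h2 : (𝔓.ty t).a * pvlmH m < (𝔓.ty t).b * pvlmH m := mul_lt_mul_of_pos_right (hW.ab t) hh
    have h3 : (𝔓.ty t).b * pvlmH m ≤ 𝔓.𝔐.L * pvlmH m := mul_le_mul_of_nonneg_right (hW.b_le t) hh.le
    refine pvn1k_mesh_sub (pvn1k_far_sub hr (fun w hw => ?_) fun w hw => hfar ?_) hmesh
    · rw [mem_closedBall_iff_norm] at hw
      have h4 : ‖w - x‖ ≤ ‖w - z‖ + ‖z - x‖ := by simpa using norm_add_le (w - z) (z - x)
      have h5 := norm_nonneg (w - z)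
      linarith
    · rw [mem_closedBall_iff_norm] at hw ⊢
      linarith
  obtain ⟨⟨-, -, -, hzs, hzt, -⟩, -⟩ := hπ.1, hπ.2
  refine pvdk_geo_of hW hb hπ 𝔇 hOk hr.le (by linarith) hr2 (key _ π.p.ts hzs ?_) (key _ π.p.tt hzt ?_)
  · have := G.ks
    rwa [hW.reg_zs, hW.reg_ts] at this
  · have := G.kt
    rwa [hW.reg_zt, hW.reg_tt] at this

/-- **(CELL) AT ONE CONFIGURATION, ANY PARAMETER**: a witness of `pvxnSys` (any kit), the mesh off `C`, `C` inside the skeleton of 78 -/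
theorem pvq8_cell_one (hW : 𝔓.Wf) (hF : PvfhWf 𝔓) (hfine : 64 * pvlmDel c m ≤ 𝔓.num.rho * pvlmH m) (hT : ∀ t, pviwTyOk 𝔓 t) (hπ : π ∈ pvxPatSet 𝔓 x R m) (hLR : 𝔓.𝔐.L * pvlmH m + pvlmH m ≤ R)
    (hL0 : 0 ≤ 𝔓.𝔐.L) {C : Set ℂ} {r : ℝ} (G : PvknGeo 𝔓.num (pvlmH m) (𝔓.reg m π) x (5 * R) (6 * R) C r) (h48 : 48 * r ≤ pvlmDel c m) (hC : C ⊆ pvc6T 𝔓 m π.p) (hne : C.Nonempty)
    {Y : Set ℂ} (hY : DelGood Y) {a : ℂ} {𝔎 : PvxnKit} {i : PvxnIx} {σ : ↥Y → Bool} {𝔇 : PvwDat (delbPl Y).toMap} (hwit : PvxnWit 𝔓 m π a 𝔎 Y i σ 𝔇) (hd : VorDense Y (pvn1kOff x R C r) r)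
    {y : (delbPl Y).toMap.Pth} (hy : 𝔇.YArc Subtype.val (𝔓.reg m π) σ y) {q : (delbPl Y).toMap.Pth} (hq : 𝔇.IsShield Subtype.val (𝔓.reg m π) σ q) (hg : 𝔇.g.Glue q) :
    ∀ v : ↥Y, ‖(v : ℂ) - x‖ ≤ 6 * R → v ∈ (delbPl Y).toMap.Int (𝔇.g.glue q hg).Right → v ∈ 𝔇.MF Subtype.val (𝔓.reg m π) (pvgeFar C r) x (6 * R) := by
  have hh := pvlm_H_pos m
  have hδ := pvlm_Del_pos c m
  have hr := G.r0
  obtain ⟨hρ0, hρ1⟩ := pvc6_rho_h hW m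
  have hL := pvc6_lev hW hF hfine
  have hΓ := hπ.1.1
  have hI := hπ.2.2.2.2.1
  have hl := pvc6_len_pos hW hL (hT _) (hT _) hΓ hI
  have hr2 : 2 * r ≤ pvlmH m := by linarith
  have hRh : pvlmH m ≤ R := by nlinarith
  have hins := (pvq8_geo hW hF.b_b2 hπ hLR G hr2 𝔇 hwit.ok hd).sep
  refine pvkn_cell_of (x := x) (R := R) fun v hv => ?_
  refine pvq7_cell_wit hW hF (by linarith) hπ hY hwit hins hy (pvc6_Nt_preconn 𝔓 m π.p) (pvc6_Ns_preconn 𝔓 m π.p) ⟨_, pvc6_first_lanes _ _ hl, pvc6_Nt_door hL (hT _)⟩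
    ⟨_, pvc6_last_lanes _ _ hl, pvc6_Ns_door hL (hT _) hΓ⟩ (pvc6_Nt_ball hL (hT _)) (pvc6_Ns_ball hL (hT _)) ?_ ?_ hC hne hr h48 (by linarith) ?_ hd hq hg v hv
  · intro z hz w hw
    have := pvc6_Nt_own hL (hT _) hz hw
    rw [norm_sub_rev] at this
    linarith
  · intro z hz w hw
    have := pvc6_Ns_own hL (hT _) hz hw
    rw [norm_sub_rev] at this
    linarith
  · intro z hz
    rw [mem_closedBall_iff_norm]
    exact (G.reg.yin z hz).le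

end gen

section rec

variable {c : ℝ}

/-- **(Y-CELL) = `exit_pvyy_cell` OF 12** (`pvyyK`, `pvyyM`, `PvyyRg` written out; the hypotheses on the guard of layer 2 and on the chain are not used) -/
theorem pvq8_cell (c0 : 0 < c) (N : PvxNums) (hN : N.Ok) (𝔈 : PvieEng (pvxTau N)) {x : ℂ} {R : ℝ} {m : ℕ} {π : PvxIx (pvxTau N)} (hm : (pvxParOf N hN c).m0 ≤ m) (hπ : π ∈ pvxPatSet (pvxParOf N hN c) x R m)
    {r : ℝ} (G : ∀ᶠ ε in 𝓝[>] (0 : ℝ), PvknGeo (pvxParOf N hN c).num (pvlmH m) ((pvxParOf N hN c).reg m π) x (5 * R) (6 * R) (pvieCc (pvxParOf N hN c) 𝔈 m ε π.p) r) (hr48 : 48 * r ≤ pvlmDel c m)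
    (q : ℝ≥0∞) {Rg : ℝ → ∀ Y : Set ℂ, PvwDat (delbPl Y).toMap → (↥Y → Bool) → Prop}
    (hRg : ∀ ε (Y : Set ℂ) (𝔇 : PvwDat (delbPl Y).toMap) (σ : ↥Y → Bool), Rg ε Y 𝔇 σ → VorDense Y (pvn1kOff x R (pvieCc (pvxParOf N hN c) 𝔈 m ε π.p) r) r)
    (hC : ∀ᶠ ε in 𝓝[>] (0 : ℝ), pvieCc (pvxParOf N hN c) 𝔈 m ε π.p ⊆ pvc6T (pvxParOf N hN c) m π.p ∧ (pvieCc (pvxParOf N hN c) 𝔈 m ε π.p).Nonempty) :
    ∀ᶠ ε in 𝓝[>] (0 : ℝ), ∀ᵐ η ∂pvP ε, ∀ i 𝔇,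
      PvdfPr (pvxParOf N hN c) m π 0 ((pvknKit (pvxParOf N hN c) x R m π (pvieCc (pvxParOf N hN c) 𝔈 m ε π.p) r (Metric.closedBall x (6 * R)) measurableSet_closedBall q).guardE (Rg ε)) η i 𝔇 →
      ∀ y, 𝔇.YArc Subtype.val ((pvxParOf N hN c).reg m π) (pvdfCol η) y → ∀ (p : (delbPl (cfSites η)).toMap.Pth) (hg : 𝔇.g.Glue p), 𝔇.IsShield Subtype.val ((pvxParOf N hN c).reg m π) (pvdfCol η) p →
        ∀ v : ↥(cfSites η), ‖(v : ℂ) - x‖ ≤ 6 * R → v ∈ (delbPl (cfSites η)).toMap.Int (𝔇.g.glue p hg).Right →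
          v ∈ 𝔇.MF Subtype.val ((pvxParOf N hN c).reg m π) (pvgeFar (pvieCc (pvxParOf N hN c) 𝔈 m ε π.p) r) x (6 * R) := by
  have hW := pvxo_wf N hN c
  have hF := pvfhw_par N hN c
  have hLR : (pvxParOf N hN c).𝔐.L * pvlmH m + pvlmH m ≤ R := pvxo_LR N hN c hπ
  have hfine : 64 * pvlmDel c m ≤ (pvxParOf N hN c).num.rho * pvlmH m := by
    have h1 : 1000000 * pvlmDel c m ≤ N.rho * pvlmH m := pvxo_fine hN c0 hm
    have h2 := pvlm_Del_pos c m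
    show 64 * pvlmDel c m ≤ N.rho * pvlmH m
    linarith
  have hT : ∀ t, pviwTyOk (pvxParOf N hN c) t := fun t => by
    refine ⟨pvxo_nd_p t, pvxo_nd_m t, ?_⟩
    have := pvxo_nd_far t
    show 7 * N.rho / 4 ≤ ‖pvxoYp t - pvxoYm t‖
    linarith [hN.rho0]
  have hL0 : 0 ≤ (pvxParOf N hN c).𝔐.L := by
    have h1 := hW.b_le π.p.ts
    have h2 := hW.ab π.p.ts
    have h3 : 2 ≤ ((pvxParOf N hN c).ty π.p.ts).a := by
      rw [pvxo_ty_a]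
      linarith [hN.m_gt, hN.m_lt, hN.B_lt]
    linarith
  filter_upwards [G, hC, self_mem_nhdsWithin] with ε g hc hε
  filter_upwards [pvqf_good_ae ε (ne_of_gt hε)] with η k i 𝔇 hP y hy p hg hq
  exact pvq8_cell_one hW hF hfine hT hπ hLR hL0 g hr48 hc.1 hc.2 k.del hP.1 (hRg ε _ 𝔇 _ hP.2.1.1) hy hq hg

end rec

end Claimed.Agent.R289
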