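-- KEEP
import Claimed.Agent.R289.Exit.LocRec
import Claimed.Agent.R289.Tr.Blind

/-!
# Row 289 (S0537, Cardy for Poisson-Voronoi), THE WALL, ROAD E, N1', (POCKET), file Exit/N1YL : THE LINES `hroom`, `hdisc` OF `pvpd_pl_o_top`, `pvpd_pl_i_top` (120, `Tr/PocketD`)      (owner helper74, split of 120 14:33Z; prefix `pvyl9_`)

* sec. 1  **`pvyl9_plain_ne`** : `PvbqPlain C Wn p M ..` may be proved UNDER THE HYPOTHESIS `M.Nonempty` (it is void otherwise): every set fact which follows from ONE plain success is free.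
* sec. 2  **`pvyl9_disc_o`, `pvyl9_disc_i`** (`hdisc`) : ONE plain success `ζ ∈ pvilMo .. Z` (`pvilMi .. Z`) ⟹ the disc of the gate `closedBall z (b h)` lies in the core `3 μ₀` of the window at the hull `Z`      [`pvll_pin_out`, `pvll_pin_in`: chain argument, the mesh is the mesh of the window: NOTHING is asked of the base]
          `pvyl9_fz_o`, `pvyl9_fz_i` : the frozen positions of `ζ` lie in the same core.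
* sec. 3  **`pvyl9_room_o`, `pvyl9_room_i`** (`hroom`) : the collar (Rc) of RULING 22 ⟹ the room lies in the core `3 μ₀` of the window, EVERY hull.
* sec. 4  at the parameters / at the engine of record: `pvyl9_rec_disc_o _i` (no hypothesis), `pvyl9_rec_room_o _i` (over (Rc) at the engine of record).
-/

set_option autoImplicit false

namespace Claimed.Agent.R289

open Set Metric Claims.C0465

/-! ## 1. a void contract -/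

/-- **`PvbqPlain` MAY ASSUME ONE PLAIN SUCCESS** -/
theorem pvyl9_plain_ne {C Wn : Set ℂ} {p : Conf PvPt → Prop} {M : Set (Conf PvPt)} {F : Conf PvPt → ℂ} {Y Fz y₀ : Set ℂ} {σ : ℂ → Bool}
    (h : M.Nonempty → PvbqPlain C Wn p M F Y Fz y₀ σ) : PvbqPlain C Wn p M F Y Fz y₀ σ :=
  fun τ τ' a a' e ω₂ ξ c c' hM => h ⟨_, hM⟩ τ τ' a a' e ω₂ ξ c c' hM

section gen

variable {τ : Type} {c : ℝ} {𝔓 : PvxPar τ c} {𝔈 : PvieEng τ} {m : ℕ} {ε : ℝ} {z : ℂ} {t : τ} {Z : Set (ℤ × ℤ)} {ζ : Conf PvPt}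

/-! ## 2. the disc of the gate -/

theorem pvyl9_pin_o (hp : PvllPin 𝔓 m t) (hζ : ζ ∈ pvilMo 𝔓 𝔈 m ε z t Z) :
    closedBall z ((𝔓.ty t).b * pvlmH m) ⊆ pvtrCore (3 * pvilMu 𝔓 m) (pvilWno 𝔓 𝔈 m ε z t Z) ∧ pvilFo 𝔓 m z t ζ ⊆ pvtrCore (3 * pvilMu 𝔓 m) (pvilWno 𝔓 𝔈 m ε z t Z) := by
  obtain ⟨⟨hA, hZ⟩, hm⟩ := hζ
  have hZ' : pvilZo 𝔓 m z t ζ = Z := hZ
  have hμ := pvll_mu_pos hp.r3 m
  have key : ∀ 𝔖 : PvwSt (pvieT ζ), PvilOut 𝔓.num (𝔓.col t) (pvilPin 𝔓 m z t) ζ 𝔖 →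
      closedBall z ((𝔓.ty t).b * pvlmH m) ⊆ pvtrCore (3 * pvilMu 𝔓 m) (pvilWno 𝔓 𝔈 m ε z t Z) ∧ pviePos ζ '' 𝔖.fzOut ⊆ pvtrCore (3 * pvilMu 𝔓 m) (pvilWno 𝔓 𝔈 m ε z t Z) := fun 𝔖 h =>
    pvll_pin_out (p := pvilPin 𝔓 m z t) (δ := pvlmDel c m) (r := 𝔓.num.rho * pvlmH m) rfl (pvlm_Del_pos c m) hμ (by linarith [pvll_mu_del 𝔓 m]) hp.b1 hp.bR h
      (fun q hq => Or.inl (Or.inl (Or.inl (by rw [← hZ']; exact hq)))) hm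
  obtain ⟨𝔖, 𝔖', y, hArc⟩ := hA
  refine ⟨(key 𝔖 hArc.at_p).1, ?_⟩
  rintro v ⟨𝔗, hT, u, hu, rfl⟩
  exact (key 𝔗 hT).2 ⟨u, hu, rfl⟩

theorem pvyl9_pin_i (hp : PvllPin 𝔓 m t) (hζ : ζ ∈ pvilMi 𝔓 𝔈 m ε z t Z) :
    closedBall z ((𝔓.ty t).b * pvlmH m) ⊆ pvtrCore (3 * pvilMu 𝔓 m) (pvilWni 𝔓 𝔈 m ε z t Z) ∧ pvilFi 𝔓 m z t ζ ⊆ pvtrCore (3 * pvilMu 𝔓 m) (pvilWni 𝔓 𝔈 m ε z t Z) := by
  obtain ⟨⟨hA, hZ⟩, hm⟩ := hζ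
  have hZ' : pvilZi 𝔓 m z t ζ = Z := hZ
  have hμ := pvll_mu_pos hp.r3 m
  have key : ∀ 𝔖 : PvwSt (pvieT ζ), PvilIn 𝔓.num (𝔓.col t) (pvilPin 𝔓 m z t) ζ 𝔖 →
      closedBall z ((𝔓.ty t).b * pvlmH m) ⊆ pvtrCore (3 * pvilMu 𝔓 m) (pvilWni 𝔓 𝔈 m ε z t Z) ∧ pviePos ζ '' 𝔖.fzIn ⊆ pvtrCore (3 * pvilMu 𝔓 m) (pvilWni 𝔓 𝔈 m ε z t Z) := fun 𝔖 h =>
    pvll_pin_in (p := pvilPin 𝔓 m z t) (δ := pvlmDel c m) (r := 𝔓.num.rho * pvlmH m) rfl (pvlm_Del_pos c m) hμ (by linarith [pvll_mu_del 𝔓 m]) hp.b1 hp.bR h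
      (fun q hq => Or.inl (Or.inl (Or.inl (by rw [← hZ']; exact hq)))) hm
  obtain ⟨𝔖, 𝔖', y, hArc⟩ := hA
  refine ⟨(key 𝔖' hArc.at_p').1, ?_⟩
  rintro v ⟨𝔗, hT, u, hu, rfl⟩
  exact (key 𝔗 hT).2 ⟨u, hu, rfl⟩

/-- **`hdisc`, FIRST LINK**: from ONE plain success at the hull `Z` -/
theorem pvyl9_disc_o (hp : PvllPin 𝔓 m t) (h : (pvilMo 𝔓 𝔈 m ε z t Z).Nonempty) : closedBall z ((𝔓.ty t).b * pvlmH m) ⊆ pvtrCore (3 * pvilMu 𝔓 m) (pvilWno 𝔓 𝔈 m ε z t Z) := by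
  obtain ⟨ζ, hζ⟩ := h
  exact (pvyl9_pin_o hp hζ).1

/-- **`hdisc`, LAST LINK** -/
theorem pvyl9_disc_i (hp : PvllPin 𝔓 m t) (h : (pvilMi 𝔓 𝔈 m ε z t Z).Nonempty) : closedBall z ((𝔓.ty t).b * pvlmH m) ⊆ pvtrCore (3 * pvilMu 𝔓 m) (pvilWni 𝔓 𝔈 m ε z t Z) := by
  obtain ⟨ζ, hζ⟩ := h
  exact (pvyl9_pin_i hp hζ).1

/-- the frozen positions of a plain success lie in the core of the window -/
theorem pvyl9_fz_o (hp : PvllPin 𝔓 m t) (hζ : ζ ∈ pvilMo 𝔓 𝔈 m ε z t Z) : pvilFo 𝔓 m z t ζ ⊆ pvtrCore (3 * pvilMu 𝔓 m) (pvilWno 𝔓 𝔈 m ε z t Z) := (pvyl9_pin_o hp hζ).2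

theorem pvyl9_fz_i (hp : PvllPin 𝔓 m t) (hζ : ζ ∈ pvilMi 𝔓 𝔈 m ε z t Z) : pvilFi 𝔓 m z t ζ ⊆ pvtrCore (3 * pvilMu 𝔓 m) (pvilWni 𝔓 𝔈 m ε z t Z) := (pvyl9_pin_i hp hζ).2

/-! ## 3. the room -/

/-- **`hroom`, FIRST LINK**: (Rc) ⟹ the room lies in the core of the window, every hull -/
theorem pvyl9_room_o {κ : ℝ} (h : ∀ v ∈ 𝔈.oY m t, closedBall v κ ⊆ 𝔈.oM m t ∪ 𝔈.oK m t ∪ pvieDoor 𝔈 m ε ((𝔓.Γ m).pout t) ((𝔓.Γ m).dout t)) (z : ℂ) (Z : Set (ℤ × ℤ)) :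
    pvieSh z (𝔈.oY m t) ⊆ pvtrCore κ (pvilWno 𝔓 𝔈 m ε z t Z) := by
  refine (pvll_col_o h z).trans (pvll_core_mono _ ?_)
  rintro q ((hq | hq) | hq)
  · exact Or.inl (Or.inl (Or.inr hq))
  · exact Or.inl (Or.inr hq)
  · exact Or.inr hq

/-- **`hroom`, LAST LINK** -/
theorem pvyl9_room_i {κ : ℝ} (h : ∀ v ∈ 𝔈.iY m t, closedBall v κ ⊆ 𝔈.iM m t ∪ 𝔈.iK m t ∪ pvieDoor 𝔈 m ε ((𝔓.Γ m).pin t) ((𝔓.Γ m).din t)) (z : ℂ) (Z : Set (ℤ × ℤ)) :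
    pvieSh z (𝔈.iY m t) ⊆ pvtrCore κ (pvilWni 𝔓 𝔈 m ε z t Z) := by
  refine (pvll_col_i h z).trans (pvll_core_mono _ ?_)
  rintro q ((hq | hq) | hq)
  · exact Or.inl (Or.inl (Or.inr hq))
  · exact Or.inl (Or.inr hq)
  · exact Or.inr hq

end gen

/-! ## 4. at the parameters of record -/

section rec

variable (N : PvxNums) (hN : N.Ok) (c : ℝ) {𝔈 : PvieEng (pvxTau N)} {m : ℕ} {ε : ℝ} {z : ℂ} {t : pvxTau N} {Z : Set (ℤ × ℤ)}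

/-- `hdisc` at the parameters of record, ANY engine, all levels -/
theorem pvyl9_rec_disc_o (h : (pvilMo (pvxParOf N hN c) 𝔈 m ε z t Z).Nonempty) :
    closedBall z (((pvxParOf N hN c).ty t).b * pvlmH m) ⊆ pvtrCore (3 * pvilMu (pvxParOf N hN c) m) (pvilWno (pvxParOf N hN c) 𝔈 m ε z t Z) := pvyl9_disc_o (pvll_rec_pin N hN c m t) h

theorem pvyl9_rec_disc_i (h : (pvilMi (pvxParOf N hN c) 𝔈 m ε z t Z).Nonempty) :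
    closedBall z (((pvxParOf N hN c).ty t).b * pvlmH m) ⊆ pvtrCore (3 * pvilMu (pvxParOf N hN c) m) (pvilWni (pvxParOf N hN c) 𝔈 m ε z t Z) := pvyl9_disc_i (pvll_rec_pin N hN c m t) h

end rec

end Claimed.Agent.R289
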