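-- KEEP
import Claimed.Agent.R289.Exit.N1YBs
import Claimed.Agent.R289.Exit.N1YL
import Claimed.Agent.R289.Exit.N1T
import Claimed.Agent.R289.Exit.N1Dat
import Claimed.Agent.R289.Tr.PocketD
import Claimed.Agent.R289.Tr.LinkDet
import Claimed.Agent.R289.Tr.PlainR

/-!
# Row 289 (S0537), THE WALL, ROAD E, file Exit/N1YPk : THE ROOF OF (POCKET) = `PvkynPl` OF 218 AT THE GUARDED KITS OF RECORD      (helper120; prefix `pvpk9_`)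

ABOVE `Exit/N1YBs` (218: `PvkynPl`, `pvkyn_in_rec`), `Tr/PocketD` (120: `pvpd_pl_o _i`, `pvpd_R_o _i`), `Exit/N1YL` (74: `hdisc` for free, `hroom` from (Rc)), `Exit/N1T` (27: NO TUNNEL = clause of layer 1), `Exit/N1Dat` (38: `F_out = val '' D.t.fzOut`),
`Tr/PlainR` (255: (FZ) without a mesh of the base), `Tr/LinkDet` (22 124: (Rc) at the engine of record since the swap `oY iY := pvegOYc pvegIYc` of 245);   BELOW `Exit/N1YZ`.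
* sec. 1  the dictionary at a present datum of the guarded kit: `pvpk9_dat` (datum, collar mesh, layer 1, guard), `pvpk9_hull_ne`, `pvpk9_col`
* sec. 2  **`pvpk9_gen`** : `PvkynPl 𝔓 𝔈 m π (((pvknKit ..).guardE Rg).guard S) ε`, ANY parameters, ANY engine with `PvieEng.Wf` + (Rc), (GEO) of 214, `PvknGeo` of 29, `Rg ⟹ Pvn1tTight`, `S ⊆ pvyyS`
* sec. 3  **`pvpk9_rec`** = `exit_pvyy_pl` : `∀ᶠ ε, PvkynPl ..` at the binders of `exit_pvyy_in` of 12;   **`pvpk9_in`** = `exit_pvyy_in` VERBATIM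
-/

set_option autoImplicit false
set_option linter.unusedSectionVars false
set_option linter.unusedVariables false

namespace Claimed.Agent.R289

open MeasureTheory Filter Topology Set Metric Claims.C0465
open scoped ENNReal

section gen

variable {τ : Type} {c : ℝ} {𝔓 : PvxPar τ c} {𝔈 : PvieEng τ} {m m0 : ℕ} {π : PvxIx τ} {ε Cth : ℝ} {r₀ κs : ℕ → ℝ} {x : ℂ} {R r : ℝ} {q qf : ℝ≥0∞}
  {Rg : ∀ Y : Set ℂ, PvwDat (delbPl Y).toMap → (↥Y → Bool) → Prop} {S : Set (Conf PvPt)} {Y : Set ℂ} {i : PvxnIx} {σ : ℂ → Bool}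

/-! ## 1. the dictionary -/

/-- a present datum of the guarded kit of record -/
theorem pvpk9_dat {C B : Set ℂ} {mB : MeasurableSet B} (hA : PvxnPA 𝔓 m π 0 (((pvknKit 𝔓 x R m π C r B mB q).guardE Rg).guard S) i Y σ) :
    cfOf Y σ ∈ S ∧ VorDense Y (pvgeCollar C r) r ∧ ∃ 𝔇 : PvwDat (delbPl Y).toMap, PvxnWit 𝔓 m π 0 (pvknKit 𝔓 x R m π C r B mB q) Y i (fun v => σ v) 𝔇 ∧ Rg Y 𝔇 (fun v => σ v) := by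
  obtain ⟨hg, hA'⟩ := (pvn1a_PA 𝔓 m π 0 _ S).1 hA
  obtain ⟨hA0, 𝔇, hw, hR, -⟩ := pvn1a_PAE hA'
  exact ⟨hg, hA0.1, 𝔇, hw, hR⟩

/-- the cells of a set which is not empty -/
theorem pvpk9_cells_ne {δ : ℝ} (hδ : 0 < δ) {A : Set ℂ} (hA : A.Nonempty) : (pvtCells δ A).Nonempty := by
  obtain ⟨v, hv⟩ := hA
  obtain ⟨q, hq, -⟩ := Set.mem_iUnion₂.1 (pvt_cells_cover hδ hv)
  exact ⟨q, hq⟩

/-- the colour of the base in the vocabulary of the colour `b` -/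
theorem pvpk9_col (b : Bool) (σ : ℂ → Bool) (v : ℂ) : (pvjbC b σ v == b) = σ v := by
  unfold pvjbC
  cases σ v <;> cases b <;> rfl

/-! ## 2. the roof, generic parameters and engine -/

/-- **(POCKET) = `PvkynPl` OF 218 AT THE GUARDED KIT v2 OF 29**: any parameters, any engine with `PvieEng.Wf` and (Rc), (GEO) of 214, `PvknGeo` of 29, layer 1 `⟹` NO TUNNEL of 27, guard `⊆ pvyyS` of 12 -/
theorem pvpk9_gen (hW : 𝔓.Wf) (H : PvieEng.Wf 𝔓 𝔈 m0 Cth r₀ κs) (hm : m0 ≤ m) (hTy : ∀ t, pviwTyOk 𝔓 t) (hp : ∀ t, PvllPin 𝔓 m t)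
    (hdi : ‖(𝔓.Γ m).din π.p.ts‖ = 1)
    (hπ : π ∈ pvxPatSet 𝔓 x R m) (Ge : Pvyk1Geo 𝔓 𝔈 m π ε) (G : PvknGeo 𝔓.num (pvlmH m) (𝔓.reg m π) x (5 * R) (6 * R) (pvieCc 𝔓 𝔈 m ε π.p) r)
    (hco : ∀ v ∈ 𝔈.oY m π.p.tt, closedBall v (3 * pvilMu 𝔓 m) ⊆ 𝔈.oM m π.p.tt ∪ 𝔈.oK m π.p.tt ∪ pvieDoor 𝔈 m ε ((𝔓.Γ m).pout π.p.tt) ((𝔓.Γ m).dout π.p.tt))
    (hci : ∀ v ∈ 𝔈.iY m π.p.ts, closedBall v (3 * pvilMu 𝔓 m) ⊆ 𝔈.iM m π.p.ts ∪ 𝔈.iK m π.p.ts ∪ pvieDoor 𝔈 m ε ((𝔓.Γ m).pin π.p.ts) ((𝔓.Γ m).din π.p.ts))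
    (hT : ∀ (Y : Set ℂ) (𝔇 : PvwDat (delbPl Y).toMap) (σ : ↥Y → Bool), Rg Y 𝔇 σ → Pvn1tTight 𝔓 m π Y 𝔇 σ) (hS : S ⊆ pvyyS 𝔓 𝔈 m π qf ε) :
    PvkynPl 𝔓 𝔈 m π (((pvknKit 𝔓 x R m π (pvieCc 𝔓 𝔈 m ε π.p) r (closedBall x (6 * R)) measurableSet_closedBall q).guardE Rg).guard S) ε := by
  intro Y i σ hY hA
  have hb : ∀ t, (𝔓.ty t).b * pvlmH m ≤ pviwRad 𝔓 m t := fun t => (hp t).bR
  have hρ3 : 0 < 𝔓.num.rho3 := (hp π.p.tt).r3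
  have hρ : 𝔓.num.rho ≤ 𝔓.num.rho1 := hW.rho1.le
  obtain ⟨hg, hcl, 𝔇, hw, hR⟩ := pvpk9_dat hA
  obtain ⟨-, -, hZo, hZi, -⟩ := hS hg
  rw [pvkyn_fl] at hZo hZi
  have hcolE : 𝔓.col π.p.ts = 𝔓.col π.p.tt := hπ.1.2.2.2.2.2.1
  have hh := pvlm_H_pos m
  have hδ := pvlm_Del_pos c m
  have hr := G.r0
  have hμ : 0 < pvilMu 𝔓 m := pvpd_mu_pos 𝔓 (mul_pos hρ3 hh)
  have hf : ∀ v ∈ 𝔇.fz, (v : ℂ) ∈ pvgeFar (pvieCc 𝔓 𝔈 m ε π.p) r := fun v hv => hw.far v (hw.sub hv)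
  have hd := pvyj_door (𝔈 := 𝔈) (ε := ε) hW hπ.1.1 (H.kit_del m ε)
  have hC := pvyk1_Cc (𝔓 := 𝔓) (𝔈 := 𝔈) (m := m) (π := π) (ε := ε) hd
  have subo : pvieSh π.p.zt (𝔈.oK m π.p.tt) ∪ pvieDoor 𝔈 m ε (pvieZo 𝔓 m π.p.zt π.p.tt) ((𝔓.Γ m).dout π.p.tt) ⊆ pvieCc 𝔓 𝔈 m ε π.p := by rw [hC]; exact pvkyi_sub_o
  have subi : pvieSh π.p.zs (𝔈.iK m π.p.ts) ∪ pvieDoor 𝔈 m ε (pvieZi 𝔓 m π.p.zs π.p.ts) ((𝔓.Γ m).din π.p.ts) ⊆ pvieCc 𝔓 𝔈 m ε π.p := by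
    rw [hC, hd.1, hd.2]; exact pvkyi_sub_i
  have hkt : closedBall π.p.zt ((𝔓.ty π.p.tt).b * pvlmH m) ⊆ pvgeFar (pvieCc 𝔓 𝔈 m ε π.p) r := by
    have := G.kt
    rwa [hW.reg_zt, hW.reg_tt] at this
  have hks : closedBall π.p.zs ((𝔓.ty π.p.ts).b * pvlmH m) ⊆ pvgeFar (pvieCc 𝔓 𝔈 m ε π.p) r := by
    have := G.ks
    rwa [hW.reg_zs, hW.reg_ts] at this
  -- the base half states
  have hUo : cfOf Y (pvjbC (𝔓.col π.p.ts) σ) ∈ pvilUo 𝔓.num (𝔓.col π.p.tt) (pvilPin 𝔓 m π.p.zt π.p.tt) := by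
    refine pvn1z_Uo_of ?_
    rw [hZo, hw.hull_t]
    exact pvpk9_cells_ne hδ ⟨_, Or.inl ⟨_, pvwk_banksP_sub_fzOut 𝔇.t (Or.inl ⟨0, Nat.zero_le _, rfl⟩), rfl⟩⟩
  have hUi : cfOf Y (pvjbC (𝔓.col π.p.ts) σ) ∈ pvilUi 𝔓.num (𝔓.col π.p.ts) (pvilPin 𝔓 m π.p.zs π.p.ts) := by
    refine pvn1z_Ui_of ?_
    rw [hZi, hw.hull_s]
    exact pvpk9_cells_ne hδ ⟨_, Or.inl ⟨_, pvwk_banksM_sub_fzIn 𝔇.s (Or.inl ⟨0, Nat.zero_le _, rfl⟩), rfl⟩⟩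
  have hFo : Subtype.val '' 𝔇.t.fzOut = pvilFo 𝔓 m π.p.zt π.p.tt (cfOf Y (pvjbC (𝔓.col π.p.ts) σ)) := by
    have := pvza_n1_Fo hW hπ hY hw.ok hw.cyl (by rw [pvn1a_cf, pvkyn_fl]; exact hUo)
    rw [pvn1a_cf, pvkyn_fl] at this
    exact this.symm
  have hFi : Subtype.val '' 𝔇.s.fzIn = pvilFi 𝔓 m π.p.zs π.p.ts (cfOf Y (pvjbC (𝔓.col π.p.ts) σ)) := by
    have := pvza_n1_Fi hW hY hw.ok hw.cyl (by rw [pvn1a_cf, pvkyn_fl]; exact hUi)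
    rw [pvn1a_cf, pvkyn_fl] at this
    exact this.symm
  have FoB : pvilFo 𝔓 m π.p.zt π.p.tt (cfOf Y (pvjbC (𝔓.col π.p.ts) σ)) ⊆ pvilWz 𝔓 m π.p.zt π.p.tt ↑π.Zt := by
    have := pvza_Fo_Wz (hb π.p.tt) hδ π.p.zt (cfOf Y (pvjbC (𝔓.col π.p.ts) σ))
    rwa [hZo] at this
  have FiB : pvilFi 𝔓 m π.p.zs π.p.ts (cfOf Y (pvjbC (𝔓.col π.p.ts) σ)) ⊆ pvilWz 𝔓 m π.p.zs π.p.ts ↑π.Zs := by
    have := pvza_Fi_Wz (hb π.p.ts) hδ π.p.zs (cfOf Y (pvjbC (𝔓.col π.p.ts) σ))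
    rwa [hZi] at this
  have hcolo : ∀ v ∈ 𝔇.t.fzOut, 𝔇.col v = (pvjbC (𝔓.col π.p.ts) σ v == 𝔓.col π.p.tt) := fun v hv => by
    rw [← hcolE, pvpk9_col]
    exact (hw.cyl.1 v (Or.inl hv)).symm
  have hcoli : ∀ v ∈ 𝔇.s.fzIn, 𝔇.col v = (pvjbC (𝔓.col π.p.ts) σ v == 𝔓.col π.p.ts) := fun v hv => by
    rw [pvpk9_col]
    exact (hw.cyl.1 v (Or.inr hv)).symm
  obtain ⟨tP, tM⟩ := hT Y 𝔇 _ hR
  have hρh : 𝔓.num.rho * pvlmH m / 2 ≤ 𝔓.num.rho1 * pvlmH m / 2 := by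
    have := mul_le_mul_of_nonneg_right hρ hh.le
    linarith
  rw [← hw.labN]
  constructor
  · refine pvyl9_plain_ne fun hne => ?_
    have hdisc := pvyl9_disc_o (hp π.p.tt) hne
    have hroom := pvyl9_room_o (𝔓 := 𝔓) hco π.p.zt (↑π.Zt : Set (ℤ × ℤ))
    have hDk := pvbw_pl_door H hm ε (pvieZo 𝔓 m π.p.zt π.p.tt) ((𝔓.Γ m).dout1 π.p.tt)
    have hYs : pvieSh π.p.zt (𝔈.oY m π.p.tt) ⊆ pvieSh π.p.zt (𝔈.oM m π.p.tt) ∪ pvieSh π.p.zt (𝔈.oK m π.p.tt) ∪ pvieDoor 𝔈 m ε (pvieZo 𝔓 m π.p.zt π.p.tt) ((𝔓.Γ m).dout π.p.tt) := by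
      have := pvbw_pl_sh_mono π.p.zt (H.oY_sub m hm ε π.p.tt (hTy _))
      rw [pvbw_pl_sh_union, pvbw_pl_sh_union] at this
      unfold pviwDo pvieDoor at this
      rw [pvbw_pl_sh_sim] at this
      exact this
    have hmo : ∀ w ∈ pvieSh π.p.zt (𝔈.oY m π.p.tt), w ∉ pvieCc 𝔓 𝔈 m ε π.p → ‖w - (𝔓.reg m π).tt.cp (pvlmH m) (𝔓.reg m π).zt‖ ≤ 𝔓.num.rho1 * pvlmH m / 2 := by
      intro w hw' hn
      rw [hW.reg_zt, hW.reg_tt]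
      rcases hYs hw' with (h | h) | h
      · exact (pvpd_mouth (H.oM_half m hm π.p.tt (hTy _)) h).trans hρh
      · exact absurd (subo (Or.inl h)) hn
      · exact absurd (subo (Or.inr h)) hn
    have hs : ∀ v ∈ 𝔇.s.fzIn, (v : ℂ) ∉ pvieSh π.p.zt (𝔈.oY m π.p.tt) := by
      intro v hv hw'
      have hn := pvge_far_notMem hr (hf v (Or.inl (Or.inl (Or.inr hv))))
      rcases hYs hw' with (h | h) | h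
      · exact Set.disjoint_left.1 Ge.far_i (FiB (hFi ▸ ⟨v, hv, rfl⟩)) h
      · exact hn (subo (Or.inl h))
      · exact hn (subo (Or.inr h))
    have hFc : pvilFo 𝔓 m π.p.zt π.p.tt (cfOf Y (pvjbC (𝔓.col π.p.ts) σ)) ⊆ pvtrCore (3 * pvilMu 𝔓 m) (pvilWno 𝔓 𝔈 m ε π.p.zt π.p.tt ↑π.Zt) := by
      obtain ⟨𝔖₀, h₀'⟩ := hUo
      have h1 := pvfc7_fo_core (hb π.p.tt) h₀'
      rw [pvbw_pl_Wo, hZo] at h1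
      exact fun v hv => (closedBall_subset_closedBall (pvpd_mu_le 𝔓 m)).trans ((h1 hv).trans fun _ h => Or.inl (Or.inl (Or.inl h)))
    exact pvpd_pl_o (fun Y : Set ℂ => (pvbwT Y).qpart Subtype.val) hDk hYs subo
      (fun τ' a ω₂ ξ _ hM => pvkfp_FZ_o (𝔈 := 𝔈) (ε := ε) hρ3 (hb _) (by rw [hZo]; exact pvkfp_Wz_o 𝔓 𝔈 m ε _ _ _) (by rw [hZo]; exact Ge.clr_o) a ω₂ ξ (by rw [hZo]; exact hM))
      fun τ' a ω₂ ξ _ hM => pvpd_R_o hY hw.ok (hW.reg_wf m π) (hW.reg_zt m π) (hW.reg_tt m π) hr hcl hf hkt hμ hroom hdisc hFo hFc hcolo (H.oY_reg m hm π (hTy _)) hmo hs tP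
        (fun w hw' => subo (Or.inr (hDk (Or.inl hw')))) a ω₂ ξ hM.2
  · refine pvyl9_plain_ne fun hne => ?_
    have hdisc := pvyl9_disc_i (hp π.p.ts) hne
    have hroom := pvyl9_room_i (𝔓 := 𝔓) hci π.p.zs (↑π.Zs : Set (ℤ × ℤ))
    have hDk := pvbw_pl_door H hm ε (pvieZi 𝔓 m π.p.zs π.p.ts) hdi
    have hYs : pvieSh π.p.zs (𝔈.iY m π.p.ts) ⊆ pvieSh π.p.zs (𝔈.iM m π.p.ts) ∪ pvieSh π.p.zs (𝔈.iK m π.p.ts) ∪ pvieDoor 𝔈 m ε (pvieZi 𝔓 m π.p.zs π.p.ts) ((𝔓.Γ m).din π.p.ts) := by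
      have := pvbw_pl_sh_mono π.p.zs (H.iY_sub m hm ε π.p.ts (hTy _))
      rw [pvbw_pl_sh_union, pvbw_pl_sh_union] at this
      unfold pviwDi pvieDoor at this
      rw [pvbw_pl_sh_sim] at this
      exact this
    have hmo : ∀ w ∈ pvieSh π.p.zs (𝔈.iY m π.p.ts), w ∉ pvieCc 𝔓 𝔈 m ε π.p → ‖w - (𝔓.reg m π).ts.cm (pvlmH m) (𝔓.reg m π).zs‖ ≤ 𝔓.num.rho1 * pvlmH m / 2 := by
      intro w hw' hn
      rw [hW.reg_zs, hW.reg_ts]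
      rcases hYs hw' with (h | h) | h
      · exact (pvpd_mouth (H.iM_half m hm π.p.ts (hTy _)) h).trans hρh
      · exact absurd (subi (Or.inl h)) hn
      · exact absurd (subi (Or.inr h)) hn
    have ht : ∀ v ∈ 𝔇.t.fzOut, (v : ℂ) ∉ pvieSh π.p.zs (𝔈.iY m π.p.ts) := by
      intro v hv hw'
      have hn := pvge_far_notMem hr (hf v (Or.inl (Or.inl (Or.inl hv))))
      rcases hYs hw' with (h | h) | h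
      · exact Set.disjoint_left.1 Ge.far_o (FoB (hFo ▸ ⟨v, hv, rfl⟩)) h
      · exact hn (subi (Or.inl h))
      · exact hn (subi (Or.inr h))
    have hFc : pvilFi 𝔓 m π.p.zs π.p.ts (cfOf Y (pvjbC (𝔓.col π.p.ts) σ)) ⊆ pvtrCore (3 * pvilMu 𝔓 m) (pvilWni 𝔓 𝔈 m ε π.p.zs π.p.ts ↑π.Zs) := by
      obtain ⟨𝔖₀, h₀'⟩ := hUi
      have h1 := pvfc7_fi_core (hb π.p.ts) h₀'
      rw [pvbw_pl_Wi, hZi] at h1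
      exact fun v hv => (closedBall_subset_closedBall (pvpd_mu_le 𝔓 m)).trans ((h1 hv).trans fun _ h => Or.inl (Or.inl (Or.inl h)))
    exact pvpd_pl_i (fun Y : Set ℂ => (pvbwT Y).qpart Subtype.val) hDk hYs subi
      (fun τ' a ω₂ ξ _ hM => pvkfp_FZ_i (𝔈 := 𝔈) (ε := ε) hρ3 (hb _) (by rw [hZi]; exact pvkfp_Wz_i 𝔓 𝔈 m ε _ _ _) (by rw [hZi]; exact Ge.clr_i) a ω₂ ξ (by rw [hZi]; exact hM))
      fun τ' a ω₂ ξ _ hM => pvpd_R_i hY hw.ok (hW.reg_wf m π) (hW.reg_zs m π) (hW.reg_ts m π) hr hcl hf hks hμ hroom hdisc hFi hFc hcoli (H.iY_reg m hm π (hTy _)) hmo ht tM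
        (fun w hw' => subi (Or.inr (hDk (Or.inl hw')))) a ω₂ ξ hM.2

end gen

/-! ## 3. at the binders of record -/

section recR

variable {c : ℝ}

/-- **`exit_pvyy_pl`** (218): (POCKET) AT THE GUARDED KITS OF RECORD, binders of `exit_pvyy_in` of 12 -/
theorem pvpk9_rec (c0 : 0 < c) (N : PvxNums) (hN : N.Ok) (𝔈 : PvieEng (pvxTau N)) (hE : PvnaWf (pvxParOf N hN c) 𝔈) (hR : PvnaRec N hN c 𝔈) {x : ℂ} {R : ℝ} {m : ℕ} {π : PvxIx (pvxTau N)}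
    (hm : (pvxParOf N hN c).m0 ≤ m) (hπ : π ∈ pvxPatSet (pvxParOf N hN c) x R m)
    {r : ℝ} (G : ∀ᶠ ε in 𝓝[>] (0 : ℝ), PvknGeo (pvxParOf N hN c).num (pvlmH m) ((pvxParOf N hN c).reg m π) x (5 * R) (6 * R) (pvieCc (pvxParOf N hN c) 𝔈 m ε π.p) r)
    (q : ℝ≥0∞) {qf : ℝ≥0∞} {Rg : ℝ → ∀ Y : Set ℂ, PvwDat (delbPl Y).toMap → (↥Y → Bool) → Prop}
    (hT : ∀ ε (Y : Set ℂ) (𝔇 : PvwDat (delbPl Y).toMap) (σ : ↥Y → Bool), Rg ε Y 𝔇 σ → Pvn1tTight (pvxParOf N hN c) m π Y 𝔇 σ)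
    {S : ℝ → Set (Conf PvPt)} (hS : ∀ ε, S ε ⊆ pvyyS (pvxParOf N hN c) 𝔈 m π qf ε) :
    ∀ᶠ ε in 𝓝[>] (0 : ℝ), PvkynPl (pvxParOf N hN c) 𝔈 m π ((pvyyK (pvxParOf N hN c) 𝔈 x R m π r q Rg ε).guard (S ε)) ε := by
  obtain ⟨Cth, r₀, κs, H⟩ := hE.wf
  have hGe := pvjh_pg_geo_ev c0 hE hR hm hπ
  obtain ⟨nb, rfl⟩ := hR
  filter_upwards [G, hGe] with ε g ge
  exact pvpk9_gen (pvxo_wf N hN c) H hm (fun t => pvea_tyOk hN t) (pvll_rec_pin N hN c m) (pvly_rec_din N hN m π.p.ts) hπ ge g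
    (exit_pvly_col_o N hN nb c0 hm ε π.p.tt) (exit_pvly_col_i N hN nb c0 hm ε π.p.ts) (hT ε) (hS ε)

/-- **(Y-IN) = `exit_pvyy_in` OF 12, VERBATIM** -/
theorem pvpk9_in (c0 : 0 < c) (N : PvxNums) (hN : N.Ok) (𝔈 : PvieEng (pvxTau N)) (hE : PvnaWf (pvxParOf N hN c) 𝔈) (hR : PvnaRec N hN c 𝔈) {x : ℂ} {R : ℝ} {m : ℕ} {π : PvxIx (pvxTau N)}
    (hm : (pvxParOf N hN c).m0 ≤ m) (hπ : π ∈ pvxPatSet (pvxParOf N hN c) x R m)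
    {r : ℝ} (G : ∀ᶠ ε in 𝓝[>] (0 : ℝ), PvknGeo (pvxParOf N hN c).num (pvlmH m) ((pvxParOf N hN c).reg m π) x (5 * R) (6 * R) (pvieCc (pvxParOf N hN c) 𝔈 m ε π.p) r)
    (q : ℝ≥0∞) {qf : ℝ≥0∞} (hqf : qf ≠ 0) {Rg : ℝ → ∀ Y : Set ℂ, PvwDat (delbPl Y).toMap → (↥Y → Bool) → Prop}
    (hT : ∀ ε (Y : Set ℂ) (𝔇 : PvwDat (delbPl Y).toMap) (σ : ↥Y → Bool), Rg ε Y 𝔇 σ → Pvn1tTight (pvxParOf N hN c) m π Y 𝔇 σ)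
    {S : ℝ → Set (Conf PvPt)} (hS : ∀ ε, S ε ⊆ pvyyS (pvxParOf N hN c) 𝔈 m π qf ε) {β' qc : ℝ≥0∞} {CB : ℝ}
    (hk : ∀ᶠ ε in 𝓝[>] (0 : ℝ), ∃ r' : ℝ, PvcnOkQ (𝔈.kit m ε) ε (𝔈.XQ m ε) β' qc (ENNReal.ofReal (CB * pvlmDel c m ^ 2)) r') :
    ∃ D : ℝ≥0∞, D ≠ ⊤ ∧ ∃ yf : PvxnIx → Conf PvPt → Set ℂ, PvyjInL (pvxParOf N hN c) 𝔈 m π (fun ε => (pvyyK (pvxParOf N hN c) 𝔈 x R m π r q Rg ε).guard (S ε)) D yf :=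
  pvkyn_in_rec c0 N hN 𝔈 hE hR hm hπ q hqf hS hk (pvpk9_rec c0 N hN 𝔈 hE hR hm hπ G q hT hS)

end recR

end Claimed.Agent.R289
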