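-- KEEP
import Claimed.Agent.R289.Tr.DomEM
import Claimed.Agent.R289.Tr.KitDict
import Claimed.Agent.R289.Exit.EngRec
import Claimed.Agent.R289.Exit.N1YT
import Claimed.Agent.R289.Exit.N1Junk
import Claimed.Agent.R289.Tr.ChainJ
import Claimed.Agent.R289.Tr.ChainH

/-!
# Row 289 (S0537), THE WALL, ROAD E, Exit/N1YE : THE LEAVES OF `exit_pvyy_chain` THAT LIVE AT THE ENGINE OF RECORD      (helper229; split of 5; prefix `pvnye_`)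

Consumer: the wrap of 5 (`Exit/N1YH`): `pvjm_hch_YL` of 268 (`Tr/ChainN`) asks `PvjmAe`; the junction by the MESH route asks `pvdk_meshC` of 104 (`Tr/DomEM`).
* sec. 1  a closed box of the local frame `(Y, u)` of 124 (`pvegS pvegL`) is fat in itself: `pvnye_box`
* sec. 2  **THE END TILE IS FAT IN `mouth ∪ tile`**: `pvnye_fat_Ka` (three boxes around the notch of the door square), at the parameters `pvnye_fat_oKa`, `pvnye_fat_iKa`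
* sec. 3  AT THE ENGINE OF RECORD (binder `hR : PvnaRec N hN c 𝔈`): `pvnye_fat_o pvnye_fat_i` (= `hfo hfi` of `pvdk_meshC`, `κ := 4 μ`, so `h2` of `pvdk_meshC` = `h3`), `pvnye_nn`, `pvnye_engB`, `pvnye_dict`, `pvnye_wo pvnye_wi`, `pvnye_no pvnye_ni`, and **`pvnye_meshC`** = `pvdk_meshC` with every hypothesis about the engine paid.
* sec. 4  `pvnye_idx` (a present datum of the kit of record makes the index good: mesh off `C` of layer 1 + `PvknGeo.ks kt` + `pvjx_wit` of 209);   **`pvnye_chain`** = THE STATEMENT OF `exit_pvyy_chain` (12, `Exit/N1YZ`) VERBATIM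
          := `pvjm_hch_YL` (268) at `hM := pvvh_mod_rec` (194; 175 274 244), `hA := pvjm_ae_win` (268, junction by the windows; 90) + sec. 3 + `pvnye_idx`.      0 sorry.
-/

set_option autoImplicit false

namespace Claimed.Agent.R289

open MeasureTheory Set Filter Topology Metric Claims.C0465
open scoped ENNReal

/-! ## 1. boxes of the local frame -/

/-- the point of coordinates `(s, l)` in the frame `(Y, u)` -/
theorem pvnye_pt {u : ℂ} (hu : u ^ 4 = 1) (Y : ℂ) (s l : ℝ) : pvegS Y u (Y + u * ⟨s, l⟩) = s ∧ pvegL Y u (Y + u * ⟨s, l⟩) = l := by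
  have e : (Y + u * ⟨s, l⟩ - Y) * (starRingEnd ℂ) u = ⟨s, l⟩ := by
    calc (Y + u * ⟨s, l⟩ - Y) * (starRingEnd ℂ) u = (u * (starRingEnd ℂ) u) * ⟨s, l⟩ := by ring
      _ = ⟨s, l⟩ := by rw [pveg_unit_conj hu, one_mul]
  unfold pvegS pvegL
  rw [e]
  exact ⟨rfl, rfl⟩

theorem pvnye_norm {u : ℂ} (hu : u ^ 4 = 1) (z : ℂ) : ‖z * (starRingEnd ℂ) u‖ = ‖z‖ := by
  rw [norm_mul, pveg_norm_unit (pveg_conj_pow_four hu), mul_one]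

/-- the two coordinates are `1`-Lipschitz -/
theorem pvnye_lip {u : ℂ} (hu : u ^ 4 = 1) (Y v v' : ℂ) : |pvegS Y u v - pvegS Y u v'| ≤ ‖v - v'‖ ∧ |pvegL Y u v - pvegL Y u v'| ≤ ‖v - v'‖ := by
  rw [pveg_S_sub, pveg_L_sub, ← pvnye_norm hu (v - v')]
  exact ⟨Complex.abs_re_le_norm _, Complex.abs_im_le_norm _⟩

theorem pvnye_dist {u : ℂ} (hu : u ^ 4 = 1) (Y v v' : ℂ) : ‖v - v'‖ ≤ |pvegS Y u v - pvegS Y u v'| + |pvegL Y u v - pvegL Y u v'| := by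
  rw [pveg_S_sub, pveg_L_sub, ← pvnye_norm hu (v - v')]
  exact Complex.norm_le_abs_re_add_abs_im _

theorem pvnye_clamp {x a b μ : ℝ} (hμ : 0 ≤ μ) (h : 2 * μ ≤ b - a) (h1 : a ≤ x) (h2 : x ≤ b) :
    a + μ ≤ max (a + μ) (min x (b - μ)) ∧ max (a + μ) (min x (b - μ)) ≤ b - μ ∧ |x - max (a + μ) (min x (b - μ))| ≤ μ := by
  refine ⟨le_max_left _ _, max_le (by linarith) (min_le_right _ _), ?_⟩
  rw [abs_le]
  rcases min_cases x (b - μ) with ⟨e, _⟩ | ⟨e, _⟩ <;> rw [e]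
  · rcases max_cases (a + μ) x with ⟨e', _⟩ | ⟨e', _⟩ <;> rw [e'] <;> constructor <;> linarith
  · rcases max_cases (a + μ) (b - μ) with ⟨e', _⟩ | ⟨e', _⟩ <;> rw [e'] <;> constructor <;> linarith

/-- **a closed box of widths `≥ 2μ` of the frame `(Y, u)`**: every point is within `2μ` of a point whose `μ`-ball stays in the box -/
theorem pvnye_box {u : ℂ} (hu : u ^ 4 = 1) (Y : ℂ) {μ s0 s1 l0 l1 : ℝ} (hμ : 0 ≤ μ) (hs : 2 * μ ≤ s1 - s0) (hl : 2 * μ ≤ l1 - l0) {c : ℂ}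
    (c1 : s0 ≤ pvegS Y u c) (c2 : pvegS Y u c ≤ s1) (c3 : l0 ≤ pvegL Y u c) (c4 : pvegL Y u c ≤ l1) :
    ∃ c' : ℂ, ‖c - c'‖ ≤ 2 * μ ∧ ∀ v ∈ closedBall c' μ, (s0 ≤ pvegS Y u v ∧ pvegS Y u v ≤ s1) ∧ l0 ≤ pvegL Y u v ∧ pvegL Y u v ≤ l1 := by
  obtain ⟨p1, p2, p3⟩ := pvnye_clamp hμ hs c1 c2
  obtain ⟨q1, q2, q3⟩ := pvnye_clamp hμ hl c3 c4
  set p : ℝ := max (s0 + μ) (min (pvegS Y u c) (s1 - μ)) with hp
  set q : ℝ := max (l0 + μ) (min (pvegL Y u c) (l1 - μ)) with hq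
  obtain ⟨e1, e2⟩ := pvnye_pt hu Y p q
  refine ⟨Y + u * ⟨p, q⟩, ?_, fun v hv => ?_⟩
  · have := pvnye_dist hu Y c (Y + u * ⟨p, q⟩)
    rw [e1, e2] at this
    linarith
  · rw [mem_closedBall, dist_eq_norm] at hv
    obtain ⟨k1, k2⟩ := pvnye_lip hu Y v (Y + u * ⟨p, q⟩)
    rw [e1] at k1
    rw [e2] at k2
    have k1' := abs_le.1 (k1.trans hv)
    have k2' := abs_le.1 (k2.trans hv)
    exact ⟨⟨by linarith [k1'.1], by linarith [k1'.2]⟩, by linarith [k2'.1], by linarith [k2'.2]⟩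

/-- the open square in the frame -/
theorem pvnye_sq_iff {u : ℂ} (hu : u ^ 4 = 1) (Y p v : ℂ) (r : ℝ) : v ∈ pvccSq p r ↔ |pvegS Y u v - pvegS Y u p| < r ∧ |pvegL Y u v - pvegL Y u p| < r := by
  have e : pvccN (v - p) = max |pvegS Y u v - pvegS Y u p| |pvegL Y u v - pvegL Y u p| := by
    rw [← pvccN_unit_mul (pveg_conj_pow_four hu) (v - p), pveg_S_sub, pveg_L_sub, mul_comm]
    rfl
  show pvccN (v - p) < r ↔ _
  rw [e, max_lt_iff]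

/-! ## 2. the end tile -/

/-- **THE END TILE IS FAT IN `mouth ∪ tile`**: the rectangle `pvegRa` minus the notch of the door square = three closed boxes -/
theorem pvnye_fat_Ka {Y u p : ℂ} {e δ w rM a r μ : ℝ} (hu : u ^ 4 = 1) (ha : 0 ≤ a) (h1 : 2 * μ ≤ r - a) (h2 : 2 * μ ≤ w - r) (h3 : 2 * μ ≤ pvegS Y u p - r - (e + 2 * δ)) (hμ : 0 ≤ μ) :
    PvdkFat μ (2 * μ) (pvegKa Y u p e δ w rM a (pvccSq p r)) (closedBall Y rM ∪ pvegKa Y u p e δ w rM a (pvccSq p r)) := by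
  -- membership in `mouth ∪ tile`
  have key : ∀ v : ℂ, e + 2 * δ ≤ pvegS Y u v → pvegS Y u v ≤ pvegS Y u p - a → |pvegL Y u v - pvegL Y u p| ≤ w →
      (pvegS Y u v ≤ pvegS Y u p - r ∨ r ≤ pvegL Y u v - pvegL Y u p ∨ pvegL Y u v - pvegL Y u p ≤ -r) → v ∈ closedBall Y rM ∪ pvegKa Y u p e δ w rM a (pvccSq p r) := by
    intro v v1 v2 v3 v4
    by_cases hM : v ∈ closedBall Y rM
    · exact Or.inl hM
    · refine Or.inr ⟨⟨⟨v1, v2, v3⟩, hM⟩, fun hO => ?_⟩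
      obtain ⟨o1, o2⟩ := (pvnye_sq_iff hu Y p v r).1 hO
      rw [abs_lt] at o1 o2
      rcases v4 with v4 | v4 | v4 <;> linarith [o1.1, o2.1, o2.2]
  rintro c ⟨⟨⟨a1, a2, a3⟩, -⟩, hO⟩
  rw [abs_le] at a3
  by_cases hs : pvegS Y u c ≤ pvegS Y u p - r
  · -- the box behind the door square
    obtain ⟨c', hc', hb⟩ := pvnye_box hu Y (μ := μ) (s0 := e + 2 * δ) (s1 := pvegS Y u p - r) (l0 := pvegL Y u p - w) (l1 := pvegL Y u p + w) hμ (by linarith) (by linarith) a1 hs (by linarith [a3.1]) (by linarith [a3.2])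
    refine ⟨c', fun v hv => ?_, hc'⟩
    obtain ⟨⟨b1, b2⟩, b3, b4⟩ := hb v hv
    exact key v b1 (by linarith) (abs_le.2 ⟨by linarith, by linarith⟩) (Or.inl b2)
  · rw [not_le] at hs
    have hl : ¬ |pvegL Y u c - pvegL Y u p| < r := fun hl => hO ((pvnye_sq_iff hu Y p c r).2 ⟨abs_lt.2 ⟨by linarith, by linarith⟩, hl⟩)
    rw [not_lt, le_abs] at hl
    rcases hl with hl | hl
    · -- the box on the left of the door square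
      obtain ⟨c', hc', hb⟩ := pvnye_box hu Y (μ := μ) (s0 := pvegS Y u p - r) (s1 := pvegS Y u p - a) (l0 := pvegL Y u p + r) (l1 := pvegL Y u p + w) hμ (by linarith) (by linarith) hs.le a2 (by linarith) (by linarith [a3.2])
      refine ⟨c', fun v hv => ?_, hc'⟩
      obtain ⟨⟨b1, b2⟩, b3, b4⟩ := hb v hv
      exact key v (by linarith) b2 (abs_le.2 ⟨by linarith, by linarith⟩) (Or.inr (Or.inl (by linarith)))
    · -- the box on the right of the door square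
      obtain ⟨c', hc', hb⟩ := pvnye_box hu Y (μ := μ) (s0 := pvegS Y u p - r) (s1 := pvegS Y u p - a) (l0 := pvegL Y u p - w) (l1 := pvegL Y u p - r) hμ (by linarith) (by linarith) hs.le a2 (by linarith [a3.1]) (by linarith)
      refine ⟨c', fun v hv => ?_, hc'⟩
      obtain ⟨⟨b1, b2⟩, b3, b4⟩ := hb v hv
      exact key v (by linarith) b2 (abs_le.2 ⟨by linarith, by linarith⟩) (Or.inr (Or.inr (by linarith)))

/-- the placed door region of record is an open square -/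
theorem pvnye_door_sq {δ : ℝ} (hδ : 0 < δ) (p : ℂ) {d : ℂ} (hd : d ^ 4 = 1) : pvthSim p d '' (pvthSim 0 (δ : ℂ) '' pvkgG.O₀) = pvccSq p (δ * (13 / 160)) := by
  have e0 : pvkgG.O₀ = pvccSq 0 (13 / 160) := pvkgg_O_sq
  rw [e0, pvkm_sim_sq hδ, mul_zero]
  have := pvccPl_sq p hd 0 (δ * (13 / 160))
  rw [mul_zero, add_zero] at this
  exact this

section par

variable {τ : Type} {c : ℝ} {𝔓 : PvxPar τ c} {m : ℕ} {t : τ} {μ : ℝ} {O₀ : ℕ → Set ℂ}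

/-- one door in the vocabulary of 124 -/
theorem pvnye_fat_door {Y u p d : ℂ} {rk : ℝ} (hL : PvegLev 𝔓 m) (hD : PvegDoor Y u p (pvegR 𝔓 m / 10) (pvlmDel c m) (pvegR 𝔓 m / 5) (5 * pvegR 𝔓 m / 16) (3 * pvegR 𝔓 m / 8) (pvegR 𝔓 m / 2) rk)
    (hd : d ^ 4 = 1) (hO : O₀ m = pvthSim 0 (pvlmDel c m : ℂ) '' pvkgG.O₀) (hμ0 : 0 ≤ μ) (hμ : 40 * μ ≤ pvlmDel c m) :
    PvdkFat μ (2 * μ) (pvegKa Y u p (pvegR 𝔓 m / 10) (pvlmDel c m) (pvegR 𝔓 m / 5) (5 * pvegR 𝔓 m / 16) (pvegA c m) (pvthSim p d '' O₀ m))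
      (closedBall Y (5 * pvegR 𝔓 m / 16) ∪ pvegKa Y u p (pvegR 𝔓 m / 10) (pvlmDel c m) (pvegR 𝔓 m / 5) (5 * pvegR 𝔓 m / 16) (pvegA c m) (pvthSim p d '' O₀ m)) := by
  have hδ := pvlm_Del_pos c m
  have hf : 64 * pvlmDel c m ≤ pvegR 𝔓 m := hL.fine
  rw [hO, pvnye_door_sq hδ p hd]
  have hs := hD.s_lo
  refine pvnye_fat_Ka hD.u4 (pveg_A_pos c m).le ?_ ?_ ?_ hμ0
  · unfold pvegA; linarith
  · linarith
  · linarith

/-- **the first tile** -/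
theorem pvnye_fat_oKa (hL : PvegLev 𝔓 m) (hT : pviwTyOk 𝔓 t) (hO : O₀ m = pvthSim 0 (pvlmDel c m : ℂ) '' pvkgG.O₀) (hμ0 : 0 ≤ μ) (hμ : 40 * μ ≤ pvlmDel c m) :
    PvdkFat μ (2 * μ) (pvegOKa 𝔓 O₀ m t) (pvegOM 𝔓 m t ∪ pvegOKa 𝔓 O₀ m t) :=
  pvnye_fat_door hL (pveg_door_o hL hT) (pveg_dout4 hL t) hO hμ0 hμ

/-- **the last tile** -/
theorem pvnye_fat_iKa (hL : PvegLev 𝔓 m) (hT : pviwTyOk 𝔓 t) (hO : O₀ m = pvthSim 0 (pvlmDel c m : ℂ) '' pvkgG.O₀) (hμ0 : 0 ≤ μ) (hμ : 40 * μ ≤ pvlmDel c m) :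
    PvdkFat μ (2 * μ) (pvegIKa 𝔓 O₀ m t) (pvegIM 𝔓 m t ∪ pvegIKa 𝔓 O₀ m t) :=
  pvnye_fat_door hL (pveg_door_i hL hT) (pveg_din4 hL t) hO hμ0 hμ

theorem pvnye_mu_le (𝔓 : PvxPar τ c) (m : ℕ) : 40 * pvilMu 𝔓 m ≤ pvlmDel c m := by
  have hδ := pvlm_Del_pos c m
  have : pvilMu 𝔓 m ≤ pvlmDel c m / 1000 := div_le_div_of_nonneg_right (min_le_left _ _) (by norm_num)
  linarith

end par

/-! ## 3. at the engine of record -/

section record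

variable {c : ℝ} {N : PvxNums} {hN : N.Ok} {𝔈 : PvieEng (pvxTau N)}

theorem pvnye_mu_pos (hN : N.Ok) (c : ℝ) (m : ℕ) : 0 < pvilMu (pvxParOf N hN c) m := by
  unfold pvilMu
  have h1 := pvlm_Del_pos c m
  have h2 : 0 < (pvxParOf N hN c).num.rho3 * pvlmH m := mul_pos hN.msk0 (pvlm_H_pos m)
  have := lt_min h1 h2
  positivity

/-- `PvnnEng` (258) of the engine of record -/
theorem pvnye_nn (hR : PvnaRec N hN c 𝔈) : PvnnEng 𝔈 c := by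
  obtain ⟨nb, rfl⟩ := hR
  exact pvnr_nn N hN c nb

/-- `PvmlEngB` (289): the rooms are Borel -/
theorem pvnye_engB (hE : PvnaWf (pvxParOf N hN c) 𝔈) : PvmlEngB 𝔈 := by
  obtain ⟨Cth, r, κs, H⟩ := hE.wf
  exact pvml_engB H

/-- **`PvjmAe.dict`** -/
theorem pvnye_dict (hR : PvnaRec N hN c 𝔈) (m : ℕ) : ∀ᶠ ε in 𝓝[>] (0 : ℝ), PvukDict (𝔈.kit m ε) (𝔈.XQ m ε) (pvkgG.sc (pvlmDel c m)) ε := pvuk_nn (pvnye_nn hR) m

theorem pvnye_mO (hR : PvnaRec N hN c 𝔈) (m : ℕ) (ε : ℝ) : MeasurableSet (𝔈.kit m ε).O₀ := by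
  obtain ⟨nb, rfl⟩ := hR
  rw [pvnr_kit_O]
  exact pvzi2_sim _ _ pvkgg_ze.mO

/-- **`PvjmAe.wo`** -/
theorem pvnye_wo (hE : PvnaWf (pvxParOf N hN c) 𝔈) (hR : PvnaRec N hN c 𝔈) (m : ℕ) (ε : ℝ) (z : ℂ) (t : pvxTau N) (Z : Set (ℤ × ℤ)) : MeasurableSet (pvilWno (pvxParOf N hN c) 𝔈 m ε z t Z) := by
  obtain ⟨Cth, r, κs, H⟩ := hE.wf
  exact pvzi2_mWno H (pvnye_mO hR m ε) z t Z

/-- **`PvjmAe.wi`** -/
theorem pvnye_wi (hE : PvnaWf (pvxParOf N hN c) 𝔈) (hR : PvnaRec N hN c 𝔈) (m : ℕ) (ε : ℝ) (z : ℂ) (t : pvxTau N) (Z : Set (ℤ × ℤ)) : MeasurableSet (pvilWni (pvxParOf N hN c) 𝔈 m ε z t Z) := by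
  obtain ⟨Cth, r, κs, H⟩ := hE.wf
  exact pvzi2_mWni H (pvnye_mO hR m ε) z t Z

/-- **`PvjmAe.no`** -/
theorem pvnye_no (hE : PvnaWf (pvxParOf N hN c) 𝔈) (hR : PvnaRec N hN c 𝔈) {ε : ℝ} (hε : 0 < ε) (m : ℕ) (z : ℂ) (t : pvxTau N) (Z : Set (ℤ × ℤ)) :
    NullMeasurableSet (pvilMo (pvxParOf N hN c) 𝔈 m ε z t Z ∩ {η | (pvilLo (pvxParOf N hN c) 𝔈 m z t).X (pvxParOf N hN c).num ((pvxParOf N hN c).col t) pvilQ η =
      pvilLoc ε (pvilWno (pvxParOf N hN c) 𝔈 m ε z t Z) (pvilMo (pvxParOf N hN c) 𝔈 m ε z t Z) ((pvilLo (pvxParOf N hN c) 𝔈 m z t).X (pvxParOf N hN c).num ((pvxParOf N hN c).col t) pvilQ) η}) (pvP ε) :=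
  pvml_SAo_null (pvxo_wf N hN c).toWfB (pvnye_engB hE) hε pvml_wm_Q m z t Z (pvnye_wo hE hR m ε z t Z)

/-- **`PvjmAe.ni`** -/
theorem pvnye_ni (hE : PvnaWf (pvxParOf N hN c) 𝔈) (hR : PvnaRec N hN c 𝔈) {ε : ℝ} (hε : 0 < ε) (m : ℕ) (z : ℂ) (t : pvxTau N) (Z : Set (ℤ × ℤ)) :
    NullMeasurableSet (pvilMi (pvxParOf N hN c) 𝔈 m ε z t Z ∩ {η | (pvilLi (pvxParOf N hN c) 𝔈 m z t).X (pvxParOf N hN c).num ((pvxParOf N hN c).col t) pvilQ η =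
      pvilLoc ε (pvilWni (pvxParOf N hN c) 𝔈 m ε z t Z) (pvilMi (pvxParOf N hN c) 𝔈 m ε z t Z) ((pvilLi (pvxParOf N hN c) 𝔈 m z t).X (pvxParOf N hN c).num ((pvxParOf N hN c).col t) pvilQ) η}) (pvP ε) :=
  pvml_SAi_null (pvxo_wf N hN c).toWfB (pvnye_engB hE) hε pvml_wm_Q m z t Z (pvnye_wi hE hR m ε z t Z)

/-- **`hfo` of `pvdk_meshC`** at `κ := 4 μ` -/
theorem pvnye_fat_o (c0 : 0 < c) (hR : PvnaRec N hN c 𝔈) {m : ℕ} (hm : (pvxParOf N hN c).m0 ≤ m) (t : pvxTau N) :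
    PvdkFat (pvilMu (pvxParOf N hN c) m) (4 * pvilMu (pvxParOf N hN c) m) (𝔈.oK m t) (𝔈.oM m t ∪ 𝔈.oK m t) := by
  obtain ⟨nb, rfl⟩ := hR
  have h0 := pvnye_mu_pos hN c m
  have h := pvnye_fat_oKa (t := t) (O₀ := (pvnaInRec N hN c nb).O0) ((pvea_par hN c0).lev hm) (pvea_tyOk hN t) rfl h0.le (pvnye_mu_le _ m)
  exact h.mono Subset.rfl Subset.rfl (by linarith)

/-- **`hfi` of `pvdk_meshC`** at `κ := 4 μ` -/
theorem pvnye_fat_i (c0 : 0 < c) (hR : PvnaRec N hN c 𝔈) {m : ℕ} (hm : (pvxParOf N hN c).m0 ≤ m) (t : pvxTau N) :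
    PvdkFat (pvilMu (pvxParOf N hN c) m) (4 * pvilMu (pvxParOf N hN c) m) (𝔈.iK m t) (𝔈.iM m t ∪ 𝔈.iK m t) := by
  obtain ⟨nb, rfl⟩ := hR
  have h0 := pvnye_mu_pos hN c m
  have h := pvnye_fat_iKa (t := t) (O₀ := (pvnaInRec N hN c nb).O0) ((pvea_par hN c0).lev hm) (pvea_tyOk hN t) rfl h0.le (pvnye_mu_le _ m)
  exact h.mono Subset.rfl Subset.rfl (by linarith)

/-- **(MESH-C) AT THE ENGINE OF RECORD** = `pvdk_meshC` of 104 with every hypothesis on the engine paid: a.e. on the chain event (weights `pvilQ`) the resampled region has the mesh `μ`, for every `μ ≥ 5 ρ_cell, 5 pvilMu` -/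
theorem pvnye_meshC (c0 : 0 < c) (hE : PvnaWf (pvxParOf N hN c) 𝔈) (hR : PvnaRec N hN c 𝔈) {m : ℕ} (hm : (pvxParOf N hN c).m0 ≤ m) (p : PvtsPat (pvxTau N)) (hΓ : ((pvxParOf N hN c).Γ m).Ok p)
    (b : Bool) (Zt Zs : Set (ℤ × ℤ)) (Ft Fs : Set ℂ) {μ : ℝ} (h1 : 5 * (pvkgG.sc (pvlmDel c m)).ρ ≤ μ) (h3 : 5 * pvilMu (pvxParOf N hN c) m ≤ μ) :
    ∀ᶠ ε in 𝓝[>] (0 : ℝ), ∀ᵐ η ∂pvP ε,
      pvkyFl b η ∈ pvkyEv (𝔈.kit m ε) b (pvieZo (pvxParOf N hN c) m p.zt p.tt) (((pvxParOf N hN c).Γ m).dout p.tt) p.l (pvilEo (pvxParOf N hN c) 𝔈 m ε pvilQ p.zt p.tt Zt Ft) (pvilEi (pvxParOf N hN c) 𝔈 m ε pvilQ p.zs p.ts Zs Fs) →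
      VorDense (cfSites η) (pvieCc (pvxParOf N hN c) 𝔈 m ε p) μ :=
  pvdk_meshC (pvxo_wf N hN c).toWfB (pvnye_nn hR) (pvnye_engB hE) m p hΓ (pveg_dout4 ((pvea_par hN c0).lev hm) p.tt) pvml_wm_Q b Zt Zs Ft Fs
    (fun ε => pvnye_wo hE hR m ε _ _ _) (fun ε => pvnye_wi hE hR m ε _ _ _) (pvnye_mu_pos hN c m) (pvnye_fat_o c0 hR hm p.tt) (pvnye_fat_i c0 hR hm p.ts) h1 (by linarith) h3

end record

/-! ## 4. (Y-CHAIN) -/

section chain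

variable {c : ℝ}

/-- **`PvjmAe.idx`**: a present datum whose sites have the mesh `r` off `C` makes the index good -/
theorem pvnye_idx (c0 : 0 < c) {N : PvxNums} (hN : N.Ok) {x : ℂ} {R : ℝ} {m : ℕ} {π : PvxIx (pvxTau N)} (hm : (pvxParOf N hN c).m0 ≤ m) (hπ : π ∈ pvxPatSet (pvxParOf N hN c) x R m) {C : Set ℂ} {r : ℝ}
    (G : PvknGeo (pvxParOf N hN c).num (pvlmH m) ((pvxParOf N hN c).reg m π) x (5 * R) (6 * R) C r) (hr60 : 60 * r ≤ pvlmDel c m) {a : ℂ} {𝔎 : PvxnKit} {Y : Set ℂ} {i : PvxnIx} {σ : ↥Y → Bool}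
    {𝔇 : PvwDat (delbPl Y).toMap} (h : PvxnWit (pvxParOf N hN c) m π a 𝔎 Y i σ 𝔇) (hmesh : VorDense Y (pvn1kOff x R C r) r) : PvjxGood (pvxParOf N hN c) m π := by
  have hW := pvxo_wf N hN c
  have hh := pvlm_H_pos m
  have hδ := pvlm_Del_pos c m
  have hr := G.r0
  have hLR : (pvxParOf N hN c).𝔐.L * pvlmH m + pvlmH m ≤ R := pvxo_LR N hN c hπ
  have hr2 : 2 * r ≤ pvlmH m := by
    have h1 : 1000000 * pvlmDel c m ≤ N.rho * pvlmH m := pvxo_fine hN c0 hm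
    have h4 : N.rho ≤ 1 := by linarith [hN.rho0, hN.rho1, hN.rho2, hN.rho3]
    nlinarith
  have hb : ∀ t : pvxTau N, 2 * pvlmH m ≤ ((pvxParOf N hN c).ty t).b * pvlmH m := fun t => by
    have h1 : 2 ≤ ((pvxParOf N hN c).ty t).a := by
      rw [pvxo_ty_a]
      linarith [hN.m_gt, hN.m_lt, hN.B_lt]
    have h2 := hW.ab t
    nlinarith
  have hμ : r ≤ pvjxMu (pvxParOf N hN c) m π := by
    unfold pvjxMu
    refine le_min (by linarith) (le_min ?_ ?_)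
    · linarith [hb π.p.ts]
    · linarith [hb π.p.tt]
  obtain ⟨⟨-, -, -, hzs, hzt, -⟩, -⟩ := hπ.1, hπ.2
  have key : ∀ (z : ℂ) (t : pvxTau N), ‖z - x‖ ≤ 3 * R → closedBall z (((pvxParOf N hN c).ty t).b * pvlmH m) ⊆ pvgeFar C r → VorDense Y (closedBall z (((pvxParOf N hN c).ty t).b * pvlmH m)) r := by
    intro z t hz hfar
    have h3 : ((pvxParOf N hN c).ty t).b * pvlmH m ≤ (pvxParOf N hN c).𝔐.L * pvlmH m := mul_le_mul_of_nonneg_right (hW.b_le t) hh.le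
    refine pvn1k_mesh_sub (pvn1k_far_sub hr (fun w hw => ?_) hfar) hmesh
    rw [mem_closedBall_iff_norm] at hw
    have h4 : ‖w - x‖ ≤ ‖w - z‖ + ‖z - x‖ := by simpa using norm_add_le (w - z) (z - x)
    have h5 := norm_nonneg (w - z)
    linarith
  have ks := G.ks
  have kt := G.kt
  rw [hW.reg_zs, hW.reg_ts] at ks
  rw [hW.reg_zt, hW.reg_tt] at kt
  refine pvjx_wit hW (pvfhw_par N hN c) (pvffz_fine_at hN c0 hm) hπ h ?_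
  rintro w (hw | hw)
  · obtain ⟨u, hu, hle⟩ := key _ π.p.ts hzs ks w hw
    exact ⟨u, hu, hle.trans hμ⟩
  · obtain ⟨u, hu, hle⟩ := key _ π.p.tt hzt kt w hw
    exact ⟨u, hu, hle.trans hμ⟩

/-- **(Y-CHAIN) = THE STATEMENT OF `exit_pvyy_chain` (12, `Exit/N1YZ`), VERBATIM** -/
theorem pvnye_chain (c0 : 0 < c) (N : PvxNums) (hN : N.Ok) (𝔈 : PvieEng (pvxTau N)) (hE : PvnaWf (pvxParOf N hN c) 𝔈) (hR : PvnaRec N hN c 𝔈) {x : ℂ} {R : ℝ} {m : ℕ} {π : PvxIx (pvxTau N)}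
    (hR0 : 0 < R) (hm : (pvxParOf N hN c).m0 ≤ m) (hπ : π ∈ pvxPatSet (pvxParOf N hN c) x R m) {μr : ℝ} (hμ0 : 0 < μr) (hμr : μr ≤ pvlmDel c m / 3) (hre : PvnxdReal (pvxParOf N hN c) x R m π μr)
    {r : ℝ} (G : ∀ᶠ ε in 𝓝[>] (0 : ℝ), PvknGeo (pvxParOf N hN c).num (pvlmH m) ((pvxParOf N hN c).reg m π) x (5 * R) (6 * R) (pvieCc (pvxParOf N hN c) 𝔈 m ε π.p) r) (hr60 : 60 * r ≤ pvlmDel c m)
    (q qf : ℝ≥0∞) {Rg : ℝ → ∀ Y : Set ℂ, PvwDat (delbPl Y).toMap → (↥Y → Bool) → Prop} (hRg : PvyyRg (pvxParOf N hN c) 𝔈 x R m π r Rg) :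
    ∀ᶠ ε in 𝓝[>] (0 : ℝ), ∀ᵐ η ∂pvP ε, η ∈ pvyyS (pvxParOf N hN c) 𝔈 m π qf ε → pvkyFl ((pvxParOf N hN c).col π.p.ts) η ∈ pvyyEv (pvxParOf N hN c) 𝔈 m π ε →
      ∀ i 𝔇, PvdfPr (pvxParOf N hN c) m π 0 (pvyyK (pvxParOf N hN c) 𝔈 x R m π r q Rg ε) η i 𝔇 →
      ∃ y, 𝔇.YArc Subtype.val ((pvxParOf N hN c).reg m π) (pvdfCol η) y ∧
        pvyyYc (pvxParOf N hN c) 𝔈 m π ε (pvkyFl ((pvxParOf N hN c).col π.p.ts) η) = 𝔇.Yof Subtype.val (pvxnFd (cfSites η) 0) (pvxParOf N hN c).num (pvlmH m) ((pvxParOf N hN c).reg m π) y := by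
  have hW := pvxo_wf N hN c
  obtain ⟨n1, n2, n3⟩ := pvjm_num_at hN c m π.p.tt π.p.ts
  refine pvjm_hch_YL hW hπ (P := PvjxGood (pvxParOf N hN c) m π) (fun hg => pvvh_mod_rec hN c0 hm hR hπ hg) (S := pvyyS (pvxParOf N hN c) 𝔈 m π qf) (𝔎s := pvyyK (pvxParOf N hN c) 𝔈 x R m π r q Rg) ?_
  filter_upwards [G, pvnye_dict hR m, self_mem_nhdsWithin] with ε g D hε
  exact pvjm_ae_win hW hπ n1 n2 n3 (ne_of_gt hε) D (pvnye_wo hE hR m ε _ _ _) (pvnye_wi hE hR m ε _ _ _) (pvnye_no hE hR hε m _ _ _) (pvnye_ni hE hR hε m _ _ _)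
    (Eventually.of_forall fun ζ _ i 𝔇 hP => pvnye_idx c0 hN hm hπ g hr60 hP.1 (hRg ε _ 𝔇 _ hP.2.1.1).2)

end chain

end Claimed.Agent.R289
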