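-- KEEP
import Claimed.Agent.R289.Exit.N1YT
import Claimed.Agent.R289.Exit.N1YE
import Claimed.Agent.R289.Tr.ChainJ
import Claimed.Agent.R289.Tr.ChainH
import Claimed.Agent.R289.Exit.N1T

/-!
# Row 289 (S0537), THE WALL, ROAD E, file Exit/N1YW : (Y-CHAIN) AT THE ENGINE OF RECORD = THE STATEMENT OF `exit_pvyy_chain` (12, `Exit/N1YZ`)      (helper268; prefix `pvjm_`)

`pvjm_hch_YL` (`Tr/ChainN`) at `hM := pvvh_mod_rec` (194 `Tr/ChainH`: 175 274 244), `hA := pvjm_ae_win` (`Tr/ChainJ`: the junction by the windows, 90) over `pvnye_dict _wo _wi _no _ni` (229 `Exit/N1YE`), `idx` := the binder `hgood`.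
-/

set_option autoImplicit false
set_option linter.unusedVariables false

namespace Claimed.Agent.R289

open MeasureTheory ProbabilityTheory Filter Topology Set Claims.C0465
open scoped ENNReal

/-- **(Y-CHAIN) AT THE RECORD**, ANY guard `S`, ANY kits `𝔎s` -/
theorem pvjm_chain_rec {c : ℝ} (c0 : 0 < c) (N : PvxNums) (hN : N.Ok) (𝔈 : PvieEng (pvxTau N)) (hE : PvnaWf (pvxParOf N hN c) 𝔈) (hR : PvnaRec N hN c 𝔈) {x : ℂ} {R : ℝ} {m : ℕ} {π : PvxIx (pvxTau N)}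
    (hm : (pvxParOf N hN c).m0 ≤ m) (hπ : π ∈ pvxPatSet (pvxParOf N hN c) x R m) (hgood : PvjxGood (pvxParOf N hN c) m π) (S : ℝ → Set (Conf PvPt)) (𝔎s : ℝ → PvxnKit) :
    ∀ᶠ ε in 𝓝[>] (0 : ℝ), ∀ᵐ η ∂pvP ε, η ∈ S ε → pvkyFl ((pvxParOf N hN c).col π.p.ts) η ∈ pvyyEv (pvxParOf N hN c) 𝔈 m π ε →
      ∀ i 𝔇, PvdfPr (pvxParOf N hN c) m π 0 (𝔎s ε) η i 𝔇 →
      ∃ y, 𝔇.YArc Subtype.val ((pvxParOf N hN c).reg m π) (pvdfCol η) y ∧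
        pvyyYc (pvxParOf N hN c) 𝔈 m π ε (pvkyFl ((pvxParOf N hN c).col π.p.ts) η) = 𝔇.Yof Subtype.val (pvxnFd (cfSites η) 0) (pvxParOf N hN c).num (pvlmH m) ((pvxParOf N hN c).reg m π) y := by
  obtain ⟨hμ, hρ1, hnum⟩ := pvjm_num_at hN c m π.p.tt π.p.ts
  refine pvjm_hch_YL (pvxo_wf N hN c) hπ (P := True) (fun _ => pvvh_mod_rec hN c0 hm hR hπ hgood) (S := S) (𝔎s := 𝔎s) ?_
  filter_upwards [pvnye_dict hR m, self_mem_nhdsWithin] with ε hd hε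
  exact pvjm_ae_win (pvxo_wf N hN c) hπ hμ hρ1 hnum (ne_of_gt hε) hd (pvnye_wo hE hR m ε _ _ _) (pvnye_wi hE hR m ε _ _ _) (pvnye_no hE hR hε m _ _ _) (pvnye_ni hE hR hε m _ _ _)
    (Eventually.of_forall fun _ _ _ _ _ => trivial)

/-- **THE STATEMENT OF `exit_pvyy_chain` (12, `Exit/N1YZ` v1.1), VERBATIM** -/
theorem pvjm_exit_chain {c : ℝ} (c0 : 0 < c) (N : PvxNums) (hN : N.Ok) (𝔈 : PvieEng (pvxTau N)) (hE : PvnaWf (pvxParOf N hN c) 𝔈) (hR : PvnaRec N hN c 𝔈) {x : ℂ} {R : ℝ} {m : ℕ} {π : PvxIx (pvxTau N)}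
    (hR0 : 0 < R) (hm : (pvxParOf N hN c).m0 ≤ m) (hπ : π ∈ pvxPatSet (pvxParOf N hN c) x R m) (hgood : PvjxGood (pvxParOf N hN c) m π) {μr : ℝ} (hμ0 : 0 < μr) (hμr : μr ≤ pvlmDel c m / 3) (hre : PvnxdReal (pvxParOf N hN c) x R m π μr)
    {r : ℝ} (G : ∀ᶠ ε in 𝓝[>] (0 : ℝ), PvknGeo (pvxParOf N hN c).num (pvlmH m) ((pvxParOf N hN c).reg m π) x (5 * R) (6 * R) (pvieCc (pvxParOf N hN c) 𝔈 m ε π.p) r) (hr60 : 60 * r ≤ pvlmDel c m)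
    (q qf : ℝ≥0∞) {Rg : ℝ → ∀ Y : Set ℂ, PvwDat (delbPl Y).toMap → (↥Y → Bool) → Prop} (hRg : PvyyRg (pvxParOf N hN c) 𝔈 x R m π r Rg) (hT : ∀ ε (Y : Set ℂ) (𝔇 : PvwDat (delbPl Y).toMap) (σ : ↥Y → Bool), Rg ε Y 𝔇 σ → Pvn1tTight (pvxParOf N hN c) m π Y 𝔇 σ) :
    ∀ᶠ ε in 𝓝[>] (0 : ℝ), ∀ᵐ η ∂pvP ε, η ∈ pvyyS (pvxParOf N hN c) 𝔈 m π qf ε → pvkyFl ((pvxParOf N hN c).col π.p.ts) η ∈ pvyyEv (pvxParOf N hN c) 𝔈 m π ε →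
      ∀ i 𝔇, PvdfPr (pvxParOf N hN c) m π 0 (pvyyK (pvxParOf N hN c) 𝔈 x R m π r q Rg ε) η i 𝔇 →
      ∃ y, 𝔇.YArc Subtype.val ((pvxParOf N hN c).reg m π) (pvdfCol η) y ∧
        pvyyYc (pvxParOf N hN c) 𝔈 m π ε (pvkyFl ((pvxParOf N hN c).col π.p.ts) η) = 𝔇.Yof Subtype.val (pvxnFd (cfSites η) 0) (pvxParOf N hN c).num (pvlmH m) ((pvxParOf N hN c).reg m π) y :=
  pvjm_chain_rec c0 N hN 𝔈 hE hR hm hπ hgood _ _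

end Claimed.Agent.R289
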