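-- KEEP
import Claimed.Agent.R289.Exit.N1YT
import Claimed.Agent.R289.Exit.N1YC
import Claimed.Agent.R289.Exit.N1CcR
import Claimed.Agent.R289.Exit.N1Far
import Claimed.Agent.R289.Exit.N1XA
import Claimed.Agent.R289.Exit.N1YW
import Claimed.Agent.R289.Exit.N1YBs
import Claimed.Agent.R289.Exit.N1YPk

/-!
# Row 289 (S0537), THE WALL, ROAD E, file Exit/N1YZ : THE THREE SUB-EXITS OF `exit_pvn1a_Y` AND THE LAST WIRE      (helper12; prefix `pvyz_`; the sub-exits keep their names `exit_pvyy_*`)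

ABOVE `Exit/N1YT` (defs `pvyyK pvyyM pvyyS pvyyEv pvyyYc PvyyRg`, roof `pvyy_exit`) AND ABOVE THE FILES OF THE PROVERS;   BELOW `Exit/N1All.lean`.
* **`exit_pvyy_in`**      (Y-IN)      PROVED := `pvkyn_in_rec` (218 `Exit/N1YBs`; 93 214 180 141) over **`exit_pvyy_pl`** = (P2) = (POCKET-DET)      PROVED := `pvpk9_rec` (120 `Exit/N1YPk`; 158 74 49 10 78 27 38 255 124 245)
* **`exit_pvyy_cell`**    (Y-CELL)    PROVED := `pvq8_cell` (63 `Exit/N1YC`) + `pvc6_Cc_rec` (78 `Exit/N1CcR`) + `pvn1f_ne_rec` (169 `Exit/N1Far`)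
* **`exit_pvyy_chain`**   (Y-CHAIN)   PROVED := `pvjm_exit_chain` (268 `Exit/N1YW`: `pvjm_hch_YL` + `pvvh_mod_rec` of 194 + `pvjm_ae_win` (junction: 90) + `pvnye_*` of 229)
* **`pvyz_exit`** = `exit_pvn1a_Y` for ANY `Rg` with `PvyyRg`, ANY `S ⊆ pvyyS`;   **`pvyz_exit_recT`** = the same at the objects of record of 60 (`Exit/N1XA`: `pvnxaR`, `pvnxaRg ∧ Pvn1tTight`, `pvnxaKsT`).      LAYER 1 CARRIES `Pvn1tTight` (binder `hT`): asked by (POCKET-DET) (74 120 27)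
-/

set_option autoImplicit false
set_option linter.unusedSectionVars false
set_option linter.unusedVariables false

namespace Claimed.Agent.R289

open MeasureTheory ProbabilityTheory Filter Topology Set Claims.C0465
open scoped ENNReal

section exits

variable {c : ℝ}

/-- **(Y-PL) = (P2) = (POCKET-DET)**: THE ONLY DEBT OF (Y-IN): at a present datum of the guarded kit the plain success and the plain value of the first / last link do not see the colours of the kept sites which are neither frozen positions of the half state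
nor fresh sites of the mouth OFF `i.N`      [120 `Tr/PocketD` v2 (`pvpd_pl_o_top`, `pvpd_pl_i_top`: both ends, generic engine);  158 `Tr/Pocket`;  10 `Tr/PocketI`;  78 `Exit/N1PkR`;  74 (record);  region lines (Rc): after L2 of 124] -/
theorem exit_pvyy_pl (c0 : 0 < c) (N : PvxNums) (hN : N.Ok) (𝔈 : PvieEng (pvxTau N)) (hE : PvnaWf (pvxParOf N hN c) 𝔈) (hR : PvnaRec N hN c 𝔈) {x : ℂ} {R : ℝ} {m : ℕ} {π : PvxIx (pvxTau N)}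
    (hR0 : 0 < R) (hm : (pvxParOf N hN c).m0 ≤ m) (hπ : π ∈ pvxPatSet (pvxParOf N hN c) x R m) (hgood : PvjxGood (pvxParOf N hN c) m π) {μr : ℝ} (hμ0 : 0 < μr) (hμr : μr ≤ pvlmDel c m / 3) (hre : PvnxdReal (pvxParOf N hN c) x R m π μr)
    {r : ℝ} (G : ∀ᶠ ε in 𝓝[>] (0 : ℝ), PvknGeo (pvxParOf N hN c).num (pvlmH m) ((pvxParOf N hN c).reg m π) x (5 * R) (6 * R) (pvieCc (pvxParOf N hN c) 𝔈 m ε π.p) r) (hr60 : 60 * r ≤ pvlmDel c m)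
    (q : ℝ≥0∞) {qf : ℝ≥0∞} (hqf : qf ≠ 0) {Rg : ℝ → ∀ Y : Set ℂ, PvwDat (delbPl Y).toMap → (↥Y → Bool) → Prop} (hRg : PvyyRg (pvxParOf N hN c) 𝔈 x R m π r Rg) (hT : ∀ ε (Y : Set ℂ) (𝔇 : PvwDat (delbPl Y).toMap) (σ : ↥Y → Bool), Rg ε Y 𝔇 σ → Pvn1tTight (pvxParOf N hN c) m π Y 𝔇 σ)
    {S : ℝ → Set (Conf PvPt)} (hS : ∀ ε, S ε ⊆ pvyyS (pvxParOf N hN c) 𝔈 m π qf ε) :
    ∀ᶠ ε in 𝓝[>] (0 : ℝ), PvkynPl (pvxParOf N hN c) 𝔈 m π ((pvyyK (pvxParOf N hN c) 𝔈 x R m π r q Rg ε).guard (S ε)) ε :=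
  pvpk9_rec c0 N hN 𝔈 hE hR hm hπ G q hT hS

/-- **(Y-IN) THE CONTRACT `PvyjInL` OF 93 AT THE GUARDED KITS OF RECORD** (`door chain kst enl`), ANY finite bound `D` of the weight (e.g. `pvyyD β' qc qf n`, `pvyk1D` of 214)      [93 `Exit/N1Y` sec. 7 (`PvyjIn.of_blind`, model free);  214 `Exit/N1YK` (per base inputs at the model);
180 (the two `PvueWin`);  218 141 (`PvkyChain`, `Tr/Irr`, `Tr/Blind`);  158 (POCKET);  `pvkeD ≤ pvyyD` : `pvyy_D_le`] -/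
theorem exit_pvyy_in (c0 : 0 < c) (N : PvxNums) (hN : N.Ok) (𝔈 : PvieEng (pvxTau N)) (hE : PvnaWf (pvxParOf N hN c) 𝔈) (hR : PvnaRec N hN c 𝔈) {x : ℂ} {R : ℝ} {m : ℕ} {π : PvxIx (pvxTau N)}
    (hR0 : 0 < R) (hm : (pvxParOf N hN c).m0 ≤ m) (hπ : π ∈ pvxPatSet (pvxParOf N hN c) x R m) (hgood : PvjxGood (pvxParOf N hN c) m π) {μr : ℝ} (hμ0 : 0 < μr) (hμr : μr ≤ pvlmDel c m / 3) (hre : PvnxdReal (pvxParOf N hN c) x R m π μr)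
    {r : ℝ} (G : ∀ᶠ ε in 𝓝[>] (0 : ℝ), PvknGeo (pvxParOf N hN c).num (pvlmH m) ((pvxParOf N hN c).reg m π) x (5 * R) (6 * R) (pvieCc (pvxParOf N hN c) 𝔈 m ε π.p) r) (hr60 : 60 * r ≤ pvlmDel c m)
    (q : ℝ≥0∞) {qf : ℝ≥0∞} (hqf : qf ≠ 0) {Rg : ℝ → ∀ Y : Set ℂ, PvwDat (delbPl Y).toMap → (↥Y → Bool) → Prop} (hRg : PvyyRg (pvxParOf N hN c) 𝔈 x R m π r Rg) (hT : ∀ ε (Y : Set ℂ) (𝔇 : PvwDat (delbPl Y).toMap) (σ : ↥Y → Bool), Rg ε Y 𝔇 σ → Pvn1tTight (pvxParOf N hN c) m π Y 𝔇 σ)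
    {S : ℝ → Set (Conf PvPt)} (hS : ∀ ε, S ε ⊆ pvyyS (pvxParOf N hN c) 𝔈 m π qf ε) {β' qc : ℝ≥0∞} {CB : ℝ}
    (hk : ∀ᶠ ε in 𝓝[>] (0 : ℝ), ∃ r' : ℝ, PvcnOkQ (𝔈.kit m ε) ε (𝔈.XQ m ε) β' qc (ENNReal.ofReal (CB * pvlmDel c m ^ 2)) r') :
    ∃ D : ℝ≥0∞, D ≠ ⊤ ∧ ∃ yf : PvxnIx → Conf PvPt → Set ℂ, PvyjInL (pvxParOf N hN c) 𝔈 m π (fun ε => (pvyyK (pvxParOf N hN c) 𝔈 x R m π r q Rg ε).guard (S ε)) D yf :=
  pvkyn_in_rec c0 N hN 𝔈 hE hR hm hπ q hqf hS hk (exit_pvyy_pl c0 N hN 𝔈 hE hR hR0 hm hπ hgood hμ0 hμr hre G hr60 q hqf hRg hT hS)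

/-- **(Y-CELL)**: a.e., at a configuration of the guard on which the chain succeeds (reference ends), for a present datum of the kit (layers 0, 1) with an arc of `SY` in hand: the sites of the patch in the open cell of EVERY shield lie in `MF(D)`
[63 `Tr/ColP` `Tr/ColPR` (`pvq6_g1`, route B: no mesh inside `C`);  78 `Tr/C2Col` `Tr/C2ColR` (`pvc5_cell`, `pvc6_Cc_sub`);  104 `Tr/DomEM` (MESH-C);  194] -/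
theorem exit_pvyy_cell (c0 : 0 < c) (N : PvxNums) (hN : N.Ok) (𝔈 : PvieEng (pvxTau N)) (hE : PvnaWf (pvxParOf N hN c) 𝔈) (hR : PvnaRec N hN c 𝔈) {x : ℂ} {R : ℝ} {m : ℕ} {π : PvxIx (pvxTau N)}
    (hR0 : 0 < R) (hm : (pvxParOf N hN c).m0 ≤ m) (hπ : π ∈ pvxPatSet (pvxParOf N hN c) x R m) (hgood : PvjxGood (pvxParOf N hN c) m π) {μr : ℝ} (hμ0 : 0 < μr) (hμr : μr ≤ pvlmDel c m / 3) (hre : PvnxdReal (pvxParOf N hN c) x R m π μr)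
    {r : ℝ} (G : ∀ᶠ ε in 𝓝[>] (0 : ℝ), PvknGeo (pvxParOf N hN c).num (pvlmH m) ((pvxParOf N hN c).reg m π) x (5 * R) (6 * R) (pvieCc (pvxParOf N hN c) 𝔈 m ε π.p) r) (hr60 : 60 * r ≤ pvlmDel c m)
    (q qf : ℝ≥0∞) {Rg : ℝ → ∀ Y : Set ℂ, PvwDat (delbPl Y).toMap → (↥Y → Bool) → Prop} (hRg : PvyyRg (pvxParOf N hN c) 𝔈 x R m π r Rg) :
    ∀ᶠ ε in 𝓝[>] (0 : ℝ), ∀ᵐ η ∂pvP ε, η ∈ pvyyS (pvxParOf N hN c) 𝔈 m π qf ε → pvkyFl ((pvxParOf N hN c).col π.p.ts) η ∈ pvyyEv (pvxParOf N hN c) 𝔈 m π ε →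
      ∀ i 𝔇, PvdfPr (pvxParOf N hN c) m π 0 (pvyyK (pvxParOf N hN c) 𝔈 x R m π r q Rg ε) η i 𝔇 →
      ∀ y, 𝔇.YArc Subtype.val ((pvxParOf N hN c).reg m π) (pvdfCol η) y → ∀ (p : (delbPl (cfSites η)).toMap.Pth) (hg : 𝔇.g.Glue p), 𝔇.IsShield Subtype.val ((pvxParOf N hN c).reg m π) (pvdfCol η) p →
        ∀ v : ↥(cfSites η), ‖(v : ℂ) - x‖ ≤ 6 * R → v ∈ (delbPl (cfSites η)).toMap.Int (𝔇.g.glue p hg).Right → v ∈ pvyyM (pvxParOf N hN c) 𝔈 x R m π r ε _ 𝔇 := by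
  obtain ⟨nb, rfl⟩ := hR
  have hC : ∀ᶠ ε in 𝓝[>] (0 : ℝ), pvieCc (pvxParOf N hN c) (pvnaEngRec N hN c nb) m ε π.p ⊆ pvc6T (pvxParOf N hN c) m π.p ∧ (pvieCc (pvxParOf N hN c) (pvnaEngRec N hN c nb) m ε π.p).Nonempty :=
    Eventually.of_forall fun ε => ⟨pvc6_Cc_rec hN nb c0 hm ε π.p, pvn1f_ne_rec hN nb ε π.p⟩
  have h48 : 48 * r ≤ pvlmDel c m := by
    obtain ⟨ε, g⟩ := G.exists
    have := g.r0
    linarith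
  filter_upwards [pvq8_cell c0 N hN (pvnaEngRec N hN c nb) hm hπ G h48 q (fun ε Y 𝔇 σ h => (hRg ε Y 𝔇 σ h).2) hC] with ε h
  filter_upwards [h] with η hη _ _
  exact hη

/-- **(Y-CHAIN)**: a.e., at a configuration of the guard on which the chain succeeds (reference ends), for a present datum: the links are ONE strand `t → s` with rim arc `y`, and the closing sum is `I(t → s; y)`
[268 `Tr/ChainM` (assembly);  70 `Tr/LinkRec` `Tr/LinkEnd` (`pvlc_value_Q`, `pvlc_end_o _i`);  244 (`PvukDict.word`);  175 `Tr/ChainG`, 194 `Tr/ChainH`, 274 (regions at the model)] -/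
theorem exit_pvyy_chain (c0 : 0 < c) (N : PvxNums) (hN : N.Ok) (𝔈 : PvieEng (pvxTau N)) (hE : PvnaWf (pvxParOf N hN c) 𝔈) (hR : PvnaRec N hN c 𝔈) {x : ℂ} {R : ℝ} {m : ℕ} {π : PvxIx (pvxTau N)}
    (hR0 : 0 < R) (hm : (pvxParOf N hN c).m0 ≤ m) (hπ : π ∈ pvxPatSet (pvxParOf N hN c) x R m) (hgood : PvjxGood (pvxParOf N hN c) m π) {μr : ℝ} (hμ0 : 0 < μr) (hμr : μr ≤ pvlmDel c m / 3) (hre : PvnxdReal (pvxParOf N hN c) x R m π μr)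
    {r : ℝ} (G : ∀ᶠ ε in 𝓝[>] (0 : ℝ), PvknGeo (pvxParOf N hN c).num (pvlmH m) ((pvxParOf N hN c).reg m π) x (5 * R) (6 * R) (pvieCc (pvxParOf N hN c) 𝔈 m ε π.p) r) (hr60 : 60 * r ≤ pvlmDel c m)
    (q qf : ℝ≥0∞) {Rg : ℝ → ∀ Y : Set ℂ, PvwDat (delbPl Y).toMap → (↥Y → Bool) → Prop} (hRg : PvyyRg (pvxParOf N hN c) 𝔈 x R m π r Rg) (hT : ∀ ε (Y : Set ℂ) (𝔇 : PvwDat (delbPl Y).toMap) (σ : ↥Y → Bool), Rg ε Y 𝔇 σ → Pvn1tTight (pvxParOf N hN c) m π Y 𝔇 σ) :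
    ∀ᶠ ε in 𝓝[>] (0 : ℝ), ∀ᵐ η ∂pvP ε, η ∈ pvyyS (pvxParOf N hN c) 𝔈 m π qf ε → pvkyFl ((pvxParOf N hN c).col π.p.ts) η ∈ pvyyEv (pvxParOf N hN c) 𝔈 m π ε →
      ∀ i 𝔇, PvdfPr (pvxParOf N hN c) m π 0 (pvyyK (pvxParOf N hN c) 𝔈 x R m π r q Rg ε) η i 𝔇 →
      ∃ y, 𝔇.YArc Subtype.val ((pvxParOf N hN c).reg m π) (pvdfCol η) y ∧
        pvyyYc (pvxParOf N hN c) 𝔈 m π ε (pvkyFl ((pvxParOf N hN c).col π.p.ts) η) = 𝔇.Yof Subtype.val (pvxnFd (cfSites η) 0) (pvxParOf N hN c).num (pvlmH m) ((pvxParOf N hN c).reg m π) y :=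
  pvjm_exit_chain c0 N hN 𝔈 hE hR hR0 hm hπ hgood hμ0 hμr hre G hr60 q qf hRg hT

/-- **THE `Y` SIDE AT THE GUARDED KITS OF RECORD** = `exit_pvn1a_Y` of 159 for ANY layer 1 `Rg ⟹ g5 ∧ mesh off C`, ANY guard `S ⊆ pvyyS` -/
theorem pvyz_exit (c0 : 0 < c) (N : PvxNums) (hN : N.Ok) (𝔈 : PvieEng (pvxTau N)) (hE : PvnaWf (pvxParOf N hN c) 𝔈) (hR : PvnaRec N hN c 𝔈) {x : ℂ} {R : ℝ} {m : ℕ} {π : PvxIx (pvxTau N)}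
    (hR0 : 0 < R) (hm : (pvxParOf N hN c).m0 ≤ m) (hπ : π ∈ pvxPatSet (pvxParOf N hN c) x R m) (hgood : PvjxGood (pvxParOf N hN c) m π) {μr : ℝ} (hμ0 : 0 < μr) (hμr : μr ≤ pvlmDel c m / 3) (hre : PvnxdReal (pvxParOf N hN c) x R m π μr)
    {r : ℝ} (G : ∀ᶠ ε in 𝓝[>] (0 : ℝ), PvknGeo (pvxParOf N hN c).num (pvlmH m) ((pvxParOf N hN c).reg m π) x (5 * R) (6 * R) (pvieCc (pvxParOf N hN c) 𝔈 m ε π.p) r) (hr60 : 60 * r ≤ pvlmDel c m)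
    (q : ℝ≥0∞) {qf : ℝ≥0∞} (hqf : qf ≠ 0) {Rg : ℝ → ∀ Y : Set ℂ, PvwDat (delbPl Y).toMap → (↥Y → Bool) → Prop} (hRg : PvyyRg (pvxParOf N hN c) 𝔈 x R m π r Rg) (hT : ∀ ε (Y : Set ℂ) (𝔇 : PvwDat (delbPl Y).toMap) (σ : ↥Y → Bool), Rg ε Y 𝔇 σ → Pvn1tTight (pvxParOf N hN c) m π Y 𝔇 σ)
    {S : ℝ → Set (Conf PvPt)} (hS : ∀ ε, S ε ⊆ pvyyS (pvxParOf N hN c) 𝔈 m π qf ε) (mC : ∀ᶠ ε in 𝓝[>] (0 : ℝ), MeasurableSet (pvieCc (pvxParOf N hN c) 𝔈 m ε π.p))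
    (Γs : ℝ → PVSample → Prop) (μ : ℝ) :
    ∃ 𝔜 : PvxnYd, Pvn1aY (pvxParOf N hN c) x R m π 0 𝔜 (pvyyK (pvxParOf N hN c) 𝔈 x R m π r q Rg) Γs μ S (pvnaK (pvxParOf N hN c) (pvnaDatE (pvxParOf N hN c) 𝔈) m π.p) := by
  obtain ⟨β', qc, CB, hk⟩ := pvyj_kit_ok hE
  exact pvyy_exit c0 N hN 𝔈 hE hR0 hm hπ G hr60 q hRg hS mC Γs μ (exit_pvyy_in c0 N hN 𝔈 hE hR hR0 hm hπ hgood hμ0 hμr hre G hr60 q hqf hRg hT hS (hk m))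
    (exit_pvyy_cell c0 N hN 𝔈 hE hR hR0 hm hπ hgood hμ0 hμr hre G hr60 q qf hRg) (exit_pvyy_chain c0 N hN 𝔈 hE hR hR0 hm hπ hgood hμ0 hμr hre G hr60 q qf hRg hT)

/-- **THE `Y` SIDE AT THE OBJECTS OF RECORD OF 60** (`Exit/N1XA`: `r := pvnxaR c m = δ_m / 60`, layer 1 `pvnxaRg ∧ Pvn1tTight` = `g5`, mesh off `C`, NO TUNNEL of 27;   kits `pvnxaKsT`), ANY guard `S ⊆ pvyyS`, any free good event, any mesh -/
theorem pvyz_exit_recT (c0 : 0 < c) (N : PvxNums) (hN : N.Ok) (𝔈 : PvieEng (pvxTau N)) (hE : PvnaWf (pvxParOf N hN c) 𝔈) (hR : PvnaRec N hN c 𝔈) {x : ℂ} {R : ℝ} {m : ℕ} {π : PvxIx (pvxTau N)}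
    (hR0 : 0 < R) (hm : (pvxParOf N hN c).m0 ≤ m) (hπ : π ∈ pvxPatSet (pvxParOf N hN c) x R m) (hgood : PvjxGood (pvxParOf N hN c) m π) (hre : PvnxdReal (pvxParOf N hN c) x R m π (pvlmDel c m / 3))
    (q : ℝ≥0∞) {qf : ℝ≥0∞} (hqf : qf ≠ 0) {S : ℝ → Set (Conf PvPt)} (hS : ∀ ε, S ε ⊆ pvyyS (pvxParOf N hN c) 𝔈 m π qf ε) (Γs : ℝ → PVSample → Prop) (μ : ℝ) :
    ∃ 𝔜 : PvxnYd, Pvn1aY (pvxParOf N hN c) x R m π 0 𝔜 (pvnxaKsT (pvxParOf N hN c) 𝔈 x R m π q) Γs μ S (pvnaK (pvxParOf N hN c) (pvnaDatE (pvxParOf N hN c) 𝔈) m π.p) :=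
  pvyz_exit c0 N hN 𝔈 hE hR hR0 hm hπ hgood (by have := pvlm_Del_pos c m; positivity) le_rfl hre (Eventually.of_forall fun ε => pvnxa_geo_rec c0 hN hR hR0 hm hπ hgood ε) (pvnxa_R60 c m) q hqf
    (Rg := fun ε Y 𝔇 σ => pvnxaRg x R (pvieCc (pvxParOf N hN c) 𝔈 m ε π.p) (pvnxaR c m) Y 𝔇 σ ∧ Pvn1tTight (pvxParOf N hN c) m π Y 𝔇 σ) (fun _ _ _ _ h => h.1) (fun _ _ _ _ h => h.2) hS (pvnxa_mC hE hπ) Γs μ

end exits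

end Claimed.Agent.R289
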