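import Claimed.Agent.R289.Exit.N1All
import Claimed.Agent.R289.Exit.N1Junk
import Claimed.Agent.R289.Exit.EngRec
import Claimed.Agent.R289.Exit.Par
import Claimed.Agent.R289.Exit.N1XA
import Claimed.Agent.R289.Exit.N1XD
import Claimed.Agent.R289.Exit.N1XE
import Claimed.Agent.R289.Exit.N1StabC
import Claimed.Agent.R289.Exit.N1Gc
import Claimed.Agent.R289.Exit.N1RdC
import Claimed.Agent.R289.Exit.N1GenA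
import Claimed.Agent.R289.Exit.N1YZ

/-!
# Row 289 (S0537), THE WALL, ROAD E, file Exit/N1Lv : **THE TOP OF `n1` AT THE RECORD, v6, 0 sorry HERE**      (helper170, pen of `exit_pvie_in`, RULING N1-B; prefix `pvn1l_`, `pvn1a..6`)

**v6 (14:50Z) = THE GLUE OF v5 AT THE OBJECTS OF THE TEAM.      THE KERNEL FRONTIER OF `exit_pvie_in` = THE SORRIED SUB-EXITS OF `Exit/N1YZ` (12): `exit_pvyy_in` (= `PvkynPl` = (POCKET-DET)), `exit_pvyy_chain`.      NOTHING ELSE.**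
EVERYTHING IS AT `𝔓 := pvxParOf N hN c`, `𝔈` with `PvnaRec N hN c 𝔈`, `N.m0 ≤ m`, `π ∈ pvxPatSet 𝔓 x R m`, field `Q` (`a := 0`).      THE OBJECTS OF RECORD:
* kits          `pvnxaKsT 𝔓 𝔈 x R m π q`      (60 `Exit/N1XA`: kit v2 of 29 at `C := pvieCc`, `r := pvnxaR c m = δ_m / 60`, `B := closedBall x (6R)`;   LAYER 1 `= g5 ∧ Pvn1kMesh ∧ Pvn1tTight` (130, 170, 27))
* guard (c)     `pvn1zSc 𝔓 𝔈 m π ε qf`          (107 `Exit/N1StabC`) `= pvyyS 𝔓 𝔈 m π qf ε` (12 `Exit/N1YT`), by `rfl`:   `Fo`, `Fi`, hull `= π.Zt`, hull `= π.Zs`, `pvyk1Gd` (214: `SqO SqI Gen`)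
* good event    **`pvn1aGam6`** (HERE): `DelGood` of a.e. splice, [usable ⟹ good] at the two candidates, `pvConf ω ∈ pvyk1Gd`, `pvnxaGm x R (pvnxaR c m) ω` (mesh `r` of `closedBall x (7R)`)
* mesh of the good samples `μ := δ_m / 4`
WHAT IS CITED:   junk splits `pvjx_split_at` (209), `pvnxd_dich` (60)   (X) `pvnxa_X_T` (60; 292 29 5 27 184 213)   (S1) `pvn1z_stab_c` (107) at `pvn1gc_rec` (87)   (S2) `pvn1v_rd_kit` (237; 101) at `pvnxa_geo_rec`, `pvnxe_simple`, `pvnxe_clear` (184)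
(S3) `pvn1a_fit6` (HERE; hulls `exit_pvn1a_hull` of 242)   (bad) `pvn1a_bad6` (HERE; `pvn1h_gd_rec` of 121, `pvnxa_Gm_lim`, `pvna_bad_pat`)   (Y) `pvyz_exit_recT` (12)   assembly `pvn1a_ok` (159), `PvxnOk.toIn` (170).
The guard of v5 (`pvn1aS`, `pvn1aGn`, `Pvn1aLv`, `pvn1a_pat` of `Exit/N1AllD`, `Exit/N1All`) IS DEAD TEXT: do not prove anything about it;   the lemmas of `Exit/N1All` which do not mention it stay in use.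
-/

set_option autoImplicit false
set_option linter.unusedVariables false
set_option linter.unusedSectionVars false

namespace Claimed.Agent.R289

open MeasureTheory Filter Topology Set Claims.C0465
open scoped ENNReal

section gen

variable {τ : Type} {c : ℝ} (𝔓 : PvxPar τ c) (𝔈 : PvieEng τ) (𝔊 : PvnaGd τ) (x : ℂ) (R : ℝ) (m : ℕ) (π : PvxIx τ)

/-- **THE FREE GOOD EVENT OF RECORD, v6** -/
def pvn1aGam6 (ε : ℝ) (ω : PVSample) : Prop :=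
  (∀ᵐ ω₂ ∂pvP ε, DelGood (pvxY ω \ pvieCc 𝔓 𝔈 m ε π.p ∪ cfSites ω₂ ∩ pvieCc 𝔓 𝔈 m ε π.p)) ∧
  (ω ∈ pvxU 𝔓 m π.p.zt π.p.tt → ω ∈ 𝔊.all m ε π.p.zt π.p.tt) ∧ (ω ∈ pvxU 𝔓 m π.p.zs π.p.ts → ω ∈ 𝔊.all m ε π.p.zs π.p.ts) ∧ pvConf ω ∈ pvyk1Gd 𝔓 𝔈 m π ε ∧
  pvnxaGm x R (pvnxaR c m) ω

theorem pvn1a_eqns_cite6 : True := by
  have := @pvn1aGam6.eq_1
  trivial

variable {𝔓 𝔈 𝔊 x R m π}

/-- (S3) on a good sample a fit puts the configuration into the guard (c) -/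
theorem pvn1a_fit6 (hW : 𝔓.Wf) (hR : 0 < R) (hm : 𝔓.m0 ≤ m) (hπ : π ∈ pvxPatSet 𝔓 x R m) {qf : ℕ → ℝ≥0∞}
    (hf : ∀ m, 𝔓.m0 ≤ m → ∀ (ε : ℝ) (z : ℂ) (t : τ), 𝔊.O m ε z t ⊆ pvrgFo 𝔓 𝔈 (qf m) m ε z t ∧ 𝔊.I m ε z t ⊆ pvrgFi 𝔓 𝔈 (qf m) m ε z t) {ε : ℝ} {ω : PVSample}
    (hg : PvqfGood (pvConf ω)) (hΓ : pvn1aGam6 𝔓 𝔈 𝔊 x R m π ε ω) {P : PvbRim} (hP : P ∈ pvhbAll x R ω) {s t : PvbPin τ} (hfit : pvxFit 𝔓 x R m ω P s t π) :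
    pvxnFl (𝔓.col π.p.ts) (pvConf ω) ∈ pvn1zSc 𝔓 𝔈 m π ε (qf m) := by
  obtain ⟨h1, h2⟩ := exit_pvn1a_hull hW hR hm hπ hg hP hfit
  have hs : ω ∈ 𝔊.all m ε π.p.zs π.p.ts := hΓ.2.2.1 (by have := hfit.2.2.1; rwa [hfit.1.1, hfit.1.2] at this)
  have ht : ω ∈ 𝔊.all m ε π.p.zt π.p.tt := hΓ.2.1 (by have := hfit.2.2.2.1; rwa [hfit.2.1.1, hfit.2.1.2] at this)
  show _ ∧ _ ∧ _ ∧ _ ∧ _
  rw [pvn1a_fl_fl]
  exact ⟨(hf m hm ε _ _).1 ht.1.1, (hf m hm ε _ _).2 hs.1.2, h1, h2, hΓ.2.2.2.1⟩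

/-- the free good event has high probability -/
theorem pvn1a_bad6 (hB : PvnaBad 𝔓 𝔊 𝔓.m0) (hm : 𝔓.m0 ≤ m) (hπ : π ∈ pvxPatSet 𝔓 x R m) (mC : ∀ᶠ ε in 𝓝[>] (0 : ℝ), MeasurableSet (pvieCc 𝔓 𝔈 m ε π.p))
    (hGd : ∀ᶠ ε in 𝓝[>] (0 : ℝ), (pvhbUp ε).P {p | pvConf (pvMerge p) ∉ pvyk1Gd 𝔓 𝔈 m π ε} = 0) :
    Tendsto (fun ε => (pvhbUp ε).P {p | ¬ pvn1aGam6 𝔓 𝔈 𝔊 x R m π ε (pvMerge p)}) (𝓝[>] (0 : ℝ)) (𝓝 0) := by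
  have hmesh := pvnxa_Gm_lim x R (pvnxa_R_pos c m)
  have hsum := hmesh.add (pvna_bad_pat hB hm hπ)
  simp only [add_zero] at hsum
  refine tendsto_of_tendsto_of_tendsto_of_le_of_le' tendsto_const_nhds hsum (Eventually.of_forall fun _ => zero_le) ?_
  filter_upwards [mC, self_mem_nhdsWithin, hGd] with ε hC hε h4
  have h0 : (pvhbUp ε).P {p | ¬ ∀ᵐ ω₂ ∂pvP ε, DelGood (pvxY (pvMerge p) \ pvieCc 𝔓 𝔈 m ε π.p ∪ cfSites ω₂ ∩ pvieCc 𝔓 𝔈 m ε π.p)} = 0 := by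
    refine le_antisymm ((pvhb_up_P_conf ε {η | ¬ ∀ᵐ ω₂ ∂pvP ε, DelGood (cfSites η \ pvieCc 𝔓 𝔈 m ε π.p ∪ cfSites ω₂ ∩ pvieCc 𝔓 𝔈 m ε π.p)}).trans ?_) zero_le
    have h1 := pvxn_ok_ae 𝔓 m π 0 (pvn1aKs 𝔓 𝔈 x R m π 1 0 ε) ⟨fun _ _ => 0, fun _ _ => 0, fun _ _ _ => 0, 0⟩ hC hε
    exact le_of_eq (ae_iff.1 (h1.mono fun η h => h.2))
  have hsub : {p | ¬ pvn1aGam6 𝔓 𝔈 𝔊 x R m π ε (pvMerge p)} ⊆ ({p | pvConf (pvMerge p) ∉ pvyk1Gd 𝔓 𝔈 m π ε} ∪ {p | ¬ pvnxaGm x R (pvnxaR c m) (pvMerge p)}) ∪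
      ({p | ¬ ∀ᵐ ω₂ ∂pvP ε, DelGood (pvxY (pvMerge p) \ pvieCc 𝔓 𝔈 m ε π.p ∪ cfSites ω₂ ∩ pvieCc 𝔓 𝔈 m ε π.p)} ∪
      (pvMerge ⁻¹' (pvxU 𝔓 m π.p.zt π.p.tt \ 𝔊.all m ε π.p.zt π.p.tt) ∪ pvMerge ⁻¹' (pvxU 𝔓 m π.p.zs π.p.ts \ 𝔊.all m ε π.p.zs π.p.ts))) := by
    intro p hp
    by_cases h4 : pvConf (pvMerge p) ∈ pvyk1Gd 𝔓 𝔈 m π ε
    swap
    · exact Or.inl (Or.inl h4)
    by_cases h5 : pvnxaGm x R (pvnxaR c m) (pvMerge p)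
    swap
    · exact Or.inl (Or.inr h5)
    refine Or.inr ?_
    by_cases h1 : ∀ᵐ ω₂ ∂pvP ε, DelGood (pvxY (pvMerge p) \ pvieCc 𝔓 𝔈 m ε π.p ∪ cfSites ω₂ ∩ pvieCc 𝔓 𝔈 m ε π.p)
    · by_cases h2 : pvMerge p ∈ pvxU 𝔓 m π.p.zt π.p.tt → pvMerge p ∈ 𝔊.all m ε π.p.zt π.p.tt
      · by_cases h3 : pvMerge p ∈ pvxU 𝔓 m π.p.zs π.p.ts → pvMerge p ∈ 𝔊.all m ε π.p.zs π.p.ts
        · exact absurd ⟨h1, h2, h3, h4, h5⟩ hp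
        · exact Or.inr (Or.inr (Classical.not_imp.1 h3))
      · exact Or.inr (Or.inl (Classical.not_imp.1 h2))
    · exact Or.inl h1
  refine ((pvhbUp ε).P_mono hsub).trans (((pvhbUp ε).P_union_le _ _).trans (add_le_add (((pvhbUp ε).P_union_le _ _).trans (le_of_eq ?_)) ?_))
  · rw [h4, zero_add]
  · refine ((pvhbUp ε).P_union_le _ _).trans (le_of_eq ?_)
    rw [h0, zero_add]

end gen

/-- **(4) N1 AT THE RECORD** = the body of `exit_pvie_in` (`Exit/Ana`) -/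
theorem pvn1l_in {c : ℝ} (c0 : 0 < c) (N : PvxNums) (hN : N.Ok) (𝔈 : PvieEng (pvxTau N)) (hE : PvnaWf (pvxParOf N hN c) 𝔈) (hRec : PvnaRec N hN c 𝔈)
    (𝔊 : PvnaGd (pvxTau N)) (hB : PvnaBad (pvxParOf N hN c) 𝔊 (pvxParOf N hN c).m0) (frc : Pvn1aFrc (pvxParOf N hN c) 𝔈 𝔊) :
    PvnaIn (pvxParOf N hN c) (pvnaDatE (pvxParOf N hN c) 𝔈) (pvxParOf N hN c).m0 := by
  intro x R hR m hm π hπ
  have hm' : N.m0 ≤ m := hm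
  have hW := pvxo_wf N hN c
  have hδ := pvlm_Del_pos c m
  -- the two junk splits
  refine pvjx_split_at hN c0 hm' hπ fun hgood => ?_
  refine pvnxd_dich hR (μ := pvlmDel c m / 3) (by positivity) _ _ fun hre => ?_
  -- the constant of the good part, lowered to `≤ 1`
  obtain ⟨qf₀, hq0₀, hf₀⟩ := frc
  obtain ⟨qf, hq0, hq1, hf⟩ : ∃ qf : ℕ → ℝ≥0∞, (∀ m, qf m ≠ 0) ∧ (∀ m, qf m ≤ 1) ∧
      ∀ m, (pvxParOf N hN c).m0 ≤ m → ∀ (ε : ℝ) (z : ℂ) (t : pvxTau N), 𝔊.O m ε z t ⊆ pvrgFo (pvxParOf N hN c) 𝔈 (qf m) m ε z t ∧ 𝔊.I m ε z t ⊆ pvrgFi (pvxParOf N hN c) 𝔈 (qf m) m ε z t :=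
    ⟨fun m => min (qf₀ m) 1, fun m => (lt_min (pos_iff_ne_zero.2 (hq0₀ m)) one_pos).ne', fun m => min_le_right _ _, fun m hm ε z t =>
      ⟨((hf₀ m hm ε z t).1).trans (pvn1a_Fo_anti (min_le_left _ _) ε z t), ((hf₀ m hm ε z t).2).trans (pvn1a_Fi_anti (min_le_left _ _) ε z t)⟩⟩
  -- (X)
  obtain ⟨q, hq, hX⟩ := pvnxa_X_T c0 hN hE hRec hR hm' hπ hgood
  have bad := pvn1a_bad6 (𝔈 := 𝔈) (x := x) (R := R) hB hm hπ (pvnxa_mC hE hπ) (pvn1h_gd_rec hE hRec hm hπ)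
  -- (Y)
  obtain ⟨𝔜, hY⟩ := pvyz_exit_recT c0 N hN 𝔈 hE hRec hR hm hπ hgood hre q (hq0 m) (S := fun ε => pvn1zSc (pvxParOf N hN c) 𝔈 m π ε (qf m)) (fun ε => subset_rfl)
    (pvn1aGam6 (pvxParOf N hN c) 𝔈 𝔊 x R m π) (pvlmDel c m / 4)
  -- (S)
  have hsc : (∀ᶠ ε in 𝓝[>] (0 : ℝ), PvieSimple (pvxParOf N hN c) 𝔈 m ε π.p) ∧
      ∀ᶠ ε in 𝓝[>] (0 : ℝ), ∀ S ∈ pvieTiles (pvxParOf N hN c) 𝔈 m ε π.p, Disjoint S (pvieSh π.p.zt (pviwBox (pvxParOf N hN c) m π.p.tt) ∩ pvtU (pvlmDel c m) (pvtN8 (↑π.Zs ∪ ↑π.Zt))) ∧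
        Disjoint S (pvieSh π.p.zs (pviwBox (pvxParOf N hN c) m π.p.ts) ∩ pvtU (pvlmDel c m) (pvtN8 (↑π.Zs ∪ ↑π.Zt))) := by
    obtain ⟨nb, rfl⟩ := hRec
    exact ⟨Eventually.of_forall fun ε => pvnxe_simple hN nb c0 hm' ε hπ, Eventually.of_forall fun ε => pvnxe_clear hN nb c0 hm' ε hπ⟩
  have hS : Pvn1aS (pvxParOf N hN c) x R m π 0 𝔜 (pvnxaKsT (pvxParOf N hN c) 𝔈 x R m π q) (pvn1aGam6 (pvxParOf N hN c) 𝔈 𝔊 x R m π) (pvlmDel c m / 4)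
      (fun ε => pvn1zSc (pvxParOf N hN c) 𝔈 m π ε (qf m)) := by
    refine ⟨?_, ?_, ?_⟩
    · filter_upwards [pvn1gc_rec c0 hE hRec hm hπ] with ε hε Y 𝔇 σ σ' hY hOk hc hs _ _ hS
      exact pvn1z_stab_c hW hπ.1.2.2.2.2.2.1 hε (qf m) hY hOk hc (fun v hv => hs v (Or.inl (Or.inl hv))) hS
    · exact pvn1v_rd_kit hW hE hπ (Eventually.of_forall fun ε => pvnxa_geo_rec c0 hN hRec hR hm' hπ hgood ε) hsc.1 hsc.2 (qf m) (pvnxaKsT (pvxParOf N hN c) 𝔈 x R m π q) (fun _ => rfl) (fun _ => rfl) 0 𝔜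
    · exact Eventually.of_forall fun ε ω hω P hP s t hfit => pvn1a_fit6 hW hR hm hπ hf hω.good hω.ex hP hfit
  exact ⟨(pvn1a_ok hW hR hπ (hX _ (Eventually.of_forall fun ε ω h => h.2.2.2.2) bad 𝔜) hS hY).toIn⟩

end Claimed.Agent.R289
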