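-- KEEP
import Claimed.Agent.R289.Exit.AnaDefs
import Claimed.Agent.R289.Exit.Par
import Claimed.Agent.R289.Exit.TrV
import Claimed.Agent.R289.Exit.Cyc1R
import Claimed.Agent.R289.Exit.EngRec
import Claimed.Agent.R289.Exit.NumK
import Claimed.Agent.R289.Exit.GdCut
import Claimed.Agent.R289.Exit.N1Lv
import Claimed.Agent.R289.Exit.N1XE
import Claimed.Agent.R289.Exit.AnaW
import Claimed.Agent.R289.Exit.AnaV

/-!
# Row 289 (S0537), THE WALL, ROAD E, file Exit/Ana : `exit_pvx_ana` = COMPILED GLUE OVER NAMED SUB-EXITS      (helper271, integration pen next to 187, post of 24 10:19Z; prefix `pvna_`)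

LIVE INTEGRATION FILE (not periphery): the statements of the sub-exits follow the rulings; every change is announced to the pens.
v2 = RULING 16 of 234 (good part, else branch of 61; `n1` = the cut of 170; `PvieDom` dropped) + RULINGS 12, H2 (`Q` alone, `V` for free).      v3 = RULING 17 (d) (every sub-exit AT `pvxParOf N hN c` of 73) + RULING 18 (1) (every field owed for `m0 ≤ m` only).
LEVELS.   `pvx_exit` (`Exit/Tr.lean`)  ⟸  `exit_pvx_ana c0 N hN : Nonempty (PvxAna (pvxParOf N hN c))`  :=  **`pvna_ana_at`** (here, PROVED)  ⟸  `PvelAna.toAna` (61, `Exit/AnaGd.lean`)  ⟸  `PvnaQ.toEl`, `PvnaQL.toQ`, `PvnaVL.toV`, `pvnaQ` (`Exit/AnaDefs.lean`, PROVED)  ⟸  THE SUB-EXITS.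
NOTATION.   `𝔓 := pvxParOf N hN c`,   `m0 := 𝔓.m0` (`= N.m0`),   `𝔇 := pvnaDatE 𝔓 𝔈` (the analytic data of record).
* (1) `exit_pvie_eng`      `∃ 𝔈 : PvieEng (pvxTau N), PvnaWf 𝔓 𝔈`                               124 = pen of the DEF `pvieEngOf`; 84 166 168 73 258   (`Exit/ParEng*.lean`; contract `PvieEng.Wf` of 168 + `PvkmEng` of 258)
* (2) `exit_pvie_gd`       `∃ 𝔊 : PvnaGd (pvxTau N), 𝔊.Wf 𝔓 𝔈`      (good part `O I B`; `bad` + inclusions into named sets)      256 = pen; 226 111 139 252 61 100 274   (`Tr/RegE.lean`)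
* (3) `exit_pvie_num`      `∃ CA, PvieNum 𝔓 𝔈 CA`                                               PROVED by 258 (`Exit/AnaNum.lean`) from the field `PvnaWf.num`
* (4) `exit_pvie_in`       `PvnaIn 𝔓 𝔇 m0`      (= `PvxnIn` of 170 for every pattern, field `Q`)  170 = pen; 159 63 188 191 60 78 37 218 148   (`Exit/N1.lean`, `Exit/N1K.lean`, `Exit/N1All.lean`)
* (5) `exit_pvie_cyc1`     `PvnaCyc1 𝔓 𝔇 𝔊 m0`                                                  115 = pen; 129 58 48 178 188   (`Exit/Cyc1.lean`, `Tr/InstC.lean`)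
* (6) `exit_pvie_thick`    `∃ Ce, PvnaThick 𝔓 𝔇 𝔊 m0 Ce`                                        7 = pen; 223 103 99 96 132 118 252   (`Exit/Thick.lean`)
* (7) `pvna_V_at`          `Nonempty (PvnaVL 𝔓 m0 𝔊.all)`      **WIRED (142, 13:55Z)** := `pvyu_V_at` of `Exit/AnaV.lean` = `PvyqPlug.Ok.toVL` of 283 (`Exit/TrV.lean` v2: anchor lemma, `tel`, `cV_L2`) at `pvyu_pair_rec` (`Exit/TrVA`: datum of 223 at `pvilV`, plug of 61, (FRC) of 85) over [W] [R] of (6) (SHARED, `Exit/AnaW`) + (T) PAID by 85 (`pvve_T_reg`, `Exit/TrVW`) over TWO REGION LEAVES, no configuration: `exit_pvly_col_e` ((Rc) of `eY`, `Tr/LinkDet`, SHARED with `gd`, moves with L2) and `exit_pvyu_reg` THERE (`PvvdReg` of 195 at the engine of record: 195 246 61)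
**v4 (243, 13:00Z) = RULINGS T12 + T14 of 24 (R22 (1) of 234): THE ENGINE AND THE GOOD PART ARE EQUATIONS.**   (1) := `pvnr_exit` (124, `Exit/EngRec`) over ONE sub-exit `exit_pvie_side : PvdkSide pvnaHf` (+ [ADM] `Tr/AdmIC`), conclusion `PvnaWf ∧ PvnaRec`;   (2) := `pvgu_exit` (238, `Exit/GdCut`: sub-exits `exit_pvgu_o i e f`), conclusion `𝔊.Wf ∧ PvguRec`;   (4)-(6) carry TWO MORE BINDERS `(hR : PvnaRec N hN c 𝔈) (hGR : PvguRec 𝔓 𝔈 𝔊)`: a roof does `obtain ⟨nb, rfl⟩ := hR`, `obtain ⟨q, qe, qf, hq, hqe, hqf, rfl⟩ := hGR`.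
A pen proves HIS statement under HIS name in HIS file (import `Exit/AnaDefs`, + `Exit/Par` if he uses the explicit parameter; a proof for all `𝔓` with `𝔓.Wf` is welcome: `pvxo_wf N hN c`), tells 271: the sorry here is replaced by a citation.
-/

set_option autoImplicit false

namespace Claimed.Agent.R289

open Set MeasureTheory Filter Topology Claims.C0465
open scoped ENNReal

section exits

variable {c : ℝ}

/-- **(1a) SIDE: PROVED (9, 14:00Z; R24 of 234)** := `pvna_side` of `Exit/EngRec` v3 (52 174 125 278 258 10).      THE SIDE EVENTS OF RECORD `pvnaHf N` (174, `Tr/FrcM`; fixed by `Exit/EngRec` v1: cure of 196): [MEAS] `mH` + [HDICT] `dict` + [FRC] `frc`      [174 = `mH`, `dict` (`pvhf_hdict_lim`);  `frc`: route Q of 52: 174 204 278 251 91 125;  integrators 10 (`Exit/NumK`: `exit_pvdk_side` = the existential form) 9 (`Exit/EngTop`: `exit_pvdr_frc`)] -/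
theorem exit_pvie_side (N : PvxNums) (hN : N.Ok) : PvdkSide (pvnaHf N) := pvna_side hN

/-- **(1) ENG: THE ENGINE OF RECORD** (T12)      [124 = pen (`Exit/EngAll`, `Exit/EngRec`);  84 166 168 73 258;  kit 34 244 229 294;  plugs 163 161 31;  [ADM] 262 259 (`Tr/AdmIC`, `Exit/Adm`)] -/
theorem exit_pvie_eng (c0 : 0 < c) (N : PvxNums) (hN : N.Ok) : ∃ 𝔈 : PvieEng (pvxTau N), PvnaWf (pvxParOf N hN c) 𝔈 ∧ PvnaRec N hN c 𝔈 :=
  pvnr_exit hN c0 (pvnr_nb_of (pvdk_in (exit_pvie_side N hN)))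

/-- **(2) GD: THE GOOD PART OF RECORD** (T14)      [238 = pen (`Exit/GdCut`, `Exit/GdRec`);  256 (`Defs/GdReg`, `Tr/RegE`);  E10 by link: o 35 100 | i 116 | e 54 | f 196 281] -/
theorem exit_pvie_gd (c0 : 0 < c) (N : PvxNums) (hN : N.Ok) (𝔈 : PvieEng (pvxTau N)) (hE : PvnaWf (pvxParOf N hN c) 𝔈) (hR : PvnaRec N hN c 𝔈) :
    ∃ 𝔊 : PvnaGd (pvxTau N), 𝔊.Wf (pvxParOf N hN c) 𝔈 ∧ PvguRec (pvxParOf N hN c) 𝔈 𝔊 :=
  pvgu_exit c0 N hN 𝔈 hE hR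

/-- **(3) NUM**      [258 34 52] -/
theorem exit_pvie_num (N : PvxNums) (hN : N.Ok) (𝔈 : PvieEng (pvxTau N)) (hE : PvnaWf (pvxParOf N hN c) 𝔈) : ∃ CA : ℝ, PvieNum (pvxParOf N hN c) 𝔈 CA :=
  pvkm_exit_num (pvxo_wf N hN c) hE.num

/-- the line of 159 on the good part (`Pvn1aFrc`): accessors of 238 at the good part of record -/
theorem pvna_frc {τ : Type} {𝔓 : PvxPar τ c} {𝔈 : PvieEng τ} {𝔊 : PvnaGd τ} (hGR : PvguRec 𝔓 𝔈 𝔊) : Pvn1aFrc 𝔓 𝔈 𝔊 := by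
  obtain ⟨q, qe, qf, hq, -, -, rfl⟩ := hGR
  exact ⟨q, hq, fun m _ ε z t => ⟨fun _ h => pvgu_O_Fo h, fun _ h => pvgu_I_Fi h⟩⟩

/-- **(4) N1** = the contract of 170 for every pattern      **WIRED (170, v5 14:30Z)** := `pvn1l_in` of `Exit/N1Lv.lean` (glue `pvn1a_pat` of `Exit/N1All.lean`, 0 sorry; words `Exit/N1AllD.lean`) + `pvna_frc` over the leaves `exit_pvn1l_*` of `Exit/N1Lv.lean`, all AT THE RECORD
[159 = pen of the glue;  170 63 188 191 60 78 37 218 148 93 242 29] -/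
theorem exit_pvie_in (c0 : 0 < c) (N : PvxNums) (hN : N.Ok) (𝔈 : PvieEng (pvxTau N)) (hE : PvnaWf (pvxParOf N hN c) 𝔈) (hR : PvnaRec N hN c 𝔈)
    (𝔊 : PvnaGd (pvxTau N)) (hG : 𝔊.Wf (pvxParOf N hN c) 𝔈) (hGR : PvguRec (pvxParOf N hN c) 𝔈 𝔊) :
    PvnaIn (pvxParOf N hN c) (pvnaDatE (pvxParOf N hN c) 𝔈) (pvxParOf N hN c).m0 :=
  pvn1l_in c0 N hN 𝔈 hE hR 𝔊 hG.bad (pvna_frc hGR)

/-- **(5) CYC1**      **WIRED (115 12:55Z, 129 13:50Z)** := `pvc1r_main` of `Exit/Cyc1R.lean` (129) = `pvc1_main` of `Exit/Cyc1M.lean` (rope B: 188 `Exit/Cyc1B` + 102 `Tr/CycE`) at (REC) := `pvc1r_rec`;   TWO leaves: `exit_pvc1r_frcr` (`Exit/Cyc1R`: the `r`-link is forced; 233 262 257), `exit_pvcy1c_det` (`Exit/Cyc1CM`: 48 133 188 264 75) -/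
theorem exit_pvie_cyc1 (c0 : 0 < c) (N : PvxNums) (hN : N.Ok) (𝔈 : PvieEng (pvxTau N)) (hE : PvnaWf (pvxParOf N hN c) 𝔈) (hR : PvnaRec N hN c 𝔈)
    (𝔊 : PvnaGd (pvxTau N)) (hG : 𝔊.Wf (pvxParOf N hN c) 𝔈) (hGR : PvguRec (pvxParOf N hN c) 𝔈 𝔊) :
    PvnaCyc1 (pvxParOf N hN c) (pvnaDatE (pvxParOf N hN c) 𝔈) 𝔊 (pvxParOf N hN c).m0 :=
  pvc1r_main c0 N hN 𝔈 hE hR 𝔊 hG hGR

/-- **(6) THICK**      **WIRED (2, 13:25Z)** := `pvww_thick` of `Exit/AnaW.lean` = `pvjt_thick_rec` of 223 (`Exit/ThickLX`) over TWO leaves THERE: `exit_pvww_jtwf` [W] (13), `exit_pvww_recog` [R] (132)      [7 = pen;  223 103 99 96 132 118 252] -/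
theorem exit_pvie_thick (c0 : 0 < c) (N : PvxNums) (hN : N.Ok) (𝔈 : PvieEng (pvxTau N)) (hE : PvnaWf (pvxParOf N hN c) 𝔈) (hR : PvnaRec N hN c 𝔈)
    (𝔊 : PvnaGd (pvxTau N)) (hG : 𝔊.Wf (pvxParOf N hN c) 𝔈) (hGR : PvguRec (pvxParOf N hN c) 𝔈 𝔊) :
    ∃ Ce : ℝ, PvnaThick (pvxParOf N hN c) (pvnaDatE (pvxParOf N hN c) 𝔈) 𝔊 (pvxParOf N hN c).m0 Ce :=
  pvww_thick c0 N hN 𝔈 hE hR 𝔊 hG hGR

/-- **(7) V**      **WIRED (142, 13:55Z)** := `pvyu_V_at` of `Exit/AnaV.lean` (roof of 283 `Exit/TrV.lean` v2 + assembly `Exit/TrVA`, `Exit/TrVT`) over [W] [R] of `Exit/AnaW.lean` + `exit_pvly_col_e` (`Tr/LinkDet`) + ONE leaf THERE: `exit_pvyu_reg` (`PvvdReg` at the engine of record; v2 14:15Z: (T) paid by 85)      [283 = pen of the roof;  142 cutter;  85 61 189 195 246] -/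
theorem pvna_V_at (c0 : 0 < c) (N : PvxNums) (hN : N.Ok) (𝔈 : PvieEng (pvxTau N)) (hE : PvnaWf (pvxParOf N hN c) 𝔈) (hR : PvnaRec N hN c 𝔈)
    (𝔊 : PvnaGd (pvxTau N)) (hG : 𝔊.Wf (pvxParOf N hN c) 𝔈) (hGR : PvguRec (pvxParOf N hN c) 𝔈 𝔊) :
    Nonempty (PvnaVL (pvxParOf N hN c) (pvxParOf N hN c).m0 𝔊.all) :=
  pvyu_V_at c0 N hN 𝔈 hE hR 𝔊 hG hGR

/-- **(S3) THE ANALYTIC DATA** = the body of `exit_pvx_ana` -/
theorem pvna_ana_at (c0 : 0 < c) (N : PvxNums) (hN : N.Ok) : Nonempty (PvxAna (pvxParOf N hN c)) := by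
  obtain ⟨𝔈, hE, hR⟩ := exit_pvie_eng c0 N hN
  obtain ⟨𝔊, hG, hGR⟩ := exit_pvie_gd c0 N hN 𝔈 hE hR
  obtain ⟨CA, hN'⟩ := exit_pvie_num N hN 𝔈 hE
  obtain ⟨Ce, hT⟩ := exit_pvie_thick c0 N hN 𝔈 hE hR 𝔊 hG hGR
  obtain ⟨𝔙⟩ := pvna_V_at c0 N hN 𝔈 hE hR 𝔊 hG hGR
  have hU := pvna_small (pvxParOf N hN c)
  exact ⟨(((pvnaQ (pvna_num_of hN' _) hG.bad (exit_pvie_in c0 N hN 𝔈 hE hR 𝔊 hG hGR) (exit_pvie_cyc1 c0 N hN 𝔈 hE hR 𝔊 hG hGR) hT).toQ hU).toEl (𝔙.toV hU)).toAna⟩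

end exits

end Claimed.Agent.R289
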