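-- KEEP
import Claimed.Agent.R289.Tr.Top
import Claimed.Agent.R289.Tr.DomY

/-!
# Row 289 (S0537), THE WALL, ROAD E, file Exit/AnaCert : CYLINDER KIT FOR THE NAMED SETS OF THE GOOD PART      (helper111, second cutter below `Exit/Ana`, order of 271 ids 83656 86562; prefix `pvng_`, `pvng`, `Pvng`)

MODEL FREE, VERSION FREE (no name of `Tr/InstE`, `Tr/InstL`, `Exit/AnaDefs`): imports `Tr/Top` (129) + `Tr/DomY` (193) only.      0 sorry.
WHAT.   The engines (129 `Tr/Top`: `Pvl3Sys.WF B`, `Pvl3Stop`;   193 218 102 `Tr/DomY`, ChainY, CycE: `PvdyStop`) work on a set `B` of GOOD BASE CONFIGURATIONS which must be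
(i) STABLE under every atom of the experiment, FOR EVERY SEED, (ii) a union of COLOUR CYLINDERS.      Neither is antitone in `B`: under the DIRECTION RULE (45, 271 id 86562) they are LEMMAS ON THE NAMED SET, the engine runs on the named set, `𝔊 ⊆` named set.
ONE NOTION gives (i) and (ii):   **`PvngCyl kp fz G`** : `G` is a union of cylinders "(sites over the KEPT region `kp σ`, colours of the FROZEN sites `fz σ`)".
* sec. 1  `PvngFn PvngAgr`;   `pvng_agr_dyR` (193's `pvdyR`), `pvng_agr_thR` (252's `pvthR`), `pvng_agr_rec` (`pvthRec`): a resampling off the kept region, off the frozen sites AGREES with the base, for every seed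
* sec. 2  `PvngCyl`: `.dyR .thR .recol` (stability),   `.inter`,   `pvngHull` + `.hull .hull_prop .sub_hull` (SOFT HULL: any property is forced into a cylinder = recipe for a named set),   `.ig` (`Pvl3Ig`),   `.stop` (`Pvl3Stop`),   `pvngCl` + `.cl_self .cl_sub .cl_const .cl` (the class `Bs σ` of a base)
* sec. 3  `pvngYf` + **`PvngCyl.dyStop`** (`PvdyStop` of the guarded fresh choice `M \ fz` on `G`, `∅` off `G`);   **`pvng_cyl_blind`** (a colour blind set which reads the sites of a deterministic window `E`, e.g. Reg / Mesh of 256 196, is a cylinder with `kp = E`, `fz = ∅`);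
          `pvngCH` + **`pvng_ch_stop`** (THE COLOUR HULL: the largest subset of ANY `B₀` which satisfies the clause `cyl` of `Pvl3Stop`; so `stop` can be had BY DEFINITION of the named set)
-/

set_option autoImplicit false

namespace Claimed.Agent.R289

open Set MeasureTheory Filter Topology Claims.C0465
open scoped ENNReal

/-! ## 1. agreement -/

/-- one colour per site over `R` -/
def PvngFn (R : Set ℂ) (σ : Conf PvPt) : Prop := ∀ z ∈ R, (z, true) ∈ σ.pts → (z, false) ∉ σ.pts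

/-- **`σ'` AGREES WITH `σ`**: the same sites over the kept region `R` (one colour per site there), the same colours at the frozen sites `Fz` -/
structure PvngAgr (R Fz : Set ℂ) (σ σ' : Conf PvPt) : Prop where
  sites : cfSites σ' ∩ R = cfSites σ ∩ R
  fn : PvngFn R σ'
  col : ∀ z ∈ Fz, cfCol σ' z = cfCol σ z

theorem pvng_eqns_cite : True := by
  have := @PvngFn.eq_1
  trivial

theorem pvng_agr_refl {R : Set ℂ} {σ : Conf PvPt} (h : PvngFn R σ) (Fz : Set ℂ) : PvngAgr R Fz σ σ := ⟨rfl, h, fun _ _ => rfl⟩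

theorem PvngAgr.trans {R Fz : Set ℂ} {σ σ' σ'' : Conf PvPt} (h : PvngAgr R Fz σ σ') (h' : PvngAgr R Fz σ' σ'') : PvngAgr R Fz σ σ'' :=
  ⟨h'.sites.trans h.sites, h'.fn, fun z hz => (h'.col z hz).trans (h.col z hz)⟩

theorem PvngAgr.mono {R R' Fz Fz' : Set ℂ} {σ σ' : Conf PvPt} (h : PvngAgr R Fz σ σ') (hR : R' ⊆ R) (hF : Fz' ⊆ Fz) : PvngAgr R' Fz' σ σ' := by
  refine ⟨?_, fun z hz => h.fn z (hR hz), fun z hz => h.col z (hF hz)⟩
  ext z
  constructor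
  · rintro ⟨h1, h2⟩
    exact ⟨(h.sites.subset ⟨h1, hR h2⟩).1, h2⟩
  · rintro ⟨h1, h2⟩
    exact ⟨(h.sites.superset ⟨h1, hR h2⟩).1, h2⟩

/-- **the resampling of 193** off the kept region, off the frozen sites -/
theorem pvng_agr_dyR {C R Fz : Set ℂ} {yf : Conf PvPt → Set ℂ} {σ : Conf PvPt} (hC : Disjoint C R) (hs : Fz ⊆ cfSites σ ∩ R) (hy : Disjoint (yf σ) Fz)
    (p : (ℂ → Bool) × Conf PvPt) : PvngAgr R Fz σ (pvdyR C yf σ p) := by
  have hR : ∀ z ∈ R, z ∉ C := fun z hz hc => Set.disjoint_left.1 hC hc hz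
  refine ⟨?_, ?_, ?_⟩
  · rw [pvdy_sites_R]
    ext z
    simp only [mem_inter_iff, mem_union, Set.mem_sdiff]
    constructor
    · rintro ⟨⟨h1, -⟩ | ⟨-, h1⟩, h2⟩
      · exact ⟨h1, h2⟩
      · exact absurd h1 (hR z h2)
    · rintro ⟨h1, h2⟩
      exact ⟨Or.inl ⟨h1, hR z h2⟩, h2⟩
  · intro z hz h1 h2
    rcases pvdy_mem_R.1 h1 with ⟨-, -, e1⟩ | ⟨c1, -⟩
    · rcases pvdy_mem_R.1 h2 with ⟨-, -, e2⟩ | ⟨c2, -⟩
      · have e1' : true = pvfqMix (yf σ) (p.1, cfCol σ) z := e1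
        have e2' : false = pvfqMix (yf σ) (p.1, cfCol σ) z := e2
        rw [← e1'] at e2'
        exact Bool.noConfusion e2'
      · exact hR z hz c2
    · exact hR z hz c1
  · intro z hz
    rw [pvdy_cfCol_R yf p (hs hz).1 (hR z (hs hz).2), pvfqMix_of_notMem fun hh => Set.disjoint_left.1 hy hh hz]

theorem pvng_mem_rec {A : Set ℂ} {u : ℂ → Bool} {ρ : Conf PvPt} {x : PvPt} : x ∈ (pvthRec A u ρ).pts ↔ ∃ y ∈ ρ.pts, pvthCol A u y = x := Iff.rfl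

theorem pvng_mem_spl {K : Set ℂ} {σ η : Conf PvPt} {x : PvPt} : x ∈ (Conf.spl (Prod.fst ⁻¹' K)ᶜ (σ, η)).pts ↔ (x ∈ σ.pts ∧ x.1 ∉ K) ∨ (x ∈ η.pts ∧ x.1 ∈ K) := by
  simp only [Conf.spl, Conf.union, Conf.restr, mem_union, mem_inter_iff, mem_compl_iff, mem_preimage, not_not]

/-- the general hybrid move: splice in `K`, then recolour `A` -/
theorem pvng_agr_move {K A R Fz : Set ℂ} {σ : Conf PvPt} (hK : Disjoint K R) (hfn : PvngFn R σ) (hA : Disjoint A Fz) (hs : Fz ⊆ R) (η : Conf PvPt) (u : ℂ → Bool) :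
    PvngAgr R Fz σ (pvthRec A u (Conf.spl (Prod.fst ⁻¹' K)ᶜ (σ, η))) := by
  classical
  have hR : ∀ z ∈ R, z ∉ K := fun z hz hc => Set.disjoint_left.1 hK hc hz
  refine ⟨?_, ?_, ?_⟩
  · ext z
    constructor
    · rintro ⟨⟨x, hx, rfl⟩, h2⟩
      obtain ⟨y, hy, rfl⟩ := pvng_mem_rec.1 hx
      rcases pvng_mem_spl.1 hy with ⟨h3, -⟩ | ⟨-, h3⟩
      · exact ⟨⟨y, h3, rfl⟩, h2⟩
      · exact absurd h3 (hR _ h2)
    · rintro ⟨⟨x, hx, rfl⟩, h2⟩
      exact ⟨⟨pvthCol A u x, pvng_mem_rec.2 ⟨x, pvng_mem_spl.2 (Or.inl ⟨hx, hR _ h2⟩), rfl⟩, rfl⟩, h2⟩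
  · intro z hz h1 h2
    obtain ⟨y1, hy1, e1⟩ := pvng_mem_rec.1 h1
    obtain ⟨y2, hy2, e2⟩ := pvng_mem_rec.1 h2
    have z1 : y1.1 = z := congrArg Prod.fst e1
    have z2 : y2.1 = z := congrArg Prod.fst e2
    have c1 : (if y1.1 ∈ A then u y1.1 else y1.2) = true := congrArg Prod.snd e1
    have c2 : (if y2.1 ∈ A then u y2.1 else y2.2) = false := congrArg Prod.snd e2
    rw [z1] at c1
    rw [z2] at c2
    by_cases hzA : z ∈ A
    · rw [if_pos hzA] at c1 c2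
      rw [c1] at c2
      exact Bool.noConfusion c2
    · rw [if_neg hzA] at c1 c2
      have m1 : (z, true) ∈ σ.pts := by
        rcases pvng_mem_spl.1 hy1 with ⟨h3, -⟩ | ⟨-, h3⟩
        · rw [← z1, ← c1]; exact h3
        · rw [z1] at h3; exact absurd h3 (hR z hz)
      have m2 : (z, false) ∈ σ.pts := by
        rcases pvng_mem_spl.1 hy2 with ⟨h3, -⟩ | ⟨-, h3⟩
        · rw [← z2, ← c2]; exact h3
        · rw [z2] at h3; exact absurd h3 (hR z hz)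
      exact hfn z hz m1 m2
  · intro z hz
    have hzA : z ∉ A := fun hh => Set.disjoint_left.1 hA hh hz
    have hzK : z ∉ K := hR z (hs hz)
    unfold cfCol
    congr 1
    refine propext ⟨fun h1 => ?_, fun h1 => ?_⟩
    · obtain ⟨y1, hy1, e1⟩ := pvng_mem_rec.1 h1
      have z1 : y1.1 = z := congrArg Prod.fst e1
      have c1 : (if y1.1 ∈ A then u y1.1 else y1.2) = true := congrArg Prod.snd e1
      rw [z1, if_neg hzA] at c1
      rcases pvng_mem_spl.1 hy1 with ⟨h3, -⟩ | ⟨-, h3⟩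
      · rw [← z1, ← c1]; exact h3
      · rw [z1] at h3; exact absurd h3 hzK
    · refine pvng_mem_rec.2 ⟨(z, true), pvng_mem_spl.2 (Or.inl ⟨h1, hzK⟩), ?_⟩
      unfold pvthCol
      rw [if_neg hzA]

/-- **the resampling of 252 / 129** off the kept region, off the frozen sites -/
theorem pvng_agr_thR {K R Fz : Set ℂ} {F : Conf PvPt → Finset ℂ} {σ : Conf PvPt} (hK : Disjoint K R) (hfn : PvngFn R σ) (hF : Disjoint (↑(F σ) : Set ℂ) Fz) (hs : Fz ⊆ R)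
    (x : PvthSd) : PvngAgr R Fz σ (pvthR K F σ x) := pvng_agr_move hK hfn hF hs x.1 x.2

/-- **a recolouring** off the frozen sites -/
theorem pvng_agr_rec {T R Fz : Set ℂ} {σ : Conf PvPt} (hfn : PvngFn R σ) (hT : Disjoint T Fz) (hs : Fz ⊆ R) (u : ℂ → Bool) : PvngAgr R Fz σ (pvthRec T u σ) := by
  have h := pvng_agr_move (K := ∅) (Set.empty_disjoint R) hfn hT hs σ u
  have e : Conf.spl (Prod.fst ⁻¹' (∅ : Set ℂ))ᶜ (σ, σ) = σ := by
    ext x
    rw [pvng_mem_spl]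
    simp
  rwa [e] at h

/-! ## 2. cylinders -/

/-- **`G` IS A UNION OF CYLINDERS**: membership, the kept region `kp σ` and the frozen sites `fz σ` are decided by (the sites over `kp σ`, the colours of `fz σ`) -/
structure PvngCyl (kp fz : Conf PvPt → Set ℂ) (G : Set (Conf PvPt)) : Prop where
  fn : ∀ σ ∈ G, PvngFn (kp σ) σ
  sub : ∀ σ ∈ G, fz σ ⊆ cfSites σ ∩ kp σ
  cyl : ∀ σ ∈ G, ∀ σ', PvngAgr (kp σ) (fz σ) σ σ' → σ' ∈ G ∧ kp σ' = kp σ ∧ fz σ' = fz σ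

namespace PvngCyl

variable {kp fz : Conf PvPt → Set ℂ} {G : Set (Conf PvPt)}

theorem dyR (h : PvngCyl kp fz G) {σ : Conf PvPt} (hσ : σ ∈ G) {C : Set ℂ} {yf : Conf PvPt → Set ℂ} (hC : Disjoint C (kp σ)) (hy : Disjoint (yf σ) (fz σ))
    (p : (ℂ → Bool) × Conf PvPt) : pvdyR C yf σ p ∈ G ∧ kp (pvdyR C yf σ p) = kp σ ∧ fz (pvdyR C yf σ p) = fz σ :=
  h.cyl σ hσ _ (pvng_agr_dyR hC (h.sub σ hσ) hy p)

theorem thR (h : PvngCyl kp fz G) {σ : Conf PvPt} (hσ : σ ∈ G) {K : Set ℂ} {F : Conf PvPt → Finset ℂ} (hK : Disjoint K (kp σ)) (hF : Disjoint (↑(F σ) : Set ℂ) (fz σ))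
    (x : PvthSd) : pvthR K F σ x ∈ G ∧ kp (pvthR K F σ x) = kp σ ∧ fz (pvthR K F σ x) = fz σ :=
  h.cyl σ hσ _ (pvng_agr_thR hK (h.fn σ hσ) hF (fun _ hz => (h.sub σ hσ hz).2) x)

theorem recol (h : PvngCyl kp fz G) {σ : Conf PvPt} (hσ : σ ∈ G) {T : Set ℂ} (hT : Disjoint T (fz σ)) (u : ℂ → Bool) :
    pvthRec T u σ ∈ G ∧ kp (pvthRec T u σ) = kp σ ∧ fz (pvthRec T u σ) = fz σ :=
  h.cyl σ hσ _ (pvng_agr_rec (h.fn σ hσ) hT (fun _ hz => (h.sub σ hσ hz).2) u)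

/-- two cylinders -/
theorem inter {kp' fz' : Conf PvPt → Set ℂ} {G' : Set (Conf PvPt)} (h : PvngCyl kp fz G) (h' : PvngCyl kp' fz' G') :
    PvngCyl (fun σ => kp σ ∪ kp' σ) (fun σ => fz σ ∪ fz' σ) (G ∩ G') where
  fn σ hσ z hz := hz.elim (h.fn σ hσ.1 z) (h'.fn σ hσ.2 z)
  sub σ hσ z hz := hz.elim (fun hh => ⟨(h.sub σ hσ.1 hh).1, Or.inl (h.sub σ hσ.1 hh).2⟩) fun hh => ⟨(h'.sub σ hσ.2 hh).1, Or.inr (h'.sub σ hσ.2 hh).2⟩
  cyl σ hσ σ' ha := by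
    obtain ⟨a1, a2, a3⟩ := h.cyl σ hσ.1 σ' (ha.mono subset_union_left subset_union_left)
    obtain ⟨b1, b2, b3⟩ := h'.cyl σ hσ.2 σ' (ha.mono subset_union_right subset_union_right)
    exact ⟨⟨a1, b1⟩, by simp only [a2, b2], by simp only [a3, b3]⟩

end PvngCyl

/-- **THE SOFT HULL**: the configurations of `G` ALL of whose cylinder satisfies `P` -/
def pvngHull (kp fz : Conf PvPt → Set ℂ) (G : Set (Conf PvPt)) (P : Conf PvPt → Prop) : Set (Conf PvPt) := {σ | σ ∈ G ∧ ∀ σ', PvngAgr (kp σ) (fz σ) σ σ' → P σ'}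

theorem pvng_eqns_cite2 : True := by
  have := @pvngHull.eq_1
  trivial

namespace PvngCyl

variable {kp fz : Conf PvPt → Set ℂ} {G : Set (Conf PvPt)}

theorem hull (h : PvngCyl kp fz G) (P : Conf PvPt → Prop) : PvngCyl kp fz (pvngHull kp fz G P) where
  fn σ hσ := h.fn σ hσ.1
  sub σ hσ := h.sub σ hσ.1
  cyl σ hσ σ' ha := by
    obtain ⟨a1, a2, a3⟩ := h.cyl σ hσ.1 σ' ha
    refine ⟨⟨a1, fun σ'' ha' => hσ.2 σ'' (ha.trans ?_)⟩, a2, a3⟩
    rwa [a2, a3] at ha'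

theorem hull_prop (h : PvngCyl kp fz G) {P : Conf PvPt → Prop} {σ : Conf PvPt} (hσ : σ ∈ pvngHull kp fz G P) : P σ := hσ.2 σ (pvng_agr_refl (h.fn σ hσ.1) _)

theorem hull_sub (P : Conf PvPt → Prop) : pvngHull kp fz G P ⊆ G := fun _ hσ => hσ.1

/-- a property which holds on a cylinder `G' ⊆ G` (same `kp fz`) holds on the hull: `G' ⊆ hull` -/
theorem sub_hull {G' : Set (Conf PvPt)} (h' : PvngCyl kp fz G') (hG : G' ⊆ G) {P : Conf PvPt → Prop} (hP : ∀ σ ∈ G', P σ) : G' ⊆ pvngHull kp fz G P :=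
  fun σ hσ => ⟨hG hσ, fun σ' ha => hP σ' (h'.cyl σ hσ σ' ha).1⟩

/-- **`Pvl3Ig` of 129**: a function which is constant on the cylinders ignores every atom off the kept region, off the frozen sites -/
theorem ig (h : PvngCyl kp fz G) {K : Set ℂ} {F : Conf PvPt → Finset ℂ} (hK : ∀ σ ∈ G, Disjoint K (kp σ)) (hF : ∀ σ ∈ G, Disjoint (↑(F σ) : Set ℂ) (fz σ))
    {β : Sort*} {f : Conf PvPt → β} (hf : ∀ σ ∈ G, ∀ σ', PvngAgr (kp σ) (fz σ) σ σ' → f σ' = f σ) : Pvl3Ig G K F f :=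
  fun σ hσ x => hf σ hσ _ (pvng_agr_thR (hK σ hσ) (h.fn σ hσ) (hF σ hσ) (fun _ hz => (h.sub σ hσ hz).2) x)

/-- **`Pvl3Stop` of 129** -/
theorem stop (h : PvngCyl kp fz G) {C : Set ℂ} (mC : MeasurableSet C) (hC : ∀ σ ∈ G, Disjoint C (kp σ)) {F frz : Conf PvPt → Finset ℂ} (hfz : ∀ σ ∈ G, (↑(frz σ) : Set ℂ) = fz σ)
    (hF1 : ∀ σ ∈ G, (↑(F σ) : Set ℂ) ⊆ kp σ \ fz σ) (hF2 : ∀ σ ∈ G, ∀ σ', PvngAgr (kp σ) (fz σ) σ σ' → F σ' = F σ) : Pvl3Stop G C F frz where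
  mC := mC
  dis σ hσ := by
    rw [← Finset.disjoint_coe, hfz σ hσ]
    exact Set.disjoint_left.2 fun z hz hz' => (hF1 σ hσ hz').2 hz
  dF σ hσ := Set.disjoint_left.2 fun z hz hz' => Set.disjoint_left.1 (hC σ hσ) hz' (hF1 σ hσ hz).1
  cyl σ hσ T u hT := by
    rw [hfz σ hσ] at hT
    have ha := pvng_agr_rec (h.fn σ hσ) hT (fun _ hz => (h.sub σ hσ hz).2) u
    obtain ⟨a1, -, a3⟩ := h.cyl σ hσ _ ha
    refine ⟨a1, ?_, hF2 σ hσ _ ha⟩
    rw [← Finset.coe_inj, hfz _ a1, a3, hfz σ hσ]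

end PvngCyl

/-- **the cylinder of `σ`** -/
def pvngCl (kp fz : Conf PvPt → Set ℂ) (σ : Conf PvPt) : Set (Conf PvPt) := {σ' | PvngAgr (kp σ) (fz σ) σ σ'}

theorem pvng_eqns_cite3 : True := by
  have := @pvngCl.eq_1
  trivial

namespace PvngCyl

variable {kp fz : Conf PvPt → Set ℂ} {G : Set (Conf PvPt)}

theorem cl_self (h : PvngCyl kp fz G) {σ : Conf PvPt} (hσ : σ ∈ G) : σ ∈ pvngCl kp fz σ := pvng_agr_refl (h.fn σ hσ) _

theorem cl_sub (h : PvngCyl kp fz G) {σ : Conf PvPt} (hσ : σ ∈ G) : pvngCl kp fz σ ⊆ G := fun σ' ha => (h.cyl σ hσ σ' ha).1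

/-- on the cylinder of `σ` the kept region and the frozen sites are those of `σ` -/
theorem cl_const (h : PvngCyl kp fz G) {σ σ' : Conf PvPt} (hσ : σ ∈ G) (ha : σ' ∈ pvngCl kp fz σ) : kp σ' = kp σ ∧ fz σ' = fz σ := (h.cyl σ hσ σ' ha).2

/-- **ONE cylinder is a good base set**: the `B` for the POINTWISE statements (TR1, TR2 at the base configuration `σ`) -/
theorem cl (h : PvngCyl kp fz G) {σ : Conf PvPt} (hσ : σ ∈ G) : PvngCyl kp fz (pvngCl kp fz σ) where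
  fn σ' ha := by rw [(h.cl_const hσ ha).1]; exact ha.fn
  sub σ' ha := h.sub σ' (h.cl_sub hσ ha)
  cyl σ' ha σ'' ha' := by
    obtain ⟨e1, e2⟩ := h.cl_const hσ ha
    rw [e1, e2] at ha'
    have h2 : σ'' ∈ pvngCl kp fz σ := PvngAgr.trans ha ha'
    obtain ⟨e3, e4⟩ := h.cl_const hσ h2
    exact ⟨h2, e3.trans e1.symm, e4.trans e2.symm⟩

end PvngCyl

/-! ## 3. stopping choices, blind windows, the colour hull -/

open Classical in
/-- **the guarded fresh choice**: on `G` the sites of `M σ` which are not frozen, nothing off `G` -/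
noncomputable def pvngYf (G : Set (Conf PvPt)) (M fz : Conf PvPt → Set ℂ) (η : Conf PvPt) : Set ℂ := if η ∈ G then M η \ fz η else ∅

theorem pvng_eqns_cite4 : True := by
  have := @pvngYf.eq_1
  trivial

theorem pvng_Yf_of_mem {G : Set (Conf PvPt)} {M fz : Conf PvPt → Set ℂ} {η : Conf PvPt} (h : η ∈ G) : pvngYf G M fz η = M η \ fz η := by
  unfold pvngYf
  rw [if_pos h]

theorem pvng_Yf_of_notMem {G : Set (Conf PvPt)} {M fz : Conf PvPt → Set ℂ} {η : Conf PvPt} (h : η ∉ G) : pvngYf G M fz η = ∅ := by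
  unfold pvngYf
  rw [if_neg h]

/-- two colourings of one geometry which agree on the frozen sites -/
theorem pvng_agr_cfOf (R : Set ℂ) {Fz Y : Set ℂ} {σ σ' : ℂ → Bool} (hF : Fz ⊆ Y) (h : ∀ z ∈ Fz, σ' z = σ z) : PvngAgr R Fz (cfOf Y σ) (cfOf Y σ') := by
  refine ⟨by rw [cfOf_sites, cfOf_sites], ?_, ?_⟩
  · intro z _ h1 h2
    have e1 : true = σ' z := (cfOf_mem.1 h1).2
    have e2 : false = σ' z := (cfOf_mem.1 h2).2
    rw [← e1] at e2
    exact Bool.noConfusion e2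
  · intro z hz
    rw [pvdy_cfCol_cfOf σ' (hF hz), pvdy_cfCol_cfOf σ (hF hz), h z hz]

/-- **`PvdyStop` of 193 96** for the guarded fresh choice of a cylinder with finitely many frozen sites -/
theorem PvngCyl.dyStop {kp fz : Conf PvPt → Set ℂ} {G : Set (Conf PvPt)} (h : PvngCyl kp fz G) (hfin : ∀ σ ∈ G, (fz σ).Finite) {M : Conf PvPt → Set ℂ}
    (hM : ∀ σ ∈ G, ∀ σ', PvngAgr (kp σ) (fz σ) σ σ' → M σ' = M σ) : PvdyStop (pvngYf G M fz) := by
  refine ⟨fun Y σ hne => ?_⟩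
  have hG : cfOf Y σ ∈ G := by
    by_contra hc
    rw [pvng_Yf_of_notMem hc, inter_empty] at hne
    exact Set.not_nonempty_empty hne
  have hsub : fz (cfOf Y σ) ⊆ Y := fun z hz => by
    have := (h.sub _ hG hz).1
    rwa [cfOf_sites] at this
  refine ⟨(hfin _ hG).toFinset, ?_, fun σ' hσ' => ?_⟩
  · rw [Set.Finite.coe_toFinset, pvng_Yf_of_mem hG]
    exact fun z hz => ⟨hsub hz, fun hh => hh.2 hz⟩
  · have ha : PvngAgr (kp (cfOf Y σ)) (fz (cfOf Y σ)) (cfOf Y σ) (cfOf Y σ') :=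
      pvng_agr_cfOf _ hsub fun z hz => hσ' z ((hfin _ hG).mem_toFinset.2 hz)
    obtain ⟨a1, -, a3⟩ := h.cyl _ hG _ ha
    rw [pvng_Yf_of_mem hG, pvng_Yf_of_mem a1, a3, hM _ hG _ ha]

/-- **A COLOUR BLIND SET WHICH READS THE SITES OF A DETERMINISTIC WINDOW** (Reg, Mesh) is a cylinder: kept region `E`, no frozen site -/
theorem pvng_cyl_blind {E : Set ℂ} {G : Set (Conf PvPt)} (hG : ∀ σ ∈ G, ∀ σ', cfSites σ' ∩ E = cfSites σ ∩ E → σ' ∈ G) :
    PvngCyl (fun _ => E) (fun _ => ∅) (G ∩ {σ | PvngFn E σ}) where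
  fn _ hσ := hσ.2
  sub _ _ := empty_subset _
  cyl σ hσ σ' ha := ⟨⟨hG σ hσ.1 σ' ha.sites, ha.fn⟩, rfl, rfl⟩

/-- enlarge the kept region / the frozen set by data which are constant on the cylinders -/
theorem PvngCyl.enl {kp fz kp' fz' : Conf PvPt → Set ℂ} {G : Set (Conf PvPt)} (h : PvngCyl kp fz G) (hk : ∀ σ ∈ G, kp σ ⊆ kp' σ) (hf : ∀ σ ∈ G, fz σ ⊆ fz' σ)
    (hfn : ∀ σ ∈ G, PvngFn (kp' σ) σ) (hs : ∀ σ ∈ G, fz' σ ⊆ cfSites σ ∩ kp' σ)
    (hc : ∀ σ ∈ G, ∀ σ', PvngAgr (kp' σ) (fz' σ) σ σ' → kp' σ' = kp' σ ∧ fz' σ' = fz' σ) : PvngCyl kp' fz' G where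
  fn := hfn
  sub := hs
  cyl σ hσ σ' ha := ⟨(h.cyl σ hσ σ' (ha.mono (hk σ hσ) (hf σ hσ))).1, hc σ hσ σ' ha⟩

/-- **THE COLOUR HULL** of `B₀` for the data `F frz`: every recolouring off the frozen sites stays in `B₀` and moves neither `frz` nor `F` -/
def pvngCH (B₀ : Set (Conf PvPt)) (F frz : Conf PvPt → Finset ℂ) : Set (Conf PvPt) :=
  {σ | ∀ (T : Set ℂ) (u : ℂ → Bool), Disjoint T (↑(frz σ) : Set ℂ) → pvthRec T u σ ∈ B₀ ∧ frz (pvthRec T u σ) = frz σ ∧ F (pvthRec T u σ) = F σ}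

theorem pvng_eqns_cite5 : True := by
  have := @pvngCH.eq_1
  trivial

theorem pvng_ch_sub (B₀ : Set (Conf PvPt)) (F frz : Conf PvPt → Finset ℂ) : pvngCH B₀ F frz ⊆ B₀ := fun σ hσ => by
  have := (hσ ∅ (fun _ => true) (Set.empty_disjoint _)).1
  rwa [pvl3k_rec_empty] at this

/-- the clause `cyl` of `Pvl3Stop` holds on the colour hull, BY DEFINITION -/
theorem pvng_ch_cyl (B₀ : Set (Conf PvPt)) (F frz : Conf PvPt → Finset ℂ) : ∀ σ ∈ pvngCH B₀ F frz, ∀ (T : Set ℂ) (u : ℂ → Bool), Disjoint T (↑(frz σ) : Set ℂ) →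
    pvthRec T u σ ∈ pvngCH B₀ F frz ∧ frz (pvthRec T u σ) = frz σ ∧ F (pvthRec T u σ) = F σ := by
  intro σ hσ T u hT
  obtain ⟨-, a2, a3⟩ := hσ T u hT
  refine ⟨fun T' u' hT' => ?_, a2, a3⟩
  rw [a2] at hT'
  rw [pvl3k_rec_rec, a2, a3]
  exact hσ _ _ (Set.disjoint_union_left.2 ⟨hT, hT'⟩)

/-- a set which satisfies the clause `cyl` lies in the colour hull of every larger set -/
theorem pvng_sub_ch {B B₀ : Set (Conf PvPt)} {F frz : Conf PvPt → Finset ℂ} (hB : B ⊆ B₀)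
    (h : ∀ σ ∈ B, ∀ (T : Set ℂ) (u : ℂ → Bool), Disjoint T (↑(frz σ) : Set ℂ) → pvthRec T u σ ∈ B ∧ frz (pvthRec T u σ) = frz σ ∧ F (pvthRec T u σ) = F σ) : B ⊆ pvngCH B₀ F frz :=
  fun σ hσ T u hT => ⟨hB (h σ hσ T u hT).1, (h σ hσ T u hT).2⟩

/-- **`Pvl3Stop` ON THE COLOUR HULL**: only the two disjointness clauses are owed, on `B₀` -/
theorem pvng_ch_stop {B₀ : Set (Conf PvPt)} {C : Set ℂ} {F frz : Conf PvPt → Finset ℂ} (mC : MeasurableSet C) (dis : ∀ σ ∈ B₀, Disjoint (frz σ) (F σ))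
    (dF : ∀ σ ∈ B₀, Disjoint (↑(F σ) : Set ℂ) C) : Pvl3Stop (pvngCH B₀ F frz) C F frz where
  mC := mC
  dis σ hσ := dis σ (pvng_ch_sub _ _ _ hσ)
  dF σ hσ := dF σ (pvng_ch_sub _ _ _ hσ)
  cyl := pvng_ch_cyl B₀ F frz

end Claimed.Agent.R289
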