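-- KEEP
import Claimed.Agent.R289.Defs.TrModel

/-!
# Row 289 (S0537), THE WALL, ROAD E, Exit/AnaG : THE ANALYTIC RECORD WITH A GOOD PART      (helper6; prefix `pvxg_`, `PvxAnaG`)

WHY.   `PvxAna.cyc1`, `PvxAna.thick` (187, `Defs/TrModel`) integrate over ALL of `pvxU 𝔓 m z t` = "the state exists".      The domination behind them (Jensen + invariance + I.TAIL / I.BES) needs the weights `1_A / P(A | states)` BOUNDED,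
i.e. a UNIFORM lower bound `q ≤ P(A | states)` (field `frc` of `Pvl3Sys.Forced`, E10 LINK BOUND).      Such a bound holds only OFF A GEOMETRY EVENT (mesh, quenched box crossings near the two tips): on
`{the state exists, the geometry near a tip is bad}` the conditional probabilities are positive but arbitrarily small.      So `cyc1`, `thick` cannot be proved on all of `pvxU` for the honest means `kout`, `ke`.
CURE (no change of `Defs/TrModel`, of the Hub, of `pvxU`, of the pins): `kout kin ke` are FREE DATA of `PvxAna`.      Off the good part `Ug m ε z t` (ANY set: thresholds, geometry; it may depend on `ε`) put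
      `kout' := - (pvtSum W (dout t) (l1 t) + kin0)`,      `ke' := 0` :
the integrands of `cyc1` and `thick` VANISH there.      The field `n1` pays `P(pvxU \ Ug) → 0` at the two candidates of the FIXED pattern.
* `PvxAnaG 𝔓`   = `PvxAna 𝔓` + the good part `Ug`;   `cyc1 thick` on `pvxU ∩ Ug` only;   `n1` only for arcs whose two candidates are good;   `bad : P(pvxU \ Ug) → 0` at every grid candidate
* **`PvxAnaG.toAna : PvxAnaG 𝔓 → PvxAna 𝔓`**      PROVED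
-/

set_option autoImplicit false

namespace Claimed.Agent.R289

open MeasureTheory Filter Topology Set Claims.C0465
open scoped ENNReal

variable {τ : Type} {c : ℝ}

/-- **THE ANALYTIC DATA WITH A GOOD PART** -/
structure PvxAnaG (𝔓 : PvxPar τ c) where
  W : ℕ → ℝ → ℂ → PvtW
  kin0 : ℕ → ℝ → ℂ → ℂ
  A : ℕ → ℝ → ℂ
  CA : ℝ
  A_bdd : ∀ m, ∀ᶠ ε in 𝓝[>] (0 : ℝ), ‖A m ε‖ ≤ CA
  cell_a : ∀ m, ∀ᶠ ε in 𝓝[>] (0 : ℝ), ∀ a : ℂ, (𝔓.Γ m).a (W m ε a) = A m ε - a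
  rel_lim : ∀ m (a : ℂ), Tendsto (fun ε => (W m ε a).rel) (𝓝[>] (0 : ℝ)) (𝓝 0)
  /-- arguments `m ε a z t ω` -/
  kout : ℕ → ℝ → ℂ → ℂ → τ → PVSample → ℂ
  kin : ℕ → ℝ → ℂ → ℂ → τ → PVSample → ℂ
  ke : ℕ → ℝ → ℂ → ℂ → τ → PVSample → ℂ
  /-- **the good part** of the usable candidates: arguments `m ε z t` -/
  Ug : ℕ → ℝ → ℂ → τ → Set PVSample
  /-- a usable candidate is good, up to a probability which tends to `0` at fixed level -/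
  bad : ∀ (m : ℕ) (p : ℤ × ℤ) (t : τ), Tendsto (fun ε => ((pvhbUp ε).P (pvMerge ⁻¹' (pvxU 𝔓 m (l9Pt (pvlmH m) p) t \ Ug m ε (l9Pt (pvlmH m) p) t))).toReal) (𝓝[>] (0 : ℝ)) (𝓝 0)
  n1 : ∀ (x : ℂ) (R : ℝ), 0 < R → ∀ (a : ℂ) (m : ℕ), ∀ π ∈ pvxPatSet 𝔓 x R m, ∀ u : ℝ, 0 < u →
    Tendsto (fun ε => ((pvhbUp ε).P {q | ∃ P ∈ pvhbAll x R (pvMerge q), ∃ s ∈ pvxPins 𝔓 x R m (pvMerge q) P, ∃ t ∈ pvxPins 𝔓 x R m (pvMerge q) P, pvxFit 𝔓 x R m (pvMerge q) P s t π ∧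
      pvMerge q ∈ Ug m ε s.ctr s.typ ∧ pvMerge q ∈ Ug m ε t.ctr t.typ ∧
      u < ‖pvbArcI 𝔓.𝔐 (pvlmH m) P (fun k => P.xQ k - a * P.xV k) s t +
        (kout m ε a t.ctr t.typ (pvMerge q) + pvtSum (W m ε a) ((𝔓.Γ m).dout π.p.tt) π.p.l + kin m ε a s.ctr s.typ (pvMerge q))‖}).toReal) (𝓝[>] (0 : ℝ)) (𝓝 0)
  cyc1 : ∀ (a : ℂ) (m : ℕ) (p : ℤ × ℤ) (t : τ), Tendsto (fun ε => (pvhbUp ε).E ((pvMerge ⁻¹' (pvxU 𝔓 m (l9Pt (pvlmH m) p) t ∩ Ug m ε (l9Pt (pvlmH m) p) t)).indicator fun q =>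
    ‖kout m ε a (l9Pt (pvlmH m) p) t (pvMerge q) + pvtSum (W m ε a) ((𝔓.Γ m).dout t) ((𝔓.Γ m).l1 t) + kin0 m ε a + ke m ε a (l9Pt (pvlmH m) p) t (pvMerge q)‖ₑ ^ 2)) (𝓝[>] (0 : ℝ)) (𝓝 0)
  Ce : ℝ
  thick : ∀ (a : ℂ), ‖a‖ ≤ CA → ∀ (m : ℕ) (p : ℤ × ℤ) (t : τ), ∀ᶠ ε in 𝓝[>] (0 : ℝ),
    (pvhbUp ε).E ((pvMerge ⁻¹' (pvxU 𝔓 m (l9Pt (pvlmH m) p) t ∩ Ug m ε (l9Pt (pvlmH m) p) t)).indicator fun q => ‖ke m ε a (l9Pt (pvlmH m) p) t (pvMerge q)‖ₑ ^ 2) ≤ ENNReal.ofReal (Ce * pvlmH m ^ 2)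

namespace PvxAnaG

variable {𝔓 : PvxPar τ c} (𝔊 : PvxAnaG 𝔓)

open Classical in
/-- `κ_out`, corrected off the good part -/
noncomputable def kout' (m : ℕ) (ε : ℝ) (a z : ℂ) (t : τ) (ω : PVSample) : ℂ :=
  if ω ∈ 𝔊.Ug m ε z t then 𝔊.kout m ε a z t ω else - (pvtSum (𝔊.W m ε a) ((𝔓.Γ m).dout t) ((𝔓.Γ m).l1 t) + 𝔊.kin0 m ε a)

open Classical in
/-- the mean of the thick short link, `0` off the good part -/
noncomputable def ke' (m : ℕ) (ε : ℝ) (a z : ℂ) (t : τ) (ω : PVSample) : ℂ :=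
  if ω ∈ 𝔊.Ug m ε z t then 𝔊.ke m ε a z t ω else 0

theorem cyc_eq (m : ℕ) (ε : ℝ) (a z : ℂ) (t : τ) :
    ((pvMerge ⁻¹' pvxU 𝔓 m z t).indicator fun q =>
      ‖𝔊.kout' m ε a z t (pvMerge q) + pvtSum (𝔊.W m ε a) ((𝔓.Γ m).dout t) ((𝔓.Γ m).l1 t) + 𝔊.kin0 m ε a + 𝔊.ke' m ε a z t (pvMerge q)‖ₑ ^ 2) =
    ((pvMerge ⁻¹' (pvxU 𝔓 m z t ∩ 𝔊.Ug m ε z t)).indicator fun q =>
      ‖𝔊.kout m ε a z t (pvMerge q) + pvtSum (𝔊.W m ε a) ((𝔓.Γ m).dout t) ((𝔓.Γ m).l1 t) + 𝔊.kin0 m ε a + 𝔊.ke m ε a z t (pvMerge q)‖ₑ ^ 2) := by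
  funext q
  by_cases hU : pvMerge q ∈ pvxU 𝔓 m z t
  · by_cases hG : pvMerge q ∈ 𝔊.Ug m ε z t
    · rw [indicator_of_mem (show q ∈ pvMerge ⁻¹' pvxU 𝔓 m z t from hU), indicator_of_mem (show q ∈ pvMerge ⁻¹' (pvxU 𝔓 m z t ∩ 𝔊.Ug m ε z t) from ⟨hU, hG⟩)]
      unfold kout' ke'
      rw [if_pos hG, if_pos hG]
    · rw [indicator_of_mem (show q ∈ pvMerge ⁻¹' pvxU 𝔓 m z t from hU), indicator_of_notMem (show q ∉ pvMerge ⁻¹' (pvxU 𝔓 m z t ∩ 𝔊.Ug m ε z t) from fun h => hG h.2)]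
      unfold kout' ke'
      rw [if_neg hG, if_neg hG]
      have e : - (pvtSum (𝔊.W m ε a) ((𝔓.Γ m).dout t) ((𝔓.Γ m).l1 t) + 𝔊.kin0 m ε a) + pvtSum (𝔊.W m ε a) ((𝔓.Γ m).dout t) ((𝔓.Γ m).l1 t) + 𝔊.kin0 m ε a + 0 = 0 := by ring
      rw [e]
      simp
  · rw [indicator_of_notMem (show q ∉ pvMerge ⁻¹' pvxU 𝔓 m z t from hU), indicator_of_notMem (show q ∉ pvMerge ⁻¹' (pvxU 𝔓 m z t ∩ 𝔊.Ug m ε z t) from fun h => hU h.1)]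

theorem thick_eq (m : ℕ) (ε : ℝ) (a z : ℂ) (t : τ) :
    ((pvMerge ⁻¹' pvxU 𝔓 m z t).indicator fun q => ‖𝔊.ke' m ε a z t (pvMerge q)‖ₑ ^ 2) =
    ((pvMerge ⁻¹' (pvxU 𝔓 m z t ∩ 𝔊.Ug m ε z t)).indicator fun q => ‖𝔊.ke m ε a z t (pvMerge q)‖ₑ ^ 2) := by
  funext q
  by_cases hU : pvMerge q ∈ pvxU 𝔓 m z t
  · by_cases hG : pvMerge q ∈ 𝔊.Ug m ε z t
    · rw [indicator_of_mem (show q ∈ pvMerge ⁻¹' pvxU 𝔓 m z t from hU), indicator_of_mem (show q ∈ pvMerge ⁻¹' (pvxU 𝔓 m z t ∩ 𝔊.Ug m ε z t) from ⟨hU, hG⟩)]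
      unfold ke'
      rw [if_pos hG]
    · rw [indicator_of_mem (show q ∈ pvMerge ⁻¹' pvxU 𝔓 m z t from hU), indicator_of_notMem (show q ∉ pvMerge ⁻¹' (pvxU 𝔓 m z t ∩ 𝔊.Ug m ε z t) from fun h => hG h.2)]
      unfold ke'
      rw [if_neg hG]
      simp
  · rw [indicator_of_notMem (show q ∉ pvMerge ⁻¹' pvxU 𝔓 m z t from hU), indicator_of_notMem (show q ∉ pvMerge ⁻¹' (pvxU 𝔓 m z t ∩ 𝔊.Ug m ε z t) from fun h => hU h.1)]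

/-- the field `n1` for the corrected data -/
theorem n1' (x : ℂ) (R : ℝ) (hR : 0 < R) (a : ℂ) (m : ℕ) (π : PvxIx τ) (hπ : π ∈ pvxPatSet 𝔓 x R m) (u : ℝ) (hu : 0 < u) :
    Tendsto (fun ε => ((pvhbUp ε).P {q | ∃ P ∈ pvhbAll x R (pvMerge q), ∃ s ∈ pvxPins 𝔓 x R m (pvMerge q) P, ∃ t ∈ pvxPins 𝔓 x R m (pvMerge q) P, pvxFit 𝔓 x R m (pvMerge q) P s t π ∧
      u < ‖pvbArcI 𝔓.𝔐 (pvlmH m) P (fun k => P.xQ k - a * P.xV k) s t +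
        (𝔊.kout' m ε a t.ctr t.typ (pvMerge q) + pvtSum (𝔊.W m ε a) ((𝔓.Γ m).dout π.p.tt) π.p.l + 𝔊.kin m ε a s.ctr s.typ (pvMerge q))‖}).toReal) (𝓝[>] (0 : ℝ)) (𝓝 0) := by
  obtain ⟨ps, hps⟩ := hπ.1.2.1
  obtain ⟨pt, hpt⟩ := hπ.1.2.2.1
  have h1 := 𝔊.n1 x R hR a m π hπ u hu
  have h2 := 𝔊.bad m ps π.p.ts
  have h3 := 𝔊.bad m pt π.p.tt
  have hsum := (h1.add h2).add h3
  simp only [add_zero] at hsum
  refine tendsto_of_tendsto_of_tendsto_of_le_of_le tendsto_const_nhds hsum (fun ε => ENNReal.toReal_nonneg) fun ε => ?_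
  rw [← ENNReal.toReal_add (PvUp.P_ne_top _ _) (PvUp.P_ne_top _ _), ← ENNReal.toReal_add (ENNReal.add_ne_top.2 ⟨PvUp.P_ne_top _ _, PvUp.P_ne_top _ _⟩) (PvUp.P_ne_top _ _)]
  refine ENNReal.toReal_mono (ENNReal.add_ne_top.2 ⟨ENNReal.add_ne_top.2 ⟨PvUp.P_ne_top _ _, PvUp.P_ne_top _ _⟩, PvUp.P_ne_top _ _⟩) ?_
  refine le_trans (PvUp.P_mono _ ?_) ((PvUp.P_union_le _ _ _).trans (add_le_add_left (PvUp.P_union_le _ _ _) _))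
  rintro q ⟨P, hP, s, hs, t, ht, hfit, hlt⟩
  have es : s.ctr = l9Pt (pvlmH m) ps := hfit.1.1.trans hps
  have et : t.ctr = l9Pt (pvlmH m) pt := hfit.2.1.1.trans hpt
  by_cases gs : pvMerge q ∈ 𝔊.Ug m ε s.ctr s.typ
  · by_cases gt : pvMerge q ∈ 𝔊.Ug m ε t.ctr t.typ
    · refine Or.inl (Or.inl ⟨P, hP, s, hs, t, ht, hfit, gs, gt, ?_⟩)
      unfold kout' at hlt
      rw [if_pos gt] at hlt
      exact hlt
    · refine Or.inr ?_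
      have hU := hfit.2.2.2.1
      rw [et, hfit.2.1.2] at hU gt
      exact ⟨hU, gt⟩
  · refine Or.inl (Or.inr ?_)
    have hU := hfit.2.2.1
    rw [es, hfit.1.2] at hU gs
    exact ⟨hU, gs⟩

/-- **THE RECORD OF 187 FROM THE RECORD WITH A GOOD PART** -/
noncomputable def toAna : PvxAna 𝔓 where
  W := 𝔊.W
  kin0 := 𝔊.kin0
  A := 𝔊.A
  CA := 𝔊.CA
  A_bdd := 𝔊.A_bdd
  cell_a := 𝔊.cell_a
  rel_lim := 𝔊.rel_lim
  kout := 𝔊.kout'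
  kin := 𝔊.kin
  ke := 𝔊.ke'
  n1 := 𝔊.n1'
  cyc1 := fun a m p t => by
    simp only [𝔊.cyc_eq]
    exact 𝔊.cyc1 a m p t
  Ce := 𝔊.Ce
  thick := fun a ha m p t => by
    simp only [𝔊.thick_eq]
    exact 𝔊.thick a ha m p t

end PvxAnaG

theorem pvxg_eqns_cite : True := by
  have := @PvxAnaG.kout'.eq_1; have := @PvxAnaG.ke'.eq_1; have := @PvxAnaG.toAna.eq_1
  trivial

end Claimed.Agent.R289
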