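import Claimed.Agent.R289.Exit.MetP
import Claimed.Agent.R289.Tr.GlueIn

/-!
# Row 289 (S0537), THE WALL, ROAD P, Exit/GlueP : THE FIT-TIME GEOMETRY OF A LIVE PATTERN AT THE MODEL: `PvqgIn` AND `PvgwIn` (GLUE-W) FROM THE WITNESS `PvrcFit` + EXACT FITS      (owner helper222; prefix `pvqg_`)      0 sorry

* sec. 1  `PvqgNum2.refine`, **`PvqgIn.refine`** (`dc = n dc'`: the record at the mesh `dc'`, `k n` link cells per menu cell; centres, marks, tails unchanged)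
* sec. 2  **`PvqgLvl 𝔤 𝔑 c R m`** = THE NUMBERS OF THE LEVEL (`num2` pattern mesh, `num3` link mesh `dc/21`, collar `a = 30`, contains `hD hD2`), **`pvqg_lvl_ev`** (eventually in `m` at fixed `R`), `pvqg_N_ge`.      The record grows HERE: the consumers (`PvusLvl` of 79 286) carry ONE field `qg : PvqgLvl ..`.
* sec. 3  `PvqgAtP`, `PvqgAtL` (abbreviations: `PvqgIn` at the model, pattern / link mesh), `PvqgAtP.toL`, **`pvqg_in_of_fit`** (`PvqgLvl` + `PvrcFit` + the two exact fits `𝔤.Fit` ⟹ `∃ cs ct ts tt kb kf, PvqgAtP ..`),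
          **`PvqgAtL.glue`** `: PvgwIn 𝔤.NN (pvqgM (N 21) _ cs) (pvqgM (N 21) _ ct) s.typ.typ t.typ.typ (I.Fa 30)`
-/

set_option autoImplicit false
set_option linter.unusedSectionVars false
set_option linter.unusedVariables false

namespace Claimed.Agent.R289

open MeasureTheory Filter Topology Set Claims.C0465

/-! ## 1. refinement of the mesh -/

theorem PvqgNum2.refine {dc dc' δ μ' ρ' σ' hh b ρ R D : ℝ} {nB : ℕ} (N : PvqgNum2 dc δ μ' ρ' σ' hh b ρ R D nB) (h : dc' ≤ dc) : PvqgNum2 dc' δ μ' ρ' σ' hh b ρ R D nB :=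
  ⟨N.R_pos, N.μ_nn, N.μ_le, by have := N.rho; linarith, N.sig, N.ord, N.apart, N.out, by have := N.loc; linarith, by have := N.loc'; linarith⟩

/-- **the record `PvqgIn` at a finer mesh** `dc = n dc'` -/
theorem PvqgIn.refine {T : Type} {𝔑 : PvmnNum} {ty : T → PvmnType} {k : ℕ} {dc δ μ μ' ρ' σ' hh a b ρ d0 e0 d1 e1 RB R D h : ℝ} {x : ℂ} {P : PvbRim} {s t : PvbPin T} {cs ct : ℤ × ℤ} {ts tt : ℕ → ℕ}
    {kb kf : ℕ} {𝔐 : PvbMenu T} (I : PvqgIn 𝔑 ty k dc δ μ μ' ρ' σ' hh a b ρ d0 e0 d1 e1 RB R D h x 𝔐 P s t cs ct ts tt kb kf) {n : ℕ} (hn : 0 < n) {dc' : ℝ} (hdc : dc = (n : ℝ) * dc') :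
    PvqgIn 𝔑 ty (k * n) dc' δ μ μ' ρ' σ' hh a b ρ d0 e0 d1 e1 RB R D h x 𝔐 P s t cs ct ts tt kb kf := by
  have hn' : (0 : ℝ) < (n : ℝ) := by exact_mod_cast hn
  have h1 : (1 : ℝ) ≤ (n : ℝ) := by exact_mod_cast hn
  have hpos : 0 < dc' := by
    have := I.hdc
    rw [hdc] at this
    exact (mul_pos_iff_of_pos_left hn').1 this
  exact
    { numOK := I.numOK
      hWP := I.hWP
      hty := I.hty
      hk := Nat.mul_pos I.hk hn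
      hdc := hpos
      hδ := by rw [I.hδ, hdc]; push_cast; ring
      N := I.N
      hr := I.hr
      N2 := I.N2.refine (by rw [hdc]; nlinarith)
      Ss := I.Ss
      St := I.St
      H := I.H
      lt := I.lt
      arc := I.arc
      far := I.far }

/-! ## 2. the numbers of a level -/

section model

variable {𝔤 : PvmhNum} {𝔑 : PvrcNum} {c R : ℝ} {x : ℂ}

/-- **THE NUMBERS OF THE FIT-TIME GEOMETRY AT THE LEVEL `m`, IN THE PATCH OF RADIUS `R`**      (true eventually in `m` at fixed `R`: `pvqg_lvl_ev`;   it GROWS HERE) -/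
structure PvqgLvl (𝔤 : PvmhNum) (𝔑 : PvrcNum) (c R : ℝ) (m : ℕ) : Prop where
  /-- the pattern mesh `dc` -/
  num2 : PvqgNum2 (𝔑.dc c m) (𝔤.dl * pvlmH m) (𝔑.mu c m) (𝔑.rho c m) (𝔑.sig m) (pvlmH m) (𝔤.b3 * pvlmH m) (10 * 𝔤.b3 * pvlmH m) R (R / 3) (pvfjmPlug 𝔤.NN (PvmhT.typ (𝔤 := 𝔤))).nB
  /-- the link mesh `dc / 21`, collar `a = 30` of the tube of the arc -/
  num3 : PvqgNum3 𝔤.NN (pvlmN c m * 21) 30 (𝔑.dc c m / 21) (𝔤.dl * pvlmH m) (𝔑.mu c m) (𝔑.rho c m) (pvlmH m) (𝔤.b3 * pvlmH m) (10 * 𝔤.b3 * pvlmH m) R (R / 3)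

theorem pvqg_N_ge {c : ℝ} (c0 : 0 < c) {m : ℕ} (hm : 1 ≤ m) : 2 ≤ pvlmN c m := by
  have h1 := pvlm_N_mul_Del c m
  have h2 := pvlm_Del_le_pow4 c0 m
  have h3 := pvlm_H_pos m
  have h4 : pvlmH m ≤ 1 / 2 := by
    unfold pvlmH
    calc (2 : ℝ)⁻¹ ^ m ≤ (2 : ℝ)⁻¹ ^ 1 := pow_le_pow_of_le_one (by norm_num) (by norm_num) hm
      _ = 1 / 2 := by norm_num
  by_contra hc
  have h5 : pvlmN c m = 1 := by have := pvlm_N_pos c m; omega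
  rw [h5] at h1
  have h6 : pvlmH m ^ 4 ≤ pvlmH m * (1 / 2) := by
    have : pvlmH m ^ 3 ≤ 1 / 2 := by
      calc pvlmH m ^ 3 ≤ (1 / 2 : ℝ) ^ 3 := pow_le_pow_left₀ h3.le h4 3
        _ ≤ 1 / 2 := by norm_num
    calc pvlmH m ^ 4 = pvlmH m * pvlmH m ^ 3 := by ring
      _ ≤ pvlmH m * (1 / 2) := mul_le_mul_of_nonneg_left this h3.le
  push_cast at h1
  linarith

/-- the numbers hold eventually -/
theorem pvqg_lvl_ev (H : 𝔤.OK) (hrel : PvqgRel 𝔤 𝔑) (c0 : 0 < c) (hR : 0 < R) : ∀ᶠ m in atTop, PvqgLvl 𝔤 𝔑 c R m := by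
  obtain ⟨h0, h1, h2, h3, h4, h5⟩ := pvmh_basic H
  have hb3 : 0 < 𝔤.b3 := by
    have : 𝔤.b3 = 𝔤.b 2 + 1 := rfl
    linarith
  set A : ℝ := 21 * 𝔤.b3 + 1 + 2 * ((2 * 𝔤.NN.nBx + 21 : ℕ) : ℝ) * 𝔤.dl + 2 * ((𝔤.NN.nBx : ℝ) + 11) * 𝔤.dl + 2 * 𝔤.dl with hA
  have hA0 : 0 < A := by positivity
  have l1 : Tendsto (fun m => A * pvlmH m) atTop (𝓝 0) := by simpa using pvlm_H_lim.const_mul A
  filter_upwards [pvqg_num2_ev H hrel c0 hR (pvfjmPlug 𝔤.NN (PvmhT.typ (𝔤 := 𝔤))).nB, l1.eventually (ge_mem_nhds (show (0 : ℝ) < R / 3 by positivity)), eventually_ge_atTop 1] with m hm2 hm hm1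
  have hh := pvlm_H_pos m
  have hdc := pvrc_dc_pos hrel.ok c m
  have hdc' : 𝔑.dc c m ≤ 𝔤.dl * pvlmH m := by
    unfold PvrcNum.dc
    rw [hrel.dl]
    exact mul_le_mul_of_nonneg_left (pvlm_Del_le_H c0 m) h0.le
  have t1 : 0 ≤ 2 * ((2 * 𝔤.NN.nBx + 21 : ℕ) : ℝ) * 𝔤.dl * pvlmH m := by positivity
  have t2 : 0 ≤ 2 * ((𝔤.NN.nBx : ℝ) + 11) * 𝔤.dl * pvlmH m := by positivity
  have t3 : 0 ≤ 𝔤.b3 * pvlmH m := by positivity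
  have t4 : 0 ≤ 𝔤.dl * pvlmH m := by positivity
  have eA : A * pvlmH m = 21 * (𝔤.b3 * pvlmH m) + pvlmH m + 2 * ((2 * 𝔤.NN.nBx + 21 : ℕ) : ℝ) * 𝔤.dl * pvlmH m + 2 * ((𝔤.NN.nBx : ℝ) + 11) * 𝔤.dl * pvlmH m + 2 * (𝔤.dl * pvlmH m) := by
    rw [hA]; ring
  rw [eA] at hm
  refine ⟨hm2, ?_, ?_, ?_, ?_, ?_⟩
  · have := pvqg_N_ge c0 hm1
    omega
  · have := hrel.kρ
    unfold PvrcNum.rho PvrcNum.mu
    push_cast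
    nlinarith
  · have e : 2 * ((2 * 𝔤.NN.nBx + 21 : ℕ) : ℝ) * (𝔤.dl * pvlmH m) = 2 * ((2 * 𝔤.NN.nBx + 21 : ℕ) : ℝ) * 𝔤.dl * pvlmH m := by ring
    rw [e]
    linarith
  · have e : 2 * ((𝔤.NN.nBx : ℝ) + 11) * (𝔤.dl * pvlmH m) = 2 * ((𝔤.NN.nBx : ℝ) + 11) * 𝔤.dl * pvlmH m := by ring
    rw [e]
    linarith
  · linarith

/-! ## 3. from the witness of a live pattern -/

/-- the record `PvqgIn` at the model, level `m`, PATTERN mesh `dc` -/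
abbrev PvqgAtP (𝔤 : PvmhNum) (𝔑 : PvrcNum) (c R : ℝ) (x : ℂ) (𝔐 : PvbMenu (PvmhT 𝔤)) (m : ℕ) (P : PvbRim) (s t : PvbPin (PvmhT 𝔤)) (cs ct : ℤ × ℤ) (ts tt : ℕ → ℕ) (kb kf : ℕ) : Prop :=
  PvqgIn 𝔤.NN PvmhT.typ (pvlmN c m) (𝔑.dc c m) (𝔤.dl * pvlmH m) (𝔤.mu * pvlmH m) (𝔑.mu c m) (𝔑.rho c m) (𝔑.sig m) (pvlmH m) (𝔤.a3 * pvlmH m) (𝔤.b3 * pvlmH m) (10 * 𝔤.b3 * pvlmH m)
    (𝔤.d0 * pvlmH m) (𝔤.e0 * pvlmH m) (𝔤.d1 * pvlmH m) (𝔤.e1 * pvlmH m) (𝔤.dl * pvlmH m * 𝔤.NN.rB) R (R / 3) (pvlmH m) x 𝔐 P s t cs ct ts tt kb kf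

/-- the record `PvqgIn` at the model, level `m`, LINK mesh `dc / 21` -/
abbrev PvqgAtL (𝔤 : PvmhNum) (𝔑 : PvrcNum) (c R : ℝ) (x : ℂ) (𝔐 : PvbMenu (PvmhT 𝔤)) (m : ℕ) (P : PvbRim) (s t : PvbPin (PvmhT 𝔤)) (cs ct : ℤ × ℤ) (ts tt : ℕ → ℕ) (kb kf : ℕ) : Prop :=
  PvqgIn 𝔤.NN PvmhT.typ (pvlmN c m * 21) (𝔑.dc c m / 21) (𝔤.dl * pvlmH m) (𝔤.mu * pvlmH m) (𝔑.mu c m) (𝔑.rho c m) (𝔑.sig m) (pvlmH m) (𝔤.a3 * pvlmH m) (𝔤.b3 * pvlmH m) (10 * 𝔤.b3 * pvlmH m)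
    (𝔤.d0 * pvlmH m) (𝔤.e0 * pvlmH m) (𝔤.d1 * pvlmH m) (𝔤.e1 * pvlmH m) (𝔤.dl * pvlmH m * 𝔤.NN.rB) R (R / 3) (pvlmH m) x 𝔐 P s t cs ct ts tt kb kf

theorem PvqgAtP.toL {𝔐 : PvbMenu (PvmhT 𝔤)} {m : ℕ} {P : PvbRim} {s t : PvbPin (PvmhT 𝔤)} {cs ct : ℤ × ℤ} {ts tt : ℕ → ℕ} {kb kf : ℕ} (I : PvqgAtP 𝔤 𝔑 c R x 𝔐 m P s t cs ct ts tt kb kf) :
    PvqgAtL 𝔤 𝔑 c R x 𝔐 m P s t cs ct ts tt kb kf :=
  PvqgIn.refine I (n := 21) (by norm_num) (by push_cast; ring)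

/-- **THE RECORD OF A FITTING RIM**: `PvrcFit` (236) + the exact fits of the two pins (8) + the numbers of the level -/
theorem pvqg_in_of_fit (H : 𝔤.OK) (hrel : PvqgRel 𝔤 𝔑) {PL : PvfjPlug (PvmhT 𝔤)} {𝔐 : PvbMenu (PvmhT 𝔤)} {m : ℕ} (hl : PvqgLvl 𝔤 𝔑 c R m) {ω : PVSample} {P : PvbRim} {s t : PvbPin (PvmhT 𝔤)}
    {π : pvrcPat 𝔑 c PL x R m} (F : PvrcFit 𝔐 m ω P s t π) (Fs : 𝔤.Fit (pvlmH m) P s.idx s.ctr s.typ) (Ft : 𝔤.Fit (pvlmH m) P t.idx t.ctr t.typ) :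
    ∃ (cs ct : ℤ × ℤ) (ts tt : ℕ → ℕ) (kb kf : ℕ), PvqgAtP 𝔤 𝔑 c R x 𝔐 m P s t cs ct ts tt kb kf := by
  obtain ⟨cs, ts, Ss⟩ := pvqg_pin_of_fit H Fs
  obtain ⟨ct, tt, St⟩ := pvqg_pin_of_fit H Ft
  obtain ⟨kb, kf, HP⟩ := F.poly
  exact ⟨cs, ct, ts, tt, kb, kf,
    { numOK := pvmh_numOK H
      hWP := by have := pvmh_bars H; omega
      hty := fun t => t.isType
      hk := pvlm_N_pos c m
      hdc := pvrc_dc_pos hrel.ok c m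
      hδ := by rw [pvrc_dc_mul hrel.ok c m, hrel.dl]
      N := pvmh_num H (pvlm_H_pos m)
      hr := rfl
      N2 := hl.num2
      Ss := Ss
      St := St
      H := HP
      lt := F.lt
      arc := F.arc
      far := F.apart }⟩

/-- **GLUE-W AT THE MODEL**: the fit-time clauses of 205 at the link mesh `dc / 21`, collar `30` -/
theorem PvqgAtL.glue {𝔐 : PvbMenu (PvmhT 𝔤)} {m : ℕ} (hl : PvqgLvl 𝔤 𝔑 c R m) {P : PvbRim} {s t : PvbPin (PvmhT 𝔤)} {cs ct : ℤ × ℤ} {ts tt : ℕ → ℕ} {kb kf : ℕ}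
    (I : PvqgAtL 𝔤 𝔑 c R x 𝔐 m P s t cs ct ts tt kb kf) : PvgwIn 𝔤.NN (pvqgM (pvlmN c m * 21) I.hk cs) (pvqgM (pvlmN c m * 21) I.hk ct) s.typ.typ t.typ.typ (PvqgIn.Fa I 30) :=
  PvqgIn.glueIn I hl.num3

end model

end Claimed.Agent.R289
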