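import Claimed.Agent.R289.Exit.PatD
import Claimed.Agent.R289.Tr.N1SysA

/-!
# Row 289 (S0537, Cardy for Poisson-Voronoi), THE WALL, ROAD P, file Exit/PatN : THE SUB-EXIT (CHAIN) OF THE ROOF ARC      (pen helper183; prefix `pvyt_`, `pvyt`, `Pvyt`)

The contract `PvnjPat` of 59 (`Tr/N1SysA`) asks of the chain:   `ch : ∀ᶠ ε, (pvnjAt 𝔓 D W (q ε) m ε pat 𝔯 Lam Kr).Ch`   and   `hD : ∀ᶠ ε, pvnyDc D 𝔓.Γ m ε pat (q ε) ≤ ENNReal.ofReal D0`.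
HERE both are produced at   `D := pvydDat 𝔓 𝔤 col` (58),   `W := (𝔤.kit m ε).W (pvP ε) (𝔤.X₀ m ε)` (`= pvrsW 𝔤 m ε` of 79),   `q := pvytQ 𝔤 qk m pat` (NO dependence on `ε`),   `pat := pvrcPatOf m π` (236),   ANY `𝔯 Lam Kr`.
* sec. 1  colour blind Borel sets, the corridor of a list
* sec. 2  `pvyt_ch_of_pat` : `PvypPat` at `pvydDat` ⟹ `Ch`
* sec. 3  **`pvyt_n_ch`**, **`pvyt_n_Dc`**, `pvytD0`
-/

set_option autoImplicit false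

namespace Claimed.Agent.R289

open MeasureTheory Filter Topology Set Claims.C0465
open scoped ENNReal

/-! ## 1. colour blind sets -/

theorem pvyt_cb_meas {W : Set PvPt} (hm : MeasurableSet W) (hc : PvydCb W) : ∃ C : Set ℂ, MeasurableSet C ∧ W = Prod.fst ⁻¹' C :=
  ⟨(fun z : ℂ => ((z, true) : PvPt)) ⁻¹' W, measurable_prodMk_right hm, Set.ext fun p => (hc p true).symm⟩

theorem pvyt_cb_empty : PvydCb ∅ := fun _ _ => Iff.rfl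

theorem pvyt_cb_biUnion {ι : Type*} (s : Finset ι) {f : ι → Set PvPt} (h : ∀ j, PvydCb (f j)) : PvydCb (⋃ j ∈ s, f j) := fun p b => by
  simp only [Set.mem_iUnion]
  exact exists_congr fun j => exists_congr fun _ => h j p b

/-- the regions of a list of sectors are colour blind -/
theorem pvyt_list_cb {a c : PvsySec PvPt} (kit : PvthKit) (z d : ℂ) (l : List PvtTurn) {Kf : Set PvPt} (Af : Set (Conf PvPt)) (aO : PvydCb a.O) (aK : PvydCb a.K) (hK : PvydCb Kf)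
    (cO : PvydCb c.O) (cK : PvydCb c.K) (j : ℕ) : PvydCb (pvskList a kit z d l Kf Af c j).O ∧ PvydCb (pvskList a kit z d l Kf Af c j).K := by
  unfold pvskList
  split_ifs
  · exact ⟨aO, aK⟩
  · exact ⟨pvyd_cb_O _ _ _, pvyd_cb_K _ _ _ _⟩
  · exact ⟨pvyd_cb_O _ _ _, hK⟩
  · exact ⟨cO, cK⟩

/-! ## 2. from the record of 58 to the contract of 59 -/

section ch

variable {τ : Type} {cc : ℝ} {𝔓 : PvrxPar τ cc} {𝔤 : PvydGeo τ} {col : Bool} {W : PvtW} {q : ℕ → ℝ≥0∞} {m : ℕ} {ε : ℝ} {π : PvtsPat τ}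

/-- **THE CONTRACT `Ch` OF 59 AT THE SECTORS OF 58** -/
theorem pvyt_ch_of_pat (h : PvypPat (pvydDat 𝔓 𝔤 col) 𝔓.Γ W 0 m ε π q) (𝔯 : PvnjReg) (Lam Kr : Set ℂ) : (pvnjAt 𝔓 (pvydDat 𝔓 𝔤 col) W q m ε π 𝔯 Lam Kr).Ch where
  pat := h
  Os_eq := Set.prod_univ
  Ot_eq := Set.prod_univ
  cor_cb := by
    have wf := pvsk_wf h.wf h.d4 h.for_
    have cb := pvyt_list_cb (a := (pvydDat 𝔓 𝔤 col).sOut m ε π.zt π.tt) (c := (pvydDat 𝔓 𝔤 col).sPl m ε π.zs π.ts) ((pvydDat 𝔓 𝔤 col).kit m ε) (π.zt + (𝔓.Γ m).pout π.tt) ((𝔓.Γ m).dout π.tt) π.l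
      (Kf := (pvydDat 𝔓 𝔤 col).Ki m ε π.zs π.ts) ((pvydDat 𝔓 𝔤 col).Ai m ε π.zs π.ts) (pvyd_cb_prod _) (pvyd_cb_prod _) (pvyd_cb_prod _) (pvyd_cb_prod _) pvyt_cb_empty
    refine pvyt_cb_meas ?_ ?_
    · refine MeasurableSet.union ?_ ?_
      · refine Finset.measurableSet_biUnion _ fun j hj => wf.mO j ?_
        have : j < π.l.length + 2 := (Finset.mem_Ioo.1 hj).2
        omega
      · refine Finset.measurableSet_biUnion _ fun j hj => wf.mK j ?_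
        have : j < π.l.length + 2 := Finset.mem_range.1 hj
        omega
    · exact (pvyt_cb_biUnion _ fun j => (cb j).1).union (pvyt_cb_biUnion _ fun j => (cb j).2)

end ch

/-! ## 3. the sub-exit (CHAIN) -/

section chain

variable {τ : Type} {cc : ℝ} {𝔓 : PvrxPar τ cc} {𝔤 : PvydGeo τ} {m : ℕ} {β' qk : ℝ≥0∞} {𝔑 : PvrcNum} {c : ℝ} {PL : PvfjPlug τ} {x : ℂ} {R : ℝ}

/-- the forcing constants of the chain of a pattern (they do not depend on the mesh) -/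
def pvytQ (𝔤 : PvydGeo τ) (qk : ℝ≥0∞) (m : ℕ) (π : PvtsPat τ) : ℕ → ℝ≥0∞ := pvskQ (𝔤.qo m) qk (𝔤.qi m) 1 π.l.length

/-- the bound of the weight of the chain of a pattern -/
noncomputable def pvytD0 (𝔤 : PvydGeo τ) (β' qk : ℝ≥0∞) (m : ℕ) (π : PvtsPat τ) : ℝ := ((β'⁻¹) ^ (π.l.length + 1) * ((𝔤.qo m)⁻¹ * qk⁻¹ ^ π.l.length * (𝔤.qi m)⁻¹)).toReal

theorem pvyt_eqns_cite4 : True := by
  have := @pvytQ.eq_1; have := @pvytD0.eq_1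
  trivial

/-- **(CHAIN), field `ch` of `PvnjPat`** -/
theorem pvyt_n_ch (hW : 𝔓.Wf) (H : 𝔤.KitOk 𝔓 m β' qk) (hs : PvytSq 𝔤 m) (hN : 𝔑.Ok) (hPL : PL.WF)
    (hdel : (𝔓.Γ m).δ = 𝔑.dc c m / (2 * (𝔑.mm : ℝ) + 1))
    (hpo : ∀ t, (𝔓.Γ m).pout t = pvfjDoor 𝔑.mm (𝔑.dc c m) ((pvrcPL c PL m).yp t) ((pvrcPL c PL m).dp t)) (hdo : ∀ t, (𝔓.Γ m).dout t = pvtZ ((pvrcPL c PL m).dp t))
    (hpi : ∀ t, (𝔓.Γ m).pin t = pvfjDoor 𝔑.mm (𝔑.dc c m) ((pvrcPL c PL m).ym t) ((pvrcPL c PL m).dm t)) (hdi : ∀ t, (𝔓.Γ m).din t = - pvtZ ((pvrcPL c PL m).dm t))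
    (hLr : 2 * ((PL.nB : ℝ) + 2) * 𝔑.dl ≤ 𝔑.Lr) {r : ℝ → ℝ} (hR : ∀ᶠ ε in 𝓝[>] (0 : ℝ), PvccKitRef (𝔤.kit m ε) (r ε))
    (π : pvrcPat 𝔑 c PL x R m) {col : Bool}
    (ct : (𝔓.ty m (pvrcPatOf m π).zt (pvrcPatOf m π).tt).col = col) (cs : (𝔓.ty m (pvrcPatOf m π).zs (pvrcPatOf m π).ts).col = col)
    (Ct : 𝔤.CandOk 𝔓 m (pvrcPatOf m π).zt (pvrcPatOf m π).tt) (Cs : 𝔤.CandOk 𝔓 m (pvrcPatOf m π).zs (pvrcPatOf m π).ts)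
    (Lt : PvytL1 𝔓 𝔤 m (pvrcPatOf m π).zt (pvrcPatOf m π).tt) (Ls : PvytL1 𝔓 𝔤 m (pvrcPatOf m π).zs (pvrcPatOf m π).ts)
    (Pt : ∀ᶠ ε in 𝓝[>] (0 : ℝ), PvytPl 𝔓 𝔤 (pvrcPL c PL m) 𝔑.mm (𝔑.dc c m) col m ε (r ε) π.1.1.ct π.1.1.tt)
    (Ps : ∀ᶠ ε in 𝓝[>] (0 : ℝ), PvytPl 𝔓 𝔤 (pvrcPL c PL m) 𝔑.mm (𝔑.dc c m) col m ε (r ε) π.1.1.cs π.1.1.ts) (𝔯 : PvnjReg) (Lam Kr : Set ℂ) :
    ∀ᶠ ε in 𝓝[>] (0 : ℝ), (pvnjAt 𝔓 (pvydDat 𝔓 𝔤 col) ((𝔤.kit m ε).W (pvP ε) (𝔤.X₀ m ε)) (pvytQ 𝔤 qk m (pvrcPatOf m π)) m ε (pvrcPatOf m π) 𝔯 Lam Kr).Ch :=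
  (pvyt_d_pat_lv hW H hs hN hPL hdel hpo hdo hpi hdi hLr hR π ct cs Ct Cs Lt Ls Pt Ps 0).mono fun _ h => pvyt_ch_of_pat h 𝔯 Lam Kr

/-- **(CHAIN), field `hD` of `PvnjPat`**: the weight of the chain is bounded uniformly in the mesh -/
theorem pvyt_n_Dc (H : 𝔤.KitOk 𝔓 m β' qk) (hβ : β' ≠ 0) (hq : qk ≠ 0) (col : Bool) {π : PvtsPat τ} (d4 : ((𝔓.Γ m).dout π.tt) ^ 4 = 1) :
    ∀ᶠ ε in 𝓝[>] (0 : ℝ), pvnyDc (pvydDat 𝔓 𝔤 col) 𝔓.Γ m ε π (pvytQ 𝔤 qk m π) ≤ ENNReal.ofReal (pvytD0 𝔤 β' qk m π) := by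
  have hfin : (β'⁻¹) ^ (π.l.length + 1) * ((𝔤.qo m)⁻¹ * qk⁻¹ ^ π.l.length * (𝔤.qi m)⁻¹) ≠ ∞ :=
    ENNReal.mul_ne_top (ENNReal.pow_ne_top (ENNReal.inv_ne_top.2 hβ))
      (ENNReal.mul_ne_top (ENNReal.mul_ne_top (ENNReal.inv_ne_top.2 H.qo0) (ENNReal.pow_ne_top (ENNReal.inv_ne_top.2 hq))) (ENNReal.inv_ne_top.2 H.qi0))
  filter_upwards [H.frc] with ε h
  unfold pvytD0
  rw [ENNReal.ofReal_toReal hfin]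
  exact pvsk_Dc_pattern_le d4 (pvyd_kit_forced col h).adm

end chain

end Claimed.Agent.R289
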