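-- KEEP
import Claimed.Agent.R289.Exit.RestP
import Claimed.Agent.R289.Tr.N1SysA
import Claimed.Agent.R289.Exit.PatN
import Claimed.Agent.R289.Exit.GlueP

/-!
# Row 289 (S0537), THE WALL, ROAD P, Exit/ArcRP : THE CUT OF THE ROOF ARC (`exit_pvrs_arc` of 79, `Exit/RestP.lean`) AT THE TERMS OF RECORD      (pen helper286; prefix `pvus_`, `pvus`, `Pvus`, `exit_pvus_`)

`exit_pvrs_arc` asks, per patch `(x,R)`: exceptional events `Exc m ε π` of the sample of probability `→ 0` and the `Q`-half `PvraOne` (286, `Exit/ArcP.lean` sec. 7) at every pattern of `(pvrsPat ..).cut Exc`.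
THE GENERIC MACHINE IS ON MAIN:   `PvnjPat 𝔄 𝔇 m π` (59, `Tr/N1SysA.lean`: the contract of one pattern at the term `pvnjAt`) `⟹ PvnjPat.yp : PvraYp ⟹ PvraYp.one : PvraOne`   (279 `Tr/N1R.lean`, 159 / 286 TR23).
THIS FILE = THE INSTANCE at `𝔓 := pvrzPar c 𝔤 H Γ m0`, `𝔇 := pvrsPat H hG.doors m1 x R` (`m1` = first level of the patch: `PvusLvl`, seam of 205), `D := pvydDat 𝔓 𝔶 true` (58), `𝔄 := A.toAna ..`, and THE CUT into sub-exits, ONE PER PEN, each AT THESE TERMS: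

* sec. 1  `PvusReg` = THE REGIONS OF THE FREE SIDE OF ONE PATTERN, DATA (no mesh `ε`, no number of QBX): tube `U`, region `UN` of `N_g`, colour book `T`, window `Ew`, box `B`, `a0`, ring lane = walk `L` of cells of side `δ`, layer `Lam`, reading zone `Kr`;
          `G.reg q3 : PvnjReg` (record of 59: `S3 := pvlnW δ L`, `K3 := pvlnLaneEv δ false L`), `G.qw : PvqwDat` (record of 147);   **`PvusReg.Ok`** = its contract (fields of `PvnjPat` which see the regions only + HOOK + RUN).   IT GROWS IN PLACE.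
* sec. 2  GENERIC GLUE:   `pvusPat` : regions + chain + close `⟹ PvnjPat`;   `pvus_exc` (the exceptional samples are rare: `pvnj_exc_lim` of 59 249 at the constant of QBX);
          **`PvusLive 𝔇 m π`** = SOME doubly prepared configuration of SOME fitting arc exists: ONLY THE LIVE PATTERNS OWE ANYTHING (`pvusDead`: for the others `PvraOne` is empty).   A pattern of the finite family may sit anywhere in the box, far from the patch: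
          the sub-exits are asked at the live patterns only, WITH THE WITNESS (rim, two pins with their location clause and exact fit, `PvrcFit`) in hand.   `pvus_blk_of_live`: a live pattern is black.
* sec. 3  THE DICTIONARY AT THE TERMS OF `Exit/RestP.lean`: `pvus_ko pvus_ki pvus_W` (`rfl` + colour), `pvus_beta`.
* sec. 4  **THE THREE SUB-EXITS** (TWO are open: REG, CLOSE)
     `exit_pvus_reg`     (statement `PvusRegR`; the open theorem sits in `Exit/TopP.lean`)   REG + RUN: the regions exist, with the contract      [225 `Tr/N1RegP.lean`, `Tr/LaneS.lean`;  RUN = the FIT-time clause: 138 236 225]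
     `exit_pvus_chain`   **PROVED** (fields `l1 pl` of `PvrsGeoOk`)   CHAIN: `PvnjPar.Ch` (= `PvypPat` at `pvydDat`, regions of the two states, corridor colour blind) for small `ε`, `D_c ≤ D0`      [58 `Exit/DatP.lean`, 183 `Tr/PatP.lean` `pvyt_pat pvyt_Dc_le`]
     `exit_pvus_close`   (statement `PvusCloseR`; the open theorem sits in `Exit/TopP.lean`)   CLOSE, CYC form `PvnjPar.Cl` a.e. for small `ε`      [260 `Tr/CloseN`, 95 `Tr/CloseM`, 113 `Tr/ConnP`, 147 `Tr/ForceWI`, 212 `Tr/ArcP`]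
PROTOCOL (as `PvrsGeoOk` of 79).   CLOSE is stated for ANY regions with the contract `PvusReg.Ok`: a pen of CLOSE who needs ONE MORE FACT ON THE REGIONS adds a field to `PvusReg.Ok` IN PLACE (one line to 286 225); a fact on the data `(Γ, m0, 𝔶)` goes to `PvrsGeoOk`.
* sec. 5  **`pvus_arc`** = THE STATEMENT OF `exit_pvrs_arc` VERBATIM, from the three sub-exits and `hblk` = "no usable state at a white type" (ruling P10 of 273: `𝔓.G` is EMPTY unless `col = true`; a definition unfolding after the switch of `Exit/TrP.lean` by 79).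
-/

set_option autoImplicit false
set_option linter.unusedSectionVars false
set_option linter.unusedVariables false

namespace Claimed.Agent.R289

open MeasureTheory Filter Topology Set Metric Claims.C0465
open scoped ENNReal

/-! ## 1. the regions of the free side of one pattern -/

/-- **THE REGIONS OF THE FREE SIDE OF ONE PATTERN**: data, independent of the mesh -/
structure PvusReg where
  /-- the tube: the vertices of the free arcs -/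
  U : Set ℂ
  /-- the region of `N_g` -/
  UN : Set ℂ
  /-- all the sites whose colour the `X` side reads -/
  T : Set ℂ
  /-- ONE window: all the marked points which the `X` side reads -/
  Ew : Set ℂ
  /-- the closed rims live in `B`, their diameter is `≥ a0` -/
  B : Set ℂ
  a0 : ℝ
  /-- the ring part of the white lane: a walk of cells of side `δ` -/
  δ : ℝ
  L : List (ℤ × ℤ)
  /-- the boundary layer of the tube, the reading zone of the arcs (212) -/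
  Lam : Set ℂ
  Kr : Set ℂ
  /-- the mesh of the tube (S2 of 236): pattern scale, free of `ε` -/
  rho : ℝ

/-- the record of 59;   `q3` = the quenched level of the ring lane (QBX) -/
noncomputable def PvusReg.reg (G : PvusReg) (q3 : ℝ) : PvnjReg where
  U := G.U
  UN := G.UN
  S3 := pvlnW G.δ G.L
  K3 := pvlnLaneEv G.δ false G.L
  q3 := q3
  T := G.T
  Ew := G.Ew
  B := G.B
  a0 := G.a0
  rho := G.rho

section gen

variable {τ : Type} {c : ℝ} {𝔓 : PvrxPar τ c} {x : ℂ} {R : ℝ}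

/-- the data of the white lane (record of 147, `Tr/ForceWI.lean`) -/
noncomputable def PvusReg.qw (G : PvusReg) (𝔓 : PvrxPar τ c) (m : ℕ) (π : PvtsPat τ) : PvqwDat where
  N := 𝔓.mod.N
  h := pvlmH m
  ts := 𝔓.ty m π.zs π.ts
  zs := π.zs
  tt := 𝔓.ty m π.zt π.tt
  zt := π.zt
  δ := G.δ
  L := G.L

theorem pvus_eqns_cite : True := by
  have := @PvusReg.reg.eq_1; have := @PvusReg.qw.eq_1
  trivial

/-- **THE CONTRACT OF THE REGIONS** for the pattern `π` of level `m`, sectors `D`.      Nothing here sees the chain events, the fields, the numbers of forcing.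
* `az`    `PvzzPar.WfA` of 212 (windows, star zones, cut-off discs, layer)
* `rg`    `PvnjPar.Rg` of 59 (inclusions in `T`, `Ew`; the three pieces of the lane off the tube and off the two states; **the window misses the corridor**), for small `ε`, whatever `W q`
* `hook`  the ring lane hooks into the ends of `Mp(s)`, `Mm(t)` (147 `PvqwDat.Hook`; 272 `pvfp_zone_of_cells`, GLUE-W of 205)
* `run`   RUN = the FIT-time clause: the run of a fitting rim between the two pins lies in the tube, off its layer -/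
structure PvusReg.Ok (G : PvusReg) (𝔇 : PvrxPat 𝔓 x R) (D : PvypDat τ) (m : ℕ) (π : 𝔇.Pat m) : Prop where
  δ0 : 0 < G.δ
  Lch : G.L.IsChain PvlnAdj
  hook : (G.qw 𝔓 m (𝔇.pat m π)).Hook
  az : ∀ q3, (pvnjAz 𝔓 m (𝔇.pat m π) (G.reg q3) G.Lam G.Kr).WfA x R
  UU : G.U ⊆ G.UN
  rg : ∀ q3, 0 ≤ q3 → ∀ᶠ ε in 𝓝[>] (0 : ℝ), ∀ (W : PvtW) (q : ℕ → ℝ≥0∞), (pvnjAt 𝔓 D W q m ε (𝔇.pat m π) (G.reg q3) G.Lam G.Kr).Rg
  run : ∀ ε ω P s t, 𝔇.Fit m ε ω P s t π → ∀ k, s.idx ≤ k → k ≤ t.idx → P.v k ∈ G.U ∧ P.v k ∉ G.Lam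

/-! ## 2. generic glue -/

/-- **REGIONS + CHAIN + CLOSE ⟹ THE CONTRACT OF 59** for a BLACK pattern -/
noncomputable def pvusPat {𝔄 : PvrxAna 𝔓} {𝔇 : PvrxPat 𝔓 x R} {m : ℕ} {π : 𝔇.Pat m} {D : PvypDat τ} {G : PvusReg} (hG : G.Ok 𝔇 D m π) {q3 : ℝ} (hq3 : 0 < q3)
    (hcs : (𝔓.ty m (𝔇.pat m π).zs (𝔇.pat m π).ts).col = true) (q : ℝ → ℕ → ℝ≥0∞) (D0 : ℝ)
    (ko : ∀ᶠ ε in 𝓝[>] (0 : ℝ), ∀ ζ, 𝔄.kout0 m ε (𝔇.pat m π).zt (𝔇.pat m π).tt ζ = D.kout0 𝔓.Γ m ε 0 (𝔇.pat m π).zt (𝔇.pat m π).tt ζ)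
    (ki : ∀ᶠ ε in 𝓝[>] (0 : ℝ), ∀ ζ, 𝔄.kin0 m ε (𝔇.pat m π).zs (𝔇.pat m π).ts ζ = D.kin0 𝔓.Γ m ε 0 (𝔇.pat m π).zs (𝔇.pat m π).ts ζ)
    (Gs : ∀ᶠ ε in 𝓝[>] (0 : ℝ), 𝔓.G m ε (𝔇.pat m π).zs (𝔇.pat m π).ts ⊆ D.G m ε (𝔇.pat m π).zs (𝔇.pat m π).ts)
    (Gt : ∀ᶠ ε in 𝓝[>] (0 : ℝ), 𝔓.G m ε (𝔇.pat m π).zt (𝔇.pat m π).tt ⊆ D.G m ε (𝔇.pat m π).zt (𝔇.pat m π).tt)
    (ch : ∀ᶠ ε in 𝓝[>] (0 : ℝ), (pvnjAt 𝔓 D (𝔄.W m ε) (q ε) m ε (𝔇.pat m π) (G.reg q3) G.Lam G.Kr).Ch)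
    (cl : ∀ᶠ ε in 𝓝[>] (0 : ℝ), ∀ᵐ η ∂pvP ε, (pvnjAt 𝔓 D (𝔄.W m ε) (q ε) m ε (𝔇.pat m π) (G.reg q3) G.Lam G.Kr).Cl η)
    (hV : ∀ ε ω P s t, 𝔇.Fit m ε ω P s t π → PvrvFit 𝔓 x R m P s t) (hβ : 0 < 𝔓.mod.N.β)
    (hD : ∀ᶠ ε in 𝓝[>] (0 : ℝ), pvnyDc D 𝔓.Γ m ε (𝔇.pat m π) (q ε) ≤ ENNReal.ofReal D0) : PvnjPat 𝔄 𝔇 m π where
  D := D
  q := q
  𝔯 := G.reg q3
  Lam := G.Lam
  Kr := G.Kr
  ko := ko
  ki := ki
  Gs := Gs
  Gt := Gt
  az := hG.az q3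
  UU := hG.UU
  ch := ch
  rg := (hG.rg q3 hq3.le).mono fun ε h => h _ _
  ln := (hG.rg q3 hq3.le).mono fun ε h => pvnj_Ln (δ := G.δ) (L := G.L) (h _ _) rfl (by
    show pvlnLaneEv G.δ false G.L = pvlnLaneEv G.δ (!(𝔓.ty m (𝔇.pat m π).zs (𝔇.pat m π).ts).col) G.L
    rw [hcs]
    rfl)
  cl := cl
  fit := fun ε ω P s t h => { toPvrvFit := hV ε ω P s t h, run := hG.run ε ω P s t h }
  q3 := hq3
  β := hβ
  D0 := D0
  hD := hD

/-- **THE EXCEPTIONAL SAMPLES OF A BLACK PATTERN ARE RARE**, at the level `q3 = q^(15 |L|) / 2` of QBX -/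
theorem pvus_exc {𝔇 : PvrxPat 𝔓 x R} {m : ℕ} {π : 𝔇.Pat m} {D : PvypDat τ} {G : PvusReg} (hG : G.Ok 𝔇 D m π) {qx : ℝ} (hq0 : 0 < qx) (hq1 : qx ≤ 1) (hQ : PvlqQbx qx)
    (hcs : (𝔓.ty m (𝔇.pat m π).zs (𝔇.pat m π).ts).col = true) (W : ℝ → PvtW) (q : ℝ → ℕ → ℝ≥0∞) :
    Tendsto (fun ε => (pvhbUp ε).P {o | pvMerge o ∈ (pvnjAt 𝔓 D (W ε) (q ε) m ε (𝔇.pat m π) (G.reg (qx ^ (15 * G.L.length) / 2)) G.Lam G.Kr).Exc}) (𝓝[>] (0 : ℝ)) (𝓝 0) := by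
  have hA := hG.az (qx ^ (15 * G.L.length) / 2)
  refine pvnj_exc_lim (fun ε => pvnjAt 𝔓 D (W ε) (q ε) m ε (𝔇.pat m π) (G.reg (qx ^ (15 * G.L.length) / 2)) G.Lam G.Kr) (ρ := G.rho) (δ := G.δ) (q := qx) (Ew := G.Ew)
    (b := false) (L := G.L) (n := G.L.length) hA.rho0 (isBounded_closedBall.subset hA.win) hG.δ0 hq0 hq1 hQ hG.hook.ne hG.Lch le_rfl (fun _ => rfl) (fun _ => rfl) fun ε => ?_
  show {ξ | qx ^ (15 * G.L.length) / 2 ≤ pvpQ (pvlnW G.δ G.L) (!(𝔓.ty m (𝔇.pat m π).zs (𝔇.pat m π).ts).col) (pvlnLaneEv G.δ false G.L) ξ} = _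
  rw [hcs]
  rfl

/-- **THE PATTERN IS LIVE**: some doubly prepared, doubly usable configuration of some fitting arc of some sample exists -/
def PvusLive (𝔇 : PvrxPat 𝔓 x R) (m : ℕ) (π : 𝔇.Pat m) : Prop := ∃ (ε : ℝ) (ω : PVSample) (P : PvbRim) (s t : PvbPin τ) (ζ : Conf PvPt), PvraPrep 𝔇 m π ε ω P s t ζ

/-- the pattern is black: both candidates have the colour `true` -/
def PvusBlk (𝔇 : PvrxPat 𝔓 x R) (m : ℕ) (π : 𝔇.Pat m) : Prop :=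
  (𝔓.ty m (𝔇.pat m π).zs (𝔇.pat m π).ts).col = true ∧ (𝔓.ty m (𝔇.pat m π).zt (𝔇.pat m π).tt).col = true

/-- a live pattern lives from the first level on -/
theorem PvusLive.m0 {𝔇 : PvrxPat 𝔓 x R} {m : ℕ} {π : 𝔇.Pat m} (h : PvusLive 𝔇 m π) : 𝔓.m0 ≤ m := by
  obtain ⟨ε, ω, P, s, t, ζ, hp⟩ := h
  exact hp.hs.1.1

/-- the reading balls of the two candidates of a live pattern lie in the patch -/
theorem PvusLive.loc {𝔇 : PvrxPat 𝔓 x R} {m : ℕ} {π : 𝔇.Pat m} (h : PvusLive 𝔇 m π) :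
    ‖(𝔇.pat m π).zs - x‖ + 𝔓.Lr * pvlmH m ≤ 3 * R ∧ ‖(𝔇.pat m π).zt - x‖ + 𝔓.Lr * pvlmH m ≤ 3 * R := by
  obtain ⟨ε, ω, P, s, t, ζ, hp⟩ := h
  rw [← (𝔇.fit_s m ε ω P s t π hp.fit).1, ← (𝔇.fit_t m ε ω P s t π hp.fit).1]
  exact ⟨hp.hs.2.1, hp.ht.2.1⟩

/-- **a live pattern is black** as soon as the white types have no usable state (ruling P10 of 273) -/
theorem pvus_blk_of_live (hblk : ∀ m ε z t, (𝔓.ty m z t).col = false → 𝔓.G m ε z t = ∅) {𝔇 : PvrxPat 𝔓 x R} {m : ℕ} {π : 𝔇.Pat m} (h : PvusLive 𝔇 m π) : PvusBlk 𝔇 m π := by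
  obtain ⟨ε, ω, P, s, t, ζ, hp⟩ := h
  constructor
  · by_contra hc
    rw [Bool.not_eq_true] at hc
    exact absurd hp.gs' (by rw [hblk m ε _ _ hc]; exact notMem_empty ζ)
  · by_contra hc
    rw [Bool.not_eq_true] at hc
    exact absurd hp.gt' (by rw [hblk m ε _ _ hc]; exact notMem_empty ζ)

/-- a pattern which is not live: nothing to prove -/
noncomputable def pvusDead (𝔄 : PvrxAna 𝔓) (𝔇 : PvrxPat 𝔓 x R) (Exc : ∀ m : ℕ, ℝ → 𝔇.Pat m → Set PVSample) {m : ℕ} (π : 𝔇.Pat m) (h : ¬ PvusLive 𝔇 m π) : PvraOne 𝔄 (𝔇.cut Exc) m π where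
  Z := fun _ _ => 0
  stab := Eventually.of_forall fun ε ω P s t ζ hp => absurd ⟨ε, ω, P, s, t, ζ, (pvnj_prep_cut hp).1⟩ h
  n1ν := by
    simp only [PvUp.E_zero]
    exact tendsto_const_nhds

theorem pvus_eqns_cite2 : True := by
  have := @pvusPat.eq_1; have := @PvusLive.eq_1; have := @PvusBlk.eq_1; have := @pvusDead.eq_1
  trivial

/-- **REG + RUN**, as a statement -/
def PvusRegSt (𝔇 : PvrxPat 𝔓 x R) (D : PvypDat τ) : Prop := ∀ m (π : 𝔇.Pat m), PvusLive 𝔇 m π → PvusBlk 𝔇 m π → ∃ G : PvusReg, G.Ok 𝔇 D m π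

/-- **CHAIN**, as a statement;   `W m ε` = the cell means -/
def PvusChainSt (𝔇 : PvrxPat 𝔓 x R) (D : PvypDat τ) (W : ℕ → ℝ → PvtW) : Prop := ∀ m (π : 𝔇.Pat m), PvusLive 𝔇 m π → PvusBlk 𝔇 m π → ∃ (q : ℝ → ℕ → ℝ≥0∞) (D0 : ℝ),
  (∀ᶠ ε in 𝓝[>] (0 : ℝ), ∀ (𝔯 : PvnjReg) (Lam Kr : Set ℂ), (pvnjAt 𝔓 D (W m ε) (q ε) m ε (𝔇.pat m π) 𝔯 Lam Kr).Ch) ∧
  ∀ᶠ ε in 𝓝[>] (0 : ℝ), pvnyDc D 𝔓.Γ m ε (𝔇.pat m π) (q ε) ≤ ENNReal.ofReal D0

/-- **CLOSE**, as a statement: for ANY regions with the contract, any level `q3 > 0` of the ring lane, any forcing constants for which the chain is in order: the CYC form `PvnjPar.Cl` of 59 (ruling 59 13:25Z: `pvcu_cl` of 260, no mask for the free arc) -/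
def PvusCloseSt (𝔇 : PvrxPat 𝔓 x R) (D : PvypDat τ) (W : ℕ → ℝ → PvtW) : Prop := ∀ m (π : 𝔇.Pat m), PvusLive 𝔇 m π → PvusBlk 𝔇 m π → ∀ G : PvusReg, G.Ok 𝔇 D m π → ∀ q3 : ℝ, 0 < q3 →
  ∀ q : ℝ → ℕ → ℝ≥0∞, (∀ᶠ ε in 𝓝[>] (0 : ℝ), (pvnjAt 𝔓 D (W m ε) (q ε) m ε (𝔇.pat m π) (G.reg q3) G.Lam G.Kr).Ch) →
    ∀ᶠ ε in 𝓝[>] (0 : ℝ), ∀ᵐ η ∂pvP ε, (pvnjAt 𝔓 D (W m ε) (q ε) m ε (𝔇.pat m π) (G.reg q3) G.Lam G.Kr).Cl η

theorem pvus_eqns_cite3 : True := by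
  have := @PvusRegSt.eq_1; have := @PvusChainSt.eq_1; have := @PvusCloseSt.eq_1
  trivial

/-- **ONE BLACK PATTERN**: data and contract of 59, exceptional samples -/
theorem pvus_one (hβ : 0 < 𝔓.mod.N.β) {𝔄 : PvrxAna 𝔓} {𝔇 : PvrxPat 𝔓 x R} {D : PvypDat τ} {qx : ℝ} (hq0 : 0 < qx) (hq1 : qx ≤ 1) (hQ : PvlqQbx qx)
    (hfV : ∀ m ε ω P s t π, 𝔇.Fit m ε ω P s t π → PvrvFit 𝔓 x R m P s t)
    (ko : ∀ m z t, (𝔓.ty m z t).col = true → ∀ ε ζ, 𝔄.kout0 m ε z t ζ = D.kout0 𝔓.Γ m ε 0 z t ζ)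
    (ki : ∀ m z t, (𝔓.ty m z t).col = true → ∀ ε ζ, 𝔄.kin0 m ε z t ζ = D.kin0 𝔓.Γ m ε 0 z t ζ)
    (hGs : ∀ m ε z t, 𝔓.G m ε z t ⊆ D.G m ε z t)
    (reg : PvusRegSt 𝔇 D) (chain : PvusChainSt 𝔇 D 𝔄.W) (close : PvusCloseSt 𝔇 D 𝔄.W) {m : ℕ} (π : 𝔇.Pat m) (hl : PvusLive 𝔇 m π) (hb : PvusBlk 𝔇 m π) :
    ∃ 𝔛 : PvnjPat 𝔄 𝔇 m π, Tendsto (fun ε => (pvhbUp ε).P {o | pvMerge o ∈ (𝔛.par ε).Exc}) (𝓝[>] (0 : ℝ)) (𝓝 0) := by
  obtain ⟨G, hG⟩ := reg m π hl hb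
  obtain ⟨q, D0, hch, hD⟩ := chain m π hl hb
  have hq3 : 0 < qx ^ (15 * G.L.length) / 2 := by positivity
  have hch' := hch.mono fun ε h => h (G.reg (qx ^ (15 * G.L.length) / 2)) G.Lam G.Kr
  have hcl := close m π hl hb G hG _ hq3 q hch'
  exact ⟨pvusPat hG hq3 hb.1 q D0 (Eventually.of_forall fun ε => ko m _ _ hb.2 ε) (Eventually.of_forall fun ε => ki m _ _ hb.1 ε)
    (Eventually.of_forall fun ε => hGs m ε _ _) (Eventually.of_forall fun ε => hGs m ε _ _) hch' hcl (fun ε ω P s t h => hfV m ε ω P s t π h) hβ hD,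
    pvus_exc hG hq0 hq1 hQ hb.1 (fun ε => 𝔄.W m ε) q⟩

/-- **THE ROOF ARC, GENERIC FORM**: from the three statements and "no usable state at a white type" -/
theorem pvus_arc_gen (hW : 𝔓.Wf) (hV : 𝔓.WfV) (hβ : 0 < 𝔓.mod.N.β) (𝔄 : PvrxAna 𝔓) (𝔇 : PvrxPat 𝔓 x R) (D : PvypDat τ)
    (hblk : ∀ m ε z t, (𝔓.ty m z t).col = false → 𝔓.G m ε z t = ∅)
    (hfV : ∀ m ε ω P s t π, 𝔇.Fit m ε ω P s t π → PvrvFit 𝔓 x R m P s t)
    (ko : ∀ m z t, (𝔓.ty m z t).col = true → ∀ ε ζ, 𝔄.kout0 m ε z t ζ = D.kout0 𝔓.Γ m ε 0 z t ζ)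
    (ki : ∀ m z t, (𝔓.ty m z t).col = true → ∀ ε ζ, 𝔄.kin0 m ε z t ζ = D.kin0 𝔓.Γ m ε 0 z t ζ)
    (hGs : ∀ m ε z t, 𝔓.G m ε z t ⊆ D.G m ε z t)
    (reg : PvusRegSt 𝔇 D) (chain : PvusChainSt 𝔇 D 𝔄.W) (close : PvusCloseSt 𝔇 D 𝔄.W) :
    ∃ Exc : ∀ m : ℕ, ℝ → 𝔇.Pat m → Set PVSample,
      (∀ m (π : 𝔇.Pat m), Tendsto (fun ε => (pvhbUp ε).P {q | pvMerge q ∈ Exc m ε π}) (𝓝[>] (0 : ℝ)) (𝓝 0)) ∧
      ∀ m, 𝔓.m0 ≤ m → ∀ π : (𝔇.cut Exc).Pat m, Nonempty (PvraOne 𝔄 (𝔇.cut Exc) m π) := by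
  classical
  obtain ⟨qx, hq0, hq1, hQ⟩ := pvlq_main exit_pv_qbx_lay exit_pv_qbx_rev
  have key : ∀ m (π : 𝔇.Pat m), PvusLive 𝔇 m π → ∃ 𝔛 : PvnjPat 𝔄 𝔇 m π, Tendsto (fun ε => (pvhbUp ε).P {o | pvMerge o ∈ (𝔛.par ε).Exc}) (𝓝[>] (0 : ℝ)) (𝓝 0) :=
    fun m π h => pvus_one hβ hq0 hq1 hQ hfV ko ki hGs reg chain close π h (pvus_blk_of_live hblk h)
  refine ⟨fun m ε π => if h : PvusLive 𝔇 m π then ((key m π h).choose.par ε).Exc else ∅, fun m π => ?_, fun m _ π => ?_⟩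
  · by_cases h : PvusLive 𝔇 m π
    · simp only [dif_pos h]
      exact (key m π h).choose_spec
    · simp only [dif_neg h, mem_empty_iff_false, ofPred_false, PvUp.P_empty]
      exact tendsto_const_nhds
  · by_cases h : PvusLive 𝔇 m π
    · refine ⟨((key m π h).choose.yp hW hV _ (Eventually.of_forall fun ε => ?_)).one⟩
      simp only [dif_pos h]
      exact Subset.rfl
    · exact ⟨pvusDead 𝔄 𝔇 _ π h⟩

end gen

/-! ## 3. the dictionary at the terms of `Exit/RestP.lean` -/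

section dict

variable {τ : Type} {c : ℝ} {𝔓 : PvrxPar τ c} {𝔶 : PvydGeo τ}

/-- the exit potential of record at a black candidate is the one of the black sectors -/
theorem pvus_ko (A : PvrsAna 𝔓 𝔶) (hL : ∀ m z t, (𝔓.ty m z t).rO 𝔓.mod.N + 1 ≤ 𝔓.Lr) (m : ℕ) (z : ℂ) (t : τ) (h : (𝔓.ty m z t).col = true) (ε : ℝ) (ζ : Conf PvPt) :
    (A.toAna hL).kout0 m ε z t ζ = (pvydDat 𝔓 𝔶 true).kout0 𝔓.Γ m ε 0 z t ζ := by
  show (pvrsD 𝔓 𝔶 m z t).kout0 𝔓.Γ m ε 0 z t ζ = _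
  unfold pvrsD
  rw [h]

/-- the entrance potential of record at a black candidate is the one of the black sectors -/
theorem pvus_ki (A : PvrsAna 𝔓 𝔶) (hL : ∀ m z t, (𝔓.ty m z t).rO 𝔓.mod.N + 1 ≤ 𝔓.Lr) (m : ℕ) (z : ℂ) (t : τ) (h : (𝔓.ty m z t).col = true) (ε : ℝ) (ζ : Conf PvPt) :
    (A.toAna hL).kin0 m ε z t ζ = (pvydDat 𝔓 𝔶 true).kin0 𝔓.Γ m ε 0 z t ζ := by
  show (pvrsD 𝔓 𝔶 m z t).kin0 𝔓.Γ m ε 0 z t ζ = _
  unfold pvrsD
  rw [h]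

/-- the cell means of record from the first level on -/
theorem pvus_W (A : PvrsAna 𝔓 𝔶) (hL : ∀ m z t, (𝔓.ty m z t).rO 𝔓.mod.N + 1 ≤ 𝔓.Lr) {m : ℕ} (hm : 𝔓.m0 ≤ m) (ε : ℝ) : (A.toAna hL).W m ε = pvrsW 𝔶 m ε :=
  pvrs_W0_eq 𝔓 𝔶 hm ε

variable {x : ℂ} {R : ℝ}

/-- CHAIN at the cell means of the kit gives CHAIN at the cell means of record -/
theorem pvus_chain_W (A : PvrsAna 𝔓 𝔶) (hL : ∀ m z t, (𝔓.ty m z t).rO 𝔓.mod.N + 1 ≤ 𝔓.Lr) {𝔇 : PvrxPat 𝔓 x R} {D : PvypDat τ} (h : PvusChainSt 𝔇 D (pvrsW 𝔶)) :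
    PvusChainSt 𝔇 D (A.toAna hL).W := by
  intro m π hl hb
  obtain ⟨q, D0, h1, h2⟩ := h m π hl hb
  refine ⟨q, D0, ?_, h2⟩
  simp only [pvus_W A hL hl.m0]
  exact h1

/-- CLOSE at the cell means of the kit gives CLOSE at the cell means of record -/
theorem pvus_close_W (A : PvrsAna 𝔓 𝔶) (hL : ∀ m z t, (𝔓.ty m z t).rO 𝔓.mod.N + 1 ≤ 𝔓.Lr) {𝔇 : PvrxPat 𝔓 x R} {D : PvypDat τ} (h : PvusCloseSt 𝔇 D (pvrsW 𝔶)) :
    PvusCloseSt 𝔇 D (A.toAna hL).W := by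
  intro m π hl hb G hG q3 hq3 q hch
  simp only [pvus_W A hL hl.m0] at hch ⊢
  exact h m π hl hb G hG q3 hq3 q hch

end dict

/-! ## 4. THE THREE SUB-EXITS, at the terms of record -/

/-- **THE NUMBERS OF THE PATCH AT THE LEVEL `m`** (seam of 205, 13:20Z; 79): all that the fit-time geometry asks of `(R, m)`.      `m0` is chosen BEFORE the patch `(x,R)`; the numbers of 222 hold from a level `m1(R)` on: the patterns of record start at `m1`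
(`pvrsPat H hΓ m1 x R` of `Exit/RestP.lean`), the three sub-exits receive `hl : ∀ m, m1 ≤ m → PvusLvl c 𝔤 R m`.      **IT GROWS IN PLACE: every new clause must be EVENTUAL IN `m` AT FIXED `R > 0`, and is proved in `pvus_lvl_ev`**      [222 205 138 225] -/
structure PvusLvl (c : ℝ) (𝔤 : PvmhNum) (R : ℝ) (m : ℕ) : Prop where
  /-- the numbers of the assembly of 222 (`Tr/PlugMet.lean`: `out loc loc'` ..) -/
  num2 : PvqgNum2 ((pvrsNum 𝔤).dc c m) (𝔤.dl * pvlmH m) ((pvrsNum 𝔤).mu c m) ((pvrsNum 𝔤).rho c m) ((pvrsNum 𝔤).sig m) (pvlmH m) (𝔤.b3 * pvlmH m) (10 * 𝔤.b3 * pvlmH m) R (R / 3) (pvrsPL 𝔤).nB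
  /-- the numbers of the fit-time geometry of 222 (`Exit/GlueP.lean`: pattern mesh, link mesh `dc / 21`, collar 30);   IT GROWS IN HIS FILE -/
  qg : PvqgLvl 𝔤 (pvrsNum 𝔤) c R m

/-- the numbers of the patch hold eventually in the level -/
theorem pvus_lvl_ev {c : ℝ} (c0 : 0 < c) {𝔤 : PvmhNum} (H : PvrzGood 𝔤) {R : ℝ} (hR : 0 < R) : ∀ᶠ m in atTop, PvusLvl c 𝔤 R m := by
  filter_upwards [pvqg_num2_ev H.ok (pvrs_rel H.ok) c0 hR (pvrsPL 𝔤).nB, pvqg_lvl_ev H.ok (pvrs_rel H.ok) c0 hR] with m h1 h2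
  exact ⟨h1, h2⟩

/-- ONE NUMBER (183: `hLr` of `pvyt_d_pat`): the bodies of the menu lie well inside the reading ball -/
theorem pvus_hLr {𝔤 : PvmhNum} (H : 𝔤.OK) : 2 * (((pvrsPL 𝔤).nB : ℝ) + 2) * (pvrsNum 𝔤).dl ≤ (pvrsNum 𝔤).Lr := by
  obtain ⟨h0, h1, h2, h3, h4, h5⟩ := pvmh_basic H
  have e3 : 𝔤.b3 = 𝔤.b 2 + 1 := rfl
  show 2 * (((⌈(6 * 𝔤.b3 + 2 * 𝔤.dl) / 𝔤.dl⌉₊ + 8 : ℕ) : ℝ) + 2) * 𝔤.dl ≤ 20 * 𝔤.b3 + 3
  have hc : ((⌈(6 * 𝔤.b3 + 2 * 𝔤.dl) / 𝔤.dl⌉₊ : ℕ) : ℝ) < (6 * 𝔤.b3 + 2 * 𝔤.dl) / 𝔤.dl + 1 := Nat.ceil_lt_add_one (div_nonneg (by rw [e3]; linarith) h0.le)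
  have hc' : ((⌈(6 * 𝔤.b3 + 2 * 𝔤.dl) / 𝔤.dl⌉₊ : ℕ) : ℝ) * 𝔤.dl ≤ 6 * 𝔤.b3 + 3 * 𝔤.dl := by
    have := mul_le_mul_of_nonneg_right hc.le h0.le
    rw [add_mul, div_mul_cancel₀ _ h0.ne'] at this
    linarith
  push_cast
  nlinarith

section exits

variable {𝔤 : PvmhNum} {c : ℝ} (c0 : 0 < c) (H : PvrzGood 𝔤) (hβ : 0 < 𝔤.β) {Γ : ℕ → PvtsGeo (PvmhT 𝔤)} {m0 : ℕ} {𝔶 : PvydGeo (PvmhT 𝔤)} (hG : PvrsGeoOk c H Γ m0 𝔶)

/-- a pattern of record lives from the first level of the patch on -/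
theorem pvus_pat_m1 {m1 : ℕ} {x : ℂ} {R : ℝ} {m : ℕ} (π : (pvrsPat H hG.doors m1 x R).Pat m) : m0 ≤ m ∧ m1 ≤ m := π.2

/-- **the two candidates of a live pattern of record lie on the grid `h ℤ²`** (caution of 183: `cand` of `PvrsGeoOk` is owed at the grid centres only) -/
theorem pvus_live_grid {m1 : ℕ} {x : ℂ} {R : ℝ} {m : ℕ} {π : (pvrsPat H hG.doors m1 x R).Pat m} (h : PvusLive (pvrsPat H hG.doors m1 x R) m π) :
    (∃ p : ℤ × ℤ, ((pvrsPat H hG.doors m1 x R).pat m π).zs = l9Pt (pvlmH m) p) ∧ ∃ p : ℤ × ℤ, ((pvrsPat H hG.doors m1 x R).pat m π).zt = l9Pt (pvlmH m) p := by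
  obtain ⟨ε, ω, P, s, t, ζ, hp⟩ := h
  rw [← ((pvrsPat H hG.doors m1 x R).fit_s m ε ω P s t π hp.fit).1, ← ((pvrsPat H hG.doors m1 x R).fit_t m ε ω P s t π hp.fit).1]
  exact ⟨hp.hs.2.2.1, hp.ht.2.2.1⟩

/-- **SUB-EXIT REG + RUN, AS A STATEMENT** (sorried in `Exit/TopP.lean` as `exit_pvus_reg` until the pens land: THEIR FILES IMPORT THIS ONE): for every live black pattern of the patch the regions of the free side exist, with the contract `PvusReg.Ok`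
      [212 `Tr/N1RegQ.lean` (generic construction + glue);   236 `Exit/RegRP.lean` (RUN: `pvrcn_run`);   222 `Exit/RingRP.lean` (ring lane: `pvqg_ring_exists`), `Exit/GlueP.lean`;   147 (hook);   205] -/
def PvusRegR : Prop := ∀ (x : ℂ) (R : ℝ), 0 < R → ∀ m1 : ℕ, (∀ m, m1 ≤ m → PvusLvl c 𝔤 R m) → PvusRegSt (pvrsPat H hG.doors m1 x R) (pvydDat (pvrzPar c 𝔤 H Γ m0) 𝔶 true)

/-- **SUB-EXIT CLOSE, AS A STATEMENT** (sorried in `Exit/TopP.lean` as `exit_pvus_close`;   TR13 + TR12 + TR14, CYC form of 59 260): for small `ε`, a.e.: when the chain succeeds at most one datum is present, and a present datum closes the chain to a rim of `Q`-mass `X_g + Y_c`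
      [pen 260 `Tr/CloseNQ.lean`, `Tr/CloseNA.lean`;   59 `Tr/N1SysC.lean` (`pvnj_Cl`);   193 (chain side at `pvydDat`), 95 113 203;   147 (white lane);   212] -/
def PvusCloseR : Prop := ∀ (x : ℂ) (R : ℝ), 0 < R → ∀ m1 : ℕ, (∀ m, m1 ≤ m → PvusLvl c 𝔤 R m) → PvusCloseSt (pvrsPat H hG.doors m1 x R) (pvydDat (pvrzPar c 𝔤 H Γ m0) 𝔶 true) (pvrsW 𝔶)

theorem pvus_eqns_cite4 : True := by
  have := @PvusRegR.eq_1; have := @PvusCloseR.eq_1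
  trivial

include c0 hβ hG

/-- **CHAIN (PROVED, 286 13:45Z)**: the closing chain `t -o-> cells of π.l -i-> s` of every live black pattern is in order for small `ε` (`PvypPat` at the black sectors, the regions of the two states are those of 185, the corridor is colour blind and Borel),
and the weight `D_c` is bounded uniformly in `ε`      [183 `Exit/PatD.lean` `pvyt_d_pat_lv pvyt_sq_fam`, `Exit/PatN.lean` `pvyt_ch_of_pat pvyt_n_Dc`;   58 `Exit/DatP.lean`;   fields `num kit cand doors l1 pl` of `PvrsGeoOk`;   `pvus_live_grid`, `pvus_hLr`] -/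
theorem exit_pvus_chain (x : ℂ) (R : ℝ) (hR : 0 < R) (m1 : ℕ) (hl : ∀ m, m1 ≤ m → PvusLvl c 𝔤 R m) : PvusChainSt (pvrsPat H hG.doors m1 x R) (pvydDat (pvrzPar c 𝔤 H Γ m0) 𝔶 true) (pvrsW 𝔶) := by
  intro m π hv hb
  have hm : m0 ≤ m := hv.m0
  obtain ⟨β', qk, hβ', hqk, hK⟩ := hG.kit m hm
  obtain ⟨⟨ps, hps⟩, ⟨pt, hpt⟩⟩ := pvus_live_grid H hG hv
  obtain ⟨r, hr, hP⟩ := hG.pl m hm
  obtain ⟨δ, F, hF⟩ := hG.num
  have hd := hG.doors m hm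
  have et : (pvrcPatOf m π.1).zt = l9Pt (pvlmH m) pt := hpt
  have es : (pvrcPatOf m π.1).zs = l9Pt (pvlmH m) ps := hps
  have Ot : (pvrzPar c 𝔤 H Γ m0).On m (pvrcPatOf m π.1).zt (pvrcPatOf m π.1).tt := ⟨hm, hb.2⟩
  have Os : (pvrzPar c 𝔤 H Γ m0).On m (pvrcPatOf m π.1).zs (pvrcPatOf m π.1).ts := ⟨hm, hb.1⟩
  have Ct : 𝔶.CandOk (pvrzPar c 𝔤 H Γ m0) m (pvrcPatOf m π.1).zt (pvrcPatOf m π.1).tt := by
    rw [et] at Ot ⊢
    exact hG.cand m pt _ Ot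
  have Cs : 𝔶.CandOk (pvrzPar c 𝔤 H Γ m0) m (pvrcPatOf m π.1).zs (pvrcPatOf m π.1).ts := by
    rw [es] at Os ⊢
    exact hG.cand m ps _ Os
  have Lt : PvytL1 (pvrzPar c 𝔤 H Γ m0) 𝔶 m (pvrcPatOf m π.1).zt (pvrcPatOf m π.1).tt := by
    rw [et] at Ot ⊢
    exact hG.l1 m pt _ Ot
  have Ls : PvytL1 (pvrzPar c 𝔤 H Γ m0) 𝔶 m (pvrcPatOf m π.1).zs (pvrcPatOf m π.1).ts := by
    rw [es] at Os ⊢
    exact hG.l1 m ps _ Os
  exact ⟨fun _ => pvytQ 𝔶 qk m (pvrcPatOf m π.1), pvytD0 𝔶 β' qk m (pvrcPatOf m π.1),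
    (pvyt_d_pat_lv (pvrz_wf H Γ m0) hK (pvyt_sq_fam F (hF m hm).2).1 (pvrs_rel H.ok).ok (pvrs_PL_wf H.ok) hd.del hd.pout hd.dout hd.pin hd.din (pvus_hLr H.ok) hr π.1 hb.2 hb.1 Ct Cs Lt Ls
      (hP _ _ ⟨pt, hpt⟩ Ot) (hP _ _ ⟨ps, hps⟩ Os) 0).mono fun _ h 𝔯 Lam Kr => pvyt_ch_of_pat h 𝔯 Lam Kr,
    pvyt_n_Dc hK hβ' hqk true Ct.d4o⟩

/-! ## 5. the roof -/

/-- **THE ROOF ARC** = `PvrsArcSt H hG` (79, `Exit/RestP.lean`);   `m1` := a level from which the numbers of the patch hold;   "no usable state at a white type" = `𝔓.On` (ruling P10 of 273, port of 186) -/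
theorem pvus_arc (reg : PvusRegR H hG) (close : PvusCloseR H hG) : PvrsArcSt H hG := by
  intro A x R hR
  obtain ⟨m1, hl⟩ := eventually_atTop.1 (pvus_lvl_ev c0 H hR)
  exact ⟨m1, pvus_arc_gen (pvrz_wf H Γ m0) (pvrz_wfV H Γ m0) hβ (A.toAna (pvrs_rO H Γ m0)) (pvrsPat H hG.doors m1 x R) (pvydDat (pvrzPar c 𝔤 H Γ m0) 𝔶 true)
    (fun m ε z t hc => pvrs_G_small (fun h => by rw [h.2] at hc; exact Bool.noConfusion hc) ε)
    (fun m ε ω P s t π h => h.2.1) (pvus_ko A _) (pvus_ki A _) (pvrs_G_sub _ 𝔶 true)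
    (reg x R hR m1 hl) (pvus_chain_W A _ (exit_pvus_chain c0 H hβ hG x R hR m1 hl)) (pvus_close_W A _ (close x R hR m1 hl))⟩

end exits

end Claimed.Agent.R289
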