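-- KEEP
import Claimed.Agent.R289.Tr.ForceD
import Claimed.Agent.R289.Tr.ForceS
import Claimed.Agent.R289.Tr.ConnQ

/-!
# Row 289 (S0537), THE WALL, ROAD P, file Exit/BigD : **THE BIG END OF (DET)** = THE GATE `S₂` OF THE STATE ON THE PLANE MAP OF 95 / 272 / 113      (helper277; post of 272 13:25Z, 243 13:20Z; prefix `pvbj_`, `Pvbj`, `pvbj`)      0 sorry

CONSUMERS: `pvnl_cn`, `pvnl_lk` of 272 (`Tr/ForceD`: hypotheses `is D D' hfin hthru zone hm hp` at an end `pvfvEndP` / `pvfvEndM` of 68), `PvcmPl` of 95 (`Tr/CloseM`), `PvkjFt` of 113.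
* `PvbjIs N t z h η g` : `g` IS THE GATE `S₂` OF THE BIG PLUG AT `η` (plane map `pvkiT η`, colouring `pvcmS η t.col`): `is` (= `(pvkjBig (t.reg N z h)).Is`), `fin thru zone` (zone = the ball `S₂`), rooms `vp ∈ N⁺`, `vm ∈ N⁻`,
  `bary` (barycentres of the faces of the inner strand in the ball `S₂`), `st` (EVERY state of `pvfvSt` has this gate).
* **`pvbj_big`** : `t.Wf`, `CfOK η`, `η ∈ pvspEvt .has` ⟹ `∃ g, PvbjIs ..`;   `pvbj_big_G` (from `η ∈ pvspG`), **`pvbj_uniq`**.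
* `pvbjFp`, `pvbjFm` = THE FEET (positions of `tgt aOut`, `tgt aIn` of the states): what `S₂` of the two ends is after the FOOT patch (P13 of 273);   `pvbj_Fp`, `pvbj_Fm`.
* **`pvbj_dic_p`**, **`pvbj_dic_m`** : `PvnlDic (pvfvEndP ..) η t.col g true`, `PvnlDic (pvfvEndM ..) η t.col g false`;   the ONLY hypothesis `hS` = "the starting sites `S₂` of the end are feet" (`fun _ h => h` after the patch of `Tr/ForceS`).
* **`pvbj_pl`** : `PvcmPl η t.col Q Mm Mp g` as soon as the ball `S₂` lies in `Q` and in `Mm ∪ Mp`;   `pvbj_vm_off`, `pvbj_vp_off`.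
-/

set_option autoImplicit false
set_option linter.unusedSectionVars false
set_option linter.unusedVariables false

namespace Claimed.Agent.R289

open Set Metric MeasureTheory Claims.C0465

section big

variable {N : PvspNum} {t : PvspTy} {z : ℂ} {h : ℝ}

/-- **`g` IS THE GATE `S₂` OF THE BIG PLUG AT `η`**, on the plane map of 95 / 272 -/
structure PvbjIs (N : PvspNum) (t : PvspTy) (z : ℂ) (h : ℝ) (η : Conf PvPt) (g : (pvkiT η).Gate (pvcmS η t.col)) : Prop where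
  is : (pvkjBig (t.reg N z h)).Is _ _ (pvkiT η) Subtype.val (pvcmS η t.col) g
  fin : g.c.Left.Finite
  thru : g.Thru
  zone : ∀ v ∈ (pvkiT η).VOf g.c.Left, (v : ℂ) ∈ closedBall z ((t.b N 1 + 1) * h)
  vp : ((g.vp : ↥(cfSites η)) : ℂ) ∈ t.Np
  vm : ((g.vm : ↥(cfSites η)) : ℂ) ∈ t.Nm
  bary : ∀ d ∈ pvasFc (pvkiT η) (pvcmS η t.col) g.aIn g.len, (pvkiT η).bary Subtype.val d ∈ closedBall z ((t.b N 1 + 1) * h)
  st : ∀ 𝔖 ∈ pvfvSt N t z h η, 𝔖.g2 = g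

/-- the barycentre of three points of a ball -/
theorem pvbj_bary_ball {z a b c : ℂ} {r : ℝ} (ha : a ∈ closedBall z r) (hb : b ∈ closedBall z r) (hc : c ∈ closedBall z r) : (a + b + c) / 3 ∈ closedBall z r := by
  rw [mem_closedBall, dist_eq_norm] at *
  have e : (a + b + c) / 3 - z = ((a - z) + (b - z) + (c - z)) / 3 := by ring
  have h3 : ‖(3 : ℂ)‖ = 3 := by norm_num
  rw [e, norm_div, h3, div_le_iff₀ (by norm_num)]
  calc ‖(a - z) + (b - z) + (c - z)‖ ≤ ‖a - z‖ + ‖b - z‖ + ‖c - z‖ := norm_add₃_le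
    _ ≤ r * 3 := by linarith

/-- **THE BIG END EXISTS** at every nice configuration which carries a state -/
theorem pvbj_big (hW : t.Wf N z h) {η : Conf PvPt} (hn : CfOK η) (hη : η ∈ pvspEvt N t z h .has) : ∃ g, PvbjIs N t z h η g := by
  obtain ⟨hf, hm, hst, 𝔖, hA, -⟩ := (pvsp_evt_plane hW .has hn.del).1 hη
  have hT : (pvkiT η).IsSph := delb_plane_isSph hn.del
  have hS : (pvkiT η).Simple := (delbPl (cfSites η)).toMap_simple
  refine ⟨𝔖.g2, ⟨hst, 𝔖, hA, rfl⟩, ?_, hA.sel2.thru, ?_, hA.vp, hA.vm, ?_, ?_⟩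
  · exact pvkp_left_fin hf hW.nest (hW.S2_core.trans (pvtr_core_subset (by have := hW.rho0; positivity))) hst hA
  · rintro v ⟨d, hd, rfl⟩
    exact (pvkp_left_zone hW.nest hst hA hd).1
  · intro d hd
    obtain ⟨-, -, -, h4⟩ := pvkj_sel_thru hA.sel2
    obtain ⟨z1, z2, z3⟩ := pvkp_left_zone hW.nest hst hA (pvas_fc_sub (pl_left_face _) h4 hd)
    exact pvbj_bary_ball z1 z2 z3
  · intro 𝔗 hB
    exact ((pvkp_st_unique hT hS (fun v h1 h2 => hW.tubes ⟨h1, h2⟩) hA hB).1).symm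

/-- the same from a usable state -/
theorem pvbj_big_G (hW : t.Wf N z h) {ε : ℝ} {η : Conf PvPt} (hn : CfOK η) (hη : η ∈ pvspG N ε t z h) : ∃ g, PvbjIs N t z h η g :=
  pvbj_big hW hn (pvsp_G_sub_has N ε t z h hη)

/-- **THE gate** -/
theorem pvbj_uniq (hW : t.Wf N z h) {η : Conf PvPt} (hn : CfOK η) {g g' : (pvkiT η).Gate (pvcmS η t.col)} (H : PvbjIs N t z h η g) (H' : PvbjIs N t z h η g') : g = g' :=
  pvkj_big_uq (𝔯 := t.reg N z h) hW.tubes _ _ _ _ _ (delb_plane_isSph hn.del) (delbPl (cfSites η)).toMap_simple g g' H.is H'.is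

/-- the gate of an end of 113 in the big form is THE gate -/
theorem pvbj_of_is (hW : t.Wf N z h) {η : Conf PvPt} (hn : CfOK η) (hη : η ∈ pvspEvt N t z h .has) {g : (pvkiT η).Gate (pvcmS η t.col)}
    (is : (pvkjBig (t.reg N z h)).Is _ _ (pvkiT η) Subtype.val (pvcmS η t.col) g) : PvbjIs N t z h η g := by
  obtain ⟨g', H'⟩ := pvbj_big hW hn hη
  have e : g = g' := pvkj_big_uq (𝔯 := t.reg N z h) hW.tubes _ _ _ _ _ (delb_plane_isSph hn.del) (delbPl (cfSites η)).toMap_simple g g' is H'.is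
  rw [e]
  exact H'

/-- **THE EXIT FOOT**: the position of the white vertex of the exit dart of the gate `S₂` of the states -/
def pvbjFp (N : PvspNum) (t : PvspTy) (z : ℂ) (h : ℝ) (η : Conf PvPt) : Set ℂ :=
  {x | ∃ 𝔖 ∈ pvfvSt N t z h η, x = delbPlane.pos (cfSites η) ((delbPlane.T (cfSites η)).tgt 𝔖.g2.aOut)}

/-- **THE ENTRANCE FOOT** -/
def pvbjFm (N : PvspNum) (t : PvspTy) (z : ℂ) (h : ℝ) (η : Conf PvPt) : Set ℂ :=
  {x | ∃ 𝔖 ∈ pvfvSt N t z h η, x = delbPlane.pos (cfSites η) ((delbPlane.T (cfSites η)).tgt 𝔖.g2.aIn)}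

theorem pvbj_eqns_cite : True := by
  have := @pvbjFp.eq_1; have := @pvbjFm.eq_1
  trivial

variable {η : Conf PvPt} {g : (pvkiT η).Gate (pvcmS η t.col)}

theorem pvbj_Vp (H : PvbjIs N t z h η g) {x : ℂ} (hx : x ∈ pvfvVp N t z h η) : x = ((g.vp : ↥(cfSites η)) : ℂ) := by
  obtain ⟨𝔖, h𝔖, rfl⟩ := hx
  rw [H.st 𝔖 h𝔖]
  rfl

theorem pvbj_Vm (H : PvbjIs N t z h η g) {x : ℂ} (hx : x ∈ pvfvVm N t z h η) : x = ((g.vm : ↥(cfSites η)) : ℂ) := by
  obtain ⟨𝔖, h𝔖, rfl⟩ := hx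
  rw [H.st 𝔖 h𝔖]
  rfl

theorem pvbj_Fp (H : PvbjIs N t z h η g) {x : ℂ} (hx : x ∈ pvbjFp N t z h η) : x = (((pvkiT η).tgt g.aOut : ↥(cfSites η)) : ℂ) := by
  obtain ⟨𝔖, h𝔖, rfl⟩ := hx
  rw [H.st 𝔖 h𝔖]
  rfl

theorem pvbj_Fm (H : PvbjIs N t z h η g) {x : ℂ} (hx : x ∈ pvbjFm N t z h η) : x = (((pvkiT η).tgt g.aIn : ↥(cfSites η)) : ℂ) := by
  obtain ⟨𝔖, h𝔖, rfl⟩ := hx
  rw [H.st 𝔖 h𝔖]
  rfl

/-- **THE DICTIONARY OF THE EXIT END** (272 `PvnlDic`);   `hS` : the starting sites `S₂` of the end are feet (FOOT patch, P13) -/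
theorem pvbj_dic_p (H : PvbjIs N t z h η g) (hS : ∀ x ∈ (pvfvEndP N t z h).S₂ η, x ∈ pvbjFp N t z h η) : PvnlDic (pvfvEndP N t z h) η t.col g true where
  s₁ := fun x hx => pvbj_Vp H hx
  s₂ := fun x hx => pvbj_Fp H (hS x hx)

/-- **THE DICTIONARY OF THE ENTRANCE END** -/
theorem pvbj_dic_m (H : PvbjIs N t z h η g) (hS : ∀ x ∈ (pvfvEndM N t z h).S₂ η, x ∈ pvbjFm N t z h η) : PvnlDic (pvfvEndM N t z h) η t.col g false where
  s₁ := fun x hx => pvbj_Vm H hx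
  s₂ := fun x hx => pvbj_Fm H (hS x hx)

/-- **WHAT THE BIG PLUG OWES TO THE MIXED CLOSE** (95 `PvcmPl`) -/
theorem pvbj_pl (H : PvbjIs N t z h η g) {Q Mm Mp : Set ℂ} (hQ : closedBall z ((t.b N 1 + 1) * h) ⊆ Q) (hM : closedBall z ((t.b N 1 + 1) * h) ⊆ Mm ∪ Mp) : PvcmPl η t.col Q Mm Mp g where
  fin := H.fin
  thru := H.thru
  zone := fun v hv => hQ (H.zone v hv)
  bary := fun d hd => hM (H.bary d hd)

/-- `g⁻` is off every room which misses the entrance tube in the ball `S₂` -/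
theorem pvbj_vm_off (hT : (pvkiT η).IsSph) (H : PvbjIs N t z h η g) {KE : Set ℂ} (hK : Disjoint KE (t.Nm ∩ closedBall z ((t.b N 1 + 1) * h))) : ((g.vm : ↥(cfSites η)) : ℂ) ∉ KE := fun hv =>
  disjoint_left.1 hK hv ⟨H.vm, H.zone _ ⟨_, (pl_jordan hT g.c).2.1 0, rfl⟩⟩

/-- `g⁺` is off every room which misses the exit tube in the ball `S₂` -/
theorem pvbj_vp_off (hT : (pvkiT η).IsSph) (H : PvbjIs N t z h η g) {KE : Set ℂ} (hK : Disjoint KE (t.Np ∩ closedBall z ((t.b N 1 + 1) * h))) : ((g.vp : ↥(cfSites η)) : ℂ) ∉ KE := fun hv =>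
  disjoint_left.1 hK hv ⟨H.vp, H.zone _ ⟨_, (pl_jordan hT g.c).2.1 g.m, rfl⟩⟩

end big

end Claimed.Agent.R289
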