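import Claimed.Agent.R289.Tr.ConnQ
import Claimed.Agent.R289.Tr.CycP
import Claimed.Agent.R289.Exit.DatP
import Claimed.Agent.R289.Tr.EndP

/-!
# Row 289 (S0537, Cardy for Poisson-Voronoi), THE WALL, ROAD P, file Exit/CloseP : [FIN] [TAIL] [BES] AT THE TERM `pvydDat` OF 58      (helper95; ruling P10 of 273; prefix `pvuc_`, `pvuc`, `Pvuc`)

`PvydAll` (58, `Exit/DatP` sec. 10) = all that (P-S3) owes at the term.      THIS FILE: its three analytic fields `fin tail bes` (`PvydFin`, `PvydTail`, `PvydBes`) from THE FACTS of 113 (`PvkjFt`, `Tr/ConnQ`), one per connector, almost surely.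

* sec. 1  a thin chain list (`pvskList` of 58): one a.s. fact per connector  ⟹  a.s. on the event of the list, all the facts.
* sec. 2  `PvucCyc1` (long cycle), `PvucCyc2` (short cycle) = WHAT THE SUPPLIERS OWE, any `D : PvypDat τ`;   **`pvuc_close1 : PvcpClose1 ..`**, **`pvuc_close2 : PvcpClose2 ..`**   (`pvkj_ringM` of 113, `PvcmRing.toRing`).
* sec. 3  at the term:   **`pvuc_fin`**, **`pvuc_tail`**, **`pvuc_bes`**.
-/

set_option autoImplicit false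

namespace Claimed.Agent.R289

open MeasureTheory Filter Topology Set Claims.C0465
open scoped ENNReal

/-! ## 1. the facts along a thin chain list -/

section list

variable {μ : Measure (Conf PvPt)} {a c : PvsySec PvPt} {kit : PvthKit} {z d : ℂ} {l : List PvtTurn} {Kf : Set PvPt} {Af : Set (Conf PvPt)}
variable {Xa Xf Xc : Conf PvPt → ℂ} {X₀ : PvtTurn → Conf PvPt → ℂ}

/-- **one a.s. fact per connector  ⟹  a.s. on the event of the CLOSED list, all the facts** -/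
theorem pvuc_list {F : ℕ → ℂ → Conf PvPt → Prop}
    (f0 : ∀ᵐ η ∂μ, η ∈ a.G → η ∈ kit.G (pvthZ kit.δ z d l 0) (pvthD d l 0) → η ∈ a.A → F 0 (Xa η) η)
    (fk : ∀ i < l.length, ∀ᵐ η ∂μ, η ∈ kit.G (pvthZ kit.δ z d l i) (pvthD d l i) → η ∈ kit.G (pvthZ kit.δ z d l (i + 1)) (pvthD d l (i + 1)) →
      η ∈ kit.A (pvthZ kit.δ z d l i) (pvthD d l i) (pvthL l i) → F (1 + i) (kit.Xj X₀ z d l i η) η)
    (ff : ∀ᵐ η ∂μ, η ∈ kit.G (pvthZ kit.δ z d l l.length) (pvthD d l l.length) → η ∈ c.G → η ∈ Af → F (l.length + 1) (Xf η) η)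
    (fc : ∀ᵐ η ∂μ, η ∈ c.G → η ∈ a.G → η ∈ c.A → F (l.length + 2) (Xc η) η) :
    ∀ᵐ η ∂μ, η ∈ a.G ∩ pvsyEv (l.length + 3) (pvskList a kit z d l Kf Af c) (Finset.Ioo 0 (l.length + 3)) (Finset.range (l.length + 3)) →
      ∀ j < l.length + 3, F j (pvskFld Xa kit X₀ z d l Xf Xc j η) η := by
  have hk : ∀ᵐ η ∂μ, ∀ i, i < l.length → η ∈ kit.G (pvthZ kit.δ z d l i) (pvthD d l i) → η ∈ kit.G (pvthZ kit.δ z d l (i + 1)) (pvthD d l (i + 1)) →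
      η ∈ kit.A (pvthZ kit.δ z d l i) (pvthD d l i) (pvthL l i) → F (1 + i) (kit.Xj X₀ z d l i η) η := by
    rw [ae_all_iff]
    intro i
    by_cases hi : i < l.length
    · filter_upwards [fk i hi] with η h _ using h
    · exact ae_of_all _ fun η h => absurd h hi
  filter_upwards [f0, hk, ff, fc] with η h0 h1 h2 h3 hη
  obtain ⟨hG0, hG, hA⟩ := hη
  have gD : ∀ j, j ≤ l.length → η ∈ kit.G (pvthZ kit.δ z d l j) (pvthD d l j) := fun j hj => by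
    have := hG (1 + j) (Finset.mem_Ioo.2 ⟨by omega, by omega⟩) (by omega)
    rwa [pvsk_list_G hj] at this
  have gC : η ∈ c.G := by
    have := hG (l.length + 2) (Finset.mem_Ioo.2 ⟨by omega, by omega⟩) (by omega)
    rwa [pvsk_list_last] at this
  refine pvsk_cases l.length ?_ (fun j hj => ?_) ?_ ?_
  · rw [pvsk_fld_zero]
    have := hA 0 (Finset.mem_range.2 (by omega)) (by omega)
    rw [pvsk_list_zero] at this
    exact h0 hG0 (gD 0 (Nat.zero_le _)) this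
  · rw [pvsk_fld_cell hj]
    have := hA (1 + j) (Finset.mem_range.2 (by omega)) (by omega)
    rw [pvsk_list_cell hj] at this
    exact h1 j hj (gD j hj.le) (gD (j + 1) hj) this
  · rw [pvsk_fld_door]
    have := hA (l.length + 1) (Finset.mem_range.2 (by omega)) (by omega)
    rw [pvsk_list_door] at this
    exact h2 (gD l.length le_rfl) gC this
  · rw [pvsk_fld_last]
    have := hA (l.length + 2) (Finset.mem_range.2 (by omega)) (by omega)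
    rw [pvsk_list_last] at this
    exact h3 gC hG0 this

end list

/-! ## 2. the two cycles of a candidate: WHAT THE SUPPLIERS OWE, any datum `D` -/

/-- **the fact number `j` of a cycle** (113): the connector `j` runs from THE gate of the end `𝔢 j` to THE gate of the end `𝔢 (j + 1)` in the corridor `KE j`, its tags lie in the mask `Mk j`, the tags of the inner arc of its target in the room `U (j + 1)`,
and `x` is the mass in `Mk j` of the three arcs -/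
def PvucF (b : Bool) (𝔢 : ℕ → PvkjEnd ℂ) (KE Mk U : ℕ → Set ℂ) (j : ℕ) (x : ℂ) (η : Conf PvPt) : Prop :=
  ∃ g g' N, PvkjFt η b (𝔢 j) (𝔢 (j + 1)) (KE j) (Mk j) (U (j + 1)) x g g' N

theorem pvuc_eqns_cite : True := by
  have := @PvucF.eq_1
  trivial

section cyc

variable {τ : Type}

/-- **THE LONG CYCLE** `t -o-> cells of l1 t -r-> u -e-> t` : regions (`PvkjCyc` of 113 + masks) and ONE a.s. fact per connector.
Plug `0` = `t` (exit end; `𝔢 (|l1 t| + 3) = 𝔢 0` by `PvkjGeo.per`: THE gate `S₂`), plug `1 + i` = the door number `i` of the word, plug `|l1 t| + 2` = `u`. -/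
structure PvucCyc1 (D : PvypDat τ) (Γ : ℕ → PvtsGeo τ) (a : ℂ) (m : ℕ) (z : ℂ) (t : τ) (b : Bool) (𝔢 : ℝ → ℕ → PvkjEnd ℂ) (KE Mk U : ℝ → ℕ → Set ℂ) (B : Set ℂ) (a₀ : ℝ) : Prop where
  bB : Bornology.IsBounded B
  a0 : 0 < a₀
  cyc : ∀ᶠ ε in 𝓝[>] (0 : ℝ), PvkjCyc (((Γ m).l1 t).length + 3) (𝔢 ε) (KE ε) (Mk ε) (U ε) B a₀
  pM : ∀ᶠ ε in 𝓝[>] (0 : ℝ), Mk ε (((Γ m).l1 t).length + 3) = Mk ε 0
  mM : ∀ᶠ ε in 𝓝[>] (0 : ℝ), ∀ j < ((Γ m).l1 t).length + 3, MeasurableSet (Mk ε j)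
  bM : ∀ᶠ ε in 𝓝[>] (0 : ℝ), ∀ j < ((Γ m).l1 t).length + 3, Bornology.IsBounded (Mk ε j)
  dM : ∀ᶠ ε in 𝓝[>] (0 : ℝ), ∀ i < ((Γ m).l1 t).length + 3, ∀ j < ((Γ m).l1 t).length + 3, i ≠ j → Disjoint (Mk ε i) (Mk ε j)
  /-- the exit funnel -/
  fo : ∀ᶠ ε in 𝓝[>] (0 : ℝ), ∀ᵐ η ∂(pvP ε), η ∈ D.G m ε z t →
    η ∈ (D.kit m ε).G (pvthZ (D.kit m ε).δ (z + (Γ m).pout t) ((Γ m).dout t) ((Γ m).l1 t) 0) (pvthD ((Γ m).dout t) ((Γ m).l1 t) 0) → η ∈ D.Ao m ε z t →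
    PvucF b (𝔢 ε) (KE ε) (Mk ε) (U ε) 0 (D.Xo m ε a z t η) η
  /-- the cells -/
  fk : ∀ᶠ ε in 𝓝[>] (0 : ℝ), ∀ i < ((Γ m).l1 t).length, ∀ᵐ η ∂(pvP ε),
    η ∈ (D.kit m ε).G (pvthZ (D.kit m ε).δ (z + (Γ m).pout t) ((Γ m).dout t) ((Γ m).l1 t) i) (pvthD ((Γ m).dout t) ((Γ m).l1 t) i) →
    η ∈ (D.kit m ε).G (pvthZ (D.kit m ε).δ (z + (Γ m).pout t) ((Γ m).dout t) ((Γ m).l1 t) (i + 1)) (pvthD ((Γ m).dout t) ((Γ m).l1 t) (i + 1)) →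
    η ∈ (D.kit m ε).A (pvthZ (D.kit m ε).δ (z + (Γ m).pout t) ((Γ m).dout t) ((Γ m).l1 t) i) (pvthD ((Γ m).dout t) ((Γ m).l1 t) i) (pvthL ((Γ m).l1 t) i) →
    PvucF b (𝔢 ε) (KE ε) (Mk ε) (U ε) (1 + i) ((D.kit m ε).Xj (D.X₀ m ε a) (z + (Γ m).pout t) ((Γ m).dout t) ((Γ m).l1 t) i η) η
  /-- the entrance funnel of the reference plug -/
  fr : ∀ᶠ ε in 𝓝[>] (0 : ℝ), ∀ᵐ η ∂(pvP ε),
    η ∈ (D.kit m ε).G (pvthZ (D.kit m ε).δ (z + (Γ m).pout t) ((Γ m).dout t) ((Γ m).l1 t) ((Γ m).l1 t).length) (pvthD ((Γ m).dout t) ((Γ m).l1 t) ((Γ m).l1 t).length) →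
    η ∈ D.Gu m ε z t → η ∈ D.Ar m ε z t → PvucF b (𝔢 ε) (KE ε) (Mk ε) (U ε) (((Γ m).l1 t).length + 1) (D.Xr m ε a z t η) η
  /-- the thick link -/
  fe : ∀ᶠ ε in 𝓝[>] (0 : ℝ), ∀ᵐ η ∂(pvP ε), η ∈ D.Gu m ε z t → η ∈ D.G m ε z t → η ∈ D.Ae m ε z t →
    PvucF b (𝔢 ε) (KE ε) (Mk ε) (U ε) (((Γ m).l1 t).length + 2) (D.Xe m ε a z t η) η

/-- **THE SHORT CYCLE** `t -b-> u -e-> t` : plug `0` = `t`, plug `1` = `u`;   the mask of the thick link has area `≤ cM h²` -/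
structure PvucCyc2 (D : PvypDat τ) (a : ℂ) (m : ℕ) (z : ℂ) (t : τ) (b : Bool) (𝔢 : ℝ → ℕ → PvkjEnd ℂ) (KE Mk U : ℝ → ℕ → Set ℂ) (B : ℝ → Set ℂ) (a₀ : ℝ → ℝ) (cM h : ℝ) : Prop where
  c0 : 0 ≤ cM
  cyc : ∀ᶠ ε in 𝓝[>] (0 : ℝ), PvkjCyc 2 (𝔢 ε) (KE ε) (Mk ε) (U ε) (B ε) (a₀ ε)
  pM : ∀ᶠ ε in 𝓝[>] (0 : ℝ), Mk ε 2 = Mk ε 0
  mM : ∀ᶠ ε in 𝓝[>] (0 : ℝ), MeasurableSet (Mk ε 1)
  bM : ∀ᶠ ε in 𝓝[>] (0 : ℝ), Bornology.IsBounded (Mk ε 1)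
  dM : ∀ᶠ ε in 𝓝[>] (0 : ℝ), Disjoint (Mk ε 0) (Mk ε 1)
  vol : ∀ᶠ ε in 𝓝[>] (0 : ℝ), volume (Mk ε 1) ≤ ENNReal.ofReal (cM * h ^ 2)
  /-- the thick return link -/
  fb : ∀ᶠ ε in 𝓝[>] (0 : ℝ), ∀ᵐ η ∂(pvP ε), η ∈ D.G m ε z t → η ∈ D.Gu m ε z t → η ∈ D.Ab m ε z t → PvucF b (𝔢 ε) (KE ε) (Mk ε) (U ε) 0 (D.Xb m ε a z t η) η
  /-- the thick link -/
  fe : ∀ᶠ ε in 𝓝[>] (0 : ℝ), ∀ᵐ η ∂(pvP ε), η ∈ D.Gu m ε z t → η ∈ D.G m ε z t → η ∈ D.Ae m ε z t → PvucF b (𝔢 ε) (KE ε) (Mk ε) (U ε) 1 (D.Xe m ε a z t η) η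

variable {D : PvypDat τ} {Γ : ℕ → PvtsGeo τ} {a : ℂ} {m : ℕ} {z : ℂ} {t : τ} {b : Bool} {𝔢 : ℝ → ℕ → PvkjEnd ℂ} {KE Mk U : ℝ → ℕ → Set ℂ}

/-- **CLOSE-P, LONG CYCLE** -/
theorem pvuc_close1 {B : Set ℂ} {a₀ : ℝ} (H : PvucCyc1 D Γ a m z t b 𝔢 KE Mk U B a₀) : PvcpClose1 D Γ a m z t Mk B a₀ where
  bB := H.bB
  a0 := H.a0
  mM := H.mM
  bM := H.bM
  dM := H.dM
  ring := by
    filter_upwards [H.cyc, H.pM, H.dM, H.fo, H.fk, H.fr, H.fe, self_mem_nhdsWithin] with ε h1 h2 h3 h4 h5 h6 h7 hε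
    refine (pvkj_ringM (b := b) hε h1 ?_).toRing hε (by omega) h2 h3
    exact pvuc_list (a := D.sOut m ε z t) (c := D.sRef m ε z t) (F := PvucF b (𝔢 ε) (KE ε) (Mk ε) (U ε)) h4 h5 h6 h7

/-- **CLOSE-P, SHORT CYCLE** -/
theorem pvuc_close2 {B : ℝ → Set ℂ} {a₀ : ℝ → ℝ} {cM h : ℝ} (H : PvucCyc2 D a m z t b 𝔢 KE Mk U B a₀ cM h) : PvcpClose2 D a m z t (fun ε => Mk ε 1) cM h where
  c0 := H.c0
  mM := H.mM
  bM := H.bM
  vol := H.vol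
  recg := by
    filter_upwards [H.cyc, H.pM, H.dM, H.fb, H.fe, self_mem_nhdsWithin] with ε h1 h2 h3 h4 h5 hε
    have hd : ∀ i < 2, ∀ j < 2, i ≠ j → Disjoint (Mk ε i) (Mk ε j) := by
      intro i hi j hj hij
      interval_cases i <;> interval_cases j
      · exact absurd rfl hij
      · exact h3
      · exact h3.symm
      · exact absurd rfl hij
    have ring : PvcqRing ε 2 (pvcpEv2 D m ε z t) (D.fld2 m ε a z t) (Mk ε) (B ε) (a₀ ε) := by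
      refine (pvkj_ringM (b := b) hε h1 ?_).toRing hε le_rfl h2 hd
      filter_upwards [h4, h5] with η k4 k5 hη j hj
      obtain ⟨hG, hGs, hAs⟩ := hη
      have gU : η ∈ D.Gu m ε z t := hGs 1 (Finset.mem_Ioo.2 ⟨by omega, by omega⟩) (by omega)
      have aB : η ∈ D.Ab m ε z t := hAs 0 (Finset.mem_range.2 (by omega)) (by omega)
      have aE : η ∈ D.Ae m ε z t := hAs 1 (Finset.mem_range.2 (by omega)) (by omega)
      interval_cases j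
      · exact k4 hG gU aB
      · exact k5 gU hG aE
    exact ring.rec (j := 1) (by norm_num)

end cyc

end Claimed.Agent.R289
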