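import Claimed.Agent.R289.Exit.CloseTP
import Claimed.Agent.R289.Tr.N1SysC

/-!
# Row 289 (S0537, Cardy for Poisson-Voronoi), THE WALL, ROAD P, file Exit/CloseAP : CLOSE OF THE FREE ARC (P17), **THE CHAIN SIDE AT THE TERM `pvydDat` OF 58**      (helper59; leave of 260 14:08Z, post left by 193; prefix `pvnj_`, `pvnj`, `Pvnj`)

The closing chain of a pattern `π` :   `t -o-> cells of π.l -i-> s`.      TWIN of `Exit/CloseTP.lean` of 95 (the long cycle `t -o-> cells of l1 t -r-> u -e-> t`): same vocabulary (`PvkjCn`, `PvucLk`, `pvjcE pvjcKE pvjcMk pvjcU`, `pvucPl pvucCn`).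

* sec. 1  PER CANDIDATE: `PvnjFo` (exit funnel), `PvnjFi` (entrance funnel) = what ONE funnel owes at the term;   `PvucFc1.fo'` : the exit funnel is ALREADY PAID by the long cycle of 95.
* sec. 2  the sequences of the chain of a pattern `pvnjE pvnjKE pvnjMk pvnjU` (= the sequences of `pvsv_chain_at` of 193, `Exit/CloseAR.lean`: THE REGIONS);   **`pvnj_chain_fact`** = the field `fact` of `PvnjPar.Cc` at `pvnjAt`, a.e., small `ε` (through `pvnj_fact_ae`, `Tr/N1SysC`).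
-/

set_option autoImplicit false
set_option linter.unusedSectionVars false
set_option linter.unusedVariables false

namespace Claimed.Agent.R289

open MeasureTheory Filter Topology Set Metric Claims.C0465
open scoped ENNReal

/-! ## 1. one funnel at one candidate -/

section funnel

variable {τ : Type} {cc : ℝ}

/-- **THE EXIT FUNNEL OF THE CANDIDATE `(m, z, t)`, RIMS OF COLOUR `c`**: `Co` = the placed connector of 113 (ABSOLUTE position), from the big plug to the door `(z + pout t, dout t)` of the kit `𝔨`;   `U0` = the FREE room of the tags of the inner arc of that door (cure of 95, `pvucUd`) -/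
structure PvnjFo (𝔓 : PvrxPar τ cc) (𝔶 : PvydGeo τ) (c : Bool) (m : ℕ) (z : ℂ) (t : τ) (𝔨 : PvkdGeo) (Co : PvkjCn) (U0 : Set ℂ) : Prop where
  co : Co.col = c
  jo : Co.e' = pvkjKit (𝔨.pg (z + (𝔓.Γ m).pout t) ((𝔓.Γ m).dout t))
  lo : PvucLk Co U0
  Xo : 𝔶.Xo m z t = pvkjX Co
  Eo : ∀ᶠ ε in 𝓝[>] (0 : ℝ), Co.E ×ˢ (univ : Set Bool) ⊆ pvnhRd (𝔶.lo 𝔓 c m ε z t) (𝔶.wo m z t).Et
  deto : ∀ᶠ ε in 𝓝[>] (0 : ℝ), ∀ᵐ η ∂(pvP ε), η ∈ pvydG 𝔓 m ε z t → η ∈ (pvydKit (𝔶.kit m ε) c).G (z + (𝔓.Γ m).pout t) ((𝔓.Γ m).dout t) → η ∈ (pvydDat 𝔓 𝔶 c).Ao m ε z t → η ∈ pvkjA Co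

/-- **THE ENTRANCE FUNNEL OF THE CANDIDATE `(m, z, t)`, RIMS OF COLOUR `c`**: `Ci` = the placed connector of 113 (ABSOLUTE position), from the door `(z + pin t, din t)` of the kit `𝔨` to the big plug;   `Us` = ANY room for the tags of the
inner arc of the big plug (CLOSE of the arc asks nothing of it) -/
structure PvnjFi (𝔓 : PvrxPar τ cc) (𝔶 : PvydGeo τ) (c : Bool) (m : ℕ) (z : ℂ) (t : τ) (𝔨 : PvkdGeo) (Ci : PvkjCn) (Us : Set ℂ) : Prop where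
  ci : Ci.col = c
  ji : Ci.e = pvkjKit (𝔨.pg (z + (𝔓.Γ m).pin t) ((𝔓.Γ m).din t))
  li : PvucLk Ci Us
  Xi : 𝔶.Xi m z t = pvkjX Ci
  Ei : ∀ᶠ ε in 𝓝[>] (0 : ℝ), Ci.E ×ˢ (univ : Set Bool) ⊆ pvnhRd (𝔶.li 𝔓 c m ε z t) (𝔶.wi m z t).Et
  deti : ∀ᶠ ε in 𝓝[>] (0 : ℝ), ∀ᵐ η ∂(pvP ε), η ∈ (pvydKit (𝔶.kit m ε) c).G (z + (𝔓.Γ m).pin t) ((𝔓.Γ m).din t) → η ∈ pvydG 𝔓 m ε z t → η ∈ (pvydDat 𝔓 𝔶 c).Ai m ε z t → η ∈ pvkjA Ci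

variable {𝔓 : PvrxPar τ cc} {𝔶 : PvydGeo τ} {c : Bool} {m : ℕ} {z : ℂ} {t : τ} {𝔨 : PvkdGeo} {Co Ci : PvkjCn} {U0 Us : Set ℂ}

theorem pvnj_jcE_zero (𝔨 : PvkdGeo) (z d : ℂ) (l : List PvtTurn) : pvjcE 𝔨 z d l 0 = pvkjKit (𝔨.pg z d) := by
  unfold pvjcE
  rw [pvthx_Z_zero, pvthx_D_zero]

/-- **the exit funnel is already paid by the long cycle of 95** -/
theorem PvucFc1.fo' {Cr Ce : PvkjCn} {Ut Uu : Set ℂ} (H : PvucFc1 𝔓 𝔶 c m z t 𝔨 Co Cr Ce U0 Ut Uu) : PvnjFo 𝔓 𝔶 c m z t 𝔨 Co U0 where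
  co := H.co
  jo := by rw [H.jo, pvnj_jcE_zero]
  lo := H.lo
  Xo := H.Xo
  Eo := H.Eo
  deto := H.deto

/-- the a.s. fact of the exit funnel -/
theorem PvnjFo.fact (H : PvnjFo 𝔓 𝔶 c m z t 𝔨 Co U0) (a : ℂ) : ∀ᶠ ε in 𝓝[>] (0 : ℝ), ∀ᵐ η ∂(pvP ε), η ∈ (pvydDat 𝔓 𝔶 c).G m ε z t →
    η ∈ ((pvydDat 𝔓 𝔶 c).kit m ε).G (z + (𝔓.Γ m).pout t) ((𝔓.Γ m).dout t) → η ∈ (pvydDat 𝔓 𝔶 c).Ao m ε z t →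
    ∃ g g' N, PvkjFt η c Co.e (pvkjKit (𝔨.pg (z + (𝔓.Γ m).pout t) ((𝔓.Γ m).dout t))) Co.Kc Co.M U0 ((pvydDat 𝔓 𝔶 c).Xo m ε a z t η) g g' N := by
  filter_upwards [H.Eo, H.deto, self_mem_nhdsWithin] with ε h1 h2 hε
  filter_upwards [H.lo.fact hε H.Xo h1 h2] with η hη g1 g2 g3
  have := hη g1 g2 g3
  rw [H.co, H.jo] at this
  exact this

/-- the a.s. fact of the entrance funnel -/
theorem PvnjFi.fact (H : PvnjFi 𝔓 𝔶 c m z t 𝔨 Ci Us) (a : ℂ) : ∀ᶠ ε in 𝓝[>] (0 : ℝ), ∀ᵐ η ∂(pvP ε),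
    η ∈ ((pvydDat 𝔓 𝔶 c).kit m ε).G (z + (𝔓.Γ m).pin t) ((𝔓.Γ m).din t) → η ∈ (pvydDat 𝔓 𝔶 c).G m ε z t → η ∈ (pvydDat 𝔓 𝔶 c).Ai m ε z t →
    ∃ g g' N, PvkjFt η c (pvkjKit (𝔨.pg (z + (𝔓.Γ m).pin t) ((𝔓.Γ m).din t))) Ci.e' Ci.Kc Ci.M Us ((pvydDat 𝔓 𝔶 c).Xi m ε a z t η) g g' N := by
  filter_upwards [H.Ei, H.deti, self_mem_nhdsWithin] with ε h1 h2 hε
  filter_upwards [H.li.fact hε H.Xi h1 h2] with η hη g1 g2 g3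
  have := hη g1 g2 g3
  rw [H.ci, H.ji] at this
  exact this

end funnel

/-! ## 2. the chain of a pattern -/

section chain

variable {τ : Type} {cc : ℝ}

/-- the plugs of the chain of `π` : `0 ↦ t`, `1 + i ↦` door `i` (`i ≤ |π.l|`), `|π.l| + 2 ↦ s` -/
noncomputable def pvnjE (𝔓 : PvrxPar τ cc) (m : ℕ) (π : PvtsPat τ) (𝔨 : PvkdGeo) (Co Ci : PvkjCn) : ℕ → PvkjEnd ℂ :=
  pvucPl Co.e (pvjcE 𝔨 (π.zt + (𝔓.Γ m).pout π.tt) ((𝔓.Γ m).dout π.tt) π.l) Ci.e' π.l.length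

/-- the corridors: `0 ↦ o`, `1 + i ↦` cell `i` (`i < |π.l|`), `|π.l| + 1 ↦ i` -/
noncomputable def pvnjKE (𝔓 : PvrxPar τ cc) (m : ℕ) (π : PvtsPat τ) (𝔨 : PvkdGeo) (Co Ci : PvkjCn) : ℕ → Set ℂ :=
  pvucCn Co.Kc (pvjcKE 𝔨 (π.zt + (𝔓.Γ m).pout π.tt) ((𝔓.Γ m).dout π.tt) π.l) Ci.Kc ∅ π.l.length

/-- the masks -/
noncomputable def pvnjMk (𝔓 : PvrxPar τ cc) (m : ℕ) (π : PvtsPat τ) (𝔨 : PvkdGeo) (Co Ci : PvkjCn) : ℕ → Set ℂ :=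
  pvucCn Co.M (pvjcMk 𝔨 (π.zt + (𝔓.Γ m).pout π.tt) ((𝔓.Γ m).dout π.tt) π.l) Ci.M ∅ π.l.length

/-- the rooms of the tags of the inner arcs (the rooms `Ut Us` of the two big plugs and the room `U0` of the first door are free) -/
noncomputable def pvnjU (𝔓 : PvrxPar τ cc) (m : ℕ) (π : PvtsPat τ) (𝔨 : PvkdGeo) (U0 Ut Us : Set ℂ) : ℕ → Set ℂ :=
  pvucPl Ut (pvucUd U0 𝔨 (π.zt + (𝔓.Γ m).pout π.tt) ((𝔓.Γ m).dout π.tt) π.l) Us π.l.length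

theorem pvnj_eqns_cite7 : True := by
  have := @pvnjE.eq_1; have := @pvnjKE.eq_1; have := @pvnjMk.eq_1; have := @pvnjU.eq_1
  trivial

variable {𝔓 : PvrxPar τ cc} {𝔶 : PvydGeo τ} {c : Bool} {m : ℕ} {π : PvtsPat τ} {𝔨 : PvkdGeo} {Co Ci : PvkjCn} {U0 Us : Set ℂ}

/-- **THE FACTS OF THE CLOSING CHAIN OF A PATTERN AT THE TERM OF 58** = the field `fact` of `PvnjPar.Cc` at `pvnjAt`, a.e., for small `ε` -/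
theorem pvnj_chain_fact (ok : (𝔓.Γ m).Ok π) (dict : ∀ᶠ ε in 𝓝[>] (0 : ℝ), PvjcDict (𝔶.kit m ε) (𝔶.X₀ m ε) 𝔨 ε) (geo : PvjcGeo 𝔨) (del : 𝔨.δ = (𝔓.Γ m).δ) (d4 : (𝔓.Γ m).dout π.tt ^ 4 = 1)
    (Ho : PvnjFo 𝔓 𝔶 c m π.zt π.tt 𝔨 Co U0) (Hi : PvnjFi 𝔓 𝔶 c m π.zs π.ts 𝔨 Ci Us) (Ut : Set ℂ) :
    ∀ᶠ ε in 𝓝[>] (0 : ℝ), ∀ (W : PvtW) (q : ℕ → ℝ≥0∞) (𝔯 : PvnjReg) (Lam Kr : Set ℂ), ∀ᵐ η ∂(pvP ε),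
      η ∈ (pvnjAt 𝔓 (pvydDat 𝔓 𝔶 c) W q m ε π 𝔯 Lam Kr).En → η ∈ (pvnjAt 𝔓 (pvydDat 𝔓 𝔶 c) W q m ε π 𝔯 Lam Kr).Ev → ∀ j < π.l.length + 2,
        PvucF c (pvnjE 𝔓 m π 𝔨 Co Ci) (pvnjKE 𝔓 m π 𝔨 Co Ci) (pvnjMk 𝔓 m π 𝔨 Co Ci) (pvnjU 𝔓 m π 𝔨 U0 Ut Us) j ((pvnjAt 𝔓 (pvydDat 𝔓 𝔶 c) W q m ε π 𝔯 Lam Kr).fld j η) η := by
  filter_upwards [Ho.fact 0, Hi.fact 0, dict, self_mem_nhdsWithin] with ε h1 h2 h3 hε W q 𝔯 Lam Kr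
  have fo : ∀ᵐ η ∂pvP ε, η ∈ (pvydDat 𝔓 𝔶 c).G m ε π.zt π.tt →
      η ∈ ((pvydDat 𝔓 𝔶 c).kit m ε).G (pvthZ ((pvydDat 𝔓 𝔶 c).kit m ε).δ (π.zt + (𝔓.Γ m).pout π.tt) ((𝔓.Γ m).dout π.tt) π.l 0) (pvthD ((𝔓.Γ m).dout π.tt) π.l 0) →
      η ∈ (pvydDat 𝔓 𝔶 c).Ao m ε π.zt π.tt →
      PvucF c (pvnjE 𝔓 m π 𝔨 Co Ci) (pvnjKE 𝔓 m π 𝔨 Co Ci) (pvnjMk 𝔓 m π 𝔨 Co Ci) (pvnjU 𝔓 m π 𝔨 U0 Ut Us) 0 ((pvydDat 𝔓 𝔶 c).Xo m ε 0 π.zt π.tt η) η := by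
    filter_upwards [h1] with η hη g1 g2 g3
    rw [pvthx_Z_zero, pvthx_D_zero] at g2
    have := hη g1 g2 g3
    unfold PvucF pvnjE pvnjKE pvnjMk pvnjU
    rw [pvuc_pl_zero, pvuc_pl_door' _ _ _ _ (Nat.zero_le _), pvuc_cn_zero, pvuc_cn_zero, pvuc_pl_door' _ _ _ _ (Nat.zero_le _), pvnj_jcE_zero, pvuc_Ud_zero]
    exact this
  have fk : ∀ i < π.l.length, ∀ᵐ η ∂pvP ε,
      η ∈ ((pvydDat 𝔓 𝔶 c).kit m ε).G (pvthZ ((pvydDat 𝔓 𝔶 c).kit m ε).δ (π.zt + (𝔓.Γ m).pout π.tt) ((𝔓.Γ m).dout π.tt) π.l i) (pvthD ((𝔓.Γ m).dout π.tt) π.l i) →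
      η ∈ ((pvydDat 𝔓 𝔶 c).kit m ε).G (pvthZ ((pvydDat 𝔓 𝔶 c).kit m ε).δ (π.zt + (𝔓.Γ m).pout π.tt) ((𝔓.Γ m).dout π.tt) π.l (i + 1)) (pvthD ((𝔓.Γ m).dout π.tt) π.l (i + 1)) →
      η ∈ ((pvydDat 𝔓 𝔶 c).kit m ε).A (pvthZ ((pvydDat 𝔓 𝔶 c).kit m ε).δ (π.zt + (𝔓.Γ m).pout π.tt) ((𝔓.Γ m).dout π.tt) π.l i) (pvthD ((𝔓.Γ m).dout π.tt) π.l i) (pvthL π.l i) →
      PvucF c (pvnjE 𝔓 m π 𝔨 Co Ci) (pvnjKE 𝔓 m π 𝔨 Co Ci) (pvnjMk 𝔓 m π 𝔨 Co Ci) (pvnjU 𝔓 m π 𝔨 U0 Ut Us) (1 + i)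
        (((pvydDat 𝔓 𝔶 c).kit m ε).Xj ((pvydDat 𝔓 𝔶 c).X₀ m ε 0) (π.zt + (𝔓.Γ m).pout π.tt) ((𝔓.Γ m).dout π.tt) π.l i η) η := by
    intro i hi
    filter_upwards [pvjc_word hε h3 geo c (π.zt + (𝔓.Γ m).pout π.tt) d4 π.l hi] with η hη g1 _ g3
    have := hη g1 g3
    unfold PvucF pvnjE pvnjKE pvnjMk pvnjU
    rw [pvuc_pl_door _ _ _ _ (le_of_lt hi), show 1 + i + 1 = 1 + (i + 1) by ring, pvuc_pl_door _ _ _ _ (Nat.succ_le_of_lt hi), pvuc_cn_cell _ _ _ _ _ hi, pvuc_cn_cell _ _ _ _ _ hi,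
      pvuc_pl_door _ _ _ _ (Nat.succ_le_of_lt hi), pvuc_Ud_succ]
    exact this
  have fi : ∀ᵐ η ∂pvP ε,
      η ∈ ((pvydDat 𝔓 𝔶 c).kit m ε).G (pvthZ ((pvydDat 𝔓 𝔶 c).kit m ε).δ (π.zt + (𝔓.Γ m).pout π.tt) ((𝔓.Γ m).dout π.tt) π.l π.l.length) (pvthD ((𝔓.Γ m).dout π.tt) π.l π.l.length) →
      η ∈ (pvydDat 𝔓 𝔶 c).G m ε π.zs π.ts → η ∈ (pvydDat 𝔓 𝔶 c).Ai m ε π.zs π.ts →
      PvucF c (pvnjE 𝔓 m π 𝔨 Co Ci) (pvnjKE 𝔓 m π 𝔨 Co Ci) (pvnjMk 𝔓 m π 𝔨 Co Ci) (pvnjU 𝔓 m π 𝔨 U0 Ut Us) (π.l.length + 1) ((pvydDat 𝔓 𝔶 c).Xi m ε 0 π.zs π.ts η) η := by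
    have hδ : (𝔶.kit m ε).δ = (𝔓.Γ m).δ := h3.δ.trans del
    obtain ⟨e1, e2⟩ := pvyp_door_pat (𝔓.Γ m) (δ := ((pvydDat 𝔓 𝔶 c).kit m ε).δ) hδ ok
    obtain ⟨e3, e4⟩ := pvyp_door_pat (𝔓.Γ m) (δ := 𝔨.δ) del ok
    filter_upwards [h2] with η hη g1 g2 g3
    rw [e1, e2] at g1
    have := hη g1 g2 g3
    unfold PvucF pvnjE pvnjKE pvnjMk pvnjU
    rw [pvuc_pl_door' _ _ _ _ le_rfl, show π.l.length + 1 + 1 = π.l.length + 2 by ring, pvuc_pl_u, pvuc_cn_r, pvuc_cn_r, pvuc_pl_u]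
    unfold pvjcE
    rw [e3, e4]
    exact this
  exact pvnj_fact_ae (pvnjAt 𝔓 (pvydDat 𝔓 𝔶 c) W q m ε π 𝔯 Lam Kr) fo fk fi

end chain

end Claimed.Agent.R289
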