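import Claimed.Agent.R289.Exit.CloseRP
import Claimed.Agent.R289.Tr.ConnFr
import Claimed.Agent.R289.Tr.ForceQ

/-!
# Row 289 (S0537, Cardy for Poisson-Voronoi), THE WALL, ROAD P, file Exit/CloseTP : CLOSE-P, **THE ASSEMBLY**      (helper95; post P14 of 273; prefix `pvuc_`, `pvuc`, `Pvuc` continued from `Exit/CloseP`)

* sec. 1  the sequences of a long cycle by kinds: `pvucPl` (plugs `t`, doors `0 .. L`, `u`), `pvucCn` (connectors `o`, cells `0 .. L - 1`, `r`, `e`).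
* sec. 2  **THE MASK CRITERION** `PvucMs ⟹ PvkjCyc` : corridors inside their masks, zone of a plug inside the masks of its two connectors, masks pairwise disjoint: `dKZ dKK ZB KB` are free.
          `pvuc_lk_deep` : the sites of a run are never deep, the corridor of a link may be cut down to `K \ (I ∪ I')`.
* sec. 3  the long cycle BY KINDS: `PvucLg` (plain inclusions and disjointness between `t`, doors, `u`, `o`, cells, `r`, `e`) `⟹ PvucMs`.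
* sec. 4  `PvucLk C U` = what the regions of ONE foreign connector owe;   `PvucLk.fact` (absolute position), `PvucLk.fact_at` (reference frame carried to `(w, c)`): the a.s. fact with the localised mass of 58 as value.
* sec. 5  `PvucFc1` = the facts `fo fr fe` of the long cycle at a candidate of the term `pvydDat 𝔓 𝔶 c` (sequences `pvucE1 pvucK1 pvucM1 pvucU1`);   **`PvucIn1`** = facts + regions all by kinds;   **`PvucIn1.close`** = the field `close1` of `PvrsGeoOk` at that candidate.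
* sec. 5' **`PvucFg`** = the FOREIGN pieces by kinds `⟹ PvjcFor` of 203;   **`PvucJn1`** = facts + kit + cell-simple word + `dj1` of 58 + `PvucFg`;   **`PvucJn1.close`** = `close1` (through `pvjc_cyc1` of 203).
* sec. 6  **`PvucIn2`**, **`PvucIn2.close`** = the field `close2`.
* sec. 7  **`PvucSup`** = THE CONTRACT: all the debts of the suppliers at one candidate (kit, colours, joins, masses, windows, rooms, regions, `Pvn2Rec` of 272 per link), ANY `𝔓 𝔶`;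
          **`PvucSup.close1`**, **`PvucSup.close2`** : contract + `KitOk CandOk` (58) + `PvndKitUp PvndCand` + `q ≤ pvndQ` (272) + QBX ⟹ the two fields.
-/

set_option autoImplicit false

namespace Claimed.Agent.R289

open MeasureTheory Filter Topology Set Metric Claims.C0465
open scoped ENNReal

/-! ## 1. the sequences of a long cycle -/

section lists

universe u

variable {α : Type u}

/-- the plugs of the long cycle: `0 ↦ t`, `1 + i ↦` door `i` (`i ≤ L`), `L + 2 ↦ u`, then `t` again -/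
def pvucPl (x0 : α) (xd : ℕ → α) (xu : α) (L j : ℕ) : α :=
  if j = 0 then x0 else if j ≤ L + 1 then xd (j - 1) else if j = L + 2 then xu else x0

/-- the connectors of the long cycle: `0 ↦ o`, `1 + i ↦` cell `i` (`i < L`), `L + 1 ↦ r`, `L + 2 ↦ e`, then `o` again -/
def pvucCn (xo : α) (xk : ℕ → α) (xr xe : α) (L j : ℕ) : α :=
  if j = 0 then xo else if j ≤ L then xk (j - 1) else if j = L + 1 then xr else if j = L + 2 then xe else xo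

theorem pvuc_eqns_cite2 : True := by
  have := @pvucPl.eq_1.{0}; have := @pvucCn.eq_1.{0}
  trivial

variable (x0 xu xo xr xe : α) (xd xk : ℕ → α) (L : ℕ)

theorem pvuc_pl_zero : pvucPl x0 xd xu L 0 = x0 := by simp [pvucPl]

theorem pvuc_pl_door {i : ℕ} (hi : i ≤ L) : pvucPl x0 xd xu L (1 + i) = xd i := by
  unfold pvucPl
  rw [if_neg (by omega), if_pos (by omega)]
  congr 1
  omega

theorem pvuc_pl_door' {i : ℕ} (hi : i ≤ L) : pvucPl x0 xd xu L (i + 1) = xd i := by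
  rw [add_comm]; exact pvuc_pl_door x0 xu xd L hi

theorem pvuc_pl_u : pvucPl x0 xd xu L (L + 2) = xu := by
  unfold pvucPl
  rw [if_neg (by omega), if_neg (by omega), if_pos rfl]

theorem pvuc_pl_per : pvucPl x0 xd xu L (L + 3) = x0 := by
  unfold pvucPl
  rw [if_neg (by omega), if_neg (by omega), if_neg (by omega)]

theorem pvuc_cn_zero : pvucCn xo xk xr xe L 0 = xo := by simp [pvucCn]

theorem pvuc_cn_cell {i : ℕ} (hi : i < L) : pvucCn xo xk xr xe L (1 + i) = xk i := by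
  unfold pvucCn
  rw [if_neg (by omega), if_pos (by omega)]
  congr 1
  omega

theorem pvuc_cn_cell' {i : ℕ} (hi : i < L) : pvucCn xo xk xr xe L (i + 1) = xk i := by
  rw [add_comm]; exact pvuc_cn_cell xo xr xe xk L hi

theorem pvuc_cn_r : pvucCn xo xk xr xe L (L + 1) = xr := by
  unfold pvucCn
  rw [if_neg (by omega), if_neg (by omega), if_pos rfl]

theorem pvuc_cn_e : pvucCn xo xk xr xe L (L + 2) = xe := by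
  unfold pvucCn
  rw [if_neg (by omega), if_neg (by omega), if_neg (by omega), if_pos rfl]

theorem pvuc_cn_per : pvucCn xo xk xr xe L (L + 3) = xo := by
  unfold pvucCn
  rw [if_neg (by omega), if_neg (by omega), if_neg (by omega), if_neg (by omega)]

/-- a property of all the plugs, by kinds -/
theorem pvuc_pl_all {P : α → Prop} (h0 : P x0) (hd : ∀ i ≤ L, P (xd i)) (hu : P xu) (j : ℕ) : P (pvucPl x0 xd xu L j) := by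
  unfold pvucPl
  split_ifs with h1 h2 h3
  · exact h0
  · exact hd _ (by omega)
  · exact hu
  · exact h0

/-- a property of all the connectors, by kinds -/
theorem pvuc_cn_all {P : α → Prop} (ho : P xo) (hk : ∀ i < L, P (xk i)) (hr : P xr) (he : P xe) (j : ℕ) : P (pvucCn xo xk xr xe L j) := by
  unfold pvucCn
  split_ifs with h1 h2 h3 h4
  · exact ho
  · exact hk _ (by omega)
  · exact hr
  · exact he
  · exact ho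

/-- the four kinds of an index `j < L + 3` -/
theorem pvuc_kinds {j : ℕ} (hj : j < L + 3) : j = 0 ∨ (∃ i < L, j = 1 + i) ∨ j = L + 1 ∨ j = L + 2 := by
  rcases Nat.eq_zero_or_pos j with h | h
  · exact Or.inl h
  · rcases Nat.lt_or_ge j (L + 1) with h1 | h1
    · exact Or.inr (Or.inl ⟨j - 1, by omega, by omega⟩)
    · omega

end lists

/-! ## 2. THE MASK CRITERION -/

/-- **WHAT THE REGIONS OF A CYCLE OWE, THROUGH THE MASKS**: every corridor lies in its mask, the zone (and the room) of the plug `j + 1` in the masks of its two connectors, the masks are pairwise disjoint subsets of `B`.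
(`dKZ dKK ZB KB` of `PvkjGeo`, `PvkjCyc` follow.) -/
structure PvucMs (n : ℕ) (𝔢 : ℕ → PvkjEnd ℂ) (KE Mk U : ℕ → Set ℂ) (B : Set ℂ) (a₀ : ℝ) : Prop where
  two : 2 ≤ n
  per : 𝔢 n = 𝔢 0
  pM : Mk n = Mk 0
  ok : ∀ j, j < n → (𝔢 j).Ok
  uq : ∀ j, j < n → (𝔢 j).Uq
  dZZ : ∀ i j, i < n → j < n → i ≠ j → Disjoint (𝔢 i).Z (𝔢 j).Z
  dM : ∀ i < n, ∀ j < n, i ≠ j → Disjoint (Mk i) (Mk j)
  KM : ∀ j, j < n → KE j ⊆ Mk j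
  ZM : ∀ j, j < n → (𝔢 (j + 1)).Z ⊆ Mk j ∪ Mk (j + 1)
  UM : ∀ j, j < n → U (j + 1) ⊆ Mk j ∪ Mk (j + 1)
  MB : ∀ j, j < n → Mk j ⊆ B
  big : ∃ i j, i < n ∧ j < n ∧ ∀ p ∈ (𝔢 i).Z, ∀ p' ∈ (𝔢 j).Z, a₀ ≤ ‖p - p'‖

section masks

variable {n : ℕ} {𝔢 : ℕ → PvkjEnd ℂ} {KE Mk U : ℕ → Set ℂ} {B : Set ℂ} {a₀ : ℝ}

/-- the zone of the plug `i` lies in the masks of the connectors `i - 1` (cyclically) and `i` -/
theorem PvucMs.zone (H : PvucMs n 𝔢 KE Mk U B a₀) {i : ℕ} (hi : i < n) : (𝔢 i).Z ⊆ Mk ((i + (n - 1)) % n) ∪ Mk i := by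
  have h2 := H.two
  rcases Nat.eq_zero_or_pos i with rfl | h
  · have := H.ZM (n - 1) (by omega)
    rw [show n - 1 + 1 = n by omega, H.per, H.pM] at this
    rwa [Nat.zero_add, Nat.mod_eq_of_lt (by omega)]
  · have := H.ZM (i - 1) (by omega)
    rw [show i - 1 + 1 = i by omega] at this
    have e : (i + (n - 1)) % n = i - 1 := by
      rw [show i + (n - 1) = (i - 1) + n by omega, Nat.add_mod_right, Nat.mod_eq_of_lt (by omega)]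
    rwa [e]

/-- **THE MASK CRITERION** -/
theorem PvucMs.cyc (H : PvucMs n 𝔢 KE Mk U B a₀) : PvkjCyc n 𝔢 KE Mk U B a₀ where
  geo :=
    { two := H.two
      per := H.per
      ok := H.ok
      uq := H.uq
      dZZ := H.dZZ
      dKZ := by
        intro i j hi hj hij hij'
        have h2 := H.two
        have hlt : (i + (n - 1)) % n < n := Nat.mod_lt _ (by omega)
        have hne : j ≠ (i + (n - 1)) % n := by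
          intro e
          apply hij'
          rw [e, Nat.mod_add_mod, show i + (n - 1) + 1 = i + n by omega, Nat.add_mod_right, Nat.mod_eq_of_lt hi]
        refine Disjoint.mono (H.KM j hj) (H.zone hi) ?_
        rw [disjoint_union_right]
        exact ⟨H.dM j hj _ hlt hne, H.dM j hj i hi (Ne.symm hij)⟩
      dKK := by
        intro i j hi hj hij w hw
        exact absurd (H.KM j hj hw.2) (disjoint_left.1 (H.dM i hi j hj hij) (H.KM i hi hw.1)) }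
  UM := H.UM
  ZB := by
    intro j hj
    have h2 := H.two
    exact (H.zone hj).trans (union_subset (H.MB _ (Nat.mod_lt _ (by omega))) (H.MB j hj))
  KB := fun j hj => (H.KM j hj).trans (H.MB j hj)
  big := H.big

/-- **the sites of a run are never deep**: the corridor of a link may be cut down to the marks which are deep in neither end      (so that the corridors of the two connectors of a big plug are DISJOINT: `KM` + `dM`) -/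
theorem pvuc_lk_deep {κ V D : Type} {T : PvMap V D} {mk : V → κ} {s : V → Bool} {𝔞 𝔞' : PvkjEnd κ} {K : Set κ} {g g' : T.Gate s} {N : ℕ} (hO : 𝔞.Ok) (hO' : 𝔞'.Ok)
    (h : PvkjLk T mk s 𝔞 𝔞' K g g' N) : PvkjLk T mk s 𝔞 𝔞' (K \ (𝔞.I ∪ 𝔞'.I)) g g' N := by
  refine ⟨h.is, h.is', h.run.1, h.run.2.1, h.run.2.2.1, fun v hv => ?_⟩
  obtain ⟨h1, h2, h3⟩ := h.run.2.2.2 hv
  refine ⟨⟨h1, ?_⟩, h2, h3⟩
  rintro (hI | hI)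
  · exact h2 fun d hd => hO.deep _ _ _ _ _ g h.is d (by rw [hd]; exact hI)
  · exact h3 fun d hd => hO'.deep _ _ _ _ _ g' h.is' d (by rw [hd]; exact hI)

end masks

/-! ## 3. the long cycle by kinds -/

section kinds

universe u

variable {α : Type u} {x0 xu xo xr xe : α} {xd xk : ℕ → α} {L : ℕ}

/-- a symmetric relation between two different plugs, by kinds -/
theorem pvuc_pl_pair {R : α → α → Prop} (hs : ∀ x y, R x y → R y x) (td : ∀ i ≤ L, R x0 (xd i)) (tu : R x0 xu) (dd : ∀ i ≤ L, ∀ j ≤ L, i ≠ j → R (xd i) (xd j)) (du : ∀ i ≤ L, R (xd i) xu) :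
    ∀ i j, i < L + 3 → j < L + 3 → i ≠ j → R (pvucPl x0 xd xu L i) (pvucPl x0 xd xu L j) := by
  have kd : ∀ j, j < L + 3 → j = 0 ∨ (∃ i ≤ L, j = 1 + i) ∨ j = L + 2 := by
    intro j hj
    rcases Nat.eq_zero_or_pos j with h | h
    · exact Or.inl h
    · rcases Nat.lt_or_ge j (L + 2) with h1 | h1
      · exact Or.inr (Or.inl ⟨j - 1, by omega, by omega⟩)
      · exact Or.inr (Or.inr (by omega))
  intro i j hi hj hij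
  rcases kd i hi with rfl | ⟨a, ha, rfl⟩ | rfl <;> rcases kd j hj with rfl | ⟨b, hb, rfl⟩ | rfl
  · exact absurd rfl hij
  · rw [pvuc_pl_zero, pvuc_pl_door _ _ _ _ hb]; exact td b hb
  · rw [pvuc_pl_zero, pvuc_pl_u]; exact tu
  · rw [pvuc_pl_zero, pvuc_pl_door _ _ _ _ ha]; exact hs _ _ (td a ha)
  · rw [pvuc_pl_door _ _ _ _ ha, pvuc_pl_door _ _ _ _ hb]; exact dd a ha b hb (by omega)
  · rw [pvuc_pl_door _ _ _ _ ha, pvuc_pl_u]; exact du a ha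
  · rw [pvuc_pl_zero, pvuc_pl_u]; exact hs _ _ tu
  · rw [pvuc_pl_door _ _ _ _ hb, pvuc_pl_u]; exact hs _ _ (du b hb)
  · exact absurd rfl hij

/-- a symmetric relation between two different connectors, by kinds -/
theorem pvuc_cn_pair {R : α → α → Prop} (hs : ∀ x y, R x y → R y x) (ok : ∀ i < L, R xo (xk i)) (or' : R xo xr) (oe : R xo xe) (kk : ∀ i < L, ∀ j < L, i ≠ j → R (xk i) (xk j))
    (kr : ∀ i < L, R (xk i) xr) (ke : ∀ i < L, R (xk i) xe) (re : R xr xe) :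
    ∀ i < L + 3, ∀ j < L + 3, i ≠ j → R (pvucCn xo xk xr xe L i) (pvucCn xo xk xr xe L j) := by
  intro i hi j hj hij
  rcases pvuc_kinds L hi with rfl | ⟨a, ha, rfl⟩ | rfl | rfl <;> rcases pvuc_kinds L hj with rfl | ⟨b, hb, rfl⟩ | rfl | rfl
  · exact absurd rfl hij
  · rw [pvuc_cn_zero, pvuc_cn_cell _ _ _ _ _ hb]; exact ok b hb
  · rw [pvuc_cn_zero, pvuc_cn_r]; exact or'
  · rw [pvuc_cn_zero, pvuc_cn_e]; exact oe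
  · rw [pvuc_cn_zero, pvuc_cn_cell _ _ _ _ _ ha]; exact hs _ _ (ok a ha)
  · rw [pvuc_cn_cell _ _ _ _ _ ha, pvuc_cn_cell _ _ _ _ _ hb]; exact kk a ha b hb (by omega)
  · rw [pvuc_cn_cell _ _ _ _ _ ha, pvuc_cn_r]; exact kr a ha
  · rw [pvuc_cn_cell _ _ _ _ _ ha, pvuc_cn_e]; exact ke a ha
  · rw [pvuc_cn_zero, pvuc_cn_r]; exact hs _ _ or'
  · rw [pvuc_cn_cell _ _ _ _ _ hb, pvuc_cn_r]; exact hs _ _ (kr b hb)
  · exact absurd rfl hij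
  · rw [pvuc_cn_r, pvuc_cn_e]; exact re
  · rw [pvuc_cn_zero, pvuc_cn_e]; exact hs _ _ oe
  · rw [pvuc_cn_cell _ _ _ _ _ hb, pvuc_cn_e]; exact hs _ _ (ke b hb)
  · rw [pvuc_cn_r, pvuc_cn_e]; exact hs _ _ re
  · exact absurd rfl hij

end kinds

/-- **THE REGIONS OF THE LONG CYCLE, BY KINDS**.      Plugs: `t` (`et`, room `Ut`), doors `i ≤ L` (`ed i`, room `Ud i`, zone and room split in a back part `zb i` and a front part `zf i`), `u` (`eu`, room `Uu`).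
Connectors: `o` (`Ko ⊆ Mo`), cells `i < L` (`Kk i ⊆ Mc i`), `r` (`Kr ⊆ Mr`), `e` (`Ke ⊆ Me`). -/
structure PvucLg (L : ℕ) (et eu : PvkjEnd ℂ) (ed : ℕ → PvkjEnd ℂ) (Ko Kr Ke : Set ℂ) (Kk : ℕ → Set ℂ) (Mo Mr Me : Set ℂ) (Mc : ℕ → Set ℂ) (Ut Uu : Set ℂ) (Ud zb zf : ℕ → Set ℂ)
    (B : Set ℂ) (a₀ : ℝ) : Prop where
  okt : et.Ok
  oku : eu.Ok
  okd : ∀ i ≤ L, (ed i).Ok
  uqt : et.Uq
  uqu : eu.Uq
  uqd : ∀ i ≤ L, (ed i).Uq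
  /-- the zones of the plugs are pairwise disjoint -/
  Ztd : ∀ i ≤ L, Disjoint et.Z (ed i).Z
  Ztu : Disjoint et.Z eu.Z
  Zdd : ∀ i ≤ L, ∀ j ≤ L, i ≠ j → Disjoint (ed i).Z (ed j).Z
  Zdu : ∀ i ≤ L, Disjoint (ed i).Z eu.Z
  /-- the masks are pairwise disjoint -/
  Mok : ∀ i < L, Disjoint Mo (Mc i)
  Mor : Disjoint Mo Mr
  Moe : Disjoint Mo Me
  Mkk : ∀ i < L, ∀ j < L, i ≠ j → Disjoint (Mc i) (Mc j)
  Mkr : ∀ i < L, Disjoint (Mc i) Mr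
  Mke : ∀ i < L, Disjoint (Mc i) Me
  Mre : Disjoint Mr Me
  /-- every corridor lies in its mask -/
  Ko : Ko ⊆ Mo
  Kk : ∀ i < L, Kk i ⊆ Mc i
  Kr : Kr ⊆ Mr
  Ke : Ke ⊆ Me
  /-- zone and room of a plug lie in the masks of its two connectors -/
  Zt : et.Z ∪ Ut ⊆ Me ∪ Mo
  Zu : eu.Z ∪ Uu ⊆ Mr ∪ Me
  Zd : ∀ i ≤ L, (ed i).Z ∪ Ud i ⊆ zb i ∪ zf i
  b0 : zb 0 ⊆ Mo
  bk : ∀ i < L, zb (i + 1) ⊆ Mc i
  fk : ∀ i < L, zf i ⊆ Mc i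
  fL : zf L ⊆ Mr
  /-- everything is inside `B` -/
  Bo : Mo ⊆ B
  Bk : ∀ i < L, Mc i ⊆ B
  Br : Mr ⊆ B
  Be : Me ⊆ B
  /-- `t` and `u` are `a₀` apart -/
  big : ∀ p ∈ et.Z, ∀ p' ∈ eu.Z, a₀ ≤ ‖p - p'‖

section long

variable {L : ℕ} {et eu : PvkjEnd ℂ} {ed : ℕ → PvkjEnd ℂ} {Ko Kr Ke : Set ℂ} {Kk : ℕ → Set ℂ} {Mo Mr Me : Set ℂ} {Mc : ℕ → Set ℂ} {Ut Uu : Set ℂ} {Ud zb zf : ℕ → Set ℂ} {B : Set ℂ} {a₀ : ℝ}

/-- zone and room of the plug `j + 1` lie in the masks `j`, `j + 1` -/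
theorem PvucLg.cover (H : PvucLg L et eu ed Ko Kr Ke Kk Mo Mr Me Mc Ut Uu Ud zb zf B a₀) {j : ℕ} (hj : j < L + 3) :
    (pvucPl et ed eu L (j + 1)).Z ∪ pvucPl Ut Ud Uu L (j + 1) ⊆ pvucCn Mo Mc Mr Me L j ∪ pvucCn Mo Mc Mr Me L (j + 1) := by
  have back : ∀ i ≤ L, zb i ⊆ pvucCn Mo Mc Mr Me L i := by
    intro i hi
    rcases Nat.eq_zero_or_pos i with rfl | h
    · rw [pvuc_cn_zero]; exact H.b0
    · obtain ⟨k, rfl⟩ : ∃ k, i = k + 1 := ⟨i - 1, by omega⟩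
      rw [pvuc_cn_cell' _ _ _ _ _ (by omega : k < L)]
      exact H.bk k (by omega)
  have front : ∀ i ≤ L, zf i ⊆ pvucCn Mo Mc Mr Me L (i + 1) := by
    intro i hi
    rcases Nat.lt_or_ge i L with h | h
    · rw [pvuc_cn_cell' _ _ _ _ _ h]; exact H.fk i h
    · obtain rfl : i = L := by omega
      rw [pvuc_cn_r]; exact H.fL
  rcases Nat.lt_or_ge j (L + 1) with h | h
  · rw [pvuc_pl_door' _ _ _ _ (by omega : j ≤ L), pvuc_pl_door' _ _ _ _ (by omega : j ≤ L)]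
    exact (H.Zd j (by omega)).trans (union_subset_union (back j (by omega)) (front j (by omega)))
  · rcases Nat.lt_or_ge j (L + 2) with h' | h'
    · obtain rfl : j = L + 1 := by omega
      rw [show L + 1 + 1 = L + 2 by ring, pvuc_pl_u, pvuc_pl_u, pvuc_cn_r, pvuc_cn_e]
      exact H.Zu
    · obtain rfl : j = L + 2 := by omega
      rw [show L + 2 + 1 = L + 3 by ring, pvuc_pl_per, pvuc_pl_per, pvuc_cn_e, pvuc_cn_per]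
      exact H.Zt

/-- **the long cycle by kinds ⟹ the mask criterion** -/
theorem PvucLg.ms (H : PvucLg L et eu ed Ko Kr Ke Kk Mo Mr Me Mc Ut Uu Ud zb zf B a₀) :
    PvucMs (L + 3) (pvucPl et ed eu L) (pvucCn Ko Kk Kr Ke L) (pvucCn Mo Mc Mr Me L) (pvucPl Ut Ud Uu L) B a₀ where
  two := by omega
  per := by rw [pvuc_pl_per, pvuc_pl_zero]
  pM := by rw [pvuc_cn_per, pvuc_cn_zero]
  ok := fun j _ => pvuc_pl_all (P := fun e : PvkjEnd ℂ => e.Ok) _ _ _ _ H.okt H.okd H.oku j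
  uq := fun j _ => pvuc_pl_all (P := fun e : PvkjEnd ℂ => e.Uq) _ _ _ _ H.uqt H.uqd H.uqu j
  dZZ := pvuc_pl_pair (R := fun e e' : PvkjEnd ℂ => Disjoint e.Z e'.Z) (fun _ _ h => h.symm) H.Ztd H.Ztu H.Zdd H.Zdu
  dM := pvuc_cn_pair (R := fun M M' : Set ℂ => Disjoint M M') (fun _ _ h => h.symm) H.Mok H.Mor H.Moe H.Mkk H.Mkr H.Mke H.Mre
  KM := by
    intro j hj
    rcases pvuc_kinds L hj with rfl | ⟨a, ha, rfl⟩ | rfl | rfl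
    · rw [pvuc_cn_zero, pvuc_cn_zero]; exact H.Ko
    · rw [pvuc_cn_cell _ _ _ _ _ ha, pvuc_cn_cell _ _ _ _ _ ha]; exact H.Kk a ha
    · rw [pvuc_cn_r, pvuc_cn_r]; exact H.Kr
    · rw [pvuc_cn_e, pvuc_cn_e]; exact H.Ke
  ZM := fun j hj => subset_union_left.trans (H.cover hj)
  UM := fun j hj => subset_union_right.trans (H.cover hj)
  MB := fun j _ => pvuc_cn_all (P := fun M : Set ℂ => M ⊆ B) _ _ _ _ _ H.Bo H.Bk H.Br H.Be j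
  big := ⟨0, L + 2, by omega, by omega, by rw [pvuc_pl_zero, pvuc_pl_u]; exact H.big⟩

end long

/-! ## 4. the a.s. fact of a foreign link at the term of 58 -/

/-- **what the regions of a foreign connector owe to its fact** (113 `pvkj_fact`): well formed;   the barycentres of the short faces with their vertices in the corridor lie in the mask;
the barycentres of the short faces at the inner arc of the target lie in the room `U` -/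
structure PvucLk (C : PvkjCn) (U : Set ℂ) : Prop where
  wf : C.Wf
  tM : ∀ p ∈ C.ms, PvkjTri (2 * p.1) (C.Kc ∩ pvtrCore (3 * p.1) p.2) C.Kc C.M
  tU : ∃ A' : Set ℂ, C.e'.Ar A' ∧ ∀ p ∈ C.ms, PvkjTri (2 * p.1) (A' ∩ pvtrCore (3 * p.1) p.2) C.e'.Z U

section fact

variable {C : PvkjCn} {U : Set ℂ} {ε : ℝ}

/-- a link in absolute position, field = the localised mass of 58 -/
theorem PvucLk.fact (H : PvucLk C U) (hε : 0 < ε) {G G' A : Set (Conf PvPt)} {W : Set PvPt} {X : Conf PvPt → ℂ} (hX : X = pvkjX C) (hW : C.E ×ˢ (univ : Set Bool) ⊆ W)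
    (det : ∀ᵐ η ∂(pvP ε), η ∈ G → η ∈ G' → η ∈ A → η ∈ pvkjA C) :
    ∀ᵐ η ∂(pvP ε), η ∈ G → η ∈ G' → η ∈ A → ∃ g g' N, PvkjFt η C.col C.e C.e' C.Kc C.M U (pvpgLoc (pvP ε) W X η) g g' N := by
  obtain ⟨A', h1, h2⟩ := H.tU
  have e : pvpgLoc (pvP ε) W X = pvkjX C := by
    rw [hX]
    exact pvyd_loc_of_reads (pvkj_X_reads H.wf) hW
  rw [e]
  exact pvuh_fact hε H.wf h1 H.tM h2 det (Eventually.of_forall fun _ _ => rfl)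

/-- a link of the reference frame (black rims), carried to the frame `(w, c)` of 58 -/
theorem PvucLk.fact_at {w : ℂ} (H : PvucLk (pvuhAt C w) U) (hC : C.Wf) (hc : C.col = true) (c : Bool) (hε : 0 < ε) {G G' A : Set (Conf PvPt)} {W : Set PvPt} {X : Conf PvPt → ℂ} (hX : X = pvkjX C)
    (hW : C.E ×ˢ (univ : Set Bool) ⊆ W) (det : ∀ᵐ η ∂(pvP ε), η ∈ G → η ∈ G' → η ∈ A → η ∈ pvkjA C) :
    ∀ᵐ η ∂(pvP ε), Conf.image (pvydE c w).toEquiv.symm η ∈ G → Conf.image (pvydE c w).toEquiv.symm η ∈ G' → Conf.image (pvydE c w).toEquiv.symm η ∈ A →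
      ∃ g g' N, PvkjFt η c (pvuhAt C w).e (pvuhAt C w).e' (pvuhAt C w).Kc (pvuhAt C w).M U (pvciT (pvydE c w).toEquiv (pvpgLoc (pvP ε) W X) η) g g' N := by
  obtain ⟨A', h1, h2⟩ := H.tU
  have e : pvpgLoc (pvP ε) W X = pvkjX C := by
    rw [hX]
    exact pvyd_loc_of_reads (pvkj_X_reads hC) hW
  rw [e]
  have key := pvuh_fact_at hε hC w h1 H.tM h2 det (X := pvkjX C) (Eventually.of_forall fun _ _ => rfl)
  filter_upwards [pvjc_ae_fl c ε key, dls_ae_conf hε] with η hη hok g1 g2 g3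
  rw [pvyd_E_symm, pvyd_fl_cfMap] at g1 g2 g3
  have := hη g1 g2 g3
  rw [hc] at this
  have := pvjc_fact_fl c hok this
  unfold pvciT
  rw [pvyd_E_symm, pvyd_fl_cfMap]
  exact this

end fact

/-! ## 5. THE LONG CYCLE AT THE TERM OF 58 -/

/-- **the rooms of the doors**: `U0` for the first door (it is the target of the FOREIGN connector `o`: the generic fact of 113 sees the reading zone `ball ∪ tube` of the plug only, the barycentres may leave the disc `ball z b`;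
e.g. `U0` := the placed region `O₀` of the plug, convex), the discs of 203 for the doors `1 .. L` (targets of cells) -/
noncomputable def pvucUd (U0 : Set ℂ) (𝔨 : PvkdGeo) (z d : ℂ) (l : List PvtTurn) (i : ℕ) : Set ℂ := if i = 0 then U0 else pvjcU 𝔨 z d l i

theorem pvuc_eqns_cite5 : True := by
  have := @pvucUd.eq_1
  trivial

theorem pvuc_Ud_zero (U0 : Set ℂ) (𝔨 : PvkdGeo) (z d : ℂ) (l : List PvtTurn) : pvucUd U0 𝔨 z d l 0 = U0 := if_pos rfl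

theorem pvuc_Ud_succ (U0 : Set ℂ) (𝔨 : PvkdGeo) (z d : ℂ) (l : List PvtTurn) (i : ℕ) : pvucUd U0 𝔨 z d l (i + 1) = pvjcU 𝔨 z d l (i + 1) := if_neg (Nat.succ_ne_zero i)

section term

variable {τ : Type} {cc : ℝ}

/-- **THE FACTS OF THE LONG CYCLE AT THE CANDIDATE `(m, z, t)`, RIMS OF COLOUR `c`: WHAT IS ASKED**.      DATA: `𝔨` = the geometry of the cells of level `m` (34 258: `pvkgG.sc δ_m`),
`Co Ce` = the placed connectors of 113 of the exit funnel and of the thick link (ABSOLUTE), `Cr` = the connector of the funnel of the reference plug (REFERENCE FRAME, black), `Ut Uu` = rooms of the tags of the inner arcs of `t`, `u`.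
SUPPLIERS: `dict geo` 203 291 (`pvjc_dict_ev`, `pvjc_geo_rec`);   joins, `lo wr lr le`, windows: GEOMETRY (113);   `Xo Xr Xe` = `rfl` at the term;   `deto detr dete` = (DET) of 272 (`pvn2_o _r _e`). -/
structure PvucFc1 (𝔓 : PvrxPar τ cc) (𝔶 : PvydGeo τ) (c : Bool) (m : ℕ) (z : ℂ) (t : τ) (𝔨 : PvkdGeo) (Co Cr Ce : PvkjCn) (U0 Ut Uu : Set ℂ) : Prop where
  dict : ∀ᶠ ε in 𝓝[>] (0 : ℝ), PvjcDict (𝔶.kit m ε) (𝔶.X₀ m ε) 𝔨 ε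
  geo : PvjcGeo 𝔨
  del : 𝔨.δ = (𝔓.Γ m).δ
  d4 : (𝔓.Γ m).dout t ^ 4 = 1
  /-- colours -/
  co : Co.col = c
  cr : Cr.col = true
  ce : Ce.col = c
  /-- joins: consecutive connectors share their end -/
  jo : Co.e' = pvjcE 𝔨 (z + (𝔓.Γ m).pout t) ((𝔓.Γ m).dout t) ((𝔓.Γ m).l1 t) 0
  jr : (pvuhAt Cr (pvydWu 𝔓 m z t)).e = pvjcE 𝔨 (z + (𝔓.Γ m).pout t) ((𝔓.Γ m).dout t) ((𝔓.Γ m).l1 t) ((𝔓.Γ m).l1 t).length
  ju : (pvuhAt Cr (pvydWu 𝔓 m z t)).e' = Ce.e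
  jt : Ce.e' = Co.e
  /-- the regions of each connector -/
  lo : PvucLk Co U0
  wr : Cr.Wf
  lr : PvucLk (pvuhAt Cr (pvydWu 𝔓 m z t)) Uu
  le : PvucLk Ce Ut
  /-- the masses of the term are the fields of 113 -/
  Xo : 𝔶.Xo m z t = pvkjX Co
  Xr : 𝔶.Xr m = pvkjX Cr
  Xe : 𝔶.Xe m z t = pvkjX Ce
  /-- the windows of 113 are read by the links of 58 -/
  Eo : ∀ᶠ ε in 𝓝[>] (0 : ℝ), Co.E ×ˢ (univ : Set Bool) ⊆ pvnhRd (𝔶.lo 𝔓 c m ε z t) (𝔶.wo m z t).Et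
  Er : ∀ᶠ ε in 𝓝[>] (0 : ℝ), Cr.E ×ˢ (univ : Set Bool) ⊆ pvnhRd (𝔶.lr 𝔓 m ε) (𝔶.wr m).Et
  Ee : Ce.E ×ˢ (univ : Set Bool) ⊆ pvnhRd (𝔶.le 𝔓 c m z t) (𝔶.we m z t).Et
  /-- (DET) -/
  deto : ∀ᶠ ε in 𝓝[>] (0 : ℝ), ∀ᵐ η ∂(pvP ε), η ∈ pvydG 𝔓 m ε z t → η ∈ (pvydKit (𝔶.kit m ε) c).G (z + (𝔓.Γ m).pout t) ((𝔓.Γ m).dout t) → η ∈ (pvydDat 𝔓 𝔶 c).Ao m ε z t → η ∈ pvkjA Co
  detr : ∀ᶠ ε in 𝓝[>] (0 : ℝ), ∀ᵐ η ∂(pvP ε), η ∈ (𝔶.kit m ε).G (𝔓.Γ m).pin0 (𝔓.Γ m).din0 → η ∈ 𝔶.Gu m ε → η ∈ 𝔶.Ar₀ 𝔓 m ε → η ∈ pvkjA Cr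
  dete : ∀ᶠ ε in 𝓝[>] (0 : ℝ), ∀ᵐ η ∂(pvP ε), η ∈ 𝔶.GU 𝔓 c m ε z t → η ∈ pvydG 𝔓 m ε z t → η ∈ (pvydDat 𝔓 𝔶 c).Ae m ε z t → η ∈ pvkjA Ce

/-- the four sequences of the long cycle at the term -/
noncomputable def pvucE1 (𝔓 : PvrxPar τ cc) (m : ℕ) (z : ℂ) (t : τ) (𝔨 : PvkdGeo) (Co Ce : PvkjCn) : ℕ → PvkjEnd ℂ :=
  pvucPl Co.e (pvjcE 𝔨 (z + (𝔓.Γ m).pout t) ((𝔓.Γ m).dout t) ((𝔓.Γ m).l1 t)) Ce.e ((𝔓.Γ m).l1 t).length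
noncomputable def pvucK1 (𝔓 : PvrxPar τ cc) (m : ℕ) (z : ℂ) (t : τ) (𝔨 : PvkdGeo) (Co Cr Ce : PvkjCn) : ℕ → Set ℂ :=
  pvucCn Co.Kc (pvjcKE 𝔨 (z + (𝔓.Γ m).pout t) ((𝔓.Γ m).dout t) ((𝔓.Γ m).l1 t)) (pvuhAt Cr (pvydWu 𝔓 m z t)).Kc Ce.Kc ((𝔓.Γ m).l1 t).length
noncomputable def pvucM1 (𝔓 : PvrxPar τ cc) (m : ℕ) (z : ℂ) (t : τ) (𝔨 : PvkdGeo) (Co Cr Ce : PvkjCn) : ℕ → Set ℂ :=
  pvucCn Co.M (pvjcMk 𝔨 (z + (𝔓.Γ m).pout t) ((𝔓.Γ m).dout t) ((𝔓.Γ m).l1 t)) (pvuhAt Cr (pvydWu 𝔓 m z t)).M Ce.M ((𝔓.Γ m).l1 t).length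
noncomputable def pvucU1 (𝔓 : PvrxPar τ cc) (m : ℕ) (z : ℂ) (t : τ) (𝔨 : PvkdGeo) (U0 Ut Uu : Set ℂ) : ℕ → Set ℂ :=
  pvucPl Ut (pvucUd U0 𝔨 (z + (𝔓.Γ m).pout t) ((𝔓.Γ m).dout t) ((𝔓.Γ m).l1 t)) Uu ((𝔓.Γ m).l1 t).length

theorem pvuc_eqns_cite4 : True := by
  have := @pvucE1.eq_1; have := @pvucK1.eq_1; have := @pvucM1.eq_1; have := @pvucU1.eq_1
  trivial

variable {𝔓 : PvrxPar τ cc} {𝔶 : PvydGeo τ} {c : Bool} {m : ℕ} {z : ℂ} {t : τ} {𝔨 : PvkdGeo} {Co Cr Ce : PvkjCn} {U0 Ut Uu : Set ℂ} {zb zf : ℕ → Set ℂ} {B : Set ℂ} {a₀ : ℝ}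

/-- the fact of the exit funnel -/
theorem PvucFc1.fo (H : PvucFc1 𝔓 𝔶 c m z t 𝔨 Co Cr Ce U0 Ut Uu) (a : ℂ) : ∀ᶠ ε in 𝓝[>] (0 : ℝ), ∀ᵐ η ∂(pvP ε), η ∈ (pvydDat 𝔓 𝔶 c).G m ε z t →
    η ∈ ((pvydDat 𝔓 𝔶 c).kit m ε).G (pvthZ ((pvydDat 𝔓 𝔶 c).kit m ε).δ (z + (𝔓.Γ m).pout t) ((𝔓.Γ m).dout t) ((𝔓.Γ m).l1 t) 0) (pvthD ((𝔓.Γ m).dout t) ((𝔓.Γ m).l1 t) 0) →
    η ∈ (pvydDat 𝔓 𝔶 c).Ao m ε z t →
    PvucF c (pvucE1 𝔓 m z t 𝔨 Co Ce) (pvucK1 𝔓 m z t 𝔨 Co Cr Ce) (pvucM1 𝔓 m z t 𝔨 Co Cr Ce) (pvucU1 𝔓 m z t 𝔨 U0 Ut Uu) 0 ((pvydDat 𝔓 𝔶 c).Xo m ε a z t η) η := by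
  filter_upwards [H.Eo, H.deto, self_mem_nhdsWithin] with ε h1 h2 hε
  filter_upwards [H.lo.fact hε H.Xo h1 h2] with η hη g1 g2 g3
  rw [pvthx_Z_zero, pvthx_D_zero] at g2
  have := hη g1 g2 g3
  rw [H.co] at this
  unfold PvucF pvucE1 pvucK1 pvucM1 pvucU1
  rw [pvuc_pl_zero, pvuc_pl_door' _ _ _ _ (Nat.zero_le _), pvuc_cn_zero, pvuc_cn_zero, pvuc_pl_door' _ _ _ _ (Nat.zero_le _), pvuc_Ud_zero, ← H.jo]
  exact this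

/-- the fact of the funnel of the reference plug -/
theorem PvucFc1.fr (H : PvucFc1 𝔓 𝔶 c m z t 𝔨 Co Cr Ce U0 Ut Uu) (a : ℂ) : ∀ᶠ ε in 𝓝[>] (0 : ℝ), ∀ᵐ η ∂(pvP ε),
    η ∈ ((pvydDat 𝔓 𝔶 c).kit m ε).G (pvthZ ((pvydDat 𝔓 𝔶 c).kit m ε).δ (z + (𝔓.Γ m).pout t) ((𝔓.Γ m).dout t) ((𝔓.Γ m).l1 t) ((𝔓.Γ m).l1 t).length)
      (pvthD ((𝔓.Γ m).dout t) ((𝔓.Γ m).l1 t) ((𝔓.Γ m).l1 t).length) →
    η ∈ (pvydDat 𝔓 𝔶 c).Gu m ε z t → η ∈ (pvydDat 𝔓 𝔶 c).Ar m ε z t →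
    PvucF c (pvucE1 𝔓 m z t 𝔨 Co Ce) (pvucK1 𝔓 m z t 𝔨 Co Cr Ce) (pvucM1 𝔓 m z t 𝔨 Co Cr Ce) (pvucU1 𝔓 m z t 𝔨 U0 Ut Uu) (((𝔓.Γ m).l1 t).length + 1) ((pvydDat 𝔓 𝔶 c).Xr m ε a z t η) η := by
  filter_upwards [H.Er, H.detr, H.dict, self_mem_nhdsWithin] with ε h1 h2 h3 hε
  have hδ : (𝔶.kit m ε).δ = (𝔓.Γ m).δ := h3.δ.trans H.del
  obtain ⟨e1, e2⟩ := pvyd_last (𝔓 := 𝔓) (𝔤 := 𝔶) hδ c z t
  filter_upwards [H.lr.fact_at H.wr H.cr c hε H.Xr h1 h2] with η hη g1 g2 g3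
  rw [e1, e2] at g1
  have g1' : η ∈ (pvydKit (𝔶.kit m ε) c).G (pvydWu 𝔓 m z t + (𝔓.Γ m).pin0) (𝔓.Γ m).din0 := g1
  rw [pvyd_kit_G_E] at g1'
  have := hη g1' g2 g3
  unfold PvucF pvucE1 pvucK1 pvucM1 pvucU1
  rw [pvuc_pl_door' _ _ _ _ le_rfl, show ((𝔓.Γ m).l1 t).length + 1 + 1 = ((𝔓.Γ m).l1 t).length + 2 by ring, pvuc_pl_u, pvuc_cn_r, pvuc_cn_r, pvuc_pl_u, ← H.jr, ← H.ju]
  exact this

/-- the fact of the thick link -/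
theorem PvucFc1.fe (H : PvucFc1 𝔓 𝔶 c m z t 𝔨 Co Cr Ce U0 Ut Uu) (a : ℂ) : ∀ᶠ ε in 𝓝[>] (0 : ℝ), ∀ᵐ η ∂(pvP ε), η ∈ (pvydDat 𝔓 𝔶 c).Gu m ε z t → η ∈ (pvydDat 𝔓 𝔶 c).G m ε z t →
    η ∈ (pvydDat 𝔓 𝔶 c).Ae m ε z t →
    PvucF c (pvucE1 𝔓 m z t 𝔨 Co Ce) (pvucK1 𝔓 m z t 𝔨 Co Cr Ce) (pvucM1 𝔓 m z t 𝔨 Co Cr Ce) (pvucU1 𝔓 m z t 𝔨 U0 Ut Uu) (((𝔓.Γ m).l1 t).length + 2) ((pvydDat 𝔓 𝔶 c).Xe m ε a z t η) η := by
  filter_upwards [H.dete, self_mem_nhdsWithin] with ε h2 hε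
  filter_upwards [H.le.fact hε H.Xe H.Ee h2] with η hη g1 g2 g3
  have := hη g1 g2 g3
  rw [H.ce] at this
  unfold PvucF pvucE1 pvucK1 pvucM1 pvucU1
  rw [pvuc_pl_u, show ((𝔓.Γ m).l1 t).length + 2 + 1 = ((𝔓.Γ m).l1 t).length + 3 by ring, pvuc_pl_per, pvuc_cn_e, pvuc_cn_e, pvuc_pl_per, ← H.jt]
  exact this

/-- **FIRST FORM OF THE REGIONS: ALL BY KINDS** (`PvucLg`, mask criterion) -/
structure PvucIn1 (𝔓 : PvrxPar τ cc) (𝔶 : PvydGeo τ) (c : Bool) (m : ℕ) (z : ℂ) (t : τ) (𝔨 : PvkdGeo) (Co Cr Ce : PvkjCn) (U0 Ut Uu : Set ℂ) (zb zf : ℕ → Set ℂ) (B : Set ℂ) (a₀ : ℝ) : Prop where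
  fc : PvucFc1 𝔓 𝔶 c m z t 𝔨 Co Cr Ce U0 Ut Uu
  bB : Bornology.IsBounded B
  a0 : 0 < a₀
  lg : PvucLg ((𝔓.Γ m).l1 t).length Co.e Ce.e (pvjcE 𝔨 (z + (𝔓.Γ m).pout t) ((𝔓.Γ m).dout t) ((𝔓.Γ m).l1 t)) Co.Kc (pvuhAt Cr (pvydWu 𝔓 m z t)).Kc Ce.Kc
    (pvjcKE 𝔨 (z + (𝔓.Γ m).pout t) ((𝔓.Γ m).dout t) ((𝔓.Γ m).l1 t)) Co.M (pvuhAt Cr (pvydWu 𝔓 m z t)).M Ce.M (pvjcMk 𝔨 (z + (𝔓.Γ m).pout t) ((𝔓.Γ m).dout t) ((𝔓.Γ m).l1 t)) Ut Uu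
    (pvucUd U0 𝔨 (z + (𝔓.Γ m).pout t) ((𝔓.Γ m).dout t) ((𝔓.Γ m).l1 t)) zb zf B a₀
  mMc : ∀ i < ((𝔓.Γ m).l1 t).length, MeasurableSet (pvjcMk 𝔨 (z + (𝔓.Γ m).pout t) ((𝔓.Γ m).dout t) ((𝔓.Γ m).l1 t) i)

/-- **THE LONG CYCLE AT THE TERM** -/
theorem PvucIn1.cyc (H : PvucIn1 𝔓 𝔶 c m z t 𝔨 Co Cr Ce U0 Ut Uu zb zf B a₀) (a : ℂ) :
    PvucCyc1 (pvydDat 𝔓 𝔶 c) 𝔓.Γ a m z t c (fun _ => pvucE1 𝔓 m z t 𝔨 Co Ce) (fun _ => pvucK1 𝔓 m z t 𝔨 Co Cr Ce) (fun _ => pvucM1 𝔓 m z t 𝔨 Co Cr Ce) (fun _ => pvucU1 𝔓 m z t 𝔨 U0 Ut Uu) B a₀ where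
  bB := H.bB
  a0 := H.a0
  cyc := Eventually.of_forall fun _ => H.lg.ms.cyc
  pM := Eventually.of_forall fun _ => H.lg.ms.pM
  mM := Eventually.of_forall fun _ j _ => pvuc_cn_all (P := fun M : Set ℂ => MeasurableSet M) _ _ _ _ _ H.fc.lo.wf.mM H.mMc H.fc.lr.wf.mM H.fc.le.wf.mM j
  bM := Eventually.of_forall fun _ j hj => H.bB.subset (H.lg.ms.MB j hj)
  dM := Eventually.of_forall fun _ => H.lg.ms.dM
  fo := H.fc.fo a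
  fk := pvjc_fk_dat H.fc.dict H.fc.geo H.fc.d4 (Eventually.of_forall fun _ i hi => pvuc_pl_door _ _ _ _ hi) (Eventually.of_forall fun _ i hi => pvuc_cn_cell _ _ _ _ _ hi)
    (Eventually.of_forall fun _ i hi => pvuc_cn_cell _ _ _ _ _ hi)
    (Eventually.of_forall fun _ i hi => (pvuc_pl_door _ _ _ _ (Nat.succ_le_of_lt hi)).trans (pvuc_Ud_succ _ _ _ _ _ i))
  fr := H.fc.fr a
  fe := H.fc.fe a

/-- **CLOSE-P, LONG CYCLE, AT THE TERM** = the field `close1` of `PvrsGeoOk` / `PvydAllC` at one candidate -/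
theorem PvucIn1.close (H : PvucIn1 𝔓 𝔶 c m z t 𝔨 Co Cr Ce U0 Ut Uu zb zf B a₀) (a : ℂ) : ∃ (Mk : ℝ → ℕ → Set ℂ) (B : Set ℂ) (a₀ : ℝ), PvcpClose1 (pvydDat 𝔓 𝔶 c) 𝔓.Γ a m z t Mk B a₀ :=
  ⟨_, _, _, pvuc_close1 (H.cyc a)⟩

end term

/-! ## 5'. SECOND FORM OF THE REGIONS: THE FOREIGN PIECES ONLY, BY KINDS      (the cells + `dj1` of 58 pay the rest: 203 `pvjc_cyc1`) -/

/-- **WHAT `t u o r e` OWE IN REGIONS, BY KINDS**.      `a c` = the sectors of `t` (with `o`) and of `u` (with `e`) of the list of 58, `O0 OL` = the regions of the first and of the last door, `Kf` = the region of `r`;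
`ed Kk Mc Ud` = ends, corridors, masks, rooms of the doors and cells (only `dB cB`, the disjointness from the three foreign masks and the two end rooms are asked). -/
structure PvucFg (L : ℕ) (a c : PvsySec PvPt) (O0 OL Kf : Set PvPt) (et eu : PvkjEnd ℂ) (ed : ℕ → PvkjEnd ℂ) (Ko Kr Ke : Set ℂ) (Kk : ℕ → Set ℂ) (Mo Mr Me : Set ℂ) (Mc : ℕ → Set ℂ) (Ut Uu : Set ℂ)
    (Ud : ℕ → Set ℂ) (B : Set ℂ) (a₀ : ℝ) : Prop where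
  okt : et.Ok
  oku : eu.Ok
  uqt : et.Uq
  uqu : eu.Uq
  /-- the zones of the two plugs lie in their regions -/
  ZOt : et.Z ×ˢ (univ : Set Bool) ⊆ a.O
  ZOu : eu.Z ×ˢ (univ : Set Bool) ⊆ c.O
  /-- the three corridors lie in the regions of their sector and of the next plug -/
  KOo : Ko ×ˢ (univ : Set Bool) ⊆ a.O ∪ a.K ∪ O0
  KOr : Kr ×ˢ (univ : Set Bool) ⊆ OL ∪ Kf ∪ c.O
  KOe : Ke ×ˢ (univ : Set Bool) ⊆ c.O ∪ c.K ∪ a.O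
  /-- .. and in their masks -/
  Ko : Ko ⊆ Mo
  Kr : Kr ⊆ Mr
  Ke : Ke ⊆ Me
  /-- the three masks: Borel, pairwise disjoint, off the masks of the cells -/
  mMo : MeasurableSet Mo
  mMr : MeasurableSet Mr
  mMe : MeasurableSet Me
  Mok : ∀ i < L, Disjoint Mo (Mc i)
  Mor : Disjoint Mo Mr
  Moe : Disjoint Mo Me
  Mkr : ∀ i < L, Disjoint (Mc i) Mr
  Mke : ∀ i < L, Disjoint (Mc i) Me
  Mre : Disjoint Mr Me
  /-- the rooms of the first door, of the last door, of `u`, of `t` lie in the masks of their two connectors -/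
  U0 : Ud 0 ⊆ Mo ∪ pvucCn Mo Mc Mr Me L 1
  UL : Ud L ⊆ pvucCn Mo Mc Mr Me L L ∪ Mr
  Uu : Uu ⊆ Mr ∪ Me
  Ut : Ut ⊆ Me ∪ Mo
  /-- everything is inside `B` -/
  ZBt : et.Z ⊆ B
  ZBu : eu.Z ⊆ B
  Bo : Mo ⊆ B
  Br : Mr ⊆ B
  Be : Me ⊆ B
  dB : ∀ i ≤ L, (ed i).Z ⊆ B
  cB : ∀ i < L, Kk i ⊆ B
  /-- `t` and `u` are `a₀` apart -/
  big : ∀ p ∈ et.Z, ∀ p' ∈ eu.Z, a₀ ≤ ‖p - p'‖

/-- **by kinds ⟹ the record of 203 at the sequences of sec. 1** -/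
theorem PvucFg.for {kit : PvthKit} {z d : ℂ} {l : List PvtTurn} {a c : PvsySec PvPt} {Kf : Set PvPt} {Af : Set (Conf PvPt)} {et eu : PvkjEnd ℂ} {ed : ℕ → PvkjEnd ℂ} {Ko Kr Ke : Set ℂ} {Kk : ℕ → Set ℂ}
    {Mo Mr Me : Set ℂ} {Mc : ℕ → Set ℂ} {Ut Uu : Set ℂ} {Ud : ℕ → Set ℂ} {B : Set ℂ} {a₀ : ℝ} (bB : Bornology.IsBounded B)
    (H : PvucFg l.length a c (kit.O (pvthZ kit.δ z d l 0) (pvthD d l 0)) (kit.O (pvthZ kit.δ z d l l.length) (pvthD d l l.length)) Kf et eu ed Ko Kr Ke Kk Mo Mr Me Mc Ut Uu Ud B a₀) :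
    PvjcFor l.length (pvskList a kit z d l Kf Af c) (pvucPl et ed eu l.length) (pvucCn Ko Kk Kr Ke l.length) (pvucCn Mo Mc Mr Me l.length) (pvucPl Ut Ud Uu l.length) B a₀ where
  per := by rw [pvuc_pl_per, pvuc_pl_zero]
  ok := by
    rintro j (rfl | rfl)
    · rw [pvuc_pl_zero]; exact H.okt
    · rw [pvuc_pl_u]; exact H.oku
  uq := by
    rintro j (rfl | rfl)
    · rw [pvuc_pl_zero]; exact H.uqt
    · rw [pvuc_pl_u]; exact H.uqu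
  ZO := by
    rintro j (rfl | rfl)
    · rw [pvuc_pl_zero, pvsk_list_zero]; exact H.ZOt
    · rw [pvuc_pl_u, pvsk_list_last]; exact H.ZOu
  ZB := by
    rintro j (rfl | rfl)
    · rw [pvuc_pl_zero]; exact H.ZBt
    · rw [pvuc_pl_u]; exact H.ZBu
  KO := by
    rintro j (rfl | rfl | rfl)
    · rw [pvuc_cn_zero, pvsk_list_zero, Nat.mod_eq_of_lt (by omega), show 0 + 1 = 1 + 0 by ring, pvsk_list_O (Nat.zero_le _)]; exact H.KOo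
    · rw [pvuc_cn_r, Nat.mod_eq_of_lt (by omega), show l.length + 1 + 1 = l.length + 2 by ring, pvsk_list_last, pvsk_list_door]; exact H.KOr
    · rw [pvuc_cn_e, show l.length + 2 + 1 = l.length + 3 by ring, Nat.mod_self, pvsk_list_last, pvsk_list_zero]; exact H.KOe
  KM := by
    rintro j (rfl | rfl | rfl)
    · rw [pvuc_cn_zero, pvuc_cn_zero]; exact H.Ko
    · rw [pvuc_cn_r, pvuc_cn_r]; exact H.Kr
    · rw [pvuc_cn_e, pvuc_cn_e]; exact H.Ke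
  KB := by
    rintro j (rfl | rfl | rfl)
    · rw [pvuc_cn_zero]; exact H.Ko.trans H.Bo
    · rw [pvuc_cn_r]; exact H.Kr.trans H.Br
    · rw [pvuc_cn_e]; exact H.Ke.trans H.Be
  mM := by
    rintro j (rfl | rfl | rfl)
    · rw [pvuc_cn_zero]; exact H.mMo
    · rw [pvuc_cn_r]; exact H.mMr
    · rw [pvuc_cn_e]; exact H.mMe
  bM := by
    rintro j (rfl | rfl | rfl)
    · rw [pvuc_cn_zero]; exact bB.subset H.Bo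
    · rw [pvuc_cn_r]; exact bB.subset H.Br
    · rw [pvuc_cn_e]; exact bB.subset H.Be
  dM := by
    intro i j hi hj hij
    rcases pvuc_kinds l.length hj with rfl | ⟨b, hb, rfl⟩ | rfl | rfl <;> rcases hi with rfl | rfl | rfl
    · exact absurd rfl hij
    · rw [pvuc_cn_zero, pvuc_cn_r]; exact H.Mor.symm
    · rw [pvuc_cn_zero, pvuc_cn_e]; exact H.Moe.symm
    · rw [pvuc_cn_zero, pvuc_cn_cell _ _ _ _ _ hb]; exact H.Mok b hb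
    · rw [pvuc_cn_r, pvuc_cn_cell _ _ _ _ _ hb]; exact (H.Mkr b hb).symm
    · rw [pvuc_cn_e, pvuc_cn_cell _ _ _ _ _ hb]; exact (H.Mke b hb).symm
    · rw [pvuc_cn_zero, pvuc_cn_r]; exact H.Mor
    · exact absurd rfl hij
    · rw [pvuc_cn_r, pvuc_cn_e]; exact H.Mre.symm
    · rw [pvuc_cn_zero, pvuc_cn_e]; exact H.Moe
    · rw [pvuc_cn_r, pvuc_cn_e]; exact H.Mre
    · exact absurd rfl hij
  UM := by
    rintro j (rfl | rfl | rfl | rfl)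
    · rw [pvuc_pl_door' _ _ _ _ (Nat.zero_le _), pvuc_cn_zero]; exact H.U0
    · rw [pvuc_pl_door' _ _ _ _ le_rfl, pvuc_cn_r]; exact H.UL
    · rw [show l.length + 1 + 1 = l.length + 2 by ring, pvuc_pl_u, pvuc_cn_r, pvuc_cn_e]; exact H.Uu
    · rw [show l.length + 2 + 1 = l.length + 3 by ring, pvuc_pl_per, pvuc_cn_e, pvuc_cn_per]; exact H.Ut
  dB := fun i hi => by rw [pvuc_pl_door _ _ _ _ hi]; exact H.dB i hi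
  cB := fun i hi => by rw [pvuc_cn_cell _ _ _ _ _ hi]; exact H.cB i hi
  big := by rw [pvuc_pl_zero, pvuc_pl_u]; exact H.big

section term'

variable {τ : Type} {cc : ℝ}

/-- **ALL THAT CLOSE-P, LONG CYCLE, ASKS AT THE CANDIDATE `(m, z, t)`: SECOND FORM** = the facts `PvucFc1` + the kit (`PvjcReg`: 203 244 `pvjc_reg_rec`; `hO hK`: `rfl` at the term) + the word is cell-simple (114 183)
+ `dj` = `CandOk.dj1` VERBATIM (58 `Exit/DjP`) + **`fg` = the foreign pieces by kinds** (113) -/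
structure PvucJn1 (𝔓 : PvrxPar τ cc) (𝔶 : PvydGeo τ) (c : Bool) (m : ℕ) (z : ℂ) (t : τ) (𝔨 : PvkdGeo) (Co Cr Ce : PvkjCn) (U0 Ut Uu : Set ℂ) (B : Set ℂ) (a₀ : ℝ) : Prop where
  fc : PvucFc1 𝔓 𝔶 c m z t 𝔨 Co Cr Ce U0 Ut Uu
  bB : Bornology.IsBounded B
  a0 : 0 < a₀
  reg : PvjcReg 𝔨
  hO : ∀ᶠ ε in 𝓝[>] (0 : ℝ), (𝔶.kit m ε).O₀ = 𝔨.O₀
  hK : ∀ᶠ ε in 𝓝[>] (0 : ℝ), (𝔶.kit m ε).K₀ = 𝔨.K₀
  simple : ∃ N, PvccSimple ((𝔓.Γ m).l1 t) N ∧ N ≤ ((𝔓.Γ m).l1 t).length ∧ ((𝔓.Γ m).l1 t).length ≤ N + 1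
  dj : ∀ᶠ ε in 𝓝[>] (0 : ℝ), PvydDj (((𝔓.Γ m).l1 t).length + 3)
    (pvskList ((pvydDat 𝔓 𝔶 c).sOut m ε z t) ((pvydDat 𝔓 𝔶 c).kit m ε) (z + (𝔓.Γ m).pout t) ((𝔓.Γ m).dout t) ((𝔓.Γ m).l1 t) ((pvydDat 𝔓 𝔶 c).Kr m ε z t) ((pvydDat 𝔓 𝔶 c).Ar m ε z t)
      ((pvydDat 𝔓 𝔶 c).sRef m ε z t))
  fg : ∀ᶠ ε in 𝓝[>] (0 : ℝ), PvucFg ((𝔓.Γ m).l1 t).length ((pvydDat 𝔓 𝔶 c).sOut m ε z t) ((pvydDat 𝔓 𝔶 c).sRef m ε z t)
    (((pvydDat 𝔓 𝔶 c).kit m ε).O (pvthZ ((pvydDat 𝔓 𝔶 c).kit m ε).δ (z + (𝔓.Γ m).pout t) ((𝔓.Γ m).dout t) ((𝔓.Γ m).l1 t) 0) (pvthD ((𝔓.Γ m).dout t) ((𝔓.Γ m).l1 t) 0))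
    (((pvydDat 𝔓 𝔶 c).kit m ε).O (pvthZ ((pvydDat 𝔓 𝔶 c).kit m ε).δ (z + (𝔓.Γ m).pout t) ((𝔓.Γ m).dout t) ((𝔓.Γ m).l1 t) ((𝔓.Γ m).l1 t).length) (pvthD ((𝔓.Γ m).dout t) ((𝔓.Γ m).l1 t) ((𝔓.Γ m).l1 t).length))
    ((pvydDat 𝔓 𝔶 c).Kr m ε z t) Co.e Ce.e (pvjcE 𝔨 (z + (𝔓.Γ m).pout t) ((𝔓.Γ m).dout t) ((𝔓.Γ m).l1 t)) Co.Kc (pvuhAt Cr (pvydWu 𝔓 m z t)).Kc Ce.Kc
    (pvjcKE 𝔨 (z + (𝔓.Γ m).pout t) ((𝔓.Γ m).dout t) ((𝔓.Γ m).l1 t)) Co.M (pvuhAt Cr (pvydWu 𝔓 m z t)).M Ce.M (pvjcMk 𝔨 (z + (𝔓.Γ m).pout t) ((𝔓.Γ m).dout t) ((𝔓.Γ m).l1 t)) Ut Uu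
    (pvucUd U0 𝔨 (z + (𝔓.Γ m).pout t) ((𝔓.Γ m).dout t) ((𝔓.Γ m).l1 t)) B a₀

variable {𝔓 : PvrxPar τ cc} {𝔶 : PvydGeo τ} {c : Bool} {m : ℕ} {z : ℂ} {t : τ} {𝔨 : PvkdGeo} {Co Cr Ce : PvkjCn} {U0 Ut Uu : Set ℂ} {B : Set ℂ} {a₀ : ℝ}

/-- **THE LONG CYCLE AT THE TERM, SECOND FORM** -/
theorem PvucJn1.cyc (H : PvucJn1 𝔓 𝔶 c m z t 𝔨 Co Cr Ce U0 Ut Uu B a₀) (a : ℂ) :
    PvucCyc1 (pvydDat 𝔓 𝔶 c) 𝔓.Γ a m z t c (fun _ => pvucE1 𝔓 m z t 𝔨 Co Ce) (fun _ => pvucK1 𝔓 m z t 𝔨 Co Cr Ce) (fun _ => pvucM1 𝔓 m z t 𝔨 Co Cr Ce) (fun _ => pvucU1 𝔓 m z t 𝔨 U0 Ut Uu) B a₀ := by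
  obtain ⟨N, hs, hN, hN'⟩ := H.simple
  refine pvjc_cyc1 (D := pvydDat 𝔓 𝔶 c) (kit := 𝔶.kit m) (X₀ := 𝔶.X₀ m) H.bB H.a0 (Eventually.of_forall fun _ => rfl) (Eventually.of_forall fun _ => rfl) H.fc.dict H.reg H.hO H.hK H.fc.d4 hs hN hN' H.dj
    (Eventually.of_forall fun _ i hi => pvuc_pl_door _ _ _ _ hi) (Eventually.of_forall fun _ i hi => pvuc_cn_cell _ _ _ _ _ hi)
    (Eventually.of_forall fun _ i hi => pvuc_cn_cell _ _ _ _ _ hi)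
    (Eventually.of_forall fun _ i hi => (pvuc_pl_door _ _ _ _ (Nat.succ_le_of_lt hi)).trans (pvuc_Ud_succ _ _ _ _ _ i)) ?_ (Eventually.of_forall fun _ => ?_) (H.fc.fo a) (H.fc.fr a) (H.fc.fe a)
  · filter_upwards [H.fg] with ε h
    exact h.for H.bB
  · show pvucCn _ _ _ _ _ _ = pvucCn _ _ _ _ _ _
    rw [pvuc_cn_per, pvuc_cn_zero]

/-- **CLOSE-P, LONG CYCLE, AT THE TERM, SECOND FORM** -/
theorem PvucJn1.close (H : PvucJn1 𝔓 𝔶 c m z t 𝔨 Co Cr Ce U0 Ut Uu B a₀) (a : ℂ) : ∃ (Mk : ℝ → ℕ → Set ℂ) (B : Set ℂ) (a₀ : ℝ), PvcpClose1 (pvydDat 𝔓 𝔶 c) 𝔓.Γ a m z t Mk B a₀ :=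
  ⟨_, _, _, pvuc_close1 (H.cyc a)⟩

end term'

/-! ## 6. THE SHORT CYCLE AT THE TERM OF 58 -/

/-- the sequences of the short cycle: `1 ↦ x1`, else `x0` -/
def pvucTw {α : Type*} (x0 x1 : α) (j : ℕ) : α := if j = 1 then x1 else x0

theorem pvuc_eqns_cite3 : True := by
  have := @pvucTw.eq_1.{0}
  trivial

/-- **THE REGIONS OF THE SHORT CYCLE** `t -b-> u -e-> t` -/
structure PvucSh (et eu : PvkjEnd ℂ) (Kb Ke Mb Me Ut Uu B : Set ℂ) (a₀ : ℝ) : Prop where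
  okt : et.Ok
  oku : eu.Ok
  uqt : et.Uq
  uqu : eu.Uq
  Ztu : Disjoint et.Z eu.Z
  Mbe : Disjoint Mb Me
  Kb : Kb ⊆ Mb
  Ke : Ke ⊆ Me
  Zt : et.Z ∪ Ut ⊆ Me ∪ Mb
  Zu : eu.Z ∪ Uu ⊆ Mb ∪ Me
  Bb : Mb ⊆ B
  Be : Me ⊆ B
  big : ∀ p ∈ et.Z, ∀ p' ∈ eu.Z, a₀ ≤ ‖p - p'‖

theorem PvucSh.ms {et eu : PvkjEnd ℂ} {Kb Ke Mb Me Ut Uu B : Set ℂ} {a₀ : ℝ} (H : PvucSh et eu Kb Ke Mb Me Ut Uu B a₀) :
    PvucMs 2 (pvucTw et eu) (pvucTw Kb Ke) (pvucTw Mb Me) (pvucTw Ut Uu) B a₀ where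
  two := le_rfl
  per := rfl
  pM := rfl
  ok := by
    intro j hj
    interval_cases j
    · exact H.okt
    · exact H.oku
  uq := by
    intro j hj
    interval_cases j
    · exact H.uqt
    · exact H.uqu
  dZZ := by
    intro i j hi hj hij
    interval_cases i <;> interval_cases j
    · exact absurd rfl hij
    · exact H.Ztu
    · exact H.Ztu.symm
    · exact absurd rfl hij
  dM := by
    intro i hi j hj hij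
    interval_cases i <;> interval_cases j
    · exact absurd rfl hij
    · exact H.Mbe
    · exact H.Mbe.symm
    · exact absurd rfl hij
  KM := by
    intro j hj
    interval_cases j
    · exact H.Kb
    · exact H.Ke
  ZM := by
    intro j hj
    interval_cases j
    · exact subset_union_left.trans H.Zu
    · exact subset_union_left.trans H.Zt
  UM := by
    intro j hj
    interval_cases j
    · exact subset_union_right.trans H.Zu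
    · exact subset_union_right.trans H.Zt
  MB := by
    intro j hj
    interval_cases j
    · exact H.Bb
    · exact H.Be
  big := ⟨0, 1, by omega, by omega, H.big⟩

section term2

variable {τ : Type} {cc : ℝ}

/-- **ALL THAT CLOSE-P, SHORT CYCLE, ASKS AT THE CANDIDATE `(m, z, t)`, RIMS OF COLOUR `c`**.      `Cb Ce` = the placed connectors of 113 of the two thick links (ABSOLUTE);   `Ce` IS THE SAME AS IN THE LONG CYCLE (`Xe`);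
the area of its mask is `≤ cM h²`, `cM` UNIFORM. -/
structure PvucIn2 (𝔓 : PvrxPar τ cc) (𝔶 : PvydGeo τ) (c : Bool) (m : ℕ) (z : ℂ) (t : τ) (Cb Ce : PvkjCn) (Ut Uu B : Set ℂ) (a₀ cM h : ℝ) : Prop where
  c0 : 0 ≤ cM
  bB : Bornology.IsBounded B
  cb : Cb.col = c
  ce : Ce.col = c
  ju : Cb.e' = Ce.e
  jt : Ce.e' = Cb.e
  sh : PvucSh Cb.e Ce.e Cb.Kc Ce.Kc Cb.M Ce.M Ut Uu B a₀
  vol : volume Ce.M ≤ ENNReal.ofReal (cM * h ^ 2)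
  lb : PvucLk Cb Uu
  le : PvucLk Ce Ut
  Xb : 𝔶.Xb m z t = pvkjX Cb
  Xe : 𝔶.Xe m z t = pvkjX Ce
  Eb : Cb.E ×ˢ (univ : Set Bool) ⊆ pvnhRd (𝔶.lb 𝔓 c m z t) (𝔶.wb m z t).Et
  Ee : Ce.E ×ˢ (univ : Set Bool) ⊆ pvnhRd (𝔶.le 𝔓 c m z t) (𝔶.we m z t).Et
  detb : ∀ᶠ ε in 𝓝[>] (0 : ℝ), ∀ᵐ η ∂(pvP ε), η ∈ pvydG 𝔓 m ε z t → η ∈ 𝔶.GU 𝔓 c m ε z t → η ∈ (pvydDat 𝔓 𝔶 c).Ab m ε z t → η ∈ pvkjA Cb
  dete : ∀ᶠ ε in 𝓝[>] (0 : ℝ), ∀ᵐ η ∂(pvP ε), η ∈ 𝔶.GU 𝔓 c m ε z t → η ∈ pvydG 𝔓 m ε z t → η ∈ (pvydDat 𝔓 𝔶 c).Ae m ε z t → η ∈ pvkjA Ce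

variable {𝔓 : PvrxPar τ cc} {𝔶 : PvydGeo τ} {c : Bool} {m : ℕ} {z : ℂ} {t : τ} {Cb Ce : PvkjCn} {Ut Uu B : Set ℂ} {a₀ cM h : ℝ}

/-- **THE SHORT CYCLE AT THE TERM** -/
theorem PvucIn2.cyc (H : PvucIn2 𝔓 𝔶 c m z t Cb Ce Ut Uu B a₀ cM h) (a : ℂ) :
    PvucCyc2 (pvydDat 𝔓 𝔶 c) a m z t c (fun _ => pvucTw Cb.e Ce.e) (fun _ => pvucTw Cb.Kc Ce.Kc) (fun _ => pvucTw Cb.M Ce.M) (fun _ => pvucTw Ut Uu) (fun _ => B) (fun _ => a₀) cM h where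
  c0 := H.c0
  cyc := Eventually.of_forall fun _ => H.sh.ms.cyc
  pM := Eventually.of_forall fun _ => rfl
  mM := Eventually.of_forall fun _ => H.le.wf.mM
  bM := Eventually.of_forall fun _ => H.bB.subset H.sh.Be
  dM := Eventually.of_forall fun _ => H.sh.Mbe
  vol := Eventually.of_forall fun _ => H.vol
  fb := by
    filter_upwards [H.detb, self_mem_nhdsWithin] with ε h2 hε
    filter_upwards [H.lb.fact hε H.Xb H.Eb h2] with η hη g1 g2 g3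
    have := hη g1 g2 g3
    rw [H.cb, H.ju] at this
    exact this
  fe := by
    filter_upwards [H.dete, self_mem_nhdsWithin] with ε h2 hε
    filter_upwards [H.le.fact hε H.Xe H.Ee h2] with η hη g1 g2 g3
    have := hη g1 g2 g3
    rw [H.ce, H.jt] at this
    exact this

/-- **CLOSE-P, SHORT CYCLE, AT THE TERM** = the field `close2` of `PvrsGeoOk` / `PvydAllC` at one candidate -/
theorem PvucIn2.close (H : PvucIn2 𝔓 𝔶 c m z t Cb Ce Ut Uu B a₀ cM h) (a : ℂ) : PvcpClose2 (pvydDat 𝔓 𝔶 c) a m z t (fun _ => Ce.M) cM h :=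
  pvuc_close2 (H.cyc a)

end term2

/-! ## 7. ALL THE DEBTS OF THE SUPPLIERS AT ONE CANDIDATE, ANY `𝔓 𝔶` -/

section sup

variable {τ : Type} {cc : ℝ}

/-- **THE CONTRACT OF CLOSE-P AT THE CANDIDATE `(m, z, t)`** (colour `(𝔓.ty m z t).col`).      DATA: `𝔨` = cells of level `m`;   `Co Ce Cb` = placed connectors of 113 (ABSOLUTE), `Cr` (REFERENCE FRAME, black);
`KDo KDr KDe KDb` = the rooms of (DET) of 272 (the corridors are the rooms CUT at the deep discs);   `Ut Uu` = rooms of the tags of the inner arcs of `t u` in the long cycle, `Vt Vu` in the short cycle;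
`B a₀`;   `cM` = the UNIFORM constant of the area of the mask of `e`, `h` = the scale.
SUPPLIERS: kit 203 244 291 | colours joins masses windows rooms regions `vol` 113 (`Exit/GeoCP`) | `Do Dr De Db` 272 277 291 270. -/
structure PvucSup (𝔓 : PvrxPar τ cc) (𝔶 : PvydGeo τ) (m : ℕ) (z : ℂ) (t : τ) (𝔨 : PvkdGeo) (Co Cr Ce Cb : PvkjCn) (KDo KDr KDe KDb : Set ℂ) (U0 Ut Uu Vt Vu : Set ℂ) (B : Set ℂ) (a₀ cM h : ℝ) : Prop where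
  /-- the kit -/
  dict : ∀ᶠ ε in 𝓝[>] (0 : ℝ), PvjcDict (𝔶.kit m ε) (𝔶.X₀ m ε) 𝔨 ε
  reg : PvjcReg 𝔨
  hO : ∀ᶠ ε in 𝓝[>] (0 : ℝ), (𝔶.kit m ε).O₀ = 𝔨.O₀
  hK : ∀ᶠ ε in 𝓝[>] (0 : ℝ), (𝔶.kit m ε).K₀ = 𝔨.K₀
  del : 𝔨.δ = (𝔓.Γ m).δ
  simple : ∃ N, PvccSimple ((𝔓.Γ m).l1 t) N ∧ N ≤ ((𝔓.Γ m).l1 t).length ∧ ((𝔓.Γ m).l1 t).length ≤ N + 1
  bB : Bornology.IsBounded B
  a0 : 0 < a₀
  c0 : 0 ≤ cM
  /-- colours -/
  co : Co.col = (𝔓.ty m z t).col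
  cr : Cr.col = true
  ce : Ce.col = (𝔓.ty m z t).col
  cb : Cb.col = (𝔓.ty m z t).col
  /-- joins -/
  jo : Co.e' = pvjcE 𝔨 (z + (𝔓.Γ m).pout t) ((𝔓.Γ m).dout t) ((𝔓.Γ m).l1 t) 0
  jr : (pvuhAt Cr (pvydWu 𝔓 m z t)).e = pvjcE 𝔨 (z + (𝔓.Γ m).pout t) ((𝔓.Γ m).dout t) ((𝔓.Γ m).l1 t) ((𝔓.Γ m).l1 t).length
  ju : (pvuhAt Cr (pvydWu 𝔓 m z t)).e' = Ce.e
  jt : Ce.e' = Co.e
  jb : Cb.e = Co.e
  jb' : Cb.e' = Ce.e
  /-- the rooms of each connector -/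
  lo : PvucLk Co U0
  lr : PvucLk (pvuhAt Cr (pvydWu 𝔓 m z t)) Uu
  le : PvucLk Ce Ut
  lb : PvucLk Cb Vu
  le' : PvucLk Ce Vt
  /-- masses -/
  Xo : 𝔶.Xo m z t = pvkjX Co
  Xr : 𝔶.Xr m = pvkjX Cr
  Xe : 𝔶.Xe m z t = pvkjX Ce
  Xb : 𝔶.Xb m z t = pvkjX Cb
  /-- windows -/
  Eo : ∀ᶠ ε in 𝓝[>] (0 : ℝ), Co.E ×ˢ (univ : Set Bool) ⊆ pvnhRd (𝔶.lo 𝔓 (𝔓.ty m z t).col m ε z t) (𝔶.wo m z t).Et
  Er : ∀ᶠ ε in 𝓝[>] (0 : ℝ), Cr.E ×ˢ (univ : Set Bool) ⊆ pvnhRd (𝔶.lr 𝔓 m ε) (𝔶.wr m).Et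
  Ee : Ce.E ×ˢ (univ : Set Bool) ⊆ pvnhRd (𝔶.le 𝔓 (𝔓.ty m z t).col m z t) (𝔶.we m z t).Et
  Eb : Cb.E ×ˢ (univ : Set Bool) ⊆ pvnhRd (𝔶.lb 𝔓 (𝔓.ty m z t).col m z t) (𝔶.wb m z t).Et
  /-- the regions of the long cycle: the foreign pieces by kinds -/
  fg : ∀ᶠ ε in 𝓝[>] (0 : ℝ), PvucFg ((𝔓.Γ m).l1 t).length ((pvydDat 𝔓 𝔶 (𝔓.ty m z t).col).sOut m ε z t) ((pvydDat 𝔓 𝔶 (𝔓.ty m z t).col).sRef m ε z t)
    (((pvydDat 𝔓 𝔶 (𝔓.ty m z t).col).kit m ε).O (pvthZ ((pvydDat 𝔓 𝔶 (𝔓.ty m z t).col).kit m ε).δ (z + (𝔓.Γ m).pout t) ((𝔓.Γ m).dout t) ((𝔓.Γ m).l1 t) 0) (pvthD ((𝔓.Γ m).dout t) ((𝔓.Γ m).l1 t) 0))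
    (((pvydDat 𝔓 𝔶 (𝔓.ty m z t).col).kit m ε).O (pvthZ ((pvydDat 𝔓 𝔶 (𝔓.ty m z t).col).kit m ε).δ (z + (𝔓.Γ m).pout t) ((𝔓.Γ m).dout t) ((𝔓.Γ m).l1 t) ((𝔓.Γ m).l1 t).length)
      (pvthD ((𝔓.Γ m).dout t) ((𝔓.Γ m).l1 t) ((𝔓.Γ m).l1 t).length))
    ((pvydDat 𝔓 𝔶 (𝔓.ty m z t).col).Kr m ε z t) Co.e Ce.e (pvjcE 𝔨 (z + (𝔓.Γ m).pout t) ((𝔓.Γ m).dout t) ((𝔓.Γ m).l1 t)) Co.Kc (pvuhAt Cr (pvydWu 𝔓 m z t)).Kc Ce.Kc
    (pvjcKE 𝔨 (z + (𝔓.Γ m).pout t) ((𝔓.Γ m).dout t) ((𝔓.Γ m).l1 t)) Co.M (pvuhAt Cr (pvydWu 𝔓 m z t)).M Ce.M (pvjcMk 𝔨 (z + (𝔓.Γ m).pout t) ((𝔓.Γ m).dout t) ((𝔓.Γ m).l1 t)) Ut Uu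
    (pvucUd U0 𝔨 (z + (𝔓.Γ m).pout t) ((𝔓.Γ m).dout t) ((𝔓.Γ m).l1 t)) B a₀
  /-- the regions of the short cycle -/
  sh : PvucSh Cb.e Ce.e Cb.Kc Ce.Kc Cb.M Ce.M Vt Vu B a₀
  vol : volume Ce.M ≤ ENNReal.ofReal (cM * h ^ 2)
  /-- (DET): one record of 272 per link -/
  Do : ∀ᶠ ε in 𝓝[>] (0 : ℝ), Pvn2Rec ε (𝔶.lo 𝔓 (𝔓.ty m z t).col m ε z t) (𝔶.wo m z t).M (pvydG 𝔓 m ε z t)
    ((pvydKit (𝔶.kit m ε) (𝔓.ty m z t).col).G (z + (𝔓.Γ m).pout t) ((𝔓.Γ m).dout t)) Co KDo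
  Dr : ∀ᶠ ε in 𝓝[>] (0 : ℝ), Pvn2Rec ε (𝔶.lr 𝔓 m ε) (𝔶.wr m).M ((𝔶.kit m ε).G (𝔓.Γ m).pin0 (𝔓.Γ m).din0) (𝔶.Gu m ε) Cr KDr
  De : ∀ᶠ ε in 𝓝[>] (0 : ℝ), Pvn2Rec ε (𝔶.le 𝔓 (𝔓.ty m z t).col m z t) (𝔶.we m z t).M (𝔶.GU 𝔓 (𝔓.ty m z t).col m ε z t) (pvydG 𝔓 m ε z t) Ce KDe
  Db : ∀ᶠ ε in 𝓝[>] (0 : ℝ), Pvn2Rec ε (𝔶.lb 𝔓 (𝔓.ty m z t).col m z t) (𝔶.wb m z t).M (pvydG 𝔓 m ε z t) (𝔶.GU 𝔓 (𝔓.ty m z t).col m ε z t) Cb KDb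

variable {𝔓 : PvrxPar τ cc} {𝔶 : PvydGeo τ} {m : ℕ} {z : ℂ} {t : τ} {𝔨 : PvkdGeo} {Co Cr Ce Cb : PvkjCn} {KDo KDr KDe KDb : Set ℂ} {U0 Ut Uu Vt Vu : Set ℂ} {B : Set ℂ} {a₀ cM h : ℝ}
variable {n nu : ℕ} {βk βu q0 : ℝ} {β' qk : ℝ≥0∞}

/-- the contract + P16 of 272 ⟹ the long cycle -/
theorem PvucSup.jn1 (S : PvucSup 𝔓 𝔶 m z t 𝔨 Co Cr Ce Cb KDo KDr KDe KDb U0 Ut Uu Vt Vu B a₀ cM h) (hq0 : 0 < q0) (hq1 : q0 ≤ 1) (hQ : PvlqQbx q0) (hW : 𝔓.Wf) (hβ : 0 < 𝔓.mod.N.β)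
    (K : 𝔶.KitOk 𝔓 m β' qk) (Cd : 𝔶.CandOk 𝔓 m z t) (U : PvndKitUp 𝔶 𝔓 m βk βu n) (R : PvndCand 𝔶 𝔓 n nu m z t)
    (qo : 𝔶.qo m ≤ pvndQ q0 n (min 𝔓.mod.N.β βk)) (qr : 𝔶.qr m ≤ pvndQ q0 n (min βk βu)) (qe : 𝔶.qe ≤ pvndQ q0 nu (min 𝔓.mod.N.β βu)) :
    PvucJn1 𝔓 𝔶 (𝔓.ty m z t).col m z t 𝔨 Co Cr Ce U0 Ut Uu B a₀ where
  fc :=
    { dict := S.dict
      geo := S.reg.geo
      del := S.del
      d4 := Cd.d4o
      co := S.co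
      cr := S.cr
      ce := S.ce
      jo := S.jo
      jr := S.jr
      ju := S.ju
      jt := S.jt
      lo := S.lo
      wr := by
        obtain ⟨ε, hε⟩ := S.Dr.exists
        exact hε.wf
      lr := S.lr
      le := S.le
      Xo := S.Xo
      Xr := S.Xr
      Xe := S.Xe
      Eo := S.Eo
      Er := S.Er
      Ee := S.Ee
      deto := pvn2_o (C := fun _ => Co) (KE := fun _ => KDo) hq0 hq1 hQ hW hβ K Cd U R qo S.Do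
      detr := pvn2_r (C := fun _ => Cr) (KE := fun _ => KDr) hq0 hq1 hQ K U qr S.Dr
      dete := pvn2_e (C := fun _ => Ce) (KE := fun _ => KDe) hq0 hq1 hQ hW hβ K Cd U R qe S.De }
  bB := S.bB
  a0 := S.a0
  reg := S.reg
  hO := S.hO
  hK := S.hK
  simple := S.simple
  dj := Cd.dj1
  fg := S.fg

/-- the contract + P16 of 272 ⟹ the short cycle -/
theorem PvucSup.in2 (S : PvucSup 𝔓 𝔶 m z t 𝔨 Co Cr Ce Cb KDo KDr KDe KDb U0 Ut Uu Vt Vu B a₀ cM h) (hq0 : 0 < q0) (hq1 : q0 ≤ 1) (hQ : PvlqQbx q0) (hW : 𝔓.Wf) (hβ : 0 < 𝔓.mod.N.β)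
    (K : 𝔶.KitOk 𝔓 m β' qk) (Cd : 𝔶.CandOk 𝔓 m z t) (U : PvndKitUp 𝔶 𝔓 m βk βu n) (R : PvndCand 𝔶 𝔓 n nu m z t)
    (qe : 𝔶.qe ≤ pvndQ q0 nu (min 𝔓.mod.N.β βu)) (qb : 𝔶.qb ≤ pvndQ q0 nu (min 𝔓.mod.N.β βu)) :
    PvucIn2 𝔓 𝔶 (𝔓.ty m z t).col m z t Cb Ce Vt Vu B a₀ cM h where
  c0 := S.c0
  bB := S.bB
  cb := S.cb
  ce := S.ce
  ju := S.jb'
  jt := S.jt.trans S.jb.symm
  sh := S.sh
  vol := S.vol
  lb := S.lb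
  le := S.le'
  Xb := S.Xb
  Xe := S.Xe
  Eb := S.Eb
  Ee := S.Ee
  detb := pvn2_b (C := fun _ => Cb) (KE := fun _ => KDb) hq0 hq1 hQ hW hβ K Cd U R qb S.Db
  dete := pvn2_e (C := fun _ => Ce) (KE := fun _ => KDe) hq0 hq1 hQ hW hβ K Cd U R qe S.De

/-- **THE FIELD `close1` AT ONE CANDIDATE FROM THE CONTRACT** -/
theorem PvucSup.close1 (S : PvucSup 𝔓 𝔶 m z t 𝔨 Co Cr Ce Cb KDo KDr KDe KDb U0 Ut Uu Vt Vu B a₀ cM h) (hq0 : 0 < q0) (hq1 : q0 ≤ 1) (hQ : PvlqQbx q0) (hW : 𝔓.Wf) (hβ : 0 < 𝔓.mod.N.β)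
    (K : 𝔶.KitOk 𝔓 m β' qk) (Cd : 𝔶.CandOk 𝔓 m z t) (U : PvndKitUp 𝔶 𝔓 m βk βu n) (R : PvndCand 𝔶 𝔓 n nu m z t)
    (qo : 𝔶.qo m ≤ pvndQ q0 n (min 𝔓.mod.N.β βk)) (qr : 𝔶.qr m ≤ pvndQ q0 n (min βk βu)) (qe : 𝔶.qe ≤ pvndQ q0 nu (min 𝔓.mod.N.β βu)) (a : ℂ) :
    ∃ (Mk : ℝ → ℕ → Set ℂ) (B : Set ℂ) (a₀ : ℝ), PvcpClose1 (pvydDat 𝔓 𝔶 (𝔓.ty m z t).col) 𝔓.Γ a m z t Mk B a₀ :=
  (S.jn1 hq0 hq1 hQ hW hβ K Cd U R qo qr qe).close a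

/-- **THE FIELD `close2` AT ONE CANDIDATE FROM THE CONTRACT** -/
theorem PvucSup.close2 (S : PvucSup 𝔓 𝔶 m z t 𝔨 Co Cr Ce Cb KDo KDr KDe KDb U0 Ut Uu Vt Vu B a₀ cM h) (hq0 : 0 < q0) (hq1 : q0 ≤ 1) (hQ : PvlqQbx q0) (hW : 𝔓.Wf) (hβ : 0 < 𝔓.mod.N.β)
    (K : 𝔶.KitOk 𝔓 m β' qk) (Cd : 𝔶.CandOk 𝔓 m z t) (U : PvndKitUp 𝔶 𝔓 m βk βu n) (R : PvndCand 𝔶 𝔓 n nu m z t)
    (qe : 𝔶.qe ≤ pvndQ q0 nu (min 𝔓.mod.N.β βu)) (qb : 𝔶.qb ≤ pvndQ q0 nu (min 𝔓.mod.N.β βu)) (a : ℂ) :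
    PvcpClose2 (pvydDat 𝔓 𝔶 (𝔓.ty m z t).col) a m z t (fun _ => Ce.M) cM h :=
  (S.in2 hq0 hq1 hQ hW hβ K Cd U R qe qb).close a

end sup

end Claimed.Agent.R289
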