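-- KEEP
import Claimed.Agent.R289.Exit.CloseTP
import Claimed.Agent.R289.Tr.N1SysC

/-!
# Row 289 (S0537, Cardy for Poisson-Voronoi), THE WALL, ROAD P, file Exit/CloseAR : CLOSE OF A PATTERN, **THE REGIONS OF THE OPEN CHAIN** `t -o-> cells of π.l -i-> s`      (helper193; post P17a of 273, split with 59; prefix `pvsv_`, `Pvsv` continued from `Tr/SqFin`)

The facts of the chain = 59 (`Exit/CloseAP.lean`).      THIS FILE = the chain half of `PvcuReg` of 260 (`Tr/CloseNQ.lean`): `geo UM dMM ZB KB` + THE LOCATION of zones and corridors in the closing region `C0 = fst '' pvsyC0`.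
Twin of `pvjc_geo_of_dj`, `PvjcFor`, `pvjc_cyc` of 203 (`Exit/CloseRP.lean`) and of `PvucFg`, `PvucFg.for` of 95 (`Exit/CloseTP.lean`) for a chain which is NOT closed.
* sec. 1  MODEL FREE: **`pvsv_cuGeo_of_dj`** : `PvydDj (n + 1) sec` + zones in the plug regions + corridors in the regions of their sector and of the next plug + corridors in pairwise disjoint masks ⟹ `PvcuGeo n 𝔢 KE`;
          location: `pvsv_zone_C0`, `pvsv_cor_C0`, `pvsv_cor_first`, `pvsv_cor_last`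
* sec. 2  `PvsvCh n sec 𝔢 KE Mk U B` = THE CHAIN HALF OF `PvcuReg` + location;   `PvsvFor` = what the two foreign plugs `t s` and the two foreign connectors `o i` owe;   **`pvsv_chain`** : `PvsvFor` + cells of the kit (`PvjcReg`, cell-simple word) ⟹ `PvsvCh`
* sec. 3  `PvsvFg` = the foreign pieces BY KINDS;   **`PvsvFg.for`** at the sequences of 59: `pvucPl et ed es L`, `pvucCn Ko Kk Ki ∅ L`, `pvucCn Mo Mc Mi ∅ L`, `pvucPl Ut Ud Us L`      (room of the FIRST door = a FREE set `U0`: `pvucUd` of 95, cure of 14:48Z)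
* sec. 4  at the parameters of a pattern `𝔭 : PvnjPar τ`: `dj` from `𝔭.Ch` (`pvnj_cyc_wf`), **`pvsv_chain_at`**
-/

set_option autoImplicit false

namespace Claimed.Agent.R289

open MeasureTheory Filter Topology Set Metric Claims.C0465
open scoped ENNReal

/-! ## 1. model free -/

section free

variable {n : ℕ} {sec : ℕ → PvsySec PvPt} {𝔢 : ℕ → PvkjEnd ℂ} {KE Mk : ℕ → Set ℂ}

/-- **MODEL FREE, OPEN CHAIN**: the three disjointness clauses of `PvcuGeo` from `PvydDj` and the masks -/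
theorem pvsv_cuGeo_of_dj (dj : PvydDj (n + 1) sec) (pos : 0 < n) (ok : ∀ j, j ≤ n → (𝔢 j).Ok) (uq : ∀ j, j ≤ n → (𝔢 j).Uq)
    (hZ : ∀ j, j ≤ n → (𝔢 j).Z ×ˢ (univ : Set Bool) ⊆ (sec j).O)
    (hK : ∀ j, j < n → KE j ×ˢ (univ : Set Bool) ⊆ (sec j).O ∪ (sec j).K ∪ (sec (j + 1)).O) (hM : ∀ j, j < n → KE j ⊆ Mk j)
    (dM : ∀ i < n, ∀ j < n, i ≠ j → Disjoint (Mk i) (Mk j)) : PvcuGeo n 𝔢 KE where
  pos := pos
  ok := ok
  uq := uq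
  dZZ i j hi hj hij := by
    rw [Set.disjoint_left]
    intro w h1 h2
    have h3 : ((w, true) : PvPt) ∈ (sec i).O := hZ i hi ⟨h1, mem_univ _⟩
    exact Set.disjoint_left.1 (dj.dOO i (by omega) j (by omega) hij) h3 (hZ j hj ⟨h2, mem_univ _⟩)
  dKZ i j hi hj hij hij' := by
    rw [Set.disjoint_left]
    intro w h1 h2
    have h3 : ((w, true) : PvPt) ∈ (sec i).O := hZ i hi ⟨h2, mem_univ _⟩
    have h5 : ((w, true) : PvPt) ∈ KE j ×ˢ (univ : Set Bool) := ⟨h1, mem_univ _⟩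
    rcases hK j hj h5 with (h4 | h4) | h4
    · exact Set.disjoint_left.1 (dj.dOO i (by omega) j (by omega) hij) h3 h4
    · exact Set.disjoint_left.1 (dj.dOK i (by omega) j (by omega)) h3 h4
    · exact Set.disjoint_left.1 (dj.dOO i (by omega) (j + 1) (by omega) hij') h3 h4
  dKK i j hi hj hij := by
    rintro w ⟨h1, h2⟩
    exact absurd (hM j hj h2) (Set.disjoint_left.1 (dM i hi j hj hij) (hM i hi h1))

/-- the region of an inner plug lies in the closing region -/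
theorem pvsv_O_C0 {j : ℕ} (h0 : 0 < j) (hj : j < n) : (sec j).O ⊆ pvsyC0 n sec := fun _ hp =>
  Or.inl (mem_iUnion₂.2 ⟨j, Finset.mem_Ioo.2 ⟨h0, hj⟩, hp⟩)

/-- the region of a connector lies in the closing region -/
theorem pvsv_K_C0 {j : ℕ} (hj : j < n) : (sec j).K ⊆ pvsyC0 n sec := fun _ hp =>
  Or.inr (mem_iUnion₂.2 ⟨j, Finset.mem_range.2 hj, hp⟩)

/-- **LOCATION**: the zone of an inner plug lies in `C0` -/
theorem pvsv_zone_C0 {j : ℕ} (h0 : 0 < j) (hj : j < n) (hZ : (𝔢 j).Z ×ˢ (univ : Set Bool) ⊆ (sec j).O) : (𝔢 j).Z ⊆ Prod.fst '' pvsyC0 n sec := fun w hw =>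
  ⟨(w, true), pvsv_O_C0 h0 hj (hZ ⟨hw, mem_univ _⟩), rfl⟩

/-- **LOCATION**: an inner corridor lies in `C0` -/
theorem pvsv_cor_C0 {j : ℕ} (h0 : 0 < j) (hj : j + 1 < n) (hK : KE j ×ˢ (univ : Set Bool) ⊆ (sec j).O ∪ (sec j).K ∪ (sec (j + 1)).O) : KE j ⊆ Prod.fst '' pvsyC0 n sec := fun w hw => by
  have h5 : ((w, true) : PvPt) ∈ KE j ×ˢ (univ : Set Bool) := ⟨hw, mem_univ _⟩
  rcases hK h5 with (h4 | h4) | h4
  · exact ⟨_, pvsv_O_C0 h0 (by omega) h4, rfl⟩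
  · exact ⟨_, pvsv_K_C0 (by omega) h4, rfl⟩
  · exact ⟨_, pvsv_O_C0 (by omega) hj h4, rfl⟩

/-- **LOCATION**: the first corridor lies in `C0 ∪ O(first plug)` -/
theorem pvsv_cor_first (hn : 2 ≤ n) (hK : KE 0 ×ˢ (univ : Set Bool) ⊆ (sec 0).O ∪ (sec 0).K ∪ (sec (0 + 1)).O) : KE 0 ⊆ Prod.fst '' pvsyC0 n sec ∪ Prod.fst '' (sec 0).O := fun w hw => by
  have h5 : ((w, true) : PvPt) ∈ KE 0 ×ˢ (univ : Set Bool) := ⟨hw, mem_univ _⟩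
  rcases hK h5 with (h4 | h4) | h4
  · exact Or.inr ⟨_, h4, rfl⟩
  · exact Or.inl ⟨_, pvsv_K_C0 (by omega) h4, rfl⟩
  · exact Or.inl ⟨_, pvsv_O_C0 (by omega) (by omega) h4, rfl⟩

/-- **LOCATION**: the last corridor lies in `C0 ∪ O(last plug)` -/
theorem pvsv_cor_last {j : ℕ} (h0 : 0 < j) (hj : j + 1 = n) (hK : KE j ×ˢ (univ : Set Bool) ⊆ (sec j).O ∪ (sec j).K ∪ (sec (j + 1)).O) : KE j ⊆ Prod.fst '' pvsyC0 n sec ∪ Prod.fst '' (sec n).O := fun w hw => by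
  have h5 : ((w, true) : PvPt) ∈ KE j ×ˢ (univ : Set Bool) := ⟨hw, mem_univ _⟩
  rcases hK h5 with (h4 | h4) | h4
  · exact Or.inl ⟨_, pvsv_O_C0 h0 (by omega) h4, rfl⟩
  · exact Or.inl ⟨_, pvsv_K_C0 (by omega) h4, rfl⟩
  · exact Or.inr ⟨_, hj ▸ h4, rfl⟩

end free

/-! ## 2. the chain half of `PvcuReg`, from the foreign pieces only -/

/-- **THE CHAIN HALF OF `PvcuReg` OF 260** (`geo UM dMM ZB KB`; `dM` = ALL the pairs of masks) **+ THE LOCATION** of the zones of the inner plugs and of the corridors (`C0 = fst '' pvsyC0 n sec`; first corridor `+ O(t)`, last corridor `+ O(s)`) -/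
structure PvsvCh (n : ℕ) (sec : ℕ → PvsySec PvPt) (𝔢 : ℕ → PvkjEnd ℂ) (KE Mk U : ℕ → Set ℂ) (B : Set ℂ) : Prop where
  geo : PvcuGeo n 𝔢 KE
  two : 2 ≤ n
  UM : ∀ j, 0 < j → j < n → U j ⊆ Mk (j - 1) ∪ Mk j
  dM : ∀ i < n, ∀ j < n, i ≠ j → Disjoint (Mk i) (Mk j)
  KM : ∀ j, j < n → KE j ⊆ Mk j
  mM : ∀ j, j < n → MeasurableSet (Mk j)
  bM : ∀ j, j < n → Bornology.IsBounded (Mk j)
  ZB : ∀ j, j ≤ n → (𝔢 j).Z ⊆ B
  KB : ∀ j, j < n → KE j ⊆ B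
  ZO0 : (𝔢 0).Z ×ˢ (univ : Set Bool) ⊆ (sec 0).O
  ZOn : (𝔢 n).Z ×ˢ (univ : Set Bool) ⊆ (sec n).O
  ZC : ∀ j, 0 < j → j < n → (𝔢 j).Z ⊆ Prod.fst '' pvsyC0 n sec
  KC : ∀ j, 0 < j → j + 1 < n → KE j ⊆ Prod.fst '' pvsyC0 n sec
  KC0 : KE 0 ⊆ Prod.fst '' pvsyC0 n sec ∪ Prod.fst '' (sec 0).O
  KCn : KE (n - 1) ⊆ Prod.fst '' pvsyC0 n sec ∪ Prod.fst '' (sec n).O

theorem PvsvCh.dMM {n : ℕ} {sec : ℕ → PvsySec PvPt} {𝔢 : ℕ → PvkjEnd ℂ} {KE Mk U : ℕ → Set ℂ} {B : Set ℂ} (H : PvsvCh n sec 𝔢 KE Mk U B) : ∀ j, 0 < j → j < n → Disjoint (Mk (j - 1)) (Mk j) :=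
  fun j h0 hj => H.dM (j - 1) (by omega) j hj (by omega)

/-- **WHAT THE TWO FOREIGN PLUGS `t` (`0`), `s` (`n + 2`) AND THE TWO FOREIGN CONNECTORS `o` (`0`), `i` (`n + 1`) OF THE CHAIN OF A PATTERN OWE** (regions only; `n = |π.l|`, `sec` = the list of the chain) -/
structure PvsvFor (n : ℕ) (sec : ℕ → PvsySec PvPt) (𝔢 : ℕ → PvkjEnd ℂ) (KE Mk U : ℕ → Set ℂ) (B : Set ℂ) : Prop where
  ok : ∀ j, j = 0 ∨ j = n + 2 → (𝔢 j).Ok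
  uq : ∀ j, j = 0 ∨ j = n + 2 → (𝔢 j).Uq
  /-- the zones of the two plugs in their regions -/
  ZO : ∀ j, j = 0 ∨ j = n + 2 → (𝔢 j).Z ×ˢ (univ : Set Bool) ⊆ (sec j).O
  ZB : ∀ j, j = 0 ∨ j = n + 2 → (𝔢 j).Z ⊆ B
  /-- the two corridors in the regions of their sector and of the next plug, in their masks, in `B` -/
  KO : ∀ j, j = 0 ∨ j = n + 1 → KE j ×ˢ (univ : Set Bool) ⊆ (sec j).O ∪ (sec j).K ∪ (sec (j + 1)).O
  KM : ∀ j, j = 0 ∨ j = n + 1 → KE j ⊆ Mk j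
  KB : ∀ j, j = 0 ∨ j = n + 1 → KE j ⊆ B
  /-- the two masks -/
  mM : ∀ j, j = 0 ∨ j = n + 1 → MeasurableSet (Mk j)
  bM : ∀ j, j = 0 ∨ j = n + 1 → Bornology.IsBounded (Mk j)
  dM : ∀ i j, i = 0 ∨ i = n + 1 → j < n + 2 → i ≠ j → Disjoint (Mk i) (Mk j)
  /-- the rooms of the first door and of the last door -/
  UM : ∀ j, j = 0 ∨ j = n → U (j + 1) ⊆ Mk j ∪ Mk (j + 1)
  /-- the doors and the cells stay in `B` -/
  dB : ∀ i, i ≤ n → (𝔢 (1 + i)).Z ⊆ B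
  cB : ∀ i, i < n → KE (1 + i) ⊆ B

section chain

variable {𝔨 : PvkdGeo} {kit : PvthKit} {z d : ℂ} {l : List PvtTurn} {a c : PvsySec PvPt} {Kf : Set PvPt} {Af : Set (Conf PvPt)}
variable {𝔢 : ℕ → PvkjEnd ℂ} {KE Mk U : ℕ → Set ℂ} {B : Set ℂ}

/-- the three kinds of a connector `j < L + 2` -/
theorem pvsv_kinds (L : ℕ) {P : ℕ → Prop} (h0 : P 0) (h1 : ∀ j < L, P (1 + j)) (h2 : P (L + 1)) : ∀ j, j < L + 2 → P j := by
  intro j hj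
  rcases Nat.eq_zero_or_pos j with rfl | h
  · exact h0
  · rcases Nat.lt_or_ge j (L + 1) with h' | h'
    · obtain ⟨i, rfl⟩ : ∃ i, j = 1 + i := ⟨j - 1, by omega⟩
      exact h1 i (by omega)
    · obtain rfl : j = L + 1 := by omega
      exact h2

/-- the masks of the chain are pairwise disjoint -/
theorem pvsv_dM (R : PvkxRef 𝔨) (hd : d ^ 4 = 1) {N : ℕ} (hs : PvccSimple l N) (hN : N ≤ l.length) (hN' : l.length ≤ N + 1) (hMk : ∀ i < l.length, Mk (1 + i) = pvjcMk 𝔨 z d l i)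
    (F : PvsvFor l.length (pvskList a kit z d l Kf Af c) 𝔢 KE Mk U B) : ∀ i < l.length + 2, ∀ j < l.length + 2, i ≠ j → Disjoint (Mk i) (Mk j) := by
  intro i hi j hj hij
  by_cases fi : i = 0 ∨ i = l.length + 1
  · exact F.dM i j fi hj hij
  by_cases fj : j = 0 ∨ j = l.length + 1
  · exact (F.dM j i fj hi hij.symm).symm
  obtain ⟨i', rfl⟩ : ∃ i', i = 1 + i' := ⟨i - 1, by omega⟩
  obtain ⟨j', rfl⟩ : ∃ j', j = 1 + j' := ⟨j - 1, by omega⟩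
  rw [hMk i' (by omega), hMk j' (by omega)]
  exact pvjc_Mk_disj R z hd hs hN (by omega) (by omega) (by omega)

/-- **THE CHAIN HALF OF `PvcuReg` AT ONE MESH** from the disjointness of the regions of the list, the cell-simple word, the regions of the kit and the foreign pieces -/
theorem pvsv_chain (dj : PvydDj (l.length + 3) (pvskList a kit z d l Kf Af c)) (R : PvjcReg 𝔨) (hδ : kit.δ = 𝔨.δ) (hO : kit.O₀ = 𝔨.O₀) (hK : kit.K₀ = 𝔨.K₀) (hd : d ^ 4 = 1)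
    {N : ℕ} (hs : PvccSimple l N) (hN : N ≤ l.length) (hN' : l.length ≤ N + 1)
    (he : ∀ i ≤ l.length, 𝔢 (1 + i) = pvjcE 𝔨 z d l i) (hKE : ∀ i < l.length, KE (1 + i) = pvjcKE 𝔨 z d l i) (hMk : ∀ i < l.length, Mk (1 + i) = pvjcMk 𝔨 z d l i)
    (hU : ∀ i < l.length, U (1 + (i + 1)) = pvjcU 𝔨 z d l (i + 1)) (F : PvsvFor l.length (pvskList a kit z d l Kf Af c) 𝔢 KE Mk U B) :
    PvsvCh (l.length + 2) (pvskList a kit z d l Kf Af c) 𝔢 KE Mk U B := by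
  have hZ : ∀ j, j ≤ l.length + 2 → (𝔢 j).Z ×ˢ (univ : Set Bool) ⊆ (pvskList a kit z d l Kf Af c j).O := by
    intro j hj
    refine pvsk_cases l.length (P := fun j => (𝔢 j).Z ×ˢ (univ : Set Bool) ⊆ (pvskList a kit z d l Kf Af c j).O) (F.ZO 0 (Or.inl rfl)) (fun i hi => ?_) ?_ (F.ZO _ (Or.inr rfl)) j (by omega)
    · rw [he i hi.le, pvsk_list_O hi.le]; exact pvjc_E_Z R hδ hO z hd l i
    · rw [add_comm, he _ le_rfl, pvsk_list_O le_rfl]; exact pvjc_E_Z R hδ hO z hd l _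
  have hKO : ∀ j, j < l.length + 2 → KE j ×ˢ (univ : Set Bool) ⊆ (pvskList a kit z d l Kf Af c j).O ∪ (pvskList a kit z d l Kf Af c j).K ∪ (pvskList a kit z d l Kf Af c (j + 1)).O := by
    refine pvsv_kinds l.length (F.KO 0 (Or.inl rfl)) (fun i hi => ?_) (F.KO _ (Or.inr rfl))
    rw [hKE i hi, show 1 + i + 1 = 1 + (i + 1) by ring, pvsk_list_O (Nat.succ_le_of_lt hi), pvsk_list_cell hi]
    exact pvjc_KE_sub R hδ hO hK z d l hi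
  have hKM : ∀ j, j < l.length + 2 → KE j ⊆ Mk j := by
    refine pvsv_kinds l.length (F.KM 0 (Or.inl rfl)) (fun i hi => ?_) (F.KM _ (Or.inr rfl))
    rw [hKE i hi, hMk i hi]; exact pvjc_KE_Mk R.geo z d l i
  have hdM := pvsv_dM R.ref hd hs hN hN' hMk F
  refine
    { geo := pvsv_cuGeo_of_dj dj (by omega) ?_ ?_ hZ hKO hKM hdM
      two := by omega
      UM := ?_
      dM := hdM
      KM := hKM
      mM := pvsv_kinds l.length (F.mM 0 (Or.inl rfl)) (fun i hi => by rw [hMk i hi]; exact pvjc_Mk_meas R.ref z hd l i) (F.mM _ (Or.inr rfl))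
      bM := pvsv_kinds l.length (F.bM 0 (Or.inl rfl)) (fun i hi => by rw [hMk i hi]; exact pvjc_Mk_bdd R.ref z d l i) (F.bM _ (Or.inr rfl))
      ZB := ?_
      KB := pvsv_kinds l.length (F.KB 0 (Or.inl rfl)) (fun i hi => F.cB i hi) (F.KB _ (Or.inr rfl))
      ZO0 := hZ 0 (Nat.zero_le _)
      ZOn := hZ _ le_rfl
      ZC := fun j h0 hj => pvsv_zone_C0 h0 hj (hZ j hj.le)
      KC := fun j h0 hj => pvsv_cor_C0 h0 hj (hKO j (by omega))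
      KC0 := pvsv_cor_first (by omega) (hKO 0 (by omega))
      KCn := pvsv_cor_last (j := l.length + 2 - 1) (by omega) (by omega) (hKO _ (by omega)) }
  · intro j hj
    refine pvsk_cases l.length (P := fun j => (𝔢 j).Ok) (F.ok 0 (Or.inl rfl)) (fun i hi => ?_) ?_ (F.ok _ (Or.inr rfl)) j (by omega)
    · rw [he i hi.le]; exact pvjc_E_ok _ _ _ _ _
    · rw [add_comm, he _ le_rfl]; exact pvjc_E_ok _ _ _ _ _
  · intro j hj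
    refine pvsk_cases l.length (P := fun j => (𝔢 j).Uq) (F.uq 0 (Or.inl rfl)) (fun i hi => ?_) ?_ (F.uq _ (Or.inr rfl)) j (by omega)
    · rw [he i hi.le]; exact pvjc_E_uq R.geo z hd l i
    · rw [add_comm, he _ le_rfl]; exact pvjc_E_uq R.geo z hd l _
  · intro j h0 hj
    obtain ⟨k, rfl⟩ : ∃ k, j = k + 1 := ⟨j - 1, by omega⟩
    rw [Nat.add_sub_cancel]
    by_cases fj : k = 0 ∨ k = l.length
    · exact F.UM k fj
    obtain ⟨i, rfl⟩ : ∃ i, k = 1 + i := ⟨k - 1, by omega⟩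
    rw [show 1 + i + 1 = 1 + (i + 1) by ring, hU i (by omega), hMk i (by omega), hMk (i + 1) (by omega)]
    exact pvjc_U_cover R.ref z hd l (by omega)
  · intro j hj
    refine pvsk_cases l.length (P := fun j => (𝔢 j).Z ⊆ B) (F.ZB 0 (Or.inl rfl)) (fun i hi => F.dB i hi.le) ?_ (F.ZB _ (Or.inr rfl)) j (by omega)
    rw [add_comm]; exact F.dB _ le_rfl

end chain

/-! ## 3. the foreign pieces by kinds, at the sequences of 59 -/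

/-- **WHAT `t s o i` OWE IN REGIONS, BY KINDS**      (twin of `PvucFg` of 95).      `a` = the sector of `t` with `o`, `c` = the bare sector of `s`, `O0 OL` = the regions of the first and of the last door, `Kf` = the region of `i`;
`ed Kk Mc Ud` = ends, corridors, masks, rooms of the doors and cells (only `dB cB`, the disjointness from the two foreign masks and the two end rooms are asked). -/
structure PvsvFg (L : ℕ) (a c : PvsySec PvPt) (O0 OL Kf : Set PvPt) (et es : PvkjEnd ℂ) (ed : ℕ → PvkjEnd ℂ) (Ko Ki : Set ℂ) (Kk : ℕ → Set ℂ) (Mo Mi : Set ℂ) (Mc : ℕ → Set ℂ)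
    (Ud : ℕ → Set ℂ) (B : Set ℂ) : Prop where
  okt : et.Ok
  oks : es.Ok
  uqt : et.Uq
  uqs : es.Uq
  /-- the zones of the two plugs lie in their regions -/
  ZOt : et.Z ×ˢ (univ : Set Bool) ⊆ a.O
  ZOs : es.Z ×ˢ (univ : Set Bool) ⊆ c.O
  /-- the two corridors lie in the regions of their sector and of the next plug -/
  KOo : Ko ×ˢ (univ : Set Bool) ⊆ a.O ∪ a.K ∪ O0
  KOi : Ki ×ˢ (univ : Set Bool) ⊆ OL ∪ Kf ∪ c.O
  /-- .. and in their masks -/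
  Ko : Ko ⊆ Mo
  Ki : Ki ⊆ Mi
  /-- the two masks: Borel, disjoint, off the masks of the cells -/
  mMo : MeasurableSet Mo
  mMi : MeasurableSet Mi
  Mok : ∀ i < L, Disjoint Mo (Mc i)
  Moi : Disjoint Mo Mi
  Mki : ∀ i < L, Disjoint (Mc i) Mi
  /-- the rooms of the first door and of the last door lie in the masks of their two connectors -/
  U0 : Ud 0 ⊆ Mo ∪ pvucCn Mo Mc Mi ∅ L 1
  UL : Ud L ⊆ pvucCn Mo Mc Mi ∅ L L ∪ Mi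
  /-- everything is inside `B` -/
  ZBt : et.Z ⊆ B
  ZBs : es.Z ⊆ B
  Bo : Mo ⊆ B
  Bi : Mi ⊆ B
  dB : ∀ i ≤ L, (ed i).Z ⊆ B
  cB : ∀ i < L, Kk i ⊆ B

/-- **by kinds ⟹ `PvsvFor` at the sequences of 59** -/
theorem PvsvFg.for {kit : PvthKit} {z d : ℂ} {l : List PvtTurn} {a c : PvsySec PvPt} {Kf : Set PvPt} {Af : Set (Conf PvPt)} {et es : PvkjEnd ℂ} {ed : ℕ → PvkjEnd ℂ} {Ko Ki : Set ℂ} {Kk : ℕ → Set ℂ}
    {Mo Mi : Set ℂ} {Mc : ℕ → Set ℂ} {Ud : ℕ → Set ℂ} {B : Set ℂ} (bB : Bornology.IsBounded B) (Ut Us : Set ℂ)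
    (H : PvsvFg l.length a c (kit.O (pvthZ kit.δ z d l 0) (pvthD d l 0)) (kit.O (pvthZ kit.δ z d l l.length) (pvthD d l l.length)) Kf et es ed Ko Ki Kk Mo Mi Mc Ud B) :
    PvsvFor l.length (pvskList a kit z d l Kf Af c) (pvucPl et ed es l.length) (pvucCn Ko Kk Ki ∅ l.length) (pvucCn Mo Mc Mi ∅ l.length) (pvucPl Ut Ud Us l.length) B where
  ok := by
    rintro j (rfl | rfl)
    · rw [pvuc_pl_zero]; exact H.okt
    · rw [pvuc_pl_u]; exact H.oks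
  uq := by
    rintro j (rfl | rfl)
    · rw [pvuc_pl_zero]; exact H.uqt
    · rw [pvuc_pl_u]; exact H.uqs
  ZO := by
    rintro j (rfl | rfl)
    · rw [pvuc_pl_zero, pvsk_list_zero]; exact H.ZOt
    · rw [pvuc_pl_u, pvsk_list_last]; exact H.ZOs
  ZB := by
    rintro j (rfl | rfl)
    · rw [pvuc_pl_zero]; exact H.ZBt
    · rw [pvuc_pl_u]; exact H.ZBs
  KO := by
    rintro j (rfl | rfl)
    · rw [pvuc_cn_zero, pvsk_list_zero, show 0 + 1 = 1 + 0 by ring, pvsk_list_O (Nat.zero_le _)]; exact H.KOo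
    · rw [pvuc_cn_r, show l.length + 1 + 1 = l.length + 2 by ring, pvsk_list_last, pvsk_list_door]; exact H.KOi
  KM := by
    rintro j (rfl | rfl)
    · rw [pvuc_cn_zero, pvuc_cn_zero]; exact H.Ko
    · rw [pvuc_cn_r, pvuc_cn_r]; exact H.Ki
  KB := by
    rintro j (rfl | rfl)
    · rw [pvuc_cn_zero]; exact H.Ko.trans H.Bo
    · rw [pvuc_cn_r]; exact H.Ki.trans H.Bi
  mM := by
    rintro j (rfl | rfl)
    · rw [pvuc_cn_zero]; exact H.mMo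
    · rw [pvuc_cn_r]; exact H.mMi
  bM := by
    rintro j (rfl | rfl)
    · rw [pvuc_cn_zero]; exact bB.subset H.Bo
    · rw [pvuc_cn_r]; exact bB.subset H.Bi
  dM := by
    intro i j hi hj hij
    revert hij
    refine pvsv_kinds l.length (P := fun j => i ≠ j → Disjoint (pvucCn Mo Mc Mi ∅ l.length i) (pvucCn Mo Mc Mi ∅ l.length j)) ?_ (fun b hb => ?_) ?_ j hj <;> intro hij <;> rcases hi with rfl | rfl
    · exact absurd rfl hij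
    · rw [pvuc_cn_zero, pvuc_cn_r]; exact H.Moi.symm
    · rw [pvuc_cn_zero, pvuc_cn_cell _ _ _ _ _ hb]; exact H.Mok b hb
    · rw [pvuc_cn_r, pvuc_cn_cell _ _ _ _ _ hb]; exact (H.Mki b hb).symm
    · rw [pvuc_cn_zero, pvuc_cn_r]; exact H.Moi
    · exact absurd rfl hij
  UM := by
    rintro j (rfl | rfl)
    · rw [pvuc_pl_door' _ _ _ _ (Nat.zero_le _), pvuc_cn_zero]; exact H.U0
    · rw [pvuc_pl_door' _ _ _ _ le_rfl, pvuc_cn_r]; exact H.UL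
  dB := fun i hi => by rw [pvuc_pl_door _ _ _ _ hi]; exact H.dB i hi
  cB := fun i hi => by rw [pvuc_cn_cell _ _ _ _ _ hi]; exact H.cB i hi

/-! ## 4. at the parameters of a pattern -/

section par

variable {τ : Type} {𝔭 : PvnjPar τ}

/-- the regions of the sectors of the chain of a pattern are pairwise disjoint      (`PvnjPar.Ch`: 58 183) -/
theorem pvsv_dj_of_ch (h : 𝔭.Ch) : PvydDj (𝔭.π.l.length + 3) 𝔭.sec :=
  ⟨(pvnj_cyc_wf h).dOO, (pvnj_cyc_wf h).dKK, (pvnj_cyc_wf h).dOK⟩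

/-- the closing region of the term -/
theorem pvsv_C0_eq (𝔭 : PvnjPar τ) : Prod.fst '' pvsyC0 (𝔭.π.l.length + 2) 𝔭.sec = 𝔭.geo.C0 := rfl

/-- the region of the first plug of the chain is the region of the state of `t` -/
theorem pvsv_O_first (h : 𝔭.Ch) : Prod.fst '' (𝔭.sec 0).O = 𝔭.Ot := by
  have e : (𝔭.sec 0).O = 𝔭.D.O 𝔭.m 𝔭.ε 𝔭.π.zt 𝔭.π.tt := by
    unfold PvnjPar.sec
    rw [pvsk_list_zero]
    rfl
  rw [e, h.Ot_eq, Set.image_preimage_eq _ Prod.fst_surjective]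

/-- the region of the last plug of the chain is the region of the state of `s` -/
theorem pvsv_O_last (h : 𝔭.Ch) : Prod.fst '' (𝔭.sec (𝔭.π.l.length + 2)).O = 𝔭.Os := by
  have e : (𝔭.sec (𝔭.π.l.length + 2)).O = 𝔭.D.O 𝔭.m 𝔭.ε 𝔭.π.zs 𝔭.π.ts := by
    unfold PvnjPar.sec
    rw [pvsk_list_last]
    rfl
  rw [e, h.Os_eq, Set.image_preimage_eq _ Prod.fst_surjective]

/-- **THE CHAIN HALF OF `PvcuReg` AT THE PARAMETERS OF A PATTERN, AT THE SEQUENCES OF 59**: the contract `Ch` of the chain (disjoint regions), the kit (`PvjcReg`; `hδ hO hK`), the cell-simple word, the foreign pieces by kinds -/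
theorem pvsv_chain_at (h : 𝔭.Ch) {𝔨 : PvkdGeo} (R : PvjcReg 𝔨) (hδ : (𝔭.D.kit 𝔭.m 𝔭.ε).δ = 𝔨.δ) (hO : (𝔭.D.kit 𝔭.m 𝔭.ε).O₀ = 𝔨.O₀) (hK : (𝔭.D.kit 𝔭.m 𝔭.ε).K₀ = 𝔨.K₀)
    {N : ℕ} (hs : PvccSimple 𝔭.π.l N) (hN : N ≤ 𝔭.π.l.length) (hN' : 𝔭.π.l.length ≤ N + 1) {et es : PvkjEnd ℂ} {Ko Ki Mo Mi : Set ℂ} {B : Set ℂ} (bB : Bornology.IsBounded B) (U0 Ut Us : Set ℂ)
    (F : PvsvFg 𝔭.π.l.length (𝔭.D.sOut 𝔭.m 𝔭.ε 𝔭.π.zt 𝔭.π.tt) (𝔭.D.sPl 𝔭.m 𝔭.ε 𝔭.π.zs 𝔭.π.ts)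
      ((𝔭.D.kit 𝔭.m 𝔭.ε).O (pvthZ (𝔭.D.kit 𝔭.m 𝔭.ε).δ (𝔭.π.zt + (𝔭.Γ 𝔭.m).pout 𝔭.π.tt) ((𝔭.Γ 𝔭.m).dout 𝔭.π.tt) 𝔭.π.l 0) (pvthD ((𝔭.Γ 𝔭.m).dout 𝔭.π.tt) 𝔭.π.l 0))
      ((𝔭.D.kit 𝔭.m 𝔭.ε).O (pvthZ (𝔭.D.kit 𝔭.m 𝔭.ε).δ (𝔭.π.zt + (𝔭.Γ 𝔭.m).pout 𝔭.π.tt) ((𝔭.Γ 𝔭.m).dout 𝔭.π.tt) 𝔭.π.l 𝔭.π.l.length) (pvthD ((𝔭.Γ 𝔭.m).dout 𝔭.π.tt) 𝔭.π.l 𝔭.π.l.length))
      (𝔭.D.Ki 𝔭.m 𝔭.ε 𝔭.π.zs 𝔭.π.ts) et es (pvjcE 𝔨 (𝔭.π.zt + (𝔭.Γ 𝔭.m).pout 𝔭.π.tt) ((𝔭.Γ 𝔭.m).dout 𝔭.π.tt) 𝔭.π.l) Ko Ki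
      (pvjcKE 𝔨 (𝔭.π.zt + (𝔭.Γ 𝔭.m).pout 𝔭.π.tt) ((𝔭.Γ 𝔭.m).dout 𝔭.π.tt) 𝔭.π.l) Mo Mi (pvjcMk 𝔨 (𝔭.π.zt + (𝔭.Γ 𝔭.m).pout 𝔭.π.tt) ((𝔭.Γ 𝔭.m).dout 𝔭.π.tt) 𝔭.π.l)
      (pvucUd U0 𝔨 (𝔭.π.zt + (𝔭.Γ 𝔭.m).pout 𝔭.π.tt) ((𝔭.Γ 𝔭.m).dout 𝔭.π.tt) 𝔭.π.l) B) :
    PvsvCh (𝔭.π.l.length + 2) 𝔭.sec (pvucPl et (pvjcE 𝔨 (𝔭.π.zt + (𝔭.Γ 𝔭.m).pout 𝔭.π.tt) ((𝔭.Γ 𝔭.m).dout 𝔭.π.tt) 𝔭.π.l) es 𝔭.π.l.length)
      (pvucCn Ko (pvjcKE 𝔨 (𝔭.π.zt + (𝔭.Γ 𝔭.m).pout 𝔭.π.tt) ((𝔭.Γ 𝔭.m).dout 𝔭.π.tt) 𝔭.π.l) Ki ∅ 𝔭.π.l.length)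
      (pvucCn Mo (pvjcMk 𝔨 (𝔭.π.zt + (𝔭.Γ 𝔭.m).pout 𝔭.π.tt) ((𝔭.Γ 𝔭.m).dout 𝔭.π.tt) 𝔭.π.l) Mi ∅ 𝔭.π.l.length)
      (pvucPl Ut (pvucUd U0 𝔨 (𝔭.π.zt + (𝔭.Γ 𝔭.m).pout 𝔭.π.tt) ((𝔭.Γ 𝔭.m).dout 𝔭.π.tt) 𝔭.π.l) Us 𝔭.π.l.length) B :=
  pvsv_chain (pvsv_dj_of_ch h) R hδ hO hK h.pat.d4 hs hN hN' (fun _ hi => pvuc_pl_door _ _ _ _ hi) (fun _ hi => pvuc_cn_cell _ _ _ _ _ hi) (fun _ hi => pvuc_cn_cell _ _ _ _ _ hi)
    (fun i hi => by rw [pvuc_pl_door _ _ _ _ (Nat.succ_le_of_lt hi), pvuc_Ud_succ]) (F.for bB Ut Us)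

end par

end Claimed.Agent.R289
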