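-- KEEP
import Claimed.Agent.R289.Exit.CloseAR
import Claimed.Agent.R289.Tr.N1SysD
import Claimed.Agent.R289.Tr.CloseNF

/-!
# Row 289 (S0537, Cardy for Poisson-Voronoi), THE WALL, ROAD P, file Exit/CloseAQ : **CLOSE OF ONE PATTERN FROM TWO RECORDS**      (pen helper260; prefix `pvwx_`, `Pvwx`)

`exit_pvus_close` (statement `PvusCloseR` of 286, `Exit/ArcRP.lean`) asks, per live black pattern, for small `ε`, a.e., the CYC form `PvnjPar.Cl` of 59 at the term `pvnjAt`.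
HERE (BELOW `Exit/RestP`, `Exit/ArcRP`: both may import this file): the statement is cut in TWO RECORDS, one per side of the closed rim, and PROVED from them.
* **`PvwxCh 𝔓 D m π b 𝔢 KE Mk U`** = THE CHAIN SIDE (plugs `𝔢`, corridors `KE`, masks `Mk`, rooms `U` of the closing chain `t -o-> cells -i-> s`; nothing of the free side):
  `reg` (= `PvsvCh` of 193 for small `ε`), `e0 en` (the two ends are the big plugs of 185), `hNm hNp` (rooms of the feet against the first / last corridor), `msk` (= `PvnjMkR` of 59: six clauses), `fact` (= conclusion of `pvnj_chain_fact` of 59)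
* **`PvwxFr 𝔓 D m π b 𝔯 Lam Kr Zn Z'`** = THE FREE SIDE (`Zn` = THE THIN ZONE: tube + thickened lane, NO DISC; `Z'` = the zone of the last inner plug):
  `UgZ ZnE` (tube `⊆ Zn ⊆` window), `Ut Us` (the tube inside the regions of the two states stays in the rooms of the feet), `OB CB` (everything in `B`), `big`, `lane` (= conclusion of `pvul_lane2` of 147 / `pvnj_lane_feet` of 59), `reg` (= conclusion of `pvny_rreg` of 279)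
* `pvwx_GF` : the map lemma of the cure (`PvnjGF` of 59) from `pvncf_gfaced` of 186
* `pvwx_regT` : the two records + `Rg` + `Ch` + `WfA` `⟹ PvnjRegT` of 59 (thin regions);   `pvwx_Ct` : `⟹ PvnjPar.Ct` at one configuration
* **`pvwx_close`** : the two records + `WfA` + eventually `Rg`, `Ch` `⟹` for small `ε`, a.e., `Cl`
-/

set_option autoImplicit false
set_option linter.unusedSectionVars false
set_option linter.unusedVariables false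

namespace Claimed.Agent.R289

open MeasureTheory Filter Topology Set Relation Claims.C0465
open scoped ENNReal

/-! ## 1. the map lemma of the cure -/

/-- **THE MAP LEMMA OF THE CURE** (statement of 59, proof of 186) -/
theorem pvwx_GF {V D : Type} {T : PvMap V D} {s : V → Bool} (hT : T.IsSph) (hS : T.Simple) : PvnjGF T s := by
  intro gs gt Is It p ip im X U Λ hs ht h0 h1 h2 hB len pre suf off _ hdis hX hlane hΛ hN
  exact pvncf_gfaced hT hS gs gt hs ht h0 h1 h2 hB len pre suf off hdis hX hlane (Fb := p.verts ∪ X) subset_union_left subset_union_right hΛ hN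

/-! ## 2. the two records -/

section rec

variable {τ : Type} {cc : ℝ}

/-- **THE CHAIN SIDE OF CLOSE** for the pattern `π` of level `m`, colour `b`: plugs `𝔢 j` (`j ≤ |π.l| + 2`), corridors `KE j`, masks `Mk j` (`j < |π.l| + 2`), rooms `U j`.   Nothing here sees the free side. -/
structure PvwxCh (𝔓 : PvrxPar τ cc) (D : PvypDat τ) (m : ℕ) (π : PvtsPat τ) (b : Bool) (𝔢 : ℕ → PvkjEnd ℂ) (KE Mk U : ℕ → Set ℂ) : Prop where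
  /-- the chain half of the regions + the location of the inner zones and of the corridors      [193 `pvsv_chain_at`] -/
  reg : ∀ᶠ ε in 𝓝[>] (0 : ℝ), ∀ (W : PvtW) (q : ℕ → ℝ≥0∞) (𝔯 : PvnjReg) (Lam Kr : Set ℂ), (pvnjAt 𝔓 D W q m ε π 𝔯 Lam Kr).Ch →
    ∃ B : Set ℂ, PvsvCh (π.l.length + 2) (pvnjAt 𝔓 D W q m ε π 𝔯 Lam Kr).sec 𝔢 KE Mk U B
  /-- the two ends of the chain are the big plugs of the two candidates -/
  e0 : 𝔢 0 = pvkjBig ((𝔓.ty m π.zt π.tt).reg 𝔓.mod.N π.zt (pvlmH m))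
  en : 𝔢 (π.l.length + 2) = pvkjBig ((𝔓.ty m π.zs π.ts).reg 𝔓.mod.N π.zs (pvlmH m))
  /-- the room of `g⁻(t)` meets the first corridor inside the inner disc only; the room of `g⁺(s)` the last corridor -/
  hNm : (𝔓.ty m π.zt π.tt).reg 𝔓.mod.N π.zt (pvlmH m) .Nm ∩ KE 0 ⊆ (𝔓.ty m π.zt π.tt).reg 𝔓.mod.N π.zt (pvlmH m) .I2
  hNp : (𝔓.ty m π.zs π.ts).reg 𝔓.mod.N π.zs (pvlmH m) .Np ∩ KE (π.l.length + 1) ⊆ (𝔓.ty m π.zs π.ts).reg 𝔓.mod.N π.zs (pvlmH m) .I2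
  /-- TR14: the six clauses on the masks of the first and of the last connector against the two cut-off discs -/
  msk : PvnjMkR ((𝔓.ty m π.zs π.ts).reg 𝔓.mod.N π.zs (pvlmH m)) ((𝔓.ty m π.zt π.tt).reg 𝔓.mod.N π.zt (pvlmH m)) (Mk (π.l.length + 1)) (Mk 0)
    (Metric.closedBall π.zs (𝔓.𝔐.mc π.ts * pvlmH m)) (Metric.closedBall π.zt (𝔓.𝔐.mc π.tt * pvlmH m)) (2 * (𝔓.mod.N.mu * pvlmH m))
  /-- one fact of 113 per connector      [59 `pvnj_chain_fact`] -/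
  fact : ∀ᶠ ε in 𝓝[>] (0 : ℝ), ∀ (W : PvtW) (q : ℕ → ℝ≥0∞) (𝔯 : PvnjReg) (Lam Kr : Set ℂ), ∀ᵐ η ∂(pvP ε),
    η ∈ (pvnjAt 𝔓 D W q m ε π 𝔯 Lam Kr).En → η ∈ (pvnjAt 𝔓 D W q m ε π 𝔯 Lam Kr).Ev → ∀ j < π.l.length + 2, PvucF b 𝔢 KE Mk U j ((pvnjAt 𝔓 D W q m ε π 𝔯 Lam Kr).fld j η) η

/-- **THE FREE SIDE OF CLOSE**: `𝔯 Lam Kr` = the regions of the free side, `Zn` = THE THIN ZONE (tube + thickened lane [+ fill]; no disc), `Z'` = the zone of the last inner plug of the chain -/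
structure PvwxFr (𝔓 : PvrxPar τ cc) (D : PvypDat τ) (m : ℕ) (π : PvtsPat τ) (b : Bool) (𝔯 : PvnjReg) (Lam Kr Zn Z' : Set ℂ) : Prop where
  UgZ : 𝔯.U ⊆ Zn
  ZnE : Zn ⊆ 𝔯.Ew
  /-- inside the region of the state of `t` the tube stays in the room of `g⁻(t)` or in the inner disc;   the same at `s` with `g⁺(s)` -/
  Ut : 𝔯.U ∩ pvspO 𝔓.mod.N (𝔓.ty m π.zt π.tt) π.zt (pvlmH m) ⊆ (𝔓.ty m π.zt π.tt).reg 𝔓.mod.N π.zt (pvlmH m) .Nm ∪ (𝔓.ty m π.zt π.tt).reg 𝔓.mod.N π.zt (pvlmH m) .I2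
  Us : 𝔯.U ∩ pvspO 𝔓.mod.N (𝔓.ty m π.zs π.ts) π.zs (pvlmH m) ⊆ (𝔓.ty m π.zs π.ts).reg 𝔓.mod.N π.zs (pvlmH m) .Np ∪ (𝔓.ty m π.zs π.ts).reg 𝔓.mod.N π.zs (pvlmH m) .I2
  /-- the two states, the tube and the corridor lie in `B` -/
  OB : pvspO 𝔓.mod.N (𝔓.ty m π.zs π.ts) π.zs (pvlmH m) ∪ pvspO 𝔓.mod.N (𝔓.ty m π.zt π.tt) π.zt (pvlmH m) ∪ 𝔯.U ⊆ 𝔯.B
  CB : ∀ᶠ ε in 𝓝[>] (0 : ℝ), ∀ (W : PvtW) (q : ℕ → ℝ≥0∞), Prod.fst '' (pvnjAt 𝔓 D W q m ε π 𝔯 Lam Kr).cor ⊆ 𝔯.B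
  /-- the two star zones are `a0` apart -/
  big : ∀ x ∈ (𝔓.ty m π.zt π.tt).reg 𝔓.mod.N π.zt (pvlmH m) .S2, ∀ y ∈ (𝔓.ty m π.zs π.ts).reg 𝔓.mod.N π.zs (pvlmH m) .S2, 𝔯.a0 ≤ ‖x - y‖
  /-- LANE: on the lane event the feet of the two states are joined by white sites of the zone      [147 `pvul_lane2`, 59 `pvnj_lane_feet`] -/
  lane : ∀ᶠ ε in 𝓝[>] (0 : ℝ), ∀ (W : PvtW) (q : ℕ → ℝ≥0∞) (η : Conf PvPt), CfOK η → η ∈ (pvnjAt 𝔓 D W q m ε π 𝔯 Lam Kr).geo.W →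
    ∀ Ss St : PvspSt (pvkiT η) (pvlfFl b (pvkiS η)), Ss.At Subtype.val ((𝔓.ty m π.zs π.ts).reg 𝔓.mod.N π.zs (pvlmH m)) → St.At Subtype.val ((𝔓.ty m π.zt π.tt).reg 𝔓.mod.N π.zt (pvlmH m)) →
      (pvkiT η).Join univ {v | pvlfFl b (pvkiS η) v = false ∧ (v : ℂ) ∈ Zn} ((pvkiT η).tgt St.g2.aIn) ((pvkiT η).tgt Ss.g2.aOut)
  /-- REGION: every site of the layer is joined, off the zone, to every site of the last inner plug      [279 `pvny_rreg`, 212] -/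
  reg : ∀ η : Conf PvPt, DelGood (cfSites η) → PvtrMesh 𝔯.rho 𝔯.Ew (cfSites η) → ∀ c₀ a : ↥(cfSites η), (c₀ : ℂ) ∈ Z' → (a : ℂ) ∈ Lam →
    ReflTransGen (fun u v => (pvkiT η).Adj u v ∧ (v : ℂ) ∉ Zn) c₀ a

end rec

/-! ## 3. the thin regions -/

section close

variable {τ : Type} {cc : ℝ} {𝔓 : PvrxPar τ cc} {D : PvypDat τ} {m : ℕ} {π : PvtsPat τ} {b : Bool} {𝔢 : ℕ → PvkjEnd ℂ} {KE Mk U : ℕ → Set ℂ} {𝔯 : PvnjReg} {Lam Kr Zn Z' : Set ℂ} {x : ℂ} {R : ℝ}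

/-- **THE THIN REGIONS OF 59 FROM THE TWO RECORDS** at one mesh -/
theorem pvwx_regT {W : PvtW} {q : ℕ → ℝ≥0∞} {ε : ℝ} {B' : Set ℂ} (C : PvwxCh 𝔓 D m π b 𝔢 KE Mk U) (F : PvwxFr 𝔓 D m π b 𝔯 Lam Kr Zn Z')
    (rg : (pvnjAt 𝔓 D W q m ε π 𝔯 Lam Kr).Rg) (ch : (pvnjAt 𝔓 D W q m ε π 𝔯 Lam Kr).Ch)
    (H : PvsvCh (π.l.length + 2) (pvnjAt 𝔓 D W q m ε π 𝔯 Lam Kr).sec 𝔢 KE Mk U B') (CB : Prod.fst '' (pvnjAt 𝔓 D W q m ε π 𝔯 Lam Kr).cor ⊆ 𝔯.B) :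
    PvnjRegT (π.l.length + 2) 𝔢 KE Mk U (pvnjAz 𝔓 m π 𝔯 Lam Kr).rs (pvnjAz 𝔓 m π 𝔯 Lam Kr).rt 𝔯.U Zn 𝔯.B 𝔯.a0 := by
  -- the window misses the corridor
  have hEC : ∀ w ∈ 𝔯.Ew, w ∉ Prod.fst '' pvsyC0 (π.l.length + 2) (pvnjAt 𝔓 D W q m ε π 𝔯 Lam Kr).sec := by
    rintro w hw ⟨p, hp, rfl⟩
    exact Set.disjoint_left.1 rg.Ew_cor (show p ∈ Prod.fst ⁻¹' 𝔯.Ew from hw) hp
  have hUE : 𝔯.U ⊆ 𝔯.Ew := F.UgZ.trans F.ZnE
  have hOt : Prod.fst '' ((pvnjAt 𝔓 D W q m ε π 𝔯 Lam Kr).sec 0).O = pvspO 𝔓.mod.N (𝔓.ty m π.zt π.tt) π.zt (pvlmH m) := pvsv_O_first ch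
  have hOs : Prod.fst '' ((pvnjAt 𝔓 D W q m ε π 𝔯 Lam Kr).sec (π.l.length + 2)).O = pvspO 𝔓.mod.N (𝔓.ty m π.zs π.ts) π.zs (pvlmH m) := pvsv_O_last ch
  have hOtB : pvspO 𝔓.mod.N (𝔓.ty m π.zt π.tt) π.zt (pvlmH m) ⊆ 𝔯.B := fun w hw => F.OB (Or.inl (Or.inr hw))
  have hOsB : pvspO 𝔓.mod.N (𝔓.ty m π.zs π.ts) π.zs (pvlmH m) ⊆ 𝔯.B := fun w hw => F.OB (Or.inl (Or.inl hw))
  have hCB : Prod.fst '' pvsyC0 (π.l.length + 2) (pvnjAt 𝔓 D W q m ε π 𝔯 Lam Kr).sec ⊆ 𝔯.B := CB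
  have hK0 := H.KC0
  have hKn := H.KCn
  rw [hOt] at hK0
  rw [hOs] at hKn
  refine
    { geo := H.geo
      two := H.two
      e0 := C.e0
      en := C.en
      UM := H.UM
      dMM := H.dMM
      dUZ := fun i h0 hi => Set.disjoint_left.2 fun w hw hz => hEC w (hUE hw) (H.ZC i h0 hi hz)
      dUK := ?_
      hNm := C.hNm
      hNp := C.hNp
      UgZ := F.UgZ
      dZn := Set.disjoint_left.2 fun w hz hw => hEC w (F.ZnE hw) (H.ZC _ (by omega) (by omega) hz)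
      ZB := ?_
      KB := ?_
      UB := fun w hw => F.OB (Or.inr hw)
      big := F.big }
  · rintro j hj w ⟨hwU, hwK⟩
    rcases Nat.eq_zero_or_pos j with rfl | h0
    · rcases hK0 hwK with h | h
      · exact absurd h (hEC w (hUE hwU))
      · left
        rw [C.e0]
        rcases F.Ut ⟨hwU, h⟩ with h' | h'
        · exact C.hNm ⟨h', hwK⟩
        · exact h'
    · rcases Nat.lt_or_ge (j + 1) (π.l.length + 2) with h1 | h1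
      · exact absurd (H.KC j h0 h1 hwK) (hEC w (hUE hwU))
      · obtain rfl : j = π.l.length + 1 := by omega
        rcases hKn hwK with h | h
        · exact absurd h (hEC w (hUE hwU))
        · right
          rw [C.en]
          rcases F.Us ⟨hwU, h⟩ with h' | h'
          · exact C.hNp ⟨h', hwK⟩
          · exact h'
  · intro j hj w hw
    rcases Nat.eq_zero_or_pos j with rfl | h0
    · refine hOtB ?_
      rw [← hOt]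
      exact ⟨(w, true), H.ZO0 ⟨hw, Set.mem_univ _⟩, rfl⟩
    · rcases Nat.lt_or_ge j (π.l.length + 2) with h1 | h1
      · exact hCB (H.ZC j h0 h1 hw)
      · obtain rfl : j = π.l.length + 2 := by omega
        refine hOsB ?_
        rw [← hOs]
        exact ⟨(w, true), H.ZOn ⟨hw, Set.mem_univ _⟩, rfl⟩
  · intro j hj w hw
    rcases Nat.eq_zero_or_pos j with rfl | h0
    · rcases hK0 hw with h | h
      · exact hCB h
      · exact hOtB h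
    · rcases Nat.lt_or_ge (j + 1) (π.l.length + 2) with h1 | h1
      · exact hCB (H.KC j h0 h1 hw)
      · obtain rfl : j = π.l.length + 1 := by omega
        rcases hKn hw with h | h
        · exact hCB h
        · exact hOsB h

/-! ## 4. one configuration, then a.e. -/

/-- **WHAT CLOSE NEEDS AT ONE CONFIGURATION** (`PvnjPar.Ct` of 59) from the two records -/
theorem pvwx_Ct {W : PvtW} {q : ℕ → ℝ≥0∞} {ε : ℝ} (hb : (𝔓.ty m π.zs π.ts).col = b) (az : (pvnjAz 𝔓 m π 𝔯 Lam Kr).WfA x R) (C : PvwxCh 𝔓 D m π b 𝔢 KE Mk U)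
    (F : PvwxFr 𝔓 D m π b 𝔯 Lam Kr Zn (𝔢 (π.l.length + 1)).Z) {η : Conf PvPt} (hη : CfOK η)
    (fact : η ∈ (pvnjAt 𝔓 D W q m ε π 𝔯 Lam Kr).En → η ∈ (pvnjAt 𝔓 D W q m ε π 𝔯 Lam Kr).Ev → ∀ j < π.l.length + 2, PvucF b 𝔢 KE Mk U j ((pvnjAt 𝔓 D W q m ε π 𝔯 Lam Kr).fld j η) η)
    (lane : η ∈ (pvnjAt 𝔓 D W q m ε π 𝔯 Lam Kr).geo.W →
      ∀ Ss St : PvspSt (pvkiT η) (pvlfFl b (pvkiS η)), Ss.At Subtype.val ((𝔓.ty m π.zs π.ts).reg 𝔓.mod.N π.zs (pvlmH m)) → St.At Subtype.val ((𝔓.ty m π.zt π.tt).reg 𝔓.mod.N π.zt (pvlmH m)) →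
        (pvkiT η).Join univ {v | pvlfFl b (pvkiS η) v = false ∧ (v : ℂ) ∈ Zn} ((pvkiT η).tgt St.g2.aIn) ((pvkiT η).tgt Ss.g2.aOut)) :
    (pvnjAt 𝔓 D W q m ε π 𝔯 Lam Kr).Ct (pvnjAz 𝔓 m π 𝔯 Lam Kr) 𝔢 KE Mk U Zn η := by
  have hb' : (pvnjAz 𝔓 m π 𝔯 Lam Kr).s.col = b := hb
  refine ⟨?_, ?_, fun hm c₀ a hc ha => F.reg η hη.del hm c₀ a hc ha, fun g 𝔡 hE hI mid => ?_⟩
  · rw [hb']
    exact fact
  · rw [hb']
    exact lane
  · obtain ⟨-, hm, st1, st2, -⟩ := pvnj_arc_at_mid az.toWf az.hne hη.del hE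
    have hr : 2 * (pvnjAz 𝔓 m π 𝔯 Lam Kr).rho ≤ 2 * (𝔓.mod.N.mu * pvlmH m) := by
      have := az.toWf.rho_le
      have e : (pvnjAz 𝔓 m π 𝔯 Lam Kr).N.mu * (pvnjAz 𝔓 m π 𝔯 Lam Kr).h = 𝔓.mod.N.mu * pvlmH m := rfl
      rw [e] at this
      linarith
    exact pvnj_msk az hr C.msk hη.del hm st1 st2 hI mid

/-- **CLOSE OF ONE PATTERN**: the two records, the contract of the arcs, eventually the contracts of the regions and of the chain `⟹` for small `ε`, a.e., the CYC form `Cl` of 59 -/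
theorem pvwx_close (hb : (𝔓.ty m π.zs π.ts).col = b) (az : (pvnjAz 𝔓 m π 𝔯 Lam Kr).WfA x R) (C : PvwxCh 𝔓 D m π b 𝔢 KE Mk U)
    (F : PvwxFr 𝔓 D m π b 𝔯 Lam Kr Zn (𝔢 (π.l.length + 1)).Z) (W : ℝ → PvtW) (q : ℝ → ℕ → ℝ≥0∞)
    (rg : ∀ᶠ ε in 𝓝[>] (0 : ℝ), (pvnjAt 𝔓 D (W ε) (q ε) m ε π 𝔯 Lam Kr).Rg) (ch : ∀ᶠ ε in 𝓝[>] (0 : ℝ), (pvnjAt 𝔓 D (W ε) (q ε) m ε π 𝔯 Lam Kr).Ch) :
    ∀ᶠ ε in 𝓝[>] (0 : ℝ), ∀ᵐ η ∂pvP ε, (pvnjAt 𝔓 D (W ε) (q ε) m ε π 𝔯 Lam Kr).Cl η := by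
  filter_upwards [rg, ch, C.reg, C.fact, F.CB, F.lane, self_mem_nhdsWithin] with ε hrg hch hreg hfact hCB hlane hε
  have hε0 : (0 : ℝ) < ε := hε
  obtain ⟨B', H⟩ := hreg (W ε) (q ε) 𝔯 Lam Kr hch
  refine pvnj_ClT_ae (𝔭 := pvnjAt 𝔓 D (W ε) (q ε) m ε π 𝔯 Lam Kr) (𝔞 := pvnjAz 𝔓 m π 𝔯 Lam Kr) (𝔢 := 𝔢) (KE := KE) (Mk := Mk) (U := U) (Zn := Zn)
    (fun η hη => pvwx_GF (delb_plane_isSph hη) (delbPl (cfSites η)).toMap_simple) hε0.ne' rfl az (pvwx_regT C F hrg hch H (hCB (W ε) (q ε))) ?_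
  filter_upwards [hfact (W ε) (q ε) 𝔯 Lam Kr, dls_ae_conf hε0] with η h1 h2
  exact pvwx_Ct hb az C F h2 h1 (hlane (W ε) (q ε) η h2)

end close

end Claimed.Agent.R289
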