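-- KEEP
import Claimed.Agent.R289.Exit.CutVM
import Claimed.Agent.R289.Exit.CloseP
import Claimed.Agent.R289.Tr.CloseV
import Claimed.Agent.R289.Tr.CutPl
import Claimed.Agent.R289.Tr.KitDict

/-!
# Row 289 (S0537, Cardy for Poisson-Voronoi), THE WALL, ROAD P, file Exit/CutVG : (R) + (B) OF `thickVν` : `PvvtRef`, `PvvtBes` (263, `Exit/CutVM`) FROM THE FACTS OF THE SHORT CYCLE      (helper76; prefix `pvvq_`, `pvvq`, `Pvvq`)

* sec. 1  the `V`-mass of an arc travels along `PvukMor` of 244 (similarity + colour): `pvvq_mor_S`, `pvvq_mor_psum`.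
* sec. 2  **`pvvq_cu_mor`** : the cut point `pvvqCu p E ρ M₀` of the kit plug, evaluated at the configuration `ξ` of the reference frame, read IN THE PLANE MAP OF `η` ITSELF, colour `b`, centre `w`.
* sec. 3  `pvvq_close` = `pvkj_close` of 113 which KEEPS the gates and the facts.
* sec. 4  **`pvvq_rec_at`** : one configuration: two facts round the short cycle + regions  ⟹  the clause of `PvvmRec` of 206.
* sec. 5  at the term of 58: `PvvqClose` (= CLOSE-V, the twin of `PvcpClose2` of 95), **`pvvq_bes`** `: PvvtBes`;   `PvvqV` (what the regions owe), **`pvvq_close_cyc2`** (from `PvucCyc2` of 95), **`pvvq_ref`** `: PvvtRef`.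
* sec. 6  tools: `pvvq_pg_at` (`(𝔭.pg 0 1).comap (pvthInv w 1) = 𝔭.pg w 1`), `pvvq_mask_at`, `pvvq_rules` (mask rules from a sandwich);   **`pvvq_cutV`** = THE FIELD `cutV` OF `PvrsGeoOk` (79) from `PvvqRef` + `PvucCyc2` + `PvvqV`.
-/

set_option autoImplicit false

namespace Claimed.Agent.R289

open MeasureTheory Filter Topology Set Metric Claims.C0465
open scoped ENNReal

/-! ## 1. the `V`-mass travels -/

section mor

variable {ξ η : Conf PvPt} {b : Bool} {a c : ℂ}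

/-- the masked side vector under the similarity: factor `a` -/
theorem pvvq_mor_S (M : PvukMor ξ η b a c) (S : Set ℂ) (e : (delbPl (cfSites ξ)).Dart) :
    pvvmS (pvkiT η) Subtype.val (vorSim a c '' S) (M.iso.fD e) = a * pvvmS (pvkiT ξ) Subtype.val S e := by
  unfold pvvmS PvMap.bary PvMap.side
  rw [M.iso.src, M.iso.tgt, M.iso.apex, M.val, M.val, M.val]
  have e1 : (vorSim a c ((pvkiT ξ).src e).1 + vorSim a c ((pvkiT ξ).tgt e).1 + vorSim a c ((pvkiT ξ).apex e).1) / 3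
      = vorSim a c ((((pvkiT ξ).src e).1 + ((pvkiT ξ).tgt e).1 + ((pvkiT ξ).apex e).1) / 3) := by
    unfold vorSim; ring
  have e2 : vorSim a c ((pvkiT ξ).src e).1 - vorSim a c ((pvkiT ξ).tgt e).1 = a * (((pvkiT ξ).src e).1 - ((pvkiT ξ).tgt e).1) := by
    unfold vorSim; ring
  rw [e1, e2]
  by_cases h : (((pvkiT ξ).src e).1 + ((pvkiT ξ).tgt e).1 + ((pvkiT ξ).apex e).1) / 3 ∈ S
  · rw [indicator_of_mem h, indicator_of_mem (mem_image_of_mem _ h)]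
    simp
  · rw [indicator_of_notMem h, indicator_of_notMem (fun h' => h ((vorSim_injective M.a0 c).mem_set_image.1 h'))]
    simp

/-- the `V`-mass of the arc of a piece of strand: factor `a` -/
theorem pvvq_mor_psum (M : PvukMor ξ η b a c) (S : Set ℂ) (e : (delbPl (cfSites ξ)).Dart) (N : ℕ) :
    (pvtArc (pvkiT η) (pvukS b η) (M.iso.fD e) N).psum (pvvmS (pvkiT η) Subtype.val (vorSim a c '' S)) = a * (pvtArc (pvkiT ξ) (pvkiS ξ) e N).psum (pvvmS (pvkiT ξ) Subtype.val S) := by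
  rw [pvt_sf_arc_psum, pvt_sf_arc_psum, pvco_bank M.hs, pvco_LE, List.map_map, ← List.sum_map_mul_left]
  congr 1
  refine List.map_congr_left fun f _ => ?_
  show pvvmS (pvkiT η) Subtype.val (vorSim a c '' S) ((pvkiT η).opp (M.iso.fD f)) = a * pvvmS (pvkiT ξ) Subtype.val S ((pvkiT ξ).opp f)
  rw [M.iso.opp, pvvq_mor_S]

/-- the marks of a plug and of the plug placed at `w` correspond -/
theorem pvvq_mor_pg {w : ℂ} (M : PvukMor ξ η b 1 w) (p : PvzlPg ℂ) : PvcoPg M.iso Subtype.val Subtype.val p (p.comap (pvthInv w 1)) := by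
  have key : ∀ K : Set ℂ, PvcoMk M.iso Subtype.val Subtype.val K (pvthInv w 1 ⁻¹' K) := fun K v => by
    rw [M.val, mem_preimage]
    have e : pvthInv w 1 (vorSim 1 w v.1) = v.1 := by unfold pvthInv vorSim; ring
    rw [e]
  exact ⟨key _, key _, key _, key _, key _⟩

end mor

/-! ## 2. the cut point of a kit plug in the plane map of `η` itself -/

section cumor

variable {p : PvzlPg ℂ} {E M₀ : Set ℂ} {ρ : ℝ} {ξ η : Conf PvPt} {b : Bool} {w : ℂ}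

/-- **THE CUT POINT OF THE KIT PLUG PLACED AT `w`, COLOUR `b`**: `ξ` = the configuration of the reference frame, `g` = THE gate of record in the plane map of `η` -/
theorem pvvq_cu_mor (H : PvvqOk p E ρ M₀) (M : PvukMor ξ η b 1 w) (hξ : DelGood (cfSites ξ)) (hf : PvtnFin E ξ) (hm : PvtrMesh ρ E (cfSites ξ))
    (hC : pvzlC p _ _ (pvkiT ξ) Subtype.val (pvkiS ξ)) {g : (pvkiT η).Gate (pvukS b η)} (hg : PvzlGt (pvkiT η) Subtype.val (pvukS b η) (p.comap (pvthInv w 1)) g) :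
    w + pvvqCu p E ρ M₀ ξ = ((g.vp : ↥(cfSites η)) : ℂ) - (pvtArc (pvkiT η) (pvukS b η) g.aIn g.len).psum (pvvmS (pvkiT η) Subtype.val (vorSim 1 w '' M₀)) := by
  obtain ⟨g₀, hg₀⟩ := hC
  have hT : (pvkiT η).IsSph := delb_plane_isSph (M.good hξ)
  have hdis : Disjoint (p.comap (pvthInv w 1)).Km (p.comap (pvthInv w 1)).Kp := H.dis.preimage _
  have h1 : PvzlGt (pvkiT η) Subtype.val (pvukS b η) (p.comap (pvthInv w 1)) (M.gate g₀) := pvco_gt M.hs (pvvq_mor_pg M p) hg₀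
  obtain rfl : g = M.gate g₀ := by
    obtain ⟨x, y, z⟩ := hg.unique hT hdis h1
    exact pvkx_gate_ext x y z
  unfold PvukMor.gate
  rw [pvco_gate_vp, pvco_gate_aIn, pvco_gate_len, pvvq_mor_psum, M.val, pvvq_cu_plane0 H hξ hf hm hg₀]
  unfold vorSim
  have e : (fun d => M₀.indicator 1 ((pvkiT ξ).bary Subtype.val d) * (pvkiT ξ).side Subtype.val d) = pvvmS (pvkiT ξ) Subtype.val M₀ := rfl
  rw [e]
  ring

end cumor

/-! ## 3. CLOSE, keeping the gates and the facts -/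

section close

variable {n : ℕ} {𝔢 : ℕ → PvkjEnd ℂ} {KE Mk U : ℕ → Set ℂ} {B : Set ℂ} {a₀ : ℝ}

/-- **CLOSE AT ONE CONFIGURATION** (`pvkj_close` of 113, same proof): ONE family of gates, the facts at these gates, the ring of 95 with ITS arcs -/
theorem pvvq_close (H : PvkjCyc n 𝔢 KE Mk U B a₀) {η : Conf PvPt} (hη : DelGood (cfSites η)) {b : Bool} {X : ℕ → ℂ}
    (hF : ∀ j, j < n → ∃ g g' N, PvkjFt η b (𝔢 j) (𝔢 (j + 1)) (KE j) (Mk j) (U (j + 1)) (X j) g g' N) :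
    ∃ (g : ℕ → (pvkiT η).Gate (pvlfFl b (pvkiS η))) (N : ℕ → ℕ), g n = g 0 ∧
      (∀ j, j < n → PvkjFt η b (𝔢 j) (𝔢 (j + 1)) (KE j) (Mk j) (U (j + 1)) (X j) (g j) (g (j + 1)) (N j)) ∧
      PvcmAt (delbPl (cfSites η)) b n Mk B a₀ g (fun j => pvtArc (pvkiT η) (pvlfFl b (pvkiS η)) (g j).aIn (g j).len) (fun j => pvtArc (pvkiT η) (pvlfFl b (pvkiS η)) (g j).aOut (N j)) := by
  have hT : (pvkiT η).IsSph := delb_plane_isSph hη
  have hS : (pvkiT η).Simple := (delbPl (cfSites η)).toMap_simple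
  obtain ⟨g, N, hper, hg⟩ := pvkj_glue (T := pvkiT η) (s := pvlfFl b (pvkiS η)) (mk := Subtype.val) hT hS H.geo
    (P := fun j g g' N => PvkjFt η b (𝔢 j) (𝔢 (j + 1)) (KE j) (Mk j) (U (j + 1)) (X j) g g' N)
    (fun j hj => by
      obtain ⟨g, g', N, h⟩ := hF j hj
      exact ⟨g, g', N, h.lk, h⟩)
  have hring := pvkj_ring hT hS H.geo hper (fun j hj => (hg j hj).2.fin) (fun j hj => (hg j hj).1)
  have hzone : ∀ j, j < n → ∀ d ∈ (g j).c.Left, (((pvkiT η).src d : ↥(cfSites η)) : ℂ) ∈ (𝔢 j).Z := fun j hj d hd =>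
    (H.geo.ok j hj).zone _ _ _ _ _ _ (hg j hj).1.is d hd
  have hvp : ∀ j, j < n → (((g j).vp : ↥(cfSites η)) : ℂ) ∈ (𝔢 j).Z := fun j hj => hzone j hj _ ((pl_jordan hT (g j).c).2.1 (g j).m)
  refine ⟨g, N, hper, fun j hj => (hg j hj).2,
    ⟨hring, ?_, fun j hj => (hg j hj).2.blk, fun j hj i hi => H.UM j hj ((hg j hj).2.binn i hi), fun j hj i hi => ?_, fun j hj i hi => ?_, ?_⟩⟩
  · show pvtArc (pvkiT η) (pvlfFl b (pvkiS η)) (g n).aIn (g n).len = pvtArc (pvkiT η) (pvlfFl b (pvkiS η)) (g 0).aIn (g 0).len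
    rw [hper]
  · refine H.ZB j hj ?_
    have hp := (hring.hinn j hj).1
    rcases Nat.lt_or_ge i (pvtArc (pvkiT η) (pvlfFl b (pvkiS η)) (g j).aIn (g j).len).n with h | h
    · have := hzone j hj _ (hp.ins i h).1
      rw [(pvtArc (pvkiT η) (pvlfFl b (pvkiS η)) (g j).aIn (g j).len).src_e i h] at this
      exact this
    · have e : i = (pvtArc (pvkiT η) (pvlfFl b (pvkiS η)) (g j).aIn (g j).len).n := le_antisymm hi h
      have := hvp j hj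
      rw [← hp.h1] at this
      rw [e]
      exact this
  · exact H.KB j hj (pvkj_lk_verts (hg j hj).1.run hi).1.1
  · obtain ⟨i, j, hi, hj, h⟩ := H.big
    exact ⟨i, j, hi, hj, h _ (hvp i hi) _ (hvp j hj)⟩

end close

/-! ## 4. the recognition at one configuration -/

section recat

variable {𝔢 : ℕ → PvkjEnd ℂ} {KE Mk U : ℕ → Set ℂ} {B : Set ℂ} {a₀ : ℝ} {N : PvspNum} {ty : PvspTy} {z : ℂ} {h mc : ℝ} {p : PvzlPg ℂ} {E M₀ : Set ℂ} {ρ : ℝ} {w : ℂ}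

/-- short faces along the inner arc of a state (mesh of the region of the state) -/
theorem pvvq_short (W : ty.Wf N z h) {η : Conf PvPt} (hη : DelGood (cfSites η)) (hm : PvtrMesh (N.mu * h) (pvspO N ty z h) (cfSites η)) {s : ↥(cfSites η) → Bool}
    (hst : PvplStar (pvkiT η) Subtype.val (fun x => x ∈ ty.reg N z h .O2) (ty.reg N z h .S2)) {𝔖 : PvspSt (pvkiT η) s} (hA : 𝔖.At Subtype.val (ty.reg N z h)) (i : ℕ) (hi : i < 𝔖.inn.n) :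
    ‖((𝔖.inn.v (i + 1) : ↥(cfSites η)) : ℂ) - ((𝔖.inn.v i : ↥(cfSites η)) : ℂ)‖ ≤ 2 * (N.mu * h) ∧
      ‖(((pvkiT η).apex ((pvkiT η).opp (𝔖.inn.e i)) : ↥(cfSites η)) : ℂ) - ((𝔖.inn.v i : ↥(cfSites η)) : ℂ)‖ ≤ 2 * (N.mu * h) := by
  have hρ : 0 < N.mu * h := mul_pos W.mu0 W.h0
  have e0 : (pvkiT η).src ((pvkiT η).nxt ((pvkiT η).opp (𝔖.inn.e i))) = 𝔖.inn.v i := by
    have : (pvkiT η).tgt ((pvkiT η).opp (𝔖.inn.e i)) = 𝔖.inn.v i := by rw [(pvkiT η).tgt_opp, 𝔖.inn.src_e i hi]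
    exact this
  have e1 : (pvkiT η).apex ((pvkiT η).nxt ((pvkiT η).opp (𝔖.inn.e i))) = 𝔖.inn.v (i + 1) := by
    unfold PvMap.apex
    rw [(pvkiT η).nxt3, (pvkiT η).src_opp', 𝔖.inn.tgt_e i hi]
  have hd : (((pvkiT η).src ((pvkiT η).nxt ((pvkiT η).opp (𝔖.inn.e i))) : ↥(cfSites η)) : ℂ) ∈ pvtrCore (3 * (N.mu * h)) (pvspO N ty z h) := by
    rw [e0]
    exact W.S2_core (pvkp_inn_zone W.nest hst hA hi.le)
  obtain ⟨k1, k2⟩ := pvkj_face_short hρ hη hm _ hd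
  rw [e0] at k1 k2
  rw [e1] at k2
  exact ⟨k2, k1⟩

/-- **RECV AT ONE CONFIGURATION**: two facts round the short cycle `t -b-> u -e-> t` (plug `0` = the big plug `t`, plug `1` = the kit plug `u` placed at `w`), the mask rules of 206 as inclusions of regions,
the mask of the link `e` is the placed mask `w + M₀` in the room of the tags of the inner arc of `u`   ⟹   the clause of `PvvmRec` -/
theorem pvvq_rec_at (H : PvkjCyc 2 𝔢 KE Mk U B a₀) {ξ η : Conf PvPt} (hη : DelGood (cfSites η)) {X : ℕ → ℂ}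
    (hF : ∀ j, j < 2 → ∃ g g' L, PvkjFt η ty.col (𝔢 j) (𝔢 (j + 1)) (KE j) (Mk j) (U (j + 1)) (X j) g g' L)
    (W : ty.Wf N z h) (e0 : 𝔢 0 = pvkjBig (ty.reg N z h)) (e1 : 𝔢 1 = pvkjKit (p.comap (pvthInv w 1)))
    (hm : PvtrMesh (N.mu * h) (pvspO N ty z h) (cfSites η))
    (c1 : ∀ x ∈ ty.reg N z h .C1 ∪ ty.reg N z h .Nm, closedBall x (2 * (N.mu * h)) ⊆ closedBall z (mc * h) ∪ Mk 1) (c2 : Disjoint (closedBall z (mc * h)) (Mk 1))
    (c3 : ∀ x ∈ ty.reg N z h .C1 ∪ ty.reg N z h .Np, Disjoint (closedBall x (2 * (N.mu * h))) (Mk 1))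
    (Hp : PvvqOk p E ρ M₀) (M : PvukMor ξ η ty.col 1 w) (hξ : DelGood (cfSites ξ)) (hf : PvtnFin E ξ) (hmξ : PvtrMesh ρ E (cfSites ξ))
    (hC : pvzlC p _ _ (pvkiT ξ) Subtype.val (pvkiS ξ)) (hMU : ∀ x ∈ U 1, x ∈ Mk 1 ↔ x ∈ vorSim 1 w '' M₀) :
    ∃ (g : ℕ → (delbPl (cfSites η)).toMap.Gate (pvlfFl ty.col (cfCol η ∘ Subtype.val))) (inn lk : ℕ → (delbPl (cfSites η)).toMap.Pth)
      (𝔖 : PvspSt (delbPl (cfSites η)).toMap (pvlfFl ty.col (cfCol η ∘ Subtype.val))),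
      PvcmAt (delbPl (cfSites η)) ty.col 2 Mk B a₀ g inn lk ∧ PvvmAt (delbPl (cfSites η)) ty.col (Mk 1) (closedBall z (mc * h)) (ty.reg N z h) (g (1 + 1)) 𝔖 ∧
        pvkvC0 N ty z h mc η = 𝔖.cut Subtype.val (closedBall z (mc * h)) ∧ w + pvvqCu p E ρ M₀ ξ = pvvmCu (delbPl (cfSites η)).toMap Subtype.val (Mk 1) (inn 1) := by
  obtain ⟨g, L, hper, hFt, hAt⟩ := pvvq_close H hη hF
  have is2 := (hFt 1 (by norm_num)).lk.is'
  rw [show 𝔢 (1 + 1) = pvkjBig (ty.reg N z h) by rw [← e0]; exact H.geo.per] at is2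
  obtain ⟨hst, 𝔖, hA, hg2⟩ := is2
  have is1 := (hFt 1 (by norm_num)).lk.is
  rw [e1] at is1
  have is1' : PvzlGt (pvkiT η) Subtype.val (pvukS ty.col η) (p.comap (pvthInv w 1)) (g 1) := is1
  obtain ⟨m1, m2, m3⟩ := pvvm_rules hA (pvvq_short W hη hm hst hA) c1 c2 c3
  refine ⟨g, _, _, 𝔖, hAt, ⟨hA, hg2, by rw [hg2]; exact (hFt 1 (by norm_num)).fin', m1, m2, m3⟩, (pvvq_C0_plane W hη hm hst hA).1, ?_⟩
  rw [pvvq_cu_mor Hp M hξ hf hmξ hC is1']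
  unfold pvvmCu
  congr 1
  · exact congrArg Subtype.val (hAt.ring.hinn 1 (by norm_num)).1.h1.symm
  · unfold PvMap.Pth.psum
    refine Finset.sum_congr rfl fun i hi => ?_
    have hb := (hFt 0 (by norm_num)).binn i (Finset.mem_range.1 hi)
    unfold pvvmS
    congr 1
    by_cases hx : (pvkiT η).bary Subtype.val ((pvkiT η).opp ((pvtArc (pvkiT η) (pvlfFl ty.col (pvkiS η)) (g (0 + 1)).aIn (g (0 + 1)).len).e i)) ∈ Mk 1
    · exact (indicator_of_mem ((hMU _ hb).1 hx) _).trans (indicator_of_mem hx _).symm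
    · exact (indicator_of_notMem (fun h' => hx ((hMU _ hb).2 h')) _).trans (indicator_of_notMem hx _).symm

end recat

/-! ## 5. at the term of 58 -/

section frame

/-- the inverse frame of 58 is the frame of the kit after the colour frame of 244 -/
theorem pvvq_frame_fl (c : Bool) (w : ℂ) (η : Conf PvPt) : Conf.image (pvydE c w).toEquiv.symm η = cfMap (pvthInv w 1) (pvkyFl c η) := by
  cases c
  · show _ = cfMap (pvthInv w 1) (cfFlip η)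
    unfold cfMap cfFlip
    rw [pvci_image_image]
    congr 1
    funext q
    refine Prod.ext ?_ ?_
    · show q.1 - w = (q.1 - w) / 1
      rw [div_one]
    · show (q.2 == false) = !q.2
      cases q.2 <;> rfl
  · exact pvvq_frame_eq w η

/-- **THE MORPHISM** from the configuration of the reference frame to `η` -/
theorem pvvq_mor (c : Bool) (w : ℂ) {η : Conf PvPt} (h : ∀ p ∈ η.pts, ∀ q ∈ η.pts, p.1 = q.1 → p = q) : PvukMor (Conf.image (pvydE c w).toEquiv.symm η) η c 1 w := by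
  rw [pvvq_frame_fl]
  exact pvuk_mor c h w one_ne_zero

/-- an a.s. property holds a.s. at the configuration of the reference frame -/
theorem pvvq_ae_frame (c : Bool) (w : ℂ) {ε : ℝ} {P : Conf PvPt → Prop} (h : ∀ᵐ ξ ∂(pvP ε), P ξ) : ∀ᵐ η ∂(pvP ε), P (Conf.image (pvydE c w).toEquiv.symm η) := by
  rw [ae_iff] at h ⊢
  exact (pvci_measure_T (pvydE c w) (pvyd_law c w ε) {ξ | ¬ P ξ}).trans h

end frame

section term

variable {τ : Type} {cc : ℝ}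

/-- **CLOSE-V, SHORT CYCLE** (the twin of `PvcpClose2` of 95): on the event of the short cycle `cut point of t − cut point of u` is the `V`-mass of ONE rim in the deterministic mask `M ε` of area `≤ cM h²` -/
structure PvvqClose (𝔓 : PvrxPar τ cc) (𝔤 : PvydGeo τ) (f : ℕ → ℝ → Conf PvPt → ℂ) (m : ℕ) (z : ℂ) (t : τ) (M : ℝ → Set ℂ) (cM h : ℝ) : Prop where
  c0 : 0 ≤ cM
  mM : ∀ᶠ ε in 𝓝[>] (0 : ℝ), MeasurableSet (M ε)
  bM : ∀ᶠ ε in 𝓝[>] (0 : ℝ), Bornology.IsBounded (M ε)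
  vol : ∀ᶠ ε in 𝓝[>] (0 : ℝ), volume (M ε) ≤ ENNReal.ofReal (cM * h ^ 2)
  recg : ∀ᶠ ε in 𝓝[>] (0 : ℝ), PvbeRec ε pvbeWV ((M ε).indicator 1) (pvydEv2 𝔓 𝔤 m ε z t) (fun η => 𝔓.cV0 m ε z t η - pvvtCu 𝔓 f m z t ε η)

/-- the cut point of the reference plug of level `m`: regions `p m`, window `E m`, mesh `ρ m`, mask `M₀ m`, all in the reference frame -/
noncomputable def pvvqF (p : ℕ → PvzlPg ℂ) (E : ℕ → Set ℂ) (ρ : ℕ → ℝ) (M₀ : ℕ → Set ℂ) (m : ℕ) (_ε : ℝ) : Conf PvPt → ℂ := pvvqCu (p m) (E m) (ρ m) (M₀ m)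

theorem pvvq_eqns_cite3 : True := by
  have := @pvvqF.eq_1
  trivial

/-- **what the reference plug owes for `V`**, reference frame -/
structure PvvqRef (𝔤 : PvydGeo τ) (p : PvzlPg ℂ) (E : Set ℂ) (ρ : ℝ) (M₀ : Set ℂ) (m : ℕ) : Prop where
  ok : PvvqOk p E ρ M₀
  sub : E ⊆ 𝔤.Ou m
  mG : ∀ᶠ ε in 𝓝[>] (0 : ℝ), NullMeasurableSet (𝔤.Gu m ε) (pvP ε)
  pos : ∀ᶠ ε in 𝓝[>] (0 : ℝ), pvP ε (𝔤.Gu m ε) ≠ 0
  /-- a usable state has the guard and THE gate of record -/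
  gate : ∀ᶠ ε in 𝓝[>] (0 : ℝ), ∀ᵐ η ∂(pvP ε), η ∈ 𝔤.Gu m ε → η ∈ pvznN ρ E ∧ pvzlC p _ _ (pvkiT η) Subtype.val (pvkiS η)

/-- **what the regions of the short cycle of the candidate `(z,t)` owe for `V`** : plug `0` = the big plug, plug `1` = the kit plug placed at `w = z + zu t`;   the mask rules of 206 (collars `2 μ h`);
in the room of the tags of the inner arc of `u` the mask of the link `e` is ONE set of the frame of `u` -/
structure PvvqV (𝔓 : PvrxPar τ cc) (p : PvzlPg ℂ) (M₀ : Set ℂ) (m : ℕ) (z : ℂ) (t : τ) (𝔢 : ℝ → ℕ → PvkjEnd ℂ) (Mk U : ℝ → ℕ → Set ℂ) : Prop where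
  e0 : ∀ᶠ ε in 𝓝[>] (0 : ℝ), 𝔢 ε 0 = pvkjBig ((𝔓.ty m z t).reg 𝔓.mod.N z (pvlmH m))
  e1 : ∀ᶠ ε in 𝓝[>] (0 : ℝ), 𝔢 ε 1 = pvkjKit (p.comap (pvthInv (pvydWu 𝔓 m z t) 1))
  c1 : ∀ᶠ ε in 𝓝[>] (0 : ℝ), ∀ x ∈ (𝔓.ty m z t).reg 𝔓.mod.N z (pvlmH m) .C1 ∪ (𝔓.ty m z t).reg 𝔓.mod.N z (pvlmH m) .Nm,
    closedBall x (2 * (𝔓.mod.N.mu * pvlmH m)) ⊆ closedBall z (𝔓.𝔐.mc t * pvlmH m) ∪ Mk ε 1
  c2 : ∀ᶠ ε in 𝓝[>] (0 : ℝ), Disjoint (closedBall z (𝔓.𝔐.mc t * pvlmH m)) (Mk ε 1)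
  c3 : ∀ᶠ ε in 𝓝[>] (0 : ℝ), ∀ x ∈ (𝔓.ty m z t).reg 𝔓.mod.N z (pvlmH m) .C1 ∪ (𝔓.ty m z t).reg 𝔓.mod.N z (pvlmH m) .Np, Disjoint (closedBall x (2 * (𝔓.mod.N.mu * pvlmH m))) (Mk ε 1)
  mask : ∀ᶠ ε in 𝓝[>] (0 : ℝ), ∀ x ∈ U ε 1, x ∈ Mk ε 1 ↔ x ∈ vorSim 1 (pvydWu 𝔓 m z t) '' M₀

variable {𝔓 : PvrxPar τ cc} {𝔤 : PvydGeo τ} {m : ℕ} {z : ℂ} {t : τ}

/-- **(B) = [BES-V]** from CLOSE-V -/
theorem pvvq_bes {f : ℕ → ℝ → Conf PvPt → ℂ} {M : ℝ → Set ℂ} {cM : ℝ} (H : PvvqClose 𝔓 𝔤 f m z t M cM (pvlmH m))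
    (hwf : ∀ᶠ ε in 𝓝[>] (0 : ℝ), PvsyCycWF (pvP ε) 2 ((pvydDat 𝔓 𝔤 (𝔓.ty m z t).col).cyc2 m ε z t)) : PvvtBes 𝔓 𝔤 f (pvbeCB * ENNReal.ofReal cM) m z t := by
  filter_upwards [hwf, H.mM, H.bM, H.vol, H.recg, self_mem_nhdsWithin] with ε h1 h2 h3 h4 h5 h6
  have hEv : NullMeasurableSet (pvydEv2 𝔓 𝔤 m ε z t) (pvP ε) := pvcp_ev0_null h1 _ _
  rw [pvcp_set_eq hEv, mul_assoc, ← ENNReal.ofReal_mul H.c0]
  exact (pvbe_one_mask pvbe_in_V h6 h2 h3 h5).trans (by gcongr)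

/-- **(R)** : the cut point of the reference plug -/
theorem pvvq_ref {p : ℕ → PvzlPg ℂ} {E : ℕ → Set ℂ} {ρ : ℕ → ℝ} {M₀ : ℕ → Set ℂ} (R : PvvqRef 𝔤 (p m) (E m) (ρ m) (M₀ m) m) : PvvtRef 𝔤 (pvvqF p E ρ M₀) m where
  meas := Eventually.of_forall fun _ => pvvq_cu_meas R.ok
  reads := Eventually.of_forall fun _ => (pvvq_cu_reads R.ok).mono (prod_mono R.sub Subset.rfl)
  int := by
    filter_upwards [R.mG, R.pos, R.gate] with ε h1 h2 h3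
    exact pvvq_cu_integrable R.ok ε h1 h2 h3

/-- **CLOSE-V FROM THE FACTS OF THE SHORT CYCLE** (`PvucCyc2` of 95: the SAME hypothesis as CLOSE-P) + the regions -/
theorem pvvq_close_cyc2 (hW : 𝔓.Wf) {p : ℕ → PvzlPg ℂ} {E : ℕ → Set ℂ} {ρ : ℕ → ℝ} {M₀ : ℕ → Set ℂ} {a : ℂ} {𝔢 : ℝ → ℕ → PvkjEnd ℂ} {KE Mk U : ℝ → ℕ → Set ℂ} {B : ℝ → Set ℂ} {a₀ : ℝ → ℝ} {cM : ℝ}
    (H : PvucCyc2 (pvydDat 𝔓 𝔤 (𝔓.ty m z t).col) a m z t (𝔓.ty m z t).col 𝔢 KE Mk U B a₀ cM (pvlmH m)) (R : PvvqRef 𝔤 (p m) (E m) (ρ m) (M₀ m) m)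
    (V : PvvqV 𝔓 (p m) (M₀ m) m z t 𝔢 Mk U) : PvvqClose 𝔓 𝔤 (pvvqF p E ρ M₀) m z t (fun ε => Mk ε 1) cM (pvlmH m) where
  c0 := H.c0
  mM := H.mM
  bM := H.bM
  vol := H.vol
  recg := by
    filter_upwards [H.cyc, H.pM, H.dM, H.fb, H.fe, R.gate, V.e0, V.e1, V.c1, V.c2, V.c3, V.mask, self_mem_nhdsWithin] with ε h1 h2 h3 h4 h5 h6 v0 v1 c1 c2 c3 vm hε
    have hd : ∀ i < 2, ∀ j < 2, i ≠ j → Disjoint (Mk ε i) (Mk ε j) := by
      intro i hi j hj hij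
      interval_cases i <;> interval_cases j
      · exact absurd rfl hij
      · exact h3
      · exact h3.symm
      · exact absurd rfl hij
    have hrec : PvvmRec ε 2 1 (pvydEv2 𝔓 𝔤 m ε z t) (𝔓.cV0 m ε z t) (pvvtCu 𝔓 (pvvqF p E ρ M₀) m z t ε) (Mk ε) (closedBall z (𝔓.𝔐.mc t * pvlmH m))
        ((𝔓.ty m z t).reg 𝔓.mod.N z (pvlmH m)) (B ε) (a₀ ε) := by
      filter_upwards [h4, h5, pvvq_ae_frame (𝔓.ty m z t).col (pvydWu 𝔓 m z t) h6, pvqf_good_ae ε (ne_of_gt hε)] with η k4 k5 k6 k7 hη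
      obtain ⟨hG, hGs, hAs⟩ := hη
      have gU : η ∈ (pvydDat 𝔓 𝔤 (𝔓.ty m z t).col).Gu m ε z t := hGs 1 (Finset.mem_Ioo.2 ⟨by omega, by omega⟩) (by omega)
      have aB : η ∈ (pvydDat 𝔓 𝔤 (𝔓.ty m z t).col).Ab m ε z t := hAs 0 (Finset.mem_range.2 (by omega)) (by omega)
      have aE : η ∈ (pvydDat 𝔓 𝔤 (𝔓.ty m z t).col).Ae m ε z t := hAs 1 (Finset.mem_range.2 (by omega)) (by omega)
      obtain ⟨g1, g2⟩ := k6 gU
      have hF : ∀ j, j < 2 → ∃ g g' L, PvkjFt η (𝔓.ty m z t).col (𝔢 ε j) (𝔢 ε (j + 1)) (KE ε j) (Mk ε j) (U ε (j + 1)) ((pvydDat 𝔓 𝔤 (𝔓.ty m z t).col).fld2 m ε a z t j η) g g' L := by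
        intro j hj
        interval_cases j
        · exact k4 hG gU aB
        · exact k5 gU hG aE
      exact ⟨(𝔓.ty m z t).col, pvvq_rec_at h1 k7.del hF (hW.ty_wf m z t) v0 v1 hG.1.2.1 c1 c2 c3 R.ok (pvvq_mor _ _ k7.one) g1.1.good (pvzn_fin g1.1 R.ok.bdd) g1.2 g2 vm⟩
    exact hrec.rec hε le_rfl (by norm_num) h2 hd

end term

/-! ## 6. tools for the suppliers, THE FIELD `cutV` -/

section tools

/-- the regions of the plug of 34 placed at `(w, 1)` are the regions of the reference frame pulled back by the frame -/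
theorem pvvq_pg_at (𝔭 : PvkdPlug) (w : ℂ) : (𝔭.pg 0 1).comap (pvthInv w 1) = 𝔭.pg w 1 := by
  have hb : ∀ r : ℝ, pvthInv w 1 ⁻¹' ball 0 r = ball w r := fun r => by
    ext x
    rw [mem_preimage, mem_ball, mem_ball, dist_zero_right, dist_eq_norm]
    unfold pvthInv
    rw [div_one]
  have ha : ∀ S : Set ℂ, pvthInv w 1 ⁻¹' pvkdAt 0 1 S = pvkdAt w 1 S := fun S => by
    ext x
    constructor
    · rintro ⟨u, hu, e⟩
      refine ⟨u, hu, ?_⟩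
      unfold pvthSim pvthInv at *
      linear_combination e
    · rintro ⟨u, hu, rfl⟩
      refine ⟨u, hu, ?_⟩
      unfold pvthSim pvthInv
      ring
  unfold PvzlPg.comap PvkdPlug.pg
  simp only [hb, ha]

/-- the placed mask -/
theorem pvvq_mask_at (w : ℂ) (M₀ : Set ℂ) (x : ℂ) : x ∈ vorSim 1 w '' M₀ ↔ x - w ∈ M₀ := by
  constructor
  · rintro ⟨u, hu, rfl⟩
    have e : vorSim 1 w u - w = u := by unfold vorSim; ring
    rw [e]; exact hu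
  · intro h
    exact ⟨x - w, h, by unfold vorSim; ring⟩

/-- **THE MASK RULES FROM A SANDWICH** (186 `Exit/NumRP.lean`): the `r`-collar of `C₁` lies in the cut-off ball;   the mask contains the `r`-collar of `N⁻` off the cut-off ball, misses the cut-off ball and the `r`-collar of `N⁺` -/
theorem pvvq_rules {C1 Nm Np Bc M : Set ℂ} {r : ℝ} (hC : ∀ x ∈ C1, closedBall x r ⊆ Bc) (lo : ∀ x ∈ Nm, closedBall x r \ Bc ⊆ M) (hB : Disjoint Bc M)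
    (hi : ∀ x ∈ Np, Disjoint (closedBall x r) M) :
    (∀ x ∈ C1 ∪ Nm, closedBall x r ⊆ Bc ∪ M) ∧ ∀ x ∈ C1 ∪ Np, Disjoint (closedBall x r) M := by
  refine ⟨?_, ?_⟩
  · rintro x (hx | hx) y hy
    · exact Or.inl (hC x hx hy)
    · by_cases hyB : y ∈ Bc
      · exact Or.inl hyB
      · exact Or.inr (lo x hx ⟨hy, hyB⟩)
  · rintro x (hx | hx)
    · exact hB.mono_left (hC x hx)
    · exact hi x hx

end tools

section field

variable {τ : Type} {cc : ℝ} {𝔓 : PvrxPar τ cc} {𝔤 : PvydGeo τ}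

/-- **THE FIELD `cutV` OF `PvrsGeoOk`** (79, `Exit/RestP.lean`), any parameters, any data: the reference plug (`PvvqRef`: 263), the facts of the short cycles (`PvucCyc2` of 95 = the input of `close2`), the regions (`PvvqV`), `cM` uniform -/
theorem pvvq_cutV (hW : 𝔓.Wf) {p : ℕ → PvzlPg ℂ} {E : ℕ → Set ℂ} {ρ : ℕ → ℝ} {M₀ : ℕ → Set ℂ} {cM : ℝ} (R : ∀ m, 𝔓.m0 ≤ m → PvvqRef 𝔤 (p m) (E m) (ρ m) (M₀ m) m)
    (C : ∀ (m : ℕ) (q : ℤ × ℤ) (t : τ), 𝔓.On m (l9Pt (pvlmH m) q) t → ∃ (a : ℂ) (𝔢 : ℝ → ℕ → PvkjEnd ℂ) (KE Mk U : ℝ → ℕ → Set ℂ) (B : ℝ → Set ℂ) (a₀ : ℝ → ℝ),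
      PvucCyc2 (pvydDat 𝔓 𝔤 (𝔓.ty m (l9Pt (pvlmH m) q) t).col) a m (l9Pt (pvlmH m) q) t (𝔓.ty m (l9Pt (pvlmH m) q) t).col 𝔢 KE Mk U B a₀ cM (pvlmH m) ∧
        PvvqV 𝔓 (p m) (M₀ m) m (l9Pt (pvlmH m) q) t 𝔢 Mk U)
    (hwf : ∀ (m : ℕ) (q : ℤ × ℤ) (t : τ), 𝔓.On m (l9Pt (pvlmH m) q) t →
      ∀ᶠ ε in 𝓝[>] (0 : ℝ), PvsyCycWF (pvP ε) 2 ((pvydDat 𝔓 𝔤 (𝔓.ty m (l9Pt (pvlmH m) q) t).col).cyc2 m ε (l9Pt (pvlmH m) q) t)) :
    ∃ (f : ℕ → ℝ → Conf PvPt → ℂ) (CBV : ℝ≥0∞), CBV ≠ ∞ ∧ (∀ m, 𝔓.m0 ≤ m → PvvtRef 𝔤 f m) ∧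
      ∀ (m : ℕ) (q : ℤ × ℤ) (t : τ), 𝔓.On m (l9Pt (pvlmH m) q) t → PvvtBes 𝔓 𝔤 f CBV m (l9Pt (pvlmH m) q) t := by
  refine ⟨pvvqF p E ρ M₀, pvbeCB * ENNReal.ofReal cM, ENNReal.mul_ne_top pvbe_CB_ne_top ENNReal.ofReal_ne_top, fun m hm => pvvq_ref (R m hm), fun m q t hon => ?_⟩
  obtain ⟨a, 𝔢, KE, Mk, U, B, a₀, h1, h2⟩ := C m q t hon
  exact pvvq_bes (pvvq_close_cyc2 hW h1 (R m hon.1) h2) (hwf m q t hon)

end field

end Claimed.Agent.R289
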