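-- KEEP
import Claimed.Agent.R289.Exit.CutVM
import Claimed.Agent.R289.Tr.CutPl
import Claimed.Agent.R289.Tr.KitEnd
import Claimed.Agent.R289.Tr.KitGeoW

/-!
# Row 289 (S0537), Exit/CutVU : ROAD P, field `cutV` of `PvrsGeoOk` (79), HALF (R) AT THE UNIT KIT OF RECORD      (pen helper263; prefix `pvvt_`, `pvvt`, `Pvvt`)
`PvvtRef 𝔥 f m` (`Exit/CutVM.lean`) for EVERY datum `𝔥 : PvydGeo τ` which carries the kit ends of the unit datum `pvyeV 𝔤 𝔱 b q` (291, `Tr/KitEnd.lean`: `PvyeIs 𝔥 (pvyeV ..) δ su`), at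
  **`f m ε := pvvqCu (p m) (E m) (ρ m) (M₀ m)`** (76, `Tr/CutPl.lean`),   `p m := (𝔤.sc (su m)).pg 0 1`,   `E m := pvkdAt 0 1 (𝔤.sc (su m)).Ew`,   `ρ m := (𝔤.sc (su m)).ρ`,   `M₀ m` = ANY Borel mask of the frame of `u`.
* sec. 1  `pvvt_ok_plug`, `pvvt_ok_P` : `PvvqOk` at a plug / at the plug of record `pvkdP r`.
* sec. 2  `pvvt_ref_of` : `PvvqOk` + `E ⊆ Ou` + (a.e. `Gu ⊆` guard ∩ gate of record)  ⟹  `PvvtRef`.
* sec. 3  `pvvt_Gu_C` : a.e. a usable state of the reference plug lies in `(𝔤.sc (su m)).C 0 1` (nice + mesh + THE gate of record, ON `η`);   `pvvt_E_sub`;   **`pvvtF 𝔤 su M₀`** = THE `f` OF RECORD;   **`pvvt_ref_unit`**, **`pvvt_ref_rec`** (geometry of record `pvkgG`).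
          BLACK CANDIDATES (P10 of 273), plug placed at `w = z + zu t`: `pvvt_pg_comap` (`(𝔭.pg 0 1).comap (pvthInv w 1) = 𝔭.pg w 1`), **`pvvt_GU_C`** (a.e. `GU ⊆ (𝔤.sc (su m)).C w 1`),
          **`pvvt_cu_plane`** : `pvvtCu 𝔓 (pvvtF 𝔤 su M₀) m z t ε η = pos g⁺ − (inner arc of g).psum (1_{w + M₀}(bar) * side)` for THE gate of record `g` (`PvkdGate (𝔤.sc (su m)) η w 1 g`) = the clause `cU` of `PvvmRec` (206).
-/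

set_option autoImplicit false

namespace Claimed.Agent.R289

open MeasureTheory Filter Topology Set Metric Claims.C0465
open scoped ENNReal

/-! ## 1. `PvvqOk` at a plug -/

theorem pvvt_ok_plug (𝔭 : PvkdPlug) (ρ0 : 0 < 𝔭.ρ) (mZm : MeasurableSet 𝔭.Zm) (mZp : MeasurableSet 𝔭.Zp) (mTb : MeasurableSet 𝔭.Tb) (ZZ : Disjoint 𝔭.Zm 𝔭.Zp)
    (wE : PvplWin 𝔭.Ew) (bE : Bornology.IsBounded 𝔭.Ew) (cE : ball (0 : ℂ) 𝔭.a ∪ ball 0 𝔭.b ∪ 𝔭.Tb ⊆ pvtrCore (3 * 𝔭.ρ) 𝔭.Ew) {M : Set ℂ} (mM : MeasurableSet M) :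
    PvvqOk (𝔭.pg 0 1) (pvkdAt 0 1 𝔭.Ew) 𝔭.ρ M where
  mp := pvzn_pg_meas 𝔭 mZm mZp mTb one_ne_zero 0
  dis := pvkx_at_disj one_ne_zero ZZ
  win := by rw [pvzn_at_id]; exact wE
  bdd := by rw [pvzn_at_id]; exact bE
  ρ0 := ρ0
  core := pvzn_pg_core 𝔭 cE (by simp) 0
  mM := mM

/-- the plug of record -/
theorem pvvt_ok_P {r : ℝ} (hr : 0 < r) {M : Set ℂ} (mM : MeasurableSet M) : PvvqOk ((pvkdP r).pg 0 1) (pvkdAt 0 1 (pvkdP r).Ew) (pvkdP r).ρ M :=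
  pvvt_ok_plug (pvkdP r) (pvzn_P_rho hr) (pvzn_P_mZm r) (pvzn_P_mZp r) (pvzn_P_mTb r) (pvhf_geo_ZZ hr) (pvzn_P_wE r) (pvzn_P_bE r) (pvzn_P_cE hr) mM

/-! ## 2. `PvvtRef` from a kit plug -/

section ref

variable {τ : Type} {𝔥 : PvydGeo τ} {p : ℕ → PvzlPg ℂ} {E M₀ : ℕ → Set ℂ} {ρ : ℕ → ℝ} {m : ℕ}

/-- **(R)** : the cut point of 76 of a kit plug whose window lies in `Ou`, whose guard and gate of record are forced a.e. by the usable states -/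
theorem pvvt_ref_of (ok : PvvqOk (p m) (E m) (ρ m) (M₀ m)) (hE : E m ⊆ 𝔥.Ou m) (mGu : ∀ᶠ ε in 𝓝[>] (0 : ℝ), MeasurableSet (𝔥.Gu m ε))
    (adm : ∀ᶠ ε in 𝓝[>] (0 : ℝ), pvP ε (𝔥.Gu m ε) ≠ 0)
    (hG : ∀ᶠ ε in 𝓝[>] (0 : ℝ), ∀ᵐ η ∂(pvP ε), η ∈ 𝔥.Gu m ε → η ∈ pvznN (ρ m) (E m) ∧ pvzlC (p m) _ _ (pvkiT η) Subtype.val (pvkiS η)) :
    PvvtRef 𝔥 (fun m _ => pvvqCu (p m) (E m) (ρ m) (M₀ m)) m where
  meas := Eventually.of_forall fun _ => pvvq_cu_meas ok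
  reads := Eventually.of_forall fun _ => (pvvq_cu_reads ok).mono (prod_mono hE Subset.rfl)
  int := by
    filter_upwards [mGu, adm, hG] with ε h1 h2 h3
    exact pvvq_cu_integrable ok ε h1.nullMeasurableSet h2 h3

end ref

/-! ## 3. at the unit kit of record -/

section unit

variable {τ : Type} {𝔥 : PvydGeo τ} {𝔤 : PvkdGeo} {𝔱 : PvhfTr} {b q : ℝ≥0∞} {δ su : ℕ → ℝ} {m : ℕ}

/-- **a.e. a usable state of the reference plug carries THE plug of the scaled geometry**: nice + mesh + gate of record, ON `η` -/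
theorem pvvt_Gu_C (H : PvyeIs 𝔥 (pvyeV 𝔤 𝔱 b q) δ su) (hs : 0 < su m) (mO : MeasurableSet 𝔤.O₀) (mC : MeasurableSet (𝔤.C 0 1)) (ε : ℝ) :
    ∀ᵐ η ∂(pvP ε), η ∈ 𝔥.Gu m ε → η ∈ (𝔤.sc (su m)).C 0 1 := by
  have mW : MeasurableSet ((𝔤.glob (pvhfH 𝔤.toPvkdPlug 𝔱)).pre.O 0 1) := by
    unfold PvthKit.O
    rw [pvth_sim_id, Set.image_id]
    exact mO.prod MeasurableSet.univ
  have h1 := pvdil_ae hs (ε / su m) (pvpg_sure_ae (pv_isPpp (ε / su m)) mW mC)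
  have e1 : su m * (ε / su m) = ε := by field_simp
  rw [e1] at h1
  filter_upwards [h1] with η a1 hG
  rw [H.Gu] at hG
  have hC : cfMap (pvthInv 0 (su m : ℂ)) η ∈ 𝔤.C 0 1 := a1 hG.1
  have := pvdil_cov_C 𝔤.toPvkdPlug hs 0 1
  rw [mul_zero] at this
  show η ∈ (𝔤.toPvkdPlug.sc (su m)).C 0 1
  rw [this]
  exact hC

/-- the window of the scaled plug lies in the region of the reference plug -/
theorem pvvt_E_sub (H : PvyeIs 𝔥 (pvyeV 𝔤 𝔱 b q) δ su) (EO : 𝔤.Ew ⊆ 𝔤.O₀) (m : ℕ) : pvkdAt 0 1 (𝔤.sc (su m)).Ew ⊆ 𝔥.Ou m := by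
  rw [H.Ou, pvzn_at_id]
  show pvdilS (su m) 𝔤.Ew ⊆ pvthSim 0 (su m) '' 𝔤.O₀
  rw [pvdil_S_sim]
  exact image_mono EO

/-- **THE CUT POINT OF RECORD OF THE REFERENCE PLUG, REFERENCE FRAME**: the plug of the unit kit at the scale `su m`, mask `M₀ m` of the frame of `u` -/
noncomputable def pvvtF (𝔤 : PvkdGeo) (su : ℕ → ℝ) (M₀ : ℕ → Set ℂ) (m : ℕ) (_ : ℝ) : Conf PvPt → ℂ :=
  pvvqCu ((𝔤.sc (su m)).pg 0 1) (pvkdAt 0 1 (𝔤.sc (su m)).Ew) (𝔤.sc (su m)).ρ (M₀ m)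

theorem pvvt_eqns_cite8 : True := by
  have := @pvvtF.eq_1
  trivial

/-- **(R) AT THE UNIT KIT**, any geometry `𝔤` -/
theorem pvvt_ref_unit (H : PvyeIs 𝔥 (pvyeV 𝔤 𝔱 b q) δ su) (hs : 0 < su m) (mO : MeasurableSet 𝔤.O₀) (mC : MeasurableSet (𝔤.C 0 1)) (EO : 𝔤.Ew ⊆ 𝔤.O₀) {M₀ : ℕ → Set ℂ}
    (ok : PvvqOk ((𝔤.sc (su m)).pg 0 1) (pvkdAt 0 1 (𝔤.sc (su m)).Ew) (𝔤.sc (su m)).ρ (M₀ m))
    (mGu : ∀ᶠ ε in 𝓝[>] (0 : ℝ), MeasurableSet (𝔥.Gu m ε)) (adm : ∀ᶠ ε in 𝓝[>] (0 : ℝ), pvP ε (𝔥.Gu m ε) ≠ 0) : PvvtRef 𝔥 (pvvtF 𝔤 su M₀) m :=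
  pvvt_ref_of (p := fun m => (𝔤.sc (su m)).pg 0 1) (E := fun m => pvkdAt 0 1 (𝔤.sc (su m)).Ew) (ρ := fun m => (𝔤.sc (su m)).ρ) ok (pvvt_E_sub H EO m) mGu adm
    (Eventually.of_forall fun ε => pvvt_Gu_C H hs mO mC ε)

/-- `PvvqOk` at the geometry of record, every scale -/
theorem pvvt_ok_rec {s : ℝ} (hs : 0 < s) {M : Set ℂ} (mM : MeasurableSet M) : PvvqOk ((pvkgG.sc s).pg 0 1) (pvkdAt 0 1 (pvkgG.sc s).Ew) (pvkgG.sc s).ρ M := by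
  rw [pvuk_rec_plug hs]
  exact pvvt_ok_P (by positivity) mM

/-- **(R) AT THE GEOMETRY OF RECORD `pvkgG`**: NO MODEL INPUT IS LEFT but `mGu`, `adm` (fields `KitOk.mGu`, `adm` of the contract) and the Borel mask -/
theorem pvvt_ref_rec (H : PvyeIs 𝔥 (pvyeV pvkgG 𝔱 b q) δ su) (hs : 0 < su m) {M₀ : ℕ → Set ℂ} (mM : MeasurableSet (M₀ m))
    (mGu : ∀ᶠ ε in 𝓝[>] (0 : ℝ), MeasurableSet (𝔥.Gu m ε)) (adm : ∀ᶠ ε in 𝓝[>] (0 : ℝ), pvP ε (𝔥.Gu m ε) ≠ 0) : PvvtRef 𝔥 (pvvtF pvkgG su M₀) m :=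
  pvvt_ref_unit H hs pvnn_zn.mO (pvnn_zn.mC fun _ => ∅) pvnn_zn.EO (pvvt_ok_rec hs mM) mGu adm

/-! ### the reference plug of a BLACK candidate, placed at `w = z + zu t` -/

theorem pvvt_inv_at (w : ℂ) (S : Set ℂ) : pvthInv w 1 ⁻¹' pvkdAt 0 1 S = pvkdAt w 1 S := by
  rw [pvzn_at_id, pvzn_at_pre one_ne_zero]

theorem pvvt_inv_ball (w : ℂ) (r : ℝ) : pvthInv w 1 ⁻¹' ball 0 r = ball w r := by
  ext x
  unfold pvthInv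
  rw [mem_preimage, div_one, mem_ball_zero_iff, mem_ball_iff_norm]

theorem pvvt_at_bdd (w : ℂ) {S : Set ℂ} (hS : Bornology.IsBounded S) : Bornology.IsBounded (pvkdAt w 1 S) := by
  obtain ⟨R, hR⟩ := hS.subset_closedBall 0
  refine (isBounded_closedBall (x := w) (r := R)).subset ?_
  rintro _ ⟨x, hx, rfl⟩
  have := mem_closedBall_zero_iff.1 (hR hx)
  rw [mem_closedBall_iff_norm]
  unfold pvthSim
  simpa using this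

theorem pvvt_inv_ae (w : ℂ) {ε : ℝ} {P : Conf PvPt → Prop} (h : ∀ᵐ η ∂(pvP ε), P η) : ∀ᵐ η ∂(pvP ε), P (cfMap (pvthInv w 1) η) := by
  have e := pvuk_law_inv w one_ne_zero ε
  rw [norm_one, inv_one, one_mul] at e
  rw [← e] at h
  exact ae_of_ae_map (measurable_cfMap (pvth_measurable_inv _ _)).aemeasurable h

/-- the regions of a plug placed at `w` are the regions of the reference frame read through the frame -/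
theorem pvvt_pg_comap (𝔭 : PvkdPlug) (w : ℂ) : (𝔭.pg 0 1).comap (pvthInv w 1) = 𝔭.pg w 1 := by
  unfold PvzlPg.comap PvkdPlug.pg
  simp only [pvvt_inv_ball, pvvt_inv_at]

/-- the frame of 58, black -/
theorem pvvt_frame_true (w : ℂ) (η : Conf PvPt) : Conf.image (pvydE true w).toEquiv.symm η = cfMap (pvthInv w 1) η := by
  rw [pvyd_E_symm, pvyd_fl_true]

/-- **a.e. a usable state of the reference plug of a black candidate carries THE plug placed at `w`**: nice + mesh + gate of record, ON `η` -/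
theorem pvvt_GU_C {cc : ℝ} (𝔓 : PvrxPar τ cc) (H : PvyeIs 𝔥 (pvyeV 𝔤 𝔱 b q) δ su) (hs : 0 < su m) (mO : MeasurableSet 𝔤.O₀) (mC : MeasurableSet (𝔤.C 0 1)) (ε : ℝ) (z : ℂ) (t : τ) :
    ∀ᵐ η ∂(pvP ε), η ∈ 𝔥.GU 𝔓 true m ε z t → η ∈ (𝔤.sc (su m)).C (pvydWu 𝔓 m z t) 1 := by
  filter_upwards [pvvt_inv_ae (pvydWu 𝔓 m z t) (pvvt_Gu_C H hs mO mC ε)] with η a1 hG
  have hG' : Conf.image (pvydE true (pvydWu 𝔓 m z t)).toEquiv.symm η ∈ 𝔥.Gu m ε := hG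
  rw [pvvt_frame_true] at hG'
  rw [pvco_cov_C _ _ (by norm_num : (1 : ℂ) ^ 4 = 1)]
  exact a1 hG'

/-- **THE PLANE READING OF THE CUT POINT OF RECORD OF `u(z,t)`, BLACK CANDIDATE**: position of `g⁺` minus the `V`-mass in the placed mask `w + M₀` of the inner arc of THE gate of record -/
theorem pvvt_cu_plane {cc : ℝ} (𝔓 : PvrxPar τ cc) {M₀ : ℕ → Set ℂ} {z : ℂ} {t : τ} (hcol : (𝔓.ty m z t).col = true)
    (ok : PvvqOk ((𝔤.sc (su m)).pg 0 1) (pvkdAt 0 1 (𝔤.sc (su m)).Ew) (𝔤.sc (su m)).ρ (M₀ m)) (ε : ℝ) {η : Conf PvPt}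
    (hN : η ∈ (𝔤.sc (su m)).N (pvydWu 𝔓 m z t) 1) {g : (pvkiT η).Gate (pvkiS η)} (hg : PvkdGate (𝔤.sc (su m)).toPvkdPlug η (pvydWu 𝔓 m z t) 1 g) :
    pvvtCu 𝔓 (pvvtF 𝔤 su M₀) m z t ε η = ((g.vp : ↥(cfSites η)) : ℂ) -
      (pvtArc (pvkiT η) (pvkiS η) g.aIn g.len).psum (fun d => (pvthInv (pvydWu 𝔓 m z t) 1 ⁻¹' M₀ m).indicator 1 ((pvkiT η).bary Subtype.val d) * (pvkiT η).side Subtype.val d) := by
  have eE : pvthInv (pvydWu 𝔓 m z t) 1 ⁻¹' pvkdAt 0 1 (𝔤.sc (su m)).Ew = pvkdAt (pvydWu 𝔓 m z t) 1 (𝔤.sc (su m)).Ew := pvvt_inv_at _ _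
  have hb : Bornology.IsBounded (pvkdAt (pvydWu 𝔓 m z t) 1 (𝔤.sc (su m)).Ew) := pvvt_at_bdd _ (by have := ok.bdd; rwa [pvzn_at_id] at this)
  have key := pvvq_cu_plane ok (pvydWu 𝔓 m z t) (η := η) hN.1.good (by rw [eE]; exact pvzn_fin hN.1 hb) (by rw [eE]; exact hN.2) (g := g) (by rw [pvvt_pg_comap]; exact hg)
  rw [← key]
  unfold pvvtCu pvciT
  rw [hcol, pvvt_frame_true]
  rfl

end unit

end Claimed.Agent.R289
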