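-- KEEP
import Claimed.Agent.R289.Exit.RestP

/-!
# R289 `Exit/NumRP` (186): THE NUMBERS ASKED OF THE MODEL BY THE READERS OF ROAD P, proved at `𝔤.OK`

* `pvuw_hLr`      (183, `Exit/PatD` `Exit/PatN`: hypothesis `hLr`)   `2 (nB + 2) dl ≤ Lr` at `pvrsNum 𝔤`, `pvrsPL 𝔤`.
* `pvuw_c1_ball`  (206, `Tr/CloseV` `pvvm_rules` (c1)+(c3))   the `r`-collar of `C₁` lies in the cut-off ball `clB(z, mc h)`, `mc = 100 b₀`, for `r ≤ h`.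
* `pvuw_tubes`    (206)   a point within `7 dl h` of BOTH black tubes of a candidate lies in `clB(z, 3 h)`, hence in the cut-off ball (`pvuw_tubes_cut`).
* `pvuw_mask`     the form in which a mask uses it: off the cut-off ball the `r`-collar of `N⁻` misses the `r`-collar of `C₁ ∪ N⁺`.
-/

open Metric Set

namespace Claimed.Agent.R289

section num

variable {𝔤 : PvmhNum} (H : 𝔤.OK)

include H

/-- the number `hLr` of 183 at the numbers and plugs of record -/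
theorem pvuw_hLr : 2 * (((pvrsPL 𝔤).nB : ℝ) + 2) * (pvrsNum 𝔤).dl ≤ (pvrsNum 𝔤).Lr := by
  obtain ⟨h0, h1, h2, h3, h4, h5⟩ := pvmh_basic H
  have r3 : 𝔤.b3 = 𝔤.b 2 + 1 := rfl
  have hb : 61 ≤ 𝔤.b3 := by rw [r3]; linarith
  have u2 := Nat.ceil_lt_add_one (div_nonneg (by linarith : 0 ≤ 6 * 𝔤.b3 + 2 * 𝔤.dl) h0.le)
  have u3 : (⌈(6 * 𝔤.b3 + 2 * 𝔤.dl) / 𝔤.dl⌉₊ : ℝ) * 𝔤.dl < 6 * 𝔤.b3 + 3 * 𝔤.dl := by
    have : (⌈(6 * 𝔤.b3 + 2 * 𝔤.dl) / 𝔤.dl⌉₊ : ℝ) * 𝔤.dl < ((6 * 𝔤.b3 + 2 * 𝔤.dl) / 𝔤.dl + 1) * 𝔤.dl := mul_lt_mul_of_pos_right u2 h0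
    rw [add_mul, div_mul_cancel₀ _ h0.ne', one_mul] at this
    linarith
  show 2 * (((⌈(6 * 𝔤.b3 + 2 * 𝔤.dl) / 𝔤.dl⌉₊ + 8 : ℕ) : ℝ) + 2) * 𝔤.dl ≤ 20 * 𝔤.b3 + 3
  push_cast
  nlinarith

variable {h : ℝ} (z : ℂ) (s : PvmhT 𝔤)

/-- (c1)+(c3) of 206, first number: `C₁` with its collar lies in the cut-off ball -/
theorem pvuw_c1_ball (hh : 0 < h) {r : ℝ} (hr : r ≤ h) {x : ℂ} (hx : x ∈ (𝔤.ty h z s).reg 𝔤.sp z h .C1) :
    closedBall x r ⊆ closedBall z (100 * 𝔤.b 0 * h) := by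
  have hx' : x ∈ closedBall z ((𝔤.b 0 + 1) * h) := hx
  have a0 := H.a_pos; have b0 := H.ab 0
  intro p hp
  rw [mem_closedBall_iff_norm] at hp hx' ⊢
  have e : p - z = (p - x) + (x - z) := by ring
  have h1 : ‖p - z‖ ≤ ‖p - x‖ + ‖x - z‖ := by rw [e]; exact norm_add_le _ _
  nlinarith

/-- (c1)+(c3) of 206, second number: the `7 dl h`-collars of the two black tubes meet in `clB(z, 3 h)` only -/
theorem pvuw_tubes (hh : 0 < h) {r : ℝ} (hr : r ≤ 7 * (𝔤.dl * h)) {x y p : ℂ} (hx : x ∈ (𝔤.ty h z s).Nm) (hy : y ∈ (𝔤.ty h z s).Np)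
    (hpx : p ∈ closedBall x r) (hpy : p ∈ closedBall y r) : p ∈ closedBall z (3 * h) := by
  have hδ : 0 < 𝔤.dl * h := mul_pos H.dl0 hh
  rw [mem_closedBall_iff_norm] at hpx hpy
  have hx' : x ∈ pvmgPl z (𝔤.dl * h) (pvmnNm s.typ) := pvmg_mono (pvmh_Nm_sub _) hx
  have hy' : y ∈ pvmgPl z (𝔤.dl * h) (pvmnNp s.typ) := pvmg_mono (pvmh_Np_sub _) hy
  have h1 : p ∈ pvmgPl z (𝔤.dl * h) (pvtwN 7 (pvmnNm s.typ)) := pvmg_near hδ hx' (by push_cast; linarith)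
  have h2 : p ∈ pvmgPl z (𝔤.dl * h) (pvtwN 7 (pvmnNp s.typ)) := pvmg_near hδ hy' (by push_cast; linarith)
  have h3 := pvmg_inter hδ ⟨h1, h2⟩
  refine pvmh_bar H z s hh (pvmg_mono ?_ h3)
  rintro c ⟨c1, c2⟩
  rw [pvtw_N_add] at c1
  exact pvmn_Np_Nm s.isType ⟨pvtw_N_mono (by omega) le_rfl c1, pvtw_N_mono (by omega) le_rfl c2⟩

theorem pvuw_tubes_cut (hh : 0 < h) {r : ℝ} (hr : r ≤ 7 * (𝔤.dl * h)) {x y p : ℂ} (hx : x ∈ (𝔤.ty h z s).Nm) (hy : y ∈ (𝔤.ty h z s).Np)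
    (hpx : p ∈ closedBall x r) (hpy : p ∈ closedBall y r) : p ∈ closedBall z (100 * 𝔤.b 0 * h) := by
  have a0 := H.a_pos; have b0 := H.ab 0
  exact closedBall_subset_closedBall (mul_le_mul_of_nonneg_right (by linarith) hh.le) (pvuw_tubes H z s hh hr hx hy hpx hpy)

/-- **the room of the mask**: off the cut-off ball the `r`-collar of `N⁻` misses the `r`-collar of `C₁ ∪ N⁺`   (so `M := (r-collar of N⁻) \ Bc` satisfies (c1) (c2) (c3) of `pvvm_rules`, and so does every `M` between it and the complement of `Bc ∪ (r-collar of C₁ ∪ N⁺)`) -/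
theorem pvuw_mask (hh : 0 < h) {r : ℝ} (hr : r ≤ 7 * (𝔤.dl * h)) {x y p : ℂ} (hx : x ∈ (𝔤.ty h z s).reg 𝔤.sp z h .Nm)
    (hy : y ∈ (𝔤.ty h z s).reg 𝔤.sp z h .C1 ∪ (𝔤.ty h z s).reg 𝔤.sp z h .Np) (hpx : p ∈ closedBall x r) (hpy : p ∈ closedBall y r) :
    p ∈ closedBall z (100 * 𝔤.b 0 * h) := by
  obtain ⟨h0, h1, -⟩ := pvmh_basic H
  rcases hy with hy | hy
  · exact pvuw_c1_ball H z s hh (by nlinarith) hy hpy
  · exact pvuw_tubes_cut H z s hh hr hx hy hpx hpy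

end num

end Claimed.Agent.R289
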