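-- KEEP
import Claimed.Agent.R289.Exit.CutVG
import Claimed.Agent.R289.Exit.CutVU
import Claimed.Agent.R289.Exit.NumRP
import Claimed.Agent.R289.Exit.CloseTP

/-!
# Row 289 (S0537, Cardy for Poisson-Voronoi), THE WALL, ROAD P, file Exit/CutVT : THE FIELD `cutV` OF `PvrsGeoOk` AT THE MODEL AND AT THE UNIT KIT OF RECORD      (helper76; prefix `pvvq_`, `pvvq`, `Pvvq`)

* `pvvq_ref_rec`   `PvvqRef` at the geometry of record `pvkgG`, scale `su m` (lemmas of 263, `Exit/CutVU.lean`).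
* `pvvq_V_model`   `PvvqV` at `pvrzPar c 𝔤 H Γ m0` from: the two ends, THE SANDWICH of the mask `M_e` (numbers of 186, `Exit/NumRP.lean`), the mask in the frame of `u`.
* `PvvqIn`         = ALL that the short cycle of a candidate which is switched on owes for `V`, in regions + `PvucCyc2` of 95.
* `pvvq_in_of_in2`  `PvvqIn` from `PvucIn2` of 95 (`Exit/CloseTP.lean` = the input of `close2` at the term) + `Cb.e` = the big end, `Ce.e` = the kit end + the sandwich of `Ce.M` + `Ce.M = w + M₀` in `Uu`.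
* **`pvvq_cutV_rec`** = the field `cutV` VERBATIM from the fields `kit cand adm` (verbatim), the equations `PvyeIs` of 291 and `PvvqIn`.
-/

set_option autoImplicit false

namespace Claimed.Agent.R289

open MeasureTheory Filter Topology Set Metric Claims.C0465
open scoped ENNReal

section ref

variable {τ : Type} {𝔥 : PvydGeo τ} {𝔱 : PvhfTr} {b q : ℝ≥0∞} {δ su : ℕ → ℝ} {m : ℕ}

/-- **the reference plug of record pays `PvvqRef`** -/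
theorem pvvq_ref_rec (H : PvyeIs 𝔥 (pvyeV pvkgG 𝔱 b q) δ su) (hs : 0 < su m) {M₀ : Set ℂ} (mM : MeasurableSet M₀)
    (mGu : ∀ᶠ ε in 𝓝[>] (0 : ℝ), MeasurableSet (𝔥.Gu m ε)) (adm : ∀ᶠ ε in 𝓝[>] (0 : ℝ), pvP ε (𝔥.Gu m ε) ≠ 0) :
    PvvqRef 𝔥 ((pvkgG.sc (su m)).pg 0 1) (pvkdAt 0 1 (pvkgG.sc (su m)).Ew) (pvkgG.sc (su m)).ρ M₀ m where
  ok := pvvt_ok_rec hs mM
  sub := pvvt_E_sub H pvnn_zn.EO m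
  mG := mGu.mono fun _ h => h.nullMeasurableSet
  pos := adm
  gate := Eventually.of_forall fun ε => pvvt_Gu_C H hs pvnn_zn.mO (pvnn_zn.mC fun _ => ∅) ε

end ref

section model

variable {𝔤 : PvmhNum} {c : ℝ} (H : PvrzGood 𝔤) {Γ : ℕ → PvtsGeo (PvmhT 𝔤)} {m0 : ℕ}

/-- **`PvvqV` AT THE MODEL** : the two ends;   THE SANDWICH: `M_e` contains the `2 μ h`-collar of `N⁻` off the cut-off ball `Bc = clB(z, 100 b₀ h)`, misses `Bc` and the `2 μ h`-collar of `N⁺`;   in the room of `u` : `M_e = w + M₀` -/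
theorem pvvq_V_model {𝔭 : PvkdPlug} {M₀ : Set ℂ} {m : ℕ} {z : ℂ} {t : PvmhT 𝔤} {𝔢 : ℝ → ℕ → PvkjEnd ℂ} {Mk U : ℝ → ℕ → Set ℂ}
    (e0 : ∀ᶠ ε in 𝓝[>] (0 : ℝ), 𝔢 ε 0 = pvkjBig (((pvrzPar c 𝔤 H Γ m0).ty m z t).reg (pvrzPar c 𝔤 H Γ m0).mod.N z (pvlmH m)))
    (e1 : ∀ᶠ ε in 𝓝[>] (0 : ℝ), 𝔢 ε 1 = pvkjKit (𝔭.pg (pvydWu (pvrzPar c 𝔤 H Γ m0) m z t) 1))
    (lo : ∀ᶠ ε in 𝓝[>] (0 : ℝ), ∀ x ∈ ((pvrzPar c 𝔤 H Γ m0).ty m z t).Nm, closedBall x (2 * (𝔤.mu * pvlmH m)) \ closedBall z (100 * 𝔤.b 0 * pvlmH m) ⊆ Mk ε 1)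
    (hB : ∀ᶠ ε in 𝓝[>] (0 : ℝ), Disjoint (closedBall z (100 * 𝔤.b 0 * pvlmH m)) (Mk ε 1))
    (hi : ∀ᶠ ε in 𝓝[>] (0 : ℝ), ∀ x ∈ ((pvrzPar c 𝔤 H Γ m0).ty m z t).Np, Disjoint (closedBall x (2 * (𝔤.mu * pvlmH m))) (Mk ε 1))
    (mask : ∀ᶠ ε in 𝓝[>] (0 : ℝ), ∀ x ∈ U ε 1, x ∈ Mk ε 1 ↔ x - pvydWu (pvrzPar c 𝔤 H Γ m0) m z t ∈ M₀) :
    PvvqV (pvrzPar c 𝔤 H Γ m0) (𝔭.pg 0 1) M₀ m z t 𝔢 Mk U := by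
  have hh : 0 < pvlmH m := pvlm_H_pos m
  have hr : 2 * (𝔤.mu * pvlmH m) ≤ pvlmH m := by
    obtain ⟨h0, h1, -⟩ := pvmh_basic H.ok
    have := H.ok.mu_le
    nlinarith
  have hC : ∀ x ∈ ((pvrzPar c 𝔤 H Γ m0).ty m z t).reg (pvrzPar c 𝔤 H Γ m0).mod.N z (pvlmH m) .C1, closedBall x (2 * (𝔤.mu * pvlmH m)) ⊆ closedBall z (100 * 𝔤.b 0 * pvlmH m) :=
    fun x hx => pvuw_c1_ball H.ok z t hh hr hx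
  refine ⟨e0, ?_, ?_, hB, ?_, ?_⟩
  · filter_upwards [e1] with ε h
    rw [h, pvvq_pg_at]
  · filter_upwards [lo, hB, hi] with ε h1 h2 h3
    exact (pvvq_rules hC h1 h2 h3).1
  · filter_upwards [lo, hB, hi] with ε h1 h2 h3
    exact (pvvq_rules hC h1 h2 h3).2
  · filter_upwards [mask] with ε h x hx
    rw [h x hx, pvvq_mask_at]

/-- **ALL THAT THE SHORT CYCLE OF A CANDIDATE OWES FOR `V`**: the facts of 95 (= the input of `close2`), the two ends, the sandwich, the mask in the frame of `u` -/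
def PvvqIn (c : ℝ) (H : PvrzGood 𝔤) (Γ : ℕ → PvtsGeo (PvmhT 𝔤)) (m0 : ℕ) (𝔶 : PvydGeo (PvmhT 𝔤)) (𝔭 : PvkdPlug) (M₀ : Set ℂ) (cM : ℝ) (m : ℕ) (z : ℂ) (t : PvmhT 𝔤) : Prop :=
  ∃ (a : ℂ) (𝔢 : ℝ → ℕ → PvkjEnd ℂ) (KE Mk U : ℝ → ℕ → Set ℂ) (B : ℝ → Set ℂ) (a₀ : ℝ → ℝ),
    PvucCyc2 (pvydDat (pvrzPar c 𝔤 H Γ m0) 𝔶 ((pvrzPar c 𝔤 H Γ m0).ty m z t).col) a m z t ((pvrzPar c 𝔤 H Γ m0).ty m z t).col 𝔢 KE Mk U B a₀ cM (pvlmH m) ∧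
    (∀ᶠ ε in 𝓝[>] (0 : ℝ), 𝔢 ε 0 = pvkjBig (((pvrzPar c 𝔤 H Γ m0).ty m z t).reg (pvrzPar c 𝔤 H Γ m0).mod.N z (pvlmH m))) ∧
    (∀ᶠ ε in 𝓝[>] (0 : ℝ), 𝔢 ε 1 = pvkjKit (𝔭.pg (pvydWu (pvrzPar c 𝔤 H Γ m0) m z t) 1)) ∧
    (∀ᶠ ε in 𝓝[>] (0 : ℝ), ∀ x ∈ ((pvrzPar c 𝔤 H Γ m0).ty m z t).Nm, closedBall x (2 * (𝔤.mu * pvlmH m)) \ closedBall z (100 * 𝔤.b 0 * pvlmH m) ⊆ Mk ε 1) ∧
    (∀ᶠ ε in 𝓝[>] (0 : ℝ), Disjoint (closedBall z (100 * 𝔤.b 0 * pvlmH m)) (Mk ε 1)) ∧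
    (∀ᶠ ε in 𝓝[>] (0 : ℝ), ∀ x ∈ ((pvrzPar c 𝔤 H Γ m0).ty m z t).Np, Disjoint (closedBall x (2 * (𝔤.mu * pvlmH m))) (Mk ε 1)) ∧
    ∀ᶠ ε in 𝓝[>] (0 : ℝ), ∀ x ∈ U ε 1, x ∈ Mk ε 1 ↔ x - pvydWu (pvrzPar c 𝔤 H Γ m0) m z t ∈ M₀

theorem pvvq_eqns_cite4 : True := by
  have := @PvvqIn.eq_1
  trivial

/-- **`PvvqIn` FROM THE INPUT OF `close2` AT THE TERM** (95 `PvucIn2`): nothing new but six lines on the regions -/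
theorem pvvq_in_of_in2 {𝔶 : PvydGeo (PvmhT 𝔤)} {𝔭 : PvkdPlug} {M₀ : Set ℂ} {cM : ℝ} {m : ℕ} {z : ℂ} {t : PvmhT 𝔤} {Cb Ce : PvkjCn} {Ut Uu B : Set ℂ} {a₀ : ℝ}
    (h : PvucIn2 (pvrzPar c 𝔤 H Γ m0) 𝔶 ((pvrzPar c 𝔤 H Γ m0).ty m z t).col m z t Cb Ce Ut Uu B a₀ cM (pvlmH m))
    (e0 : Cb.e = pvkjBig (((pvrzPar c 𝔤 H Γ m0).ty m z t).reg (pvrzPar c 𝔤 H Γ m0).mod.N z (pvlmH m)))
    (e1 : Ce.e = pvkjKit (𝔭.pg (pvydWu (pvrzPar c 𝔤 H Γ m0) m z t) 1))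
    (lo : ∀ x ∈ ((pvrzPar c 𝔤 H Γ m0).ty m z t).Nm, closedBall x (2 * (𝔤.mu * pvlmH m)) \ closedBall z (100 * 𝔤.b 0 * pvlmH m) ⊆ Ce.M)
    (hB : Disjoint (closedBall z (100 * 𝔤.b 0 * pvlmH m)) Ce.M)
    (hi : ∀ x ∈ ((pvrzPar c 𝔤 H Γ m0).ty m z t).Np, Disjoint (closedBall x (2 * (𝔤.mu * pvlmH m))) Ce.M)
    (mask : ∀ x ∈ Uu, x ∈ Ce.M ↔ x - pvydWu (pvrzPar c 𝔤 H Γ m0) m z t ∈ M₀) : PvvqIn c H Γ m0 𝔶 𝔭 M₀ cM m z t :=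
  ⟨0, _, _, _, _, _, _, h.cyc 0, Eventually.of_forall fun _ => e0, Eventually.of_forall fun _ => e1, Eventually.of_forall fun _ => lo, Eventually.of_forall fun _ => hB,
    Eventually.of_forall fun _ => hi, Eventually.of_forall fun _ => mask⟩

/-- **THE FIELD `cutV` OF `PvrsGeoOk`, VERBATIM**, from the fields `kit cand adm` (verbatim), the equations of the kit ends (291) and `PvvqIn` at every candidate which is switched on, `cM` uniform;   `f := pvvtF pvkgG su M₀` of 263 -/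
theorem pvvq_cutV_rec {𝔶 : PvydGeo (PvmhT 𝔤)} {𝔱 : PvhfTr} {b q : ℝ≥0∞} {δ su : ℕ → ℝ} {M₀ : ℕ → Set ℂ} {cM : ℝ}
    (Hy : PvyeIs 𝔶 (pvyeV pvkgG 𝔱 b q) δ su) (hs : ∀ m, m0 ≤ m → 0 < su m) (mM : ∀ m, MeasurableSet (M₀ m))
    (kit : ∀ m, m0 ≤ m → ∃ β' qk : ℝ≥0∞, β' ≠ 0 ∧ qk ≠ 0 ∧ 𝔶.KitOk (pvrzPar c 𝔤 H Γ m0) m β' qk)
    (cand : ∀ (m : ℕ) (p : ℤ × ℤ) (t : PvmhT 𝔤), (pvrzPar c 𝔤 H Γ m0).On m (l9Pt (pvlmH m) p) t → 𝔶.CandOk (pvrzPar c 𝔤 H Γ m0) m (l9Pt (pvlmH m) p) t)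
    (adm : ∃ βu : ℝ≥0∞, βu ≠ 0 ∧ ∀ m, m0 ≤ m → ∀ᶠ ε in 𝓝[>] (0 : ℝ), βu ≤ pvP ε (𝔶.Gu m ε))
    (C : ∀ (m : ℕ) (p : ℤ × ℤ) (t : PvmhT 𝔤), (pvrzPar c 𝔤 H Γ m0).On m (l9Pt (pvlmH m) p) t → PvvqIn c H Γ m0 𝔶 (pvkgG.sc (su m)).toPvkdPlug (M₀ m) cM m (l9Pt (pvlmH m) p) t) :
    ∃ (f : ℕ → ℝ → Conf PvPt → ℂ) (CBV : ℝ≥0∞), CBV ≠ ∞ ∧ (∀ m, m0 ≤ m → PvvtRef 𝔶 f m) ∧
      ∀ (m : ℕ) (p : ℤ × ℤ) (t : PvmhT 𝔤), (pvrzPar c 𝔤 H Γ m0).On m (l9Pt (pvlmH m) p) t → PvvtBes (pvrzPar c 𝔤 H Γ m0) 𝔶 f CBV m (l9Pt (pvlmH m) p) t := by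
  obtain ⟨βu, hβu, hadm⟩ := adm
  refine pvvq_cutV (𝔓 := pvrzPar c 𝔤 H Γ m0) (pvrz_wf H Γ m0) (p := fun m => (pvkgG.sc (su m)).pg 0 1) (E := fun m => pvkdAt 0 1 (pvkgG.sc (su m)).Ew) (ρ := fun m => (pvkgG.sc (su m)).ρ)
    (M₀ := M₀) (cM := cM) (fun m hm => ?_) (fun m p t hon => ?_) (fun m p t hon => ?_)
  · obtain ⟨β', qk, -, -, hK⟩ := kit m hm
    exact pvvq_ref_rec Hy (hs m hm) (mM m) hK.mGu ((hadm m hm).mono fun ε h h0 => hβu (le_antisymm (h0 ▸ h) zero_le))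
  · obtain ⟨a, 𝔢, KE, Mk, U, B, a₀, h1, e0, e1, lo, hB, hi, mask⟩ := C m p t hon
    exact ⟨a, 𝔢, KE, Mk, U, B, a₀, h1, pvvq_V_model H e0 e1 lo hB hi mask⟩
  · obtain ⟨β', qk, -, -, hK⟩ := kit m hon.1
    exact pvyd_wf2_ev (pvrz_wf H Γ m0) hK (cand m p t hon)

end model

end Claimed.Agent.R289
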