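-- KEEP
import Claimed.Agent.R289.Tr.KitEnd
import Claimed.Agent.R289.Exit.NumQ

/-!
# Row 289 (S0537), THE WALL, ROAD P, file Exit/GeoKitP : THE KIT SUB-ROOFS OF `exit_pvrs_geo` (`PvrsGeoOk` of 79, `Exit/RestP.lean`)      (pen helper291; cutter of the roof: 36 `Exit/GeoP.lean`; prefix `pvyh_`, `Pvyh`)

FOR ANY DATUM `𝔶 : PvydGeo τ` WHICH SATISFIES THE SIX EQUATIONS `PvyhIs 𝔶 𝔤 𝔱 b q δ su` (all `rfl` at the term of the cutter):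
  `PvyeIs 𝔶 (pvyeV 𝔤 𝔱 b q) δ su` (`kit Ou Gu en eu`: `Tr/KitEnd.lean`)   +   `X₀ m ε = pvthX ((𝔤.glob (pvhfH 𝔤.toPvkdPlug 𝔱)).fQ (pvP (ε / δ m))) 0 (δ m)`.
INPUT = (NUM) AT THE SIDE EVENTS OF RECORD: `h : PvkuOk (𝔤.glob (pvhfH 𝔤.toPvkdPlug 𝔱)) b q β' CB r` (258 `Exit/NumQ.lean` `pvku_ok`; 10 `Exit/NumK`, `Exit/NumS`)   +   regions (`PvhfGeo`, `𝔤.Ew ⊆ 𝔤.O₀`).
OUTPUT:
* **`pvyh_num`**      the field `num` of `PvrsGeoOk`, verbatim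
* **`pvyh_kit`**      `𝔶.KitOk 𝔓 m β' q` from `PvyhRest 𝔶 𝔓 m` = the nine fields which are NOT kit (`r_geo r_win mXr qr0 qr1 qo0 qo1 qi0 qi1`)
* **`pvyh_adm`**      the field `adm` of `PvrsGeoOk`, verbatim, `βu := β'`
* **`pvyh_kitUp`**    CONTRACT 1 of 272 (`PvndKitUp`) at the same hypotheses
* `pvyh_U_ok`, `pvyh_b_top`, `pvyh_wf`, `pvyh_forced` : the unit datum
-/

set_option autoImplicit false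
set_option linter.unusedSectionVars false
set_option linter.unusedVariables false

namespace Claimed.Agent.R289

open MeasureTheory Set Filter Topology Claims.C0465
open scoped ENNReal

/-- **THE SIX EQUATIONS OF THE KIT HALF OF THE DATUM** -/
structure PvyhIs {τ : Type} (𝔶 : PvydGeo τ) (𝔤 : PvkdGeo) (𝔱 : PvhfTr) (b q : ℝ≥0∞) (δ su : ℕ → ℝ) : Prop where
  is : PvyeIs 𝔶 (pvyeV 𝔤 𝔱 b q) δ su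
  X₀ : ∀ m ε, 𝔶.X₀ m ε = pvthX ((𝔤.glob (pvhfH 𝔤.toPvkdPlug 𝔱)).fQ (pvP (ε / δ m))) 0 (δ m)

/-- **the fields of `KitOk` which are not kit**: the funnel `r`, its mass, the forcing constants of the funnels -/
structure PvyhRest {τ : Type} {cc : ℝ} (𝔶 : PvydGeo τ) (𝔓 : PvrxPar τ cc) (m : ℕ) : Prop where
  r_geo : ∀ᶠ ε in 𝓝[>] (0 : ℝ), (𝔶.lr 𝔓 m ε).Geo
  r_win : PvnhWin (𝔶.wr m).Et (𝔶.wr m).M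
  mXr : Measurable (𝔶.Xr m)
  qr0 : 𝔶.qr m ≠ 0
  qr1 : 𝔶.qr m ≤ 1
  qo0 : 𝔶.qo m ≠ 0
  qo1 : 𝔶.qo m ≤ 1
  qi0 : 𝔶.qi m ≠ 0
  qi1 : 𝔶.qi m ≤ 1

section unit

variable {𝔤 : PvkdGeo} {𝔱 : PvhfTr} {b q β' : ℝ≥0∞} {CB r : ℝ}

/-- the threshold is finite -/
theorem pvyh_b_top (h : PvkuOk (𝔤.glob (pvhfH 𝔤.toPvkdPlug 𝔱)) b q β' CB r) : b ≠ ∞ := by
  obtain ⟨ε, hε⟩ := h.ok.exists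
  intro hb
  have h1 := hε.adm.trans prob_le_one
  rw [hb] at h1
  simp at h1

theorem pvyh_b_ne (h : PvkuOk (𝔤.glob (pvhfH 𝔤.toPvkdPlug 𝔱)) b q β' CB r) : b ≠ 0 := by
  obtain ⟨ε, hε⟩ := h.ok.exists
  exact hε.b0

theorem pvyh_q_le (h : PvkuOk (𝔤.glob (pvhfH 𝔤.toPvkdPlug 𝔱)) b q β' CB r) : q ≤ 1 := by
  obtain ⟨ε, hε⟩ := h.ok.exists
  exact hε.q1

theorem pvyh_β_ne (h : PvkuOk (𝔤.glob (pvhfH 𝔤.toPvkdPlug 𝔱)) b q β' CB r) : β' ≠ 0 := by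
  obtain ⟨ε, hε⟩ := h.ok.exists
  exact hε.β0

theorem pvyh_mO (h : PvkuOk (𝔤.glob (pvhfH 𝔤.toPvkdPlug 𝔱)) b q β' CB r) : MeasurableSet 𝔤.O₀ := by
  obtain ⟨ε, hε⟩ := h.ok.exists
  exact hε.mO

/-- **the unit datum of record is OK** -/
theorem pvyh_U_ok (h : PvkuOk (𝔤.glob (pvhfH 𝔤.toPvkdPlug 𝔱)) b q β' CB r) (hG : PvhfGeo 𝔤.toPvkdPlug 𝔱) (hE : 𝔤.Ew ⊆ 𝔤.O₀) : (pvyeV 𝔤 𝔱 b q).Ok :=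
  pvye_V_ok hG (pvyh_mO h) hE (pvyh_b_ne h) (pvyh_b_top h)

/-- the unit kits are well formed -/
theorem pvyh_wf (h : PvkuOk (𝔤.glob (pvhfH 𝔤.toPvkdPlug 𝔱)) b q β' CB r) : ∀ᶠ e in 𝓝[>] (0 : ℝ), ((pvyeV 𝔤 𝔱 b q).kit e).WF :=
  h.unit.ok.mono fun _ H => H.wf

/-- the unit kits are forced, constants uniform in the mesh -/
theorem pvyh_forced (h : PvkuOk (𝔤.glob (pvhfH 𝔤.toPvkdPlug 𝔱)) b q β' CB r) : ∀ᶠ e in 𝓝[>] (0 : ℝ), ((pvyeV 𝔤 𝔱 b q).kit e).Forced (pvP e) β' q :=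
  h.unit.ok.mono fun _ H => H.frc

end unit

section data

variable {τ : Type} {cc : ℝ} {𝔶 : PvydGeo τ} {𝔤 : PvkdGeo} {𝔱 : PvhfTr} {b q β' : ℝ≥0∞} {CB r : ℝ} {δ su : ℕ → ℝ}

/-- **THE FIELD `num` OF `PvrsGeoOk`** -/
theorem pvyh_num (h : PvkuOk (𝔤.glob (pvhfH 𝔤.toPvkdPlug 𝔱)) b q β' CB r) (H : PvyhIs 𝔶 𝔤 𝔱 b q δ su) (hδ : ∀ m, 0 < δ m) {Γ : ℕ → PvtsGeo τ} {m0 : ℕ}
    (hΓ : ∀ m, m0 ≤ m → δ m = (Γ m).δ) :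
    ∃ (δ' : ℕ → ℝ) (F : PvcnFamQ δ'), ∀ m, m0 ≤ m → δ' m = (Γ m).δ ∧ ∀ ε, 𝔶.kit m ε = F.kit m ε ∧ 𝔶.X₀ m ε = F.XQ m ε :=
  ⟨δ, h.unit.toQ.fam hδ, fun m hm => ⟨hΓ m hm, fun ε => ⟨H.is.kit m ε, H.X₀ m ε⟩⟩⟩

/-- **`KitOk`** -/
theorem pvyh_kit (h : PvkuOk (𝔤.glob (pvhfH 𝔤.toPvkdPlug 𝔱)) b q β' CB r) (hG : PvhfGeo 𝔤.toPvkdPlug 𝔱) (hE : 𝔤.Ew ⊆ 𝔤.O₀) (H : PvyhIs 𝔶 𝔤 𝔱 b q δ su) (hδ : ∀ m, 0 < δ m)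
    {𝔓 : PvrxPar τ cc} {m : ℕ} (hs : 0 < su m) (hΓ : δ m = (𝔓.Γ m).δ) (R : PvyhRest 𝔶 𝔓 m) : 𝔶.KitOk 𝔓 m β' q where
  wf := pvye_wf H.is (hδ m) (pvyh_wf h)
  fld := by
    filter_upwards [(h.unit.toQ.fam hδ).ok m] with ε K
    rw [H.is.kit, H.X₀]
    exact K.fQ
  del := Eventually.of_forall fun ε => by
    rw [H.is.kit, ← hΓ]
    exact (h.unit.toQ.fam hδ).kδ m ε
  frc := pvye_frc H.is (hδ m) (pvyh_wf h) (pvyh_forced h)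
  qk1 := pvyh_q_le h
  mOu := pvye_mOu H.is (pvyh_U_ok h hG hE) hs
  mGu := pvye_mGu H.is hs (pvyh_wf h)
  rGu := pvye_rGu H.is (pvyh_U_ok h hG hE) hs (pvyh_wf h)
  en_ok c σ z d hd := Eventually.of_forall fun ε => pvye_en_ok H.is (pvyh_U_ok h hG hE) (hδ m) c σ z (pvth_norm_of_pow hd) ε
  eu_ok c σ w := pvye_eu_ok H.is (pvyh_U_ok h hG hE) hs c σ w
  r_geo := R.r_geo
  r_win := R.r_win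
  mXr := R.mXr
  qr0 := R.qr0
  qr1 := R.qr1
  qo0 := R.qo0
  qo1 := R.qo1
  qi0 := R.qi0
  qi1 := R.qi1

/-- **THE FIELD `kit` OF `PvrsGeoOk`** -/
theorem pvyh_kit_all (h : PvkuOk (𝔤.glob (pvhfH 𝔤.toPvkdPlug 𝔱)) b q β' CB r) (hG : PvhfGeo 𝔤.toPvkdPlug 𝔱) (hE : 𝔤.Ew ⊆ 𝔤.O₀) (H : PvyhIs 𝔶 𝔤 𝔱 b q δ su) (hδ : ∀ m, 0 < δ m)
    (hs : ∀ m, 0 < su m) {𝔓 : PvrxPar τ cc} {m0 : ℕ} (hΓ : ∀ m, m0 ≤ m → δ m = (𝔓.Γ m).δ) (R : ∀ m, m0 ≤ m → PvyhRest 𝔶 𝔓 m) :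
    ∀ m, m0 ≤ m → ∃ β'' qk : ℝ≥0∞, β'' ≠ 0 ∧ qk ≠ 0 ∧ 𝔶.KitOk 𝔓 m β'' qk := fun m hm => by
  obtain ⟨ε, hε⟩ := h.ok.exists
  exact ⟨β', q, hε.β0, hε.q0, pvyh_kit h hG hE H hδ (hs m) (hΓ m hm) (R m hm)⟩

/-- **THE FIELD `adm` OF `PvrsGeoOk`**: the admission of the reference plug, UNIFORM in the level -/
theorem pvyh_adm (h : PvkuOk (𝔤.glob (pvhfH 𝔤.toPvkdPlug 𝔱)) b q β' CB r) (H : PvyhIs 𝔶 𝔤 𝔱 b q δ su) (hs : ∀ m, 0 < su m) (m0 : ℕ) :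
    ∃ βu : ℝ≥0∞, βu ≠ 0 ∧ ∀ m, m0 ≤ m → ∀ᶠ ε in 𝓝[>] (0 : ℝ), βu ≤ pvP ε (𝔶.Gu m ε) :=
  ⟨β', pvyh_β_ne h, fun m _ => pvye_adm H.is (hs m) (pvyh_wf h) (pvyh_forced h)⟩

/-- **CONTRACT 1 OF 272** at the same hypotheses -/
theorem pvyh_kitUp (h : PvkuOk (𝔤.glob (pvhfH 𝔤.toPvkdPlug 𝔱)) b q β' CB r) (hG : PvhfGeo 𝔤.toPvkdPlug 𝔱) (hE : 𝔤.Ew ⊆ 𝔤.O₀) (H : PvyhIs 𝔶 𝔤 𝔱 b q δ su)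
    (𝔓 : PvrxPar τ cc) {m : ℕ} (hδ : 0 < δ m) (hs : 0 < su m) {n : ℕ} (d40 : (𝔓.Γ m).din0 ^ 4 = 1)
    (r_rooms : ∀ᶠ ε in 𝓝[>] (0 : ℝ), (𝔶.lr 𝔓 m ε).Rooms) (r_len : (𝔶.wr m).L₁.length ≤ n ∧ (𝔶.wr m).L₂.length ≤ n)
    (r_off : ∀ᶠ ε in 𝓝[>] (0 : ℝ), PvnhOff (𝔶.lr 𝔓 m ε) (𝔶.wr m).Et (𝔶.wr m).M) (r_lim : Tendsto (fun ε : ℝ => pvP ε ((𝔶.wr m).M)ᶜ) (𝓝[>] 0) (𝓝 0)) :
    PvndKitUp 𝔶 𝔓 m b.toReal b.toReal n :=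
  pvye_kitUp 𝔓 H.is (pvyh_U_ok h hG hE) hδ hs d40 r_rooms r_len r_off r_lim

end data

end Claimed.Agent.R289
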