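-- KEEP
import Claimed.Agent.R289.Exit.GeoKitP
import Claimed.Agent.R289.Tr.ForceQ

/-!
# Row 289 (S0537), THE WALL, ROAD P, file Exit/GeoKitD : THE KIT PLUGS OF THE DATUM IN THE PLANE MAP OF `η` = what (DET) of 272 (`Tr/ForceD.lean`) and CLOSE-P of 95 (`Exit/CloseP.lean`) consume at a KIT END      (pen helper291; prefix `pvyh_`)

Same hypotheses as `Exit/GeoKitP.lean` (the six equations `PvyhIs`, (NUM) `PvkuOk` at the side events of record, regions) + `Disjoint 𝔤.Zm 𝔤.Zp`.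
* **`pvyh_dic_D`**, **`pvyh_dic_U`**      `PvnlDic` of 272 at the door ends `𝔶.eD c m ε σ z d` / at the ends `𝔶.eU c m σ w` of the reference plug: the starting sites are the feet of THE gate of record (deterministic; uniqueness `pvuk_uniq` of 244)
* **`pvyh_dict`**      `PvukDict (𝔶.kit m ε) (𝔶.X₀ m ε) (𝔤.sc (δ m)) ε` : the dictionary of 244 at the term (doors, cells, masses, meshes)
* **`pvyh_door`**      a.e. on the usable states of the door plug of colour `c` at `(z,d)` : THE gate, `PvnlDic` on both sides, `PvcmPl` data (finite, through, zone = the disc), nice + mesh of the placed plug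
* **`pvyh_at_D` `pvyh_at_D0` `pvyh_at_U` `pvyh_at_GU` `pvyh_at_U0`**      `Pvn2At` of 272 (`Tr/ForceQ.lean`) at the kit ends (fields `src tgt` of `Pvn2Rec`);   **`pvyh_mesh_D` `pvyh_mesh_U`** : the mesh of the window of a kit end ON its side event (field `mesh`);   `pvyh_E_D`, `pvyh_E_U`
* **`pvyh_ref`**       the same for the reference plug of colour `c` centred at `w` (scale `su m`);   **`pvyh_ref0`** : REFERENCE FRAME, black, in the words `pvznN`, `pvzlC` of 173 (consumers 263 76);   `pvyh_Ew_Ou`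
-/

set_option autoImplicit false
set_option linter.unusedSectionVars false
set_option linter.unusedVariables false

namespace Claimed.Agent.R289

open MeasureTheory Set Filter Topology Claims.C0465
open scoped ENNReal

section dic

variable {τ : Type} {𝔶 : PvydGeo τ} {𝔤 : PvkdGeo} {𝔱 : PvhfTr} {b q : ℝ≥0∞} {δ su : ℕ → ℝ} {m : ℕ}

/-- **`PvnlDic` AT A DOOR END** -/
theorem pvyh_dic_D (H : PvyeIs 𝔶 (pvyeV 𝔤 𝔱 b q) δ su) (hU : (pvyeV 𝔤 𝔱 b q).Ok) (hZ : Disjoint 𝔤.Zm 𝔤.Zp) (hδ : 0 < δ m) (c σ : Bool) (z : ℂ) {d : ℂ} (hd : ‖d‖ = 1) (ε : ℝ)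
    {η : Conf PvPt} (hn : CfOK η) {g : (pvkiT η).Gate (pvcmS η c)} (hg : PvukGate (𝔤.toPvkdPlug.sc (δ m)) c η z d g) : PvnlDic (𝔶.eD c m ε σ z d) η c g σ where
  s₁ x hx := by
    obtain ⟨g', hg', rfl⟩ := pvye_V_S₁ H hU hδ c σ z hd ε hn hx
    obtain rfl : g' = g := pvuk_uniq hn.del (pvuk_sc_disj hδ hZ) hg' hg
    cases σ <;> rfl
  s₂ x hx := by
    obtain ⟨g', hg', rfl⟩ := pvye_V_S₂ H hU hδ c σ z hd ε hn hx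
    obtain rfl : g' = g := pvuk_uniq hn.del (pvuk_sc_disj hδ hZ) hg' hg
    cases σ <;> rfl

/-- **`PvnlDic` AT AN END OF THE REFERENCE PLUG** -/
theorem pvyh_dic_U (H : PvyeIs 𝔶 (pvyeV 𝔤 𝔱 b q) δ su) (hU : (pvyeV 𝔤 𝔱 b q).Ok) (hZ : Disjoint 𝔤.Zm 𝔤.Zp) (hs : 0 < su m) (c σ : Bool) (w : ℂ)
    {η : Conf PvPt} (hn : CfOK η) {g : (pvkiT η).Gate (pvcmS η c)} (hg : PvukGate (𝔤.toPvkdPlug.sc (su m)) c η w 1 g) : PvnlDic (𝔶.eU c m σ w) η c g σ where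
  s₁ x hx := by
    obtain ⟨g', hg', rfl⟩ := pvye_V_U₁ H hU hs c σ w hn hx
    obtain rfl : g' = g := pvuk_uniq hn.del (pvuk_sc_disj hs hZ) hg' hg
    cases σ <;> rfl
  s₂ x hx := by
    obtain ⟨g', hg', rfl⟩ := pvye_V_U₂ H hU hs c σ w hn hx
    obtain rfl : g' = g := pvuk_uniq hn.del (pvuk_sc_disj hs hZ) hg' hg
    cases σ <;> rfl

end dic

section ae

variable {τ : Type} {𝔶 : PvydGeo τ} {𝔤 : PvkdGeo} {𝔱 : PvhfTr} {b q β' : ℝ≥0∞} {CB r : ℝ} {δ su : ℕ → ℝ} {m : ℕ}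

/-- the dictionary of 244 for the unit kit of record at every scale -/
theorem pvyh_dict_sc (h : PvkuOk (𝔤.glob (pvhfH 𝔤.toPvkdPlug 𝔱)) b q β' CB r) (hZ : Disjoint 𝔤.Zm 𝔤.Zp) {s : ℝ} (hs : 0 < s) :
    ∀ᶠ ε in 𝓝[>] (0 : ℝ), PvukDict (((pvyeV 𝔤 𝔱 b q).kit (ε / s)).sc s) (pvthX ((𝔤.glob (pvhfH 𝔤.toPvkdPlug 𝔱)).fQ (pvP (ε / s))) 0 s) (𝔤.sc s) ε := by
  filter_upwards [(pvkm_tendsto_div hs).eventually h.ok] with ε K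
  have h1 := pvuk_dict K hZ hs
  have e1 : s * (ε / s) = ε := mul_div_cancel₀ ε hs.ne'
  rw [e1] at h1
  exact h1

/-- **THE DICTIONARY OF 244 AT THE TERM** -/
theorem pvyh_dict (h : PvkuOk (𝔤.glob (pvhfH 𝔤.toPvkdPlug 𝔱)) b q β' CB r) (hZ : Disjoint 𝔤.Zm 𝔤.Zp) (H : PvyhIs 𝔶 𝔤 𝔱 b q δ su) (hδ : 0 < δ m) :
    ∀ᶠ ε in 𝓝[>] (0 : ℝ), PvukDict (𝔶.kit m ε) (𝔶.X₀ m ε) (𝔤.sc (δ m)) ε := by
  filter_upwards [pvyh_dict_sc h hZ hδ] with ε K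
  rw [H.is.kit, H.X₀]
  exact K

/-- **A USABLE DOOR PLUG OF THE DATUM**, colour `c`, door `(z,d)` : THE gate of record in the plane map of `η`, the starting sites of its two ends, the data of `PvcmPl`, nice + mesh of the placed plug -/
theorem pvyh_door (h : PvkuOk (𝔤.glob (pvhfH 𝔤.toPvkdPlug 𝔱)) b q β' CB r) (hG : PvhfGeo 𝔤.toPvkdPlug 𝔱) (hE : 𝔤.Ew ⊆ 𝔤.O₀) (hZ : Disjoint 𝔤.Zm 𝔤.Zp) (H : PvyhIs 𝔶 𝔤 𝔱 b q δ su)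
    (hδ : 0 < δ m) (c : Bool) (z : ℂ) {d : ℂ} (hd : d ^ 4 = 1) :
    ∀ᶠ ε in 𝓝[>] (0 : ℝ), ∀ᵐ η ∂(pvP ε), η ∈ (pvydKit (𝔶.kit m ε) c).G z d → CfOK η ∧ η ∈ (𝔤.toPvkdPlug.sc (δ m)).N z d ∧
      ∃ g : (pvkiT η).Gate (pvcmS η c), PvukGate (𝔤.toPvkdPlug.sc (δ m)) c η z d g ∧ (∀ σ, PvnlDic (𝔶.eD c m ε σ z d) η c g σ) ∧
        g.c.Left.Finite ∧ g.Thru ∧ ∀ v ∈ (pvkiT η).VOf g.c.Left, (v : ℂ) ∈ Metric.ball z (δ m * 𝔤.b) := by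
  filter_upwards [pvyh_dict h hZ H hδ, self_mem_nhdsWithin] with ε K hε
  filter_upwards [K.door c z d hd, K.doorN c z d hd, dls_ae_conf hε] with η a1 a2 hn hη
  have hη' : pvkyFl c η ∈ (𝔶.kit m ε).G z d := by
    rw [pvyd_kit_G, mem_preimage, pvye_fl_ky] at hη
    exact hη
  obtain ⟨-, g, hg⟩ := a1 hη'
  have hN := a2 hη'
  have hP := pvuk_pl (Mm := univ) (Mp := univ) hN.1 hg (fun _ _ => Or.inl trivial)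
  exact ⟨hn, hN, g, hg, fun σ => pvyh_dic_D H.is (pvyh_U_ok h hG hE) hZ hδ c σ z (pvth_norm_of_pow hd) ε hn hg, hP.fin, hP.thru, hP.zone⟩

/-- the usable states of the reference plug in the words of the scaled kit -/
theorem pvyh_GU_iff (H : PvyeIs 𝔶 (pvyeV 𝔤 𝔱 b q) δ su) (c : Bool) (w : ℂ) (m : ℕ) (ε : ℝ) (η : Conf PvPt) :
    η ∈ Conf.image (pvydE c w).toEquiv.symm ⁻¹' 𝔶.Gu m ε ↔ pvkyFl c η ∈ (((pvyeV 𝔤 𝔱 b q).kit (ε / su m)).sc (su m)).G w 1 := by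
  rw [pvuk_sc_G _ w one_ne_zero, one_mul, mem_preimage, H.Gu, pvyd_E_symm, pvyd_fl_cfMap, pvye_fl_ky]
  show cfMap (pvthInv 0 (su m)) (cfMap (pvthInv w 1) (pvkyFl c η)) ∈ ((pvyeV 𝔤 𝔱 b q).kit (ε / su m)).G₀ ↔ _
  rw [pvuk_sc_comp w one_ne_zero, one_mul]

/-- **A USABLE REFERENCE PLUG OF THE DATUM**, colour `c`, centre `w` -/
theorem pvyh_ref (h : PvkuOk (𝔤.glob (pvhfH 𝔤.toPvkdPlug 𝔱)) b q β' CB r) (hG : PvhfGeo 𝔤.toPvkdPlug 𝔱) (hE : 𝔤.Ew ⊆ 𝔤.O₀) (hZ : Disjoint 𝔤.Zm 𝔤.Zp) (H : PvyhIs 𝔶 𝔤 𝔱 b q δ su)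
    (hs : 0 < su m) (c : Bool) (w : ℂ) :
    ∀ᶠ ε in 𝓝[>] (0 : ℝ), ∀ᵐ η ∂(pvP ε), η ∈ Conf.image (pvydE c w).toEquiv.symm ⁻¹' 𝔶.Gu m ε → CfOK η ∧ η ∈ (𝔤.toPvkdPlug.sc (su m)).N w 1 ∧
      ∃ g : (pvkiT η).Gate (pvcmS η c), PvukGate (𝔤.toPvkdPlug.sc (su m)) c η w 1 g ∧ (∀ σ, PvnlDic (𝔶.eU c m σ w) η c g σ) ∧
        g.c.Left.Finite ∧ g.Thru ∧ ∀ v ∈ (pvkiT η).VOf g.c.Left, (v : ℂ) ∈ Metric.ball w (su m * 𝔤.b) := by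
  filter_upwards [pvyh_dict_sc h hZ hs, self_mem_nhdsWithin] with ε K hε
  filter_upwards [K.door c w 1 (one_pow 4), K.doorN c w 1 (one_pow 4), dls_ae_conf hε] with η a1 a2 hn hη
  have hη' := (pvyh_GU_iff H.is c w m ε η).1 hη
  obtain ⟨-, g, hg⟩ := a1 hη'
  have hN := a2 hη'
  have hP := pvuk_pl (Mm := univ) (Mp := univ) hN.1 hg (fun _ _ => Or.inl trivial)
  exact ⟨hn, hN, g, hg, fun σ => pvyh_dic_U H.is (pvyh_U_ok h hG hE) hZ hs c σ w hn hg, hP.fin, hP.thru, hP.zone⟩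

/-! ## the reference plug in the REFERENCE FRAME, black, in the words of 173 / 76 (`pvznN`, `pvzlC`): consumers 263 `Exit/CutVU.lean`, 76 `Exit/CutVG.lean` -/

theorem pvyh_S_true (η : Conf PvPt) : pvukS true η = pvkiS η := by
  funext v
  show (cfCol η v.1 == true) = cfCol η v.1
  cases cfCol η v.1 <;> rfl

/-- the window of the reference plug lies in its region -/
theorem pvyh_Ew_Ou (H : PvyeIs 𝔶 (pvyeV 𝔤 𝔱 b q) δ su) (hE : 𝔤.Ew ⊆ 𝔤.O₀) (m : ℕ) : pvkdAt 0 (su m) 𝔤.Ew ⊆ 𝔶.Ou m := by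
  rw [H.Ou]
  exact image_mono hE

/-- **a.e. usable state of the reference plug, REFERENCE FRAME**: nice + mesh `su m * ρ` of the window `su m • Ew`, THE gate of record of the plug `(𝔤.sc (su m)).pg 0 1` -/
theorem pvyh_ref0 (h : PvkuOk (𝔤.glob (pvhfH 𝔤.toPvkdPlug 𝔱)) b q β' CB r) (hG : PvhfGeo 𝔤.toPvkdPlug 𝔱) (hE : 𝔤.Ew ⊆ 𝔤.O₀) (hZ : Disjoint 𝔤.Zm 𝔤.Zp) (H : PvyhIs 𝔶 𝔤 𝔱 b q δ su)
    (hs : 0 < su m) :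
    ∀ᶠ ε in 𝓝[>] (0 : ℝ), ∀ᵐ η ∂(pvP ε), η ∈ 𝔶.Gu m ε → CfOK η ∧ η ∈ pvznN (su m * 𝔤.ρ) (pvkdAt 0 (su m) 𝔤.Ew) ∧
      pvzlC ((𝔤.toPvkdPlug.sc (su m)).pg 0 1) _ _ (pvkiT η) Subtype.val (pvkiS η) := by
  filter_upwards [pvyh_ref h hG hE hZ H hs true 0] with ε K
  filter_upwards [K] with η a hη
  have hη' : η ∈ Conf.image (pvydE true 0).toEquiv.symm ⁻¹' 𝔶.Gu m ε := by
    rw [← pvyd_fl_eq, mem_preimage, pvyd_fl_true]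
    exact hη
  obtain ⟨hn, hN, g, hg, -⟩ := a hη'
  refine ⟨hn, ?_, ?_⟩
  · have e : pvkdAt 0 1 (pvdilS (su m) 𝔤.Ew) = pvkdAt 0 (su m) 𝔤.Ew := by rw [pvuk_at_sc, one_mul]
    have hN' : PvatNice (cfSites η) ∧ PvtrMesh (su m * 𝔤.ρ) (pvkdAt 0 1 (pvdilS (su m) 𝔤.Ew)) (cfSites η) := hN
    rw [e] at hN'
    exact hN'
  · have h1 : ∃ g : (pvkiT η).Gate (pvukS true η), PvzlGt (pvkiT η) Subtype.val (pvukS true η) ((𝔤.toPvkdPlug.sc (su m)).pg 0 1) g := ⟨g, hg⟩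
    rw [pvyh_S_true] at h1
    exact h1

end ae

/-! ## `Pvn2At` of 272 (`Tr/ForceQ.lean`) at the kit ends; the meshes of the side events -/

section at2

variable {τ : Type} {cc : ℝ} {𝔶 : PvydGeo τ} {𝔤 : PvkdGeo} {𝔱 : PvhfTr} {b q β' : ℝ≥0∞} {CB r : ℝ} {δ su : ℕ → ℝ} {m : ℕ}

/-- the room of the far vertex of the gate of record: `g⁻` for a source (`out = true`), `g⁺` for a target -/
def pvyhZ (𝔭 : PvkdPlug) (out : Bool) : Set ℂ := cond out 𝔭.Zm 𝔭.Zp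

theorem pvyh_eqns_cite : True := by
  have := @pvyhZ.eq_1
  trivial

theorem pvyh_far {𝔭 : PvkdPlug} {c : Bool} {η : Conf PvPt} {z d : ℂ} {g : (pvkiT η).Gate (pvcmS η c)} (hg : PvukGate 𝔭 c η z d g) (out : Bool) :
    ((cond out g.vm g.vp : ↥(cfSites η)) : ℂ) ∈ pvkdAt z d (pvyhZ 𝔭 out) := by
  cases out
  · exact hg.vp
  · exact hg.vm

/-- **`Pvn2At` AT A DOOR END**, colour `c`, side `σ` (`σ = true`: the door plug is the SOURCE of the link) -/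
theorem pvyh_at_D (h : PvkuOk (𝔤.glob (pvhfH 𝔤.toPvkdPlug 𝔱)) b q β' CB r) (hG : PvhfGeo 𝔤.toPvkdPlug 𝔱) (hE : 𝔤.Ew ⊆ 𝔤.O₀) (hZ : Disjoint 𝔤.Zm 𝔤.Zp) (H : PvyhIs 𝔶 𝔤 𝔱 b q δ su)
    (hδ : 0 < δ m) (c σ : Bool) (z : ℂ) {d : ℂ} (hd : d ^ 4 = 1) {KE : ℝ → Set ℂ} (hK : ∀ ε, Disjoint (KE ε) (pvkdAt z d (pvyhZ (𝔤.toPvkdPlug.sc (δ m)) σ))) :
    ∀ᶠ ε in 𝓝[>] (0 : ℝ), Pvn2At ε ((pvydKit (𝔶.kit m ε) c).G z d) (pvkjKit ((𝔤.toPvkdPlug.sc (δ m)).pg z d)) (𝔶.eD c m ε σ z d) c (KE ε) σ := by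
  filter_upwards [pvyh_door h hG hE hZ H hδ c z hd] with ε K
  unfold Pvn2At
  filter_upwards [K] with η a hη
  obtain ⟨-, -, g, hg, hD, -⟩ := a hη
  exact ⟨g, hg, hD σ, fun hc => disjoint_left.1 (hK ε) hc (pvyh_far hg σ)⟩

/-- the black door plug without colour frame (link `r`) -/
theorem pvyh_at_D0 (h : PvkuOk (𝔤.glob (pvhfH 𝔤.toPvkdPlug 𝔱)) b q β' CB r) (hG : PvhfGeo 𝔤.toPvkdPlug 𝔱) (hE : 𝔤.Ew ⊆ 𝔤.O₀) (hZ : Disjoint 𝔤.Zm 𝔤.Zp) (H : PvyhIs 𝔶 𝔤 𝔱 b q δ su)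
    (hδ : 0 < δ m) (σ : Bool) (z : ℂ) {d : ℂ} (hd : d ^ 4 = 1) {KE : ℝ → Set ℂ} (hK : ∀ ε, Disjoint (KE ε) (pvkdAt z d (pvyhZ (𝔤.toPvkdPlug.sc (δ m)) σ))) :
    ∀ᶠ ε in 𝓝[>] (0 : ℝ), Pvn2At ε ((𝔶.kit m ε).G z d) (pvkjKit ((𝔤.toPvkdPlug.sc (δ m)).pg z d)) (𝔶.eD true m ε σ z d) true (KE ε) σ := by
  filter_upwards [pvyh_at_D h hG hE hZ H hδ true σ z hd hK] with ε K
  refine K.mono (fun η hη => ?_) Subset.rfl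
  rw [pvyd_kit_G, mem_preimage, pvyd_fl_true]
  exact hη

/-- **`Pvn2At` AT AN END OF THE REFERENCE PLUG**, colour `c`, centre `w`, side `σ` -/
theorem pvyh_at_U (h : PvkuOk (𝔤.glob (pvhfH 𝔤.toPvkdPlug 𝔱)) b q β' CB r) (hG : PvhfGeo 𝔤.toPvkdPlug 𝔱) (hE : 𝔤.Ew ⊆ 𝔤.O₀) (hZ : Disjoint 𝔤.Zm 𝔤.Zp) (H : PvyhIs 𝔶 𝔤 𝔱 b q δ su)
    (hs : 0 < su m) (c σ : Bool) (w : ℂ) {KE : ℝ → Set ℂ} (hK : ∀ ε, Disjoint (KE ε) (pvkdAt w 1 (pvyhZ (𝔤.toPvkdPlug.sc (su m)) σ))) :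
    ∀ᶠ ε in 𝓝[>] (0 : ℝ), Pvn2At ε (Conf.image (pvydE c w).toEquiv.symm ⁻¹' 𝔶.Gu m ε) (pvkjKit ((𝔤.toPvkdPlug.sc (su m)).pg w 1)) (𝔶.eU c m σ w) c (KE ε) σ := by
  filter_upwards [pvyh_ref h hG hE hZ H hs c w] with ε K
  unfold Pvn2At
  filter_upwards [K] with η a hη
  obtain ⟨-, -, g, hg, hD, -⟩ := a hη
  exact ⟨g, hg, hD σ, fun hc => disjoint_left.1 (hK ε) hc (pvyh_far hg σ)⟩

/-- the reference plug of the candidate `(z,t)` (links `e`, `b`) -/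
theorem pvyh_at_GU (h : PvkuOk (𝔤.glob (pvhfH 𝔤.toPvkdPlug 𝔱)) b q β' CB r) (hG : PvhfGeo 𝔤.toPvkdPlug 𝔱) (hE : 𝔤.Ew ⊆ 𝔤.O₀) (hZ : Disjoint 𝔤.Zm 𝔤.Zp) (H : PvyhIs 𝔶 𝔤 𝔱 b q δ su)
    (hs : 0 < su m) (𝔓 : PvrxPar τ cc) (c σ : Bool) (z : ℂ) (t : τ) {KE : ℝ → Set ℂ} (hK : ∀ ε, Disjoint (KE ε) (pvkdAt (pvydWu 𝔓 m z t) 1 (pvyhZ (𝔤.toPvkdPlug.sc (su m)) σ))) :
    ∀ᶠ ε in 𝓝[>] (0 : ℝ), Pvn2At ε (𝔶.GU 𝔓 c m ε z t) (pvkjKit ((𝔤.toPvkdPlug.sc (su m)).pg (pvydWu 𝔓 m z t) 1)) (𝔶.eU c m σ (pvydWu 𝔓 m z t)) c (KE ε) σ :=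
  pvyh_at_U h hG hE hZ H hs c σ _ hK

/-- the reference plug in the REFERENCE FRAME, black (link `r`) -/
theorem pvyh_at_U0 (h : PvkuOk (𝔤.glob (pvhfH 𝔤.toPvkdPlug 𝔱)) b q β' CB r) (hG : PvhfGeo 𝔤.toPvkdPlug 𝔱) (hE : 𝔤.Ew ⊆ 𝔤.O₀) (hZ : Disjoint 𝔤.Zm 𝔤.Zp) (H : PvyhIs 𝔶 𝔤 𝔱 b q δ su)
    (hs : 0 < su m) (σ : Bool) {KE : ℝ → Set ℂ} (hK : ∀ ε, Disjoint (KE ε) (pvkdAt 0 1 (pvyhZ (𝔤.toPvkdPlug.sc (su m)) σ))) :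
    ∀ᶠ ε in 𝓝[>] (0 : ℝ), Pvn2At ε (𝔶.Gu m ε) (pvkjKit ((𝔤.toPvkdPlug.sc (su m)).pg 0 1)) (𝔶.eU true m σ 0) true (KE ε) σ := by
  filter_upwards [pvyh_at_U h hG hE hZ H hs true σ 0 hK] with ε K
  refine K.mono (fun η hη => ?_) Subset.rfl
  rw [← pvyd_fl_eq, mem_preimage, pvyd_fl_true]
  exact hη

/-- a mesh under a similarity -/
theorem pvyh_mesh_sim {z a : ℂ} (ha : a ≠ 0) {ρ : ℝ} {E : Set ℂ} {η : Conf PvPt} (h : PvtrMesh ρ E (cfSites (cfMap (pvthInv z a) η))) : PvtrMesh (‖a‖ * ρ) (pvkdAt z a E) (cfSites η) := by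
  have hn : ∀ u v : ℂ, ‖pvthSim z a u - pvthSim z a v‖ = ‖a‖ * ‖u - v‖ := fun u v => by
    have : pvthSim z a u - pvthSim z a v = a * (u - v) := by unfold pvthSim; ring
    rw [this, norm_mul]
  intro w hw
  have hw' : pvthInv z a w ∈ pvtrCore ρ E := by
    intro u hu
    have h1 : pvthSim z a u ∈ Metric.closedBall w (‖a‖ * ρ) := by
      rw [Metric.mem_closedBall, dist_eq_norm] at hu ⊢
      have := hn u (pvthInv z a w)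
      rw [pvjo_sim_inv ha] at this
      rw [this]
      exact mul_le_mul_of_nonneg_left hu (norm_nonneg _)
    obtain ⟨u', hu', e⟩ := hw h1
    have : u' = u := by
      have e' := congrArg (pvthInv z a) e
      rwa [pvjo_inv_sim ha, pvjo_inv_sim ha] at e'
    exact this ▸ hu'
  obtain ⟨s, hs, hle⟩ := h _ hw'
  refine ⟨pvthSim z a s, (pvjo_sites_inv ha η s).1 hs, ?_⟩
  have := hn (pvthInv z a w) s
  rw [pvjo_sim_inv ha] at this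
  rw [this]
  exact mul_le_mul_of_nonneg_left hle (norm_nonneg _)

/-- **the mesh of the window of a kit end**: on the side event of `pvyeEnd (pvyeE0 𝔭 𝔱 O σ) c z a` the sites of `η` have the mesh `‖a‖ ρ` in the placed window `z + a Es σ` -/
theorem pvyh_mesh_end (𝔭 : PvkdPlug) (𝔱 : PvhfTr) (O : Set ℂ) (σ c : Bool) (z : ℂ) {a : ℂ} (ha : a ≠ 0) {η : Conf PvPt} (h : η ∈ (pvyeEnd (pvyeE0 𝔭 𝔱 O σ) c z a).L) :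
    PvtrMesh (‖a‖ * 𝔭.ρ) (pvyeEnd (pvyeE0 𝔭 𝔱 O σ) c z a).E (cfSites η) := by
  have h1 : cfMap (pvthInv z a) (pvydFl c η) ∈ pvhfS 𝔭 𝔱 σ := h
  have h2 : PvtrMesh 𝔭.ρ (𝔱.Es σ) (cfSites (cfMap (pvthInv z a) (pvydFl c η))) := h1.1.2
  have h3 := pvyh_mesh_sim ha h2
  rw [pvye_sites_fl] at h3
  exact h3

/-- the door ends of the datum -/
theorem pvyh_mesh_D (H : PvyeIs 𝔶 (pvyeV 𝔤 𝔱 b q) δ su) (hU : (pvyeV 𝔤 𝔱 b q).Ok) (hδ : 0 < δ m) (c σ : Bool) (z : ℂ) {d : ℂ} (hd : ‖d‖ = 1) (ε : ℝ) {η : Conf PvPt}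
    (h : η ∈ (𝔶.eD c m ε σ z d).L) : PvtrMesh (δ m * 𝔤.ρ) (𝔶.eD c m ε σ z d).E (cfSites η) := by
  rw [pvye_eD H hU, pvye_V_sd] at h ⊢
  have h1 := pvyh_mesh_end 𝔤.toPvkdPlug 𝔱 𝔤.O₀ σ c z (pvye_a_ne hd hδ) h
  rwa [norm_mul, hd, one_mul, Complex.norm_real, Real.norm_eq_abs, abs_of_pos hδ] at h1

/-- the ends of the reference plug of the datum -/
theorem pvyh_mesh_U (H : PvyeIs 𝔶 (pvyeV 𝔤 𝔱 b q) δ su) (hU : (pvyeV 𝔤 𝔱 b q).Ok) (hs : 0 < su m) (c σ : Bool) (w : ℂ) {η : Conf PvPt}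
    (h : η ∈ (𝔶.eU c m σ w).L) : PvtrMesh (su m * 𝔤.ρ) (𝔶.eU c m σ w).E (cfSites η) := by
  rw [pvye_eU H hU, pvye_V_sd] at h ⊢
  have h1 := pvyh_mesh_end 𝔤.toPvkdPlug 𝔱 𝔤.O₀ σ c w (pvbe_sc_ne hs) h
  rwa [Complex.norm_real, Real.norm_eq_abs, abs_of_pos hs] at h1

/-- the windows of the ends of the datum, explicitly -/
theorem pvyh_E_D (H : PvyeIs 𝔶 (pvyeV 𝔤 𝔱 b q) δ su) (hU : (pvyeV 𝔤 𝔱 b q).Ok) (c σ : Bool) (m : ℕ) (ε : ℝ) (z d : ℂ) : (𝔶.eD c m ε σ z d).E = pvkdAt z (d * δ m) (𝔱.Es σ) := by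
  rw [pvye_eD H hU, pvye_V_sd]
  rfl

theorem pvyh_E_U (H : PvyeIs 𝔶 (pvyeV 𝔤 𝔱 b q) δ su) (hU : (pvyeV 𝔤 𝔱 b q).Ok) (c σ : Bool) (m : ℕ) (w : ℂ) : (𝔶.eU c m σ w).E = pvkdAt w (su m) (𝔱.Es σ) := by
  rw [pvye_eU H hU, pvye_V_sd]
  rfl

end at2

end Claimed.Agent.R289
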