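-- KEEP
import Claimed.Agent.R289.Tr.LinkPoly
import Claimed.Agent.R289.Tr.LinkDict
import Claimed.Agent.R289.Exit.BigD
import Claimed.Agent.R289.Exit.GeoKitD

/-!
# Row 289 (S0537), THE WALL, ROAD P, Exit/GeoWP : THE GEOMETRIC HALF OF `exit_pvrs_geo`, THE PLUMBING OF THE CELL DATA      (cutter helper270, post XI of 243, P16 of 273; prefix `pvvw_`, `pvvw`, `Pvvw`)

THE RULE.   `dj`, `close`, `cutV` see the walks of the term only through the records of `Exit/GeoP`;   rooms of (DET), lists of meshes, masks, connectors, masses are FUNCTIONS of `(m, z, t)` which do not depend on `m0 b q`.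
So the walk sub-roofs export THE CELL DATA `D : Pvn2Dat` of 272 (`Tr/LinkPoly`), the walks of the term are `D.walk`, the room of (DET) is `D.KE`, and ONE contract `D.Ok e e' Z Z' ms p p'` per link pays
`Geo Rooms PvnhWin PvnhOff lim len PvnlLay core Pvn2Rec`.
* sec. 0  closed cells: the complement of the union of the closed cells of a set with a SIDE-connected complement is preconnected (`pvvw_U_co`, `pvvw_hull_co` at the hull `pvtbHull` of `Tr/Band`).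
* sec. 1  THE BIG ENDS OF (DET).   No vertex of the circuit of the gate `S₂` is deep (`pvvw_cyc_shal`): the far vertex lies in `(N∓ ∩ S₂) \ I₂` (`pvvw_vm_off`, `pvvw_vp_off`; the clause with `N∓ ∩ S₂` is FALSE at the model: the two tubes meet inside `I₂`);
          **`pvvw_at_p`, `pvvw_at_m`** = `Pvn2At` of 272 at the exit end / the entrance end of a big plug.
* sec. 2  THE BRIDGE `PvlktPoly` (164 `Tr/LinkDict`) + `PvvwDet` (= H5, the half of (DET)) `⟹ Pvn2Dat.Ok` (272) at `pvvwD δ ρ B W Bk Wh P T (e.O ∪ e'.O)`.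
* sec. 3  ONE LINK: `PvvwLd` = `{D : Pvn2Dat, ms, p, p'}`;   **`PvvwLd.Ok 𝔡 w e e' Z Z' V V' n`** = THE CONTRACT (walks of record, contract of 272, lengths, meshes of the list, rooms `V V'` of the far vertices off the hull, windows, zones deep in the windows);
          `.geo .rooms .win .off .lim .len' .lay .core .dvs .dvt .Kp_sub`, **`.toRec`** (`Pvn2Rec` for a placed connector of 113 with the zones, the list and the CUT corridor of the data).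
* sec. 3 bis  **THE ABSTRACT CONTRACT** (what the consumers read; any producer): `PvvwLa = {w : PvydWalk, KE, ms}`, **`PvvwLa.Ok 𝔞 e e' Z Z' V V' n`** = `geo rooms win off lim len lay mK mesh dvs dvt ms0 zc`;   `PvvwLd.toLa`, **`PvvwLd.Ok.toLa`**, `.core`, `.rd`, **`.toRec`**.
* sec. 4  THE CANDIDATES (on `PvvwLa`), ANY `(𝔓, 𝔶)`, kit plugs `𝔭` (doors), `𝔲` (reference plug) already scaled: zones `pvvwZt pvvwZk`, far rooms `pvvwVm pvvwVp pvvwVk`;   **`PvvwF`** (`o i`), **`PvvwT`** (`e b`), **`PvvwR`** (`r`);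
          glue: the geometric fields of `CandOk`, `KitOk`, `PvndKitUp`, **`pvvw_cand : PvndCand`**, **`PvvwF.Do .Di`, `PvvwT.De .Db`, `PvvwR.Dr`** = the fields `Do Dr De Db` of `PvucSup` (95) at any `𝔶` with the six equations of 291.
* sec. 5  `zc`, `far` FOR EVERYBODY: `pvvw_at_core`, `pvvw_zc_p`, `pvvw_zc_m` (ball `S₂` deep in `Ep`, `Em`), `pvvw_zc_kit` (zone of a kit plug at any scale deep in the placed window), `pvvw_far`, `pvvw_zc`.      (the other end parts: 275 `Exit/DetEndP`)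
-/

set_option autoImplicit false
set_option linter.unusedSectionVars false
set_option linter.unusedVariables false

namespace Claimed.Agent.R289

open MeasureTheory Set Metric Filter Topology Relation Claims.C0465 Claimed.Agent.R291
open scoped ENNReal

/-! ## 0. closed cells -/

/-- the OPEN square -/
def pvvwIo (δ : ℝ) (c : ℤ × ℤ) : Set ℂ := {p | (c.1 : ℝ) * δ < p.re ∧ p.re < ((c.1 : ℝ) + 1) * δ ∧ (c.2 : ℝ) * δ < p.im ∧ p.im < ((c.2 : ℝ) + 1) * δ}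

theorem pvvw_eqns_cite : True := by
  have := @pvvwIo.eq_1
  trivial

section hull

variable {δ : ℝ} {F : Set (ℤ × ℤ)}

/-- two integers from two strict inequalities -/
theorem pvvw_int_eq (hδ : 0 < δ) {a b : ℤ} {x : ℝ} (h1 : (a : ℝ) * δ < x) (h2 : x < ((a : ℝ) + 1) * δ) (h3 : (b : ℝ) * δ ≤ x) (h4 : x ≤ ((b : ℝ) + 1) * δ) : b = a := by
  have k1 : ((a : ℤ) : ℝ) < ((b + 1 : ℤ) : ℝ) := by
    push_cast
    exact lt_of_mul_lt_mul_right (lt_of_lt_of_le h1 h4) hδ.le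
  have k2 : ((b : ℤ) : ℝ) < ((a + 1 : ℤ) : ℝ) := by
    push_cast
    exact lt_of_mul_lt_mul_right (lt_of_le_of_lt h3 h2) hδ.le
  rw [Int.cast_lt] at k1 k2
  omega

/-- a point of an open square lies in no other closed square -/
theorem pvvw_Io_uniq (hδ : 0 < δ) {c c' : ℤ × ℤ} {p : ℂ} (h : p ∈ pvvwIo δ c) (h' : p ∈ pvtSq δ c') : c' = c :=
  Prod.ext (pvvw_int_eq hδ h.1 h.2.1 h'.1 h'.2.1) (pvvw_int_eq hδ h.2.2.1 h.2.2.2 h'.2.2.1 h'.2.2.2)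

theorem pvvw_Io_sub (δ : ℝ) (c : ℤ × ℤ) : pvvwIo δ c ⊆ pvtSq δ c := fun _ h => ⟨h.1.le, h.2.1.le, h.2.2.1.le, h.2.2.2.le⟩

theorem pvvw_Io_off (hδ : 0 < δ) {c : ℤ × ℤ} (hc : c ∉ F) : pvvwIo δ c ⊆ (pvtU δ F)ᶜ := by
  intro p hp hU
  obtain ⟨c', hc', hp'⟩ := mem_iUnion₂.1 hU
  exact hc (pvvw_Io_uniq hδ hp hp' ▸ hc')

/-- a closed square off `F`, minus the squares of `F`, is star shaped about its centre -/
theorem pvvw_star (hδ : 0 < δ) {c : ℤ × ℤ} (hc : c ∉ F) : StarConvex ℝ (pvtCtr δ c) (pvtSq δ c \ pvtU δ F) := by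
  intro y hy a b ha hb hab
  rcases ha.eq_or_lt with rfl | ha'
  · have : b = 1 := by linarith
    subst this
    simpa using hy
  · have hI : a • pvtCtr δ c + b • y ∈ pvvwIo δ c := by
      obtain ⟨y1, y2, y3, y4⟩ := hy.1
      have e1 : (a • pvtCtr δ c + b • y).re = a * (((c.1 : ℝ) + 1 / 2) * δ) + b * y.re := by simp [pvtCtr]
      have e2 : (a • pvtCtr δ c + b • y).im = a * (((c.2 : ℝ) + 1 / 2) * δ) + b * y.im := by simp [pvtCtr]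
      have hb' : b = 1 - a := by linarith
      subst hb'
      refine ⟨?_, ?_, ?_, ?_⟩
      · rw [e1]; nlinarith
      · rw [e1]; nlinarith
      · rw [e2]; nlinarith
      · rw [e2]; nlinarith
    exact ⟨pvvw_Io_sub δ c hI, pvvw_Io_off hδ hc hI⟩

theorem pvvw_ctr_mem (hδ : 0 < δ) {c : ℤ × ℤ} (hc : c ∉ F) : pvtCtr δ c ∈ pvtSq δ c \ pvtU δ F := by
  have hI : pvtCtr δ c ∈ pvvwIo δ c := by
    refine ⟨?_, ?_, ?_, ?_⟩ <;> simp only [pvtCtr] <;> nlinarith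
  exact ⟨pvvw_Io_sub δ c hI, pvvw_Io_off hδ hc hI⟩

theorem pvvw_piece (hδ : 0 < δ) {c : ℤ × ℤ} (hc : c ∉ F) : IsPreconnected (pvtSq δ c \ pvtU δ F) :=
  ((pvvw_star hδ hc).isPathConnected (pvvw_ctr_mem hδ hc)).isConnected.isPreconnected

/-- two squares off `F` with a common side: the middle of the side is off the squares of `F` -/
theorem pvvw_side (hδ : 0 < δ) {c c' : ℤ × ℤ} (hc : c ∉ F) (hc' : c' ∉ F) (h : pvtbG4.Adj c c') : ((pvtSq δ c \ pvtU δ F) ∩ (pvtSq δ c' \ pvtU δ F)).Nonempty := by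
  obtain ⟨c1, c2⟩ := c
  obtain ⟨d1, d2⟩ := c'
  have two : ∀ {a b : ℤ} {x : ℝ}, x = ((a : ℝ) + 1) * δ → (b : ℝ) * δ ≤ x → x ≤ ((b : ℝ) + 1) * δ → b = a ∨ b = a + 1 := by
    intro a b x hx h1 h2
    subst hx
    have k1 : ((b : ℤ) : ℝ) ≤ ((a + 1 : ℤ) : ℝ) := by
      push_cast
      exact le_of_mul_le_mul_right h1 hδ
    have k2 : ((a : ℤ) : ℝ) ≤ ((b : ℤ) : ℝ) := by
      have := le_of_mul_le_mul_right h2 hδ
      linarith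
    rw [Int.cast_le] at k1 k2
    omega
  have mid : ∀ {a b : ℤ} {x : ℝ}, x = ((a : ℝ) + 1 / 2) * δ → (b : ℝ) * δ ≤ x → x ≤ ((b : ℝ) + 1) * δ → b = a := by
    intro a b x hx h1 h2
    exact pvvw_int_eq hδ (by rw [hx]; nlinarith) (by rw [hx]; nlinarith) h1 h2
  -- horizontal neighbours `(a, y)`, `(a + 1, y)`
  have hor : ∀ a y : ℤ, (a, y) ∉ F → (a + 1, y) ∉ F → ((pvtSq δ (a, y) \ pvtU δ F) ∩ (pvtSq δ (a + 1, y) \ pvtU δ F)).Nonempty := by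
    intro a y h1 h2
    have hoff : (⟨((a : ℝ) + 1) * δ, ((y : ℝ) + 1 / 2) * δ⟩ : ℂ) ∉ pvtU δ F := by
      intro hU
      obtain ⟨k, hk, p1, p2, p3, p4⟩ := mem_iUnion₂.1 hU
      simp only at p1 p2 p3 p4
      have e2 := mid rfl p3 p4
      rcases two rfl p1 p2 with e1 | e1
      · exact h1 (by rw [← e1, ← e2]; exact hk)
      · exact h2 (by rw [← e1, ← e2]; exact hk)
    refine ⟨⟨((a : ℝ) + 1) * δ, ((y : ℝ) + 1 / 2) * δ⟩, ⟨⟨?_, ?_, ?_, ?_⟩, hoff⟩, ⟨⟨?_, ?_, ?_, ?_⟩, hoff⟩⟩ <;> simp only <;> push_cast <;> nlinarith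
  have ver : ∀ x a : ℤ, (x, a) ∉ F → (x, a + 1) ∉ F → ((pvtSq δ (x, a) \ pvtU δ F) ∩ (pvtSq δ (x, a + 1) \ pvtU δ F)).Nonempty := by
    intro x a h1 h2
    have hoff : (⟨((x : ℝ) + 1 / 2) * δ, ((a : ℝ) + 1) * δ⟩ : ℂ) ∉ pvtU δ F := by
      intro hU
      obtain ⟨k, hk, p1, p2, p3, p4⟩ := mem_iUnion₂.1 hU
      simp only at p1 p2 p3 p4
      have e2 := mid rfl p1 p2
      rcases two rfl p3 p4 with e1 | e1
      · exact h1 (by rw [← e1, ← e2]; exact hk)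
      · exact h2 (by rw [← e1, ← e2]; exact hk)
    refine ⟨⟨((x : ℝ) + 1 / 2) * δ, ((a : ℝ) + 1) * δ⟩, ⟨⟨?_, ?_, ?_, ?_⟩, hoff⟩, ⟨⟨?_, ?_, ?_, ?_⟩, hoff⟩⟩ <;> simp only <;> push_cast <;> nlinarith
  rw [pvtb_G4_adj] at h
  simp only at h
  rcases h with ⟨e1, e2⟩ | ⟨e1, e2⟩ | ⟨e1, e2⟩ | ⟨e1, e2⟩
  · have f1 : d1 = c1 + 1 := by omega
    have f2 : d2 = c2 := by omega
    rw [f1, f2] at hc' ⊢
    exact hor c1 c2 hc hc'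
  · have f1 : c1 = d1 + 1 := by omega
    have f2 : c2 = d2 := by omega
    rw [f1, f2] at hc ⊢
    rw [inter_comm]; exact hor d1 d2 hc' hc
  · have f1 : d1 = c1 := by omega
    have f2 : d2 = c2 + 1 := by omega
    rw [f1, f2] at hc' ⊢
    exact ver c1 c2 hc hc'
  · have f1 : c1 = d1 := by omega
    have f2 : c2 = d2 + 1 := by omega
    rw [f1, f2] at hc ⊢
    rw [inter_comm]; exact ver d1 d2 hc' hc

/-- **a union of closed squares whose set of cells has a 4-connected complement has a preconnected complement** -/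
theorem pvvw_U_co (hδ : 0 < δ) (hc : TscConn pvtbG4 Fᶜ) : IsPreconnected (pvtU δ F)ᶜ := by
  have key : ∀ c ∈ Fᶜ, ∀ c', TscR pvtbG4 Fᶜ c c' → ∃ t ⊆ (pvtU δ F)ᶜ, IsPreconnected t ∧ pvtSq δ c \ pvtU δ F ⊆ t ∧ pvtSq δ c' \ pvtU δ F ⊆ t := by
    intro c hcF c' h
    induction h with
    | refl => exact ⟨_, fun p hp => hp.2, pvvw_piece hδ hcF, Subset.rfl, Subset.rfl⟩
    | @tail b d _ hbd ih =>
      obtain ⟨t, t1, t2, t3, t4⟩ := ih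
      obtain ⟨p, hp1, hp2⟩ := pvvw_side hδ hbd.2.1 hbd.2.2 hbd.1
      exact ⟨t ∪ (pvtSq δ d \ pvtU δ F), union_subset t1 fun p hp => hp.2, t2.union p (t4 hp1) hp2 (pvvw_piece hδ hbd.2.2), t3.trans subset_union_left, subset_union_right⟩
  refine isPreconnected_of_forall_pair fun x hx y hy => ?_
  obtain ⟨c, hxc⟩ := pvt_sq_cover hδ x
  obtain ⟨c', hyc⟩ := pvt_sq_cover hδ y
  have h1 : c ∈ Fᶜ := fun h => hx (mem_biUnion h hxc)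
  have h2 : c' ∈ Fᶜ := fun h => hy (mem_biUnion h hyc)
  obtain ⟨t, t1, t2, t3, t4⟩ := key c h1 c' (hc c h1 c' h2)
  exact ⟨t, t1, t3 ⟨hxc, hx⟩, t4 ⟨hyc, hy⟩, t2⟩

/-- **THE HULL OF A FINITE SET OF CELLS**: bounded, closed, with a preconnected complement -/
theorem pvvw_hull_co (hδ : 0 < δ) (hF : F.Finite) : IsPreconnected (pvtU δ (pvtbHull F))ᶜ := by
  refine pvvw_U_co hδ ?_
  rw [pvtb_hull_compl]
  exact pvtb_out_conn hF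

end hull

/-! ## 1. the big ends of (DET) -/

section big

variable {N : PvspNum} {t : PvspTy} {z : ℂ} {h : ℝ} {η : Conf PvPt} {g : (pvkiT η).Gate (pvcmS η t.col)}

/-- no vertex of the circuit of the gate `S₂` is deep -/
theorem pvvw_cyc_shal (hT : (pvkiT η).IsSph) (H : PvbjIs N t z h η g) (i : ℕ) : (((pvkiT η).src (g.c.e i) : ↥(cfSites η)) : ℂ) ∉ closedBall z (t.a N 1 * h) := by
  intro hv
  obtain ⟨-, 𝔖, hA, rfl⟩ := H.is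
  obtain ⟨j1, -, j3, -⟩ := pl_jordan hT 𝔖.g2.c
  have h1 : (pvkiT η).opp (𝔖.g2.c.e i) ∈ 𝔖.g2.c.Left := hA.sel2.inner (Or.inr (Or.inl (by rw [PvMap.tgt_opp]; exact hv)))
  have h2 := j3 i
  rw [j1] at h2
  exact h2 h1

/-- `g⁻` is off every room which misses the entrance tube in the annulus `S₂ \ I₂` -/
theorem pvvw_vm_off (hT : (pvkiT η).IsSph) (H : PvbjIs N t z h η g) {KE : Set ℂ} (hK : Disjoint KE ((t.Nm ∩ closedBall z ((t.b N 1 + 1) * h)) \ closedBall z (t.a N 1 * h))) :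
    ((g.vm : ↥(cfSites η)) : ℂ) ∉ KE := fun hv =>
  disjoint_left.1 hK hv ⟨⟨H.vm, H.zone _ ⟨_, (pl_jordan hT g.c).2.1 0, rfl⟩⟩, pvvw_cyc_shal hT H 0⟩

/-- `g⁺` is off every room which misses the exit tube in the annulus `S₂ \ I₂` -/
theorem pvvw_vp_off (hT : (pvkiT η).IsSph) (H : PvbjIs N t z h η g) {KE : Set ℂ} (hK : Disjoint KE ((t.Np ∩ closedBall z ((t.b N 1 + 1) * h)) \ closedBall z (t.a N 1 * h))) :
    ((g.vp : ↥(cfSites η)) : ℂ) ∉ KE := fun hv =>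
  disjoint_left.1 hK hv ⟨⟨H.vp, H.zone _ ⟨_, (pl_jordan hT g.c).2.1 g.m, rfl⟩⟩, pvvw_cyc_shal hT H g.m⟩

variable {ε : ℝ}

/-- **`Pvn2At` AT THE EXIT END OF A BIG PLUG** (source of `o`, `b`): the room of the lanes misses the entrance tube in the annulus `S₂ \ I₂` -/
theorem pvvw_at_p (hW : t.Wf N z h) (hε : 0 < ε) {KE : Set ℂ} (hK : Disjoint KE ((t.Nm ∩ closedBall z ((t.b N 1 + 1) * h)) \ closedBall z (t.a N 1 * h))) :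
    Pvn2At ε (pvspG N ε t z h) (pvkjBig (t.reg N z h)) (pvfvEndP N t z h) t.col KE true := by
  unfold Pvn2At
  filter_upwards [dls_ae_conf hε] with η hn hG
  obtain ⟨g, H⟩ := pvbj_big_G hW hn hG
  exact ⟨g, H.is, pvbj_dic_p H (fun _ h => h), pvvw_vm_off (delb_plane_isSph hn.del) H hK⟩

/-- **`Pvn2At` AT THE ENTRANCE END OF A BIG PLUG** (target of `i`, `e`): the room of the lanes misses the exit tube in the annulus `S₂ \ I₂` -/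
theorem pvvw_at_m (hW : t.Wf N z h) (hε : 0 < ε) {KE : Set ℂ} (hK : Disjoint KE ((t.Np ∩ closedBall z ((t.b N 1 + 1) * h)) \ closedBall z (t.a N 1 * h))) :
    Pvn2At ε (pvspG N ε t z h) (pvkjBig (t.reg N z h)) (pvfvEndM N t z h) t.col KE false := by
  unfold Pvn2At
  filter_upwards [dls_ae_conf hε] with η hn hG
  obtain ⟨g, H⟩ := pvbj_big_G hW hn hG
  exact ⟨g, H.is, pvbj_dic_m H (fun _ h => h), pvvw_vp_off (delb_plane_isSph hn.del) H hK⟩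

/-- the same at the open room of a hull of cells (272): the annular part of the other tube is covered by cells off the hull -/
theorem pvvw_at_p_K (hW : t.Wf N z h) (hε : 0 < ε) {δ : ℝ} {P : Set (ℤ × ℤ)} (hV : (t.Nm ∩ closedBall z ((t.b N 1 + 1) * h)) \ closedBall z (t.a N 1 * h) ⊆ pvtU δ Pᶜ) :
    Pvn2At ε (pvspG N ε t z h) (pvkjBig (t.reg N z h)) (pvfvEndP N t z h) t.col (pvn2K δ P) true :=
  pvvw_at_p hW hε (disjoint_left.2 fun x hx hx' => pvn2_not_K (hV hx') hx)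

theorem pvvw_at_m_K (hW : t.Wf N z h) (hε : 0 < ε) {δ : ℝ} {P : Set (ℤ × ℤ)} (hV : (t.Np ∩ closedBall z ((t.b N 1 + 1) * h)) \ closedBall z (t.a N 1 * h) ⊆ pvtU δ Pᶜ) :
    Pvn2At ε (pvspG N ε t z h) (pvkjBig (t.reg N z h)) (pvfvEndM N t z h) t.col (pvn2K δ P) false :=
  pvvw_at_m hW hε (disjoint_left.2 fun x hx hx' => pvn2_not_K (hV hx') hx)

end big

/-! ## 2. the bridge `PvlktPoly + PvvwDet ⟹ Pvn2Dat.Ok` -/

/-- the cell data of 272 from the sets of 164: lanes `B W`, covers `Bk Wh`, hull `P`, cells `T` of the window, `Q` = the two state regions -/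
def pvvwD (δ ρ : ℝ) (B W Bk Wh P T : Set (ℤ × ℤ)) (Q : Set ℂ) : Pvn2Dat := ⟨δ, ρ, B, W, Bk, Wh, P, T, Q⟩

/-- **H5 = WHAT THE HULL AND THE WINDOWS OF A LINK OWE TO (DET)** (the fields of `Pvn2Dat.Ok` which are not in `PvlktPoly`):   `P` = the hull (finite, complement connected, corners allowed), `T` = the cells of the window of the corridor,
`Z Z'` = the zones of the two plugs, `ms` = the windows with their meshes, `p p' ∈ ms` = the windows of the rooms of the two ends -/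
structure PvvwDet (e e' : PvnkEnd) (δ ρ : ℝ) (B W P T : Set (ℤ × ℤ)) (Z Z' : Set ℂ) (ms : List (ℝ × Set ℂ)) (p p' : ℝ × Set ℂ) : Prop where
  ρ0 : 0 < ρ
  fP : P.Finite
  cP : TscConn pvtG8 Pᶜ
  fT : T.Finite
  far : Disjoint Z Z'
  mp : p ∈ ms
  mp' : p' ∈ ms
  /-- the rooms lie deep in the window of their end, their collars in the hull -/
  d : e.A₁ ∪ e.A₂ ⊆ pvtrCore (5 * p.1) p.2
  d' : e'.A₁ ∪ e'.A₂ ⊆ pvtrCore (5 * p'.1) p'.2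
  h : pvtCells δ (cthickening (3 * p.1) (e.A₁ ∪ e.A₂)) ⊆ P
  h' : pvtCells δ (cthickening (3 * p'.1) (e'.A₁ ∪ e'.A₂)) ⊆ P
  /-- every cell of a lane: a window of the list with its two collars -/
  w : ∀ c ∈ B ∪ W, ∃ q ∈ ms, ∃ k j : ℕ, 5 * q.1 < k * δ ∧ pvtU δ (pvtwN k {c}) ⊆ q.2 ∧ 3 * q.1 < j * δ ∧ pvtwN j {c} ⊆ P
  /-- every cell of the hull lies deep in a window of the list -/
  k : ∀ c ∈ P, ∃ q ∈ ms, ∃ k : ℕ, 5 * q.1 < k * δ ∧ pvtU δ (pvtwN k {c}) ⊆ q.2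

theorem pvvw_eqns_cite2 : True := by
  have := @pvvwD.eq_1
  trivial

section bridge

variable {e e' : PvnkEnd} {δ ρ : ℝ} {o : ℤ × ℤ} {N : ℕ} {B W Bk Wh P T : Set (ℤ × ℤ)} {Z Z' : Set ℂ} {ms : List (ℝ × Set ℂ)} {p p' : ℝ × Set ℂ}

/-- a set of cells in a box is finite -/
theorem pvvw_box_fin {S : Set (ℤ × ℤ)} (h : ∀ k ∈ S, |k.1 - o.1| ≤ N ∧ |k.2 - o.2| ≤ N) : S.Finite := by
  refine ((Set.finite_Icc (o.1 - N) (o.1 + N)).prod (Set.finite_Icc (o.2 - N) (o.2 + N))).subset ?_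
  intro k hk
  obtain ⟨h1, h2⟩ := h k hk
  rw [abs_le] at h1 h2
  exact ⟨⟨by linarith [h1.1], by linarith [h1.2]⟩, ⟨by linarith [h2.1], by linarith [h2.2]⟩⟩

/-- **THE BRIDGE**: the record of 164 (at the window `pvtU δ T \ (O ∪ O')`; any window does) and the half of (DET) give THE CONTRACT OF 272 -/
theorem pvvw_ok_of_poly {Et : Set ℂ} (G : PvlktPoly e e' δ o N B W Bk Wh Et) (H : PvvwDet e e' δ ρ B W P T Z Z' ms p p') :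
    (pvvwD δ ρ B W Bk Wh P T (e.O ∪ e'.O)).Ok e e' Z Z' ms p p' where
  δ0 := G.δ_pos
  ρ0 := H.ρ0
  col := G.col
  Q_eq := rfl
  f₁ := pvvw_box_fin G.boxB
  n₁ := G.neB
  c₁ := G.cB
  f₂ := pvvw_box_fin G.boxW
  n₂ := G.neW
  c₂ := G.cW
  fP := H.fP
  cP := H.cP
  fT := H.fT
  dj := G.dj
  far := H.far
  r₁ := by
    rintro x (⟨h1, h2⟩ | ⟨h1, h2⟩)
    · exact (G.a₁ h1).resolve_left h2
    · exact (G.a₁' h1).resolve_left h2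
  r₂ := by
    rintro x (⟨h1, h2⟩ | ⟨h1, h2⟩)
    · exact (G.a₂ h1).resolve_left h2
    · exact (G.a₂' h1).resolve_left h2
  sep := by
    have h1 : B ∪ Bk ⊆ Bk := union_subset (pvtw_N_sub.trans G.subB) Subset.rfl
    have h2 : W ∪ Wh ⊆ Wh := union_subset (pvtw_N_sub.trans G.subW) Subset.rfl
    exact G.sep.mono (pvtw_N_mono le_rfl h1) h2
  off := by
    show Disjoint (pvtU δ (pvtwN 1 (B ∪ W))) (e.O ∪ e'.O)
    rw [pvtw_N_union, pvt_U_union]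
    exact G.offB.union_left G.offW
  z₁ := G.z₁
  z₁' := G.z₁'
  z₂ := G.z₂
  z₂' := G.z₂'
  mp := H.mp
  mp' := H.mp'
  d := H.d
  d' := H.d'
  h := H.h
  h' := H.h'
  w := H.w
  k := H.k

/-- lengths of the walks of record from H3 (203 `pvlkw_walk`, in the form `PvlktNu` of 164) -/
theorem pvvw_len {nu : ℕ} {Et : Set ℂ} (hnu : PvlktNu N nu) (G : PvlktPoly e e' δ o N B W Bk Wh Et) (Q : Set ℂ) :
    (pvvwD δ ρ B W Bk Wh P T Q).walk.L₁.length ≤ nu ∧ (pvvwD δ ρ B W Bk Wh P T Q).walk.L₂.length ≤ nu := by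
  obtain ⟨L₁, n1, c1, f1, s1, l1⟩ := hnu o B G.neB G.boxB G.cB
  obtain ⟨L₂, n2, c2, f2, s2, l2⟩ := hnu o W G.neW G.boxW G.cW
  exact ⟨Pvn2Dat.len₁ _ ⟨L₁, ⟨n1, c1, f1, s1⟩, l1⟩, Pvn2Dat.len₂ _ ⟨L₂, ⟨n2, c2, f2, s2⟩, l2⟩⟩

end bridge

/-! ## 3. the five links at any `(𝔓, 𝔶)` -/

/-- **THE DATA OF ONE LINK**: the cell data of 272, the list of the windows with their meshes, the windows of the rooms of the two ends -/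
structure PvvwLd where
  D : Pvn2Dat
  ms : List (ℝ × Set ℂ)
  p : ℝ × Set ℂ
  p' : ℝ × Set ℂ

/-- **THE CONTRACT OF ONE LINK** with the walks `w`, ends `e e'`, zones `Z Z'` of the two plugs (113), rooms `V V'` of the far vertices of the two gates (`g⁻` of the source, `g⁺` of the target), lengths `≤ n` -/
structure PvvwLd.Ok (𝔡 : PvvwLd) (w : PvydWalk) (e e' : PvnkEnd) (Z Z' V V' : Set ℂ) (n : ℕ) : Prop where
  /-- the walks are the walks of record of the cell data -/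
  walk : w = 𝔡.D.walk
  /-- the contract of 272 -/
  ok : 𝔡.D.Ok e e' Z Z' 𝔡.ms 𝔡.p 𝔡.p'
  mQ : MeasurableSet 𝔡.D.Q
  len : 𝔡.D.walk.L₁.length ≤ n ∧ 𝔡.D.walk.L₂.length ≤ n
  /-- the meshes of the list follow from the two side events and the guard of the corridor -/
  mesh : Pvn2Ms e e' 𝔡.D.ρ 𝔡.D.Et 𝔡.ms
  /-- the rooms of the far vertices are covered by cells off the hull -/
  vs : V ⊆ pvtU 𝔡.D.δ 𝔡.D.Pᶜ
  vt : V' ⊆ pvtU 𝔡.D.δ 𝔡.D.Pᶜ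
  /-- for `PvkjCn.Wf`: the windows of the list are measurable, with positive meshes, read by the link;   the two zones lie deep in them -/
  ms0 : ∀ q ∈ 𝔡.ms, 0 < q.1 ∧ MeasurableSet q.2 ∧ q.2 ⊆ e.O ∪ e'.O ∪ e.E ∪ e'.E ∪ 𝔡.D.Et
  zc : ∀ x ∈ Z ∪ Z', ∃ q ∈ 𝔡.ms, x ∈ pvtrCore (3 * q.1) q.2

section link

variable {𝔡 : PvvwLd} {w : PvydWalk} {e e' : PvnkEnd} {Z Z' V V' : Set ℂ} {n : ℕ}

theorem PvvwLd.Ok.geo (H : 𝔡.Ok w e e' Z Z' V V' n) : (w.lk e e').Geo := by rw [H.walk]; exact H.ok.geo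
theorem PvvwLd.Ok.rooms (H : 𝔡.Ok w e e' Z Z' V V' n) : (w.lk e e').Rooms := by rw [H.walk]; exact H.ok.rooms
theorem PvvwLd.Ok.win (H : 𝔡.Ok w e e' Z Z' V V' n) : PvnhWin w.Et w.M := by rw [H.walk]; exact pvnh_mesh_win 𝔡.D.ρ ((pvn2_U_meas _ _).diff H.mQ)
theorem PvvwLd.Ok.off (H : 𝔡.Ok w e e' Z Z' V V' n) : PvnhOff (w.lk e e') w.Et w.M := by rw [H.walk]; exact H.ok.offW
theorem PvvwLd.Ok.lim (H : 𝔡.Ok w e e' Z Z' V V' n) : Tendsto (fun ε : ℝ => pvP ε (w.M)ᶜ) (𝓝[>] 0) (𝓝 0) := by rw [H.walk]; exact H.ok.lim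
theorem PvvwLd.Ok.len' (H : 𝔡.Ok w e e' Z Z' V V' n) : w.L₁.length ≤ n ∧ w.L₂.length ≤ n := by rw [H.walk]; exact H.len
theorem PvvwLd.Ok.lay (H : 𝔡.Ok w e e' Z Z' V V' n) : PvnlLay (w.lk e e') 𝔡.ms 𝔡.D.KE univ Z Z' := by rw [H.walk]; exact H.ok.lay

/-- the reading zone of the connector lies deep in the windows of the list (clause `core` of `PvkjCn.Wf`) -/
theorem PvvwLd.Ok.core (H : 𝔡.Ok w e e' Z Z' V V' n) : ∀ x ∈ Z ∪ Z' ∪ 𝔡.D.KE, ∃ q ∈ 𝔡.ms, x ∈ pvtrCore (3 * q.1) q.2 := by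
  rintro x (hx | hx)
  · exact H.zc x hx
  · exact H.ok.core (fun q hq => (H.ms0 q hq).1.le) x hx

/-- the room of the lanes misses the rooms of the far vertices -/
theorem PvvwLd.Ok.dvs (H : 𝔡.Ok w e e' Z Z' V V' n) : Disjoint 𝔡.D.KE V := disjoint_left.2 fun _ hx hx' => pvn2_not_K (H.vs hx') hx
theorem PvvwLd.Ok.dvt (H : 𝔡.Ok w e e' Z Z' V V' n) : Disjoint 𝔡.D.KE V' := disjoint_left.2 fun _ hx hx' => pvn2_not_K (H.vt hx') hx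

/-- where the link is read off its two plugs -/
theorem PvvwLd.Ok.Kp_sub (H : 𝔡.Ok w e e' Z Z' V V' n) : pvnhKp (w.lk e e') w.Et ⊆ (e.E ∪ e'.E ∪ pvtU 𝔡.D.δ (pvtwN 1 (𝔡.D.W₁ ∪ 𝔡.D.W₂)) ∪ pvtU 𝔡.D.δ 𝔡.D.T) \ (e.O ∪ e'.O) := by
  rw [H.walk]
  rintro x ⟨hx, hO⟩
  refine ⟨?_, hO⟩
  have l1 : pvlnW 𝔡.D.δ (pvn2Walk 𝔡.D.W₁) ⊆ pvtU 𝔡.D.δ (pvtwN 1 (𝔡.D.W₁ ∪ 𝔡.D.W₂)) := by
    refine (pvn2_lnW_sub H.ok.δ0 _).trans (pvt_U_mono ?_)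
    rw [H.ok.wk₁.2.2.2]
    exact pvtw_N_mono le_rfl subset_union_left
  have l2 : pvlnW 𝔡.D.δ (pvn2Walk 𝔡.D.W₂) ⊆ pvtU 𝔡.D.δ (pvtwN 1 (𝔡.D.W₁ ∪ 𝔡.D.W₂)) := by
    refine (pvn2_lnW_sub H.ok.δ0 _).trans (pvt_U_mono ?_)
    rw [H.ok.wk₂.2.2.2]
    exact pvtw_N_mono le_rfl subset_union_right
  rcases hx with (((h | h) | h) | h) | h
  · exact Or.inl (Or.inl (Or.inl h))
  · exact Or.inl (Or.inl (Or.inr h))
  · exact Or.inl (Or.inr (l1 h))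
  · exact Or.inl (Or.inr (l2 h))
  · exact Or.inr h.1

/-- **THE RECORD OF (DET)** of 272 for a placed connector `C` of 113 with the zones, the list and the CUT corridor of the data -/
theorem PvvwLd.Ok.toRec {C : PvkjCn} {ε : ℝ} {G G' : Set (Conf PvPt)} (H : 𝔡.Ok w e e' C.e.Z C.e'.Z V V' n) (hW : C.Wf) (hc : e.c = C.col) (hms : C.ms = 𝔡.ms) (cut : C.Kc = 𝔡.D.KE \ (C.e.I ∪ C.e'.I))
    (src : Pvn2At ε G C.e e C.col 𝔡.D.KE true) (tgt : Pvn2At ε G' C.e' e' C.col 𝔡.D.KE false) : Pvn2Rec ε (w.lk e e') w.M G G' C 𝔡.D.KE := by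
  rw [H.walk]
  exact Pvn2Dat.Ok.toRec (p := 𝔡.p) (p' := 𝔡.p') (by rw [hms]; exact H.ok) hW hc cut src tgt (by rw [hms]; exact H.mesh)

end link

/-! ## 3 bis. one link, THE ABSTRACT CONTRACT (what the consumers read) -/

/-- **THE DATA OF ONE LINK, ABSTRACT**: the walks, the room of (DET), the list of the windows with their meshes -/
structure PvvwLa where
  w : PvydWalk
  KE : Set ℂ
  ms : List (ℝ × Set ℂ)

/-- **THE CONTRACT OF ONE LINK, ABSTRACT**: ends `e e'`, zones `Z Z'` of the two plugs (113), rooms `V V'` of the far vertices of the two gates (`g⁻` of the source, `g⁺` of the target), lengths `≤ n`.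
PRODUCERS: the dictionary of 272 (`PvvwLd.Ok.toLa`), or any direct construction (294 `Exit/FunRP`) -/
structure PvvwLa.Ok (𝔞 : PvvwLa) (e e' : PvnkEnd) (Z Z' V V' : Set ℂ) (n : ℕ) : Prop where
  geo : (𝔞.w.lk e e').Geo
  rooms : (𝔞.w.lk e e').Rooms
  win : PvnhWin 𝔞.w.Et 𝔞.w.M
  off : PvnhOff (𝔞.w.lk e e') 𝔞.w.Et 𝔞.w.M
  lim : Tendsto (fun ε : ℝ => pvP ε (𝔞.w.M)ᶜ) (𝓝[>] 0) (𝓝 0)
  len : 𝔞.w.L₁.length ≤ n ∧ 𝔞.w.L₂.length ≤ n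
  /-- (DET) at the room of the lanes -/
  lay : PvnlLay (𝔞.w.lk e e') 𝔞.ms 𝔞.KE univ Z Z'
  mK : MeasurableSet 𝔞.KE
  /-- the meshes of the list hold on the bare event with its guard -/
  mesh : ∀ η ∈ pvnhA₀ (𝔞.w.lk e e') 𝔞.w.M, ∀ q ∈ 𝔞.ms, PvtrMesh q.1 q.2 (cfSites η)
  /-- the room of the lanes misses the rooms of the far vertices -/
  dvs : Disjoint 𝔞.KE V
  dvt : Disjoint 𝔞.KE V'
  /-- for `PvkjCn.Wf`: the windows of the list are measurable, with positive meshes, read by the link;   the two zones lie deep in them -/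
  ms0 : ∀ q ∈ 𝔞.ms, 0 < q.1 ∧ MeasurableSet q.2 ∧ q.2 ⊆ e.O ∪ e'.O ∪ e.E ∪ e'.E ∪ 𝔞.w.Et
  zc : ∀ x ∈ Z ∪ Z', ∃ q ∈ 𝔞.ms, x ∈ pvtrCore (3 * q.1) q.2

/-- the abstract data of the cell data -/
noncomputable def PvvwLd.toLa (𝔡 : PvvwLd) : PvvwLa := ⟨𝔡.D.walk, 𝔡.D.KE, 𝔡.ms⟩

theorem pvvw_eqns_cite4 : True := by
  have := @PvvwLd.toLa.eq_1
  trivial

section linkA

variable {𝔡 : PvvwLd} {𝔞 : PvvwLa} {w : PvydWalk} {e e' : PvnkEnd} {Z Z' V V' : Set ℂ} {n : ℕ}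

/-- **the dictionary of 272 ends in the abstract contract** -/
theorem PvvwLd.Ok.toLa (H : 𝔡.Ok w e e' Z Z' V V' n) : 𝔡.toLa.Ok e e' Z Z' V V' n where
  geo := H.ok.geo
  rooms := H.ok.rooms
  win := pvnh_mesh_win 𝔡.D.ρ ((pvn2_U_meas _ _).diff H.mQ)
  off := H.ok.offW
  lim := H.ok.lim
  len := H.len
  lay := H.ok.lay
  mK := pvn2_K_meas _ _
  mesh := fun _ hη => pvn2_rec_mesh H.mesh hη
  dvs := H.dvs
  dvt := H.dvt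
  ms0 := H.ms0
  zc := H.zc

/-- the reading zone of the connector lies deep in the windows of the list (clause `core` of `PvkjCn.Wf`) -/
theorem PvvwLa.Ok.core (H : 𝔞.Ok e e' Z Z' V V' n) : ∀ x ∈ Z ∪ Z' ∪ 𝔞.KE, ∃ q ∈ 𝔞.ms, x ∈ pvtrCore (3 * q.1) q.2 := by
  rintro x (hx | hx)
  · exact H.zc x hx
  · exact pvn2_core_of_cov (fun q hq => (H.ms0 q hq).1.le) H.lay.covK x hx

/-- the window `O ∪ O' ∪ E ∪ E' ∪ Et` is read by the link -/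
theorem PvvwLa.Ok.rd (H : 𝔞.Ok e e' Z Z' V V' n) {E : Set ℂ} (hE : E ⊆ e.O ∪ e'.O ∪ e.E ∪ e'.E ∪ 𝔞.w.Et) : E ×ˢ (univ : Set Bool) ⊆ pvnhRd (𝔞.w.lk e e') 𝔞.w.Et :=
  pvnh_win_sub hE

/-- **THE RECORD OF (DET)** of 272 for a placed connector `C` of 113 with the zones, the list and the CUT corridor of the data -/
theorem PvvwLa.Ok.toRec {C : PvkjCn} {ε : ℝ} {G G' : Set (Conf PvPt)} (H : 𝔞.Ok e e' C.e.Z C.e'.Z V V' n) (hW : C.Wf) (hc : e.c = C.col) (hms : C.ms = 𝔞.ms) (cut : C.Kc = 𝔞.KE \ (C.e.I ∪ C.e'.I))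
    (src : Pvn2At ε G C.e e C.col 𝔞.KE true) (tgt : Pvn2At ε G' C.e' e' C.col 𝔞.KE false) : Pvn2Rec ε (𝔞.w.lk e e') 𝔞.w.M G G' C 𝔞.KE where
  wf := hW
  col := hc
  lay := by rw [hms]; exact H.lay
  cut := cut
  src := src
  tgt := tgt
  mesh := Eventually.of_forall fun η _ _ h => by rw [hms]; exact H.mesh η h

end linkA

/-! ## 4. the candidates -/

section cand

variable {τ : Type} {cc : ℝ}

/-- the zone of the big plug of the candidate (113: the ball `S₂`) -/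
noncomputable def pvvwZt (𝔓 : PvrxPar τ cc) (m : ℕ) (z : ℂ) (t : τ) : Set ℂ := (pvkjBig ((𝔓.ty m z t).reg 𝔓.mod.N z (pvlmH m))).Z

/-- the room of `g⁻` of the big plug (far vertex of the links `o b` which LEAVE it): the entrance tube in the annulus `S₂ \ I₂` -/
noncomputable def pvvwVm (𝔓 : PvrxPar τ cc) (m : ℕ) (z : ℂ) (t : τ) : Set ℂ :=
  ((𝔓.ty m z t).Nm ∩ closedBall z (((𝔓.ty m z t).b 𝔓.mod.N 1 + 1) * pvlmH m)) \ closedBall z ((𝔓.ty m z t).a 𝔓.mod.N 1 * pvlmH m)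

/-- the room of `g⁺` of the big plug (far vertex of the links `i e` which ENTER it): the exit tube in the annulus `S₂ \ I₂` -/
noncomputable def pvvwVp (𝔓 : PvrxPar τ cc) (m : ℕ) (z : ℂ) (t : τ) : Set ℂ :=
  ((𝔓.ty m z t).Np ∩ closedBall z (((𝔓.ty m z t).b 𝔓.mod.N 1 + 1) * pvlmH m)) \ closedBall z ((𝔓.ty m z t).a 𝔓.mod.N 1 * pvlmH m)

/-- the zone of a kit plug `𝔭` (already scaled) placed at `(z, d)` -/
def pvvwZk (𝔭 : PvkdPlug) (z d : ℂ) : Set ℂ := (pvkjKit (𝔭.pg z d)).Z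

/-- the room of the far vertex of a kit plug: side `σ = true` = the link LEAVES the plug (far vertex `g⁻`), `σ = false` = the link ENTERS it (far vertex `g⁺`)   [291 `pvyhZ`] -/
def pvvwVk (𝔭 : PvkdPlug) (z d : ℂ) (σ : Bool) : Set ℂ := pvkdAt z d (pvyhZ 𝔭 σ)

theorem pvvw_eqns_cite3 : True := by
  have := @pvvwZt.eq_1; have := @pvvwVm.eq_1; have := @pvvwVp.eq_1; have := @pvvwZk.eq_1; have := @pvvwVk.eq_1
  trivial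

/-- **WHAT THE TWO FUNNELS `o i` OWE AT THE CANDIDATE `(m, z, t)`**;   `𝔭` = the door plug of level `m` (scaled), `n` = bound of the lengths at the level `m`, `𝔬 𝔦` = the data -/
structure PvvwF (𝔓 : PvrxPar τ cc) (𝔶 : PvydGeo τ) (𝔭 : PvkdPlug) (n m : ℕ) (z : ℂ) (t : τ) (𝔬 𝔦 : PvvwLa) : Prop where
  wo : 𝔶.wo m z t = 𝔬.w
  wi : 𝔶.wi m z t = 𝔦.w
  o : ∀ᶠ ε in 𝓝[>] (0 : ℝ), 𝔬.Ok (pvydEP 𝔓 m z t) (𝔶.eD (𝔓.ty m z t).col m ε false (z + (𝔓.Γ m).pout t) ((𝔓.Γ m).dout t))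
    (pvvwZt 𝔓 m z t) (pvvwZk 𝔭 (z + (𝔓.Γ m).pout t) ((𝔓.Γ m).dout t)) (pvvwVm 𝔓 m z t) (pvvwVk 𝔭 (z + (𝔓.Γ m).pout t) ((𝔓.Γ m).dout t) false) n
  i : ∀ᶠ ε in 𝓝[>] (0 : ℝ), 𝔦.Ok (𝔶.eD (𝔓.ty m z t).col m ε true (z + (𝔓.Γ m).pin t) ((𝔓.Γ m).din t)) (pvydEM 𝔓 m z t)
    (pvvwZk 𝔭 (z + (𝔓.Γ m).pin t) ((𝔓.Γ m).din t)) (pvvwZt 𝔓 m z t) (pvvwVk 𝔭 (z + (𝔓.Γ m).pin t) ((𝔓.Γ m).din t) true) (pvvwVp 𝔓 m z t) n

/-- **WHAT THE TWO THICK LINKS `e b` OWE AT THE CANDIDATE `(m, z, t)`**;   `𝔲` = the reference plug of level `m` (scaled), `nu` = THE UNIFORM bound of the lengths, `𝔢 𝔟` = the data -/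
structure PvvwT (𝔓 : PvrxPar τ cc) (𝔶 : PvydGeo τ) (𝔲 : PvkdPlug) (nu m : ℕ) (z : ℂ) (t : τ) (𝔢 𝔟 : PvvwLa) : Prop where
  we : 𝔶.we m z t = 𝔢.w
  wb : 𝔶.wb m z t = 𝔟.w
  e : 𝔢.Ok (𝔶.eU (𝔓.ty m z t).col m true (pvydWu 𝔓 m z t)) (pvydEM 𝔓 m z t)
    (pvvwZk 𝔲 (pvydWu 𝔓 m z t) 1) (pvvwZt 𝔓 m z t) (pvvwVk 𝔲 (pvydWu 𝔓 m z t) 1 true) (pvvwVp 𝔓 m z t) nu
  b : 𝔟.Ok (pvydEP 𝔓 m z t) (𝔶.eU (𝔓.ty m z t).col m false (pvydWu 𝔓 m z t))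
    (pvvwZt 𝔓 m z t) (pvvwZk 𝔲 (pvydWu 𝔓 m z t) 1) (pvvwVm 𝔓 m z t) (pvvwVk 𝔲 (pvydWu 𝔓 m z t) 1 false) nu

/-- **WHAT THE FUNNEL `r` OF THE REFERENCE FRAME OWES AT THE LEVEL `m`** -/
structure PvvwR (𝔓 : PvrxPar τ cc) (𝔶 : PvydGeo τ) (𝔭 𝔲 : PvkdPlug) (n m : ℕ) (𝔯 : PvvwLa) : Prop where
  wr : 𝔶.wr m = 𝔯.w
  r : ∀ᶠ ε in 𝓝[>] (0 : ℝ), 𝔯.Ok (𝔶.eD true m ε true (𝔓.Γ m).pin0 (𝔓.Γ m).din0) (𝔶.eU true m false 0)
    (pvvwZk 𝔭 (𝔓.Γ m).pin0 (𝔓.Γ m).din0) (pvvwZk 𝔲 0 1) (pvvwVk 𝔭 (𝔓.Γ m).pin0 (𝔓.Γ m).din0 true) (pvvwVk 𝔲 0 1 false) n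

variable {𝔓 : PvrxPar τ cc} {𝔶 : PvydGeo τ} {𝔭 𝔲 : PvkdPlug} {n nu m : ℕ} {z : ℂ} {t : τ} {𝔬 𝔦 𝔢 𝔟 𝔯 : PvvwLa}

/-! ### the links of `𝔶` are the links of the data -/

theorem PvvwF.lo_eq (F : PvvwF 𝔓 𝔶 𝔭 n m z t 𝔬 𝔦) (c : Bool) (ε : ℝ) : 𝔶.lo 𝔓 c m ε z t = 𝔬.w.lk (pvydEP 𝔓 m z t) (𝔶.eD c m ε false (z + (𝔓.Γ m).pout t) ((𝔓.Γ m).dout t)) := by
  unfold PvydGeo.lo; rw [F.wo]
theorem PvvwF.li_eq (F : PvvwF 𝔓 𝔶 𝔭 n m z t 𝔬 𝔦) (c : Bool) (ε : ℝ) : 𝔶.li 𝔓 c m ε z t = 𝔦.w.lk (𝔶.eD c m ε true (z + (𝔓.Γ m).pin t) ((𝔓.Γ m).din t)) (pvydEM 𝔓 m z t) := by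
  unfold PvydGeo.li; rw [F.wi]
theorem PvvwT.le_eq (T : PvvwT 𝔓 𝔶 𝔲 nu m z t 𝔢 𝔟) (c : Bool) : 𝔶.le 𝔓 c m z t = 𝔢.w.lk (𝔶.eU c m true (pvydWu 𝔓 m z t)) (pvydEM 𝔓 m z t) := by
  unfold PvydGeo.le; rw [T.we]
theorem PvvwT.lb_eq (T : PvvwT 𝔓 𝔶 𝔲 nu m z t 𝔢 𝔟) (c : Bool) : 𝔶.lb 𝔓 c m z t = 𝔟.w.lk (pvydEP 𝔓 m z t) (𝔶.eU c m false (pvydWu 𝔓 m z t)) := by
  unfold PvydGeo.lb; rw [T.wb]
theorem PvvwR.lr_eq (R : PvvwR 𝔓 𝔶 𝔭 𝔲 n m 𝔯) (ε : ℝ) : 𝔶.lr 𝔓 m ε = 𝔯.w.lk (𝔶.eD true m ε true (𝔓.Γ m).pin0 (𝔓.Γ m).din0) (𝔶.eU true m false 0) := by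
  unfold PvydGeo.lr; rw [R.wr]

/-! ### the fields of `CandOk`, `KitOk` -/

theorem PvvwF.o_geo (F : PvvwF 𝔓 𝔶 𝔭 n m z t 𝔬 𝔦) : ∀ᶠ ε in 𝓝[>] (0 : ℝ), (𝔶.lo 𝔓 (𝔓.ty m z t).col m ε z t).Geo := F.o.mono fun ε h => by rw [F.lo_eq]; exact h.geo
theorem PvvwF.i_geo (F : PvvwF 𝔓 𝔶 𝔭 n m z t 𝔬 𝔦) : ∀ᶠ ε in 𝓝[>] (0 : ℝ), (𝔶.li 𝔓 (𝔓.ty m z t).col m ε z t).Geo := F.i.mono fun ε h => by rw [F.li_eq]; exact h.geo
theorem PvvwF.o_win (F : PvvwF 𝔓 𝔶 𝔭 n m z t 𝔬 𝔦) : PvnhWin (𝔶.wo m z t).Et (𝔶.wo m z t).M := by obtain ⟨_, h⟩ := F.o.exists; rw [F.wo]; exact h.win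
theorem PvvwF.i_win (F : PvvwF 𝔓 𝔶 𝔭 n m z t 𝔬 𝔦) : PvnhWin (𝔶.wi m z t).Et (𝔶.wi m z t).M := by obtain ⟨_, h⟩ := F.i.exists; rw [F.wi]; exact h.win
theorem PvvwT.e_geo (T : PvvwT 𝔓 𝔶 𝔲 nu m z t 𝔢 𝔟) : (𝔶.le 𝔓 (𝔓.ty m z t).col m z t).Geo := by rw [T.le_eq]; exact T.e.geo
theorem PvvwT.b_geo (T : PvvwT 𝔓 𝔶 𝔲 nu m z t 𝔢 𝔟) : (𝔶.lb 𝔓 (𝔓.ty m z t).col m z t).Geo := by rw [T.lb_eq]; exact T.b.geo
theorem PvvwT.e_win (T : PvvwT 𝔓 𝔶 𝔲 nu m z t 𝔢 𝔟) : PvnhWin (𝔶.we m z t).Et (𝔶.we m z t).M := by rw [T.we]; exact T.e.win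
theorem PvvwT.b_win (T : PvvwT 𝔓 𝔶 𝔲 nu m z t 𝔢 𝔟) : PvnhWin (𝔶.wb m z t).Et (𝔶.wb m z t).M := by rw [T.wb]; exact T.b.win
theorem PvvwR.r_geo (R : PvvwR 𝔓 𝔶 𝔭 𝔲 n m 𝔯) : ∀ᶠ ε in 𝓝[>] (0 : ℝ), (𝔶.lr 𝔓 m ε).Geo := R.r.mono fun ε h => by rw [R.lr_eq]; exact h.geo
theorem PvvwR.r_win (R : PvvwR 𝔓 𝔶 𝔭 𝔲 n m 𝔯) : PvnhWin (𝔶.wr m).Et (𝔶.wr m).M := by obtain ⟨_, h⟩ := R.r.exists; rw [R.wr]; exact h.win

/-! ### the geometric fields of `PvndKitUp` -/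

theorem PvvwR.r_rooms (R : PvvwR 𝔓 𝔶 𝔭 𝔲 n m 𝔯) : ∀ᶠ ε in 𝓝[>] (0 : ℝ), (𝔶.lr 𝔓 m ε).Rooms := R.r.mono fun ε h => by rw [R.lr_eq]; exact h.rooms
theorem PvvwR.r_len (R : PvvwR 𝔓 𝔶 𝔭 𝔲 n m 𝔯) : (𝔶.wr m).L₁.length ≤ n ∧ (𝔶.wr m).L₂.length ≤ n := by obtain ⟨_, h⟩ := R.r.exists; rw [R.wr]; exact h.len
theorem PvvwR.r_off (R : PvvwR 𝔓 𝔶 𝔭 𝔲 n m 𝔯) : ∀ᶠ ε in 𝓝[>] (0 : ℝ), PvnhOff (𝔶.lr 𝔓 m ε) (𝔶.wr m).Et (𝔶.wr m).M := R.r.mono fun ε h => by rw [R.lr_eq, R.wr]; exact h.off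
theorem PvvwR.r_lim (R : PvvwR 𝔓 𝔶 𝔭 𝔲 n m 𝔯) : Tendsto (fun ε : ℝ => pvP ε ((𝔶.wr m).M)ᶜ) (𝓝[>] 0) (𝓝 0) := by obtain ⟨_, h⟩ := R.r.exists; rw [R.wr]; exact h.lim

/-- **`PvndCand`** (272 `Tr/EndP`) -/
theorem pvvw_cand (F : PvvwF 𝔓 𝔶 𝔭 n m z t 𝔬 𝔦) (T : PvvwT 𝔓 𝔶 𝔲 nu m z t 𝔢 𝔟) : PvndCand 𝔶 𝔓 n nu m z t := by
  obtain ⟨_, ho⟩ := F.o.exists
  obtain ⟨_, hi⟩ := F.i.exists
  exact
    { o_rooms := F.o.mono fun ε h => by rw [F.lo_eq]; exact h.rooms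
      i_rooms := F.i.mono fun ε h => by rw [F.li_eq]; exact h.rooms
      e_rooms := by rw [T.le_eq]; exact T.e.rooms
      b_rooms := by rw [T.lb_eq]; exact T.b.rooms
      o_len := by rw [F.wo]; exact ho.len
      i_len := by rw [F.wi]; exact hi.len
      e_len := by rw [T.we]; exact T.e.len
      b_len := by rw [T.wb]; exact T.b.len
      o_off := F.o.mono fun ε h => by rw [F.lo_eq, F.wo]; exact h.off
      i_off := F.i.mono fun ε h => by rw [F.li_eq, F.wi]; exact h.off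
      e_off := by rw [T.le_eq, T.we]; exact T.e.off
      b_off := by rw [T.lb_eq, T.wb]; exact T.b.off
      o_lim := by rw [F.wo]; exact ho.lim
      i_lim := by rw [F.wi]; exact hi.lim
      e_lim := by rw [T.we]; exact T.e.lim
      b_lim := by rw [T.wb]; exact T.b.lim }

/-! ### (DET): the records of 272 at the five links, for placed connectors of 113 with the ends, the list and the CUT corridor of the data -/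

section det

variable {𝔤 : PvkdGeo} {𝔱 : PvhfTr} {b q β' : ℝ≥0∞} {CB r : ℝ} {δ su : ℕ → ℝ} {C : PvkjCn}

/-- **`Do` of `PvucSup`** -/
theorem PvvwF.Do (F : PvvwF 𝔓 𝔶 (𝔤.toPvkdPlug.sc (δ m)) n m z t 𝔬 𝔦) (h : PvkuOk (𝔤.glob (pvhfH 𝔤.toPvkdPlug 𝔱)) b q β' CB r) (hG : PvhfGeo 𝔤.toPvkdPlug 𝔱) (hE : 𝔤.Ew ⊆ 𝔤.O₀)
    (hZ : Disjoint 𝔤.Zm 𝔤.Zp) (H : PvyhIs 𝔶 𝔤 𝔱 b q δ su) (hδ : 0 < δ m) (hW : 𝔓.Wf) (d4 : (𝔓.Γ m).dout t ^ 4 = 1)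
    (wf : C.Wf) (hc : C.col = (𝔓.ty m z t).col) (ce : C.e = pvkjBig ((𝔓.ty m z t).reg 𝔓.mod.N z (pvlmH m)))
    (ce' : C.e' = pvkjKit ((𝔤.toPvkdPlug.sc (δ m)).pg (z + (𝔓.Γ m).pout t) ((𝔓.Γ m).dout t))) (hms : C.ms = 𝔬.ms) (cut : C.Kc = 𝔬.KE \ (C.e.I ∪ C.e'.I)) :
    ∀ᶠ ε in 𝓝[>] (0 : ℝ), Pvn2Rec ε (𝔶.lo 𝔓 (𝔓.ty m z t).col m ε z t) (𝔶.wo m z t).M (pvydG 𝔓 m ε z t)
      ((pvydKit (𝔶.kit m ε) (𝔓.ty m z t).col).G (z + (𝔓.Γ m).pout t) ((𝔓.Γ m).dout t)) C 𝔬.KE := by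
  obtain ⟨_, h0⟩ := F.o.exists
  filter_upwards [F.o, pvyh_at_D h hG hE hZ H hδ (𝔓.ty m z t).col false (z + (𝔓.Γ m).pout t) d4 (KE := fun _ => 𝔬.KE) (fun _ => h0.dvt), self_mem_nhdsWithin] with ε a1 a2 a3
  rw [F.lo_eq, F.wo]
  refine PvvwLa.Ok.toRec (V := pvvwVm 𝔓 m z t) (V' := pvvwVk (𝔤.toPvkdPlug.sc (δ m)) (z + (𝔓.Γ m).pout t) ((𝔓.Γ m).dout t) false) (n := n) ?_ wf hc.symm hms cut ?_ ?_
  · rw [ce, ce']; exact a1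
  · rw [ce, hc]; exact pvvw_at_p (hW.ty_wf m z t) a3 a1.dvs
  · rw [ce', hc]; exact a2

/-- the entrance funnel (closeA of 193) -/
theorem PvvwF.Di (F : PvvwF 𝔓 𝔶 (𝔤.toPvkdPlug.sc (δ m)) n m z t 𝔬 𝔦) (h : PvkuOk (𝔤.glob (pvhfH 𝔤.toPvkdPlug 𝔱)) b q β' CB r) (hG : PvhfGeo 𝔤.toPvkdPlug 𝔱) (hE : 𝔤.Ew ⊆ 𝔤.O₀)
    (hZ : Disjoint 𝔤.Zm 𝔤.Zp) (H : PvyhIs 𝔶 𝔤 𝔱 b q δ su) (hδ : 0 < δ m) (hW : 𝔓.Wf) (d4 : (𝔓.Γ m).din t ^ 4 = 1)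
    (wf : C.Wf) (hc : C.col = (𝔓.ty m z t).col) (ce : C.e = pvkjKit ((𝔤.toPvkdPlug.sc (δ m)).pg (z + (𝔓.Γ m).pin t) ((𝔓.Γ m).din t)))
    (ce' : C.e' = pvkjBig ((𝔓.ty m z t).reg 𝔓.mod.N z (pvlmH m))) (hms : C.ms = 𝔦.ms) (cut : C.Kc = 𝔦.KE \ (C.e.I ∪ C.e'.I)) :
    ∀ᶠ ε in 𝓝[>] (0 : ℝ), Pvn2Rec ε (𝔶.li 𝔓 (𝔓.ty m z t).col m ε z t) (𝔶.wi m z t).M
      ((pvydKit (𝔶.kit m ε) (𝔓.ty m z t).col).G (z + (𝔓.Γ m).pin t) ((𝔓.Γ m).din t)) (pvydG 𝔓 m ε z t) C 𝔦.KE := by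
  obtain ⟨_, h0⟩ := F.i.exists
  filter_upwards [F.i, pvyh_at_D h hG hE hZ H hδ (𝔓.ty m z t).col true (z + (𝔓.Γ m).pin t) d4 (KE := fun _ => 𝔦.KE) (fun _ => h0.dvs), self_mem_nhdsWithin] with ε a1 a2 a3
  rw [F.li_eq, F.wi]
  refine PvvwLa.Ok.toRec (V := pvvwVk (𝔤.toPvkdPlug.sc (δ m)) (z + (𝔓.Γ m).pin t) ((𝔓.Γ m).din t) true) (V' := pvvwVp 𝔓 m z t) (n := n) ?_ wf ?_ hms cut ?_ ?_
  · rw [ce, ce']; exact a1
  · rw [hc]; exact a1.geo.col.symm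
  · rw [ce, hc]; exact a2
  · rw [ce', hc]; exact pvvw_at_m (hW.ty_wf m z t) a3 a1.dvt

/-- **`De` of `PvucSup`** -/
theorem PvvwT.De (T : PvvwT 𝔓 𝔶 (𝔤.toPvkdPlug.sc (su m)) nu m z t 𝔢 𝔟) (h : PvkuOk (𝔤.glob (pvhfH 𝔤.toPvkdPlug 𝔱)) b q β' CB r) (hG : PvhfGeo 𝔤.toPvkdPlug 𝔱) (hE : 𝔤.Ew ⊆ 𝔤.O₀)
    (hZ : Disjoint 𝔤.Zm 𝔤.Zp) (H : PvyhIs 𝔶 𝔤 𝔱 b q δ su) (hs : 0 < su m) (hW : 𝔓.Wf)
    (wf : C.Wf) (hc : C.col = (𝔓.ty m z t).col) (ce : C.e = pvkjKit ((𝔤.toPvkdPlug.sc (su m)).pg (pvydWu 𝔓 m z t) 1))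
    (ce' : C.e' = pvkjBig ((𝔓.ty m z t).reg 𝔓.mod.N z (pvlmH m))) (hms : C.ms = 𝔢.ms) (cut : C.Kc = 𝔢.KE \ (C.e.I ∪ C.e'.I)) :
    ∀ᶠ ε in 𝓝[>] (0 : ℝ), Pvn2Rec ε (𝔶.le 𝔓 (𝔓.ty m z t).col m z t) (𝔶.we m z t).M (𝔶.GU 𝔓 (𝔓.ty m z t).col m ε z t) (pvydG 𝔓 m ε z t) C 𝔢.KE := by
  filter_upwards [pvyh_at_GU h hG hE hZ H hs 𝔓 (𝔓.ty m z t).col true z t (KE := fun _ => 𝔢.KE) (fun _ => T.e.dvs), self_mem_nhdsWithin] with ε a2 a3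
  rw [T.le_eq, T.we]
  refine PvvwLa.Ok.toRec (V := pvvwVk (𝔤.toPvkdPlug.sc (su m)) (pvydWu 𝔓 m z t) 1 true) (V' := pvvwVp 𝔓 m z t) (n := nu) ?_ wf ?_ hms cut ?_ ?_
  · rw [ce, ce']; exact T.e
  · rw [hc]; exact T.e.geo.col.symm
  · rw [ce, hc]; exact a2
  · rw [ce', hc]; exact pvvw_at_m (hW.ty_wf m z t) a3 T.e.dvt

/-- **`Db` of `PvucSup`** -/
theorem PvvwT.Db (T : PvvwT 𝔓 𝔶 (𝔤.toPvkdPlug.sc (su m)) nu m z t 𝔢 𝔟) (h : PvkuOk (𝔤.glob (pvhfH 𝔤.toPvkdPlug 𝔱)) b q β' CB r) (hG : PvhfGeo 𝔤.toPvkdPlug 𝔱) (hE : 𝔤.Ew ⊆ 𝔤.O₀)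
    (hZ : Disjoint 𝔤.Zm 𝔤.Zp) (H : PvyhIs 𝔶 𝔤 𝔱 b q δ su) (hs : 0 < su m) (hW : 𝔓.Wf)
    (wf : C.Wf) (hc : C.col = (𝔓.ty m z t).col) (ce : C.e = pvkjBig ((𝔓.ty m z t).reg 𝔓.mod.N z (pvlmH m)))
    (ce' : C.e' = pvkjKit ((𝔤.toPvkdPlug.sc (su m)).pg (pvydWu 𝔓 m z t) 1)) (hms : C.ms = 𝔟.ms) (cut : C.Kc = 𝔟.KE \ (C.e.I ∪ C.e'.I)) :
    ∀ᶠ ε in 𝓝[>] (0 : ℝ), Pvn2Rec ε (𝔶.lb 𝔓 (𝔓.ty m z t).col m z t) (𝔶.wb m z t).M (pvydG 𝔓 m ε z t) (𝔶.GU 𝔓 (𝔓.ty m z t).col m ε z t) C 𝔟.KE := by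
  filter_upwards [pvyh_at_GU h hG hE hZ H hs 𝔓 (𝔓.ty m z t).col false z t (KE := fun _ => 𝔟.KE) (fun _ => T.b.dvt), self_mem_nhdsWithin] with ε a2 a3
  rw [T.lb_eq, T.wb]
  refine PvvwLa.Ok.toRec (V := pvvwVm 𝔓 m z t) (V' := pvvwVk (𝔤.toPvkdPlug.sc (su m)) (pvydWu 𝔓 m z t) 1 false) (n := nu) ?_ wf hc.symm hms cut ?_ ?_
  · rw [ce, ce']; exact T.b
  · rw [ce, hc]; exact pvvw_at_p (hW.ty_wf m z t) a3 T.b.dvs
  · rw [ce', hc]; exact a2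

/-- **`Dr` of `PvucSup`** (reference frame, black) -/
theorem PvvwR.Dr (R : PvvwR 𝔓 𝔶 (𝔤.toPvkdPlug.sc (δ m)) (𝔤.toPvkdPlug.sc (su m)) n m 𝔯) (h : PvkuOk (𝔤.glob (pvhfH 𝔤.toPvkdPlug 𝔱)) b q β' CB r) (hG : PvhfGeo 𝔤.toPvkdPlug 𝔱) (hE : 𝔤.Ew ⊆ 𝔤.O₀)
    (hZ : Disjoint 𝔤.Zm 𝔤.Zp) (H : PvyhIs 𝔶 𝔤 𝔱 b q δ su) (hδ : 0 < δ m) (hs : 0 < su m) (d4 : (𝔓.Γ m).din0 ^ 4 = 1)
    (hcr : ∀ ε, (𝔶.eD true m ε true (𝔓.Γ m).pin0 (𝔓.Γ m).din0).c = true)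
    (wf : C.Wf) (hc : C.col = true) (ce : C.e = pvkjKit ((𝔤.toPvkdPlug.sc (δ m)).pg (𝔓.Γ m).pin0 (𝔓.Γ m).din0))
    (ce' : C.e' = pvkjKit ((𝔤.toPvkdPlug.sc (su m)).pg 0 1)) (hms : C.ms = 𝔯.ms) (cut : C.Kc = 𝔯.KE \ (C.e.I ∪ C.e'.I)) :
    ∀ᶠ ε in 𝓝[>] (0 : ℝ), Pvn2Rec ε (𝔶.lr 𝔓 m ε) (𝔶.wr m).M ((𝔶.kit m ε).G (𝔓.Γ m).pin0 (𝔓.Γ m).din0) (𝔶.Gu m ε) C 𝔯.KE := by
  obtain ⟨_, h0⟩ := R.r.exists
  filter_upwards [R.r, pvyh_at_D0 h hG hE hZ H hδ true (𝔓.Γ m).pin0 d4 (KE := fun _ => 𝔯.KE) (fun _ => h0.dvs),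
    pvyh_at_U0 h hG hE hZ H hs false (KE := fun _ => 𝔯.KE) (fun _ => h0.dvt)] with ε a1 a2 a3
  rw [R.lr_eq, R.wr]
  refine PvvwLa.Ok.toRec (V := pvvwVk (𝔤.toPvkdPlug.sc (δ m)) (𝔓.Γ m).pin0 (𝔓.Γ m).din0 true) (V' := pvvwVk (𝔤.toPvkdPlug.sc (su m)) 0 1 false) (n := n) ?_ wf ?_ hms cut ?_ ?_
  · rw [ce, ce']; exact a1
  · rw [hc]; exact hcr ε
  · rw [ce, hc]; exact a2
  · rw [ce', hc]; exact a3

end det

end cand

/-! ## 5. the zones of the plugs lie deep in the windows of the ends (`zc`, `far`) -/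

section zones

/-- the core of a window under a similarity -/
theorem pvvw_at_core {a : ℂ} (ha : a ≠ 0) (z : ℂ) (r : ℝ) (E : Set ℂ) : pvkdAt z a (pvtrCore r E) ⊆ pvtrCore (‖a‖ * r) (pvkdAt z a E) := by
  rintro _ ⟨u, hu, rfl⟩ y hy
  refine ⟨(y - z) / a, hu ?_, ?_⟩
  · rw [mem_closedBall, dist_eq_norm] at hy ⊢
    have e : (y - z) / a - u = (y - pvthSim z a u) / a := by
      unfold pvthSim
      field_simp
      ring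
    rw [e, norm_div, div_le_iff₀ (norm_pos_iff.2 ha)]
    linarith
  · unfold pvthSim
    field_simp
    ring

/-- **`zc` AT A BIG PLUG**: the ball `S₂` lies `3 μ h`-deep in the state region, hence in the two windows -/
theorem pvvw_zc_O {N : PvspNum} {t : PvspTy} {z : ℂ} {h : ℝ} (hW : t.Wf N z h) : closedBall z ((t.b N 1 + 1) * h) ⊆ pvtrCore (3 * (N.mu * h)) (pvspO N t z h) := by
  intro x hx y hy
  rw [mem_closedBall] at hx hy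
  unfold pvspO
  rw [mem_closedBall]
  have h1 := dist_triangle y x z
  have h2 := mul_le_mul_of_nonneg_right hW.rO hW.h0.le
  nlinarith

theorem pvvw_zc_p {N : PvspNum} {t : PvspTy} {z : ℂ} {h : ℝ} (hW : t.Wf N z h) : closedBall z ((t.b N 1 + 1) * h) ⊆ pvtrCore (3 * (N.mu * h)) t.Ep :=
  (pvvw_zc_O hW).trans (pvtr_core_mono hW.O_p)

theorem pvvw_zc_m {N : PvspNum} {t : PvspTy} {z : ℂ} {h : ℝ} (hW : t.Wf N z h) : closedBall z ((t.b N 1 + 1) * h) ⊆ pvtrCore (3 * (N.mu * h)) t.Em :=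
  (pvvw_zc_O hW).trans (pvtr_core_mono hW.O_m)

/-- the unit zone of the plug of record lies `3ρ`-deep in the open door square -/
theorem pvvw_zc_unit {u : ℂ} (h1 : |u.re| ≤ 1 / 20) (h2 : |u.im| ≤ 1 / 20) : u ∈ pvtrCore (3 * (1 / 640)) pvkgO := by
  intro y hy
  rw [mem_closedBall, dist_eq_norm] at hy
  have a1 := Complex.abs_re_le_norm (y - u)
  have a2 := Complex.abs_im_le_norm (y - u)
  rw [Complex.sub_re] at a1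
  rw [Complex.sub_im] at a2
  rw [abs_le] at h1 h2 a1 a2
  refine ⟨?_, ?_, ?_, ?_⟩ <;> linarith [a1.1, a1.2, a2.1, a2.2, h1.1, h1.2, h2.1, h2.2]

/-- **`zc` AT A KIT PLUG** (doors: `s = δ_m`;   reference plug: `s = su m`, `d = 1`): the zone of 113 lies `3 s ρ`-deep in the placed door square, hence in the window of either side -/
theorem pvvw_zc_kit {s : ℝ} (hs : 0 < s) (z : ℂ) {d : ℂ} (hd : ‖d‖ = 1) {E : Set ℂ} (hE : pvkgO ⊆ E) :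
    pvvwZk (pvkgG.toPvkdPlug.sc s) z d ⊆ pvtrCore (3 * (s * (1 / 640))) (pvkdAt z (d * s) E) := by
  have hds : d * (s : ℂ) ≠ 0 := mul_ne_zero (by rintro rfl; simp at hd) (by exact_mod_cast hs.ne')
  have hn : ‖d * (s : ℂ)‖ = s := by rw [norm_mul, hd, one_mul, Complex.norm_real, Real.norm_eq_abs, abs_of_pos hs]
  have key : ∀ u : ℂ, |u.re| ≤ 1 / 20 → |u.im| ≤ 1 / 20 → pvthSim z (d * s) u ∈ pvtrCore (3 * (s * (1 / 640))) (pvkdAt z (d * s) E) := by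
    intro u h1 h2
    have := pvvw_at_core hds z (3 * (1 / 640)) E ⟨u, pvtr_core_mono hE (pvvw_zc_unit h1 h2), rfl⟩
    rw [hn] at this
    have e : s * (3 * (1 / 640)) = 3 * (s * (1 / 640)) := by ring
    rwa [e] at this
  have ball : ∀ x : ℂ, dist x z < s * (2 * (1 / 40)) → x ∈ pvtrCore (3 * (s * (1 / 640))) (pvkdAt z (d * s) E) := by
    intro x hx
    have hu : ‖(x - z) / (d * s)‖ < 1 / 20 := by
      rw [norm_div, hn, div_lt_iff₀ hs, ← dist_eq_norm]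
      linarith
    have e : x = pvthSim z (d * s) ((x - z) / (d * s)) := by
      unfold pvthSim
      rw [mul_div_cancel₀ _ hds]
      ring
    rw [e]
    exact key _ ((Complex.abs_re_le_norm _).trans hu.le) ((Complex.abs_im_le_norm _).trans hu.le)
  rintro x ((hx | hx) | hx)
  · refine ball x ?_
    have h1 : dist x z < s * (1 / 40) := hx
    nlinarith
  · exact ball x hx
  · obtain ⟨v, ⟨u, hu, rfl⟩, rfl⟩ := hx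
    have hu' : -(2 * (1 / 40)) ≤ u.re ∧ u.re ≤ 2 * (1 / 40) ∧ -(1 / 40 / 2) ≤ u.im ∧ u.im ≤ 1 / 40 / 2 := hu
    have e : pvthSim z d (vorSim (s : ℂ) 0 u) = pvthSim z (d * s) u := by
      simp only [pvthSim, vorSim]
      ring
    rw [e]
    exact key u (abs_le.2 ⟨by linarith [hu'.1], by linarith [hu'.2.1]⟩) (abs_le.2 ⟨by linarith [hu'.2.2.1], by linarith [hu'.2.2.2]⟩)

/-- **`far`**: zones inside the windows of two plugs which are apart -/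
theorem pvvw_far {e e' : PvnkEnd} {Z Z' : Set ℂ} (dj : Disjoint (e.O ∪ e.E) (e'.O ∪ e'.E)) (hZ : Z ⊆ e.E) (hZ' : Z' ⊆ e'.E) : Disjoint Z Z' :=
  dj.mono (hZ.trans subset_union_right) (hZ'.trans subset_union_right)

/-- the clause `zc` of the contract from the two ends, for any list which contains the two windows -/
theorem pvvw_zc {Z Z' : Set ℂ} {ms : List (ℝ × Set ℂ)} {p p' : ℝ × Set ℂ} (mp : p ∈ ms) (mp' : p' ∈ ms) (hZ : Z ⊆ pvtrCore (3 * p.1) p.2) (hZ' : Z' ⊆ pvtrCore (3 * p'.1) p'.2) :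
    ∀ x ∈ Z ∪ Z', ∃ q ∈ ms, x ∈ pvtrCore (3 * q.1) q.2 := by
  rintro x (hx | hx)
  · exact ⟨p, mp, hZ hx⟩
  · exact ⟨p', mp', hZ' hx⟩

end zones

end Claimed.Agent.R289
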