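-- KEEP
import Claimed.Agent.R289.Exit.RestP
import Claimed.Agent.R289.Exit.AccP
import Claimed.Agent.R289.Exit.GeoKitP
import Claimed.Agent.R289.Exit.NumI
import Claimed.Agent.R289.Exit.NumK
import Claimed.Agent.R289.Tr.SideOpen
import Claimed.Agent.R289.Exit.CutVT
import Claimed.Agent.R289.Exit.GeoWP
import Claimed.Agent.R289.Exit.GeoKitD

/-!
# Row 289 (S0537), THE WALL, ROAD P, Exit/GeoP : THE CUT OF THE ROOF GEO (`exit_pvrs_geo` of 79, `Exit/TopP.lean`) AT THE EXPLICIT TERM `(Γ, m0, 𝔶)`      (pen helper36, post P14 of 273; seconds 58 270; arbiter of the geometry 205, architect of the links 164; prefix `pveq_`, `pveq`, `Pveq`, `exit_pveq_`)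

THE TERM OF RECORD.
* `Γ := pvmaGam H.ok c` (8 `Exit/AccP.lean` = `pvlzGam` of 114 `Tr/LinkGam.lean` at the model);   doors = `pvma_doors`.
* THE UNIT DATUM `pvyeV pvkgG pvk2T b q` (291 `Tr/KitEnd.lean` sec. 7: kit of 34 at the side events `pvhfH pvkgG.toPvkdPlug pvk2T` of 174 / 52, ends `pvyeE0`, zones `pvk2T.Ln`);
      `b q` = THE THRESHOLDS OF (NUM): `pveq_num := pvnn_ok (pvdk_in pveq_side)` (10 258 125: CLOSED).
      **WHY `pvk2T` (125 `Tr/SideOpen.lean`: OPEN windows `pvkgEp pvkgEm` of 258) AND NOT THE TRUNCATION `pvjoT` AT `1/40`**: the windows of `pvjoT` contain the CLOSED door square, the state region `pvkgO` is the OPEN square, so the edges of the square of `u` would lie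
      in `K_b ∩ K_e` and in `K_r ∩ K_e`, those of the first / last door in `K_o ∩ K_cell`, `K_cell ∩ K_r`: `dj1 dj2` (`PvydDj.dKK`, literal disjointness) WOULD BE FALSE.      At `pvk2T`: `E^σ \ O₀ ⊆` the half open box on the side `σ` (`pvk2_Es_sub`).
      ROOMS AND TARGETS DO NOT MOVE (`pvk2_Ln pvk2_Dr : rfl`): a `Geo` typed at the ends of `pvjoT` passes to the ends of record by `pveq_geo_le` + `pveq_le_end`.
* `𝔶 := pveqY b q δ su Λ` :   the SIX equations `PvyhIs` of 291 (`Exit/GeoKitP.lean`) hold BY `rfl` (`pveq_is`);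
      door plugs at the scale `δ m = pveqDel c 𝔤 m = (Γ m).δ`,   **REFERENCE PLUG AT THE SCALE `su m = pveqSu 𝔤 m = 40 dl h_m`** (P16 of 273, design of 164: `r = 1/40` of the unit cell = ONE MENU CELL),
      `Λ : PveqLk τ` = THE FREE DATA OF THE LINKS: five families of abstract link data `PvvwLa = (w, KE, ms)` of 270 (`w : PvydWalk`: `δ L₁ L₂ K₁ K₂ Et M`), bounds of the lengths `n nu`, forcing constants, five masses.
PROVED HERE (glue): `pveq_num`, `pveq_is`, `pveq_d4`, `pveq_rest`, `pveq_cand`, `exit_pveq_cutV` (263), **`pveq_geo_of` : THE FOUR SUB-ROOFS AS STATEMENTS `PveqFunSt PveqThkSt PveqDjSt PveqCloseSt` ⟹ `PvrsGeoSt c 𝔤 H`**  (fields `doors num kit adm` are CLOSED: 8, 291).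
**THE SUB-ROOFS MEET IN `Exit/GeoTP.lean`** (imports this file + the files of the pens, e.g. `Exit/CloseGP.lean` of 263): a proof of a sub-roof goes in ITS OWN FILE which imports `Exit/GeoP.lean`, and is CITED in `Exit/GeoTP.lean`.
SUB-ROOFS (sorried IN `Exit/GeoTP.lean`; EACH AT THE TERM; a sub-roof speaks of the components of `Λ` which it reads, for EVERY value of the others; the ends do not depend on `b q`):
* `exit_pveq_r`      (FUNNEL r)   [294 `Exit/FunRP.lean`; 114]                               `PveqRSt`  : `∃ m1 Lr n`, `PveqRC` : `rr` = THE RECORD `PvvwR` OF 270 (`PvvwLa.Ok` at the ends, zones, far rooms of record, lengths `≤ n m`)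
* `exit_pveq_oi`     (FUNNELS o i)[8 135; dictionary 272 164; gadgets 205 15; `pl` 138]      `PveqOiSt` : `∃ m1 Lo Li n`, `PveqOiC` : `fo` = THE RECORD `PvvwF` OF 270 at the black candidates + `pl`;      `pveq_fun_of : PveqRSt → PveqOiSt → PveqFunSt` (glue)
* `exit_pveq_thick`  (THICK)      [164 190 15 205 203 89]                                    `PveqThkSt`: `∃ m1 Le Lb nu`, `PveqThkC` : `th` = THE RECORD `PvvwT` OF 270 (lengths `≤ nu`, UNIFORM)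
      PROVED FROM THE RECORDS (glue): `PveqFunC.toFun`, `PveqThkC.toThk` (`geo win`), `pveq_candUp : PvndCand`, `pveq_kitUp : PvndKitUp`;   (DET): cite 270 `.Do .Di .De .Db .Dr` at `hF.ok.fo ..`, `hT.ok.th ..`, `hF.ok.rr ..`
* `exit_pveq_dj`     (DJ)     [58 `Exit/DjP.lean`, 138 `Exit/LayP.lean`]                  `PveqFun → PveqThk → dj1 dj2`
* `exit_pveq_close`  (CLOSE)  [58 95 203 113 272 183]                                     given the walks: `∃` forcing constants and masses, `PveqCl` : `q ∈ (0,1]`, masses measurable, `close1 close2`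
* `exit_pveq_cutV`   (CUT-V)  [263 76 206]   **PROVED** (263 14:20Z) from the field `cycV` of `PveqCl` (= `PvvqIn` of 76, `Exit/CutVT.lean`: `PvucCyc2` of 95 + six region lines on the mask `M_e`)
CUTTER OF THE GEOMETRIC HALF = 270 (`Exit/GeoWP.lean`).
P10: every clause on a candidate `(p, t)` is asked for BLACK types only (`((pveqP c H m0).ty m z t).col = true`).
PROTOCOL. (i) A consumer which needs one more fact on the walks (regions of the windows, `Rooms`, lengths, `PvnhOff`, limits, `PvnlLay`, `PvkjCyc`, `PvytPl` ..) adds a FIELD to `PveqFun` / `PveqThk` IN PLACE (+ its line in `.mono`; one line to 36 + the pen of the walks).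
(ii) Whoever adds a field to `PvrsGeoOk` (`Exit/RestP.lean`) adds in the SAME commit a field to the record of this file which owes it and its line in `pveq_geo`.
(iii) `m1` = first level of a sub-roof;   `m0 :=` the max.      The parameter `pvrzPar .. m0` enters the data only through `mod ty Γ`: every sub-roof is stated FOR ALL `m0`.
-/

set_option autoImplicit false
set_option linter.unusedSectionVars false
set_option linter.unusedVariables false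

namespace Claimed.Agent.R289

open MeasureTheory Filter Topology Set Metric Claims.C0465
open scoped ENNReal

/-! ## 1. the unit datum: (NUM) -/

/-- **(SIDE) AT THE OPEN WINDOWS**      [125 `Tr/SideOpen.lean` `pvk2_side`, 10 `Exit/NumK.lean` `pvwy_lay_ok`: CLOSED] -/
theorem pveq_side : PvdkSide (pvhfH pvkgG.toPvkdPlug pvk2T) := by
  obtain ⟨h1, h2, h3⟩ := pvk2_side pvwy_lay_ok (fun _ => rfl)
  exact ⟨h1, h2, h3⟩

/-- **(NUM) AT THE SIDE EVENTS OF RECORD**      [10 `Exit/NumK.lean` `pvdk_in`, 258 `Exit/NumI.lean` `pvnn_ok`: CLOSED] -/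
theorem pveq_num : ∃ (b q β' : ℝ≥0∞) (CB : ℝ), PvkuOk (pvkgG.glob (pvhfH pvkgG.toPvkdPlug pvk2T)) b q β' CB (13 / 160) := pvnn_ok (pvdk_in pveq_side)

/-! ## 2. `Γ`, the two scales -/

section gam

variable {𝔤 : PvmhNum}

/-- the fine cells of level `m` -/
noncomputable def pveqDel (c : ℝ) (𝔤 : PvmhNum) (m : ℕ) : ℝ := (pvrsNum 𝔤).dc c m / (2 * ((pvrsNum 𝔤).mm : ℝ) + 1)

/-- **the scale of the reference plug**: the unit `1/40` of the kit plug is ONE menu cell `dl h_m`      [164, P16 of 273] -/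
noncomputable def pveqSu (𝔤 : PvmhNum) (m : ℕ) : ℝ := 40 * 𝔤.dl * pvlmH m

theorem pveq_eqns_cite : True := by
  have := @pveqDel.eq_1; have := @pveqSu.eq_1
  trivial

theorem pveq_gam_del (c : ℝ) (H : PvrzGood 𝔤) (m : ℕ) : pveqDel c 𝔤 m = (pvmaGam H.ok c m).δ := rfl

theorem pveq_del_pos (c : ℝ) (H : PvrzGood 𝔤) (m : ℕ) : 0 < pveqDel c 𝔤 m := by
  have h1 := pvrc_dc_pos (pvrs_rel H.ok).ok c m
  have h2 : (0 : ℝ) < 2 * ((pvrsNum 𝔤).mm : ℝ) + 1 := by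
    show (0 : ℝ) < 2 * ((10 : ℤ) : ℝ) + 1
    norm_num
  exact div_pos h1 h2

theorem pveq_su_pos (H : PvrzGood 𝔤) (m : ℕ) : 0 < pveqSu 𝔤 m := by
  have := H.ok.dl0
  have := pvlm_H_pos m
  unfold pveqSu
  positivity

theorem pveq_dir_pow {d : ℤ × ℤ} (h : PvfjDir d) : pvtZ d ^ 4 = 1 := by
  rcases h with rfl | rfl | rfl | rfl
  · simp [pvtZ]
  · simp only [pvtZ]
    push_cast
    ring
  · simp [pvtZ, Complex.I_pow_four]
  · simp only [pvtZ]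
    push_cast
    have : (0 + -1 * Complex.I : ℂ) ^ 4 = Complex.I ^ 4 := by ring
    rw [this, Complex.I_pow_four]

/-- **fields `d4o d4i`** -/
theorem pveq_d4 (c : ℝ) (H : PvrzGood 𝔤) (m : ℕ) (t : PvmhT 𝔤) : (pvmaGam H.ok c m).dout t ^ 4 = 1 ∧ (pvmaGam H.ok c m).din t ^ 4 = 1 := by
  have hW := pvrs_PL_wf H.ok
  have h1 : (pvmaGam H.ok c m).dout t = pvtZ ((pvrsPL 𝔤).dp t) := rfl
  have h2 : (pvmaGam H.ok c m).din t = - pvtZ ((pvrsPL 𝔤).dm t) := rfl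
  rw [h1, h2]
  refine ⟨pveq_dir_pow (hW.dp_dir t), ?_⟩
  rw [show (- pvtZ ((pvrsPL 𝔤).dm t)) ^ 4 = pvtZ ((pvrsPL 𝔤).dm t) ^ 4 by ring]
  exact pveq_dir_pow (hW.dm_dir t)

end gam

/-! ## 3. the term -/

/-- **THE FREE DATA OF THE LINKS**      (plumbing rule of 270: per link THE ABSTRACT DATA `PvvwLa = (w : PvydWalk, KE, ms)` of `Exit/GeoWP.lean`: `w` = THE WALK OF RECORD, `KE` = THE ROOM OF (DET), `ms` = the list of meshes of the connector;   cell data `PvvwLd` of 272 enter by `PvvwLd.toLa`, `PvvwLd.Ok.toLa`) -/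
structure PveqLk (τ : Type) where
  /-- data of the funnels `o : t → door`, `i : door → t`   [8 135] -/
  Lo : ℕ → ℂ → τ → PvvwLa
  Li : ℕ → ℂ → τ → PvvwLa
  /-- data of the thick links `e : u → t`, `b : t → u`   [164 190] -/
  Le : ℕ → ℂ → τ → PvvwLa
  Lb : ℕ → ℂ → τ → PvvwLa
  /-- data of the funnel `r : door → u`, REFERENCE FRAME   [294 114] -/
  Lr : ℕ → PvvwLa
  /-- bound of the lengths of the walks of the three funnels of level `m` -/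
  n : ℕ → ℕ
  /-- bound of the lengths of the walks of the thick links: A NUMBER OF THE MENU -/
  nu : ℕ
  /-- the forcing constants   [272: `pvndQ`] -/
  qo : ℕ → ℝ≥0∞
  qi : ℕ → ℝ≥0∞
  qr : ℕ → ℝ≥0∞
  qe : ℝ≥0∞
  qb : ℝ≥0∞
  /-- the masses   [113: `pvkjX`, GUARDED (89): `{η | C.Gd η}.indicator (pvkjX C)`] -/
  Xo : ℕ → ℂ → τ → Conf PvPt → ℂ
  Xi : ℕ → ℂ → τ → Conf PvPt → ℂ
  Xe : ℕ → ℂ → τ → Conf PvPt → ℂ
  Xb : ℕ → ℂ → τ → Conf PvPt → ℂ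
  Xr : ℕ → Conf PvPt → ℂ

/-- **THE WALKS OF RECORD** -/
noncomputable def PveqLk.wo {τ : Type} (Λ : PveqLk τ) (m : ℕ) (z : ℂ) (t : τ) : PvydWalk := (Λ.Lo m z t).w
noncomputable def PveqLk.wi {τ : Type} (Λ : PveqLk τ) (m : ℕ) (z : ℂ) (t : τ) : PvydWalk := (Λ.Li m z t).w
noncomputable def PveqLk.we {τ : Type} (Λ : PveqLk τ) (m : ℕ) (z : ℂ) (t : τ) : PvydWalk := (Λ.Le m z t).w
noncomputable def PveqLk.wb {τ : Type} (Λ : PveqLk τ) (m : ℕ) (z : ℂ) (t : τ) : PvydWalk := (Λ.Lb m z t).w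
noncomputable def PveqLk.wr {τ : Type} (Λ : PveqLk τ) (m : ℕ) : PvydWalk := (Λ.Lr m).w

/-- the same data of the links, the same bounds of the lengths -/
def PveqLk.Same {τ : Type} (Λ Λ' : PveqLk τ) : Prop := Λ'.Lo = Λ.Lo ∧ Λ'.Li = Λ.Li ∧ Λ'.Le = Λ.Le ∧ Λ'.Lb = Λ.Lb ∧ Λ'.Lr = Λ.Lr ∧ Λ'.n = Λ.n ∧ Λ'.nu = Λ.nu

/-- **THE DATA OF RECORD OF THE SECTORS OF ROAD P** -/
noncomputable def pveqY {τ : Type} (b q : ℝ≥0∞) (δ su : ℕ → ℝ) (Λ : PveqLk τ) : PvydGeo τ where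
  kit m ε := ((pvyeV pvkgG pvk2T b q).kit (ε / δ m)).sc (δ m)
  X₀ m ε := pvthX ((pvkgG.glob (pvhfH pvkgG.toPvkdPlug pvk2T)).fQ (pvP (ε / δ m))) 0 (δ m)
  Ou m := pvthSim 0 (su m) '' (pvyeV pvkgG pvk2T b q).O₀
  Gu m ε := ((pvyeV pvkgG pvk2T b q).kit (ε / su m)).G 0 (su m)
  en m c σ z d := pvyeEnd ((pvyeV pvkgG pvk2T b q).sd σ) c z (d * δ m)
  eu m c σ w := pvyeEnd ((pvyeV pvkgG pvk2T b q).sd σ) c w (su m)
  wo := Λ.wo
  wi := Λ.wi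
  we := Λ.we
  wb := Λ.wb
  wr := Λ.wr
  qo := Λ.qo
  qi := Λ.qi
  qr := Λ.qr
  qe := Λ.qe
  qb := Λ.qb
  Xo := Λ.Xo
  Xi := Λ.Xi
  Xe := Λ.Xe
  Xb := Λ.Xb
  Xr := Λ.Xr

theorem pveq_eqns_cite2 : True := by
  have := @PveqLk.Same.eq_1; have := @pveqY.eq_1; have := @PveqLk.wo.eq_1; have := @PveqLk.wi.eq_1; have := @PveqLk.we.eq_1; have := @PveqLk.wb.eq_1; have := @PveqLk.wr.eq_1
  trivial

/-- **the six equations of 291** -/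
theorem pveq_is {τ : Type} (b q : ℝ≥0∞) (δ su : ℕ → ℝ) (Λ : PveqLk τ) : PvyhIs (pveqY b q δ su Λ) pvkgG pvk2T b q δ su :=
  ⟨⟨fun _ _ => rfl, fun _ => rfl, fun _ _ => rfl, fun _ _ _ _ _ => rfl, fun _ _ _ _ => rfl⟩, fun _ _ => rfl⟩

/-- the ends of the door plugs, in the words of 164 / 291 -/
theorem pveq_en {τ : Type} (b q : ℝ≥0∞) (δ su : ℕ → ℝ) (Λ : PveqLk τ) (m : ℕ) (col σ : Bool) (z d : ℂ) :
    (pveqY b q δ su Λ).en m col σ z d = pvyeEnd (pvyeE0 pvkgG.toPvkdPlug pvk2T pvkgG.O₀ σ) col z (d * δ m) := by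
  show pvyeEnd ((pvyeV pvkgG pvk2T b q).sd σ) col z (d * δ m) = _
  rw [pvye_V_sd]

/-- the ends of the reference plug, in the words of 164 / 291 -/
theorem pveq_eu {τ : Type} (b q : ℝ≥0∞) (δ su : ℕ → ℝ) (Λ : PveqLk τ) (m : ℕ) (col σ : Bool) (w : ℂ) :
    (pveqY b q δ su Λ).eu m col σ w = pvyeEnd (pvyeE0 pvkgG.toPvkdPlug pvk2T pvkgG.O₀ σ) col w (su m) := by
  show pvyeEnd ((pvyeV pvkgG pvk2T b q).sd σ) col w (su m) = _
  rw [pvye_V_sd]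

/-- `f` is the end `e` with a smaller window (and another side event) -/
structure PveqLe (e f : PvnkEnd) : Prop where
  O : f.O = e.O
  E : f.E ⊆ e.E
  c : f.c = e.c
  A₁ : f.A₁ = e.A₁
  A₂ : f.A₂ = e.A₂
  X₁ : f.X₁ = e.X₁
  X₂ : f.X₂ = e.X₂
  Y₁ : f.Y₁ = e.Y₁
  Y₂ : f.Y₂ = e.Y₂

theorem PveqLe.refl (e : PvnkEnd) : PveqLe e e := ⟨rfl, Subset.rfl, rfl, rfl, rfl, rfl, rfl, rfl, rfl⟩

/-- **the ends of record are the ends of `pvjoT` at `1/40` with smaller windows** -/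
theorem pveq_le_end (σ col : Bool) (z a : ℂ) (O' : Set ℂ) :
    PveqLe (pvydEnd (pvyeEnd (pvyeE0 pvkgG.toPvkdPlug (pvjoT (1 / 40)) pvkgG.O₀ σ) col z a) O') (pvydEnd (pvyeEnd (pvyeE0 pvkgG.toPvkdPlug pvk2T pvkgG.O₀ σ) col z a) O') :=
  ⟨rfl, image_mono (pvk2_Es_jo σ), rfl, rfl, rfl, rfl, rfl, rfl, rfl⟩

/-- **`Geo` sees the windows of the two ends through `dj` only** -/
theorem pveq_geo_le {w : PvydWalk} {e e' f f' : PvnkEnd} (h : PveqLe e f) (h' : PveqLe e' f') (hG : (w.lk e e').Geo) : (w.lk f f').Geo where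
  col := by
    show f'.c = f.c
    rw [h.c, h'.c]
    exact hG.col
  dj := by
    show Disjoint (f.O ∪ f.E) (f'.O ∪ f'.E)
    rw [h.O, h'.O]
    exact hG.dj.mono (union_subset_union_right _ h.E) (union_subset_union_right _ h'.E)
  δ_pos := hG.δ_pos
  ne₁ := hG.ne₁
  ne₂ := hG.ne₂
  ch₁ := hG.ch₁
  ch₂ := hG.ch₂
  full₁ := hG.full₁
  full₂ := hG.full₂
  djK := hG.djK
  w₁ := hG.w₁
  w₂ := hG.w₂
  off₁ := by
    show Disjoint (pvlnW w.δ w.L₁) (f.O ∪ f'.O)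
    rw [h.O, h'.O]
    exact hG.off₁
  off₂ := by
    show Disjoint (pvlnW w.δ w.L₂) (f.O ∪ f'.O)
    rw [h.O, h'.O]
    exact hG.off₂
  z₁ := by
    show PvfpZone w.δ {k | k ∈ w.L₁} f.A₁ f.X₁ f.Y₁
    rw [h.A₁, h.X₁, h.Y₁]
    exact hG.z₁
  z₁' := by
    show PvfpZone w.δ {k | k ∈ w.L₁} f'.A₁ f'.X₁ f'.Y₁
    rw [h'.A₁, h'.X₁, h'.Y₁]
    exact hG.z₁'
  z₂ := by
    show PvfpZone w.δ {k | k ∈ w.L₂} f.A₂ f.X₂ f.Y₂
    rw [h.A₂, h.X₂, h.Y₂]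
    exact hG.z₂
  z₂' := by
    show PvfpZone w.δ {k | k ∈ w.L₂} f'.A₂ f'.X₂ f'.Y₂
    rw [h'.A₂, h'.X₂, h'.Y₂]
    exact hG.z₂'

/-- **the window of an end of record**: the placed OPEN window of 258 -/
theorem pveq_end_E (σ col : Bool) (z a : ℂ) : (pvyeEnd (pvyeE0 pvkgG.toPvkdPlug pvk2T pvkgG.O₀ σ) col z a).E = pvkdAt z a (pvk2Es σ) := rfl

section term

variable {𝔤 : PvmhNum} (c : ℝ) (H : PvrzGood 𝔤) (b q : ℝ≥0∞)

/-- **THE PARAMETER AT `Γ` OF RECORD** -/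
noncomputable abbrev pveqP (m0 : ℕ) : PvrxPar (PvmhT 𝔤) c := pvrzPar c 𝔤 H (pvmaGam H.ok c) m0

/-- **THE DATA AT THE SCALES OF RECORD** -/
noncomputable abbrev pveqT (Λ : PveqLk (PvmhT 𝔤)) : PvydGeo (PvmhT 𝔤) := pveqY b q (pveqDel c 𝔤) (pveqSu 𝔤) Λ

/-- the door plug of level `m`, the reference plug of level `m` (scaled unit plug) -/
noncomputable abbrev pveqPd (c : ℝ) (𝔤 : PvmhNum) (m : ℕ) : PvkdPlug := pvkgG.toPvkdPlug.sc (pveqDel c 𝔤 m)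
noncomputable abbrev pveqPu (𝔤 : PvmhNum) (m : ℕ) : PvkdPlug := pvkgG.toPvkdPlug.sc (pveqSu 𝔤 m)

/-- **THE CONTRACT OF THE FUNNEL `r`** from the level `m1` on = the record `PvvwR` of 270 (`Exit/GeoWP.lean`) AT THE TERM      [294 `Exit/FunRP.lean`, 114 `Tr/LinkFunR.lean`] -/
structure PveqRC (m1 : ℕ) (Λ : PveqLk (PvmhT 𝔤)) (n : ℕ → ℕ) : Prop where
  rr : ∀ m0 m, m1 ≤ m → PvvwR (pveqP c H m0) (pveqT c b q Λ) (pveqPd c 𝔤 m) (pveqPu 𝔤 m) (n m) m (Λ.Lr m)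

/-- **THE CONTRACT OF THE TWO FUNNELS `o i`** from the level `m1` on = the record `PvvwF` of 270 AT THE TERM, at the BLACK candidates of the grid, + `pl`      [8 135 169 138]      (GROWS IN PLACE) -/
structure PveqOiC (m1 : ℕ) (Λ : PveqLk (PvmhT 𝔤)) (n : ℕ → ℕ) : Prop where
  fo : ∀ m0 m, m1 ≤ m → ∀ (p : ℤ × ℤ) (t : PvmhT 𝔤), ((pveqP c H m0).ty m (l9Pt (pvlmH m) p) t).col = true →
    PvvwF (pveqP c H m0) (pveqT c b q Λ) (pveqPd c 𝔤 m) (n m) m (l9Pt (pvlmH m) p) t (Λ.Lo m (l9Pt (pvlmH m) p) t) (Λ.Li m (l9Pt (pvlmH m) p) t)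
  /-- field `pl` of `PvrsGeoOk` (286; debt 3 of 183, PLANAR): the state ball and the two funnels `o i` of a black candidate with centre = the coarse cell `a` of 138 on the grid `h ℤ²` live in the closed fine cells of the body `D_{mm+9}(B)`;   `r` = the reference square of the scaled unit kit      [138 P14: `pvyl_pl_model` of `Exit/LayP.lean` = `pl` from SIX inclusions of the walks] -/
  pl : ∀ m0 m, m1 ≤ m → ∀ (a : ℤ × ℤ) (t : PvmhT 𝔤), (∃ p : ℤ × ℤ, pvmgPt ((pvrsNum 𝔤).dc c m) a = l9Pt (pvlmH m) p) → ((pveqP c H m0).ty m (pvmgPt ((pvrsNum 𝔤).dc c m) a) t).col = true →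
    ∀ᶠ ε in 𝓝[>] (0 : ℝ), PvytPl (pveqP c H m0) (pveqT c b q Λ) (pvrcPL c (pvrsPL 𝔤) m) (pvrsNum 𝔤).mm ((pvrsNum 𝔤).dc c m) true m ε (pveqDel c 𝔤 m * (13 / 160)) a t
  /-- field `sd` of `PvrsGeoOk` (286; P25 of 273: SIDES): `K_o` over the HULL of the 8-tube of the exit half of the type, `K_i` over the hull of the 8-tube of the entrance half      [135 8 (`o`), 20 (`i`), 169] -/
  sd : ∀ m0 m, m1 ≤ m → ∀ (p : ℤ × ℤ) (t : PvmhT 𝔤), ((pveqP c H m0).ty m (l9Pt (pvlmH m) p) t).col = true → ∀ᶠ ε in 𝓝[>] (0 : ℝ),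
    pvnhKp ((pveqT c b q Λ).lo (pveqP c H m0) true m ε (l9Pt (pvlmH m) p) t) (Λ.wo m (l9Pt (pvlmH m) p) t).Et ⊆ pvmgPl (l9Pt (pvlmH m) p) (𝔤.dl * pvlmH m) (pvtHull (pvtwN 8 (pvmnCells t.typ 5 9))) ∧
    pvnhKp ((pveqT c b q Λ).li (pveqP c H m0) true m ε (l9Pt (pvlmH m) p) t) (Λ.wi m (l9Pt (pvlmH m) p) t).Et ⊆ pvmgPl (l9Pt (pvlmH m) p) (𝔤.dl * pvlmH m) (pvtHull (pvtwN 8 (pvmnCells t.typ 0 4)))

/-- **THE CONTRACT OF THE THREE FUNNELS** -/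
structure PveqFunC (m1 : ℕ) (Λ : PveqLk (PvmhT 𝔤)) : Prop extends PveqRC c H b q m1 Λ Λ.n, PveqOiC c H b q m1 Λ Λ.n

/-- **THE CONTRACT OF THE TWO THICK LINKS** from the level `m1` on = the record `PvvwT` of 270 AT THE TERM;   lengths `≤ Λ.nu`, UNIFORM      [164 190]      (GROWS IN PLACE) -/
structure PveqThkC (m1 : ℕ) (Λ : PveqLk (PvmhT 𝔤)) : Prop where
  th : ∀ m0 m, m1 ≤ m → ∀ (p : ℤ × ℤ) (t : PvmhT 𝔤), ((pveqP c H m0).ty m (l9Pt (pvlmH m) p) t).col = true →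
    PvvwT (pveqP c H m0) (pveqT c b q Λ) (pveqPu 𝔤 m) Λ.nu m (l9Pt (pvlmH m) p) t (Λ.Le m (l9Pt (pvlmH m) p) t) (Λ.Lb m (l9Pt (pvlmH m) p) t)

/-- **THE THREE FUNNELS, IN THE WORDS OF THE CONSUMERS** from the level `m1` on: `ok` = the cell contract, the other fields FOLLOW (`PveqFunC.toFun`: theorems of 272 270) -/
structure PveqFun (m1 : ℕ) (Λ : PveqLk (PvmhT 𝔤)) : Prop where
  ok : PveqFunC c H b q m1 Λ
  r_geo : ∀ m0 m, m1 ≤ m → ∀ᶠ ε in 𝓝[>] (0 : ℝ), ((pveqT c b q Λ).lr (pveqP c H m0) m ε).Geo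
  o_geo : ∀ m0 m, m1 ≤ m → ∀ (p : ℤ × ℤ) (t : PvmhT 𝔤), ((pveqP c H m0).ty m (l9Pt (pvlmH m) p) t).col = true → ∀ᶠ ε in 𝓝[>] (0 : ℝ),
    ((pveqT c b q Λ).lo (pveqP c H m0) ((pveqP c H m0).ty m (l9Pt (pvlmH m) p) t).col m ε (l9Pt (pvlmH m) p) t).Geo
  i_geo : ∀ m0 m, m1 ≤ m → ∀ (p : ℤ × ℤ) (t : PvmhT 𝔤), ((pveqP c H m0).ty m (l9Pt (pvlmH m) p) t).col = true → ∀ᶠ ε in 𝓝[>] (0 : ℝ),
    ((pveqT c b q Λ).li (pveqP c H m0) ((pveqP c H m0).ty m (l9Pt (pvlmH m) p) t).col m ε (l9Pt (pvlmH m) p) t).Geo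
  r_win : ∀ m, m1 ≤ m → PvnhWin (Λ.wr m).Et (Λ.wr m).M
  o_win : ∀ m0 m, m1 ≤ m → ∀ (p : ℤ × ℤ) (t : PvmhT 𝔤), ((pveqP c H m0).ty m (l9Pt (pvlmH m) p) t).col = true → PvnhWin (Λ.wo m (l9Pt (pvlmH m) p) t).Et (Λ.wo m (l9Pt (pvlmH m) p) t).M
  i_win : ∀ m0 m, m1 ≤ m → ∀ (p : ℤ × ℤ) (t : PvmhT 𝔤), ((pveqP c H m0).ty m (l9Pt (pvlmH m) p) t).col = true → PvnhWin (Λ.wi m (l9Pt (pvlmH m) p) t).Et (Λ.wi m (l9Pt (pvlmH m) p) t).M
  /-- field `pl` of `PvrsGeoOk` (286; debt 3 of 183, PLANAR): the state ball and the two funnels `o i` of a black candidate with centre = the coarse cell `a` of 138 on the grid `h ℤ²` live in the closed fine cells of the body `D_{mm+9}(B)`;   `r` = the reference square of the scaled unit kit      [138 P14] -/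
  pl : ∀ m0 m, m1 ≤ m → ∀ (a : ℤ × ℤ) (t : PvmhT 𝔤), (∃ p : ℤ × ℤ, pvmgPt ((pvrsNum 𝔤).dc c m) a = l9Pt (pvlmH m) p) → ((pveqP c H m0).ty m (pvmgPt ((pvrsNum 𝔤).dc c m) a) t).col = true →
    ∀ᶠ ε in 𝓝[>] (0 : ℝ), PvytPl (pveqP c H m0) (pveqT c b q Λ) (pvrcPL c (pvrsPL 𝔤) m) (pvrsNum 𝔤).mm ((pvrsNum 𝔤).dc c m) true m ε (pveqDel c 𝔤 m * (13 / 160)) a t

/-- **THE TWO THICK LINKS, IN THE WORDS OF THE CONSUMERS** from the level `m1` on: `ok` = the cell contract, the other fields FOLLOW (`PveqThkC.toThk`) -/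
structure PveqThk (m1 : ℕ) (Λ : PveqLk (PvmhT 𝔤)) : Prop where
  ok : PveqThkC c H b q m1 Λ
  e_geo : ∀ m0 m, m1 ≤ m → ∀ (p : ℤ × ℤ) (t : PvmhT 𝔤), ((pveqP c H m0).ty m (l9Pt (pvlmH m) p) t).col = true →
    ((pveqT c b q Λ).le (pveqP c H m0) ((pveqP c H m0).ty m (l9Pt (pvlmH m) p) t).col m (l9Pt (pvlmH m) p) t).Geo
  b_geo : ∀ m0 m, m1 ≤ m → ∀ (p : ℤ × ℤ) (t : PvmhT 𝔤), ((pveqP c H m0).ty m (l9Pt (pvlmH m) p) t).col = true →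
    ((pveqT c b q Λ).lb (pveqP c H m0) ((pveqP c H m0).ty m (l9Pt (pvlmH m) p) t).col m (l9Pt (pvlmH m) p) t).Geo
  e_win : ∀ m0 m, m1 ≤ m → ∀ (p : ℤ × ℤ) (t : PvmhT 𝔤), ((pveqP c H m0).ty m (l9Pt (pvlmH m) p) t).col = true → PvnhWin (Λ.we m (l9Pt (pvlmH m) p) t).Et (Λ.we m (l9Pt (pvlmH m) p) t).M
  b_win : ∀ m0 m, m1 ≤ m → ∀ (p : ℤ × ℤ) (t : PvmhT 𝔤), ((pveqP c H m0).ty m (l9Pt (pvlmH m) p) t).col = true → PvnhWin (Λ.wb m (l9Pt (pvlmH m) p) t).Et (Λ.wb m (l9Pt (pvlmH m) p) t).M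

/-- **THE DISJOINTNESS LISTS** from the level `m1` on -/
structure PveqDj (m1 : ℕ) (Λ : PveqLk (PvmhT 𝔤)) : Prop where
  dj1 : ∀ m0 m, m1 ≤ m → ∀ (p : ℤ × ℤ) (t : PvmhT 𝔤), ((pveqP c H m0).ty m (l9Pt (pvlmH m) p) t).col = true → ∀ᶠ ε in 𝓝[>] (0 : ℝ), PvydDj ((((pveqP c H m0).Γ m).l1 t).length + 3) (pvydL1 (pveqP c H m0) (pveqT c b q Λ) m ε (l9Pt (pvlmH m) p) t)
  dj2 : ∀ m0 m, m1 ≤ m → ∀ (p : ℤ × ℤ) (t : PvmhT 𝔤), ((pveqP c H m0).ty m (l9Pt (pvlmH m) p) t).col = true → ∀ᶠ ε in 𝓝[>] (0 : ℝ),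
    PvydDj 2 ((pvydDat (pveqP c H m0) (pveqT c b q Λ) ((pveqP c H m0).ty m (l9Pt (pvlmH m) p) t).col).cyc2 m ε (l9Pt (pvlmH m) p) t)

/-- **FORCING CONSTANTS, MASSES, CLOSE-P** from the level `m1` on -/
structure PveqCl (m1 : ℕ) (Λ : PveqLk (PvmhT 𝔤)) : Prop where
  qo : ∀ m, Λ.qo m ≠ 0 ∧ Λ.qo m ≤ 1
  qi : ∀ m, Λ.qi m ≠ 0 ∧ Λ.qi m ≤ 1
  qr : ∀ m, Λ.qr m ≠ 0 ∧ Λ.qr m ≤ 1
  qe : Λ.qe ≠ 0 ∧ Λ.qe ≤ 1
  qb : Λ.qb ≠ 0 ∧ Λ.qb ≤ 1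
  mXo : ∀ m z t, Measurable (Λ.Xo m z t)
  mXi : ∀ m z t, Measurable (Λ.Xi m z t)
  mXe : ∀ m z t, Measurable (Λ.Xe m z t)
  mXb : ∀ m z t, Measurable (Λ.Xb m z t)
  mXr : ∀ m, Measurable (Λ.Xr m)
  /-- field `l1` of `PvrsGeoOk` (286; debt 2 of 183): the GLOBAL masses of the two funnels are integrable      [183 `Tr/ConnL1.lean`, 113] -/
  l1 : ∀ m0 m, m1 ≤ m → ∀ (p : ℤ × ℤ) (t : PvmhT 𝔤), ((pveqP c H m0).ty m (l9Pt (pvlmH m) p) t).col = true → PvytL1 (pveqP c H m0) (pveqT c b q Λ) m (l9Pt (pvlmH m) p) t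
  close1 : ∀ m0 m, m1 ≤ m → ∀ (p : ℤ × ℤ) (t : PvmhT 𝔤), ((pveqP c H m0).ty m (l9Pt (pvlmH m) p) t).col = true → ∃ (Mk : ℝ → ℕ → Set ℂ) (B : Set ℂ) (a₀ : ℝ),
    PvcpClose1 (pvydDat (pveqP c H m0) (pveqT c b q Λ) ((pveqP c H m0).ty m (l9Pt (pvlmH m) p) t).col) (pveqP c H m0).Γ 0 m (l9Pt (pvlmH m) p) t Mk B a₀
  close2 : ∃ cM : ℝ, ∀ m0 m, m1 ≤ m → ∀ (p : ℤ × ℤ) (t : PvmhT 𝔤), ((pveqP c H m0).ty m (l9Pt (pvlmH m) p) t).col = true → ∃ M : ℝ → Set ℂ,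
    PvcpClose2 (pvydDat (pveqP c H m0) (pveqT c b q Λ) ((pveqP c H m0).ty m (l9Pt (pvlmH m) p) t).col) 0 m (l9Pt (pvlmH m) p) t M cM (pvlmH m)
  /-- **WHAT `cutV` ASKS OF THE SHORT CYCLES** (263 76, `Exit/CutVT.lean`): `PvvqIn` = the facts `PvucCyc2` of 95 (THE INPUT OF `close2`: `pvuc_close2`) + the two ends + the sandwich of the mask `M_e` + `M_e = w + M₀ m` in the room of `u`;   payer `pvvq_in_of_in2` (from `PvucIn2` of 95);   `cM`, `M₀` do not depend on the candidate -/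
  cycV : ∃ (cM : ℝ) (M₀ : ℕ → Set ℂ), (∀ m, MeasurableSet (M₀ m)) ∧ ∀ m0 m, m1 ≤ m → ∀ (p : ℤ × ℤ) (t : PvmhT 𝔤), ((pveqP c H m0).ty m (l9Pt (pvlmH m) p) t).col = true →
    PvvqIn c H (pvmaGam H.ok c) m0 (pveqT c b q Λ) (pvkgG.sc (pveqSu 𝔤 m)).toPvkdPlug (M₀ m) cM m (l9Pt (pvlmH m) p) t

/-- **CUT-V** (field `cutV` of 79 / 263) from the level `m1` on -/
def PveqCutV (m1 : ℕ) (Λ : PveqLk (PvmhT 𝔤)) : Prop :=
  ∃ (f : ℕ → ℝ → Conf PvPt → ℂ) (CBV : ℝ≥0∞), CBV ≠ ∞ ∧ (∀ m, m1 ≤ m → PvvtRef (pveqT c b q Λ) f m) ∧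
    ∀ m0 m, m1 ≤ m → ∀ (p : ℤ × ℤ) (t : PvmhT 𝔤), ((pveqP c H m0).ty m (l9Pt (pvlmH m) p) t).col = true → PvvtBes (pveqP c H m0) (pveqT c b q Λ) f CBV m (l9Pt (pvlmH m) p) t

theorem pveq_eqns_cite3 : True := by
  have := @pveqP.eq_1; have := @pveqT.eq_1; have := @PveqCutV.eq_1; have := @pveqPd.eq_1; have := @pveqPu.eq_1
  trivial

variable {c H b q}

/-- **(FUNNEL `r`), AS A STATEMENT**      [294 `Exit/FunRP.lean`, 114 `Tr/LinkFunR.lean`]      the data do NOT depend on `b q`;   `n m` = bound of the lengths of the two walks of `r` (the term takes the max with the bound of `o i`) -/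
def PveqRSt (c : ℝ) (H : PvrzGood 𝔤) : Prop := ∃ (m1 : ℕ) (Lr : ℕ → PvvwLa) (n : ℕ → ℕ),
    ∀ (b q : ℝ≥0∞) (Λ : PveqLk (PvmhT 𝔤)), Λ.Lr = Lr → PveqRC c H b q m1 Λ n

/-- **(FUNNELS `o i`), AS A STATEMENT**      [8 135 = pens of `Lo Li` (`Tr/LinkGeoF.lean`, `Exit/FunP.lean`);  dictionary 272 `Tr/LinkPoly.lean`, 164 `Tr/LinkDict.lean`, bridge 270 `Exit/GeoWP.lean`;  BIG gadget 205, DOOR gadget 15, hook zones 147, `pl` 138]      the data do NOT depend on `b q` -/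
def PveqOiSt (c : ℝ) (H : PvrzGood 𝔤) : Prop := ∃ (m1 : ℕ) (Lo Li : ℕ → ℂ → PvmhT 𝔤 → PvvwLa) (n : ℕ → ℕ),
    ∀ (b q : ℝ≥0∞) (Λ : PveqLk (PvmhT 𝔤)), Λ.Lo = Lo → Λ.Li = Li → PveqOiC c H b q m1 Λ n

/-- **(FUNNELS), AS A STATEMENT** -/
def PveqFunSt (c : ℝ) (H : PvrzGood 𝔤) : Prop := ∃ (m1 : ℕ) (Lo Li : ℕ → ℂ → PvmhT 𝔤 → PvvwLa) (Lr : ℕ → PvvwLa) (n : ℕ → ℕ),
    ∀ (b q : ℝ≥0∞) (Λ : PveqLk (PvmhT 𝔤)), Λ.Lo = Lo → Λ.Li = Li → Λ.Lr = Lr → Λ.n = n → PveqFunC c H b q m1 Λ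

/-- **(THICK), AS A STATEMENT**      [164 = architect + pen of `Le Lb` (`Tr/LinkGeoT.lean`), 15 205 203 89]      the cells do NOT depend on `b q` -/
def PveqThkSt (c : ℝ) (H : PvrzGood 𝔤) : Prop := ∃ (m1 : ℕ) (Le Lb : ℕ → ℂ → PvmhT 𝔤 → PvvwLa) (nu : ℕ),
    ∀ (b q : ℝ≥0∞) (Λ : PveqLk (PvmhT 𝔤)), Λ.Le = Le → Λ.Lb = Lb → Λ.nu = nu → PveqThkC c H b q m1 Λ

/-- **(DJ), AS A STATEMENT**      [58 `Exit/DjP.lean` (lists ⟸ planar facts), 138 `Exit/LayP.lean` (inclusions in body cells)]      needs region clauses in `PveqFunC`, `PveqThkC`: add them IN PLACE -/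
def PveqDjSt (c : ℝ) (H : PvrzGood 𝔤) : Prop := ∀ (b q : ℝ≥0∞) (m1 : ℕ) (Λ : PveqLk (PvmhT 𝔤)), PveqFun c H b q m1 Λ → PveqThk c H b q m1 Λ → PveqDj c H b q m1 Λ

/-- **(CLOSE), AS A STATEMENT** = forcing constants (`pvndQ` of 272) + GUARDED masses (113 `pvkjX`, 263 `pvg0X`) + CLOSE-P (95 `Exit/CloseTP.lean` `PvucSup`, 203 `Exit/CloseRP.lean`)      [263 `Exit/CloseGP.lean` `pvg0_close`;  95 203 113 272 183]
`W` = the cells;   the three records are given FOR EVERY `Λ` WITH THE CELLS OF `W` -/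
def PveqCloseSt (c : ℝ) (H : PvrzGood 𝔤) : Prop := ∀ (b q β' : ℝ≥0∞) (CB : ℝ), PvkuOk (pvkgG.glob (pvhfH pvkgG.toPvkdPlug pvk2T)) b q β' CB (13 / 160) → ∀ (m1 : ℕ) (W : PveqLk (PvmhT 𝔤)),
    (∀ Λ, W.Same Λ → PveqFun c H b q m1 Λ) → (∀ Λ, W.Same Λ → PveqThk c H b q m1 Λ) → (∀ Λ, W.Same Λ → PveqDj c H b q m1 Λ) → ∃ (m2 : ℕ) (Λ' : PveqLk (PvmhT 𝔤)), W.Same Λ' ∧ PveqCl c H b q m2 Λ'

theorem pveq_eqns_cite4 : True := by
  have := @PveqRSt.eq_1; have := @PveqOiSt.eq_1; have := @PveqFunSt.eq_1; have := @PveqThkSt.eq_1; have := @PveqDjSt.eq_1; have := @PveqCloseSt.eq_1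
  trivial

/-! ## 4. the glue -/

theorem PveqFunC.mono {m1 m2 : ℕ} {Λ : PveqLk (PvmhT 𝔤)} (h : PveqFunC c H b q m1 Λ) (hm : m1 ≤ m2) : PveqFunC c H b q m2 Λ where
  rr m0 m k := h.rr m0 m (hm.trans k)
  fo m0 m k := h.fo m0 m (hm.trans k)
  pl m0 m k := h.pl m0 m (hm.trans k)
  sd m0 m k := h.sd m0 m (hm.trans k)

theorem PveqThkC.mono {m1 m2 : ℕ} {Λ : PveqLk (PvmhT 𝔤)} (h : PveqThkC c H b q m1 Λ) (hm : m1 ≤ m2) : PveqThkC c H b q m2 Λ where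
  th m0 m k := h.th m0 m (hm.trans k)

/-- the bound of the lengths may grow -/
theorem pveq_R_n {τ : Type} {cc : ℝ} {𝔓 : PvrxPar τ cc} {𝔶 : PvydGeo τ} {𝔭 𝔲 : PvkdPlug} {n n' m : ℕ} {𝔯 : PvvwLa} (R : PvvwR 𝔓 𝔶 𝔭 𝔲 n m 𝔯) (hn : n ≤ n') : PvvwR 𝔓 𝔶 𝔭 𝔲 n' m 𝔯 :=
  ⟨R.wr, R.r.mono fun _ h => { h with len := ⟨h.len.1.trans hn, h.len.2.trans hn⟩ }⟩

theorem pveq_F_n {τ : Type} {cc : ℝ} {𝔓 : PvrxPar τ cc} {𝔶 : PvydGeo τ} {𝔭 : PvkdPlug} {n n' m : ℕ} {z : ℂ} {t : τ} {𝔬 𝔦 : PvvwLa} (F : PvvwF 𝔓 𝔶 𝔭 n m z t 𝔬 𝔦) (hn : n ≤ n') : PvvwF 𝔓 𝔶 𝔭 n' m z t 𝔬 𝔦 :=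
  ⟨F.wo, F.wi, F.o.mono fun _ h => { h with len := ⟨h.len.1.trans hn, h.len.2.trans hn⟩ }, F.i.mono fun _ h => { h with len := ⟨h.len.1.trans hn, h.len.2.trans hn⟩ }⟩

/-- **(FUNNELS) FROM (FUNNEL `r`) AND (FUNNELS `o i`)** -/
theorem pveq_fun_of (hr : PveqRSt c H) (ho : PveqOiSt c H) : PveqFunSt c H := by
  obtain ⟨a1, Lr, n1, h1⟩ := hr
  obtain ⟨a2, Lo, Li, n2, h2⟩ := ho
  refine ⟨max a1 a2, Lo, Li, Lr, fun m => max (n1 m) (n2 m), fun b q Λ e1 e2 e3 e4 => ?_⟩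
  exact
    { rr := fun m0 m k => pveq_R_n ((h1 b q Λ e3).rr m0 m ((le_max_left _ _).trans k)) (by rw [e4]; exact le_max_left _ _)
      fo := fun m0 m k p t hb => pveq_F_n ((h2 b q Λ e1 e2).fo m0 m ((le_max_right _ _).trans k) p t hb) (by rw [e4]; exact le_max_right _ _)
      pl := fun m0 m k => (h2 b q Λ e1 e2).pl m0 m ((le_max_right _ _).trans k)
      sd := fun m0 m k => (h2 b q Λ e1 e2).sd m0 m ((le_max_right _ _).trans k) }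

theorem pveq_d40 (c : ℝ) (H : PvrzGood 𝔤) (m : ℕ) : (pvmaGam H.ok c m).din0 ^ 4 = 1 := by
  have h : (pvmaGam H.ok c m).din0 = 1 := pvlz_din0 (pvma_hyp H.ok) c m
  rw [h, one_pow]

/-- **THE RECORDS OF 270 ⟹ THE WORDS OF THE CONSUMERS** (`Exit/GeoWP.lean`) -/
theorem PveqFunC.toFun {m1 : ℕ} {Λ : PveqLk (PvmhT 𝔤)} (h : PveqFunC c H b q m1 Λ) : PveqFun c H b q m1 Λ where
  ok := h
  r_geo m0 m k := (h.rr m0 m k).r_geo
  o_geo m0 m k p t hb := (h.fo m0 m k p t hb).o_geo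
  i_geo m0 m k p t hb := (h.fo m0 m k p t hb).i_geo
  r_win m k := (h.rr 0 m k).r_win
  o_win m0 m k p t hb := (h.fo m0 m k p t hb).o_win
  i_win m0 m k p t hb := (h.fo m0 m k p t hb).i_win
  pl := h.pl

theorem PveqThkC.toThk {m1 : ℕ} {Λ : PveqLk (PvmhT 𝔤)} (h : PveqThkC c H b q m1 Λ) : PveqThk c H b q m1 Λ where
  ok := h
  e_geo m0 m k p t hb := (h.th m0 m k p t hb).e_geo
  b_geo m0 m k p t hb := (h.th m0 m k p t hb).b_geo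
  e_win m0 m k p t hb := (h.th m0 m k p t hb).e_win
  b_win m0 m k p t hb := (h.th m0 m k p t hb).b_win

/-- **CONTRACT 2 OF 272** (`PvndCand`: rooms, lengths, off, limits) at a black candidate -/
theorem pveq_candUp {m1 : ℕ} {Λ : PveqLk (PvmhT 𝔤)} (hF : PveqFunC c H b q m1 Λ) (hT : PveqThkC c H b q m1 Λ) (m0 m : ℕ) (hm : m1 ≤ m) (p : ℤ × ℤ) (t : PvmhT 𝔤)
    (hb : ((pveqP c H m0).ty m (l9Pt (pvlmH m) p) t).col = true) : PvndCand (pveqT c b q Λ) (pveqP c H m0) (Λ.n m) Λ.nu m (l9Pt (pvlmH m) p) t :=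
  pvvw_cand (hF.fo m0 m hm p t hb) (hT.th m0 m hm p t hb)

/-- **CONTRACT 1 OF 272** (`PvndKitUp`) at the level `m`, from the record of `r` and (NUM) -/
theorem pveq_kitUp {β' : ℝ≥0∞} {CB : ℝ} (hN : PvkuOk (pvkgG.glob (pvhfH pvkgG.toPvkdPlug pvk2T)) b q β' CB (13 / 160)) {m1 : ℕ} {Λ : PveqLk (PvmhT 𝔤)} (hF : PveqFunC c H b q m1 Λ) (m0 m : ℕ) (hm : m1 ≤ m) :
    PvndKitUp (pveqT c b q Λ) (pveqP c H m0) m b.toReal b.toReal (Λ.n m) :=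
  pvyh_kitUp hN pvk2_geo pvkgg_ze.EO (pveq_is _ _ _ _ _) (pveqP c H m0) (pveq_del_pos c H m) (pveq_su_pos H m) (pveq_d40 c H m) (hF.rr m0 m hm).r_rooms (hF.rr m0 m hm).r_len (hF.rr m0 m hm).r_off (hF.rr m0 m hm).r_lim

theorem PveqFun.mono {m1 m2 : ℕ} {Λ : PveqLk (PvmhT 𝔤)} (h : PveqFun c H b q m1 Λ) (hm : m1 ≤ m2) : PveqFun c H b q m2 Λ where
  ok := h.ok.mono hm
  r_geo m0 m k := h.r_geo m0 m (hm.trans k)
  o_geo m0 m k := h.o_geo m0 m (hm.trans k)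
  i_geo m0 m k := h.i_geo m0 m (hm.trans k)
  r_win m k := h.r_win m (hm.trans k)
  o_win m0 m k := h.o_win m0 m (hm.trans k)
  i_win m0 m k := h.i_win m0 m (hm.trans k)
  pl m0 m k := h.pl m0 m (hm.trans k)

theorem PveqThk.mono {m1 m2 : ℕ} {Λ : PveqLk (PvmhT 𝔤)} (h : PveqThk c H b q m1 Λ) (hm : m1 ≤ m2) : PveqThk c H b q m2 Λ where
  ok := h.ok.mono hm
  e_geo m0 m k := h.e_geo m0 m (hm.trans k)
  b_geo m0 m k := h.b_geo m0 m (hm.trans k)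
  e_win m0 m k := h.e_win m0 m (hm.trans k)
  b_win m0 m k := h.b_win m0 m (hm.trans k)

/-- **the nine fields of `KitOk` which are not kit** (`PvyhRest` of 291) -/
theorem pveq_rest {m1 m2 : ℕ} {Λ : PveqLk (PvmhT 𝔤)} (hF : PveqFun c H b q m1 Λ) (hC : PveqCl c H b q m2 Λ) (m0 m : ℕ) (hm : m1 ≤ m) :
    PvyhRest (pveqT c b q Λ) (pveqP c H m0) m where
  r_geo := hF.r_geo m0 m hm
  r_win := hF.r_win m hm
  mXr := hC.mXr m
  qr0 := (hC.qr m).1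
  qr1 := (hC.qr m).2
  qo0 := (hC.qo m).1
  qo1 := (hC.qo m).2
  qi0 := (hC.qi m).1
  qi1 := (hC.qi m).2

/-- **field `cand`** -/
theorem pveq_cand {m1 m2 : ℕ} {Λ : PveqLk (PvmhT 𝔤)} (hF : PveqFun c H b q m1 Λ) (hT : PveqThk c H b q m1 Λ) (hD : PveqDj c H b q m1 Λ) (hC : PveqCl c H b q m2 Λ) (m0 m : ℕ) (hm : m1 ≤ m)
    (p : ℤ × ℤ) (t : PvmhT 𝔤) (hb : ((pveqP c H m0).ty m (l9Pt (pvlmH m) p) t).col = true) : (pveqT c b q Λ).CandOk (pveqP c H m0) m (l9Pt (pvlmH m) p) t where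
  d4o := (pveq_d4 c H m t).1
  d4i := (pveq_d4 c H m t).2
  o_geo := hF.o_geo m0 m hm p t hb
  i_geo := hF.i_geo m0 m hm p t hb
  e_geo := hT.e_geo m0 m hm p t hb
  b_geo := hT.b_geo m0 m hm p t hb
  o_win := hF.o_win m0 m hm p t hb
  i_win := hF.i_win m0 m hm p t hb
  e_win := hT.e_win m0 m hm p t hb
  b_win := hT.b_win m0 m hm p t hb
  mXo := hC.mXo m _ t
  mXi := hC.mXi m _ t
  mXe := hC.mXe m _ t
  mXb := hC.mXb m _ t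
  dj1 := hD.dj1 m0 m hm p t hb
  dj2 := hD.dj2 m0 m hm p t hb

/-- **(CUT-V)** = the cut point of the reference plug in the reference frame + [BES-V]      **PROVED** (263) from the field `cycV` of `PveqCl`:   (R) = `pvvq_ref_rec` (263 `Exit/CutVU.lean`, 76 `Exit/CutVT.lean`),   (B) = `pvvq_bes` + `pvvq_close_cyc2` + `pvvq_V_model` (76 `Exit/CutVG.lean`; 206 `Tr/CloseV.lean`);   `f := pvvtF pvkgG (pveqSu 𝔤) M₀` -/
theorem exit_pveq_cutV (c0 : 0 < c) (hβ : 0 < 𝔤.β) {β' : ℝ≥0∞} {CB : ℝ} (hN : PvkuOk (pvkgG.glob (pvhfH pvkgG.toPvkdPlug pvk2T)) b q β' CB (13 / 160))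
    {m1 m2 : ℕ} {Λ : PveqLk (PvmhT 𝔤)} (hF : PveqFun c H b q m1 Λ) (hT : PveqThk c H b q m1 Λ) (hD : PveqDj c H b q m1 Λ)
    (hC : PveqCl c H b q m2 Λ) : ∃ m3 : ℕ, PveqCutV c H b q m3 Λ := by
  obtain ⟨cM, M₀, mM, hV⟩ := hC.cycV
  obtain ⟨βu, hβu, hadm⟩ := pvyh_adm hN (pveq_is b q (pveqDel c 𝔤) (pveqSu 𝔤) Λ) (pveq_su_pos H) 0
  have hK : ∀ m0 m, m1 ≤ m → (pveqT c b q Λ).KitOk (pveqP c H m0) m β' q := fun m0 m hm =>
    pvyh_kit hN pvk2_geo pvkgg_ze.EO (pveq_is _ _ _ _ _) (pveq_del_pos c H) (pveq_su_pos H m) rfl (pveq_rest hF hC m0 m hm)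
  have hR : ∀ m, m1 ≤ m → PvvqRef (pveqT c b q Λ) ((pvkgG.sc (pveqSu 𝔤 m)).pg 0 1) (pvkdAt 0 1 (pvkgG.sc (pveqSu 𝔤 m)).Ew) (pvkgG.sc (pveqSu 𝔤 m)).ρ (M₀ m) m := fun m hm =>
    pvvq_ref_rec (pveq_is _ _ _ _ _).is (pveq_su_pos H m) (mM m) (hK 0 m hm).mGu ((hadm m (Nat.zero_le _)).mono fun ε h h0 => hβu (le_antisymm (h0 ▸ h) zero_le))
  refine ⟨max m1 m2, pvvqF (fun m => (pvkgG.sc (pveqSu 𝔤 m)).pg 0 1) (fun m => pvkdAt 0 1 (pvkgG.sc (pveqSu 𝔤 m)).Ew) (fun m => (pvkgG.sc (pveqSu 𝔤 m)).ρ) M₀, pvbeCB * ENNReal.ofReal cM,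
    ENNReal.mul_ne_top pvbe_CB_ne_top ENNReal.ofReal_ne_top, fun m hm => pvvq_ref (hR m ((le_max_left _ _).trans hm)), fun m0 m hm p t hb => ?_⟩
  obtain ⟨a, 𝔢, KE, Mk, U, B, a₀, h1, e0, e1, lo, hB, hi, mask⟩ := hV m0 m ((le_max_right _ _).trans hm) p t hb
  exact pvvq_bes (pvvq_close_cyc2 (pvrz_wf H _ m0) h1 (hR m ((le_max_left _ _).trans hm)) (pvvq_V_model H e0 e1 lo hB hi mask))
    (pvyd_wf2_ev (pvrz_wf H _ m0) (hK m0 m ((le_max_left _ _).trans hm)) (pveq_cand hF hT hD hC m0 m ((le_max_left _ _).trans hm) p t hb))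

end term

/-- **THE ROOF GEO OF ROAD P FROM THE FOUR SUB-ROOFS**      (they meet in `Exit/GeoTP.lean`) -/
theorem pveq_geo_of {𝔤 : PvmhNum} {c : ℝ} (c0 : 0 < c) (H : PvrzGood 𝔤) (hβ : 0 < 𝔤.β) (hfun : PveqFunSt c H) (hthk : PveqThkSt c H) (hdj : PveqDjSt c H) (hcl : PveqCloseSt c H) : PvrsGeoSt c 𝔤 H := by
  obtain ⟨b, q, β', CB, hN⟩ := pveq_num
  obtain ⟨a1, Lo, Li, Lr, n, hF⟩ := hfun
  obtain ⟨a2, Le, Lb, nu, hT⟩ := hthk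
  have hFa : ∀ Λ : PveqLk (PvmhT 𝔤), PveqLk.Same ⟨Lo, Li, Le, Lb, Lr, n, nu, 1, 1, 1, 1, 1, 0, 0, 0, 0, 0⟩ Λ → PveqFun c H b q (max a1 a2) Λ :=
    fun Λ s => (hF b q Λ s.1 s.2.1 s.2.2.2.2.1 s.2.2.2.2.2.1).toFun.mono (le_max_left a1 a2)
  have hTa : ∀ Λ : PveqLk (PvmhT 𝔤), PveqLk.Same ⟨Lo, Li, Le, Lb, Lr, n, nu, 1, 1, 1, 1, 1, 0, 0, 0, 0, 0⟩ Λ → PveqThk c H b q (max a1 a2) Λ :=
    fun Λ s => (hT b q Λ s.2.2.1 s.2.2.2.1 s.2.2.2.2.2.2).toThk.mono (le_max_right a1 a2)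
  obtain ⟨a3, Λ, hs, hC⟩ := hcl b q β' CB hN (max a1 a2) _ hFa hTa (fun Λ s => hdj b q _ Λ (hFa Λ s) (hTa Λ s))
  have hF1 := hFa Λ hs
  have hT1 := hTa Λ hs
  have hD1 := hdj b q _ Λ hF1 hT1
  obtain ⟨cM, hcM⟩ := hC.close2
  obtain ⟨a4, f, CBV, hV0, hV1, hV2⟩ := exit_pveq_cutV c0 hβ hN hF1 hT1 hD1 hC
  have k1 : ∀ {m : ℕ}, max (max (max a1 a2) a3) a4 ≤ m → max a1 a2 ≤ m := fun h => ((le_max_left _ _).trans (le_max_left _ _)).trans h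
  have k3 : ∀ {m : ℕ}, max (max (max a1 a2) a3) a4 ≤ m → a3 ≤ m := fun h => ((le_max_right _ _).trans (le_max_left _ _)).trans h
  have k4 : ∀ {m : ℕ}, max (max (max a1 a2) a3) a4 ≤ m → a4 ≤ m := fun h => (le_max_right _ _).trans h
  refine ⟨pvmaGam H.ok c, max (max (max a1 a2) a3) a4, pveqT c b q Λ, ?_⟩
  exact
    { doors := fun m _ => pvma_doors H.ok c m
      num := pvyh_num hN (pveq_is _ _ _ _ _) (pveq_del_pos c H) (fun m _ => rfl)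
      kit := pvyh_kit_all hN pvk2_geo pvkgg_ze.EO (pveq_is _ _ _ _ _) (pveq_del_pos c H) (pveq_su_pos H) (fun m _ => rfl) (fun m hm => pveq_rest hF1 hC _ m (k1 hm))
      cand := fun m p t hOn => pveq_cand hF1 hT1 hD1 hC _ m (k1 hOn.1) p t hOn.2
      qe0 := hC.qe.1
      qe1 := hC.qe.2
      qb0 := hC.qb.1
      qb1 := hC.qb.2
      adm := pvyh_adm hN (pveq_is _ _ _ _ _) (pveq_su_pos H) _
      close1 := fun m p t hOn => hC.close1 _ m (k3 hOn.1) p t hOn.2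
      close2 := ⟨cM, fun m p t hOn => hcM _ m (k3 hOn.1) p t hOn.2⟩
      cutV := ⟨f, CBV, hV0, fun m hm => hV1 m (k4 hm), fun m p t hOn => hV2 _ m (k4 hOn.1) p t hOn.2⟩
      l1 := fun m p t hOn => hC.l1 _ m (k3 hOn.1) p t hOn.2
      pl := fun m hm => ⟨fun _ => pveqDel c 𝔤 m * (13 / 160),
        (pvyt_sq_fam (hN.unit.toQ.fam (pveq_del_pos c H)) (fun ε => ⟨(pveq_is b q (pveqDel c 𝔤) (pveqSu 𝔤) Λ).is.kit m ε, (pveq_is b q (pveqDel c 𝔤) (pveqSu 𝔤) Λ).X₀ m ε⟩)).2,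
        fun a t hp hOn => hF1.pl _ m (k1 hm) a t hp hOn.2⟩
      sd := fun m p t hOn => hF1.ok.sd _ m (k1 hOn.1) p t hOn.2 }

end Claimed.Agent.R289
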