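-- KEEP
import Claimed.Agent.R289.Exit.GeoP
import Claimed.Agent.R289.Exit.CloseTP
import Claimed.Agent.R289.Exit.Qbx

/-!
# Row 289 (S0537), THE WALL, ROAD P, Exit/CloseGP : THE TERM SIDE OF `exit_pveq_close` (sub-roof CLOSE of `Exit/GeoP.lean`)      (pen helper263; prefix `pvg0_`, `pvg0`, `Pvg0`, `exit_pvg0_`)

THE GENERIC SIDE = `PvucSup` of 95 (`Exit/CloseTP.lean` sec. 7: THE CONTRACT of the suppliers at one candidate, any `𝔓 𝔶`; `PvucSup.close1 .close2 .in2`).      HERE: the term `Λ'` and the record `PveqCl` at it.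
* sec. 1  `pvg0X C := if C.Wf then pvkjX C else 0` : THE GUARDED MASS OF A CONNECTOR (113), measurable and in `L¹(pvP ε)` FOR EVERY `C` (`pvg0_X_meas`, `pvg0_X_l1`: crude bound `pvkj_X_bound` of 113 232 + `pvyt_l1_of_gen` of 183).
* sec. 2  GENERIC ASSEMBLY (any `𝔓 𝔶 𝔤 𝔱`): `Pvg0Eq C col k k' r r' L` = THE EQUATIONS OF ONE CONNECTOR (colour, kinds, regions of the two ends, `ms = L.ms`, `Kc = L.KE \ (I ∪ I')`; constructor `pvg0Cn`, `pvg0_cn_eq : rfl`),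
          `Pvg0Msk` = THE DEBTS OF THE MASKS, ROOMS, WINDOWS (`PvucSup` MINUS kit, colours, joins, masses, (DET)),
          **`pvg0_sup`** : cells `PvvwF PvvwT PvvwR` (270) + (NUM) + four `Pvg0Eq` + guarded masses + `Pvg0Msk` ⟹ `PvucSup` at `𝔨 := 𝔤.sc (δ m)`, `KD* := L.KE`      (kit fields, SIX JOINS, FOUR (DET) RECORDS: PAID).
* sec. 3  `Pvg0Dat τ` = THE FREE DATA OF CLOSE (`cM`; frame mask `M₀ m`; connectors `Co Ci Ce Cb Cr`; rooms of the tags `U0 Ut Uu Vt Vu`; `B a₀`);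
          `pvg0Lam W 𝔇 q0 β bk` = THE TERM `Λ'`: the cells of `W`, `q := min 1 (pvndQ q0 (W.n m | W.nu) ..)` (272), masses `pvg0X (𝔇.C* ..)`;   `Pvg0Is W 𝔇 Λ` = "the cells of `W`, the masses of `𝔇`" (the `q`'s are free).
* sec. 4  `Pvg0Cand` = four `Pvg0Eq` at the ends of record + `Pvg0Msk` + THE FOUR REGION LINES OF `V` of 76 263 (`lo hB hi mask`);   **`Pvg0SupSt`** = THE ONE SUB-EXIT, as a statement (sorried in `Exit/GeoTP.lean`: `exit_pvg0_sup`).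
* sec. 5  the kit at the term (`pvg0_del pvg0_simple`), `pvg0_sup_term` (cells: `hF.fo hT.th hF.rr` of 36),
          **`pvg0_close`** : cells (`PveqFun PveqThk PveqDj` for every `Λ` with the cells of `W`) + (NUM) + `Pvg0SupSt` ⟹ `∃ m2 Λ', W.Same Λ' ∧ PveqCl c H b q m2 Λ'`      (ALL FIELDS: `q* mX* l1 close1 close2 cycV`).
-/

set_option autoImplicit false
set_option linter.unusedSectionVars false
set_option linter.unusedVariables false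

namespace Claimed.Agent.R289

open MeasureTheory Filter Topology Set Metric Claims.C0465
open scoped ENNReal

/-! ## 1. the guarded mass of a connector -/

open Classical in
/-- **THE MASS OF A CONNECTOR, GUARDED AGAINST JUNK INDICES** -/
noncomputable def pvg0X (C : PvkjCn) : Conf PvPt → ℂ := if C.Wf then pvkjX C else 0

theorem pvg0_eqns_cite : True := by
  have := @pvg0X.eq_1
  trivial

theorem pvg0_X_eq {C : PvkjCn} (h : C.Wf) : pvg0X C = pvkjX C := by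
  unfold pvg0X
  rw [if_pos h]

theorem pvg0_X_junk {C : PvkjCn} (h : ¬ C.Wf) : pvg0X C = 0 := by
  unfold pvg0X
  rw [if_neg h]

theorem pvg0_X_meas (C : PvkjCn) : Measurable (pvg0X C) := by
  by_cases h : C.Wf
  · rw [pvg0_X_eq h]
    exact pvkj_X_meas h
  · rw [pvg0_X_junk h]
    exact measurable_const

/-- **the guarded mass is integrable**, every connector, every mesh `ε > 0`      [crude bound of 113 232, generating function of 183] -/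
theorem pvg0_X_l1 (C : PvkjCn) {ε : ℝ} (hε : 0 < ε) : ∫⁻ η, ‖pvg0X C η‖ₑ ∂(pvP ε) ≠ ∞ := by
  by_cases h : C.Wf
  · rw [pvg0_X_eq h]
    obtain ⟨D, hD⟩ := h.bdd.exists_norm_le
    have hD' : ∀ x ∈ C.E, ∀ y ∈ C.E, ‖x - y‖ ≤ 2 * |D| := fun x hx y hy => (norm_sub_le x y).trans (by linarith [hD x hx, hD y hy, le_abs_self D])
    have hB : MeasurableSet (C.E ×ˢ (univ : Set Bool)) := h.win.1.prod MeasurableSet.univ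
    have hb : pvInt ε (C.E ×ˢ (univ : Set Bool)) ≠ ∞ := by
      have e : C.E ×ˢ (univ : Set Bool) = Prod.fst ⁻¹' C.E := by
        ext x
        simp
      rw [e, vorm_int_fst]
      exact ENNReal.mul_ne_top ENNReal.ofReal_ne_top h.bdd.measure_lt_top.ne
    refine pvyt_l1_of_gen ε hB hb (C := ENNReal.ofReal (3 * (2 * |D|))) (z := 4) ENNReal.ofReal_ne_top (by norm_num) ?_
    filter_upwards [pvqf_good_ae ε hε.ne'] with η hη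
    have h1 := pvkj_X_bound h hD' hη.del
    set N : ℕ := (η.pts ∩ C.E ×ˢ (univ : Set Bool)).ncard with hN
    have h2 : ((N : ℝ)) ^ 2 ≤ (4 : ℝ) ^ N := by
      have h3 : (N : ℝ) ≤ (2 : ℝ) ^ N := by exact_mod_cast (Nat.lt_two_pow_self (n := N)).le
      calc ((N : ℝ)) ^ 2 ≤ ((2 : ℝ) ^ N) ^ 2 := by gcongr
        _ = (4 : ℝ) ^ N := by rw [← pow_mul, mul_comm, pow_mul]; norm_num
    have hD0 : 0 ≤ 3 * (2 * |D|) := by positivity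
    rw [← ofReal_norm]
    calc ENNReal.ofReal ‖pvkjX C η‖ ≤ ENNReal.ofReal (3 * (2 * |D|) * (4 : ℝ) ^ N) := ENNReal.ofReal_le_ofReal (h1.trans (by gcongr))
      _ = ENNReal.ofReal (3 * (2 * |D|)) * 4 ^ N := by
        rw [ENNReal.ofReal_mul hD0, ENNReal.ofReal_pow (by norm_num)]
        norm_num
  · rw [pvg0_X_junk h]
    simp

/-! ## 2. the generic assembly: cells + equations of the connectors + debts of the masks ⟹ the contract of 95 -/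

section asm

variable {τ : Type} {cc : ℝ}

/-- **THE EQUATIONS OF ONE CONNECTOR**: colour, kinds and regions of the two ends, list of meshes and CUT corridor of the cell data -/
structure Pvg0Eq (C : PvkjCn) (col k k' : Bool) (r r' : PvspReg ℂ) (L : PvvwLa) : Prop where
  hcol : C.col = col
  hk : C.k = k
  hk' : C.k' = k'
  hr : C.r = r
  hr' : C.r' = r'
  hms : C.ms = L.ms
  hcut : C.Kc = L.KE \ ((pvkjEnd k r).I ∪ (pvkjEnd k' r').I)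

theorem Pvg0Eq.e {C : PvkjCn} {col k k' : Bool} {r r' : PvspReg ℂ} {L : PvvwLa} (h : Pvg0Eq C col k k' r r' L) : C.e = pvkjEnd k r := by
  unfold PvkjCn.e
  rw [h.hk, h.hr]

theorem Pvg0Eq.e' {C : PvkjCn} {col k k' : Bool} {r r' : PvspReg ℂ} {L : PvvwLa} (h : Pvg0Eq C col k k' r r' L) : C.e' = pvkjEnd k' r' := by
  unfold PvkjCn.e'
  rw [h.hk', h.hr']

theorem Pvg0Eq.cut' {C : PvkjCn} {col k k' : Bool} {r r' : PvspReg ℂ} {L : PvvwLa} (h : Pvg0Eq C col k k' r r' L) : C.Kc = L.KE \ (C.e.I ∪ C.e'.I) := by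
  rw [h.e, h.e']
  exact h.hcut

/-- **THE CONNECTOR OF RECORD OF A LINK**: everything but the mask `M`, the window `E`, the cap `ρ` is read off the ends and the cell data -/
def pvg0Cn (col k k' : Bool) (r r' : PvspReg ℂ) (L : PvvwLa) (M E : Set ℂ) (ρ : ℝ) : PvkjCn :=
  ⟨col, k, k', r, r', L.KE \ ((pvkjEnd k r).I ∪ (pvkjEnd k' r').I), M, E, ρ, L.ms⟩

theorem pvg0_eqns_cite4 : True := by
  have := @pvg0Cn.eq_1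
  trivial

theorem pvg0_cn_eq (col k k' : Bool) (r r' : PvspReg ℂ) (L : PvvwLa) (M E : Set ℂ) (ρ : ℝ) : Pvg0Eq (pvg0Cn col k k' r r' L M E ρ) col k k' r r' L :=
  ⟨rfl, rfl, rfl, rfl, rfl, rfl, rfl⟩

/-- **THE DEBTS OF THE MASKS, ROOMS AND WINDOWS AT ONE CANDIDATE** = `PvucSup` of 95 MINUS the kit, the colours, the joins, the masses, (DET) -/
structure Pvg0Msk (𝔓 : PvrxPar τ cc) (𝔶 : PvydGeo τ) (m : ℕ) (z : ℂ) (t : τ) (𝔨 : PvkdGeo) (Co Cr Ce Cb : PvkjCn) (U0 Ut Uu Vt Vu : Set ℂ) (B : Set ℂ) (a₀ cM h : ℝ) : Prop where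
  bB : Bornology.IsBounded B
  a0 : 0 < a₀
  c0 : 0 ≤ cM
  wr : Cr.Wf
  lo : PvucLk Co U0
  lr : PvucLk (pvuhAt Cr (pvydWu 𝔓 m z t)) Uu
  le : PvucLk Ce Ut
  lb : PvucLk Cb Vu
  le' : PvucLk Ce Vt
  Eo : ∀ᶠ ε in 𝓝[>] (0 : ℝ), Co.E ×ˢ (univ : Set Bool) ⊆ pvnhRd (𝔶.lo 𝔓 (𝔓.ty m z t).col m ε z t) (𝔶.wo m z t).Et
  Er : ∀ᶠ ε in 𝓝[>] (0 : ℝ), Cr.E ×ˢ (univ : Set Bool) ⊆ pvnhRd (𝔶.lr 𝔓 m ε) (𝔶.wr m).Et
  Ee : Ce.E ×ˢ (univ : Set Bool) ⊆ pvnhRd (𝔶.le 𝔓 (𝔓.ty m z t).col m z t) (𝔶.we m z t).Et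
  Eb : Cb.E ×ˢ (univ : Set Bool) ⊆ pvnhRd (𝔶.lb 𝔓 (𝔓.ty m z t).col m z t) (𝔶.wb m z t).Et
  fg : ∀ᶠ ε in 𝓝[>] (0 : ℝ), PvucFg ((𝔓.Γ m).l1 t).length ((pvydDat 𝔓 𝔶 (𝔓.ty m z t).col).sOut m ε z t) ((pvydDat 𝔓 𝔶 (𝔓.ty m z t).col).sRef m ε z t)
    (((pvydDat 𝔓 𝔶 (𝔓.ty m z t).col).kit m ε).O (pvthZ ((pvydDat 𝔓 𝔶 (𝔓.ty m z t).col).kit m ε).δ (z + (𝔓.Γ m).pout t) ((𝔓.Γ m).dout t) ((𝔓.Γ m).l1 t) 0) (pvthD ((𝔓.Γ m).dout t) ((𝔓.Γ m).l1 t) 0))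
    (((pvydDat 𝔓 𝔶 (𝔓.ty m z t).col).kit m ε).O (pvthZ ((pvydDat 𝔓 𝔶 (𝔓.ty m z t).col).kit m ε).δ (z + (𝔓.Γ m).pout t) ((𝔓.Γ m).dout t) ((𝔓.Γ m).l1 t) ((𝔓.Γ m).l1 t).length)
      (pvthD ((𝔓.Γ m).dout t) ((𝔓.Γ m).l1 t) ((𝔓.Γ m).l1 t).length))
    ((pvydDat 𝔓 𝔶 (𝔓.ty m z t).col).Kr m ε z t) Co.e Ce.e (pvjcE 𝔨 (z + (𝔓.Γ m).pout t) ((𝔓.Γ m).dout t) ((𝔓.Γ m).l1 t)) Co.Kc (pvuhAt Cr (pvydWu 𝔓 m z t)).Kc Ce.Kc
    (pvjcKE 𝔨 (z + (𝔓.Γ m).pout t) ((𝔓.Γ m).dout t) ((𝔓.Γ m).l1 t)) Co.M (pvuhAt Cr (pvydWu 𝔓 m z t)).M Ce.M (pvjcMk 𝔨 (z + (𝔓.Γ m).pout t) ((𝔓.Γ m).dout t) ((𝔓.Γ m).l1 t)) Ut Uu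
    (pvucUd U0 𝔨 (z + (𝔓.Γ m).pout t) ((𝔓.Γ m).dout t) ((𝔓.Γ m).l1 t)) B a₀
  sh : PvucSh Cb.e Ce.e Cb.Kc Ce.Kc Cb.M Ce.M Vt Vu B a₀
  vol : volume Ce.M ≤ ENNReal.ofReal (cM * h ^ 2)

variable {𝔓 : PvrxPar τ cc} {𝔶 : PvydGeo τ} {m n nu : ℕ} {z : ℂ} {t : τ} {Co Cr Ce Cb : PvkjCn} {U0 Ut Uu Vt Vu B : Set ℂ} {a₀ cM h : ℝ} {𝔬 𝔦 𝔢 𝔟 𝔯 : PvvwLa}
variable {𝔤 : PvkdGeo} {𝔱 : PvhfTr} {b q β' : ℝ≥0∞} {CB r : ℝ} {δ su : ℕ → ℝ}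

/-- the first door of the word -/
theorem pvg0_E_zero (𝔨 : PvkdGeo) (z d : ℂ) (l : List PvtTurn) : pvjcE 𝔨 z d l 0 = pvkjKit (𝔨.pg z d) := by
  unfold pvjcE pvthZ pvthD
  simp [pvtDisp]

/-- the last door of the reference word -/
theorem pvg0_E_last (𝔨 : PvkdGeo) (hdel : 𝔨.δ = (𝔓.Γ m).δ) (z : ℂ) (t : τ) :
    pvjcE 𝔨 (z + (𝔓.Γ m).pout t) ((𝔓.Γ m).dout t) ((𝔓.Γ m).l1 t) ((𝔓.Γ m).l1 t).length = pvkjKit (𝔨.pg (pvydWu 𝔓 m z t + (𝔓.Γ m).pin0) (𝔓.Γ m).din0) := by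
  unfold pvjcE
  obtain ⟨h1, h2⟩ := pvyp_door_ref (𝔓.Γ m) hdel z t
  rw [h1, h2]
  rfl

/-- the ends of the reference frame are black -/
theorem pvg0_col_r (H : PvyhIs 𝔶 𝔤 𝔱 b q δ su) (ε : ℝ) (z d : ℂ) : (𝔶.eD true m ε true z d).c = true := by
  show (𝔶.en m true true z d).c = true
  rw [H.is.en]
  rfl

/-- **THE CONTRACT OF 95 FROM THE CELL DATA OF THE FIVE LINKS (270 272), THE EQUATIONS OF THE CONNECTORS AND THE DEBTS OF THE MASKS** -/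
theorem pvg0_sup (hN : PvkuOk (𝔤.glob (pvhfH 𝔤.toPvkdPlug 𝔱)) b q β' CB r) (hG : PvhfGeo 𝔤.toPvkdPlug 𝔱) (hE : 𝔤.Ew ⊆ 𝔤.O₀) (H : PvyhIs 𝔶 𝔤 𝔱 b q δ su)
    (hδ : 0 < δ m) (hs : 0 < su m) (hW : 𝔓.Wf) (d4 : (𝔓.Γ m).dout t ^ 4 = 1) (hdel : (𝔤.sc (δ m)).δ = (𝔓.Γ m).δ) (reg : PvjcReg (𝔤.sc (δ m)))
    (simple : ∃ N, PvccSimple ((𝔓.Γ m).l1 t) N ∧ N ≤ ((𝔓.Γ m).l1 t).length ∧ ((𝔓.Γ m).l1 t).length ≤ N + 1)
    (F : PvvwF 𝔓 𝔶 (𝔤.toPvkdPlug.sc (δ m)) n m z t 𝔬 𝔦) (T : PvvwT 𝔓 𝔶 (𝔤.toPvkdPlug.sc (su m)) nu m z t 𝔢 𝔟) (R : PvvwR 𝔓 𝔶 (𝔤.toPvkdPlug.sc (δ m)) (𝔤.toPvkdPlug.sc (su m)) n m 𝔯)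
    (eo : Pvg0Eq Co (𝔓.ty m z t).col true false ((𝔓.ty m z t).reg 𝔓.mod.N z (pvlmH m)) (pvkjRegK ((𝔤.toPvkdPlug.sc (δ m)).pg (z + (𝔓.Γ m).pout t) ((𝔓.Γ m).dout t))) 𝔬)
    (er : Pvg0Eq Cr true false false (pvkjRegK ((𝔤.toPvkdPlug.sc (δ m)).pg (𝔓.Γ m).pin0 (𝔓.Γ m).din0)) (pvkjRegK ((𝔤.toPvkdPlug.sc (su m)).pg 0 1)) 𝔯)
    (ee : Pvg0Eq Ce (𝔓.ty m z t).col false true (pvkjRegK ((𝔤.toPvkdPlug.sc (su m)).pg (pvydWu 𝔓 m z t) 1)) ((𝔓.ty m z t).reg 𝔓.mod.N z (pvlmH m)) 𝔢)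
    (eb : Pvg0Eq Cb (𝔓.ty m z t).col true false ((𝔓.ty m z t).reg 𝔓.mod.N z (pvlmH m)) (pvkjRegK ((𝔤.toPvkdPlug.sc (su m)).pg (pvydWu 𝔓 m z t) 1)) 𝔟)
    (Xo : 𝔶.Xo m z t = pvg0X Co) (Xr : 𝔶.Xr m = pvg0X Cr) (Xe : 𝔶.Xe m z t = pvg0X Ce) (Xb : 𝔶.Xb m z t = pvg0X Cb)
    (M : Pvg0Msk 𝔓 𝔶 m z t (𝔤.sc (δ m)) Co Cr Ce Cb U0 Ut Uu Vt Vu B a₀ cM h) :
    PvucSup 𝔓 𝔶 m z t (𝔤.sc (δ m)) Co Cr Ce Cb 𝔬.KE 𝔯.KE 𝔢.KE 𝔟.KE U0 Ut Uu Vt Vu B a₀ cM h where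
  dict := by
    have := pvjc_dict_ev (𝔤 := 𝔤) (Hf := pvhfH 𝔤.toPvkdPlug 𝔱) hδ hN.ok
    filter_upwards [this] with ε hε
    rw [H.is.kit, H.X₀]
    exact hε
  reg := reg
  hO := Eventually.of_forall fun ε => by
    rw [H.is.kit]
    exact (pvdil_S_sim _ _).symm
  hK := Eventually.of_forall fun ε => by
    rw [H.is.kit]
    exact funext fun _ => (pvdil_S_sim _ _).symm
  del := hdel
  simple := simple
  bB := M.bB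
  a0 := M.a0
  c0 := M.c0
  co := eo.hcol
  cr := er.hcol
  ce := ee.hcol
  cb := eb.hcol
  jo := by
    rw [eo.e', pvg0_E_zero]
    rfl
  jr := by
    rw [pvg0_E_last _ hdel]
    show pvkjEnd Cr.k (Cr.r.comap (pvthInv (pvydWu 𝔓 m z t) 1)) = _
    rw [er.hk, er.hr, pvuh_kit_end]
    rfl
  ju := by
    rw [ee.e]
    show pvkjEnd Cr.k' (Cr.r'.comap (pvthInv (pvydWu 𝔓 m z t) 1)) = _
    rw [er.hk', er.hr', pvuh_kit_end, add_zero]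
    rfl
  jt := by rw [ee.e', eo.e]
  jb := by rw [eb.e, eo.e]
  jb' := by rw [eb.e', ee.e]
  lo := M.lo
  lr := M.lr
  le := M.le
  lb := M.lb
  le' := M.le'
  Xo := by rw [Xo, pvg0_X_eq M.lo.wf]
  Xr := by rw [Xr, pvg0_X_eq M.wr]
  Xe := by rw [Xe, pvg0_X_eq M.le.wf]
  Xb := by rw [Xb, pvg0_X_eq M.lb.wf]
  Eo := M.Eo
  Er := M.Er
  Ee := M.Ee
  Eb := M.Eb
  fg := M.fg
  sh := M.sh
  vol := M.vol
  Do := F.Do hN hG hE hG.ZZ H hδ hW d4 M.lo.wf eo.hcol eo.e eo.e' eo.hms eo.cut'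
  Dr := R.Dr hN hG hE hG.ZZ H hδ hs (pvyd_din0 d4) (fun ε => pvg0_col_r H ε _ _) M.wr er.hcol er.e er.e' er.hms er.cut'
  De := T.De hN hG hE hG.ZZ H hs hW M.le.wf ee.hcol ee.e ee.e' ee.hms ee.cut'
  Db := T.Db hN hG hE hG.ZZ H hs hW M.lb.wf eb.hcol eb.e eb.e' eb.hms eb.cut'

end asm

/-! ## 3. the free data of CLOSE, the term `Λ'` -/

/-- **THE FREE DATA OF CLOSE**      [113 `Exit/GeoCP.lean`: connectors, rooms, masks;   95: the mask rule;   76: the frame mask]      (lengths, cells of the kit, rooms of (DET): READ OFF THE CELLS OF `W`, `pvg0_sup`) -/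
structure Pvg0Dat (τ : Type) where
  /-- the area of the mask of `e` is `≤ cM h²` -/
  cM : ℝ
  /-- the mask of `e` in the frame of `u` (East half plane) -/
  M₀ : ℕ → Set ℂ
  /-- the placed connectors (ABSOLUTE), `Cr` in the REFERENCE FRAME -/
  Co : ℕ → ℂ → τ → PvkjCn
  Ci : ℕ → ℂ → τ → PvkjCn
  Ce : ℕ → ℂ → τ → PvkjCn
  Cb : ℕ → ℂ → τ → PvkjCn
  Cr : ℕ → PvkjCn
  /-- the rooms of the tags of the inner arcs: first door, long cycle, short cycle -/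
  U0 : ℕ → ℂ → τ → Set ℂ
  Ut : ℕ → ℂ → τ → Set ℂ
  Uu : ℕ → ℂ → τ → Set ℂ
  Vt : ℕ → ℂ → τ → Set ℂ
  Vu : ℕ → ℂ → τ → Set ℂ
  B : ℕ → ℂ → τ → Set ℂ
  a₀ : ℕ → ℂ → τ → ℝ

/-- **THE TERM `Λ'`**: the cells of `W`, the forcing constants of 272 (capped by `1`), the guarded masses of the connectors -/
noncomputable def pvg0Lam {τ : Type} (W : PveqLk τ) (𝔇 : Pvg0Dat τ) (q0 β bk : ℝ) : PveqLk τ where
  Lo := W.Lo
  Li := W.Li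
  Le := W.Le
  Lb := W.Lb
  Lr := W.Lr
  n := W.n
  nu := W.nu
  qo m := min 1 (pvndQ q0 (W.n m) (min β bk))
  qi m := min 1 (pvndQ q0 (W.n m) (min β bk))
  qr m := min 1 (pvndQ q0 (W.n m) (min bk bk))
  qe := min 1 (pvndQ q0 W.nu (min β bk))
  qb := min 1 (pvndQ q0 W.nu (min β bk))
  Xo m z t := pvg0X (𝔇.Co m z t)
  Xi m z t := pvg0X (𝔇.Ci m z t)
  Xe m z t := pvg0X (𝔇.Ce m z t)
  Xb m z t := pvg0X (𝔇.Cb m z t)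
  Xr m := pvg0X (𝔇.Cr m)

/-- `Λ` has the cells of `W` and the masses of `𝔇`      (the forcing constants are FREE: no clause of the suppliers reads them) -/
structure Pvg0Is {τ : Type} (W : PveqLk τ) (𝔇 : Pvg0Dat τ) (Λ : PveqLk τ) : Prop where
  same : W.Same Λ
  Xo : ∀ m z t, Λ.Xo m z t = pvg0X (𝔇.Co m z t)
  Xi : ∀ m z t, Λ.Xi m z t = pvg0X (𝔇.Ci m z t)
  Xe : ∀ m z t, Λ.Xe m z t = pvg0X (𝔇.Ce m z t)
  Xb : ∀ m z t, Λ.Xb m z t = pvg0X (𝔇.Cb m z t)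
  Xr : ∀ m, Λ.Xr m = pvg0X (𝔇.Cr m)

theorem pvg0_eqns_cite2 : True := by
  have := @pvg0Lam.eq_1
  trivial

theorem pvg0_lam_is {τ : Type} (W : PveqLk τ) (𝔇 : Pvg0Dat τ) (q0 β bk : ℝ) : Pvg0Is W 𝔇 (pvg0Lam W 𝔇 q0 β bk) :=
  ⟨⟨rfl, rfl, rfl, rfl, rfl, rfl, rfl⟩, fun _ _ _ => rfl, fun _ _ _ => rfl, fun _ _ _ => rfl, fun _ _ _ => rfl, fun _ => rfl⟩

/-- a capped forcing constant -/
theorem pvg0_q {q0 : ℝ} (hq0 : 0 < q0) (n : ℕ) {β : ℝ} (hβ : 0 < β) : min 1 (pvndQ q0 n β) ≠ 0 ∧ min 1 (pvndQ q0 n β) ≤ 1 := by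
  refine ⟨?_, min_le_left _ _⟩
  intro h
  rcases min_eq_iff.1 h with h | h
  · exact one_ne_zero h.1
  · exact pvnd_Q_ne_zero hq0 n hβ h.1

/-! ## 4. THE ONE SUB-EXIT -/

section term

variable {𝔤 : PvmhNum} (c : ℝ) (H : PvrzGood 𝔤) (b q : ℝ≥0∞)

/-- **ALL THE DEBTS OF THE SUPPLIERS AT ONE BLACK CANDIDATE OF THE TERM**: the equations of the four connectors at the ends of record and the cells of `Λ`, the debts of the masks, rooms, windows, the four region lines of `V` (76 263) -/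
structure Pvg0Cand (Λ : PveqLk (PvmhT 𝔤)) (𝔇 : Pvg0Dat (PvmhT 𝔤)) (m0 m : ℕ) (z : ℂ) (t : PvmhT 𝔤) : Prop where
  /-- `o : t → door 0` -/
  eo : Pvg0Eq (𝔇.Co m z t) ((pveqP c H m0).ty m z t).col true false (((pveqP c H m0).ty m z t).reg (pveqP c H m0).mod.N z (pvlmH m))
    (pvkjRegK ((pvkgG.toPvkdPlug.sc (pveqDel c 𝔤 m)).pg (z + ((pveqP c H m0).Γ m).pout t) (((pveqP c H m0).Γ m).dout t))) (Λ.Lo m z t)
  /-- `r : last door → u`, REFERENCE FRAME, black -/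
  er : Pvg0Eq (𝔇.Cr m) true false false (pvkjRegK ((pvkgG.toPvkdPlug.sc (pveqDel c 𝔤 m)).pg ((pveqP c H m0).Γ m).pin0 ((pveqP c H m0).Γ m).din0))
    (pvkjRegK ((pvkgG.toPvkdPlug.sc (pveqSu 𝔤 m)).pg 0 1)) (Λ.Lr m)
  /-- `e : u → t` -/
  ee : Pvg0Eq (𝔇.Ce m z t) ((pveqP c H m0).ty m z t).col false true (pvkjRegK ((pvkgG.toPvkdPlug.sc (pveqSu 𝔤 m)).pg (pvydWu (pveqP c H m0) m z t) 1))
    (((pveqP c H m0).ty m z t).reg (pveqP c H m0).mod.N z (pvlmH m)) (Λ.Le m z t)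
  /-- `b : t → u` -/
  eb : Pvg0Eq (𝔇.Cb m z t) ((pveqP c H m0).ty m z t).col true false (((pveqP c H m0).ty m z t).reg (pveqP c H m0).mod.N z (pvlmH m))
    (pvkjRegK ((pvkgG.toPvkdPlug.sc (pveqSu 𝔤 m)).pg (pvydWu (pveqP c H m0) m z t) 1)) (Λ.Lb m z t)
  /-- masks, rooms, windows -/
  msk : Pvg0Msk (pveqP c H m0) (pveqT c b q Λ) m z t (pvkgG.sc (pveqDel c 𝔤 m)) (𝔇.Co m z t) (𝔇.Cr m) (𝔇.Ce m z t) (𝔇.Cb m z t)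
    (𝔇.U0 m z t) (𝔇.Ut m z t) (𝔇.Uu m z t) (𝔇.Vt m z t) (𝔇.Vu m z t) (𝔇.B m z t) (𝔇.a₀ m z t) 𝔇.cM (pvlmH m)
  /-- `V`: THE SANDWICH of the mask of `e` at the big plug, `Bc = clB(z, 100 b₀ h)` -/
  lo : ∀ x ∈ ((pveqP c H m0).ty m z t).Nm, closedBall x (2 * (𝔤.mu * pvlmH m)) \ closedBall z (100 * 𝔤.b 0 * pvlmH m) ⊆ (𝔇.Ce m z t).M
  hB : Disjoint (closedBall z (100 * 𝔤.b 0 * pvlmH m)) (𝔇.Ce m z t).M
  hi : ∀ x ∈ ((pveqP c H m0).ty m z t).Np, Disjoint (closedBall x (2 * (𝔤.mu * pvlmH m))) (𝔇.Ce m z t).M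
  /-- `V`: in the room of the tags of `u` the mask of `e` is ONE set of the frame of `u` -/
  mask : ∀ x ∈ 𝔇.Vu m z t, x ∈ (𝔇.Ce m z t).M ↔ x - pvydWu (pveqP c H m0) m z t ∈ 𝔇.M₀ m

/-- **THE ONE SUB-EXIT OF CLOSE, AS A STATEMENT**: the data exist;   every clause for EVERY `Λ` with the cells of `W` and the masses of the data, for ALL `m0`, from a level `m2` on, at the BLACK candidates of the grid -/
def Pvg0SupSt (W : PveqLk (PvmhT 𝔤)) : Prop :=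
  ∃ (m2 : ℕ) (𝔇 : Pvg0Dat (PvmhT 𝔤)), (∀ m, MeasurableSet (𝔇.M₀ m)) ∧ ∀ Λ : PveqLk (PvmhT 𝔤), Pvg0Is W 𝔇 Λ → ∀ m0 m, m2 ≤ m →
    ∀ (p : ℤ × ℤ) (t : PvmhT 𝔤), ((pveqP c H m0).ty m (l9Pt (pvlmH m) p) t).col = true → Pvg0Cand c H b q Λ 𝔇 m0 m (l9Pt (pvlmH m) p) t

theorem pvg0_eqns_cite3 : True := by
  have := @Pvg0SupSt.eq_1
  trivial

variable {c H b q}

/-! ## 5. `PveqCl` at the term -/

/-- the cells of the kit have the side of `Γ` -/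
theorem pvg0_del (m0 m : ℕ) : (pvkgG.sc (pveqDel c 𝔤 m)).δ = ((pveqP c H m0).Γ m).δ := by
  show pveqDel c 𝔤 m * pvkgG.δ = pveqDel c 𝔤 m
  have : pvkgG.δ = 1 := rfl
  rw [this, mul_one]

/-- the reference word is simple      [114 `Tr/LinkGam.lean`] -/
theorem pvg0_simple (m0 m : ℕ) (t : PvmhT 𝔤) : ∃ N, PvccSimple (((pveqP c H m0).Γ m).l1 t) N ∧ N ≤ (((pveqP c H m0).Γ m).l1 t).length ∧ (((pveqP c H m0).Γ m).l1 t).length ≤ N + 1 :=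
  ⟨_, (pvlzPat (pvma_hyp H.ok) c m t).simple, le_rfl, Nat.le_succ _⟩

/-- **THE CONTRACT OF 95 AT A BLACK CANDIDATE OF THE TERM** -/
theorem pvg0_sup_term {β' : ℝ≥0∞} {CB : ℝ} (hN : PvkuOk (pvkgG.glob (pvhfH pvkgG.toPvkdPlug pvk2T)) b q β' CB (13 / 160)) {m1 : ℕ} {W Λ : PveqLk (PvmhT 𝔤)} {𝔇 : Pvg0Dat (PvmhT 𝔤)}
    (hI : Pvg0Is W 𝔇 Λ) (hF : PveqFunC c H b q m1 Λ) (hT : PveqThkC c H b q m1 Λ) (m0 m : ℕ) (hm : m1 ≤ m) (p : ℤ × ℤ) (t : PvmhT 𝔤) (hb : ((pveqP c H m0).ty m (l9Pt (pvlmH m) p) t).col = true)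
    (S : Pvg0Cand c H b q Λ 𝔇 m0 m (l9Pt (pvlmH m) p) t) :
    PvucSup (pveqP c H m0) (pveqT c b q Λ) m (l9Pt (pvlmH m) p) t (pvkgG.sc (pveqDel c 𝔤 m)) (𝔇.Co m (l9Pt (pvlmH m) p) t) (𝔇.Cr m) (𝔇.Ce m (l9Pt (pvlmH m) p) t) (𝔇.Cb m (l9Pt (pvlmH m) p) t)
      (Λ.Lo m (l9Pt (pvlmH m) p) t).KE (Λ.Lr m).KE (Λ.Le m (l9Pt (pvlmH m) p) t).KE (Λ.Lb m (l9Pt (pvlmH m) p) t).KE
      (𝔇.U0 m (l9Pt (pvlmH m) p) t) (𝔇.Ut m (l9Pt (pvlmH m) p) t) (𝔇.Uu m (l9Pt (pvlmH m) p) t) (𝔇.Vt m (l9Pt (pvlmH m) p) t) (𝔇.Vu m (l9Pt (pvlmH m) p) t) (𝔇.B m (l9Pt (pvlmH m) p) t)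
      (𝔇.a₀ m (l9Pt (pvlmH m) p) t) 𝔇.cM (pvlmH m) :=
  pvg0_sup hN pvk2_geo pvkgg_ze.EO (pveq_is b q (pveqDel c 𝔤) (pveqSu 𝔤) Λ) (pveq_del_pos c H m) (pveq_su_pos H m) (pvrz_wf H _ m0) (pveq_d4 c H m t).1 (pvg0_del m0 m)
    (pvjc_reg_rec (pveq_del_pos c H m)) (pvg0_simple m0 m t) (hF.fo m0 m hm p t hb) (hT.th m0 m hm p t hb) (hF.rr m0 m hm) S.eo S.er S.ee S.eb
    (hI.Xo m _ t) (hI.Xr m) (hI.Xe m _ t) (hI.Xb m _ t) S.msk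

/-- **(CLOSE) AT THE TERM**: all the fields of `PveqCl` from the cells, (NUM), QBX and THE ONE SUB-EXIT -/
theorem pvg0_close (c0 : 0 < c) (hβ : 0 < 𝔤.β) {β' : ℝ≥0∞} {CB : ℝ} (hN : PvkuOk (pvkgG.glob (pvhfH pvkgG.toPvkdPlug pvk2T)) b q β' CB (13 / 160))
    {m1 : ℕ} {W : PveqLk (PvmhT 𝔤)} (hF : ∀ Λ, W.Same Λ → PveqFun c H b q m1 Λ) (hT : ∀ Λ, W.Same Λ → PveqThk c H b q m1 Λ) (hD : ∀ Λ, W.Same Λ → PveqDj c H b q m1 Λ)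
    (S : Pvg0SupSt c H b q W) : ∃ (m2 : ℕ) (Λ' : PveqLk (PvmhT 𝔤)), W.Same Λ' ∧ PveqCl c H b q m2 Λ' := by
  obtain ⟨q0, hq0, hq1, hQ⟩ := pvlq_main exit_pv_qbx_lay exit_pv_qbx_rev
  obtain ⟨m2, 𝔇, mM, hS⟩ := S
  set Λ' : PveqLk (PvmhT 𝔤) := pvg0Lam W 𝔇 q0 𝔤.β b.toReal with hΛ
  have hI : Pvg0Is W 𝔇 Λ' := pvg0_lam_is W 𝔇 q0 𝔤.β b.toReal
  have hF' := hF Λ' hI.same
  have hT' := hT Λ' hI.same
  have hD' := hD Λ' hI.same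
  have k1 : ∀ {m : ℕ}, max m1 m2 ≤ m → m1 ≤ m := fun h => (le_max_left _ _).trans h
  have k2 : ∀ {m : ℕ}, max m1 m2 ≤ m → m2 ≤ m := fun h => (le_max_right _ _).trans h
  -- the kit ends: `0 < b.toReal`
  have hU : ∀ m0 m, m1 ≤ m → PvndKitUp (pveqT c b q Λ') (pveqP c H m0) m b.toReal b.toReal (W.n m) := fun m0 m hm => pveq_kitUp hN hF'.ok m0 m hm
  have hR : ∀ m0 m, m1 ≤ m → ∀ (p : ℤ × ℤ) (t : PvmhT 𝔤), ((pveqP c H m0).ty m (l9Pt (pvlmH m) p) t).col = true → PvndCand (pveqT c b q Λ') (pveqP c H m0) (W.n m) W.nu m (l9Pt (pvlmH m) p) t :=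
    fun m0 m hm p t hb => pveq_candUp hF'.ok hT'.ok m0 m hm p t hb
  have hb0 : 0 < b.toReal := (hU 0 m1 le_rfl).βk0
  have hmin : 0 < min 𝔤.β b.toReal := lt_min hβ hb0
  have hmin' : 0 < min b.toReal b.toReal := lt_min hb0 hb0
  have hK : ∀ m0 m, m1 ≤ m → (pveqT c b q Λ').KitOk (pveqP c H m0) m β' q := fun m0 m hm =>
    pvyh_kit hN pvk2_geo pvkgg_ze.EO (pveq_is _ _ _ _ _) (pveq_del_pos c H) (pveq_su_pos H m) rfl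
      { r_geo := hF'.r_geo m0 m hm
        r_win := hF'.r_win m hm
        mXr := pvg0_X_meas _
        qr0 := (pvg0_q hq0 _ hmin').1
        qr1 := (pvg0_q hq0 _ hmin').2
        qo0 := (pvg0_q hq0 _ hmin).1
        qo1 := (pvg0_q hq0 _ hmin).2
        qi0 := (pvg0_q hq0 _ hmin).1
        qi1 := (pvg0_q hq0 _ hmin).2 }
  have hC : ∀ m0 m, m1 ≤ m → ∀ (p : ℤ × ℤ) (t : PvmhT 𝔤), ((pveqP c H m0).ty m (l9Pt (pvlmH m) p) t).col = true → (pveqT c b q Λ').CandOk (pveqP c H m0) m (l9Pt (pvlmH m) p) t :=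
    fun m0 m hm p t hb =>
      { d4o := (pveq_d4 c H m t).1
        d4i := (pveq_d4 c H m t).2
        o_geo := hF'.o_geo m0 m hm p t hb
        i_geo := hF'.i_geo m0 m hm p t hb
        e_geo := hT'.e_geo m0 m hm p t hb
        b_geo := hT'.b_geo m0 m hm p t hb
        o_win := hF'.o_win m0 m hm p t hb
        i_win := hF'.i_win m0 m hm p t hb
        e_win := hT'.e_win m0 m hm p t hb
        b_win := hT'.b_win m0 m hm p t hb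
        mXo := pvg0_X_meas _
        mXi := pvg0_X_meas _
        mXe := pvg0_X_meas _
        mXb := pvg0_X_meas _
        dj1 := hD'.dj1 m0 m hm p t hb
        dj2 := hD'.dj2 m0 m hm p t hb }
  have hP := fun (m0 m : ℕ) (hm : max m1 m2 ≤ m) (p : ℤ × ℤ) (t : PvmhT 𝔤) (hb : ((pveqP c H m0).ty m (l9Pt (pvlmH m) p) t).col = true) =>
    pvg0_sup_term hN hI hF'.ok hT'.ok m0 m (k1 hm) p t hb (hS Λ' hI m0 m (k2 hm) p t hb)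
  refine ⟨max m1 m2, Λ', hI.same, ?_⟩
  exact
    { qo := fun m => pvg0_q hq0 _ hmin
      qi := fun m => pvg0_q hq0 _ hmin
      qr := fun m => pvg0_q hq0 _ hmin'
      qe := pvg0_q hq0 _ hmin
      qb := pvg0_q hq0 _ hmin
      mXo := fun _ _ _ => pvg0_X_meas _
      mXi := fun _ _ _ => pvg0_X_meas _
      mXe := fun _ _ _ => pvg0_X_meas _
      mXb := fun _ _ _ => pvg0_X_meas _
      mXr := fun _ => pvg0_X_meas _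
      l1 := fun m0 m hm p t hb => pvyt_l1_glob (pvrz_wf H _ m0) (hK m0 m (k1 hm)) (hC m0 m (k1 hm) p t hb)
        ⟨by filter_upwards [self_mem_nhdsWithin] with ε hε using pvg0_X_l1 _ hε, by filter_upwards [self_mem_nhdsWithin] with ε hε using pvg0_X_l1 _ hε⟩
      close1 := fun m0 m hm p t hb => (hP m0 m hm p t hb).close1 hq0 hq1 hQ (pvrz_wf H _ m0) hβ (hK m0 m (k1 hm)) (hC m0 m (k1 hm) p t hb) (hU m0 m (k1 hm))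
        (hR m0 m (k1 hm) p t hb) (min_le_right _ _) (min_le_right _ _) (min_le_right _ _) 0
      close2 := ⟨𝔇.cM, fun m0 m hm p t hb => ⟨_, (hP m0 m hm p t hb).close2 hq0 hq1 hQ (pvrz_wf H _ m0) hβ (hK m0 m (k1 hm)) (hC m0 m (k1 hm) p t hb) (hU m0 m (k1 hm))
        (hR m0 m (k1 hm) p t hb) (min_le_right _ _) (min_le_right _ _) 0⟩⟩
      cycV := ⟨𝔇.cM, 𝔇.M₀, mM, fun m0 m hm p t hb =>
        pvvq_in_of_in2 H ((hP m0 m hm p t hb).in2 hq0 hq1 hQ (pvrz_wf H _ m0) hβ (hK m0 m (k1 hm)) (hC m0 m (k1 hm) p t hb) (hU m0 m (k1 hm))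
          (hR m0 m (k1 hm) p t hb) (min_le_right _ _) (min_le_right _ _))
          (hS Λ' hI m0 m (k2 hm) p t hb).eb.e (hS Λ' hI m0 m (k2 hm) p t hb).ee.e (hS Λ' hI m0 m (k2 hm) p t hb).lo (hS Λ' hI m0 m (k2 hm) p t hb).hB
          (hS Λ' hI m0 m (k2 hm) p t hb).hi (hS Λ' hI m0 m (k2 hm) p t hb).mask⟩ }

end term

end Claimed.Agent.R289
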