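import Claimed.Agent.R289.Exit.CloseTP

/-!
# Row 289 (S0537, Cardy for Poisson-Voronoi), THE WALL, ROAD P, file Exit/CloseMP : CLOSE-P, **THE MASK RULE**      (helper95; prefix `pvuc_`, `pvuc`, `Pvuc` continued from `Exit/CloseTP`)

* sec. 8  **THE RULE** `pvucRl E O O' S S' = (E \ (O ∪ O')) ∪ (O ∩ S) ∪ (O' \ S')` : the mask of a connector with window `E` from the plug `(O, S)` to the plug `(O', S')` (`O` = planar region, `S` = front set);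
          `pvuc_rl_tri` (the clause `tM` of a foreign connector from two LOCAL clauses), `pvuc_tri_loc` (local clause from a convex side).
* sec. 9  **MODEL FREE**: `PvucRg` = a cyclic family of plugs and connectors whose masks follow the rule (SANDWICH: `Mk ⊆` rule, front part of the source `⊆ Mk`, back part of the target `⊆ Mk`), regions pairwise disjoint (`PvydDj` of 58)
          `⟹` masks pairwise disjoint, `PvkjCyc` of 113.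
* sec. 10 change of mask in a fact: `pvuc_ft_mask`, `pvuc_inn_in`, `pvuc_run_in`.
* sec. 11 **THE CELLS UNDER THE RULE**: `PvucKt 𝔨` (`pvuc_kt_rec` at `pvkgG.sc s`), `pvucMc` = the mask of a cell CUT to its window, `pvuc_cell0 pvuc_cell pvuc_word` = the facts of 34 203 with the cut mask (same field `XQ`).
* sec. 12 the long cycle by kinds: **`PvucRk`** (what `t u o r e` owe) `⟹ PvucRg`.
* sec. 13 **`PvucKn1`**, `.cyc`, `.close` = `close1` at the term of 58.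
* sec. 14 **`PvucRul`** = THE CONTRACT, SECOND EDITION (`PvucSup` with `fg reg hO hK simple` replaced by `rk`);   **`PvucRul.close1 .close2 .in2`**.
-/

set_option autoImplicit false

namespace Claimed.Agent.R289

open MeasureTheory Filter Topology Set Metric Claims.C0465
open scoped ENNReal

/-! ## 8. THE RULE -/

/-- **THE MASK RULE**: window `E`, source plug `(O, S)`, target plug `(O', S')` -/
def pvucRl (E O O' S S' : Set ℂ) : Set ℂ := (E \ (O ∪ O')) ∪ (O ∩ S) ∪ (O' \ S')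

theorem pvuc_eqns_cite8 : True := by
  have := @pvucRl.eq_1
  trivial

section rule

variable {E O O' S S' : Set ℂ}

theorem pvuc_rl_meas (hE : MeasurableSet E) (hO : MeasurableSet O) (hO' : MeasurableSet O') (hS : MeasurableSet S) (hS' : MeasurableSet S') : MeasurableSet (pvucRl E O O' S S') :=
  ((hE.diff (hO.union hO')).union (hO.inter hS)).union (hO'.diff hS')

theorem pvuc_rl_sub : pvucRl E O O' S S' ⊆ E ∪ O ∪ O' := by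
  rintro w ((h | h) | h)
  · exact Or.inl (Or.inl h.1)
  · exact Or.inl (Or.inr h.1)
  · exact Or.inr h.1

/-- a point of the window which is on the front side in `O` and on the back side in `O'` is in the mask -/
theorem pvuc_rl_mem {w : ℂ} (hE : w ∈ E) (h1 : w ∈ O → w ∈ S) (h2 : w ∈ O' → w ∉ S') : w ∈ pvucRl E O O' S S' := by
  by_cases a : w ∈ O
  · exact Or.inl (Or.inr ⟨a, h1 a⟩)
  by_cases b : w ∈ O'
  · exact Or.inr ⟨b, h2 b⟩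
  · exact Or.inl (Or.inl ⟨hE, fun h => h.elim a b⟩)

/-- in the region of the source (off the region of the target) the mask is the front side -/
theorem pvuc_rl_src (hd : Disjoint O O') {w : ℂ} (hw : w ∈ O) : w ∈ pvucRl E O O' S S' ↔ w ∈ S := by
  constructor
  · rintro ((h | h) | h)
    · exact absurd (Or.inl hw) h.2
    · exact h.2
    · exact absurd h.1 (Set.disjoint_left.1 hd hw)
  · exact fun h => Or.inl (Or.inr ⟨hw, h⟩)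

/-- in the region of the target (off the region of the source) the mask is the back side -/
theorem pvuc_rl_tgt (hd : Disjoint O O') {w : ℂ} (hw : w ∈ O') : w ∈ pvucRl E O O' S S' ↔ w ∉ S' := by
  constructor
  · rintro ((h | h) | h)
    · exact absurd (Or.inr hw) h.2
    · exact absurd hw (Set.disjoint_left.1 hd h.1)
    · exact h.2
  · exact fun h => Or.inr ⟨hw, h⟩

/-- **THE CLAUSE `tM` FROM TWO LOCAL CLAUSES** -/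
theorem pvuc_rl_tri {r : ℝ} {A K : Set ℂ} (hE : ∀ x ∈ A, closedBall x r ⊆ E) (h1 : PvkjTri r A K (Oᶜ ∪ S)) (h2 : PvkjTri r A K (O'ᶜ ∪ S'ᶜ)) : PvkjTri r A K (pvucRl E O O' S S') := by
  intro x y z hx hy hz d1 d2
  refine pvuc_rl_mem (pvkj_tri_collar (S := K) hE x y z hx hy hz d1 d2) (fun a => ?_) (fun b => ?_)
  · exact (h1 x y z hx hy hz d1 d2).resolve_left (fun h => h a)
  · exact (h2 x y z hx hy hz d1 d2).resolve_left (fun h => h b)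

/-- **A LOCAL CLAUSE FROM A CONVEX SIDE**: the part of the corridor at distance `≤ 2 r` of the region `O` lies in the convex set `T` -/
theorem pvuc_tri_loc {r : ℝ} {A K T : Set ℂ} (hT : Convex ℝ T) (hA : A ⊆ K) (h : ∀ x ∈ K, (closedBall x (2 * r) ∩ O).Nonempty → x ∈ T) : PvkjTri r A K (Oᶜ ∪ T) := by
  intro x y z hx hy hz d1 d2
  by_cases hb : (x + y + z) / 3 ∈ O
  · right
    have r0 : 0 ≤ r := (norm_nonneg _).trans d1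
    have e0 : (x + y + z) / 3 - x = ((y - x) + (z - x)) / 3 := by ring
    have b0 : ‖(x + y + z) / 3 - x‖ ≤ r := by
      rw [e0, norm_div]
      have h3 : ‖(3 : ℂ)‖ = 3 := by norm_num
      rw [h3, div_le_iff₀ (by norm_num)]
      calc ‖(y - x) + (z - x)‖ ≤ ‖y - x‖ + ‖z - x‖ := norm_add_le _ _
        _ ≤ r * 3 := by linarith
    have key : ∀ v : ℂ, v ∈ K → ‖v - x‖ ≤ r → v ∈ T := by
      intro v hv dv
      refine h v hv ⟨_, ?_, hb⟩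
      rw [mem_closedBall, dist_eq_norm]
      calc ‖(x + y + z) / 3 - v‖ = ‖((x + y + z) / 3 - x) - (v - x)‖ := by ring_nf
        _ ≤ ‖(x + y + z) / 3 - x‖ + ‖v - x‖ := norm_sub_le _ _
        _ ≤ 2 * r := by linarith
    exact pvki_bary_convex hT (key x (hA hx) (by rw [sub_self, norm_zero]; exact r0)) (key y hy d1) (key z hz d2)
  · exact Or.inl hb

/-- a local clause from a collar -/
theorem pvuc_tri_col {r : ℝ} {A K T : Set ℂ} (h : ∀ x ∈ A, closedBall x r ∩ O ⊆ T) : PvkjTri r A K (Oᶜ ∪ T) := by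
  intro x y z hx hy hz d1 d2
  by_cases hb : (x + y + z) / 3 ∈ O
  · exact Or.inr (h x hx ⟨pvkj_tri_collar (S := K) (M := closedBall x r) (A := {x}) (fun _ h' => by rw [mem_singleton_iff.1 h']) x y z rfl hy hz d1 d2, hb⟩)
  · exact Or.inl hb

end rule

/-! ## 9. MODEL FREE: A CYCLIC FAMILY WHOSE MASKS FOLLOW THE RULE -/

/-- **THE REGIONS OF A CYCLE UNDER THE RULE**.      `sec` = the list of sectors of 58 (`dj` = `dj1` / `dj2`), `PO j` = the planar region of the plug `j`, `PS j` = its front set, `E j` = the window of the connector `j` -/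
structure PvucRg (n : ℕ) (sec : ℕ → PvsySec PvPt) (𝔢 : ℕ → PvkjEnd ℂ) (KE E PO PS Mk U : ℕ → Set ℂ) (B : Set ℂ) (a₀ : ℝ) : Prop where
  two : 2 ≤ n
  per : 𝔢 n = 𝔢 0
  pO : PO n = PO 0
  pS : PS n = PS 0
  pM : Mk n = Mk 0
  ok : ∀ j, j < n → (𝔢 j).Ok
  uq : ∀ j, j < n → (𝔢 j).Uq
  dj : PvydDj n sec
  hO : ∀ j, j < n → (sec j).O = PO j ×ˢ (univ : Set Bool)
  hE : ∀ j, j < n → E j ×ˢ (univ : Set Bool) ⊆ (sec j).O ∪ (sec j).K ∪ (sec ((j + 1) % n)).O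
  /-- THE RULE (sandwich): the mask lies in the set of the rule, it contains the front part of its source and the back part of its target -/
  hM1 : ∀ j, j < n → Mk j ⊆ pvucRl (E j) (PO j) (PO (j + 1)) (PS j) (PS (j + 1))
  hM2 : ∀ j, j < n → PO j ∩ PS j ⊆ Mk j
  hM3 : ∀ j, j < n → PO (j + 1) \ PS (j + 1) ⊆ Mk j
  hZ : ∀ j, j < n → (𝔢 j).Z ⊆ PO j
  hK : ∀ j, j < n → KE j ⊆ Mk j
  hU : ∀ j, j < n → U (j + 1) ⊆ PO (j + 1)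
  EB : ∀ j, j < n → E j ⊆ B
  OB : ∀ j, j < n → PO j ⊆ B
  big : ∃ i j, i < n ∧ j < n ∧ ∀ p ∈ (𝔢 i).Z, ∀ p' ∈ (𝔢 j).Z, a₀ ≤ ‖p - p'‖

section free

variable {n : ℕ} {sec : ℕ → PvsySec PvPt} {𝔢 : ℕ → PvkjEnd ℂ} {KE E PO PS Mk U : ℕ → Set ℂ} {B : Set ℂ} {a₀ : ℝ}

theorem PvucRg.pO' (H : PvucRg n sec 𝔢 KE E PO PS Mk U B a₀) {j : ℕ} (hj : j < n) : PO (j + 1) = PO ((j + 1) % n) := by
  rcases Nat.lt_or_ge (j + 1) n with h | h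
  · rw [Nat.mod_eq_of_lt h]
  · obtain rfl : j + 1 = n := by omega
    rw [Nat.mod_self, H.pO]

theorem PvucRg.pS' (H : PvucRg n sec 𝔢 KE E PO PS Mk U B a₀) {j : ℕ} (hj : j < n) : PS (j + 1) = PS ((j + 1) % n) := by
  rcases Nat.lt_or_ge (j + 1) n with h | h
  · rw [Nat.mod_eq_of_lt h]
  · obtain rfl : j + 1 = n := by omega
    rw [Nat.mod_self, H.pS]

theorem pvuc_succ_inj {n i j : ℕ} (hi : i < n) (hj : j < n) (h : (i + 1) % n = (j + 1) % n) : i = j := by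
  rcases Nat.lt_or_ge (i + 1) n with a | a <;> rcases Nat.lt_or_ge (j + 1) n with b | b
  · rw [Nat.mod_eq_of_lt a, Nat.mod_eq_of_lt b] at h; omega
  · obtain rfl : j + 1 = n := by omega
    rw [Nat.mod_eq_of_lt a, Nat.mod_self] at h; omega
  · obtain rfl : i + 1 = n := by omega
    rw [Nat.mod_eq_of_lt b, Nat.mod_self] at h; omega
  · omega

/-- a point of the mask `j` : in the link region `j`, or in the plug `j` on the front side, or in the next plug on the back side -/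
theorem PvucRg.mem (H : PvucRg n sec 𝔢 KE E PO PS Mk U B a₀) {j : ℕ} (hj : j < n) {w : ℂ} (hw : w ∈ Mk j) :
    ((w, true) : PvPt) ∈ (sec j).K ∨ (w ∈ PO j ∧ w ∈ PS j) ∨ (w ∈ PO ((j + 1) % n) ∧ w ∉ PS ((j + 1) % n)) := by
  have hn : (j + 1) % n < n := Nat.mod_lt _ (by omega)
  have hw := H.hM1 j hj hw
  rw [H.pO' hj, H.pS' hj] at hw
  rcases hw with (h | h) | h
  · left
    have h1 : ((w, true) : PvPt) ∈ E j ×ˢ (univ : Set Bool) := ⟨h.1, mem_univ _⟩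
    rcases H.hE j hj h1 with (h2 | h2) | h2
    · rw [H.hO j hj] at h2
      exact absurd (Or.inl h2.1) h.2
    · exact h2
    · rw [H.hO _ hn] at h2
      exact absurd (Or.inr h2.1) h.2
  · exact Or.inr (Or.inl h)
  · exact Or.inr (Or.inr h)

theorem PvucRg.memO (H : PvucRg n sec 𝔢 KE E PO PS Mk U B a₀) {j : ℕ} (hj : j < n) {w : ℂ} (hw : w ∈ PO j) : ((w, true) : PvPt) ∈ (sec j).O := by
  rw [H.hO j hj]; exact ⟨hw, mem_univ _⟩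

/-- **THE MASKS ARE PAIRWISE DISJOINT** -/
theorem PvucRg.dM (H : PvucRg n sec 𝔢 KE E PO PS Mk U B a₀) : ∀ i < n, ∀ j < n, i ≠ j → Disjoint (Mk i) (Mk j) := by
  intro i hi j hj hij
  have hi' : (i + 1) % n < n := Nat.mod_lt _ (by omega)
  have hj' : (j + 1) % n < n := Nat.mod_lt _ (by omega)
  rw [Set.disjoint_left]
  intro w h1 h2
  rcases H.mem hi h1 with a | a | a <;> rcases H.mem hj h2 with b | b | b
  · exact Set.disjoint_left.1 (H.dj.dKK i hi j hj hij) a b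
  · exact Set.disjoint_left.1 (H.dj.dOK j hj i hi) (H.memO hj b.1) a
  · exact Set.disjoint_left.1 (H.dj.dOK _ hj' i hi) (H.memO hj' b.1) a
  · exact Set.disjoint_left.1 (H.dj.dOK i hi j hj) (H.memO hi a.1) b
  · exact Set.disjoint_left.1 (H.dj.dOO i hi j hj hij) (H.memO hi a.1) (H.memO hj b.1)
  · by_cases e : i = (j + 1) % n
    · rw [← e] at b
      exact b.2 a.2
    · exact Set.disjoint_left.1 (H.dj.dOO i hi _ hj' e) (H.memO hi a.1) (H.memO hj' b.1)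
  · exact Set.disjoint_left.1 (H.dj.dOK _ hi' j hj) (H.memO hi' a.1) b
  · by_cases e : (i + 1) % n = j
    · rw [e] at a
      exact a.2 b.2
    · exact Set.disjoint_left.1 (H.dj.dOO _ hi' j hj e) (H.memO hi' a.1) (H.memO hj b.1)
  · exact Set.disjoint_left.1 (H.dj.dOO _ hi' _ hj' (fun e => hij (pvuc_succ_inj hi hj e))) (H.memO hi' a.1) (H.memO hj' b.1)

theorem PvucRg.MB (H : PvucRg n sec 𝔢 KE E PO PS Mk U B a₀) : ∀ j, j < n → Mk j ⊆ B := by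
  intro j hj
  have hn : (j + 1) % n < n := Nat.mod_lt _ (by omega)
  refine (H.hM1 j hj).trans (pvuc_rl_sub.trans (union_subset (union_subset (H.EB j hj) (H.OB j hj)) ?_))
  rw [H.pO' hj]
  exact H.OB _ hn

/-- **THE CYCLE OF 113** -/
theorem PvucRg.cyc (H : PvucRg n sec 𝔢 KE E PO PS Mk U B a₀) : PvkjCyc n 𝔢 KE Mk U B a₀ where
  geo := by
    refine pvjc_geo_of_dj H.dj H.two H.per H.ok H.uq (fun j hj => ?_) (fun j hj => ?_) H.hK H.dM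
    · rw [H.hO j hj]
      exact prod_mono (H.hZ j hj) Subset.rfl
    · have hn : (j + 1) % n < n := Nat.mod_lt _ (by omega)
      rintro ⟨w, β⟩ ⟨hw, -⟩
      have hw' := H.hM1 j hj (H.hK j hj hw)
      rw [H.pO' hj] at hw'
      rcases pvuc_rl_sub hw' with (h | h) | h
      · exact H.hE j hj ⟨h, mem_univ _⟩
      · refine Or.inl (Or.inl ?_)
        rw [H.hO j hj]; exact ⟨h, mem_univ _⟩
      · refine Or.inr ?_
        rw [H.hO _ hn]; exact ⟨h, mem_univ _⟩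
  UM := by
    intro j hj w hw
    have hw' := H.hU j hj hw
    by_cases hs : w ∈ PS (j + 1)
    · right
      rcases Nat.lt_or_ge (j + 1) n with h | h
      · exact H.hM2 _ h ⟨hw', hs⟩
      · obtain rfl : j + 1 = n := by omega
        rw [H.pM]
        rw [H.pO] at hw'
        rw [H.pS] at hs
        exact H.hM2 0 (by omega) ⟨hw', hs⟩
    · exact Or.inl (H.hM3 j hj ⟨hw', hs⟩)
  ZB := fun j hj => (H.hZ j hj).trans (H.OB j hj)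
  KB := fun j hj => (H.hK j hj).trans (H.MB j hj)
  big := H.big

end free

/-! ## 10. CHANGE OF MASK IN A FACT -/

section mask

variable {η : Conf PvPt} {b : Bool} {𝔢 𝔢' : PvkjEnd ℂ} {KE M M' U : Set ℂ} {x : ℂ} {g g' : (pvkiT η).Gate (pvlfFl b (pvkiS η))} {N : ℕ}

theorem pvuc_psum_congr (p : (delbPl (cfSites η)).toMap.Pth)
    (h : ∀ i, i < p.n → ((delbPl (cfSites η)).toMap.bary Subtype.val ((delbPl (cfSites η)).toMap.opp (p.e i)) ∈ M ↔ (delbPl (cfSites η)).toMap.bary Subtype.val ((delbPl (cfSites η)).toMap.opp (p.e i)) ∈ M')) :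
    p.psum (pvcmW (delbPl (cfSites η)) M) = p.psum (pvcmW (delbPl (cfSites η)) M') := by
  unfold PvMap.Pth.psum
  refine Finset.sum_congr rfl fun i hi => ?_
  have hi' := h i (Finset.mem_range.1 hi)
  unfold pvcmW
  congr 1
  by_cases hm : (delbPl (cfSites η)).toMap.bary Subtype.val ((delbPl (cfSites η)).toMap.opp (p.e i)) ∈ M
  · rw [indicator_of_mem hm, indicator_of_mem (hi'.1 hm)]
  · rw [indicator_of_notMem hm, indicator_of_notMem (fun h' => hm (hi'.2 h'))]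

/-- **the two masks agree on the tags of the two inner arcs, the tags of the link lie in the new mask** -/
theorem pvuc_ft_mask (F : PvkjFt η b 𝔢 𝔢' KE M U x g g' N)
    (h0 : ∀ i, i < (pvtArc (pvkiT η) (pvlfFl b (pvkiS η)) g.aIn g.len).n → ((pvkiT η).bary Subtype.val ((pvkiT η).opp ((pvtArc (pvkiT η) (pvlfFl b (pvkiS η)) g.aIn g.len).e i)) ∈ M ↔
      (pvkiT η).bary Subtype.val ((pvkiT η).opp ((pvtArc (pvkiT η) (pvlfFl b (pvkiS η)) g.aIn g.len).e i)) ∈ M'))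
    (h1 : ∀ i, i < (pvtArc (pvkiT η) (pvlfFl b (pvkiS η)) g.aOut N).n → (pvkiT η).bary Subtype.val ((pvkiT η).opp ((pvtArc (pvkiT η) (pvlfFl b (pvkiS η)) g.aOut N).e i)) ∈ M')
    (h2 : ∀ i, i < (pvtArc (pvkiT η) (pvlfFl b (pvkiS η)) g'.aIn g'.len).n → ((pvkiT η).bary Subtype.val ((pvkiT η).opp ((pvtArc (pvkiT η) (pvlfFl b (pvkiS η)) g'.aIn g'.len).e i)) ∈ M ↔
      (pvkiT η).bary Subtype.val ((pvkiT η).opp ((pvtArc (pvkiT η) (pvlfFl b (pvkiS η)) g'.aIn g'.len).e i)) ∈ M')) :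
    PvkjFt η b 𝔢 𝔢' KE M' U x g g' N where
  lk := F.lk
  fin := F.fin
  fin' := F.fin'
  blk := h1
  binn := F.binn
  val := by
    rw [F.val]
    unfold pvcmX
    rw [pvuc_psum_congr _ h0, pvuc_psum_congr _ (fun i hi => ⟨fun _ => h1 i hi, fun _ => F.blk i hi⟩), pvuc_psum_congr _ h2]

/-- the tags of the inner arc of THE gate of an end lie in every convex room of its closed inside -/
theorem pvuc_inn_in (hη : DelGood (cfSites η)) (hO : 𝔢.Ok) {A : Set ℂ} (hIn : 𝔢.In A) (hA : Convex ℝ A) (hg : 𝔢.Is _ _ (pvkiT η) Subtype.val (pvlfFl b (pvkiS η)) g) :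
    ∀ i, i < (pvtArc (pvkiT η) (pvlfFl b (pvkiS η)) g.aIn g.len).n → (pvkiT η).bary Subtype.val ((pvkiT η).opp ((pvtArc (pvkiT η) (pvlfFl b (pvkiS η)) g.aIn g.len).e i)) ∈ A := by
  intro i hi
  have hT : (pvkiT η).IsSph := delb_plane_isSph hη
  obtain ⟨L, hTh⟩ := hO.thru _ _ _ _ _ _ hg
  obtain ⟨eL, -⟩ := hTh.len hT
  subst eL
  obtain ⟨h1, h2, h3⟩ := pvkj_tag_verts (T := pvkiT η) (s := pvlfFl b (pvkiS η)) g.aIn g.len hi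
  have hsub : ∀ v ∈ (pvkiT η).VOf (pvasFc (pvkiT η) (pvlfFl b (pvkiS η)) g.aIn g.len), (v : ℂ) ∈ A := by
    rintro _ ⟨e, he, rfl⟩
    exact hIn _ _ _ _ _ g hg e (pvas_fc_sub (pl_left_face g.c) hTh.2.2.2.1 he)
  exact pvki_bary_convex hA (hsub _ h1) (hsub _ h2) (hsub _ h3)

/-- the tags of a link whose corridor lies in the `3ρ`-core of a window with the mesh `ρ` lie in the window -/
theorem pvuc_run_in (hη : DelGood (cfSites η)) {W : Set ℂ} {ρ : ℝ} (hρ : 0 < ρ) (hm : PvtrMesh ρ W (cfSites η)) (hK : KE ⊆ pvtrCore (3 * ρ) W)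
    (hL : PvkjLk (pvkiT η) Subtype.val (pvlfFl b (pvkiS η)) 𝔢 𝔢' KE g g' N) :
    ∀ i, i < (pvtArc (pvkiT η) (pvlfFl b (pvkiS η)) g.aOut N).n → (pvkiT η).bary Subtype.val ((pvkiT η).opp ((pvtArc (pvkiT η) (pvlfFl b (pvkiS η)) g.aOut N).e i)) ∈ W := by
  intro i hi
  obtain ⟨h1, h2, h3⟩ := pvkj_tag_verts (T := pvkiT η) (s := pvlfFl b (pvkiS η)) g.aOut N hi
  have k1 := (hL.run.2.2.2 h1).1
  have k2 := (hL.run.2.2.2 h2).1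
  have k3 := (hL.run.2.2.2 h3).1
  obtain ⟨d1, d2⟩ := pvkj_face_short hρ hη hm _ (hK k1)
  have col : PvkjTri (2 * ρ) (pvtrCore (3 * ρ) W) KE W :=
    pvkj_tri_collar fun x hx => (closedBall_subset_closedBall (by linarith)).trans hx
  exact col _ _ _ (hK k1) k2 k3 d1 d2

end mask

/-! ## 11. THE CELLS UNDER THE RULE -/

/-- **what the geometry of the cells owes to the rule**, REFERENCE FRAME: the list of 203 244, the region of the plug inside the disc `δ/4`, the room of the run in the `3ρ`-core of the window of the link (BY DEFINITION at `pvkgG`) -/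
structure PvucKt (𝔨 : PvkdGeo) : Prop where
  reg : PvjcReg 𝔨
  ρ0 : 0 < 𝔨.ρ
  O4 : 𝔨.O₀ ⊆ ball 0 (𝔨.δ / 4)
  cA : ∀ τ, 𝔨.Co τ ⊆ pvtrCore (3 * 𝔨.ρ) (𝔨.Ea τ)
  mO : MeasurableSet 𝔨.O₀
  mK : ∀ τ, MeasurableSet (𝔨.K₀ τ)
  bEa : ∀ τ, Bornology.IsBounded (𝔨.Ea τ)

/-- the mask of a cell in the frame `(z, d)` : THE RULE at the placed window of the link, doors = closed half planes in front -/
noncomputable def pvucMq (𝔨 : PvkdGeo) (z d : ℂ) (τ : PvtTurn) : Set ℂ :=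
  pvucRl (pvkdAt z d (𝔨.Ea τ)) (pvkdAt z d 𝔨.O₀) (pvkdAt (𝔨.zo z d τ) (d * τ.rot) 𝔨.O₀) (pvilHp z d) (pvilHp (𝔨.zo z d τ) (d * τ.rot))

/-- the planar region of the door number `i` of a word -/
noncomputable def pvucOd (𝔨 : PvkdGeo) (z d : ℂ) (l : List PvtTurn) (i : ℕ) : Set ℂ := pvkdAt (pvthZ 𝔨.δ z d l i) (pvthD d l i) 𝔨.O₀
/-- its front set -/
noncomputable def pvucHd (𝔨 : PvkdGeo) (z d : ℂ) (l : List PvtTurn) (i : ℕ) : Set ℂ := pvilHp (pvthZ 𝔨.δ z d l i) (pvthD d l i)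
/-- the window of the cell number `i` -/
noncomputable def pvucWc (𝔨 : PvkdGeo) (z d : ℂ) (l : List PvtTurn) (i : ℕ) : Set ℂ := pvkdAt (pvthZ 𝔨.δ z d l i) (pvthD d l i) (𝔨.Ea (pvthL l i))
/-- the mask of the cell number `i` : THE RULE -/
noncomputable def pvucMc (𝔨 : PvkdGeo) (z d : ℂ) (l : List PvtTurn) (i : ℕ) : Set ℂ :=
  pvucRl (pvucWc 𝔨 z d l i) (pvucOd 𝔨 z d l i) (pvucOd 𝔨 z d l (i + 1)) (pvucHd 𝔨 z d l i) (pvucHd 𝔨 z d l (i + 1))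

theorem pvuc_eqns_cite11 : True := by
  have := @pvucMq.eq_1; have := @pvucOd.eq_1; have := @pvucHd.eq_1; have := @pvucWc.eq_1; have := @pvucMc.eq_1
  trivial

section cells

variable {𝔨 : PvkdGeo}

theorem pvuc_Hp_meas (z d : ℂ) : MeasurableSet (pvilHp z d) := by
  have hc : Continuous fun w : ℂ => ((w - z) * (starRingEnd ℂ) d).re := Complex.continuous_re.comp ((continuous_id.sub continuous_const).mul continuous_const)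
  exact measurableSet_le measurable_const hc.measurable

theorem PvucKt.O_ball (K : PvucKt 𝔨) (z : ℂ) {d : ℂ} (hd : ‖d‖ = 1) : pvkdAt z d 𝔨.O₀ ⊆ ball z (𝔨.δ / 4) := by
  rw [pvjc_ball_at z hd]
  exact pvkx_at_mono z d K.O4

theorem PvucKt.ball_O (K : PvucKt 𝔨) (z : ℂ) {d : ℂ} (hd : ‖d‖ = 1) : ball z 𝔨.b ⊆ pvkdAt z d 𝔨.O₀ := by
  rw [pvjc_ball_at z hd]
  exact pvkx_at_mono z d ((subset_union_right.trans subset_union_left).trans K.reg.zone)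

/-- the placed square of record, cut to the placed window, follows the rule -/
theorem PvucKt.sq_rl (K : PvucKt 𝔨) (z : ℂ) {d : ℂ} (hd : ‖d‖ = 1) (τ : PvtTurn) {w : ℂ} (h1 : w ∈ pvkdAt z d (𝔨.Mk τ)) (h2 : w ∈ pvkdAt z d (𝔨.Ea τ)) : w ∈ pvucMq 𝔨 z d τ := by
  have hd' : ‖d * τ.rot‖ = 1 := by rw [norm_mul, hd, pvt_norm_rot, one_mul]
  rw [K.reg.ref.Mk] at h1
  refine pvuc_rl_mem h2 (fun a => ?_) (fun b => ?_)
  · exact (pvuk_mask_front hd (K.O_ball z hd a)).1 h1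
  · exact (pvuk_mask_back hd τ (K.O_ball _ hd' b)).1 h1

/-- **THE FACT OF A CELL OF THE KIT OF 34 UNDER THE RULE** on `𝔨.A z d τ` -/
theorem pvuc_cell0 (K : PvucKt 𝔨) (z : ℂ) {d : ℂ} (hd : ‖d‖ = 1) (τ : PvtTurn) (hdis : Disjoint (pvkdAt z d 𝔨.O₀) (pvkdAt (𝔨.zo z d τ) (d * τ.rot) 𝔨.O₀)) {η : Conf PvPt} (hA : η ∈ 𝔨.A z d τ) :
    ∃ g g' N, PvkjFt η true (pvkjKit (𝔨.pg z d)) (pvkjKit (𝔨.pg (𝔨.zo z d τ) (d * τ.rot))) (pvkdAt z d (𝔨.Co τ)) (pvucMq 𝔨 z d τ) (ball (𝔨.zo z d τ) 𝔨.b) (𝔨.XQ z d τ η) g g' N := by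
  obtain ⟨g, g', N, F⟩ := pvkj_fact_cell 𝔨 K.reg.geo.dis (pvkx_at_convex z d (K.reg.geo.cvx τ)) (pvkx_at_mono z d (K.reg.geo.sub τ)) hA
  have hη : DelGood (cfSites η) := hA.1.1.good
  have hd' : ‖d * τ.rot‖ = 1 := by rw [norm_mul, hd, pvt_norm_rot, one_mul]
  have hcore : pvkdAt z d (𝔨.Co τ) ⊆ pvtrCore (3 * 𝔨.ρ) (pvkdAt z d (𝔨.Ea τ)) := (pvkx_at_mono z d (K.cA τ)).trans (pvzn_at_core hd z _ _)
  refine ⟨g, g', N, pvuc_ft_mask F (fun i hi => ?_) (fun i hi => ?_) (fun i hi => ?_)⟩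
  · have hb := pvuc_inn_in hη (pvkj_kit_ok _) (pvkj_kit_in (𝔨.pg z d)) (convex_ball _ _) F.lk.is i hi
    have hb' : _ ∈ ball z 𝔨.b := hb
    rw [K.reg.ref.Mk, pvuk_mask_front hd (ball_subset_ball K.reg.ref.b4 hb')]
    exact (pvuc_rl_src hdis (K.ball_O z hd hb')).symm
  · exact K.sq_rl z hd τ (F.blk i hi) (pvuc_run_in hη K.ρ0 hA.1.2 hcore F.lk i hi)
  · have hb := F.binn i hi
    rw [K.reg.ref.Mk, pvuk_mask_back hd τ (ball_subset_ball K.reg.ref.b4 hb)]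
    exact (pvuc_rl_tgt hdis (K.ball_O _ hd' hb)).symm

variable {kit : PvthKit} {X₀ : PvtTurn → Conf PvPt → ℂ} {ε : ℝ}

/-- **THE FACT OF ONE CELL OF THE KIT OF COLOUR `c` UNDER THE RULE**, any frame      (copy of `pvjc_cell` of 203) -/
theorem pvuc_cell (hε : 0 < ε) (hD : PvjcDict kit X₀ 𝔨 ε) (K : PvucKt 𝔨) (c : Bool) (z : ℂ) {d : ℂ} (hd : d ^ 4 = 1) (τ : PvtTurn)
    (hdis : Disjoint (pvkdAt z d 𝔨.O₀) (pvkdAt (𝔨.zo z d τ) (d * τ.rot) 𝔨.O₀)) :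
    ∀ᵐ η ∂(pvP ε), η ∈ (pvydKit kit c).G z d → η ∈ (pvydKit kit c).A z d τ →
      ∃ g g' N, PvkjFt η c (pvkjKit (𝔨.pg z d)) (pvkjKit (𝔨.pg (𝔨.zo z d τ) (d * τ.rot))) (pvkdAt z d (𝔨.Co τ)) (pvucMq 𝔨 z d τ) (ball (𝔨.zo z d τ) 𝔨.b)
        (pvthX (pvydX X₀ c) z d τ η) g g' N := by
  filter_upwards [pvjc_ae_fl c ε (hD.dict z d hd τ), dls_ae_conf hε] with η h hok h1 h2
  rw [pvyd_kit_G] at h1
  rw [pvyd_kit_A] at h2
  obtain ⟨a1, a2⟩ := h h1 h2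
  have key := pvuc_cell0 K z (pvth_norm_of_pow hd) τ hdis a1
  rw [← a2, ← pvjc_X_fl] at key
  exact pvjc_fact_fl c hok key

/-- **THE FACT OF THE CELL NUMBER `i` OF A WORD UNDER THE RULE**      (copy of `pvjc_word` of 203) -/
theorem pvuc_word (hε : 0 < ε) (hD : PvjcDict kit X₀ 𝔨 ε) (K : PvucKt 𝔨) (c : Bool) (z : ℂ) {d : ℂ} (hd : d ^ 4 = 1) (l : List PvtTurn) {i : ℕ} (hi : i < l.length)
    (hdis : Disjoint (pvucOd 𝔨 z d l i) (pvucOd 𝔨 z d l (i + 1))) :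
    ∀ᵐ η ∂(pvP ε), η ∈ (pvydKit kit c).G (pvthZ (pvydKit kit c).δ z d l i) (pvthD d l i) → η ∈ (pvydKit kit c).A (pvthZ (pvydKit kit c).δ z d l i) (pvthD d l i) (pvthL l i) →
      ∃ g g' N, PvkjFt η c (pvjcE 𝔨 z d l i) (pvjcE 𝔨 z d l (i + 1)) (pvjcKE 𝔨 z d l i) (pvucMc 𝔨 z d l i) (pvjcU 𝔨 z d l (i + 1)) ((pvydKit kit c).Xj (pvydX X₀ c) z d l i η) g g' N := by
  have hδ : (pvydKit kit c).δ = 𝔨.δ := hD.δ
  obtain ⟨e1, e2⟩ := pvdil_zo_succ 𝔨 z d l hi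
  unfold pvucOd at hdis
  rw [← e1, ← e2] at hdis
  have h := pvuc_cell hε hD K c (pvthZ 𝔨.δ z d l i) (pvtDir_pow_four d hd (l.take i)) (pvthL l i) hdis
  unfold PvthKit.Xj pvjcE pvjcKE pvucMc pvucWc pvucOd pvucHd pvjcU
  rw [hδ, ← e1, ← e2]
  exact h

end cells

/-! ### the geometry of record -/

theorem PvucKt.sc {𝔤 : PvkdGeo} (h : PvucKt 𝔤) {s : ℝ} (hs : 0 < s) : PvucKt (𝔤.sc s) where
  reg := h.reg.sc hs
  ρ0 := mul_pos hs h.ρ0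
  O4 := by
    have e : ball (0 : ℂ) (s * 𝔤.δ / 4) = pvdilS s (ball 0 (𝔤.δ / 4)) := by
      have := pvdil_ball hs 0 (𝔤.δ / 4)
      rw [mul_zero] at this
      rw [show s * 𝔤.δ / 4 = s * (𝔤.δ / 4) by ring]
      exact this
    show pvdilS s 𝔤.O₀ ⊆ ball (0 : ℂ) (s * 𝔤.δ / 4)
    rw [e]
    exact pvdil_S_mono s h.O4
  cA τ := by
    rw [pvdil_Ea]
    show pvdilS s (𝔤.Co τ) ⊆ pvtrCore (3 * (s * 𝔤.ρ)) (pvdilS s (𝔤.Ea τ))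
    have e := pvdil_core hs (3 * 𝔤.ρ) (𝔤.Ea τ)
    rw [show 3 * (s * 𝔤.ρ) = s * (3 * 𝔤.ρ) by ring]
    unfold pvdilS
    rw [e]
    exact image_mono (h.cA τ)
  mO := by
    show MeasurableSet (pvdilS s 𝔤.O₀)
    rw [pvdil_S_sim]
    exact pvzn_at_meas (by exact_mod_cast hs.ne') 0 h.mO
  mK τ := by
    show MeasurableSet (pvdilS s (𝔤.K₀ τ))
    rw [pvdil_S_sim]
    exact pvzn_at_meas (by exact_mod_cast hs.ne') 0 (h.mK τ)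
  bEa τ := by
    rw [pvdil_Ea, pvdil_S_sim]
    exact pvjc_at_bdd 0 s (h.bEa τ)

/-- the unit instance of record (258) -/
theorem pvuc_kt_unit : PvucKt pvkgG where
  reg := pvjc_reg_unit
  ρ0 := by
    show (0 : ℝ) < 1 / 40 / 16
    norm_num
  O4 := by
    rintro w ⟨h1, h2, h3, h4⟩
    rw [mem_ball, dist_zero_right]
    show ‖w‖ < (1 : ℝ) / 4
    have a1 : |w.re| ≤ 13 / 160 := abs_le.2 ⟨by linarith, by linarith⟩
    have a2 : |w.im| ≤ 13 / 160 := abs_le.2 ⟨by linarith, by linarith⟩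
    have := Complex.norm_le_abs_re_add_abs_im w
    linarith
  cA τ := by
    rw [pvkgg_Ea]
    show pvkxM 1 ∩ pvtrCore (3 / 640) (pvkgEa τ) ⊆ pvtrCore (3 * (1 / 40 / 16)) (pvkgEa τ)
    rw [show (3 * (1 / 40 / 16) : ℝ) = 3 / 640 by norm_num]
    exact inter_subset_right
  mO := (pvkgg_box_open _ _ _ _).measurableSet
  mK := pvkgg_K_meas
  bEa τ := by rw [pvkgg_Ea]; exact pvkgg_Ea_bdd τ

/-- **the geometry of record at every scale** -/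
theorem pvuc_kt_rec {s : ℝ} (hs : 0 < s) : PvucKt (pvkgG.sc s) := pvuc_kt_unit.sc hs

/-! ## 12. THE LONG CYCLE UNDER THE RULE, BY KINDS -/

/-- everything: the bounded set of the foreign pieces, the regions of the doors, the windows of the cells -/
noncomputable def pvucBk (𝔨 : PvkdGeo) (z d : ℂ) (l : List PvtTurn) (B : Set ℂ) : Set ℂ :=
  B ∪ (⋃ i ∈ Finset.range (l.length + 1), pvucOd 𝔨 z d l i) ∪ ⋃ i ∈ Finset.range l.length, pvucWc 𝔨 z d l i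

theorem pvuc_eqns_cite12 : True := by
  have := @pvucBk.eq_1
  trivial

/-- **WHAT `t u o r e` OWE IN REGIONS UNDER THE RULE, BY KINDS**.      `a c` = the sectors of `t` (with `o`) and of `u` (with `e`) of the list of 58, `Kf` = the region of `r`;   `Ot Ou` = planar regions of `t u`, `St Su` = their front sets;
`Eo Er Ee` = windows, `Ko Kr Ke` = corridors, `Mo Mr Me` = masks of the three foreign connectors. -/
structure PvucRk (𝔨 : PvkdGeo) (kit : PvthKit) (z d : ℂ) (l : List PvtTurn) (a c : PvsySec PvPt) (Kf : Set PvPt) (Af : Set (Conf PvPt)) (et eu : PvkjEnd ℂ)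
    (Ko Kr Ke Eo Er Ee Ot Ou St Su Mo Mr Me U0 Ut Uu B : Set ℂ) (a₀ : ℝ) : Prop where
  kt : PvucKt 𝔨
  hδ : kit.δ = 𝔨.δ
  hO : kit.O₀ = 𝔨.O₀
  hK : kit.K₀ = 𝔨.K₀
  hd : d ^ 4 = 1
  dj : PvydDj (l.length + 3) (pvskList a kit z d l Kf Af c)
  okt : et.Ok
  oku : eu.Ok
  uqt : et.Uq
  uqu : eu.Uq
  /-- the regions of the two plugs are planar -/
  aO : a.O = Ot ×ˢ (univ : Set Bool)
  cO : c.O = Ou ×ˢ (univ : Set Bool)
  /-- the three windows lie in the regions of their sector and of the next plug -/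
  wo : Eo ×ˢ (univ : Set Bool) ⊆ a.O ∪ a.K ∪ kit.O (pvthZ kit.δ z d l 0) (pvthD d l 0)
  wr : Er ×ˢ (univ : Set Bool) ⊆ kit.O (pvthZ kit.δ z d l l.length) (pvthD d l l.length) ∪ Kf ∪ c.O
  we : Ee ×ˢ (univ : Set Bool) ⊆ c.O ∪ c.K ∪ a.O
  /-- THE RULE (sandwich) -/
  mo1 : Mo ⊆ pvucRl Eo Ot (pvucOd 𝔨 z d l 0) St (pvucHd 𝔨 z d l 0)
  mo2 : Ot ∩ St ⊆ Mo
  mo3 : pvucOd 𝔨 z d l 0 \ pvucHd 𝔨 z d l 0 ⊆ Mo
  mr1 : Mr ⊆ pvucRl Er (pvucOd 𝔨 z d l l.length) Ou (pvucHd 𝔨 z d l l.length) Su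
  mr2 : pvucOd 𝔨 z d l l.length ∩ pvucHd 𝔨 z d l l.length ⊆ Mr
  mr3 : Ou \ Su ⊆ Mr
  me1 : Me ⊆ pvucRl Ee Ou Ot Su St
  me2 : Ou ∩ Su ⊆ Me
  me3 : Ot \ St ⊆ Me
  /-- zones, corridors, rooms -/
  Zt : et.Z ⊆ Ot
  Zu : eu.Z ⊆ Ou
  ko : Ko ⊆ Mo
  kr : Kr ⊆ Mr
  ke : Ke ⊆ Me
  u0 : U0 ⊆ pvucOd 𝔨 z d l 0
  uu : Uu ⊆ Ou
  ut : Ut ⊆ Ot
  /-- the foreign pieces are inside `B` -/
  Bo : Eo ⊆ B
  Br : Er ⊆ B
  Be : Ee ⊆ B
  Bt : Ot ⊆ B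
  Bu : Ou ⊆ B
  big : ∀ p ∈ et.Z, ∀ p' ∈ eu.Z, a₀ ≤ ‖p - p'‖

section kinds2

variable {𝔨 : PvkdGeo} {kit : PvthKit} {z d : ℂ} {l : List PvtTurn} {a c : PvsySec PvPt} {Kf : Set PvPt} {Af : Set (Conf PvPt)} {et eu : PvkjEnd ℂ}
variable {Ko Kr Ke Eo Er Ee Ot Ou St Su Mo Mr Me U0 Ut Uu B : Set ℂ} {a₀ : ℝ}

theorem pvuc_Od_O (hδ : kit.δ = 𝔨.δ) (hO : kit.O₀ = 𝔨.O₀) (z d : ℂ) (l : List PvtTurn) (i : ℕ) : kit.O (pvthZ kit.δ z d l i) (pvthD d l i) = pvucOd 𝔨 z d l i ×ˢ (univ : Set Bool) := by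
  unfold PvthKit.O pvucOd pvkdAt
  rw [hδ, hO]

/-- the window of a cell = the regions of its two doors and of its tile -/
theorem pvuc_Wc_eq (𝔨 : PvkdGeo) (z d : ℂ) (l : List PvtTurn) {i : ℕ} (hi : i < l.length) :
    pvucWc 𝔨 z d l i = pvucOd 𝔨 z d l i ∪ pvkdAt (pvthZ 𝔨.δ z d l i) (pvthD d l i) (𝔨.K₀ (pvthL l i)) ∪ pvucOd 𝔨 z d l (i + 1) := by
  obtain ⟨e1, e2⟩ := pvdil_zo_succ 𝔨 z d l hi
  unfold pvucWc pvucOd PvkdGeo.Ea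
  have e : pvkdAt (pvthZ 𝔨.δ z d l i) (pvthD d l i) (pvkdAt (𝔨.zo 0 1 (pvthL l i)) (pvthL l i).rot 𝔨.O₀) = pvkdAt (𝔨.zo (pvthZ 𝔨.δ z d l i) (pvthD d l i) (pvthL l i)) (pvthD d l i * (pvthL l i).rot) 𝔨.O₀ := by
    rw [pvkx_at_at]
    congr 1
    unfold PvkdGeo.zo
    ring
  rw [← e1, ← e2, ← e]
  unfold pvkdAt
  rw [image_union, image_union]

theorem pvuc_Wc_sub (hδ : kit.δ = 𝔨.δ) (hO : kit.O₀ = 𝔨.O₀) (hK : kit.K₀ = 𝔨.K₀) (z d : ℂ) (l : List PvtTurn) {i : ℕ} (hi : i < l.length) :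
    pvucWc 𝔨 z d l i ×ˢ (univ : Set Bool) ⊆ kit.O (pvthZ kit.δ z d l i) (pvthD d l i) ∪ kit.K (pvthZ kit.δ z d l i) (pvthD d l i) (pvthL l i) ∪ kit.O (pvthZ kit.δ z d l (i + 1)) (pvthD d l (i + 1)) := by
  rw [pvuc_Wc_eq 𝔨 z d l hi, pvuc_Od_O hδ hO, pvuc_Od_O hδ hO]
  unfold PvthKit.K
  rw [hδ, hK]
  rintro ⟨w, β⟩ ⟨hw, -⟩
  rcases hw with (h1 | h1) | h1
  · exact Or.inl (Or.inl ⟨h1, mem_univ _⟩)
  · exact Or.inl (Or.inr ⟨h1, mem_univ _⟩)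
  · exact Or.inr ⟨h1, mem_univ _⟩

theorem PvucKt.KE_Mc (K : PvucKt 𝔨) (z : ℂ) (hd : d ^ 4 = 1) (l : List PvtTurn) {i : ℕ} (hi : i < l.length) : pvjcKE 𝔨 z d l i ⊆ pvucMc 𝔨 z d l i := by
  obtain ⟨e1, e2⟩ := pvdil_zo_succ 𝔨 z d l hi
  intro w hw
  have hn : ‖pvthD d l i‖ = 1 := pvth_norm_of_pow (pvtDir_pow_four d hd (l.take i))
  have h := K.sq_rl (pvthZ 𝔨.δ z d l i) hn (pvthL l i) (pvkx_at_mono _ _ (K.reg.geo.sub _) hw) (pvkx_at_mono _ _ (K.reg.cor _) hw)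
  unfold pvucMq at h
  rw [e1, e2] at h
  exact h

theorem PvucKt.Mc_meas (K : PvucKt 𝔨) (z : ℂ) (hd : d ^ 4 = 1) (l : List PvtTurn) {i : ℕ} (hi : i < l.length) : MeasurableSet (pvucMc 𝔨 z d l i) := by
  have h0 : ∀ j, pvthD d l j ≠ 0 := fun j => pvco_ne (pvtDir_pow_four d hd _)
  have mO : ∀ j, MeasurableSet (pvucOd 𝔨 z d l j) := fun j => pvzn_at_meas (h0 j) _ K.mO
  refine pvuc_rl_meas ?_ (mO _) (mO _) (pvuc_Hp_meas _ _) (pvuc_Hp_meas _ _)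
  rw [pvuc_Wc_eq 𝔨 z d l hi]
  exact ((mO _).union (pvzn_at_meas (h0 i) _ (K.mK _))).union (mO _)

theorem PvucKt.Bk_bdd (K : PvucKt 𝔨) (z : ℂ) (hd : d ^ 4 = 1) (l : List PvtTurn) (bB : Bornology.IsBounded B) : Bornology.IsBounded (pvucBk 𝔨 z d l B) := by
  refine (bB.union ?_).union ?_
  · rw [Bornology.isBounded_biUnion_finset]
    exact fun i _ => Metric.isBounded_ball.subset (K.O_ball _ (pvth_norm_of_pow (pvtDir_pow_four d hd _)))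
  · rw [Bornology.isBounded_biUnion_finset]
    exact fun i _ => pvjc_at_bdd _ _ (K.bEa _)

theorem pvuc_Bk_B : B ⊆ pvucBk 𝔨 z d l B := fun _ h => Or.inl (Or.inl h)

theorem pvuc_Bk_Od {i : ℕ} (hi : i ≤ l.length) : pvucOd 𝔨 z d l i ⊆ pvucBk 𝔨 z d l B := fun _ h =>
  Or.inl (Or.inr (mem_iUnion₂.2 ⟨i, Finset.mem_range.2 (by omega), h⟩))

theorem pvuc_Bk_Wc {i : ℕ} (hi : i < l.length) : pvucWc 𝔨 z d l i ⊆ pvucBk 𝔨 z d l B := fun _ h =>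
  Or.inr (mem_iUnion₂.2 ⟨i, Finset.mem_range.2 hi, h⟩)

/-- **by kinds ⟹ the model free record at the sequences of sec. 1** -/
theorem PvucRk.rg (H : PvucRk 𝔨 kit z d l a c Kf Af et eu Ko Kr Ke Eo Er Ee Ot Ou St Su Mo Mr Me U0 Ut Uu B a₀) :
    PvucRg (l.length + 3) (pvskList a kit z d l Kf Af c) (pvucPl et (pvjcE 𝔨 z d l) eu l.length) (pvucCn Ko (pvjcKE 𝔨 z d l) Kr Ke l.length) (pvucCn Eo (pvucWc 𝔨 z d l) Er Ee l.length)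
      (pvucPl Ot (pvucOd 𝔨 z d l) Ou l.length) (pvucPl St (pvucHd 𝔨 z d l) Su l.length) (pvucCn Mo (pvucMc 𝔨 z d l) Mr Me l.length) (pvucPl Ut (pvucUd U0 𝔨 z d l) Uu l.length) (pvucBk 𝔨 z d l B) a₀ where
  two := by omega
  per := by rw [pvuc_pl_per, pvuc_pl_zero]
  pO := by rw [pvuc_pl_per, pvuc_pl_zero]
  pS := by rw [pvuc_pl_per, pvuc_pl_zero]
  pM := by rw [pvuc_cn_per, pvuc_cn_zero]
  ok := fun j _ => pvuc_pl_all (P := fun e : PvkjEnd ℂ => e.Ok) _ _ _ _ H.okt (fun i _ => pvjc_E_ok _ _ _ _ _) H.oku j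
  uq := fun j _ => pvuc_pl_all (P := fun e : PvkjEnd ℂ => e.Uq) _ _ _ _ H.uqt (fun i _ => pvjc_E_uq H.kt.reg.geo z H.hd l i) H.uqu j
  dj := H.dj
  hO := by
    refine pvsk_cases l.length ?_ (fun i hi => ?_) ?_ ?_
    · rw [pvsk_list_zero, pvuc_pl_zero]; exact H.aO
    · rw [pvsk_list_O hi.le, pvuc_pl_door _ _ _ _ hi.le]; exact pvuc_Od_O H.hδ H.hO z d l i
    · rw [add_comm, pvsk_list_O le_rfl, pvuc_pl_door _ _ _ _ le_rfl]; exact pvuc_Od_O H.hδ H.hO z d l _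
    · rw [pvsk_list_last, pvuc_pl_u]; exact H.cO
  hE := by
    refine pvsk_cases l.length ?_ (fun i hi => ?_) ?_ ?_
    · rw [pvuc_cn_zero, pvsk_list_zero, Nat.mod_eq_of_lt (by omega), show 0 + 1 = 1 + 0 by ring, pvsk_list_O (Nat.zero_le _)]; exact H.wo
    · rw [pvuc_cn_cell _ _ _ _ _ hi, Nat.mod_eq_of_lt (by omega), show 1 + i + 1 = 1 + (i + 1) by ring, pvsk_list_O (Nat.succ_le_of_lt hi), pvsk_list_cell hi]
      exact pvuc_Wc_sub H.hδ H.hO H.hK z d l hi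
    · rw [pvuc_cn_r, Nat.mod_eq_of_lt (by omega), show l.length + 1 + 1 = l.length + 2 by ring, pvsk_list_last, pvsk_list_door]; exact H.wr
    · rw [pvuc_cn_e, show l.length + 2 + 1 = l.length + 3 by ring, Nat.mod_self, pvsk_list_last, pvsk_list_zero]; exact H.we
  hM1 := by
    refine pvsk_cases l.length ?_ (fun i hi => ?_) ?_ ?_
    · rw [pvuc_cn_zero, pvuc_cn_zero, pvuc_pl_zero, pvuc_pl_zero, pvuc_pl_door' _ _ _ _ (Nat.zero_le _), pvuc_pl_door' _ _ _ _ (Nat.zero_le _)]; exact H.mo1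
    · rw [pvuc_cn_cell _ _ _ _ _ hi, pvuc_cn_cell _ _ _ _ _ hi, pvuc_pl_door _ _ _ _ hi.le, pvuc_pl_door _ _ _ _ hi.le, show 1 + i + 1 = 1 + (i + 1) by ring,
        pvuc_pl_door _ _ _ _ (Nat.succ_le_of_lt hi), pvuc_pl_door _ _ _ _ (Nat.succ_le_of_lt hi)]
      exact Subset.rfl
    · rw [pvuc_cn_r, pvuc_cn_r, pvuc_pl_door' _ _ _ _ le_rfl, pvuc_pl_door' _ _ _ _ le_rfl, show l.length + 1 + 1 = l.length + 2 by ring, pvuc_pl_u, pvuc_pl_u]; exact H.mr1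
    · rw [pvuc_cn_e, pvuc_cn_e, pvuc_pl_u, pvuc_pl_u, show l.length + 2 + 1 = l.length + 3 by ring, pvuc_pl_per, pvuc_pl_per]; exact H.me1
  hM2 := by
    refine pvsk_cases l.length ?_ (fun i hi => ?_) ?_ ?_
    · rw [pvuc_cn_zero, pvuc_pl_zero, pvuc_pl_zero]; exact H.mo2
    · rw [pvuc_cn_cell _ _ _ _ _ hi, pvuc_pl_door _ _ _ _ hi.le, pvuc_pl_door _ _ _ _ hi.le]
      exact fun w hw => Or.inl (Or.inr hw)
    · rw [pvuc_cn_r, pvuc_pl_door' _ _ _ _ le_rfl, pvuc_pl_door' _ _ _ _ le_rfl]; exact H.mr2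
    · rw [pvuc_cn_e, pvuc_pl_u, pvuc_pl_u]; exact H.me2
  hM3 := by
    refine pvsk_cases l.length ?_ (fun i hi => ?_) ?_ ?_
    · rw [pvuc_cn_zero, pvuc_pl_door' _ _ _ _ (Nat.zero_le _), pvuc_pl_door' _ _ _ _ (Nat.zero_le _)]; exact H.mo3
    · rw [pvuc_cn_cell _ _ _ _ _ hi, show 1 + i + 1 = 1 + (i + 1) by ring, pvuc_pl_door _ _ _ _ (Nat.succ_le_of_lt hi), pvuc_pl_door _ _ _ _ (Nat.succ_le_of_lt hi)]
      exact fun w hw => Or.inr hw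
    · rw [pvuc_cn_r, show l.length + 1 + 1 = l.length + 2 by ring, pvuc_pl_u, pvuc_pl_u]; exact H.mr3
    · rw [pvuc_cn_e, show l.length + 2 + 1 = l.length + 3 by ring, pvuc_pl_per, pvuc_pl_per]; exact H.me3
  hZ := by
    refine pvsk_cases l.length ?_ (fun i hi => ?_) ?_ ?_
    · rw [pvuc_pl_zero, pvuc_pl_zero]; exact H.Zt
    · rw [pvuc_pl_door _ _ _ _ hi.le, pvuc_pl_door _ _ _ _ hi.le]; exact pvjc_zone_at H.kt.reg _ (pvth_norm_of_pow (pvtDir_pow_four d H.hd _))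
    · rw [pvuc_pl_door' _ _ _ _ le_rfl, pvuc_pl_door' _ _ _ _ le_rfl]; exact pvjc_zone_at H.kt.reg _ (pvth_norm_of_pow (pvtDir_pow_four d H.hd _))
    · rw [pvuc_pl_u, pvuc_pl_u]; exact H.Zu
  hK := by
    refine pvsk_cases l.length ?_ (fun i hi => ?_) ?_ ?_
    · rw [pvuc_cn_zero, pvuc_cn_zero]; exact H.ko
    · rw [pvuc_cn_cell _ _ _ _ _ hi, pvuc_cn_cell _ _ _ _ _ hi]; exact H.kt.KE_Mc z H.hd l hi
    · rw [pvuc_cn_r, pvuc_cn_r]; exact H.kr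
    · rw [pvuc_cn_e, pvuc_cn_e]; exact H.ke
  hU := by
    refine pvsk_cases l.length ?_ (fun i hi => ?_) ?_ ?_
    · rw [pvuc_pl_door' _ _ _ _ (Nat.zero_le _), pvuc_pl_door' _ _ _ _ (Nat.zero_le _), pvuc_Ud_zero]; exact H.u0
    · rw [show 1 + i + 1 = 1 + (i + 1) by ring, pvuc_pl_door _ _ _ _ (Nat.succ_le_of_lt hi), pvuc_pl_door _ _ _ _ (Nat.succ_le_of_lt hi), pvuc_Ud_succ]
      exact H.kt.ball_O _ (pvth_norm_of_pow (pvtDir_pow_four d H.hd _))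
    · rw [show l.length + 1 + 1 = l.length + 2 by ring, pvuc_pl_u, pvuc_pl_u]; exact H.uu
    · rw [show l.length + 2 + 1 = l.length + 3 by ring, pvuc_pl_per, pvuc_pl_per]; exact H.ut
  EB := by
    refine pvsk_cases l.length ?_ (fun i hi => ?_) ?_ ?_
    · rw [pvuc_cn_zero]; exact H.Bo.trans pvuc_Bk_B
    · rw [pvuc_cn_cell _ _ _ _ _ hi]; exact pvuc_Bk_Wc hi
    · rw [pvuc_cn_r]; exact H.Br.trans pvuc_Bk_B
    · rw [pvuc_cn_e]; exact H.Be.trans pvuc_Bk_B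
  OB := by
    refine pvsk_cases l.length ?_ (fun i hi => ?_) ?_ ?_
    · rw [pvuc_pl_zero]; exact H.Bt.trans pvuc_Bk_B
    · rw [pvuc_pl_door _ _ _ _ hi.le]; exact pvuc_Bk_Od hi.le
    · rw [pvuc_pl_door' _ _ _ _ le_rfl]; exact pvuc_Bk_Od le_rfl
    · rw [pvuc_pl_u]; exact H.Bu.trans pvuc_Bk_B
  big := ⟨0, l.length + 2, by omega, by omega, by rw [pvuc_pl_zero, pvuc_pl_u]; exact H.big⟩

/-- consecutive doors have disjoint regions -/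
theorem PvucRk.dOd (H : PvucRk 𝔨 kit z d l a c Kf Af et eu Ko Kr Ke Eo Er Ee Ot Ou St Su Mo Mr Me U0 Ut Uu B a₀) {i : ℕ} (hi : i < l.length) :
    Disjoint (pvucOd 𝔨 z d l i) (pvucOd 𝔨 z d l (i + 1)) := by
  have h := H.dj.dOO (1 + i) (by omega) (1 + (i + 1)) (by omega) (by omega)
  rw [pvsk_list_O hi.le, pvsk_list_O (Nat.succ_le_of_lt hi), pvuc_Od_O H.hδ H.hO, pvuc_Od_O H.hδ H.hO] at h
  rw [Set.disjoint_left] at h ⊢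
  exact fun w h1 h2 => h (a := (w, true)) ⟨h1, mem_univ _⟩ ⟨h2, mem_univ _⟩

end kinds2

/-! ## 13. THE LONG CYCLE UNDER THE RULE AT THE TERM OF 58 -/

theorem pvuc_F_mask {b : Bool} {𝔢 : ℕ → PvkjEnd ℂ} {KE Mk Mk' U : ℕ → Set ℂ} {j : ℕ} {x : ℂ} {η : Conf PvPt} (h : Mk j = Mk' j) (F : PvucF b 𝔢 KE Mk U j x η) : PvucF b 𝔢 KE Mk' U j x η := by
  unfold PvucF at F ⊢
  rw [← h]
  exact F

section term3

variable {τ : Type} {cc : ℝ}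

/-- the masks of the long cycle under the rule: the cells are CUT to their windows -/
noncomputable def pvucN1 (𝔓 : PvrxPar τ cc) (m : ℕ) (z : ℂ) (t : τ) (𝔨 : PvkdGeo) (Co Cr Ce : PvkjCn) : ℕ → Set ℂ :=
  pvucCn Co.M (pvucMc 𝔨 (z + (𝔓.Γ m).pout t) ((𝔓.Γ m).dout t) ((𝔓.Γ m).l1 t)) (pvuhAt Cr (pvydWu 𝔓 m z t)).M Ce.M ((𝔓.Γ m).l1 t).length

theorem pvuc_eqns_cite13 : True := by
  have := @pvucN1.eq_1
  trivial

/-- **ALL THAT CLOSE-P, LONG CYCLE, ASKS AT THE CANDIDATE `(m, z, t)`: THIRD FORM** = the facts `PvucFc1` + **`rk` = the regions under the rule, by kinds** (no lattice, no square: `dj1` of 58 pays all the disjointness) -/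
structure PvucKn1 (𝔓 : PvrxPar τ cc) (𝔶 : PvydGeo τ) (c : Bool) (m : ℕ) (z : ℂ) (t : τ) (𝔨 : PvkdGeo) (Co Cr Ce : PvkjCn) (Ot Ou St Su U0 Ut Uu : Set ℂ) (B : Set ℂ) (a₀ : ℝ) : Prop where
  fc : PvucFc1 𝔓 𝔶 c m z t 𝔨 Co Cr Ce U0 Ut Uu
  bB : Bornology.IsBounded B
  a0 : 0 < a₀
  rk : ∀ᶠ ε in 𝓝[>] (0 : ℝ), PvucRk 𝔨 ((pvydDat 𝔓 𝔶 c).kit m ε) (z + (𝔓.Γ m).pout t) ((𝔓.Γ m).dout t) ((𝔓.Γ m).l1 t) ((pvydDat 𝔓 𝔶 c).sOut m ε z t) ((pvydDat 𝔓 𝔶 c).sRef m ε z t)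
    ((pvydDat 𝔓 𝔶 c).Kr m ε z t) ((pvydDat 𝔓 𝔶 c).Ar m ε z t) Co.e Ce.e Co.Kc (pvuhAt Cr (pvydWu 𝔓 m z t)).Kc Ce.Kc Co.E (pvuhAt Cr (pvydWu 𝔓 m z t)).E Ce.E Ot Ou St Su
    Co.M (pvuhAt Cr (pvydWu 𝔓 m z t)).M Ce.M U0 Ut Uu B a₀

variable {𝔓 : PvrxPar τ cc} {𝔶 : PvydGeo τ} {c : Bool} {m : ℕ} {z : ℂ} {t : τ} {𝔨 : PvkdGeo} {Co Cr Ce : PvkjCn} {Ot Ou St Su U0 Ut Uu : Set ℂ} {B : Set ℂ} {a₀ : ℝ}

/-- **THE LONG CYCLE AT THE TERM, THIRD FORM** -/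
theorem PvucKn1.cyc (H : PvucKn1 𝔓 𝔶 c m z t 𝔨 Co Cr Ce Ot Ou St Su U0 Ut Uu B a₀) (a : ℂ) :
    PvucCyc1 (pvydDat 𝔓 𝔶 c) 𝔓.Γ a m z t c (fun _ => pvucE1 𝔓 m z t 𝔨 Co Ce) (fun _ => pvucK1 𝔓 m z t 𝔨 Co Cr Ce) (fun _ => pvucN1 𝔓 m z t 𝔨 Co Cr Ce) (fun _ => pvucU1 𝔓 m z t 𝔨 U0 Ut Uu)
      (pvucBk 𝔨 (z + (𝔓.Γ m).pout t) ((𝔓.Γ m).dout t) ((𝔓.Γ m).l1 t) B) a₀ where
  bB := by
    obtain ⟨ε, h⟩ := H.rk.exists
    exact h.kt.Bk_bdd _ h.hd _ H.bB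
  a0 := H.a0
  cyc := by
    filter_upwards [H.rk] with ε h
    exact h.rg.cyc
  pM := Eventually.of_forall fun _ => by
    show pvucCn _ _ _ _ _ _ = pvucCn _ _ _ _ _ _
    rw [pvuc_cn_per, pvuc_cn_zero]
  mM := by
    filter_upwards [H.rk] with ε h
    refine pvsk_cases _ ?_ (fun i hi => ?_) ?_ ?_
    · show MeasurableSet (pvucCn _ _ _ _ _ _)
      rw [pvuc_cn_zero]; exact H.fc.lo.wf.mM
    · show MeasurableSet (pvucCn _ _ _ _ _ _)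
      rw [pvuc_cn_cell _ _ _ _ _ hi]; exact h.kt.Mc_meas _ h.hd _ hi
    · show MeasurableSet (pvucCn _ _ _ _ _ _)
      rw [pvuc_cn_r]; exact H.fc.lr.wf.mM
    · show MeasurableSet (pvucCn _ _ _ _ _ _)
      rw [pvuc_cn_e]; exact H.fc.le.wf.mM
  bM := by
    filter_upwards [H.rk] with ε h j hj
    exact (h.kt.Bk_bdd _ h.hd _ H.bB).subset (h.rg.MB j hj)
  dM := by
    filter_upwards [H.rk] with ε h
    exact h.rg.dM
  fo := by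
    filter_upwards [H.fc.fo a] with ε h
    filter_upwards [h] with η hη g1 g2 g3
    refine pvuc_F_mask ?_ (hη g1 g2 g3)
    show pvucCn _ _ _ _ _ _ = pvucCn _ _ _ _ _ _
    rw [pvuc_cn_zero, pvuc_cn_zero]
  fk := by
    filter_upwards [H.fc.dict, H.rk, self_mem_nhdsWithin] with ε h3 hr hε i hi
    filter_upwards [pvuc_word hε h3 hr.kt c (z + (𝔓.Γ m).pout t) H.fc.d4 ((𝔓.Γ m).l1 t) hi (hr.dOd hi)] with η hη g1 _ g3
    unfold PvucF pvucE1 pvucK1 pvucN1 pvucU1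
    rw [pvuc_pl_door _ _ _ _ hi.le, show 1 + i + 1 = 1 + (i + 1) by ring, pvuc_pl_door _ _ _ _ (Nat.succ_le_of_lt hi), pvuc_cn_cell _ _ _ _ _ hi, pvuc_cn_cell _ _ _ _ _ hi,
      pvuc_pl_door _ _ _ _ (Nat.succ_le_of_lt hi), pvuc_Ud_succ]
    exact hη g1 g3
  fr := by
    filter_upwards [H.fc.fr a] with ε h
    filter_upwards [h] with η hη g1 g2 g3
    refine pvuc_F_mask ?_ (hη g1 g2 g3)
    show pvucCn _ _ _ _ _ _ = pvucCn _ _ _ _ _ _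
    rw [pvuc_cn_r, pvuc_cn_r]
  fe := by
    filter_upwards [H.fc.fe a] with ε h
    filter_upwards [h] with η hη g1 g2 g3
    refine pvuc_F_mask ?_ (hη g1 g2 g3)
    show pvucCn _ _ _ _ _ _ = pvucCn _ _ _ _ _ _
    rw [pvuc_cn_e, pvuc_cn_e]

/-- **CLOSE-P, LONG CYCLE, AT THE TERM, THIRD FORM** -/
theorem PvucKn1.close (H : PvucKn1 𝔓 𝔶 c m z t 𝔨 Co Cr Ce Ot Ou St Su U0 Ut Uu B a₀) (a : ℂ) : ∃ (Mk : ℝ → ℕ → Set ℂ) (B : Set ℂ) (a₀ : ℝ), PvcpClose1 (pvydDat 𝔓 𝔶 c) 𝔓.Γ a m z t Mk B a₀ :=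
  ⟨_, _, _, pvuc_close1 (H.cyc a)⟩

end term3

/-! ## 14. THE CONTRACT UNDER THE RULE -/

section rul

variable {τ : Type} {cc : ℝ}

/-- **THE CONTRACT OF CLOSE-P AT THE CANDIDATE `(m, z, t)`, SECOND EDITION** = `PvucSup` of `Exit/CloseTP` sec. 7 with `fg` (foreign masks against the SQUARES of the cells) REPLACED by **`rk`** (regions under the rule);
`reg hO hK simple` are gone (`rk` carries `PvucKt`, `hδ hO hK`; the word need not be cell-simple: `dj1`).      `Ot Ou` = planar regions of `t u`, `St Su` = their front sets. -/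
structure PvucRul (𝔓 : PvrxPar τ cc) (𝔶 : PvydGeo τ) (m : ℕ) (z : ℂ) (t : τ) (𝔨 : PvkdGeo) (Co Cr Ce Cb : PvkjCn) (KDo KDr KDe KDb : Set ℂ) (Ot Ou St Su U0 Ut Uu Vt Vu : Set ℂ) (B : Set ℂ) (a₀ cM h : ℝ) : Prop where
  /-- the kit -/
  dict : ∀ᶠ ε in 𝓝[>] (0 : ℝ), PvjcDict (𝔶.kit m ε) (𝔶.X₀ m ε) 𝔨 ε
  geo : PvjcGeo 𝔨
  del : 𝔨.δ = (𝔓.Γ m).δ
  bB : Bornology.IsBounded B
  a0 : 0 < a₀
  c0 : 0 ≤ cM
  /-- colours -/
  co : Co.col = (𝔓.ty m z t).col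
  cr : Cr.col = true
  ce : Ce.col = (𝔓.ty m z t).col
  cb : Cb.col = (𝔓.ty m z t).col
  /-- joins -/
  jo : Co.e' = pvjcE 𝔨 (z + (𝔓.Γ m).pout t) ((𝔓.Γ m).dout t) ((𝔓.Γ m).l1 t) 0
  jr : (pvuhAt Cr (pvydWu 𝔓 m z t)).e = pvjcE 𝔨 (z + (𝔓.Γ m).pout t) ((𝔓.Γ m).dout t) ((𝔓.Γ m).l1 t) ((𝔓.Γ m).l1 t).length
  ju : (pvuhAt Cr (pvydWu 𝔓 m z t)).e' = Ce.e
  jt : Ce.e' = Co.e
  jb : Cb.e = Co.e
  jb' : Cb.e' = Ce.e
  /-- the rooms of each connector -/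
  lo : PvucLk Co U0
  lr : PvucLk (pvuhAt Cr (pvydWu 𝔓 m z t)) Uu
  le : PvucLk Ce Ut
  lb : PvucLk Cb Vu
  le' : PvucLk Ce Vt
  /-- masses -/
  Xo : 𝔶.Xo m z t = pvkjX Co
  Xr : 𝔶.Xr m = pvkjX Cr
  Xe : 𝔶.Xe m z t = pvkjX Ce
  Xb : 𝔶.Xb m z t = pvkjX Cb
  /-- windows -/
  Eo : ∀ᶠ ε in 𝓝[>] (0 : ℝ), Co.E ×ˢ (univ : Set Bool) ⊆ pvnhRd (𝔶.lo 𝔓 (𝔓.ty m z t).col m ε z t) (𝔶.wo m z t).Et
  Er : ∀ᶠ ε in 𝓝[>] (0 : ℝ), Cr.E ×ˢ (univ : Set Bool) ⊆ pvnhRd (𝔶.lr 𝔓 m ε) (𝔶.wr m).Et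
  Ee : Ce.E ×ˢ (univ : Set Bool) ⊆ pvnhRd (𝔶.le 𝔓 (𝔓.ty m z t).col m z t) (𝔶.we m z t).Et
  Eb : Cb.E ×ˢ (univ : Set Bool) ⊆ pvnhRd (𝔶.lb 𝔓 (𝔓.ty m z t).col m z t) (𝔶.wb m z t).Et
  /-- the regions of the long cycle UNDER THE RULE -/
  rk : ∀ᶠ ε in 𝓝[>] (0 : ℝ), PvucRk 𝔨 ((pvydDat 𝔓 𝔶 (𝔓.ty m z t).col).kit m ε) (z + (𝔓.Γ m).pout t) ((𝔓.Γ m).dout t) ((𝔓.Γ m).l1 t) ((pvydDat 𝔓 𝔶 (𝔓.ty m z t).col).sOut m ε z t)
    ((pvydDat 𝔓 𝔶 (𝔓.ty m z t).col).sRef m ε z t) ((pvydDat 𝔓 𝔶 (𝔓.ty m z t).col).Kr m ε z t) ((pvydDat 𝔓 𝔶 (𝔓.ty m z t).col).Ar m ε z t) Co.e Ce.e Co.Kc (pvuhAt Cr (pvydWu 𝔓 m z t)).Kc Ce.Kc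
    Co.E (pvuhAt Cr (pvydWu 𝔓 m z t)).E Ce.E Ot Ou St Su Co.M (pvuhAt Cr (pvydWu 𝔓 m z t)).M Ce.M U0 Ut Uu B a₀
  /-- the regions of the short cycle -/
  sh : PvucSh Cb.e Ce.e Cb.Kc Ce.Kc Cb.M Ce.M Vt Vu B a₀
  vol : volume Ce.M ≤ ENNReal.ofReal (cM * h ^ 2)
  /-- (DET): one record of 272 per link -/
  Do : ∀ᶠ ε in 𝓝[>] (0 : ℝ), Pvn2Rec ε (𝔶.lo 𝔓 (𝔓.ty m z t).col m ε z t) (𝔶.wo m z t).M (pvydG 𝔓 m ε z t)
    ((pvydKit (𝔶.kit m ε) (𝔓.ty m z t).col).G (z + (𝔓.Γ m).pout t) ((𝔓.Γ m).dout t)) Co KDo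
  Dr : ∀ᶠ ε in 𝓝[>] (0 : ℝ), Pvn2Rec ε (𝔶.lr 𝔓 m ε) (𝔶.wr m).M ((𝔶.kit m ε).G (𝔓.Γ m).pin0 (𝔓.Γ m).din0) (𝔶.Gu m ε) Cr KDr
  De : ∀ᶠ ε in 𝓝[>] (0 : ℝ), Pvn2Rec ε (𝔶.le 𝔓 (𝔓.ty m z t).col m z t) (𝔶.we m z t).M (𝔶.GU 𝔓 (𝔓.ty m z t).col m ε z t) (pvydG 𝔓 m ε z t) Ce KDe
  Db : ∀ᶠ ε in 𝓝[>] (0 : ℝ), Pvn2Rec ε (𝔶.lb 𝔓 (𝔓.ty m z t).col m z t) (𝔶.wb m z t).M (pvydG 𝔓 m ε z t) (𝔶.GU 𝔓 (𝔓.ty m z t).col m ε z t) Cb KDb

variable {𝔓 : PvrxPar τ cc} {𝔶 : PvydGeo τ} {m : ℕ} {z : ℂ} {t : τ} {𝔨 : PvkdGeo} {Co Cr Ce Cb : PvkjCn} {KDo KDr KDe KDb : Set ℂ} {Ot Ou St Su U0 Ut Uu Vt Vu : Set ℂ} {B : Set ℂ} {a₀ cM h : ℝ}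
variable {n nu : ℕ} {βk βu q0 : ℝ} {β' qk : ℝ≥0∞}

/-- the contract + P16 of 272 ⟹ the long cycle -/
theorem PvucRul.kn1 (S : PvucRul 𝔓 𝔶 m z t 𝔨 Co Cr Ce Cb KDo KDr KDe KDb Ot Ou St Su U0 Ut Uu Vt Vu B a₀ cM h) (hq0 : 0 < q0) (hq1 : q0 ≤ 1) (hQ : PvlqQbx q0) (hW : 𝔓.Wf) (hβ : 0 < 𝔓.mod.N.β)
    (K : 𝔶.KitOk 𝔓 m β' qk) (Cd : 𝔶.CandOk 𝔓 m z t) (U : PvndKitUp 𝔶 𝔓 m βk βu n) (R : PvndCand 𝔶 𝔓 n nu m z t)
    (qo : 𝔶.qo m ≤ pvndQ q0 n (min 𝔓.mod.N.β βk)) (qr : 𝔶.qr m ≤ pvndQ q0 n (min βk βu)) (qe : 𝔶.qe ≤ pvndQ q0 nu (min 𝔓.mod.N.β βu)) :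
    PvucKn1 𝔓 𝔶 (𝔓.ty m z t).col m z t 𝔨 Co Cr Ce Ot Ou St Su U0 Ut Uu B a₀ where
  fc :=
    { dict := S.dict
      geo := S.geo
      del := S.del
      d4 := Cd.d4o
      co := S.co
      cr := S.cr
      ce := S.ce
      jo := S.jo
      jr := S.jr
      ju := S.ju
      jt := S.jt
      lo := S.lo
      wr := by
        obtain ⟨ε, hε⟩ := S.Dr.exists
        exact hε.wf
      lr := S.lr
      le := S.le
      Xo := S.Xo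
      Xr := S.Xr
      Xe := S.Xe
      Eo := S.Eo
      Er := S.Er
      Ee := S.Ee
      deto := pvn2_o (C := fun _ => Co) (KE := fun _ => KDo) hq0 hq1 hQ hW hβ K Cd U R qo S.Do
      detr := pvn2_r (C := fun _ => Cr) (KE := fun _ => KDr) hq0 hq1 hQ K U qr S.Dr
      dete := pvn2_e (C := fun _ => Ce) (KE := fun _ => KDe) hq0 hq1 hQ hW hβ K Cd U R qe S.De }
  bB := S.bB
  a0 := S.a0
  rk := S.rk

/-- the contract + P16 of 272 ⟹ the short cycle -/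
theorem PvucRul.in2 (S : PvucRul 𝔓 𝔶 m z t 𝔨 Co Cr Ce Cb KDo KDr KDe KDb Ot Ou St Su U0 Ut Uu Vt Vu B a₀ cM h) (hq0 : 0 < q0) (hq1 : q0 ≤ 1) (hQ : PvlqQbx q0) (hW : 𝔓.Wf) (hβ : 0 < 𝔓.mod.N.β)
    (K : 𝔶.KitOk 𝔓 m β' qk) (Cd : 𝔶.CandOk 𝔓 m z t) (U : PvndKitUp 𝔶 𝔓 m βk βu n) (R : PvndCand 𝔶 𝔓 n nu m z t)
    (qe : 𝔶.qe ≤ pvndQ q0 nu (min 𝔓.mod.N.β βu)) (qb : 𝔶.qb ≤ pvndQ q0 nu (min 𝔓.mod.N.β βu)) :
    PvucIn2 𝔓 𝔶 (𝔓.ty m z t).col m z t Cb Ce Vt Vu B a₀ cM h where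
  c0 := S.c0
  bB := S.bB
  cb := S.cb
  ce := S.ce
  ju := S.jb'
  jt := S.jt.trans S.jb.symm
  sh := S.sh
  vol := S.vol
  lb := S.lb
  le := S.le'
  Xb := S.Xb
  Xe := S.Xe
  Eb := S.Eb
  Ee := S.Ee
  detb := pvn2_b (C := fun _ => Cb) (KE := fun _ => KDb) hq0 hq1 hQ hW hβ K Cd U R qb S.Db
  dete := pvn2_e (C := fun _ => Ce) (KE := fun _ => KDe) hq0 hq1 hQ hW hβ K Cd U R qe S.De

/-- **THE FIELD `close1` AT ONE CANDIDATE FROM THE CONTRACT UNDER THE RULE** -/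
theorem PvucRul.close1 (S : PvucRul 𝔓 𝔶 m z t 𝔨 Co Cr Ce Cb KDo KDr KDe KDb Ot Ou St Su U0 Ut Uu Vt Vu B a₀ cM h) (hq0 : 0 < q0) (hq1 : q0 ≤ 1) (hQ : PvlqQbx q0) (hW : 𝔓.Wf) (hβ : 0 < 𝔓.mod.N.β)
    (K : 𝔶.KitOk 𝔓 m β' qk) (Cd : 𝔶.CandOk 𝔓 m z t) (U : PvndKitUp 𝔶 𝔓 m βk βu n) (R : PvndCand 𝔶 𝔓 n nu m z t)
    (qo : 𝔶.qo m ≤ pvndQ q0 n (min 𝔓.mod.N.β βk)) (qr : 𝔶.qr m ≤ pvndQ q0 n (min βk βu)) (qe : 𝔶.qe ≤ pvndQ q0 nu (min 𝔓.mod.N.β βu)) (a : ℂ) :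
    ∃ (Mk : ℝ → ℕ → Set ℂ) (B : Set ℂ) (a₀ : ℝ), PvcpClose1 (pvydDat 𝔓 𝔶 (𝔓.ty m z t).col) 𝔓.Γ a m z t Mk B a₀ :=
  (S.kn1 hq0 hq1 hQ hW hβ K Cd U R qo qr qe).close a

/-- **THE FIELD `close2` AT ONE CANDIDATE FROM THE CONTRACT UNDER THE RULE** -/
theorem PvucRul.close2 (S : PvucRul 𝔓 𝔶 m z t 𝔨 Co Cr Ce Cb KDo KDr KDe KDb Ot Ou St Su U0 Ut Uu Vt Vu B a₀ cM h) (hq0 : 0 < q0) (hq1 : q0 ≤ 1) (hQ : PvlqQbx q0) (hW : 𝔓.Wf) (hβ : 0 < 𝔓.mod.N.β)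
    (K : 𝔶.KitOk 𝔓 m β' qk) (Cd : 𝔶.CandOk 𝔓 m z t) (U : PvndKitUp 𝔶 𝔓 m βk βu n) (R : PvndCand 𝔶 𝔓 n nu m z t)
    (qe : 𝔶.qe ≤ pvndQ q0 nu (min 𝔓.mod.N.β βu)) (qb : 𝔶.qb ≤ pvndQ q0 nu (min 𝔓.mod.N.β βu)) (a : ℂ) :
    PvcpClose2 (pvydDat 𝔓 𝔶 (𝔓.ty m z t).col) a m z t (fun _ => Ce.M) cM h :=
  (S.in2 hq0 hq1 hQ hW hβ K Cd U R qe qb).close a

end rul

end Claimed.Agent.R289
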