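import Claimed.Agent.R289.Exit.CloseP
import Claimed.Agent.R289.Tr.DilK
import Claimed.Agent.R289.Tr.KitEnd
import Claimed.Agent.R289.Tr.KitGeo

/-!
# Row 289 (S0537, Cardy for Poisson-Voronoi), THE WALL, ROAD P, file Exit/CloseRP : CLOSE-P, **THE CELLS** = the field `fk` of `PvucCyc1` (95, `Exit/CloseP`)      (helper203; post P14 of 273, split of 95; prefix `pvjc_`, `pvjc`, `Pvjc`)

`PvucCyc1.fk` : for `i < |l1 t|`, a.e.: the doors `i`, `i + 1` usable + success of the cell `i`  ⟹  THE FACT of 113 (`PvkjFt`) of the connector `1 + i`, value = the field `kit.Xj X₀ .. i`.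
BOTH COLOURS: the contract `PvrsGeoOk.close1` (79, `Exit/RestP`) is at `pvydDat 𝔓 𝔶 (ty m z t).col`; the kit of colour `c` is `pvydKit kit c` (58), so the fact is wanted at `PvucF c`.

* sec. 1  THE FACT IN A COLOUR FRAME: `PvjcQ S s ..` = the fact as a predicate of (set of sites, colouring);   **`pvjc_fact_fl`** : the fact at `(pvydFl c η, true)` is the fact at `(η, c)`.
* sec. 2  WHAT THE KIT OWES: `PvjcDict kit X₀ 𝔨 ε` (a.e. dictionary soft ⟹ record, every frame `d ^ 4 = 1`), `PvjcGeo 𝔨` (three lines on the regions).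
          PRODUCERS: `pvjc_dict_unit` (34 + 251), **`pvjc_dict_sc`** (227: the unit kit at the mesh `ε / s` scaled by `s` = THE TERM OF RECORD of 291 / 36), `pvjc_geo_ref` (244), `PvjcGeo.sc`, `pvjc_geo_rec`.
* sec. 3  ONE CELL **`pvjc_cell`**;   A WORD: the regions `pvjcE pvjcKE pvjcMk pvjcU`, **`pvjc_word`**.
* sec. 4  **`pvjc_fk`** = the field `fk` VERBATIM, any datum `D`;   **`pvjc_fk_dat`** at `pvydDat 𝔓 𝔶 c`.
* sec. 5  THE CELLS' SHARE OF `cyc mM bM dM`: **`pvjc_mask_disj`** (placed half open cells of a `PvccSimple` word are pairwise disjoint), `PvjcReg 𝔨` (244's `PvkxRef` + zone in `O₀` + room in `Ea`), `pvjc_E_ok _uq _Z`, `pvjc_KE_sub _Mk`, `pvjc_Mk_meas _bdd _disj`, `pvjc_U_cover`;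
          **`pvjc_geo_of_dj`** (MODEL FREE: `PvkjGeo` from `PvydDj` of 58 + `dM`);   `PvjcFor` = what the foreign pieces `t u o r e` owe (regions);   **`pvjc_cyc`**, `pvjc_mM _bM _dM`.
* sec. 6  **`pvjc_cyc1`** : `PvucCyc1` from `PvjcFor`, `pM`, `fo fr fe` only.
* sec. 7  AT THE INSTANCE OF RECORD: `PvjcReg.sc`, `pvjc_reg_unit : PvjcReg pvkgG`, **`pvjc_reg_rec : PvjcReg (pvkgG.sc s)`**.      (`hs` of `pvjc_cyc1` at `pvlzGam` of 114: `(pvlzPat H c m t).simple`, `Tr/FitP`.)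
-/

set_option autoImplicit false

namespace Claimed.Agent.R289

open MeasureTheory Filter Topology Set Metric Claims.C0465
open scoped ENNReal

/-! ## 1. the fact in a colour frame -/

/-- **the fact of 113 as a predicate of the set of sites `S` and of the colouring `s`** (`true` = the colour of the rim) -/
def PvjcQ (S : Set ℂ) (s : ↥S → Bool) (𝔢 𝔢' : PvkjEnd ℂ) (KE M U : Set ℂ) (x : ℂ) : Prop :=
  ∃ (g g' : (delbPl S).toMap.Gate s) (N : ℕ), PvkjLk (delbPl S).toMap Subtype.val s 𝔢 𝔢' KE g g' N ∧ g.c.Left.Finite ∧ g'.c.Left.Finite ∧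
    (∀ i, i < (pvtArc (delbPl S).toMap s g.aOut N).n → (delbPl S).toMap.bary Subtype.val ((delbPl S).toMap.opp ((pvtArc (delbPl S).toMap s g.aOut N).e i)) ∈ M) ∧
    (∀ i, i < (pvtArc (delbPl S).toMap s g'.aIn g'.len).n → (delbPl S).toMap.bary Subtype.val ((delbPl S).toMap.opp ((pvtArc (delbPl S).toMap s g'.aIn g'.len).e i)) ∈ U) ∧
    x = (pvtArc (delbPl S).toMap s g.aIn g.len).psum (fun d => M.indicator 1 ((delbPl S).toMap.bary Subtype.val d) * (delbPl S).toMap.qpart Subtype.val d) +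
      (pvtArc (delbPl S).toMap s g.aOut N).psum (fun d => M.indicator 1 ((delbPl S).toMap.bary Subtype.val d) * (delbPl S).toMap.qpart Subtype.val d) +
      (pvtArc (delbPl S).toMap s g'.aIn g'.len).psum (fun d => M.indicator 1 ((delbPl S).toMap.bary Subtype.val d) * (delbPl S).toMap.qpart Subtype.val d)

theorem pvjc_eqns_cite : True := by
  have := @PvjcQ.eq_1
  trivial

section frame

variable {𝔢 𝔢' : PvkjEnd ℂ} {KE M U : Set ℂ} {x : ℂ}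

theorem pvjc_Q_iff (η : Conf PvPt) (b : Bool) : (∃ g g' N, PvkjFt η b 𝔢 𝔢' KE M U x g g' N) ↔ PvjcQ (cfSites η) (pvlfFl b (pvkiS η)) 𝔢 𝔢' KE M U x :=
  ⟨fun ⟨g, g', N, h⟩ => ⟨g, g', N, h.lk, h.fin, h.fin', h.blk, h.binn, h.val⟩, fun ⟨g, g', N, h1, h2, h3, h4, h5, h6⟩ => ⟨g, g', N, ⟨h1, h2, h3, h4, h5, h6⟩⟩⟩

theorem pvjc_Q_congr {S S' : Set ℂ} (h : S' = S) {s : ↥S → Bool} {s' : ↥S' → Bool} (hs : ∀ (a : ℂ) (ha : a ∈ S'), s' ⟨a, ha⟩ = s ⟨a, h ▸ ha⟩)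
    (H : PvjcQ S' s' 𝔢 𝔢' KE M U x) : PvjcQ S s 𝔢 𝔢' KE M U x := by
  subst h
  have e : s' = s := funext fun ⟨a, ha⟩ => hs a ha
  subst e
  exact H

/-- **THE FACT IN A COLOUR FRAME**: the fact with black rims at the configuration in which the colour `c` is called black is the fact with rims of colour `c` -/
theorem pvjc_fact_fl (c : Bool) {η : Conf PvPt} (hη : CfOK η) (H : ∃ g g' N, PvkjFt (pvydFl c η) true 𝔢 𝔢' KE M U x g g' N) : ∃ g g' N, PvkjFt η c 𝔢 𝔢' KE M U x g g' N := by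
  rw [pvjc_Q_iff] at H ⊢
  refine pvjc_Q_congr (pvye_sites_fl c η) (fun a ha => ?_) H
  have ha' : a ∈ cfSites η := pvye_sites_fl c η ▸ ha
  show (cfCol (pvydFl c η) a == true) = (cfCol η a == c)
  rw [pvye_col_fl c hη ha']
  cases (cfCol η a == c) <;> rfl

end frame

/-! ## 2. what the kit owes -/

/-- **THE DICTIONARY OF A KIT** at the mesh `ε`: cells of the side of `𝔨`; in every frame, a.e., entrance door usable + success of the (soft) cell ⟹ the link of record of `𝔨` on the plane map of `η`, the (soft) field is the mass `XQ` of 34 -/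
structure PvjcDict (kit : PvthKit) (X₀ : PvtTurn → Conf PvPt → ℂ) (𝔨 : PvkdGeo) (ε : ℝ) : Prop where
  δ : kit.δ = 𝔨.δ
  dict : ∀ (z d : ℂ), d ^ 4 = 1 → ∀ τ : PvtTurn, ∀ᵐ η ∂(pvP ε), η ∈ kit.G z d → η ∈ kit.A z d τ → η ∈ 𝔨.A z d τ ∧ pvthX X₀ z d τ η = 𝔨.XQ z d τ η

/-- **what the regions of the cells owe to the fact** -/
structure PvjcGeo (𝔨 : PvkdGeo) : Prop where
  dis : Disjoint 𝔨.Zm 𝔨.Zp
  cvx : ∀ τ, Convex ℝ (𝔨.Mk τ)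
  sub : ∀ τ, 𝔨.Co τ ⊆ 𝔨.Mk τ

section prod

variable {𝔤 : PvkdGeo} {Hf : Fin 4 → Set (Conf PvPt)} {b q β' : ℝ≥0∞} {CB r : ℝ}

/-- the soft kit of 34 at its own scale      (`pvpg_dict`, `pvco_cov`) -/
theorem pvjc_dict_unit {ε : ℝ} (H : (𝔤.glob Hf).Ok ε b q β' CB r) : PvjcDict ((𝔤.glob Hf).kit (pvP ε) b q) ((𝔤.glob Hf).fQ (pvP ε)) 𝔤 ε where
  δ := rfl
  dict z d hd τ := by
    filter_upwards [pvpg_dict H z d (pvth_norm_of_pow hd) τ] with η hη hG hA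
    obtain ⟨-, h2, h3⟩ := hη hG hA
    refine ⟨?_, ?_⟩
    · rw [(pvco_cov 𝔤).A z d τ hd]
      exact h2
    · rw [h3, (pvco_cov 𝔤).X z d τ _ hd]
      rfl

/-- **THE TERM OF RECORD** (291 36): the unit kit at the mesh `e`, scaled by `s`, at the mesh `s e`      (`pvdil_dict_sc` of 227) -/
theorem pvjc_dict_sc' {e : ℝ} (H : (𝔤.glob Hf).Ok e b q β' CB r) {s : ℝ} (hs : 0 < s) :
    PvjcDict (((𝔤.glob Hf).kit (pvP e) b q).sc s) (pvthX ((𝔤.glob Hf).fQ (pvP e)) 0 s) (𝔤.sc s) (s * e) where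
  δ := rfl
  dict z d hd τ := by
    filter_upwards [pvdil_dict_sc H hs z hd τ] with η hη hG hA
    exact (hη hG hA).2

/-- the same at the mesh `ε`, unit kit at the mesh `ε / s` -/
theorem pvjc_dict_sc {ε s : ℝ} (hs : 0 < s) (H : (𝔤.glob Hf).Ok (ε / s) b q β' CB r) :
    PvjcDict (((𝔤.glob Hf).kit (pvP (ε / s)) b q).sc s) (pvthX ((𝔤.glob Hf).fQ (pvP (ε / s))) 0 s) (𝔤.sc s) ε := by
  have h := pvjc_dict_sc' H hs
  rwa [mul_div_cancel₀ _ hs.ne'] at h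

/-- eventually in the mesh -/
theorem pvjc_dict_ev {s : ℝ} (hs : 0 < s) (H : ∀ᶠ e in 𝓝[>] (0 : ℝ), (𝔤.glob Hf).Ok e b q β' CB r) :
    ∀ᶠ ε in 𝓝[>] (0 : ℝ), PvjcDict (((𝔤.glob Hf).kit (pvP (ε / s)) b q).sc s) (pvthX ((𝔤.glob Hf).fQ (pvP (ε / s))) 0 s) (𝔤.sc s) ε := by
  filter_upwards [(pvkm_tendsto_div hs).eventually H] with ε hε
  exact pvjc_dict_sc hs hε

/-- the reference frame of 244 -/
theorem pvjc_geo_ref (h : PvkxRef 𝔤) : PvjcGeo 𝔤 where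
  dis := h.ZZ
  cvx τ := by rw [h.Mk]; exact pvkx_M_convex _
  sub τ := by rw [h.Mk]; exact h.Co τ

theorem pvjc_S_convex (s : ℝ) {S : Set ℂ} (h : Convex ℝ S) : Convex ℝ (pvdilS s S) := by
  rw [pvdil_S_sim]
  exact pvkx_at_convex 0 s h

theorem PvjcGeo.sc (h : PvjcGeo 𝔤) {s : ℝ} (hs : 0 < s) : PvjcGeo (𝔤.sc s) where
  dis := pvdil_S_disjoint hs h.dis
  cvx τ := pvjc_S_convex s (h.cvx τ)
  sub τ := pvdil_S_mono s (h.sub τ)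

/-- **the geometry of record** (258) at every scale -/
theorem pvjc_geo_rec {s : ℝ} (hs : 0 < s) : PvjcGeo (pvkgG.sc s) := (pvjc_geo_ref pvkgg_xref).sc hs

end prod

/-! ## 3. one cell, a word -/

section cell

variable {kit : PvthKit} {X₀ : PvtTurn → Conf PvPt → ℂ} {𝔨 : PvkdGeo} {ε : ℝ}

/-- an a.e. statement in a colour frame -/
theorem pvjc_ae_fl (c : Bool) (ε : ℝ) {p : Conf PvPt → Prop} (h : ∀ᵐ η ∂(pvP ε), p η) : ∀ᵐ η ∂(pvP ε), p (pvydFl c η) := by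
  rw [← pvyd_law_fl c ε] at h
  exact ae_of_ae_map (pvyd_fl_meas c).aemeasurable h

theorem pvjc_X_fl (X₀ : PvtTurn → Conf PvPt → ℂ) (c : Bool) (z d : ℂ) (τ : PvtTurn) (η : Conf PvPt) : pvthX (pvydX X₀ c) z d τ η = pvthX X₀ z d τ (pvydFl c η) := by
  unfold pvthX pvydX
  rw [pvyd_fl_cfMap]

/-- **THE FACT OF ONE CELL OF THE KIT OF COLOUR `c`**, any frame -/
theorem pvjc_cell (hε : 0 < ε) (hD : PvjcDict kit X₀ 𝔨 ε) (hG : PvjcGeo 𝔨) (c : Bool) (z : ℂ) {d : ℂ} (hd : d ^ 4 = 1) (τ : PvtTurn) :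
    ∀ᵐ η ∂(pvP ε), η ∈ (pvydKit kit c).G z d → η ∈ (pvydKit kit c).A z d τ →
      ∃ g g' N, PvkjFt η c (pvkjKit (𝔨.pg z d)) (pvkjKit (𝔨.pg (𝔨.zo z d τ) (d * τ.rot))) (pvkdAt z d (𝔨.Co τ)) (pvkdAt z d (𝔨.Mk τ)) (ball (𝔨.zo z d τ) 𝔨.b)
        (pvthX (pvydX X₀ c) z d τ η) g g' N := by
  filter_upwards [pvjc_ae_fl c ε (hD.dict z d hd τ), dls_ae_conf hε] with η h hok h1 h2
  rw [pvyd_kit_G] at h1
  rw [pvyd_kit_A] at h2
  obtain ⟨a1, a2⟩ := h h1 h2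
  have key := pvkj_fact_cell 𝔨 hG.dis (pvkx_at_convex z d (hG.cvx τ)) (pvkx_at_mono z d (hG.sub τ)) a1
  rw [← a2, ← pvjc_X_fl] at key
  exact pvjc_fact_fl c hok key

end cell

/-- the end of the door number `i` of the word `l` started at `(z,d)` : THE gate of record -/
noncomputable def pvjcE (𝔨 : PvkdGeo) (z d : ℂ) (l : List PvtTurn) (i : ℕ) : PvkjEnd ℂ := pvkjKit (𝔨.pg (pvthZ 𝔨.δ z d l i) (pvthD d l i))
/-- the corridor of the cell number `i` -/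
noncomputable def pvjcKE (𝔨 : PvkdGeo) (z d : ℂ) (l : List PvtTurn) (i : ℕ) : Set ℂ := pvkdAt (pvthZ 𝔨.δ z d l i) (pvthD d l i) (𝔨.Co (pvthL l i))
/-- the mask of the cell number `i` -/
noncomputable def pvjcMk (𝔨 : PvkdGeo) (z d : ℂ) (l : List PvtTurn) (i : ℕ) : Set ℂ := pvkdAt (pvthZ 𝔨.δ z d l i) (pvthD d l i) (𝔨.Mk (pvthL l i))
/-- the room of the tags of the inner arc of the door number `i` -/
noncomputable def pvjcU (𝔨 : PvkdGeo) (z d : ℂ) (l : List PvtTurn) (i : ℕ) : Set ℂ := ball (pvthZ 𝔨.δ z d l i) 𝔨.b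

theorem pvjc_eqns_cite2 : True := by
  have := @pvjcE.eq_1; have := @pvjcKE.eq_1; have := @pvjcMk.eq_1; have := @pvjcU.eq_1
  trivial

section word

variable {kit : PvthKit} {X₀ : PvtTurn → Conf PvPt → ℂ} {𝔨 : PvkdGeo} {ε : ℝ}

/-- **THE FACT OF THE CELL NUMBER `i` OF A WORD** -/
theorem pvjc_word (hε : 0 < ε) (hD : PvjcDict kit X₀ 𝔨 ε) (hG : PvjcGeo 𝔨) (c : Bool) (z : ℂ) {d : ℂ} (hd : d ^ 4 = 1) (l : List PvtTurn) {i : ℕ} (hi : i < l.length) :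
    ∀ᵐ η ∂(pvP ε), η ∈ (pvydKit kit c).G (pvthZ (pvydKit kit c).δ z d l i) (pvthD d l i) → η ∈ (pvydKit kit c).A (pvthZ (pvydKit kit c).δ z d l i) (pvthD d l i) (pvthL l i) →
      ∃ g g' N, PvkjFt η c (pvjcE 𝔨 z d l i) (pvjcE 𝔨 z d l (i + 1)) (pvjcKE 𝔨 z d l i) (pvjcMk 𝔨 z d l i) (pvjcU 𝔨 z d l (i + 1)) ((pvydKit kit c).Xj (pvydX X₀ c) z d l i η) g g' N := by
  have hδ : (pvydKit kit c).δ = 𝔨.δ := hD.δ
  have h := pvjc_cell hε hD hG c (pvthZ 𝔨.δ z d l i) (pvtDir_pow_four d hd (l.take i)) (pvthL l i)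
  obtain ⟨e1, e2⟩ := pvdil_zo_succ 𝔨 z d l hi
  unfold PvthKit.Xj pvjcE pvjcKE pvjcMk pvjcU
  rw [hδ, ← e1, ← e2]
  exact h

end word

/-! ## 4. THE FIELD `fk` -/

section fk

variable {τ : Type} {D : PvypDat τ} {Γ : ℕ → PvtsGeo τ} {a : ℂ} {m : ℕ} {z : ℂ} {t : τ} {c : Bool} {𝔢 : ℝ → ℕ → PvkjEnd ℂ} {KE Mk U : ℝ → ℕ → Set ℂ}

/-- **THE FIELD `fk` OF `PvucCyc1`, VERBATIM**, any datum `D` whose kit at the level `m` is the kit of colour `c` of a kit with a dictionary -/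
theorem pvjc_fk {kit : ℝ → PvthKit} {X₀ : ℝ → PvtTurn → Conf PvPt → ℂ} {𝔨 : PvkdGeo}
    (hk : ∀ᶠ ε in 𝓝[>] (0 : ℝ), D.kit m ε = pvydKit (kit ε) c) (hX : ∀ᶠ ε in 𝓝[>] (0 : ℝ), D.X₀ m ε a = pvydX (X₀ ε) c)
    (hD : ∀ᶠ ε in 𝓝[>] (0 : ℝ), PvjcDict (kit ε) (X₀ ε) 𝔨 ε) (hG : PvjcGeo 𝔨) (hd : (Γ m).dout t ^ 4 = 1)
    (he : ∀ᶠ ε in 𝓝[>] (0 : ℝ), ∀ i ≤ ((Γ m).l1 t).length, 𝔢 ε (1 + i) = pvjcE 𝔨 (z + (Γ m).pout t) ((Γ m).dout t) ((Γ m).l1 t) i)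
    (hKE : ∀ᶠ ε in 𝓝[>] (0 : ℝ), ∀ i < ((Γ m).l1 t).length, KE ε (1 + i) = pvjcKE 𝔨 (z + (Γ m).pout t) ((Γ m).dout t) ((Γ m).l1 t) i)
    (hMk : ∀ᶠ ε in 𝓝[>] (0 : ℝ), ∀ i < ((Γ m).l1 t).length, Mk ε (1 + i) = pvjcMk 𝔨 (z + (Γ m).pout t) ((Γ m).dout t) ((Γ m).l1 t) i)
    (hU : ∀ᶠ ε in 𝓝[>] (0 : ℝ), ∀ i < ((Γ m).l1 t).length, U ε (1 + (i + 1)) = pvjcU 𝔨 (z + (Γ m).pout t) ((Γ m).dout t) ((Γ m).l1 t) (i + 1)) :
    ∀ᶠ ε in 𝓝[>] (0 : ℝ), ∀ i < ((Γ m).l1 t).length, ∀ᵐ η ∂(pvP ε),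
      η ∈ (D.kit m ε).G (pvthZ (D.kit m ε).δ (z + (Γ m).pout t) ((Γ m).dout t) ((Γ m).l1 t) i) (pvthD ((Γ m).dout t) ((Γ m).l1 t) i) →
      η ∈ (D.kit m ε).G (pvthZ (D.kit m ε).δ (z + (Γ m).pout t) ((Γ m).dout t) ((Γ m).l1 t) (i + 1)) (pvthD ((Γ m).dout t) ((Γ m).l1 t) (i + 1)) →
      η ∈ (D.kit m ε).A (pvthZ (D.kit m ε).δ (z + (Γ m).pout t) ((Γ m).dout t) ((Γ m).l1 t) i) (pvthD ((Γ m).dout t) ((Γ m).l1 t) i) (pvthL ((Γ m).l1 t) i) →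
      PvucF c (𝔢 ε) (KE ε) (Mk ε) (U ε) (1 + i) ((D.kit m ε).Xj (D.X₀ m ε a) (z + (Γ m).pout t) ((Γ m).dout t) ((Γ m).l1 t) i η) η := by
  filter_upwards [hk, hX, hD, he, hKE, hMk, hU, self_mem_nhdsWithin] with ε h1 h2 h3 h4 h5 h6 h7 hε i hi
  rw [h1, h2]
  filter_upwards [pvjc_word hε h3 hG c (z + (Γ m).pout t) hd ((Γ m).l1 t) hi] with η hη g1 _ g3
  unfold PvucF
  rw [h4 i hi.le, show 1 + i + 1 = 1 + (i + 1) by ring, h4 (i + 1) hi, h5 i hi, h6 i hi, h7 i hi]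
  exact hη g1 g3

/-- **`fk` AT THE TERM OF 58** -/
theorem pvjc_fk_dat {cc : ℝ} {𝔓 : PvrxPar τ cc} {𝔶 : PvydGeo τ} {𝔨 : PvkdGeo} (hD : ∀ᶠ ε in 𝓝[>] (0 : ℝ), PvjcDict (𝔶.kit m ε) (𝔶.X₀ m ε) 𝔨 ε) (hG : PvjcGeo 𝔨) (hd : (Γ m).dout t ^ 4 = 1)
    (he : ∀ᶠ ε in 𝓝[>] (0 : ℝ), ∀ i ≤ ((Γ m).l1 t).length, 𝔢 ε (1 + i) = pvjcE 𝔨 (z + (Γ m).pout t) ((Γ m).dout t) ((Γ m).l1 t) i)
    (hKE : ∀ᶠ ε in 𝓝[>] (0 : ℝ), ∀ i < ((Γ m).l1 t).length, KE ε (1 + i) = pvjcKE 𝔨 (z + (Γ m).pout t) ((Γ m).dout t) ((Γ m).l1 t) i)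
    (hMk : ∀ᶠ ε in 𝓝[>] (0 : ℝ), ∀ i < ((Γ m).l1 t).length, Mk ε (1 + i) = pvjcMk 𝔨 (z + (Γ m).pout t) ((Γ m).dout t) ((Γ m).l1 t) i)
    (hU : ∀ᶠ ε in 𝓝[>] (0 : ℝ), ∀ i < ((Γ m).l1 t).length, U ε (1 + (i + 1)) = pvjcU 𝔨 (z + (Γ m).pout t) ((Γ m).dout t) ((Γ m).l1 t) (i + 1)) :
    ∀ᶠ ε in 𝓝[>] (0 : ℝ), ∀ i < ((Γ m).l1 t).length, ∀ᵐ η ∂(pvP ε),
      η ∈ ((pvydDat 𝔓 𝔶 c).kit m ε).G (pvthZ ((pvydDat 𝔓 𝔶 c).kit m ε).δ (z + (Γ m).pout t) ((Γ m).dout t) ((Γ m).l1 t) i) (pvthD ((Γ m).dout t) ((Γ m).l1 t) i) →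
      η ∈ ((pvydDat 𝔓 𝔶 c).kit m ε).G (pvthZ ((pvydDat 𝔓 𝔶 c).kit m ε).δ (z + (Γ m).pout t) ((Γ m).dout t) ((Γ m).l1 t) (i + 1)) (pvthD ((Γ m).dout t) ((Γ m).l1 t) (i + 1)) →
      η ∈ ((pvydDat 𝔓 𝔶 c).kit m ε).A (pvthZ ((pvydDat 𝔓 𝔶 c).kit m ε).δ (z + (Γ m).pout t) ((Γ m).dout t) ((Γ m).l1 t) i) (pvthD ((Γ m).dout t) ((Γ m).l1 t) i) (pvthL ((Γ m).l1 t) i) →
      PvucF c (𝔢 ε) (KE ε) (Mk ε) (U ε) (1 + i) (((pvydDat 𝔓 𝔶 c).kit m ε).Xj ((pvydDat 𝔓 𝔶 c).X₀ m ε a) (z + (Γ m).pout t) ((Γ m).dout t) ((Γ m).l1 t) i η) η :=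
  pvjc_fk (D := pvydDat 𝔓 𝔶 c) (kit := 𝔶.kit m) (X₀ := 𝔶.X₀ m) (Eventually.of_forall fun _ => rfl) (Eventually.of_forall fun _ => rfl) hD hG hd he hKE hMk hU

end fk

/-! ## 5. THE CELLS' SHARE OF `cyc mM bM dM` -/

/-! ### 5a. the placed masks of record of a cell-simple word are pairwise disjoint -/

section lattice

open Complex

/-- two half open unit cells on the same lattice with distinct centres and distinct entrance doors are disjoint: first frame `1` -/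
theorem pvjc_unit_aux1 {ζ ζ' θ' p q : ℂ} (hθ' : θ' ^ 4 = 1) (hg : PvccG ((ζ + 1 / 2) - (ζ' + θ' / 2))) (hc : ζ + 1 / 2 ≠ ζ' + θ' / 2) (hz : ζ ≠ ζ')
    (e : ζ + p = ζ' + θ' * q) (h1 : p ∈ pvkxM 1) (h2 : q ∈ pvkxM 1) : False := by
  obtain ⟨a, b, hab⟩ := hg
  obtain ⟨p1, p2, p3, p4⟩ := h1
  obtain ⟨q1, q2, q3, q4⟩ := h2
  have hc' : ¬ (a = 0 ∧ b = 0) := by
    rintro ⟨rfl, rfl⟩
    apply hc
    have : ζ + 1 / 2 - (ζ' + θ' / 2) = 0 := by rw [hab]; simp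
    exact sub_eq_zero.1 this
  have hz' : ζ - ζ' ≠ 0 := sub_ne_zero.2 hz
  have e1 : ζ - ζ' = θ' * q - p := by linear_combination e
  have e2 : (a : ℂ) + (b : ℂ) * I = θ' * q - p + (1 - θ') / 2 := by rw [← hab, ← e1]; ring
  rw [e1] at hz'
  have r1 := congrArg Complex.re e2
  have r2 := congrArg Complex.im e2
  have key : ∀ x : ℤ, (-2 : ℝ) < x → (x : ℝ) < 2 → x = -1 ∨ x = 0 ∨ x = 1 := by
    intro x h1 h2
    have h1' : (-2 : ℤ) < x := by exact_mod_cast h1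
    have h2' : x < (2 : ℤ) := by exact_mod_cast h2
    omega
  rcases pvt_fourth_root hθ' with rfl | rfl | rfl | rfl <;>
    simp at r1 r2 <;>
    (rcases key a (by linarith) (by linarith) with rfl | rfl | rfl <;> rcases key b (by linarith) (by linarith) with rfl | rfl | rfl <;>
      first
      | (exfalso; push_cast at r1 r2; linarith)
      | exact hc' ⟨rfl, rfl⟩
      | (apply hz'; apply Complex.ext <;> simp <;> push_cast at r1 r2 <;> linarith))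

theorem pvjc_unit_aux {ζ ζ' θ θ' p q : ℂ} (hθ : θ ^ 4 = 1) (hθ' : θ' ^ 4 = 1) (hg : PvccG ((ζ + θ / 2) - (ζ' + θ' / 2))) (hc : ζ + θ / 2 ≠ ζ' + θ' / 2) (hz : ζ ≠ ζ')
    (e : ζ + θ * p = ζ' + θ' * q) (h1 : p ∈ pvkxM 1) (h2 : q ∈ pvkxM 1) : False := by
  have h0 : θ ≠ 0 := pvco_ne hθ
  have hi : (θ⁻¹) ^ 4 = 1 := by rw [inv_pow, hθ, inv_one]
  refine pvjc_unit_aux1 (ζ := θ⁻¹ * ζ) (ζ' := θ⁻¹ * ζ') (θ' := θ⁻¹ * θ') (p := p) (q := q) (by rw [mul_pow, hi, hθ', one_mul]) ?_ ?_ ?_ ?_ h1 h2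
  · have := PvccG.unit_mul hi hg
    have e3 : θ⁻¹ * (ζ + θ / 2 - (ζ' + θ' / 2)) = θ⁻¹ * ζ + 1 / 2 - (θ⁻¹ * ζ' + θ⁻¹ * θ' / 2) := by field_simp
    rwa [e3] at this
  · intro h
    apply hc
    have : θ * (θ⁻¹ * ζ + 1 / 2) = θ * (θ⁻¹ * ζ' + θ⁻¹ * θ' / 2) := by rw [h]
    field_simp at this
    linear_combination this / 2
  · intro h
    exact hz (mul_left_cancel₀ (inv_ne_zero h0) h)
  · have : θ⁻¹ * (ζ + θ * p) = θ⁻¹ * (ζ' + θ' * q) := by rw [e]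
    field_simp at this ⊢
    linear_combination this

theorem pvjc_M_div {δ : ℝ} (hδ : 0 < δ) {p : ℂ} (hp : p ∈ pvkxM δ) : p / δ ∈ pvkxM 1 := by
  obtain ⟨h1, h2, h3, h4⟩ := hp
  have e1 : (p / (δ : ℂ)).re = p.re / δ := by simp [Complex.div_ofReal_re]
  have e2 : (p / (δ : ℂ)).im = p.im / δ := by simp [Complex.div_ofReal_im]
  refine ⟨?_, ?_, ?_, ?_⟩
  · rw [e1]; positivity
  · rw [e1, div_lt_one hδ]; exact h2
  · rw [e2, lt_div_iff₀ hδ]; linarith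
  · rw [e2, div_lt_iff₀ hδ]; linarith

/-- **THE PLACED MASKS OF RECORD OF A CELL-SIMPLE WORD ARE PAIRWISE DISJOINT** (half open cells: distinct centres, distinct entrance doors) -/
theorem pvjc_mask_disj {δ : ℝ} (hδ : 0 < δ) (z : ℂ) {d : ℂ} (hd : d ^ 4 = 1) {l : List PvtTurn} {N : ℕ} (h : PvccSimple l N) (hN : N ≤ l.length) {j k : ℕ} (hj : j ≤ N) (hk : k ≤ N) (hjk : j ≠ k) :
    Disjoint (pvkdAt (pvthZ δ z d l j) (pvthD d l j) (pvkxM δ)) (pvkdAt (pvthZ δ z d l k) (pvthD d l k) (pvkxM δ)) := by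
  rw [Set.disjoint_left]
  rintro w ⟨p, hp, rfl⟩ ⟨q, hq, e⟩
  have hd0 : d ≠ 0 := pvco_ne hd
  have hδ0 : (δ : ℂ) ≠ 0 := by exact_mod_cast hδ.ne'
  have eD : ∀ i, pvthD d l i = d * pvccD 1 l i := fun i => pvccD_cov d l i
  have eZ : ∀ i, pvthZ δ z d l i = z + (δ * d) * pvccZ 0 1 l i := fun i => by rw [pvthZ_eq, pvccZ_cov]
  unfold pvthSim at e
  rw [eD, eD, eZ, eZ] at e
  refine pvjc_unit_aux (ζ := pvccZ 0 1 l j) (ζ' := pvccZ 0 1 l k) (θ := pvccD 1 l j) (θ' := pvccD 1 l k) (p := p / δ) (q := q / δ)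
    (pvccD_pow_four (one_pow 4) l j) (pvccD_pow_four (one_pow 4) l k) (pvccC_sub_gauss l j k) (fun hc => hjk (h j k hj hk hc)) (h.door_ne hN hj hk hjk) ?_ (pvjc_M_div hδ hp) (pvjc_M_div hδ hq)
  have e' : (δ * d) * (pvccZ 0 1 l j + pvccD 1 l j * (p / δ)) = (δ * d) * (pvccZ 0 1 l k + pvccD 1 l k * (q / δ)) := by
    have hp' : (δ : ℂ) * (p / δ) = p := mul_div_cancel₀ p hδ0
    have hq' : (δ : ℂ) * (q / δ) = q := mul_div_cancel₀ q hδ0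
    linear_combination -e + d * pvccD 1 l j * hp' - d * pvccD 1 l k * hq'
  exact mul_left_cancel₀ (mul_ne_zero hδ0 hd0) e'

end lattice

/-! ### 5b. zones and corridors in the regions of the kit -/

/-- **what the regions of the cells owe to the cycle**, REFERENCE FRAME: 244's list, the reading zone of the plug in the region of the plug, the room of the run in the window of the link -/
structure PvjcReg (𝔨 : PvkdGeo) : Prop where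
  ref : PvkxRef 𝔨
  zone : ball 0 𝔨.a ∪ ball 0 𝔨.b ∪ 𝔨.Tb ⊆ 𝔨.O₀
  cor : ∀ τ, 𝔨.Co τ ⊆ 𝔨.Ea τ

theorem PvjcReg.geo {𝔨 : PvkdGeo} (h : PvjcReg 𝔨) : PvjcGeo 𝔨 := pvjc_geo_ref h.ref

theorem pvjc_ball_at (z : ℂ) {d : ℂ} (hd : ‖d‖ = 1) (r : ℝ) : ball z r = pvkdAt z d (ball 0 r) := by
  ext w
  rw [pvkx_mem_at (pvth_ne_zero hd), mem_ball, mem_ball, dist_eq_norm, dist_eq_norm, sub_zero, norm_div, hd, div_one]

/-- the reading zone of a placed plug lies in its placed region -/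
theorem pvjc_zone_at {𝔨 : PvkdGeo} (h : PvjcReg 𝔨) (z : ℂ) {d : ℂ} (hd : ‖d‖ = 1) : pvznRd (𝔨.pg z d) ⊆ pvkdAt z d 𝔨.O₀ := by
  have e : pvznRd (𝔨.pg z d) = pvkdAt z d (ball 0 𝔨.a ∪ ball 0 𝔨.b ∪ 𝔨.Tb) := by
    show ball z 𝔨.a ∪ ball z 𝔨.b ∪ pvkdAt z d 𝔨.Tb = _
    rw [pvjc_ball_at z hd, pvjc_ball_at z hd]
    unfold pvkdAt
    rw [image_union, image_union]
  rw [e]
  exact pvkx_at_mono z d h.zone

/-- the room of a placed run lies in the two placed plug regions and the placed tile -/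
theorem pvjc_cor_at {𝔨 : PvkdGeo} (h : PvjcReg 𝔨) (z d : ℂ) (τ : PvtTurn) :
    pvkdAt z d (𝔨.Co τ) ⊆ pvkdAt z d 𝔨.O₀ ∪ pvkdAt z d (𝔨.K₀ τ) ∪ pvkdAt (𝔨.zo z d τ) (d * τ.rot) 𝔨.O₀ := by
  refine (pvkx_at_mono z d (h.cor τ)).trans (le_of_eq ?_)
  unfold PvkdGeo.Ea
  have e : pvkdAt z d (pvkdAt (𝔨.zo 0 1 τ) τ.rot 𝔨.O₀) = pvkdAt (𝔨.zo z d τ) (d * τ.rot) 𝔨.O₀ := by
    rw [pvkx_at_at]
    congr 1
    unfold PvkdGeo.zo
    ring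
  rw [← e]
  unfold pvkdAt
  rw [image_union, image_union]

section wordreg

variable {𝔨 : PvkdGeo} {kit : PvthKit} {z d : ℂ} {l : List PvtTurn}

theorem pvjc_E_ok (𝔨 : PvkdGeo) (z d : ℂ) (l : List PvtTurn) (i : ℕ) : (pvjcE 𝔨 z d l i).Ok := pvkj_kit_ok _

theorem pvjc_E_uq (h : PvjcGeo 𝔨) (z : ℂ) (hd : d ^ 4 = 1) (l : List PvtTurn) (i : ℕ) : (pvjcE 𝔨 z d l i).Uq :=
  pvkj_kit_uq (pvkx_at_disj (pvco_ne (pvtDir_pow_four d hd _)) h.dis)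

/-- the zone of the door `i` lies in the region of the plug `i` of the kit -/
theorem pvjc_E_Z (h : PvjcReg 𝔨) (hδ : kit.δ = 𝔨.δ) (hO : kit.O₀ = 𝔨.O₀) (z : ℂ) (hd : d ^ 4 = 1) (l : List PvtTurn) (i : ℕ) :
    (pvjcE 𝔨 z d l i).Z ×ˢ (univ : Set Bool) ⊆ kit.O (pvthZ kit.δ z d l i) (pvthD d l i) := by
  unfold PvthKit.O
  rw [hδ, hO]
  exact prod_mono (pvjc_zone_at h _ (pvth_norm_of_pow (pvtDir_pow_four d hd _))) Subset.rfl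

/-- the corridor of the cell `i` lies in the regions of the cell sector `i` and of the next plug -/
theorem pvjc_KE_sub (h : PvjcReg 𝔨) (hδ : kit.δ = 𝔨.δ) (hO : kit.O₀ = 𝔨.O₀) (hK : kit.K₀ = 𝔨.K₀) (z d : ℂ) (l : List PvtTurn) {i : ℕ} (hi : i < l.length) :
    pvjcKE 𝔨 z d l i ×ˢ (univ : Set Bool) ⊆ kit.O (pvthZ kit.δ z d l i) (pvthD d l i) ∪ kit.K (pvthZ kit.δ z d l i) (pvthD d l i) (pvthL l i) ∪ kit.O (pvthZ kit.δ z d l (i + 1)) (pvthD d l (i + 1)) := by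
  obtain ⟨e1, e2⟩ := pvdil_zo_succ 𝔨 z d l hi
  have := pvjc_cor_at h (pvthZ 𝔨.δ z d l i) (pvthD d l i) (pvthL l i)
  rw [e1, e2] at this
  unfold PvthKit.O PvthKit.K
  rw [hδ, hO, hK]
  rintro ⟨w, β⟩ ⟨hw, -⟩
  rcases this hw with (h1 | h1) | h1
  · exact Or.inl (Or.inl ⟨h1, mem_univ _⟩)
  · exact Or.inl (Or.inr ⟨h1, mem_univ _⟩)
  · exact Or.inr ⟨h1, mem_univ _⟩

theorem pvjc_KE_Mk (h : PvjcGeo 𝔨) (z d : ℂ) (l : List PvtTurn) (i : ℕ) : pvjcKE 𝔨 z d l i ⊆ pvjcMk 𝔨 z d l i := pvkx_at_mono _ _ (h.sub _)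

theorem pvjc_Mk_eq (h : PvkxRef 𝔨) (z d : ℂ) (l : List PvtTurn) (i : ℕ) : pvjcMk 𝔨 z d l i = pvkdAt (pvthZ 𝔨.δ z d l i) (pvthD d l i) (pvkxM 𝔨.δ) := by
  unfold pvjcMk
  rw [h.Mk]

theorem pvjc_Mk_meas (h : PvkxRef 𝔨) (z : ℂ) (hd : d ^ 4 = 1) (l : List PvtTurn) (i : ℕ) : MeasurableSet (pvjcMk 𝔨 z d l i) := by
  rw [pvjc_Mk_eq h]
  exact pvzn_at_meas (pvco_ne (pvtDir_pow_four d hd _)) _ (pvzn_M_meas _)

theorem pvjc_M_bdd (δ : ℝ) : Bornology.IsBounded (pvkxM δ) := by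
  refine (Metric.isBounded_closedBall (x := (0 : ℂ)) (r := |δ| + |δ|)).subset fun w hw => ?_
  obtain ⟨h1, h2, h3, h4⟩ := hw
  rw [mem_closedBall, dist_zero_right]
  have hδ : 0 < δ := lt_of_le_of_lt h1 h2
  rw [abs_of_pos hδ]
  refine (Complex.norm_le_abs_re_add_abs_im w).trans ?_
  have a1 : |w.re| ≤ δ := abs_le.2 ⟨by linarith, h2.le⟩
  have a2 : |w.im| ≤ δ := abs_le.2 ⟨by linarith, by linarith⟩
  linarith

theorem pvjc_at_bdd (z d : ℂ) {S : Set ℂ} (hS : Bornology.IsBounded S) : Bornology.IsBounded (pvkdAt z d S) := by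
  obtain ⟨r, hr⟩ := hS.subset_closedBall (0 : ℂ)
  refine (Metric.isBounded_closedBall (x := z) (r := ‖d‖ * r)).subset ?_
  rintro _ ⟨w, hw, rfl⟩
  have := hr hw
  rw [mem_closedBall, dist_zero_right] at this
  rw [mem_closedBall, dist_eq_norm]
  unfold pvthSim
  rw [add_sub_cancel_left, norm_mul]
  exact mul_le_mul_of_nonneg_left this (norm_nonneg _)

theorem pvjc_Mk_bdd (h : PvkxRef 𝔨) (z d : ℂ) (l : List PvtTurn) (i : ℕ) : Bornology.IsBounded (pvjcMk 𝔨 z d l i) := by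
  rw [pvjc_Mk_eq h]
  exact pvjc_at_bdd _ _ (pvjc_M_bdd _)

theorem pvjc_Mk_disj (h : PvkxRef 𝔨) (z : ℂ) (hd : d ^ 4 = 1) {N : ℕ} (hs : PvccSimple l N) (hN : N ≤ l.length) {j k : ℕ} (hj : j ≤ N) (hk : k ≤ N) (hjk : j ≠ k) :
    Disjoint (pvjcMk 𝔨 z d l j) (pvjcMk 𝔨 z d l k) := by
  rw [pvjc_Mk_eq h, pvjc_Mk_eq h]
  exact pvjc_mask_disj h.δ0 z hd hs hN hj hk hjk

/-- the room of an inner door is covered by the masks of its two cells      (244 `pvuk_door_cover`) -/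
theorem pvjc_U_cover (h : PvkxRef 𝔨) (z : ℂ) (hd : d ^ 4 = 1) (l : List PvtTurn) {i : ℕ} (hi : i < l.length) : pvjcU 𝔨 z d l (i + 1) ⊆ pvjcMk 𝔨 z d l i ∪ pvjcMk 𝔨 z d l (i + 1) :=
  pvuk_door_cover h z hd l hi

end wordreg

/-! ### 5c. `PvkjGeo` from the disjointness of the regions of the sectors (58) and of the masks -/

/-- **MODEL FREE**: zones in the plug regions, corridors in the regions of their sector and of the next plug, corridors in the masks ⟹ the three disjointness clauses of `PvkjGeo` from `PvydDj` (field `dj1` / `dj2` of `CandOk`) and `dM` -/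
theorem pvjc_geo_of_dj {n : ℕ} {sec : ℕ → PvsySec PvPt} (dj : PvydDj n sec) {𝔢 : ℕ → PvkjEnd ℂ} {KE Mk : ℕ → Set ℂ} (two : 2 ≤ n) (per : 𝔢 n = 𝔢 0)
    (ok : ∀ j, j < n → (𝔢 j).Ok) (uq : ∀ j, j < n → (𝔢 j).Uq) (hZ : ∀ j, j < n → (𝔢 j).Z ×ˢ (univ : Set Bool) ⊆ (sec j).O)
    (hK : ∀ j, j < n → KE j ×ˢ (univ : Set Bool) ⊆ (sec j).O ∪ (sec j).K ∪ (sec ((j + 1) % n)).O) (hM : ∀ j, j < n → KE j ⊆ Mk j)
    (dM : ∀ i < n, ∀ j < n, i ≠ j → Disjoint (Mk i) (Mk j)) : PvkjGeo n 𝔢 KE where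
  two := two
  per := per
  ok := ok
  uq := uq
  dZZ i j hi hj hij := by
    rw [Set.disjoint_left]
    intro w h1 h2
    have h3 : ((w, true) : PvPt) ∈ (sec i).O := hZ i hi ⟨h1, mem_univ _⟩
    exact Set.disjoint_left.1 (dj.dOO i hi j hj hij) h3 (hZ j hj ⟨h2, mem_univ _⟩)
  dKZ i j hi hj hij hij' := by
    rw [Set.disjoint_left]
    intro w h1 h2
    have hn : (j + 1) % n < n := Nat.mod_lt _ (by omega)
    have h3 : ((w, true) : PvPt) ∈ (sec i).O := hZ i hi ⟨h2, mem_univ _⟩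
    have h5 : ((w, true) : PvPt) ∈ KE j ×ˢ (univ : Set Bool) := ⟨h1, mem_univ _⟩
    rcases hK j hj h5 with (h4 | h4) | h4
    · exact Set.disjoint_left.1 (dj.dOO i hi j hj hij) h3 h4
    · exact Set.disjoint_left.1 (dj.dOK i hi j hj) h3 h4
    · exact Set.disjoint_left.1 (dj.dOO i hi _ hn hij') h3 h4
  dKK i j hi hj hij := by
    rintro w ⟨h1, h2⟩
    exact absurd (hM j hj h2) (Set.disjoint_left.1 (dM i hi j hj hij) (hM i hi h1))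

/-! ### 5d. THE LONG CYCLE: the regions, from the foreign pieces only -/

/-- **WHAT THE TWO FOREIGN PLUGS `t` (`0`), `u` (`n + 2`) AND THE THREE FOREIGN CONNECTORS `o` (`0`), `r` (`n + 1`), `e` (`n + 2`) OF THE LONG CYCLE OWE** (regions only; `n = |l1 t|`, `sec` = the list of 58) -/
structure PvjcFor (n : ℕ) (sec : ℕ → PvsySec PvPt) (𝔢 : ℕ → PvkjEnd ℂ) (KE Mk U : ℕ → Set ℂ) (B : Set ℂ) (a₀ : ℝ) : Prop where
  per : 𝔢 (n + 3) = 𝔢 0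
  ok : ∀ j, j = 0 ∨ j = n + 2 → (𝔢 j).Ok
  uq : ∀ j, j = 0 ∨ j = n + 2 → (𝔢 j).Uq
  /-- the zones of the two plugs in their regions -/
  ZO : ∀ j, j = 0 ∨ j = n + 2 → (𝔢 j).Z ×ˢ (univ : Set Bool) ⊆ (sec j).O
  ZB : ∀ j, j = 0 ∨ j = n + 2 → (𝔢 j).Z ⊆ B
  /-- the three corridors in the regions of their sector and of the next plug, in their masks, in `B` -/
  KO : ∀ j, j = 0 ∨ j = n + 1 ∨ j = n + 2 → KE j ×ˢ (univ : Set Bool) ⊆ (sec j).O ∪ (sec j).K ∪ (sec ((j + 1) % (n + 3))).O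
  KM : ∀ j, j = 0 ∨ j = n + 1 ∨ j = n + 2 → KE j ⊆ Mk j
  KB : ∀ j, j = 0 ∨ j = n + 1 ∨ j = n + 2 → KE j ⊆ B
  /-- the three masks -/
  mM : ∀ j, j = 0 ∨ j = n + 1 ∨ j = n + 2 → MeasurableSet (Mk j)
  bM : ∀ j, j = 0 ∨ j = n + 1 ∨ j = n + 2 → Bornology.IsBounded (Mk j)
  dM : ∀ i j, i = 0 ∨ i = n + 1 ∨ i = n + 2 → j < n + 3 → i ≠ j → Disjoint (Mk i) (Mk j)
  /-- the rooms of the first door, of the last door, of `u`, of `t` -/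
  UM : ∀ j, j = 0 ∨ j = n ∨ j = n + 1 ∨ j = n + 2 → U (j + 1) ⊆ Mk j ∪ Mk (j + 1)
  /-- the doors and the cells stay in `B` -/
  dB : ∀ i, i ≤ n → (𝔢 (1 + i)).Z ⊆ B
  cB : ∀ i, i < n → KE (1 + i) ⊆ B
  /-- `t` and `u` are `a₀` apart -/
  big : ∀ p ∈ (𝔢 0).Z, ∀ p' ∈ (𝔢 (n + 2)).Z, a₀ ≤ ‖p - p'‖

section cyc

variable {𝔨 : PvkdGeo} {kit : PvthKit} {z d : ℂ} {l : List PvtTurn} {a c : PvsySec PvPt} {Kf : Set PvPt} {Af : Set (Conf PvPt)}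
variable {𝔢 : ℕ → PvkjEnd ℂ} {KE Mk U : ℕ → Set ℂ} {B : Set ℂ} {a₀ : ℝ}

/-- the masks of the long cycle: Borel -/
theorem pvjc_mM (R : PvkxRef 𝔨) (hd : d ^ 4 = 1) (hMk : ∀ i < l.length, Mk (1 + i) = pvjcMk 𝔨 z d l i)
    (F : PvjcFor l.length (pvskList a kit z d l Kf Af c) 𝔢 KE Mk U B a₀) : ∀ j < l.length + 3, MeasurableSet (Mk j) :=
  pvsk_cases l.length (F.mM 0 (Or.inl rfl)) (fun i hi => by rw [hMk i hi]; exact pvjc_Mk_meas R z hd l i) (F.mM _ (Or.inr (Or.inl rfl))) (F.mM _ (Or.inr (Or.inr rfl)))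

/-- bounded -/
theorem pvjc_bM (R : PvkxRef 𝔨) (hMk : ∀ i < l.length, Mk (1 + i) = pvjcMk 𝔨 z d l i)
    (F : PvjcFor l.length (pvskList a kit z d l Kf Af c) 𝔢 KE Mk U B a₀) : ∀ j < l.length + 3, Bornology.IsBounded (Mk j) :=
  pvsk_cases l.length (F.bM 0 (Or.inl rfl)) (fun i hi => by rw [hMk i hi]; exact pvjc_Mk_bdd R z d l i) (F.bM _ (Or.inr (Or.inl rfl))) (F.bM _ (Or.inr (Or.inr rfl)))

/-- pairwise disjoint -/
theorem pvjc_dM (R : PvkxRef 𝔨) (hd : d ^ 4 = 1) {N : ℕ} (hs : PvccSimple l N) (hN : N ≤ l.length) (hN' : l.length ≤ N + 1) (hMk : ∀ i < l.length, Mk (1 + i) = pvjcMk 𝔨 z d l i)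
    (F : PvjcFor l.length (pvskList a kit z d l Kf Af c) 𝔢 KE Mk U B a₀) : ∀ i < l.length + 3, ∀ j < l.length + 3, i ≠ j → Disjoint (Mk i) (Mk j) := by
  intro i hi j hj hij
  by_cases fi : i = 0 ∨ i = l.length + 1 ∨ i = l.length + 2
  · exact F.dM i j fi hj hij
  by_cases fj : j = 0 ∨ j = l.length + 1 ∨ j = l.length + 2
  · exact (F.dM j i fj hi hij.symm).symm
  obtain ⟨i', rfl⟩ : ∃ i', i = 1 + i' := ⟨i - 1, by omega⟩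
  obtain ⟨j', rfl⟩ : ∃ j', j = 1 + j' := ⟨j - 1, by omega⟩
  rw [hMk i' (by omega), hMk j' (by omega)]
  exact pvjc_Mk_disj R z hd hs hN (by omega) (by omega) (by omega)

/-- **THE FIELD `cyc` OF `PvucCyc1` AT ONE MESH** from the disjointness of the regions of the list (58, `CandOk.dj1`), the cell-simple word, the regions of the kit and the foreign pieces -/
theorem pvjc_cyc (dj : PvydDj (l.length + 3) (pvskList a kit z d l Kf Af c)) (R : PvjcReg 𝔨) (hδ : kit.δ = 𝔨.δ) (hO : kit.O₀ = 𝔨.O₀) (hK : kit.K₀ = 𝔨.K₀) (hd : d ^ 4 = 1)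
    {N : ℕ} (hs : PvccSimple l N) (hN : N ≤ l.length) (hN' : l.length ≤ N + 1)
    (he : ∀ i ≤ l.length, 𝔢 (1 + i) = pvjcE 𝔨 z d l i) (hKE : ∀ i < l.length, KE (1 + i) = pvjcKE 𝔨 z d l i) (hMk : ∀ i < l.length, Mk (1 + i) = pvjcMk 𝔨 z d l i)
    (hU : ∀ i < l.length, U (1 + (i + 1)) = pvjcU 𝔨 z d l (i + 1)) (F : PvjcFor l.length (pvskList a kit z d l Kf Af c) 𝔢 KE Mk U B a₀) :
    PvkjCyc (l.length + 3) 𝔢 KE Mk U B a₀ where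
  geo := by
    refine pvjc_geo_of_dj dj (by omega) F.per ?_ ?_ ?_ ?_ ?_ (pvjc_dM R.ref hd hs hN hN' hMk F)
    · refine pvsk_cases l.length (F.ok 0 (Or.inl rfl)) (fun i hi => ?_) ?_ (F.ok _ (Or.inr rfl))
      · rw [he i hi.le]; exact pvjc_E_ok _ _ _ _ _
      · rw [add_comm, he _ le_rfl]; exact pvjc_E_ok _ _ _ _ _
    · refine pvsk_cases l.length (F.uq 0 (Or.inl rfl)) (fun i hi => ?_) ?_ (F.uq _ (Or.inr rfl))
      · rw [he i hi.le]; exact pvjc_E_uq R.geo z hd l i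
      · rw [add_comm, he _ le_rfl]; exact pvjc_E_uq R.geo z hd l _
    · refine pvsk_cases l.length (F.ZO 0 (Or.inl rfl)) (fun i hi => ?_) ?_ (F.ZO _ (Or.inr rfl))
      · rw [he i hi.le, pvsk_list_O hi.le]; exact pvjc_E_Z R hδ hO z hd l i
      · rw [add_comm, he _ le_rfl, pvsk_list_O le_rfl]; exact pvjc_E_Z R hδ hO z hd l _
    · refine pvsk_cases l.length (F.KO 0 (Or.inl rfl)) (fun i hi => ?_) (F.KO _ (Or.inr (Or.inl rfl))) (F.KO _ (Or.inr (Or.inr rfl)))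
      rw [hKE i hi, Nat.mod_eq_of_lt (by omega), show 1 + i + 1 = 1 + (i + 1) by ring, pvsk_list_O (Nat.succ_le_of_lt hi), pvsk_list_cell hi]
      exact pvjc_KE_sub R hδ hO hK z d l hi
    · refine pvsk_cases l.length (F.KM 0 (Or.inl rfl)) (fun i hi => ?_) (F.KM _ (Or.inr (Or.inl rfl))) (F.KM _ (Or.inr (Or.inr rfl)))
      rw [hKE i hi, hMk i hi]; exact pvjc_KE_Mk R.geo z d l i
  UM := by
    intro j hj
    by_cases fj : j = 0 ∨ j = l.length ∨ j = l.length + 1 ∨ j = l.length + 2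
    · exact F.UM j fj
    obtain ⟨i, rfl⟩ : ∃ i, j = 1 + i := ⟨j - 1, by omega⟩
    rw [show 1 + i + 1 = 1 + (i + 1) by ring, hU i (by omega), hMk i (by omega), hMk (i + 1) (by omega)]
    exact pvjc_U_cover R.ref z hd l (by omega)
  ZB := by
    refine pvsk_cases l.length (F.ZB 0 (Or.inl rfl)) (fun i hi => F.dB i hi.le) ?_ (F.ZB _ (Or.inr rfl))
    rw [add_comm]; exact F.dB _ le_rfl
  KB := pvsk_cases l.length (F.KB 0 (Or.inl rfl)) (fun i hi => F.cB i hi) (F.KB _ (Or.inr (Or.inl rfl))) (F.KB _ (Or.inr (Or.inr rfl)))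
  big := ⟨0, l.length + 2, by omega, by omega, F.big⟩

end cyc

/-! ## 6. `PvucCyc1` FROM THE FOREIGN PIECES ONLY -/

section top

variable {τ : Type} {D : PvypDat τ} {Γ : ℕ → PvtsGeo τ} {a : ℂ} {m : ℕ} {z : ℂ} {t : τ} {c : Bool} {𝔢 : ℝ → ℕ → PvkjEnd ℂ} {KE Mk U : ℝ → ℕ → Set ℂ} {B : Set ℂ} {a₀ : ℝ}

/-- **THE LONG CYCLE OF 95 FROM THE FOREIGN PIECES**: the cells pay `fk` and their share of `cyc mM bM dM`;   left = `PvjcFor` (regions of `t u o r e`), `pM`, the three facts `fo fr fe` -/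
theorem pvjc_cyc1 {kit : ℝ → PvthKit} {X₀ : ℝ → PvtTurn → Conf PvPt → ℂ} {𝔨 : PvkdGeo} (bB : Bornology.IsBounded B) (a0 : 0 < a₀)
    (hk : ∀ᶠ ε in 𝓝[>] (0 : ℝ), D.kit m ε = pvydKit (kit ε) c) (hX : ∀ᶠ ε in 𝓝[>] (0 : ℝ), D.X₀ m ε a = pvydX (X₀ ε) c)
    (hD : ∀ᶠ ε in 𝓝[>] (0 : ℝ), PvjcDict (kit ε) (X₀ ε) 𝔨 ε) (R : PvjcReg 𝔨) (hO : ∀ᶠ ε in 𝓝[>] (0 : ℝ), (kit ε).O₀ = 𝔨.O₀) (hK : ∀ᶠ ε in 𝓝[>] (0 : ℝ), (kit ε).K₀ = 𝔨.K₀)
    (hd : (Γ m).dout t ^ 4 = 1) {N : ℕ} (hs : PvccSimple ((Γ m).l1 t) N) (hN : N ≤ ((Γ m).l1 t).length) (hN' : ((Γ m).l1 t).length ≤ N + 1)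
    (dj : ∀ᶠ ε in 𝓝[>] (0 : ℝ), PvydDj (((Γ m).l1 t).length + 3)
      (pvskList (D.sOut m ε z t) (D.kit m ε) (z + (Γ m).pout t) ((Γ m).dout t) ((Γ m).l1 t) (D.Kr m ε z t) (D.Ar m ε z t) (D.sRef m ε z t)))
    (he : ∀ᶠ ε in 𝓝[>] (0 : ℝ), ∀ i ≤ ((Γ m).l1 t).length, 𝔢 ε (1 + i) = pvjcE 𝔨 (z + (Γ m).pout t) ((Γ m).dout t) ((Γ m).l1 t) i)
    (hKE : ∀ᶠ ε in 𝓝[>] (0 : ℝ), ∀ i < ((Γ m).l1 t).length, KE ε (1 + i) = pvjcKE 𝔨 (z + (Γ m).pout t) ((Γ m).dout t) ((Γ m).l1 t) i)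
    (hMk : ∀ᶠ ε in 𝓝[>] (0 : ℝ), ∀ i < ((Γ m).l1 t).length, Mk ε (1 + i) = pvjcMk 𝔨 (z + (Γ m).pout t) ((Γ m).dout t) ((Γ m).l1 t) i)
    (hU : ∀ᶠ ε in 𝓝[>] (0 : ℝ), ∀ i < ((Γ m).l1 t).length, U ε (1 + (i + 1)) = pvjcU 𝔨 (z + (Γ m).pout t) ((Γ m).dout t) ((Γ m).l1 t) (i + 1))
    (F : ∀ᶠ ε in 𝓝[>] (0 : ℝ), PvjcFor ((Γ m).l1 t).length
      (pvskList (D.sOut m ε z t) (D.kit m ε) (z + (Γ m).pout t) ((Γ m).dout t) ((Γ m).l1 t) (D.Kr m ε z t) (D.Ar m ε z t) (D.sRef m ε z t)) (𝔢 ε) (KE ε) (Mk ε) (U ε) B a₀)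
    (pM : ∀ᶠ ε in 𝓝[>] (0 : ℝ), Mk ε (((Γ m).l1 t).length + 3) = Mk ε 0)
    (fo : ∀ᶠ ε in 𝓝[>] (0 : ℝ), ∀ᵐ η ∂(pvP ε), η ∈ D.G m ε z t →
      η ∈ (D.kit m ε).G (pvthZ (D.kit m ε).δ (z + (Γ m).pout t) ((Γ m).dout t) ((Γ m).l1 t) 0) (pvthD ((Γ m).dout t) ((Γ m).l1 t) 0) → η ∈ D.Ao m ε z t →
      PvucF c (𝔢 ε) (KE ε) (Mk ε) (U ε) 0 (D.Xo m ε a z t η) η)
    (fr : ∀ᶠ ε in 𝓝[>] (0 : ℝ), ∀ᵐ η ∂(pvP ε),
      η ∈ (D.kit m ε).G (pvthZ (D.kit m ε).δ (z + (Γ m).pout t) ((Γ m).dout t) ((Γ m).l1 t) ((Γ m).l1 t).length) (pvthD ((Γ m).dout t) ((Γ m).l1 t) ((Γ m).l1 t).length) →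
      η ∈ D.Gu m ε z t → η ∈ D.Ar m ε z t → PvucF c (𝔢 ε) (KE ε) (Mk ε) (U ε) (((Γ m).l1 t).length + 1) (D.Xr m ε a z t η) η)
    (fe : ∀ᶠ ε in 𝓝[>] (0 : ℝ), ∀ᵐ η ∂(pvP ε), η ∈ D.Gu m ε z t → η ∈ D.G m ε z t → η ∈ D.Ae m ε z t →
      PvucF c (𝔢 ε) (KE ε) (Mk ε) (U ε) (((Γ m).l1 t).length + 2) (D.Xe m ε a z t η) η) :
    PvucCyc1 D Γ a m z t c 𝔢 KE Mk U B a₀ where
  bB := bB
  a0 := a0
  cyc := by
    filter_upwards [hk, hD, hO, hK, dj, he, hKE, hMk, hU, F] with ε h1 h2 h3 h4 h5 h6 h7 h8 h9 h10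
    exact pvjc_cyc h5 R (by rw [h1]; exact h2.δ) (by rw [h1]; exact h3) (by rw [h1]; exact h4) hd hs hN hN' h6 h7 h8 h9 h10
  pM := pM
  mM := by
    filter_upwards [hMk, F] with ε h8 h10
    exact pvjc_mM R.ref hd h8 h10
  bM := by
    filter_upwards [hMk, F] with ε h8 h10
    exact pvjc_bM R.ref h8 h10
  dM := by
    filter_upwards [hMk, F] with ε h8 h10
    exact pvjc_dM R.ref hd hs hN hN' h8 h10
  fo := fo
  fk := pvjc_fk hk hX hD R.geo hd he hKE hMk hU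
  fr := fr
  fe := fe

end top

/-! ## 7. the inputs of `pvjc_cyc1` at the instance of record -/

theorem PvjcReg.sc {𝔤 : PvkdGeo} (h : PvjcReg 𝔤) {s : ℝ} (hs : 0 < s) : PvjcReg (𝔤.sc s) where
  ref := pvuk_ref_sc h.ref hs
  zone := by
    have e : ∀ r : ℝ, ball (0 : ℂ) (s * r) = pvdilS s (ball 0 r) := fun r => by
      have := pvdil_ball hs 0 r
      rwa [mul_zero] at this
    show ball (0 : ℂ) (s * 𝔤.a) ∪ ball 0 (s * 𝔤.b) ∪ pvdilS s 𝔤.Tb ⊆ pvdilS s 𝔤.O₀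
    rw [e, e, ← pvdil_S_union, ← pvdil_S_union]
    exact pvdil_S_mono s h.zone
  cor τ := by
    rw [pvdil_Ea]
    exact pvdil_S_mono s (h.cor τ)

/-- the unit instance of record (258) -/
theorem pvjc_reg_unit : PvjcReg pvkgG where
  ref := pvkgg_xref
  zone := by
    have hb : ∀ r : ℝ, r ≤ 1 / 20 → ball (0 : ℂ) r ⊆ pvkgO := by
      intro r hr w hw
      rw [mem_ball, dist_zero_right] at hw
      have h1 := abs_lt.1 (lt_of_le_of_lt (Complex.abs_re_le_norm w) hw)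
      have h2 := abs_lt.1 (lt_of_le_of_lt (Complex.abs_im_le_norm w) hw)
      exact ⟨by linarith [h1.1], by linarith [h1.2], by linarith [h2.1], by linarith [h2.2]⟩
    refine union_subset (union_subset (hb _ ?_) (hb _ ?_)) ?_
    · show (1 / 40 : ℝ) ≤ 1 / 20
      norm_num
    · show (2 * (1 / 40) : ℝ) ≤ 1 / 20
      norm_num
    · rintro w ⟨h1, h2, h3, h4⟩
      exact ⟨by linarith, by linarith, by linarith, by linarith⟩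
  cor τ := by
    rw [pvkgg_Ea]
    exact inter_subset_right.trans (pvtr_core_subset (by norm_num))

/-- **the geometry of record at every scale** -/
theorem pvjc_reg_rec {s : ℝ} (hs : 0 < s) : PvjcReg (pvkgG.sc s) := pvjc_reg_unit.sc hs

end Claimed.Agent.R289
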