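import Claimed.Agent.R289.Tr.FitL2
import Claimed.Agent.R289.Tr.FitObs
import Claimed.Agent.R289.Tr.CoverS2
import Claimed.Agent.R289.Tr.CorLk

/-!
# Row 289 (S0537, Cardy for Poisson-Voronoi), THE WALL, road E, file Exit/CorL2 : THE TOP OF (L2) `pvfh_cor` = THE THREE SUB-EXITS + THE CITATION      (pen helper56; prefix `pvcb_`, exits `exit_pvcb_*`)

`Tr/FitE` (209) imports THIS file: `pvfh_cor := pvcb_cor`.      Definitions, (ACC), (DOOR), (NUM) and the glue at one level `pvcb_cor_of`: `Tr/FitL2.lean` (0 sorry).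
HOW TO CLOSE A SUB-EXIT: prove the statement under your own name in your own file (which imports `Tr/FitL2`, NOT this file), then HERE: add the `import`, replace the `sorry` by the citation.      No word of the pen is needed.
* (S) `exit_pvcb_scene`   PROVED: 179 (`Tr/CoverS2.lean` `pvct_scene`)      * (G) `exit_pvcb_obs`   266 (`Tr/FitObs.lean`, `pvcj_obs`)      * (I) `exit_pvcb_idx`   PROVED: 92 270 198 (`Tr/CorLk.lean` `pvdo_idx`, `Tr/CorE.lean`, `Tr/CorDoor.lean`)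
-/

set_option autoImplicit false

namespace Claimed.Agent.R289

open Set Metric Filter Claims.C0465

/-- **(I)**      [PROVED: helper92, `pvdo_idx` of `Tr/CorLk.lean`, on `pvjw_cor pvjw_word` of 270, `pvjd_end` of 198; pen 270, `Tr/CorE.lean` (`pvjw_`); 148 `Tr/CorDoor.lean` (`pvjd_`); 20]
`pvtb_fit_mouth_pl` at `j = 4`, `rM = ρ h`, `rP = ρ h + 44 δ`, `ρ1 = 5R/2 + ..`, rectangles = the boxes `∪` the mouth discs, door cells `pt = a₂`, `ps = a₁`, normals `u₂ u₁`, `lt = ls = L`;   `l := pvtbWord n f`;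
`pvtb_word_ok _simple _nr _adm _C` + `PvfeLk` (FitReg v5: (N) of 148).      Tube off `g₀`: a cell off `pvtwN 5 (cells (K ∪ ..))` has its `3 δ`-collar off `K ⊇ G0`; the collars of the whisker cells lie in `closedBall y (2 ρ h)`. -/
theorem exit_pvcb_idx {τ : Type} (Γ : PvtsGeo τ) (ty : τ → PvwTy) (N : PvwNum) (h : ℝ) (x : ℂ) (R : ℝ) : PvcbIdx Γ ty N h x R :=
  pvdo_idx Γ ty N h x R


section top

variable {τ : Type} {c : ℝ} {𝔓 : PvxPar τ c} {x : ℂ} {R : ℝ}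

variable [Finite τ]

/-- **(S) THE SCENE AT THE MODEL**      [PROVED: helper179, `pvct_scene` of `Tr/CoverS2.lean` (seam 143 91 49, arc 10, polygons 211 179, core 292, mouths 215, input record 266, down end 154)] -/
theorem exit_pvcb_scene (c0 : 0 < c) (hW : 𝔓.Wf) (hP : PvfhWf 𝔓) (hR : 0 < R) : ∀ᶠ m in atTop, PvcbSceneAt 𝔓 x R m :=
  pvct_scene c0 hW hP hR

/-- **(G) THE METRIC FACTS ON THE OBSTACLE**      [PROVED: helper266, `pvcj_obs` of `Tr/FitObs.lean`]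
`ball`: `g₀` in `B(x,2R)` + mesh; `‖ctr - x‖ ≤ 2R + b h` (`g.v 0 = g⁺(s)`, `g.v n = g⁻(t)` on the gates), boxes and discs of size `O(h)`.   `g_sub`: `pvfy_K_vert`.   `g_off_*`: `PvfhArc.far_s far_t`.
`late_t`: `Kt` := the faces of the positions `ep i`, `i < np` (`pvkz_U_preconn` of 119; in the box: `StubP.ep_in ep_ax`, the box is convex); the other faces: right faces of `g₀` within the mesh of a vertex of `g₀`, gate and disc of `t` in `B(z, b h)`,
`‖y - z‖ ≥ (2 b₂ - ρ/4) h ≥ (b + 2 - ρ/4) h` (`PvfhWf.b_gap`), everything of `s` in the box of `s`, `R/3` away (`pvsn_K_cases` of 92).   `hull`: frozen sites are vertices of frozen faces or sites of the discs. -/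
theorem exit_pvcb_obs (c0 : 0 < c) (hW : 𝔓.Wf) (hP : PvfhWf 𝔓) (hR : 0 < R) : ∀ᶠ m in atTop, PvcbObsAt 𝔓 x R m := by
  filter_upwards [pvcb_num c0 hW hP hR] with m hn
  intro ω P s t 𝔇 j hyp
  obtain ⟨a1, a2, a3, a4, a5, a6, a7, a8, a9⟩ := pvcj_obs hW (hP.doors m) hP.b_gap (hn s.typ t.typ).dr (fun u => ((hn u u).rsR).trans (by linarith)) hR hyp.mesh hyp.far hyp.arc
  exact ⟨a1, a2, a3, a4, a5, a6, a7, a8, a9⟩

/-- **(R5) THE REGIONS LIE IN THE OPEN BALL `B(x,5R)`** = (b5) of `pvxPatSet` (TrModel v4.1, RULING 20 (1) of 234)      [187: PROVED]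
`reg_eq`;   `Yreg` = tube `3 δ` of cells within `4R` of `x` + two discs of radius `ρ h + 3 δ` round `y^±`, `‖y^± - x‖ ≤ 3R + O(h)`;   `Ycol` = the lanes with the collar `δ / 20`, inside the tube. -/
theorem exit_pvcb_reg5 (c0 : 0 < c) (hW : 𝔓.Wf) (hP : PvfhWf 𝔓) (hR : 0 < R) : ∀ᶠ m in atTop, PvcbReg5At 𝔓 x R m := by
  have lim : ∀ C : ℝ, ∀ᶠ m in atTop, C * pvlmH m ≤ R / 12 := fun C => by
    have : Tendsto (fun m => C * pvlmH m) atTop (nhds (C * 0)) := pvlm_H_lim.const_mul _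
    rw [mul_zero] at this
    exact this.eventually (ge_mem_nhds (by positivity))
  have h2 : ∀ᶠ m in atTop, ∀ u, ‖(𝔓.ty u).yp‖ * pvlmH m ≤ R / 12 := eventually_all.2 fun u => lim _
  have h3 : ∀ᶠ m in atTop, ∀ u, ‖(𝔓.ty u).ym‖ * pvlmH m ≤ R / 12 := eventually_all.2 fun u => lim _
  filter_upwards [pvcb_num c0 hW hP hR, h2, h3] with m hn e2 e3
  intro s t l hs ht hC Zs Zt
  have hn' := hn s.typ t.typ
  have hh := pvlm_H_pos m
  have hd : ‖pvfeD (𝔓.Γ m) (pvfhP s t l)‖ = pvlmDel c m := by rw [pvfe_norm_D, hW.del m, abs_of_pos (pvlm_Del_pos c m)]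
  have hδR : 3 * pvlmDel c m ≤ R / 12 := by linarith [hn'.dr, hn'.rR, hn'.d0]
  have htube : pvfeTube 3 (pvfeZ (𝔓.Γ m) (pvfhP s t l)) (pvfeD (𝔓.Γ m) (pvfhP s t l)) l ⊆ ball x (5 * R) := by
    intro w hw
    obtain ⟨i, hi, hwi⟩ := pvfe_mem_tube.1 hw
    rw [hd] at hwi
    rw [mem_ball_iff_norm]
    have := norm_sub_le_norm_sub_add_norm_sub w (pvccC (pvfeZ (𝔓.Γ m) (pvfhP s t l)) (pvfeD (𝔓.Γ m) (pvfhP s t l)) l i) x
    linarith [hC i hi.le]
  have hball : ∀ (z y : ℂ), ‖z - x‖ ≤ 3 * R → ‖y‖ * pvlmH m ≤ R / 12 → closedBall (z + (pvlmH m : ℂ) * y) (𝔓.num.rho * pvlmH m + 3 * pvlmDel c m) ⊆ ball x (5 * R) := by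
    intro z y hz hy w hw
    rw [mem_closedBall_iff_norm] at hw
    rw [mem_ball_iff_norm]
    have e : w - x = (w - (z + (pvlmH m : ℂ) * y)) + (z - x) + (pvlmH m : ℂ) * y := by ring
    have e2 : ‖(pvlmH m : ℂ) * y‖ = ‖y‖ * pvlmH m := by rw [norm_mul, Complex.norm_real, Real.norm_eq_abs, abs_of_pos hh, mul_comm]
    have h1 := norm_add₃_le (a := w - (z + (pvlmH m : ℂ) * y)) (b := z - x) (c := (pvlmH m : ℂ) * y)
    rw [e]
    linarith [hn'.rR]
  rw [hP.reg_eq]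
  refine union_subset (union_subset (union_subset htube ?_) ?_) ((pvfe_col_sub_tube (by norm_num) _ (pvfe_D_ne _ _) _).trans htube)
  · show closedBall ((𝔓.ty t.typ).cp (pvlmH m) t.ctr) (𝔓.num.rho * pvlmH m + 3 * ‖pvfeD (𝔓.Γ m) (pvfhP s t l)‖) ⊆ _
    rw [hd]
    exact hball _ _ ht (e2 _)
  · show closedBall ((𝔓.ty s.typ).cm (pvlmH m) s.ctr) (𝔓.num.rho * pvlmH m + 3 * ‖pvfeD (𝔓.Γ m) (pvfhP s t l)‖) ⊆ _
    rw [hd]
    exact hball _ _ hs (e3 _)

/-- **(L2) COR = FIT-DET AT THE MODEL** -/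
theorem pvcb_cor (c0 : 0 < c) (hW : 𝔓.Wf) (hP : PvfhWf 𝔓) (hR : 0 < R) : ∀ᶠ m in atTop, PvfhCorAt 𝔓 x R m := by
  filter_upwards [pvcb_num c0 hW hP hR, exit_pvcb_scene (x := x) c0 hW hP hR, exit_pvcb_obs (x := x) c0 hW hP hR, exit_pvcb_reg5 (x := x) c0 hW hP hR] with m h1 h2 h3 h4
  exact pvcb_cor_of hW hP h1 hR h2 h3 (exit_pvcb_idx _ _ _ _ _ _) h4

end top

end Claimed.Agent.R289
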