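import Claimed.Agent.R289.Defs.Three
import Claimed.Agent.R289.Tr.Cover
import Claimed.Agent.R289.Del.Seam
import Claimed.Agent.R289.Arm.Top6
import Claimed.Agent.R289.Tr.FitE
import Claimed.Agent.R289.Exit.Par

/-!
# Row 289 (S0537), Exit/Cover : THE ROOF OF THE FIELD `cover` OF `PvhbLocU` AT THE DATA OF RECORD      (pen helper143, post of 187; prefix `pvxv_`, `Pvxv`; definitions in `Defs/Three.lean`)

`pvxv_cover : 𝔓.Wf → 0 < R → PvxCover 𝔓 x R` (= `exit_pvx_cover` of `Exit/Tr.lean`, 187)      = COMPILED GLUE over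
  (K2) ARM        `exit_pvx_six : ∃ c₁ > 0, PvxvSix c₁`         CLOSED: `arms_six` of 84 128 (`Arm/Top6.lean`, wired by 137; twin of record `armu_six` of 222)
  (K3) FIT-DET    `exit_pvx_fit : ∀ᶠ m, PvxvFitAt 𝔓 x R m`      DETERMINISTIC, THE ONLY SORRY OF THIS FILE := **`pvfh_main` of 209 (`Tr/FitE.lean`)** = THE cut of record of the deterministic fit at the model;
                  to be wired (5 lines, text in the docstring of `exit_pvx_fit`) the minute 209 has re-landed `Tr/FitE` on `Tr/Defs` v3 + `Defs/TrModel` v4 (RULING 17 of 234: `Wf.reg_eq`, `Wf.doors`, `PvfeIx` in `pvxPatSet`).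
                  LEAVES: L1 `pvfh_arc` := `pvkc_arc` of 240 (`Tr/BuCover`; last debt `disj_b`: 28 240);  L2 `pvfh_cor`: PEN 246 (`Tr/FitL2`), 211 `Tr/Acc`, 49 `Tr/FitLift` `Tr/FitClock`, 20 217 (word), 56 257 266 270;  L3-L7: proved by 135 297.
                  v3 (11:00Z): my own cut (A) DATUM / (B) CORRIDOR of 10:33Z was a TWIN of (L1 L3 L4) / (L2 L5 L6): DELETED.
PROVED HERE:
  (K1) `pvxv_good_lim`      the good samples (Delaunay plane + mesh `≤ μ` on `B(x,6R)`) have upper probability `→ 1` as `ε ↓ 0`      (`dls_ae`, `l9_fine_prob`, `pvhb_up_le_law`)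
  (K2') `pvxv_z_eq`, `pvxv_z_lim`      at the radii `(4096 δ_m, ρ h_m / 64)` the export gives `z m = K δ_m^c₁ h_m^(-(2+c₁)) → 0`      (`pvlm_Del_beats_any` of 295 247)
  the inclusion `{not all fit} ⊆ {not good} ∪ {three passages}` and the ordered limit.
THE EXPONENTS.   `δ_m = pvlmDel c m ≤ h_m^(4+3/c+m)` (scales patch of 295, 10:03Z) is super-polynomially small in `h_m`: it beats `(R/h)² (δ/h)^(c₁)` for EVERY arm exponent `c₁ > 0`.      So the wall stays `for every c > 0`, no hypothesis on `c`.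
-/

set_option autoImplicit false

namespace Claimed.Agent.R289

open MeasureTheory Filter Topology Set Claims.C0465
open scoped ENNReal

/-! ## 1. (K1) the good samples -/

/-- an event of the sample, seen on the two-level space, is bounded by its outer measure under `pvLaw ε` -/
theorem pvxv_up_le_law (ε : ℝ) (A : Set PVSample) : (pvhbUp ε).P {q | pvMerge q ∈ A} ≤ pvLaw ε A := by
  have h := pvhb_up_le_law ε (A.indicator fun _ => 1)
  have e : (PvUp.ofMeasure (pvLaw ε)).E (A.indicator fun _ => 1) = pvLaw ε A := pvup_ofMeasure_P (pvLaw ε) A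
  rw [e] at h
  exact h

theorem pvxv_fine_lim (x : ℂ) {R μ : ℝ} (hR : 0 < R) (hμ : 0 < μ) :
    Tendsto (fun ε => (pvLaw ε {o | ¬ L9Fine (cfSites (pvConf o)) (Metric.closedBall x (6 * R)) μ}).toReal) (𝓝[>] (0 : ℝ)) (𝓝 0) :=
  (pvhb_tendsto_iff _ _).2 fun es h0 he => l9_fine_prob es h0 he x hR hμ

theorem pvxv_del_null {ε : ℝ} (hε : 0 < ε) : pvLaw ε {o | ¬ DelGood (pvxY o)} = 0 := by
  have h := (dls_ae hε).mono fun ω h => h.del
  exact ae_iff.1 h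

theorem pvxv_good_le (x : ℂ) (R μ : ℝ) {ε : ℝ} (hε : 0 < ε) :
    (pvhbUp ε).P {q | ¬ PvxvGood x R μ (pvMerge q)} ≤ pvLaw ε {o | ¬ L9Fine (cfSites (pvConf o)) (Metric.closedBall x (6 * R)) μ} := by
  have h0 : (pvhbUp ε).P {q | ¬ PvxvGood x R μ (pvMerge q)} ≤ pvLaw ε {o | ¬ PvxvGood x R μ o} := pvxv_up_le_law ε {o | ¬ PvxvGood x R μ o}
  have h1 : {o | ¬ PvxvGood x R μ o} ⊆ {o | ¬ DelGood (pvxY o)} ∪ {o | ¬ L9Fine (cfSites (pvConf o)) (Metric.closedBall x (6 * R)) μ} := by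
    intro o ho
    by_cases hd : DelGood (pvxY o)
    · exact Or.inr fun hf => ho ⟨hd, hf⟩
    · exact Or.inl hd
  refine h0.trans ((measure_mono h1).trans ((measure_union_le _ _).trans ?_))
  rw [pvxv_del_null hε, zero_add]

/-- **(K1)** -/
theorem pvxv_good_lim (x : ℂ) {R μ : ℝ} (hR : 0 < R) (hμ : 0 < μ) :
    Tendsto (fun ε => ((pvhbUp ε).P {q | ¬ PvxvGood x R μ (pvMerge q)}).toReal) (𝓝[>] (0 : ℝ)) (𝓝 0) := by
  refine squeeze_zero' (Eventually.of_forall fun ε => ENNReal.toReal_nonneg) ?_ (pvxv_fine_lim x hR hμ)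
  filter_upwards [self_mem_nhdsWithin] with ε hε
  exact ENNReal.toReal_mono (measure_ne_top _ _) (pvxv_good_le x R μ hε)

/-! ## 2. (K2') the numbers -/

theorem pvxv_S1_pos (c : ℝ) (m : ℕ) : 0 < pvxvS1 c m := by
  unfold pvxvS1
  have := pvlm_Del_pos c m
  positivity

theorem pvxv_Mu_pos (c : ℝ) (m : ℕ) : 0 < pvxvMu c m := by
  unfold pvxvMu
  have := pvlm_Del_pos c m
  positivity

theorem pvxv_S2_pos {ρ : ℝ} (hρ : 0 < ρ) (m : ℕ) : 0 < pvxvS2 ρ m := by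
  unfold pvxvS2
  have := pvlm_H_pos m
  positivity

/-- eventually `4096 δ_m ≤ ρ h_m / 64` -/
theorem pvxv_S1_le_S2 {c ρ : ℝ} (c0 : 0 < c) (hρ : 0 < ρ) : ∀ᶠ m in atTop, pvxvS1 c m ≤ pvxvS2 ρ m := by
  have h1 : ∀ᶠ m in atTop, pvlmH m < min 1 (ρ / 262144) := pvlm_H_lim.eventually (gt_mem_nhds (lt_min one_pos (by positivity)))
  filter_upwards [h1] with m hm
  have hh := pvlm_H_pos m
  have h2 : pvlmH m < 1 := lt_of_lt_of_le hm (min_le_left _ _)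
  have h3 : pvlmH m < ρ / 262144 := lt_of_lt_of_le hm (min_le_right _ _)
  have h4 := pvlm_Del_le_pow4 c0 m
  have h5 : pvlmH m ^ 4 ≤ pvlmH m * pvlmH m := by
    have : pvlmH m ^ 4 = (pvlmH m * pvlmH m) * (pvlmH m * pvlmH m) := by ring
    rw [this]
    have h6 : pvlmH m * pvlmH m ≤ 1 := by nlinarith
    nlinarith [mul_pos hh hh]
  unfold pvxvS1 pvxvS2
  nlinarith

/-- eventually `ρ h_m / 64 ≤ R` -/
theorem pvxv_S2_le {ρ R : ℝ} (hρ : 0 < ρ) (hR : 0 < R) : ∀ᶠ m in atTop, pvxvS2 ρ m ≤ R := by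
  have h1 : ∀ᶠ m in atTop, pvlmH m < 64 * R / ρ := pvlm_H_lim.eventually (gt_mem_nhds (by positivity))
  filter_upwards [h1] with m hm
  unfold pvxvS2
  rw [lt_div_iff₀ hρ] at hm
  nlinarith

/-- the bound of the export at the radii of level `m`, closed form -/
theorem pvxv_z_eq {c ρ : ℝ} (c1 : ℝ) (hρ : 0 < ρ) (C R : ℝ) (m : ℕ) :
    C * (R / pvxvS2 ρ m) ^ 2 * (pvxvS1 c m / pvxvS2 ρ m) ^ c1 = (C * (64 * R / ρ) ^ 2 * (262144 / ρ) ^ c1) * (pvlmDel c m ^ c1 * pvlmH m ^ (-(2 + c1))) := by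
  have hh := pvlm_H_pos m
  have hd := pvlm_Del_pos c m
  have e1 : R / pvxvS2 ρ m = 64 * R / ρ * (pvlmH m)⁻¹ := by unfold pvxvS2; field_simp
  have e2 : pvxvS1 c m / pvxvS2 ρ m = 262144 / ρ * (pvlmDel c m * (pvlmH m)⁻¹) := by unfold pvxvS1 pvxvS2; field_simp; ring
  have e3 : (262144 / ρ * (pvlmDel c m * (pvlmH m)⁻¹)) ^ c1 = (262144 / ρ) ^ c1 * (pvlmDel c m ^ c1 * (pvlmH m ^ c1)⁻¹) := by
    rw [Real.mul_rpow (by positivity) (by positivity), Real.mul_rpow hd.le (by positivity), Real.inv_rpow hh.le]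
  have e4 : pvlmH m ^ (-(2 + c1)) = (pvlmH m ^ 2)⁻¹ * (pvlmH m ^ c1)⁻¹ := by
    rw [Real.rpow_neg hh.le, Real.rpow_add hh, Real.rpow_two, mul_inv]
  rw [e1, e2, e3, e4, mul_pow, inv_pow]
  ring

theorem pvxv_z_lim {c c1 ρ : ℝ} (c0 : 0 < c) (h1 : 0 < c1) (hρ : 0 < ρ) (C R : ℝ) :
    Tendsto (fun m => C * (R / pvxvS2 ρ m) ^ 2 * (pvxvS1 c m / pvxvS2 ρ m) ^ c1) atTop (𝓝 0) := by
  simp only [pvxv_z_eq c1 hρ]
  exact pvlm_Del_beats_any c0 h1 _ _

/-! ## 3. the glue -/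

section glue

variable {τ : Type} {c : ℝ} {𝔓 : PvxPar τ c}

/-- **THE FIELD `cover`** from the ARM export and FIT-DET (both as hypotheses) -/
theorem pvxv_cover_of (c0 : 0 < c) (hρ : 0 < 𝔓.num.rho) {c1 : ℝ} (h1 : 0 < c1) (h6 : PvxvSix c1) {x : ℂ} {R : ℝ} (hR : 0 < R) (hfit : ∀ᶠ m in atTop, PvxvFitAt 𝔓 x R m) :
    PvxCover 𝔓 x R := by
  rw [pvxv_cover_iff]
  obtain ⟨C, hC⟩ := h6
  intro η hη
  have hz := (pvxv_z_lim c0 h1 hρ C R).eventually (ge_mem_nhds (half_pos hη))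
  filter_upwards [hfit, hz, pvxv_S1_le_S2 c0 hρ, pvxv_S2_le hρ hR] with m hm hzm h12 h2R
  have hg := (pvxv_good_lim x hR (pvxv_Mu_pos c m)).eventually (ge_mem_nhds (half_pos hη))
  filter_upwards [hg, hC x R (pvxvS1 c m) (pvxvS2 𝔓.num.rho m) (pvxv_S1_pos c m) h12 h2R] with ε h1 h2
  have hcap := pvtv_cap_up (pvhbUp ε)
  have hsub : {q | ¬ PvxvAll 𝔓 x R m (pvMerge q)} ⊆ {q | ¬ PvxvGood x R (pvxvMu c m) (pvMerge q)} ∪ pvxvEv x R (pvxvS1 c m) (pvxvS2 𝔓.num.rho m) := by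
    intro q hq
    by_cases hgq : PvxvGood x R (pvxvMu c m) (pvMerge q)
    · right
      by_contra hb
      exact hq (hm (pvMerge q) hgq hb)
    · left; exact hgq
  calc ((pvhbUp ε).P {q | ¬ PvxvAll 𝔓 x R m (pvMerge q)}).toReal
      ≤ ((pvhbUp ε).P ({q | ¬ PvxvGood x R (pvxvMu c m) (pvMerge q)} ∪ pvxvEv x R (pvxvS1 c m) (pvxvS2 𝔓.num.rho m))).toReal := hcap.mono hsub
    _ ≤ ((pvhbUp ε).P {q | ¬ PvxvGood x R (pvxvMu c m) (pvMerge q)}).toReal + ((pvhbUp ε).P (pvxvEv x R (pvxvS1 c m) (pvxvS2 𝔓.num.rho m))).toReal := hcap.union _ _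
    _ ≤ η := by linarith

end glue

/-! ## 4. the sub-exits -/

theorem pvxv_fine_mono {Y K : Set ℂ} {μ μ' : ℝ} (h : L9Fine Y K μ) (hμ : μ ≤ μ') : L9Fine Y K μ' := fun a b c ht hk =>
  ⟨(h a b c ht hk).1.trans hμ, (h a b c ht hk).2.1.trans hμ, (h a b c ht hk).2.2.trans hμ⟩

/-- **(K3) FIT-DET AT THE REAL MODEL** := `pvfh_main` of 209 (`Tr/FitE.lean` v3, on `Defs/TrModel` v4), WIRED (72, 11:50Z).      `Wf` of TrModel v4 is UNTOUCHED (R17 (d)): what FIT asks from the parameters is the record `PvfhWf 𝔓` of 209 (`Defs/FitRec`),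
PAID at the parameters of record by `pvxv_fit_wf`.      OPEN BELOW: the two leaves (L1) `pvfh_arc`, (L2) `pvfh_cor` of `Tr/FitE`. -/
theorem exit_pvx_fit {τ : Type} [Fintype τ] {c : ℝ} (c0 : 0 < c) (𝔓 : PvxPar τ c) (h : 𝔓.Wf) (hF : PvfhWf 𝔓) (x : ℂ) (R : ℝ) (hR : 0 < R) : ∀ᶠ m in atTop, PvxvFitAt 𝔓 x R m :=
  pvfh_main c0 h hF x hR

/-- **what FIT asks from the parameters, AT THE PARAMETERS OF RECORD**: regions `pvfeRegAt` (by definition), doors `PvfeDoors` (`pvxr_doors` of helper1 + the non degenerate menu of 73), `b₁ ≤ 2 b₂` -/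
theorem pvxv_fit_wf (N : PvxNums) (hN : N.Ok) (c : ℝ) : PvfhWf (pvxParOf N hN c) where
  reg_eq := fun _ _ => rfl
  doors := fun m => pvxr_doors (pvxParOf N hN c) m
    (fun t => (pvxo_nd_p t).trans (by show N.rho / 10 ≤ N.rho / 4; linarith [hN.rho0]))
    (fun t => (pvxo_nd_m t).trans (by show N.rho / 10 ≤ N.rho / 4; linarith [hN.rho0]))
  b_b2 := fun _ => by
    show N.b1 ≤ 2 * N.b2
    linarith [hN.gap, hN.ab2, hN.b2_pos]
  b_gap := fun _ => by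
    show N.b1 + 2 ≤ 2 * N.b2
    linarith [hN.gap, hN.ab2, hN.b2_pos]
  box2 := fun _ => by
    show N.b2 ≤ 2 * N.b2
    linarith [hN.gap, hN.ab2, hN.b2_pos]

/-- **(K2) THE ARM EXPORT**      [222; 84 75 249 237 186]
Plan (222).   Cover `B(x,3R)` by `≤ C (R/S)²` regions of size `~ S`; on the frame event (`armt_frame`, probability `→ 1`) every region carries its record `ArmtGeo` (`armt_geo`; `ι` = the `s`-boxes of the region, `m ~ log₁₆ (S/s)`, `m' = 0`);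
DET: `PvxvThree` at `y` ⟹ three runs with different entrances for the box `b` of `y` ⟹ `Cfg6 b` (`pvat_cfg6_three`, `pvsx_arm_cr`, tower restriction);   quenched count `armt_count` / `pvau_six_sum`, `armt_col`;   `pvup_iter_P` + `pvup_int_le` with the measurable majorant `κ + 1_{toMeasurable (no frame)}`. -/
theorem exit_pvx_six : ∃ c : ℝ, 0 < c ∧ PvxvSix c := arms_six

/-! ## 5. the roof -/

/-- **THE ROOF OF `cover`** -/
theorem pvxv_cover {τ : Type} [Fintype τ] {c : ℝ} (c0 : 0 < c) (𝔓 : PvxPar τ c) (h : 𝔓.Wf) (hF : PvfhWf 𝔓) (x : ℂ) (R : ℝ) (hR : 0 < R) : PvxCover 𝔓 x R := by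
  obtain ⟨c1, h1, h6⟩ := exit_pvx_six
  exact pvxv_cover_of c0 h.rho0 h1 h6 hR (exit_pvx_fit c0 𝔓 h hF x R hR)

/-- the field `cover` of `PvhbLocU`, VERBATIM, at `pins := pvxPins 𝔓 x R`, `Pat m := ↥(pvxPatSet 𝔓 x R m)`, `Fit := pvxFit 𝔓 x R` -/
theorem pvxv_cover_field {τ : Type} {c : ℝ} {𝔓 : PvxPar τ c} {x : ℂ} {R : ℝ} (h : PvxCover 𝔓 x R) :
    PvhbOrd (fun m ε => ((pvhbUp ε).P {q | ¬ ∀ P ∈ pvhbAll x R (pvMerge q), ∀ s ∈ pvxPins 𝔓 x R m (pvMerge q) P, ∀ t ∈ pvxPins 𝔓 x R m (pvMerge q) P, s.idx < t.idx →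
      (∀ k, s.idx ≤ k → k ≤ t.idx → ‖P.v k - x‖ ≤ 2 * R) → R / 3 ≤ ‖s.ctr - t.ctr‖ → ∃ π : ↥(pvxPatSet 𝔓 x R m), pvxFit 𝔓 x R m (pvMerge q) P s t π.1}).toReal) := by
  refine PvhbOrd.mono h fun m ε => ?_
  refine ENNReal.toReal_mono (PvUp.P_ne_top _ _) (PvUp.P_mono _ fun q hq => ?_)
  intro hall
  refine hq fun P hP s hs t ht hst hin hfar => ?_
  obtain ⟨π, hπ, hfit⟩ := hall P hP s hs t ht hst hin hfar
  exact ⟨⟨π, hπ⟩, hfit⟩

end Claimed.Agent.R289
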