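import Claimed.Agent.R289.Exit.Cover
import Claimed.Agent.R289.Exit.ParGeo
import Claimed.Agent.R289.Tr.FitE

/-!
# Row 289 (S0537), THE WALL, ROAD E, roof (S2) COVER, file Exit/CoverE : THE WIRING OF `exit_pvx_fit` AT THE PARAMETERS OF RECORD      (helper296; prefix `pvxw_`)

`exit_pvx_fit` (`Exit/Cover.lean`) is typed for EVERY `𝔓` with `𝔓.Wf`, and is FALSE there (`Γ`, `reg` are free in `Wf`: warning of 143, 240, 83).      It is used ONCE, at `pvxParOf N hN c` (`Exit/Tr.lean`, `exit_pvx_cover`).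
HERE, 0 sorry of its own:
* `pvxw_wf`       `PvfhWf (pvxParOf N hN c)`      = the orphan record of `pvfh_main` (209): `reg_eq := rfl`, `doors := pvxr_doors_par` (helper1), `b ≤ 2 b₂` from `PvxNums.Ok`
* `pvxw_fit`      `∀ᶠ m, PvxvFitAt (pvxParOf N hN c) x R m  :=  pvfh_main ..`      (what stays owed = the two leaves `pvfh_arc` (L1), `pvfh_cor` (L2) of `Tr/FitE.lean`)
* `pvxw_cover`    `PvxCover (pvxParOf N hN c) x R`      = the statement of `exit_pvx_cover` of `Exit/Tr.lean`, VERBATIM, WITHOUT `exit_pvx_fit`.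
TO WIRE (owner of `Exit/Tr.lean`): `import Claimed.Agent.R289.Exit.CoverE`, then `exit_pvx_cover := pvxw_cover c0 N hN x R hR`;   `exit_pvx_fit`, `pvxv_cover` of `Exit/Cover.lean` leave the kernel closure.
-/

set_option autoImplicit false

namespace Claimed.Agent.R289

open Set Metric Filter Claims.C0465

/-- **what FIT asks from the parameters, AT THE PARAMETERS OF RECORD** -/
theorem pvxw_wf (N : PvxNums) (hN : N.Ok) (c : ℝ) : PvfhWf (pvxParOf N hN c) where
  reg_eq := fun _ _ => rfl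
  doors := fun m => pvxr_doors_par hN m
  b_b2 := fun _ => by
    show N.b1 ≤ 2 * N.b2
    linarith [hN.a1_pos, hN.ab1, hN.gap, hN.ab2]
  b_gap := fun _ => by
    show N.b1 + 2 ≤ 2 * N.b2
    linarith [hN.a1_pos, hN.ab1, hN.gap, hN.ab2]
  box2 := fun _ => by
    show N.b2 ≤ 2 * N.b2
    linarith [hN.a1_pos, hN.ab1, hN.gap, hN.ab2]

/-- **(K3) FIT-DET AT THE PARAMETERS OF RECORD** -/
theorem pvxw_fit {c : ℝ} (c0 : 0 < c) (N : PvxNums) (hN : N.Ok) (x : ℂ) (R : ℝ) (hR : 0 < R) : ∀ᶠ m in atTop, PvxvFitAt (pvxParOf N hN c) x R m :=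
  pvfh_main c0 (pvxo_wf N hN c) (pvxw_wf N hN c) x hR

/-- **(S2) COVER AT THE PARAMETERS OF RECORD** -/
theorem pvxw_cover {c : ℝ} (c0 : 0 < c) (N : PvxNums) (hN : N.Ok) (x : ℂ) (R : ℝ) (hR : 0 < R) : PvxCover (pvxParOf N hN c) x R := by
  obtain ⟨c1, h1, h6⟩ := exit_pvx_six
  exact pvxv_cover_of c0 (pvxo_wf N hN c).rho0 h1 h6 hR (pvxw_fit c0 N hN x R hR)

end Claimed.Agent.R289
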