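import Claimed.Agent.R289.Exit.CoverP
import Claimed.Agent.R289.Exit.ParP
import Claimed.Agent.R289.Tr.PlugGeo

/-!
# Row 289 (S0537), Exit/CoverPM : THE FIELD `cover` OF ROAD P AT THE MODEL OF RECORD      (pen helper236; prefix `pvrcm_`, `pvrcm`, `Pvrcm`)      0 sorry

`Exit/CoverP.lean` = the roof, generic in `(τ, 𝔐, Γ, pins)`, with ONE deterministic debt `PvrcMet`.      HERE: the debt is PAID at the model of 8 (`Tr/ModP.lean`: `PvmhNum.Fit`), the plug of 138 (`pvfjmPlug`, collar 8), the parameter of 186 (`pvrzPar`).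
* sec. 1  one pin: tails against the placed body `pvfjmB` (on the metric lemmas `pvqg_` of 222, `Tr/PlugGeo.lean`), polygons
* sec. 2  **`pvrcm_pair`**: two exact fits (`PvmfIn` + `PvmnFits`) + `(A1)` + `PvtvPolyIn` at the pattern scale ⟹ `PvrcPairIn` (`Tr/CellRef.lean` sec. 4);   backward tail `P[kb, mark 0 of s]`, forward tail `P[mark 10 of t, kf]`
* sec. 3  `pvrcmPL 𝔤`, `pvrcm_PL_wf`, **`pvrcm_met : PvrcMet 𝔑 c (pvrcmPL 𝔤) 𝔐 pins x R`** for ANY family of pins which fit exactly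
* sec. 4  numbers `pvrcmNum 𝔤 mm` (`ρ = 7 dc`, `σ = 2 h`, `μ = dc/10`, `Lr = 𝔤.Lr + 3`), THE TERM **`pvrcmD H m0 x R hmm hΓ : PvrxPat (pvrzPar c 𝔤 H Γ m0) x R`**, `pvrcm_fitV` (= `hF` of `pvrvArc`, 79), **`pvrcm_cover : PvrxCover (pvrcmD ..)`**.
* sec. 5  what a pattern of record gives: `pvrcm_body_near`, **`pvrcm_pat_farB`** (the two bodies do not touch = hypothesis `far` of `pvyt_geo_fit`, `pvyt_pat_fit` of 183)
THE ONLY HYPOTHESIS LEFT: `hΓ : PvrcDoors (pvrcmNum 𝔤 mm) c (pvrcmPL 𝔤) Γ` (mesh and doors of `Γ m` = those of the plug of level `m`: `rfl` at `pvfjGeo` of 138) and `10 ≤ mm`.      No `pinsOK`, no probability input which is not proved.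
-/

set_option autoImplicit false
set_option linter.unusedSectionVars false
set_option linter.unusedVariables false

namespace Claimed.Agent.R289

open MeasureTheory Filter Topology Set Claims.C0465 Claims.C0467 Claimed.Agent.R291

/-! ## 1. one pin: tails and body of 138 (collar 8) -/

section pin

variable {P : PvbRim} {z : ℂ} {t : ℕ → ℕ} {δ μ hh a b ρ d0 e0 d1 e1 : ℝ} {𝔑 : PvmnNum} {τ : PvmnType} {p q x : ℂ} {l i j : ℕ}

/-- a vertex after the mark `10` is far from the placed body -/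
theorem pvrcm_tail_fwd (I : PvmfIn P z t μ hh a b ρ d0 e0 d1 e1) (N : PvmfNum δ μ hh a b ρ d0 e0 d1 e1 (δ * 𝔑.rB)) (F : PvmnFits τ δ (fun i => P.v i - z) (fun k => t k.1))
    (hp : p ∈ pvmgPl z δ (pvfjmB 𝔑 τ)) (l1 : t 10 ≤ l) (l2 : l ≤ P.len) : 28 * δ < ‖P.v l - p‖ := by
  have C := I.cuts N
  have hδ := N.δ_pos; have h1 := N.d1_ge; have h2 := N.μ_le; have h3 := N.RB_lt
  rw [pvfjmB, pvmg_union, pvmg_union] at hp
  rcases hp with (hp | hp) | hp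
  · have := pvqg_ball_fwd I N hp ((C.le (by omega) le_rfl).trans l1) l2
    rw [mul_add] at this
    linarith
  · have := pvqg_fwd I N F (j := 5) (by omega) hp ((C.le (by omega) le_rfl).trans l1) l2
    push_cast at this
    linarith
  · have := pvqg_fwd I N F (j := 8) (by omega) hp l1 l2
    push_cast at this
    linarith

/-- a vertex before the mark `0` is far from the placed body -/
theorem pvrcm_tail_bwd (I : PvmfIn P z t μ hh a b ρ d0 e0 d1 e1) (N : PvmfNum δ μ hh a b ρ d0 e0 d1 e1 (δ * 𝔑.rB)) (F : PvmnFits τ δ (fun i => P.v i - z) (fun k => t k.1))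
    (hp : p ∈ pvmgPl z δ (pvfjmB 𝔑 τ)) (l1 : l ≤ t 0) : 28 * δ < ‖P.v l - p‖ := by
  have C := I.cuts N
  have hδ := N.δ_pos; have h1 := N.d1_ge; have h2 := N.μ_le; have h3 := N.RB_lt
  rw [pvfjmB, pvmg_union, pvmg_union] at hp
  rcases hp with (hp | hp) | hp
  · have := pvqg_ball_bwd I N hp (l1.trans (C.le (by omega) (by omega)))
    rw [mul_add] at this
    linarith
  · have := pvqg_bwd I N F (i := 4) (by omega) hp (l1.trans (C.le (by omega) (by omega)))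
    push_cast at this
    linarith
  · have := pvqg_bwd I N F (i := 1) (by omega) hp l1
    push_cast at this
    linarith

/-- a polygon whose vertices are `> η` from every point of `X`, `μ ≤ η`, misses `X` -/
theorem pvrcm_poly_disj {v : ℕ → ℂ} {X : Set ℂ} {η μ' : ℝ} (hμ : 0 ≤ μ') (hη : μ' ≤ η) (hij : i ≤ j) (mesh : ∀ k, i ≤ k → k < j → ‖v (k + 1) - v k‖ ≤ μ')
    (h : ∀ p ∈ X, ∀ l, i ≤ l → l ≤ j → η < ‖v l - p‖) : Disjoint (pvtxPoly v i j) X := by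
  rw [Set.disjoint_left]
  intro y hy hyX
  have := pvqg_poly_far hμ hij mesh (h y hyX) hy
  rw [sub_self, norm_zero] at this
  linarith

/-- a polygon with vertices in a closed ball -/
theorem pvrcm_poly_ball {v : ℕ → ℂ} {r : ℝ} (hij : i ≤ j) (h : ∀ l, i ≤ l → l ≤ j → ‖v l - x‖ ≤ r) : pvtxPoly v i j ⊆ Metric.closedBall x r := by
  intro y hy
  rcases pvtx_mem_poly.1 hy with rfl | ⟨k, a1, a2, a3⟩
  · exact mem_closedBall_iff_norm.2 (h i le_rfl hij)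
  · exact (convex_closedBall x r).segment_subset (mem_closedBall_iff_norm.2 (h k a1 a2.le)) (mem_closedBall_iff_norm.2 (h (k + 1) (by omega) (by omega))) a3

end pin

/-! ## 2. two pins: the metric contract of a pair -/

section pair

variable {T : Type} {ty : T → PvmnType} {𝔑 : PvmnNum} {𝔐 : PvbMenu T} {P : PvbRim} {s t : PvbPin T} {as at' : ℕ → ℕ} {μ hh a b ρ d0 e0 d1 e1 : ℝ}
  {k : ℕ} {dc : ℝ} {cs0 ct0 : ℤ × ℤ} {x : ℂ} {R Lb h' μp ρp σ : ℝ} {kb kf : ℕ}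

/-- **TWO EXACT FITS + `(A1)` + THE POLYGONAL INPUT ⟹ THE METRIC CONTRACT OF THE PAIR**      (`δ = k dc` = the cell of the menu;   `Lb` = a radius of the placed box `nBx + 8`;   `μp ρp σ` = mesh and near returns at the pattern scale) -/
theorem pvrcm_pair (hN : PvmnNumOK 𝔑) (hWP : 𝔑.nW ≤ 𝔑.nP) (hty : ∀ t, PvmnIsType 𝔑 (ty t)) (hk : 0 < k) (hdc : 0 < dc)
    (N : PvmfNum ((k : ℝ) * dc) μ hh a b ρ d0 e0 d1 e1 ((k : ℝ) * dc * 𝔑.rB))
    (Is : PvmfIn P s.ctr as μ hh a b ρ d0 e0 d1 e1) (Fs : PvmnFits (ty s.typ) ((k : ℝ) * dc) (fun i => P.v i - s.ctr) (fun j => as j.1)) (h5s : as 5 = s.idx)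
    (It : PvmfIn P t.ctr at' μ hh a b ρ d0 e0 d1 e1) (Ft : PvmnFits (ty t.typ) ((k : ℝ) * dc) (fun i => P.v i - t.ctr) (fun j => at' j.1)) (h5t : at' 5 = t.idx)
    (hcs : s.ctr = pvmgPt ((k : ℝ) * dc) cs0) (hct : t.ctr = pvmgPt ((k : ℝ) * dc) ct0)
    (hLb : ∀ (z : ℂ) (E : Set (ℤ × ℤ)), E ⊆ pvmnBox (𝔑.nBx + 8) → pvmgPl z ((k : ℝ) * dc) E ⊆ Metric.closedBall z Lb)
    (hLR : 8 * (Lb + hh + (k : ℝ) * dc) ≤ R) (h6b : 12 * b + 2 * μ ≤ Lb)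
    (hμp0 : 0 ≤ μp) (hμp : μp ≤ dc) (hρp : 6 * dc + 2 * μp ≤ ρp) (hσ : σ + 2 * μp ≤ ρ)
    (hlt : s.idx < t.idx) (harc : ∀ j, s.idx ≤ j → j ≤ t.idx → ‖P.v j - x‖ ≤ 2 * R) (hfar : R / 3 ≤ ‖s.ctr - t.ctr‖)
    (HP : PvtvPolyIn 𝔐 x R h' μp ρp σ P s t kb kf) :
    PvrcPairIn (pvfjmPlug 𝔑 ty) k dc x R P s t cs0 ct0 (pvfjmEm (ty s.typ)) (pvfjmEp (ty t.typ)) kb (as 0) (at' 10) kf := by
  have hδ := N.δ_pos
  have hk1 : (1 : ℝ) ≤ (k : ℝ) := by exact_mod_cast hk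
  have hdδ : dc ≤ (k : ℝ) * dc := by nlinarith
  have Cs := Is.cuts N
  have Ct := It.cuts N
  have hb := N.b_pos
  have hμ0 := N.μ_nn
  have hμδ := N.μ_le
  have hh0 := N.hh_nn
  have hd1 := N.d1_ge
  have hbd : d1 < b := by have := N.e1_lt; have := N.d1_le; linarith
  have ns : ‖P.v s.idx - s.ctr‖ ≤ hh := by rw [← h5s]; exact Is.near
  have nt : ‖P.v t.idx - t.ctr‖ ≤ hh := by rw [← h5t]; exact It.near
  have xs : ‖s.ctr - x‖ ≤ 2 * R + hh := by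
    have h1 := pvtv_tri s.ctr (P.v s.idx) x
    rw [norm_sub_rev s.ctr (P.v s.idx)] at h1
    have h2 := harc s.idx le_rfl hlt.le
    linarith
  have xt : ‖t.ctr - x‖ ≤ 2 * R + hh := by
    have h1 := pvtv_tri t.ctr (P.v t.idx) x
    rw [norm_sub_rev t.ctr (P.v t.idx)] at h1
    have h2 := harc t.idx hlt.le le_rfl
    linarith
  have s05 : as 0 ≤ s.idx := by rw [← h5s]; exact Cs.le (by omega) (by omega)
  have t510 : t.idx ≤ at' 10 := by rw [← h5t]; exact Ct.le (by omega) (by omega)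
  -- order of the marks
  have hkb0 : kb ≤ as 0 := by
    refine pvqg_order_bwd Is (by rw [h5s]; exact HP.kb_lt.le) ?_
    have h1 := pvtv_tri (P.v kb) s.ctr x
    have h2 := HP.out_b
    linarith
  have h10kf : at' 10 ≤ kf := by
    refine pvqg_order_fwd It (by rw [h5t]; exact HP.lt_kf.le) ?_
    have h1 := pvtv_tri (P.v kf) t.ctr x
    have h2 := HP.out_f
    linarith
  have r0s : ‖P.v (as 0) - s.ctr‖ ≤ 6 * b + μ := by
    have := Is.dn_rad N 5 (by norm_num) le_rfl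
    norm_num at this
    linarith
  have r10t : ‖P.v (at' 10) - t.ctr‖ ≤ 6 * b + μ := by
    have := It.up_rad N 5 (by norm_num) le_rfl
    norm_num at this
    linarith
  have h00 : as 0 ≤ at' 0 := by
    refine pvqg_order_bwd It (by rw [h5t]; exact s05.trans hlt.le) ?_
    have h1 := pvtv_tri s.ctr (P.v (as 0)) t.ctr
    rw [norm_sub_rev s.ctr (P.v (as 0))] at h1
    linarith
  have h1010 : as 10 ≤ at' 10 := by
    refine pvqg_order_fwd Is (by rw [h5s]; exact hlt.le.trans t510) ?_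
    have h1 := pvtv_tri t.ctr (P.v (at' 10)) s.ctr
    rw [norm_sub_rev t.ctr (P.v (at' 10)), norm_sub_rev t.ctr s.ctr] at h1
    linarith
  -- boxes
  have bB : ∀ u : T, pvfjmB 𝔑 (ty u) ⊆ pvmnBox (𝔑.nBx + 8) := fun u => pvfjm_B_box hN (hty u)
  have bEm : pvfjmEm (ty s.typ) ⊆ pvmnBox (𝔑.nBx + 8) := pvfjm_Em_sub.trans ((pvmn_N_box ((hty s.typ).box 0)).trans (pvmn_box_mono (by omega)))
  have bEp : pvfjmEp (ty t.typ) ⊆ pvmnBox (𝔑.nBx + 8) := pvfjm_Ep_sub.trans ((pvmn_N_box ((hty t.typ).box 9)).trans (pvmn_box_mono (by omega)))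
  have hballs : Disjoint (Metric.closedBall s.ctr Lb) (Metric.closedBall t.ctr Lb) := by
    refine Metric.closedBall_disjoint_closedBall ?_
    rw [dist_eq_norm]
    linarith
  have hin : ∀ z : ℂ, ‖z - x‖ ≤ 2 * R + hh → Metric.closedBall z Lb ⊆ Metric.closedBall x (9 * R / 4) := by
    intro z hz
    refine Metric.closedBall_subset_closedBall' ?_
    rw [dist_eq_norm]
    linarith
  -- meshes
  have meshA : ∀ j, s.idx ≤ j → j < t.idx → ‖P.v (j + 1) - P.v j‖ ≤ μp := fun j h1 h2 => HP.mesh j (HP.kb_lt.le.trans h1) (h2.trans HP.lt_kf)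
  have meshB : ∀ j, kb ≤ j → j < as 0 → ‖P.v (j + 1) - P.v j‖ ≤ μp := fun j h1 h2 => HP.mesh j h1 (by have := HP.lt_kf; omega)
  have meshF : ∀ j, at' 10 ≤ j → j < kf → ‖P.v (j + 1) - P.v j‖ ≤ μp := fun j h1 h2 => HP.mesh j (by have := HP.kb_lt; omega) h2
  have hμ28 : μp ≤ 28 * ((k : ℝ) * dc) := by linarith
  refine
    { k0 := hk, dc0 := hdc, dcR := by linarith, cs := hcs, ct := hct, le := hlt.le, jk := h10kf, in_s := ?_, in_t := ?_, apart := ?_,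
      A_in := pvrcm_poly_ball hlt.le fun l h1 h2 => (harc l h1 h2).trans (by linarith),
      Bs_in := (hLb s.ctr _ (bB s.typ)).trans (hin _ xs), Bt_in := (hLb t.ctr _ (bB t.typ)).trans (hin _ xt),
      Em_conn := pvfjm_Em_conn _, Ep_conn := pvfjm_Ep_conn _, front_m := pvfjm_front_m hWP hty s.typ, front_p := pvfjm_front_p hWP hty t.typ,
      Em_B := pvfjm_Em_off_B (hty _), Ep_B := pvfjm_Ep_off_B (hty _),
      Es_Bt := hballs.mono (hLb _ _ bEm) (hLb _ _ (bB t.typ)), Et_Bs := hballs.symm.mono (hLb _ _ bEp) (hLb _ _ (bB s.typ)),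
      Qb_Bs := pvrcm_poly_disj hμp0 hμ28 hkb0 meshB fun p hp l _ l2 => pvrcm_tail_bwd Is N Fs hp l2,
      Qb_Bt := pvrcm_poly_disj hμp0 hμ28 hkb0 meshB fun p hp l _ l2 => pvrcm_tail_bwd It N Ft hp (l2.trans h00),
      Qf_Bs := pvrcm_poly_disj hμp0 hμ28 h10kf meshF fun p hp l l1 l2 => pvrcm_tail_fwd Is N Fs hp (h1010.trans l1) (l2.trans HP.kf_le),
      Qf_Bt := pvrcm_poly_disj hμp0 hμ28 h10kf meshF fun p hp l l1 l2 => pvrcm_tail_fwd It N Ft hp l1 (l2.trans HP.kf_le),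
      A_Es := ?_, A_Et := ?_, A_Qb := ?_, A_Qf := ?_,
      tip_b := ⟨P.v (as 0), pvtx_vertex_mem hkb0 le_rfl, pvmg_mem_sq.2 ⟨_, pvfjm_Em_tip (hty _) hWP, pvmf_q Fs 0⟩⟩,
      tip_f := ⟨P.v (at' 10), pvtx_mem_poly.2 (Or.inl rfl), pvmg_mem_sq.2 ⟨_, pvfjm_Ep_tip (hty _) hWP, pvmf_q Ft 10⟩⟩,
      out_b := HP.out_b, out_f := HP.out_f }
  · refine pvmg_mem_sq.2 ⟨(ty s.typ).q 5, Or.inl (Or.inr (pvtw_N_sub (pvmn_C_sub 5 (by decide) (by decide) (pvfjm_q5_mem (hty _))))), ?_⟩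
    have := pvmf_q Fs 5
    rwa [show as (5 : Fin 11).1 = s.idx from h5s] at this
  · refine pvmg_mem_sq.2 ⟨(ty t.typ).q 5, Or.inl (Or.inr (pvtw_N_sub (pvmn_C_sub 5 (by decide) (by decide) (pvfjm_q5_mem (hty _))))), ?_⟩
    have := pvmf_q Ft 5
    rwa [show at' (5 : Fin 11).1 = t.idx from h5t] at this
  · intro p hp q hq
    have bY : pvtwN 8 (pvmnCells (ty s.typ) 1 3) ⊆ pvmnBox (𝔑.nBx + 8) := pvmn_N_box (pvmn_cells_box (hty _))
    have bY' : pvtwN 8 (pvmnCells (ty t.typ) 6 8) ⊆ pvmnBox (𝔑.nBx + 8) := pvmn_N_box (pvmn_cells_box (hty _))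
    have e1 : pvmgPt ((k : ℝ) * dc) p ∈ pvmgPl s.ctr ((k : ℝ) * dc) (pvtwN 8 (pvmnCells (ty s.typ) 1 3)) := by
      rw [hcs, pvrc_pl]
      simp only [pvtU, Set.mem_iUnion, exists_prop]
      exact ⟨p, hp, pvrc_corner hδ.le p⟩
    have e2 : pvmgPt ((k : ℝ) * dc) q ∈ pvmgPl t.ctr ((k : ℝ) * dc) (pvtwN 8 (pvmnCells (ty t.typ) 6 8)) := by
      rw [hct, pvrc_pl]
      simp only [pvtU, Set.mem_iUnion, exists_prop]
      exact ⟨q, hq, pvrc_corner hδ.le q⟩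
    have f1 : ‖pvmgPt ((k : ℝ) * dc) p - s.ctr‖ ≤ Lb := mem_closedBall_iff_norm.1 (hLb _ _ bY e1)
    have f2 : ‖pvmgPt ((k : ℝ) * dc) q - t.ctr‖ ≤ Lb := mem_closedBall_iff_norm.1 (hLb _ _ bY' e2)
    have key : (q.1 ≤ p.1 + 1 ∧ p.1 ≤ q.1 + 1 ∧ q.2 ≤ p.2 + 1 ∧ p.2 ≤ q.2 + 1) → False := by
      rintro ⟨g1, g2, g3, g4⟩
      have g := pvrc_sq_dist (j := 1) hδ.le (c := q) (z := p) (by exact_mod_cast g1) (by exact_mod_cast g2) (by exact_mod_cast g3) (by exact_mod_cast g4)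
        (pvrc_corner hδ.le p) (pvrc_corner hδ.le q)
      push_cast at g
      have t1 := pvtv_tri s.ctr (pvmgPt ((k : ℝ) * dc) p) t.ctr
      have t2 := pvtv_tri (pvmgPt ((k : ℝ) * dc) p) (pvmgPt ((k : ℝ) * dc) q) t.ctr
      rw [norm_sub_rev s.ctr (pvmgPt ((k : ℝ) * dc) p)] at t1
      linarith
    refine ⟨fun e => key ?_, fun e => key ?_⟩
    · subst e
      exact ⟨by omega, by omega, by omega, by omega⟩
    · rw [pvtb_G8_adj] at e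
      exact e.2
  · intro p hp q hq
    have hq' := pvmg_mono pvfjm_Em_sub hq
    have := pvqg_poly_far hμp0 hlt.le meshA (fun l l1 l2 => pvqg_E_bwd Is N Fs hq' ((Cs.le (i := 2) (j := 5) (by omega) (by omega)).trans (by rw [h5s]; exact l1))
      ((l2.trans HP.lt_kf.le).trans HP.kf_le)) hp
    linarith
  · intro p hp q hq
    have hq' := pvmg_mono pvfjm_Ep_sub hq
    have := pvqg_poly_far hμp0 hlt.le meshA (fun l l1 l2 => pvqg_E_fwd It N Ft hq' (l2.trans (by rw [← h5t]; exact Ct.le (by omega) (by omega)))) hp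
    linarith
  · intro p hp q hq
    by_cases hw : σ + μp < ‖p - s.ctr‖
    · have hp' : p ∈ pvtvPoly P s.idx t.idx := by rw [← pvrc_poly P hlt]; exact hp
      have hq' : q ∈ pvtvPoly P kb s.idx := by rw [← pvrc_poly P HP.kb_lt]; exact pvtx_poly_mono le_rfl s05 HP.kb_lt.le hq
      have := HP.nr_b p hp' q hq' hw
      linarith
    · rw [not_lt] at hw
      obtain ⟨u, u1, u2, u3⟩ := pvtx_poly_vertex hμp0 hlt.le meshA hp
      obtain ⟨l, l1, l2, l3⟩ := pvtx_poly_vertex hμp0 hkb0 meshB hq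
      have w1 : ‖P.v u - s.ctr‖ ≤ ρ := by
        have := pvtv_tri (P.v u) p s.ctr
        rw [norm_sub_rev (P.v u) p] at this
        linarith
      have w2 := pvqg_sep Is N (j := 0) (s := l) (l := u) (by omega) l2 ((Cs.le (i := 0 + 1) (j := 5) (by omega) (by omega)).trans (by rw [h5s]; exact u1)) ((u2.trans HP.lt_kf.le).trans HP.kf_le) (Or.inr w1)
      have w3 := pvtv_tri (P.v l) q (P.v u)
      have w4 := pvtv_tri q p (P.v u)
      rw [norm_sub_rev (P.v l) q] at w3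
      rw [norm_sub_rev q p] at w4
      linarith
  · intro p hp q hq
    by_cases hw : σ + μp < ‖p - t.ctr‖
    · have hp' : p ∈ pvtvPoly P s.idx t.idx := by rw [← pvrc_poly P hlt]; exact hp
      have hq' : q ∈ pvtvPoly P t.idx kf := by rw [← pvrc_poly P HP.lt_kf]; exact pvtx_poly_mono t510 le_rfl h10kf hq
      have := HP.nr_f p hp' q hq' hw
      linarith
    · rw [not_lt] at hw
      obtain ⟨u, u1, u2, u3⟩ := pvtx_poly_vertex hμp0 hlt.le meshA hp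
      obtain ⟨l, l1, l2, l3⟩ := pvtx_poly_vertex hμp0 h10kf meshF hq
      have w1 : ‖P.v u - t.ctr‖ ≤ ρ := by
        have := pvtv_tri (P.v u) p t.ctr
        rw [norm_sub_rev (P.v u) p] at this
        linarith
      have w2 := pvqg_sep It N (j := 9) (s := u) (l := l) (by omega) (u2.trans (by rw [← h5t]; exact Ct.le (by omega) (by omega))) l1 (l2.trans HP.kf_le) (Or.inl w1)
      have w3 := pvtv_tri (P.v u) p (P.v l)
      have w4 := pvtv_tri p q (P.v l)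
      rw [norm_sub_rev (P.v u) p] at w3
      linarith

end pair

/-! ## 3. `PvrcMet` at the model of road P -/

/-- **the plug of the menu of road P** (138: body, fronts, doors = functions of the type) -/
noncomputable def pvrcmPL (𝔤 : PvmhNum) : PvfjPlug (PvmhT 𝔤) := pvfjmPlug 𝔤.NN PvmhT.typ

theorem pvrcm_PL_wf {𝔤 : PvmhNum} (H : 𝔤.OK) : (pvrcmPL 𝔤).WF :=
  pvfjm_wf (pvmh_numOK H) (by have := pvmh_bars H; omega) fun t => t.isType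

/-- links between the numbers of the roof and the numbers of the model -/
structure PvrcmRel (𝔤 : PvmhNum) (𝔑 : PvrcNum) : Prop where
  dl : 𝔑.dl = 𝔤.dl
  kρ : 6 + 2 * 𝔑.kμ ≤ 𝔑.kρ
  kσ : 𝔑.kσ + 1 ≤ 10 * 𝔤.b3

section model

variable {𝔤 : PvmhNum} {𝔑 : PvrcNum} {c : ℝ} {x : ℂ} {R : ℝ}

/-- **(K3) AT THE MODEL**: the deterministic debt of the roof `cover`, for ANY family of pins which fit exactly -/
theorem pvrcm_met (H : 𝔤.OK) (H𝔑 : 𝔑.Ok) (hrel : PvrcmRel 𝔤 𝔑) (c0 : 0 < c) (hR : 0 < R) {𝔐 : PvbMenu (PvmhT 𝔤)}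
    {pins : ℕ → ℝ → PVSample → PvbRim → Set (PvbPin (PvmhT 𝔤))}
    (hfit : ∀ m ε ω P, ∀ s ∈ pins m ε ω P, 𝔤.Fit (pvlmH m) P s.idx s.ctr s.typ) :
    PvrcMet 𝔑 c (pvrcmPL 𝔤) 𝔐 pins x R := by
  have l1 : Tendsto (fun m => 8 * (𝔤.Lr + 1 + 𝔤.dl) * pvlmH m) atTop (𝓝 0) := by simpa using pvlm_H_lim.const_mul (8 * (𝔤.Lr + 1 + 𝔤.dl))
  filter_upwards [l1.eventually (ge_mem_nhds hR)] with m hm ε ω P s t kb kf _ _ _ hpair _ _ _ _ HP
  have hh := pvlm_H_pos m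
  obtain ⟨⟨ps, hps⟩, as, h5s, Is, Fs⟩ := hfit m ε ω P s hpair.hs
  obtain ⟨⟨pt, hpt⟩, at', h5t, It, Ft⟩ := hfit m ε ω P t hpair.ht
  obtain ⟨g0, g1, g2, g3, g4, g5⟩ := pvmh_basic H
  have e : 𝔤.dl * pvlmH m = (pvlmN c m : ℝ) * 𝔑.dc c m := by rw [pvrc_dc_mul H𝔑, hrel.dl]
  have hdc := pvrc_dc_pos H𝔑 c m
  have N := pvmh_num H hh
  have hLb : ∀ (z : ℂ) (E : Set (ℤ × ℤ)), E ⊆ pvmnBox (𝔤.NN.nBx + 8) → pvmgPl z (𝔤.dl * pvlmH m) E ⊆ Metric.closedBall z (𝔤.Lr * pvlmH m) :=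
    fun z E hE => pvmh_w88_box_ball H z hh hE
  have hnd : (0 : ℝ) < (𝔤.nd : ℝ) := by exact_mod_cast H.nd0
  have hgrid : pvlmH m = ((𝔤.nd : ℤ) : ℝ) * (𝔤.dl * pvlmH m) := by
    rw [H.dl_eq, Int.cast_natCast]
    field_simp
  have hcs : s.ctr = pvmgPt (𝔤.dl * pvlmH m) ((𝔤.nd : ℤ) * ps.1, (𝔤.nd : ℤ) * ps.2) := by rw [hps]; exact pvrc_l9 hgrid ps
  have hct : t.ctr = pvmgPt (𝔤.dl * pvlmH m) ((𝔤.nd : ℤ) * pt.1, (𝔤.nd : ℤ) * pt.2) := by rw [hpt]; exact pvrc_l9 hgrid pt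
  have hb3 : 𝔤.b3 = 𝔤.b 2 + 1 := rfl
  have hLr : 𝔤.Lr = 20 * 𝔤.b3 := rfl
  have hmu := H.mu0
  have hmul := H.mu_le
  have hμh := pvrc_mu_le H𝔑 c0 m
  rw [e] at N Fs Ft hLb hcs hct
  have I := pvrcm_pair (ty := PvmhT.typ) (𝔐 := 𝔐) (x := x) (R := R) (pvmh_numOK H) (by have := pvmh_bars H; omega) (fun u => u.isType) (pvlm_N_pos c m) hdc N Is Fs h5s It Ft h5t hcs hct hLb
    (by rw [← e]; linarith) (by rw [hLr]; nlinarith) (pvrc_mu_pos H𝔑 c m).le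
    (by unfold PvrcNum.mu; have := H𝔑.kμ1; nlinarith)
    (by unfold PvrcNum.rho PvrcNum.mu; have := hrel.kρ; nlinarith)
    (by unfold PvrcNum.sig; have := hrel.kσ; nlinarith) hpair.lt hpair.arc hpair.far HP
  exact ⟨_, _, pvrc_met (pvrcm_PL_wf H) I (pvrc_kB_spec H𝔑 c m x R)⟩

end model

/-! ## 4. the data of record: patterns, fit, cover at the parameter `pvrzPar` of 186 -/

/-- **the numbers of the roof at the model**:   `ρ = 7 dc`, `σ = 2 h`, `μ = dc / 10`, reading radius of `pvrzPar`;   `mm` = the pen of `Γ` chooses it (`10 ≤ mm`) -/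
noncomputable def pvrcmNum (𝔤 : PvmhNum) (mm : ℤ) : PvrcNum := ⟨𝔤.dl, mm, 7, 2, 1 / 10, 𝔤.Lr + 3⟩

theorem pvrcm_eqns_cite : True := by
  have := @pvrcmPL.eq_1; have := @pvrcmNum.eq_1
  trivial

theorem pvrcm_num_ok {𝔤 : PvmhNum} (H : 𝔤.OK) {mm : ℤ} (hmm : 10 ≤ mm) : (pvrcmNum 𝔤 mm).Ok := by
  obtain ⟨g0, g1, -⟩ := pvmh_basic H
  exact ⟨g0, by show 𝔤.dl ≤ 1; linarith, hmm, by show (0 : ℝ) < 7; norm_num, by show (1 : ℝ) < 2; norm_num, by show (0 : ℝ) < 1 / 10; norm_num, le_rfl⟩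

theorem pvrcm_num_rel {𝔤 : PvmhNum} (H : 𝔤.OK) (mm : ℤ) : PvrcmRel 𝔤 (pvrcmNum 𝔤 mm) := by
  obtain ⟨g0, g1, g2, g3, g4, g5⟩ := pvmh_basic H
  have hb3 : 𝔤.b3 = 𝔤.b 2 + 1 := rfl
  exact ⟨rfl, by show (6 : ℝ) + 2 * (1 / 10) ≤ 7; norm_num, by show (2 : ℝ) + 1 ≤ 10 * 𝔤.b3; rw [hb3]; linarith⟩

section record

variable {c : ℝ} {𝔤 : PvmhNum} (H : PvrzGood 𝔤) {Γ : ℕ → PvtsGeo (PvmhT 𝔤)} (m0 : ℕ) {mm : ℤ} (x : ℂ) (R : ℝ)

/-- **THE PATTERNS AND THE FIT OF RECORD OF ROAD P** in the patch `(x,R)`.      `Fit` = `PvrcFit` (pattern of `(P,s,t)`, mesh, `(A1)`, pins, no near return, polygonal input) AND `PvrvFit` (79: what the `V`-fields ask) -/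
noncomputable def pvrcmD (hmm : 10 ≤ mm) (hΓ : PvrcDoors (pvrcmNum 𝔤 mm) c (pvrcmPL 𝔤) Γ) : PvrxPat (pvrzPar c 𝔤 H Γ m0) x R where
  Pat := pvrcPat (pvrcmNum 𝔤 mm) c (pvrcmPL 𝔤) x R
  Pat_fin := pvrc_pat_fin (pvrcm_PL_wf H.ok)
  pat := pvrcPatOf
  pat_ok := pvrc_pat_ok (pvrcm_num_ok H.ok hmm) hΓ
  far := pvrc_pat_far
  Fit := fun m _ ω P s t π => PvrcFit (pvmhMenu 𝔤 H.ok) m ω P s t π ∧ PvrvFit (pvrzPar c 𝔤 H Γ m0) x R m P s t
  fit_s := fun _ _ _ _ _ _ _ h => pvrc_fit_s h.1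
  fit_t := fun _ _ _ _ _ _ _ h => pvrc_fit_t h.1

theorem pvrcm_eqns_cite2 : True := by
  have := @pvrcmD.eq_1
  trivial

variable {m0 x R}

/-- the fit of record gives what the `V`-fields ask (hypothesis `hF` of `pvrvArc` of 79) -/
theorem pvrcm_fitV (hmm : 10 ≤ mm) (hΓ : PvrcDoors (pvrcmNum 𝔤 mm) c (pvrcmPL 𝔤) Γ) (m : ℕ) (ε : ℝ) (ω : PVSample) (P : PvbRim) (s t : PvbPin (PvmhT 𝔤)) (π : (pvrcmD H m0 x R hmm hΓ).Pat m)
    (h : (pvrcmD H m0 x R hmm hΓ).Fit m ε ω P s t π) : PvrvFit (pvrzPar c 𝔤 H Γ m0) x R m P s t := h.2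

/-- a qualified pin of the parameter of record fits exactly -/
theorem pvrcm_pin_fit {m : ℕ} {ε : ℝ} {ω : PVSample} {P : PvbRim} {s : PvbPin (PvmhT 𝔤)} (hs : s ∈ (pvrzPar c 𝔤 H Γ m0).pins x R m ε ω P) : 𝔤.Fit (pvlmH m) P s.idx s.ctr s.typ :=
  hs.2.2.2.fit

/-- a qualified pin of the parameter of record is a pin of the menu with a grid centre -/
theorem pvrcm_pin_isPin {m : ℕ} {ε : ℝ} {ω : PVSample} {P : PvbRim} {s : PvbPin (PvmhT 𝔤)} (hs : s ∈ (pvrzPar c 𝔤 H Γ m0).pins x R m ε ω P) :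
    PvbIsPin (pvmhMenu 𝔤 H.ok) (pvlmH m) P s ∧ ∃ p : ℤ × ℤ, s.ctr = l9Pt (pvlmH m) p := by
  obtain ⟨lo, hi, Hp⟩ := hs.2.2.2.pass
  exact ⟨pvmh_isPin H.ok (pvlm_H_pos m).le s.typ Hp hs.2.2.2.near, hs.2.2.1⟩

/-- **THE FIELD `cover` OF ROAD P AT THE DATA OF RECORD**: no hypothesis but the doors of `Γ` -/
theorem pvrcm_cover (c0 : 0 < c) (hR : 0 < R) (hmm : 10 ≤ mm) (hΓ : PvrcDoors (pvrcmNum 𝔤 mm) c (pvrcmPL 𝔤) Γ) : PvrxCover (pvrcmD H m0 x R hmm hΓ) := by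
  refine pvrc_ord_rims (pvdb_blk_sub x R) ?_
  refine pvrc_cover_det (𝔐 := pvmhMenu 𝔤 H.ok) (pins := (pvrzPar c 𝔤 H Γ m0).pins x R) (Ex := fun m _ _ P s t => PvrvFit (pvrzPar c 𝔤 H Γ m0) x R m P s t)
    (pvrcm_num_ok H.ok hmm) c0 hR (pvrcm_PL_wf H.ok) (fun m ε ω P s hs => pvrcm_pin_isPin H hs)
    (pvrcm_met H.ok (pvrcm_num_ok H.ok hmm) (pvrcm_num_rel H.ok mm) c0 hR fun m ε ω P s hs => pvrcm_pin_fit H hs) ?_
  have l1 : Tendsto (fun m => (𝔤.rO + 2) * pvlmH m) atTop (𝓝 0) := by simpa using pvlm_H_lim.const_mul (𝔤.rO + 2)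
  filter_upwards [l1.eventually (ge_mem_nhds hR)] with m hm ε ω P s t hpair
  exact pvrv_fit hR hpair.hs hpair.ht hpair.lt hpair.arc hm hm

end record

/-! ## 5. what a pattern of record gives -/

section patrec

variable {c : ℝ} {𝔤 : PvmhNum} {mm : ℤ} {x : ℂ} {R : ℝ} {m : ℕ}

/-- a small cell of a placed refined body: its corner is within `𝔤.Lr h` of the centre -/
theorem pvrcm_body_near (H : 𝔤.OK) (c : ℝ) (mm : ℤ) (m : ℕ) {a p : ℤ × ℤ} {t : PvmhT 𝔤} (hp : p ∈ pvfjSh a ((pvrcPL c (pvrcmPL 𝔤) m).B t)) :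
    ‖pvmgPt ((pvrcmNum 𝔤 mm).dc c m) p - pvmgPt ((pvrcmNum 𝔤 mm).dc c m) a‖ ≤ 𝔤.Lr * pvlmH m := by
  have H𝔑 : ∀ mm', 10 ≤ mm' → (pvrcmNum 𝔤 mm').Ok := fun mm' h => pvrcm_num_ok H h
  have hdc : 0 < (pvrcmNum 𝔤 mm).dc c m := mul_pos H.dl0 (pvlm_Del_pos c m)
  have hk : (0 : ℤ) < (pvlmN c m : ℤ) := by exact_mod_cast pvlm_N_pos c m
  have e : ((pvlmN c m : ℤ) : ℝ) * (pvrcmNum 𝔤 mm).dc c m = 𝔤.dl * pvlmH m := by
    rw [Int.cast_natCast]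
    show (pvlmN c m : ℝ) * (𝔤.dl * pvlmDel c m) = 𝔤.dl * pvlmH m
    rw [← pvlm_N_mul_Del c m]
    ring
  obtain ⟨u, hu, rfl⟩ := hp
  have hu' : (u.1 / (pvlmN c m : ℤ), u.2 / (pvlmN c m : ℤ)) ∈ pvfjmB 𝔤.NN t.typ := hu
  have h1 := pvrc_sq_sub hk hdc.le u (pvrc_corner hdc.le u)
  rw [e] at h1
  have h2 : pvmgPt ((pvrcmNum 𝔤 mm).dc c m) u ∈ pvmgPl 0 (𝔤.dl * pvlmH m) (pvfjmB 𝔤.NN t.typ) := pvmg_mem_sq.2 ⟨_, hu', by rwa [sub_zero]⟩
  have h3 := pvmh_w88_box_ball H 0 (pvlm_H_pos m) (pvfjm_B_box (pvmh_numOK H) t.isType) h2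
  rw [mem_closedBall_iff_norm, sub_zero] at h3
  have e2 : pvmgPt ((pvrcmNum 𝔤 mm).dc c m) (u + a) - pvmgPt ((pvrcmNum 𝔤 mm).dc c m) a = pvmgPt ((pvrcmNum 𝔤 mm).dc c m) u := by
    unfold pvmgPt
    apply Complex.ext
    · simp only [Complex.sub_re, Prod.fst_add, Int.cast_add]; ring
    · simp only [Complex.sub_im, Prod.snd_add, Int.cast_add]; ring
  rw [e2]
  exact h3

/-- **the two bodies of a pattern of record do not touch** (hypothesis `far` of `pvyt_geo_fit`, `pvyt_pat_fit` of 183) -/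
theorem pvrcm_pat_farB (H : 𝔤.OK) (c0 : 0 < c) (π : pvrcPat (pvrcmNum 𝔤 mm) c (pvrcmPL 𝔤) x R m) :
    ∀ p ∈ pvfjSh π.1.1.ct ((pvrcPL c (pvrcmPL 𝔤) m).B π.1.1.tt), ∀ q ∈ pvfjSh π.1.1.cs ((pvrcPL c (pvrcmPL 𝔤) m).B π.1.1.ts), PvfjFar p q := by
  intro p hp q hq
  have hh := pvlm_H_pos m
  have hdc : 0 < (pvrcmNum 𝔤 mm).dc c m := mul_pos H.dl0 (pvlm_Del_pos c m)
  obtain ⟨g0, g1, -⟩ := pvmh_basic H
  have hdh : (pvrcmNum 𝔤 mm).dc c m ≤ pvlmH m := by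
    have h1 := pvlm_Del_le_H c0 m
    have h2 := pvlm_Del_pos c m
    show 𝔤.dl * pvlmDel c m ≤ pvlmH m
    nlinarith
  have f1 := pvrcm_body_near H c mm m hp
  have f2 := pvrcm_body_near H c mm m hq
  have hfar : 2 * (𝔤.Lr + 3) * pvlmH m < ‖pvmgPt ((pvrcmNum 𝔤 mm).dc c m) π.1.1.cs - pvmgPt ((pvrcmNum 𝔤 mm).dc c m) π.1.1.ct‖ := π.2
  have key : (q.1 ≤ p.1 + 1 ∧ p.1 ≤ q.1 + 1 ∧ q.2 ≤ p.2 + 1 ∧ p.2 ≤ q.2 + 1) → False := by
    rintro ⟨k1, k2, k3, k4⟩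
    have g := pvrc_sq_dist (j := 1) hdc.le (c := q) (z := p) (by exact_mod_cast k1) (by exact_mod_cast k2) (by exact_mod_cast k3) (by exact_mod_cast k4)
      (pvrc_corner hdc.le p) (pvrc_corner hdc.le q)
    push_cast at g
    have t1 := pvtv_tri (pvmgPt ((pvrcmNum 𝔤 mm).dc c m) π.1.1.cs) (pvmgPt ((pvrcmNum 𝔤 mm).dc c m) q) (pvmgPt ((pvrcmNum 𝔤 mm).dc c m) π.1.1.ct)
    have t2 := pvtv_tri (pvmgPt ((pvrcmNum 𝔤 mm).dc c m) q) (pvmgPt ((pvrcmNum 𝔤 mm).dc c m) p) (pvmgPt ((pvrcmNum 𝔤 mm).dc c m) π.1.1.ct)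
    rw [norm_sub_rev (pvmgPt ((pvrcmNum 𝔤 mm).dc c m) π.1.1.cs) (pvmgPt ((pvrcmNum 𝔤 mm).dc c m) q)] at t1
    rw [norm_sub_rev (pvmgPt ((pvrcmNum 𝔤 mm).dc c m) q) (pvmgPt ((pvrcmNum 𝔤 mm).dc c m) p)] at t2
    nlinarith
  refine ⟨fun e => key ?_, fun e => key ?_⟩
  · subst e
    exact ⟨by omega, by omega, by omega, by omega⟩
  · rw [pvtb_G8_adj] at e
    exact e.2

end patrec

end Claimed.Agent.R289
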