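-- KEEP
import Claimed.Agent.R289.Exit.AnaDefs
import Claimed.Agent.R289.Tr.Top

/-!
# Row 289 (S0537), THE WALL, ROAD E, Exit/Cyc1 : ROOF OF THE FIELD `cyc1`      (pen helper115, post of 234 10:52Z, split with 129 11:02Z; seconds 102 180; prefix `pvc1_`, `pvc1`, `Pvc1`)

LEVELS.   `PvnaQ.cyc1` / `PvnaCyc1` (271, `Exit/AnaDefs`)  ⟸  **`pvc1_cyc1`** (sec. 2, PROVED)  ⟸  for every candidate `(m, p, t)` a record **`Pvc1In`** (sec. 1) = [base-indexed `Σ₁` cycle of 129 (`Tr/Top` sec. 6) with `Pvl3CycOkF`] + (TAIL) + (ACT).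
The probability is finished here: TR2 for the `Σ₁` cycle + Jensen + hybrid invariance in the U-form = `pvl3_cyc1_fam` (129, 0 sorry), colour flip = `pvl3_U0_flip`.      NOTHING here unfolds `Tr/InstE`: the roof is stated for ANY number `K ε ω` and ANY set `S ε` of samples.
* sec. 1  `Pvc1In 𝔓 a m z t S K`   THE CONTRACT for one candidate;   `S ε` = the good usable samples,   `K ε ω` = the number `kout + pvtSum W (dout t) (l1 t) + kin0 + ke` of the Hub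
* sec. 2  `pvc1_one` (one candidate), **`pvc1_cyc1`** (`PvnaCyc1`, verbatim), `pvc1_field` (the field `cyc1` of `PvnaQ` for ANY `kout W kin0 ke Gd`)                                                             PROVED
-/

set_option autoImplicit false

namespace Claimed.Agent.R289

open MeasureTheory Filter Topology Set Claims.C0465
open scoped ENNReal

/-! ## 1. the contract for one candidate -/

section contract

variable {τ : Type} {c : ℝ}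

/-- **THE CONTRACT OF `cyc1` FOR ONE CANDIDATE `(z,t)`** of level `m`, field `y_a`;   `S ε` = the samples over which the `L²` norm is taken,   `K ε ω` = the number `kout + pvtSum W + kin0 + ke`.
* `E L`   the abstract record of the experiment + the BASE-INDEXED end links (129, `Tr/Top` sec. 3, 6);   adapter from `PvieEng`: 129 `Tr/InstC`
* `b`     the colour of the rim: everything is read on `pvxnFl b (pvConf ω)` (`true` = the colour of the rim)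
* `ok`    = the hypotheses of the engine at one mesh (`Pvl3CycOkF`: kit | thin link into the reference plug | locality + STOP on the class of the base | forced constants | second moments | colour cylinders | (C2) for the self cycle)
* `tail`  = I.TAIL at fixed level
* `act`   = a good usable sample is a base of the experiment;   the number of the Hub IS the diagonal value of the abstract record -/
structure Pvc1In (a : ℂ) (m : ℕ) (z : ℂ) (t : τ) (S : ℝ → Set PVSample) (K : ℝ → PVSample → ℂ) where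
  E : Pvl3Exp τ (pvlmDel c)
  L : Pvl3Lk τ
  b : Bool
  B : ℝ → Set (Conf PvPt)
  Bs : ℝ → Conf PvPt → Set (Conf PvPt)
  C : ℝ → Set ℂ
  frz : ℝ → Conf PvPt → Finset ℂ
  Θ : ℝ → Conf PvPt → ℝ≥0∞
  D : ℝ≥0∞
  D1 : D ≠ ∞
  ok : ∀ᶠ ε in 𝓝[>] (0 : ℝ), Pvl3CycOkF E L a m ε z t (B ε) (Bs ε) (C ε) (frz ε) (Θ ε) D
  tail : Tendsto (fun ε => ∫⁻ ω, Θ ε ω ∂(pvP ε)) (𝓝[>] (0 : ℝ)) (𝓝 0)
  act : ∀ᶠ ε in 𝓝[>] (0 : ℝ), ∀ ω ∈ S ε, pvxnFl b (pvConf ω) ∈ B ε ∧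
    K ε ω = E.koutD L m ε a z t (pvxnFl b (pvConf ω)) + pvtSum (E.W m ε a) ((E.Γ m).dout t) ((E.Γ m).l1 t) + E.kin0 m ε a + E.keD L m ε a z t (pvxnFl b (pvConf ω))

/-! ## 2. the roof -/

/-- `cyc1` for one candidate -/
theorem pvc1_one {a : ℂ} {m : ℕ} {z : ℂ} {t : τ} {S : ℝ → Set PVSample} {K : ℝ → PVSample → ℂ} (I : Pvc1In (c := c) a m z t S K) :
    Tendsto (fun ε => (pvhbUp ε).E ((pvMerge ⁻¹' S ε).indicator fun q => ‖K ε (pvMerge q)‖ₑ ^ 2)) (𝓝[>] (0 : ℝ)) (𝓝 0) := by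
  have h0 := pvl3_cyc1_fam I.E I.L a m z t I.B I.Bs I.C I.frz I.Θ I.D I.D1 I.ok I.tail
  refine tendsto_of_tendsto_of_tendsto_of_le_of_le' tendsto_const_nhds h0 (Eventually.of_forall fun _ => zero_le) ?_
  filter_upwards [I.act] with ε hact
  set G : PvGeoT × PvColT → ℝ≥0∞ := (pvl3Cf ⁻¹' I.B ε).indicator fun o =>
    ‖I.E.koutD I.L m ε a z t (pvl3Cf o) + pvtSum (I.E.W m ε a) ((I.E.Γ m).dout t) ((I.E.Γ m).l1 t) + I.E.kin0 m ε a + I.E.keD I.L m ε a z t (pvl3Cf o)‖ₑ ^ 2 with hG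
  show (pvl3U0 ε).E _ ≤ (pvl3U0 ε).E G
  have key : ∀ (o o' : PvGeoT × PvColT), pvxnFl I.b (pvConf (pvMerge o)) = pvl3Cf o' → (pvMerge ⁻¹' S ε).indicator (fun q => ‖K ε (pvMerge q)‖ₑ ^ 2) o ≤ G o' := by
    intro o o' e
    by_cases ho : o ∈ pvMerge ⁻¹' S ε
    · obtain ⟨h1, h2⟩ := hact _ ho
      rw [e] at h1 h2
      rw [indicator_of_mem ho, hG, indicator_of_mem (show o' ∈ pvl3Cf ⁻¹' I.B ε from h1), h2]
    · rw [indicator_of_notMem ho]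
      exact zero_le
  cases hb : I.b
  · rw [← pvl3_U0_flip ε G]
    refine (pvl3U0 ε).mono fun o => key o (o.1, pvColFlip o.2) ?_
    rw [hb]
    have e : pvxnFl false (pvConf (pvMerge o)) = pvConf (pvMerge (o.1, pvColFlip o.2)) := pvqu_flip_conf o.1 o.2
    rw [e]
    rfl
  · refine (pvl3U0 ε).mono fun o => key o o ?_
    rw [hb]
    rfl

/-- **THE FIELD `cyc1` OF `PvnaQ`, VERBATIM**, for any `kout W kin0 ke Gd` which have a contract at every candidate -/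
theorem pvc1_field (𝔓 : PvxPar τ c) (W : ℕ → ℝ → PvtW) (kin0 : ℕ → ℝ → ℂ) (kout ke : ℕ → ℝ → ℂ → τ → PVSample → ℂ) (Gd : ℕ → ℝ → ℂ → τ → Set PVSample)
    (H : ∀ (m : ℕ) (p : ℤ × ℤ) (t : τ), Nonempty (Pvc1In (c := c) 0 m (l9Pt (pvlmH m) p) t (fun ε => pvxU 𝔓 m (l9Pt (pvlmH m) p) t ∩ Gd m ε (l9Pt (pvlmH m) p) t) fun ε ω =>
      kout m ε (l9Pt (pvlmH m) p) t ω + pvtSum (W m ε) ((𝔓.Γ m).dout t) ((𝔓.Γ m).l1 t) + kin0 m ε + ke m ε (l9Pt (pvlmH m) p) t ω)) :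
    ∀ (m : ℕ) (p : ℤ × ℤ) (t : τ), Tendsto (fun ε => (pvhbUp ε).E ((pvMerge ⁻¹' pvxU 𝔓 m (l9Pt (pvlmH m) p) t ∩ pvMerge ⁻¹' Gd m ε (l9Pt (pvlmH m) p) t).indicator fun q =>
      ‖kout m ε (l9Pt (pvlmH m) p) t (pvMerge q) + pvtSum (W m ε) ((𝔓.Γ m).dout t) ((𝔓.Γ m).l1 t) + kin0 m ε + ke m ε (l9Pt (pvlmH m) p) t (pvMerge q)‖ₑ ^ 2)) (𝓝[>] (0 : ℝ)) (𝓝 0) := by
  intro m p t
  obtain ⟨I⟩ := H m p t
  refine (pvc1_one I).congr fun ε => ?_
  rw [preimage_inter]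

/-- the number of the Hub for the `Σ₁` cycle of a candidate, for the analytic data `𝔇` (`Q` alone; data of record: `pvnaDatE 𝔓 𝔈`) -/
noncomputable def pvc1K (𝔓 : PvxPar τ c) (𝔇 : PvnaDat τ) (m : ℕ) (z : ℂ) (t : τ) (ε : ℝ) (ω : PVSample) : ℂ :=
  𝔇.kout m ε z t ω + pvtSum (𝔇.W m ε) ((𝔓.Γ m).dout t) ((𝔓.Γ m).l1 t) + 𝔇.kin0 m ε + 𝔇.ke m ε z t ω

/-- **(CYC1.IN)** the contract at every candidate of a level `m0 ≤ m` -/
def Pvc1All (𝔓 : PvxPar τ c) (𝔇 : PvnaDat τ) (𝔊 : PvnaGd τ) (m0 : ℕ) : Prop :=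
  ∀ (m : ℕ), m0 ≤ m → ∀ (p : ℤ × ℤ) (t : τ), Nonempty (Pvc1In (c := c) 0 m (l9Pt (pvlmH m) p) t (fun ε => pvxU 𝔓 m (l9Pt (pvlmH m) p) t ∩ 𝔊.all m ε (l9Pt (pvlmH m) p) t) (pvc1K 𝔓 𝔇 m (l9Pt (pvlmH m) p) t))

/-- **`PvnaCyc1`, VERBATIM** (v3 of `Exit/AnaDefs`: any data `𝔇`, levels `m0 ≤ m`) -/
theorem pvc1_cyc1 {𝔓 : PvxPar τ c} {𝔇 : PvnaDat τ} {𝔊 : PvnaGd τ} {m0 : ℕ} (H : Pvc1All 𝔓 𝔇 𝔊 m0) : PvnaCyc1 𝔓 𝔇 𝔊 m0 := by
  intro m hm p t
  obtain ⟨I⟩ := H m hm p t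
  refine (pvc1_one I).congr fun ε => ?_
  rw [preimage_inter]
  rfl

end contract

theorem pvc1_eqns_cite : True := by
  have := @pvc1K.eq_1; have := @Pvc1All.eq_1
  trivial

end Claimed.Agent.R289
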