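-- KEEP
import Claimed.Agent.R289.Exit.Cyc1K

/-!
# Row 289 (S0537), THE WALL, ROAD E, file Exit/Cyc1CO : THE LEAF (O) `exit_pvcy1d_own` OF 219 (`Exit/Cyc1CD`) = GLUE + THE ROOMS IN THE CORES OF THE MESH WINDOWS      (helper42; prefix `pvdw_`, `Pvdw`)

ROAD = MESH (`PvdwArcs.ownM`, `Tr/CycC2M` sec. 10): every vertex of the three special arcs lies in the `3μ`-core of the mesh window of its link (`μ = pvilMu 𝔓 m`), so every tag is within `2μ` of the tail of its edge.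
ANY parameters `𝔓`, ANY engine `𝔈`;   the reduced masks `MpP MmP` of the two stubs of the candidate are FREE sets inside (cells of the hull) ∩ (closed own-level box).
* sec. 1  cores: `pvdw_core_cells` (hull cells ∩ box), `pvdw_core_sq` (placed squares), `pvdw_core_sh` (shifts), `pvdw_Zm_sq`, `pvdw_Zp_sq`
* sec. 2  `PvdwRcB` = numerals + windows of the plugs, **`PvdwRc`** = `PvdwRcB` + THE THREE LINES (Rc) OF THE ENGINE;   **`pvdw_ko`**, **`pvdw_kr`**, **`pvdw_ke`**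
* sec. 3  **`pvdw_own_glueH`** (v2, HYBRID: mesh for `o`, `r`; `te` given: no (Rc) of the thick link);   **`pvdw_own_glue`** : `PvdwRc` + `PvdwOw` (179, 92) + `Pvc1kEv` (133) + normal form + rooms of the vertices ⟹ `Pvcy2Own` at the sequences = the conclusion of `exit_pvcy1d_own`
-/

set_option autoImplicit false

namespace Claimed.Agent.R289

open Set Metric

/-! ## 1. cores -/

/-- a point of the cells of `E` in the closed square of half side `R` is `δ` deep in `E⁺` cut by the square of half side `R + δ` -/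
theorem pvdw_core_cells {δ : ℝ} (hδ : 0 < δ) (E : Set (ℤ × ℤ)) (z : ℂ) (R : ℝ) : pvtU δ E ∩ pvwSq z R ⊆ pvtrCore δ (pvilFat δ E ∩ pvwSq z (R + δ)) := by
  rintro v ⟨h1, h2⟩ w hw
  rw [mem_closedBall, dist_eq_norm] at hw
  have e : w - z = (w - v) + (v - z) := by ring
  refine ⟨pvge_nbd_N8 hδ le_rfl ⟨v, h1, hw⟩, ?_, ?_⟩
  · rw [e, Complex.add_re]
    have := abs_add_le (w - v).re (v - z).re
    have := Complex.abs_re_le_norm (w - v)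
    linarith [h2.1]
  · rw [e, Complex.add_im]
    have := abs_add_le (w - v).im (v - z).im
    have := Complex.abs_im_le_norm (w - v)
    linarith [h2.2]

/-- a placed square is `r` deep in the placed square of half side `a + r` -/
theorem pvdw_core_sq {z d : ℂ} (hd : ‖d‖ = 1) (a r : ℝ) : pvkdAt z d (pvwSq 0 a) ⊆ pvtrCore r (pvkdAt z d (pvwSq 0 (a + r))) := by
  have hd0 : d ≠ 0 := by intro h; rw [h, norm_zero] at hd; exact zero_ne_one hd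
  intro v hv w hw
  rw [mem_closedBall, dist_eq_norm] at hw
  rw [pvkx_mem_at hd0] at hv ⊢
  have e : (w - z) / d - 0 = (w - v) / d + ((v - z) / d - 0) := by field_simp; ring
  have hn : ‖(w - v) / d‖ ≤ r := by rw [norm_div, hd, div_one]; exact hw
  refine ⟨?_, ?_⟩
  · rw [e, Complex.add_re]
    have := abs_add_le ((w - v) / d).re ((v - z) / d - 0).re
    have := Complex.abs_re_le_norm ((w - v) / d)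
    linarith [hv.1]
  · rw [e, Complex.add_im]
    have := abs_add_le ((w - v) / d).im ((v - z) / d - 0).im
    have := Complex.abs_im_le_norm ((w - v) / d)
    linarith [hv.2]

/-- a collar of a region is a collar of the shifted region -/
theorem pvdw_core_sh {S W : Set ℂ} {r : ℝ} (h : ∀ v ∈ S, closedBall v r ⊆ W) (z : ℂ) : pvieSh z S ⊆ pvtrCore r (pvieSh z W) := by
  rintro _ ⟨v, hv, rfl⟩ w hw
  refine ⟨w - z, h v hv ?_, by ring⟩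
  rw [mem_closedBall, dist_eq_norm] at hw ⊢
  have e : w - z - v = w - (z + v) := by ring
  rw [e]
  exact hw

theorem pvdw_Zm_sq {r : ℝ} (hr : 0 ≤ r) : (pvkdP r).Zm ⊆ pvwSq 0 (2 * r) := by
  rintro w ⟨h1, h2, h3, h4⟩
  rw [pvwSq]
  simp only [sub_zero, mem_ofPred_eq, abs_le]
  exact ⟨⟨by linarith, by linarith⟩, by linarith, by linarith⟩

theorem pvdw_Zp_sq {r : ℝ} (hr : 0 ≤ r) : (pvkdP r).Zp ⊆ pvwSq 0 (2 * r) := by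
  rintro w ⟨h1, h2, h3, h4⟩
  rw [pvwSq]
  simp only [sub_zero, mem_ofPred_eq, abs_le]
  exact ⟨⟨by linarith, by linarith⟩, by linarith, by linarith⟩

/-- the room of a gate vertex of the plug of record is deep in every region which contains the placed window `[-3r, 3r]²` -/
theorem pvdw_core_plug {z d : ℂ} (hd : ‖d‖ = 1) {r μ : ℝ} (hμ : μ ≤ r) {S W : Set ℂ} (hS : S ⊆ pvwSq 0 (2 * r)) (hW : pvkdAt z d (pvwSq 0 (3 * r)) ⊆ W) : pvkdAt z d S ⊆ pvtrCore μ W := by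
  have h1 : pvkdAt z d S ⊆ pvkdAt z d (pvwSq 0 (2 * r)) := Set.image_mono hS
  have h2 := pvdw_core_sq (z := z) hd (2 * r) r
  rw [show 2 * r + r = 3 * r by ring] at h2
  exact h1.trans (h2.trans ((pvtr_core_anti hμ).trans (pvtr_core_mono hW)))

/-! ## 2. the three rooms in the cores of the three mesh windows -/

section rc

variable {τ : Type} {c : ℝ} (𝔓 : PvxPar τ c) (𝔈 : PvieEng τ)

/-- numerals + windows of the two kinds of plugs -/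
structure PvdwRcB (m : ℕ) (ε : ℝ) (t : τ) : Prop where
  δ0 : 0 < pvlmDel c m
  μ0 : 0 < pvilMu 𝔓 m
  μd : 3 * pvilMu 𝔓 m ≤ pvlmDel c m / 40
  μu : 3 * pvilMu 𝔓 m ≤ pvilRu 𝔈 m
  dout : ‖(𝔓.Γ m).dout t‖ = 1
  din0 : ‖(𝔓.Γ m).din0‖ = 1
  dp_win : pvwSq 0 (3 * (pvlmDel c m / 40)) ⊆ (𝔈.kit m ε).O₀
  rp_win : pvwSq 0 (3 * pvilRu 𝔈 m) ⊆ 𝔈.rO m

/-- **THE LINES (Rc) OF THE ENGINE** (collars of the rooms of the three special links of the `Σ₁` cycle inside their windows, reference frames) + numerals + windows of the two kinds of plugs -/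
structure PvdwRc (m : ℕ) (ε : ℝ) (t : τ) : Prop extends PvdwRcB 𝔓 𝔈 m ε t where
  /-- (Rc) of the first link -/
  oY : ∀ v ∈ 𝔈.oY m t, closedBall v (3 * pvilMu 𝔓 m) ⊆ 𝔈.oM m t ∪ 𝔈.oK m t ∪ pvthSim ((𝔓.Γ m).pout t) ((𝔓.Γ m).dout t) '' (𝔈.kit m ε).O₀
  /-- (Rc) of the link into the reference plug -/
  rY : ∀ v ∈ 𝔈.rY m, closedBall v (3 * pvilMu 𝔓 m) ⊆ pvilWnr 𝔓 𝔈 m ε
  /-- (Rc) of the thick link -/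
  eY : ∀ v ∈ 𝔈.eY m t, closedBall v (3 * pvilMu 𝔓 m) ⊆ 𝔈.eM m t ∪ 𝔈.eK m t ∪ pvieSh ((𝔓.Γ m).zu t) (𝔈.rO m)

variable {𝔓 𝔈}

theorem pvdw_sh_union (z : ℂ) (A B : Set ℂ) : pvieSh z (A ∪ B) = pvieSh z A ∪ pvieSh z B := Set.image_union _ _ _

theorem pvdw_sh_sim (z p d : ℂ) (S : Set ℂ) : pvieSh z (pvthSim p d '' S) = pvthSim (z + p) d '' S := by
  unfold pvieSh
  rw [Set.image_image]
  refine Set.image_congr fun w _ => ?_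
  unfold pvthSim
  ring

theorem pvdw_sh_sh (z p : ℂ) (S : Set ℂ) : pvieSh z (pvieSh p S) = pvieSh (z + p) S := by
  unfold pvieSh
  rw [Set.image_image]
  refine Set.image_congr fun w _ => ?_
  ring

theorem pvdw_at_one (z : ℂ) (S : Set ℂ) : pvkdAt z 1 S = pvieSh z S := by
  unfold pvkdAt pvieSh
  refine Set.image_congr fun w _ => ?_
  unfold pvthSim
  ring

/-- the reduced mask of a stub is deep in the carried part of the window -/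
theorem pvdw_core_Wz {m : ℕ} (hδ : 0 < pvlmDel c m) (hμ : 3 * pvilMu 𝔓 m ≤ pvlmDel c m) (z : ℂ) (t : τ) (Zh : Set (ℤ × ℤ)) :
    pvtU (pvlmDel c m) Zh ∩ pvcaBx 𝔓.num (pvilPin 𝔓 m z t) ⊆ pvtrCore (3 * pvilMu 𝔓 m) (pvilWz 𝔓 m z t Zh) :=
  (pvdw_core_cells hδ Zh z (pvwRad 𝔓.num (pvlmH m) (𝔓.ty t) (𝔓.ty t).k)).trans (pvtr_core_anti hμ)

/-- **(ko)** the room of the arc of the first link lies in the `3μ`-core of its mesh window -/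
theorem pvdw_ko {m : ℕ} {ε : ℝ} {t : τ} (H : PvdwRcB 𝔓 𝔈 m ε t)
    (hY : ∀ v ∈ 𝔈.oY m t, closedBall v (3 * pvilMu 𝔓 m) ⊆ 𝔈.oM m t ∪ 𝔈.oK m t ∪ pvthSim ((𝔓.Γ m).pout t) ((𝔓.Γ m).dout t) '' (𝔈.kit m ε).O₀) (z : ℂ) {Zh : Set (ℤ × ℤ)} {MpP : Set ℂ} (hM : MpP ⊆ pvtU (pvlmDel c m) Zh ∩ pvcaBx 𝔓.num (pvilPin 𝔓 m z t)) :
    MpP ∪ (pvilLo 𝔓 𝔈 m z t).Yin ∪ pvkdAt (pvieZo 𝔓 m z t) ((𝔓.Γ m).dout t) (pvkdP (pvilRd 𝔓 m)).Zm ⊆ pvtrCore (3 * pvilMu 𝔓 m) (pvilWno 𝔓 𝔈 m ε z t Zh) := by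
  have hδ := H.δ0
  refine union_subset (union_subset ?_ ?_) ?_
  · refine hM.trans ((pvdw_core_Wz hδ (by linarith [H.μd]) z t Zh).trans (pvtr_core_mono ?_))
    exact fun w hw => Or.inl (Or.inl (Or.inl hw))
  · refine (pvdw_core_sh hY z).trans (pvtr_core_mono ?_)
    rw [pvdw_sh_union, pvdw_sh_union, pvdw_sh_sim]
    rintro w ((hw | hw) | hw)
    · exact Or.inl (Or.inl (Or.inr hw))
    · exact Or.inl (Or.inr hw)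
    · exact Or.inr hw
  · refine pvdw_core_plug H.dout H.μd (pvdw_Zm_sq (by unfold pvilRd; linarith)) ?_
    exact fun w hw => Or.inr (Set.image_mono H.dp_win hw)

/-- **(kr)** the room of the arc of the link into the reference plug lies in the `3μ`-core of its (moved) mesh window -/
theorem pvdw_kr {m : ℕ} {ε : ℝ} {t : τ} (H : PvdwRcB 𝔓 𝔈 m ε t) (hY : ∀ v ∈ 𝔈.rY m, closedBall v (3 * pvilMu 𝔓 m) ⊆ pvilWnr 𝔓 𝔈 m ε) (z : ℂ) :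
    pvkdAt (pvieZu 𝔓 m z t + (𝔓.Γ m).pin0) (𝔓.Γ m).din0 (pvkdP (pvilRd 𝔓 m)).Zp ∪ (pviqLr 𝔓 𝔈 m z t).Yin ∪ pvkdAt (pvieZu 𝔓 m z t) 1 (pvkdP (pvilRu 𝔈 m)).Zm ⊆
      pvtrCore (3 * pvilMu 𝔓 m) (pvieSh (pvieZu 𝔓 m z t) (pvilWnr 𝔓 𝔈 m ε)) := by
  have hδ := H.δ0
  have hu : 0 ≤ pvilRu 𝔈 m := by linarith [H.μu, H.μ0]
  refine union_subset (union_subset ?_ ?_) ?_
  · refine pvdw_core_plug H.din0 H.μd (pvdw_Zp_sq (by unfold pvilRd; linarith)) ?_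
    intro w hw
    have h1 : w ∈ pvthSim (pvieZu 𝔓 m z t + (𝔓.Γ m).pin0) (𝔓.Γ m).din0 '' (𝔈.kit m ε).O₀ := Set.image_mono H.dp_win hw
    rw [← pvdw_sh_sim] at h1
    exact Set.image_mono (fun x hx => Or.inr hx) h1
  · exact pvdw_core_sh hY _
  · refine pvdw_core_plug norm_one H.μu (pvdw_Zm_sq hu) ?_
    rw [pvdw_at_one]
    exact Set.image_mono fun x hx => Or.inl (Or.inr (H.rp_win hx))

/-- **(ke)** the room of the arc of the thick link lies in the `3μ`-core of its mesh window -/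
theorem pvdw_ke {m : ℕ} {ε : ℝ} {t : τ} (H : PvdwRcB 𝔓 𝔈 m ε t)
    (hY : ∀ v ∈ 𝔈.eY m t, closedBall v (3 * pvilMu 𝔓 m) ⊆ 𝔈.eM m t ∪ 𝔈.eK m t ∪ pvieSh ((𝔓.Γ m).zu t) (𝔈.rO m)) (z : ℂ) {Zh : Set (ℤ × ℤ)} {MmP : Set ℂ} (hM : MmP ⊆ pvtU (pvlmDel c m) Zh ∩ pvcaBx 𝔓.num (pvilPin 𝔓 m z t)) :
    pvkdAt (pvieZu 𝔓 m z t) 1 (pvkdP (pvilRu 𝔈 m)).Zp ∪ (pvilLe 𝔓 𝔈 m z t).Yin ∪ MmP ⊆ pvtrCore (3 * pvilMu 𝔓 m) (pvilWne 𝔓 𝔈 m z t Zh) := by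
  have hδ := H.δ0
  have hu : 0 ≤ pvilRu 𝔈 m := by linarith [H.μu, H.μ0]
  refine union_subset (union_subset ?_ ?_) ?_
  · refine pvdw_core_plug norm_one H.μu (pvdw_Zp_sq hu) ?_
    rw [pvdw_at_one]
    exact fun w hw => Or.inr (Set.image_mono H.rp_win hw)
  · refine (pvdw_core_sh hY z).trans (pvtr_core_mono ?_)
    rw [pvdw_sh_union, pvdw_sh_union, pvdw_sh_sh]
    rintro w ((hw | hw) | hw)
    · exact Or.inl (Or.inl (Or.inr hw))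
    · exact Or.inl (Or.inr hw)
    · exact Or.inr hw
  · refine hM.trans ((pvdw_core_Wz hδ (by linarith [H.μd]) z t Zh).trans (pvtr_core_mono ?_))
    exact fun w hw => Or.inl (Or.inl (Or.inl hw))

end rc

/-! ## 3. the glue -/

section glue

variable {τ : Type} {c : ℝ} {𝔓 : PvxPar τ c} {𝔈 : PvieEng τ} {𝔤 : PvkdGeo}

/-- **THE LEAF (O)**: lines (Rc) + regions of the ownership (`PvdwOw` at the radii `2μ`) + events of record + normal form + rooms of the vertices of the arcs ⟹ every tag has exactly one owner -/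
theorem pvdw_own_glue {m : ℕ} {ε : ℝ} {z : ℂ} {t : τ} {ω η : Conf PvPt} (H : PvdwRc 𝔓 𝔈 m ε t) {MpP MmP : Set ℂ} {μP : ℝ} (hμP : 0 ≤ μP)
    (hMp : MpP ⊆ pvtU (pvlmDel c m) (pvilZo 𝔓 m z t ω) ∩ pvcaBx 𝔓.num (pvilPin 𝔓 m z t)) (hMm : MmP ⊆ pvtU (pvlmDel c m) (pvilZi 𝔓 m z t ω) ∩ pvcaBx 𝔓.num (pvilPin 𝔓 m z t))
    (O : PvdwOw 𝔓.num (pvilLo 𝔓 𝔈 m z t) (pviqLr 𝔓 𝔈 m z t) (pvilLe 𝔓 𝔈 m z t) (pvkdP (pvilRd 𝔓 m)) (pvkdP (pvilRu 𝔈 m)) ((𝔓.Γ m).l1 t).length (pvc1kZ 𝔓 m z t) (pvc1kD 𝔓 m t) (pvc1kCo 𝔓 𝔤 m z t)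
      (pvc1kMk 𝔓 𝔤 m z t) (pvieZu 𝔓 m z t) 1 MpP MmP (2 * pvilMu 𝔓 m) (2 * pvilMu 𝔓 m) (2 * pvilMu 𝔓 m) μP)
    (E : Pvc1kEv 𝔓 𝔈 𝔤 m ε z t ω η) {P P' : PvwSt (pvieT η)} {g : ℕ → (pvkiT η).Gate (pvukS (𝔓.col t) η)} {gu : (pvkiT η).Gate (pvukS (𝔓.col t) η)} {y0 yr ye : (pvieT η).Pth}
    (A : PvdwArcs 𝔓.num (𝔓.col t) η (pvilLo 𝔓 𝔈 m z t) (pviqLr 𝔓 𝔈 m z t) (pvilLe 𝔓 𝔈 m z t) (pvkdP (pvilRd 𝔓 m)) (pvkdP (pvilRu 𝔈 m)) ((𝔓.Γ m).l1 t).length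
      (pvc1kZ 𝔓 m z t) (pvc1kD 𝔓 m t) (pvc1kCo 𝔓 𝔤 m z t) (pvieZu 𝔓 m z t) 1 P P' g gu y0 yr ye)
    (R : ∀ k, k < ((𝔓.Γ m).l1 t).length + 3 → ∀ v ∈ (pvdwY ((𝔓.Γ m).l1 t).length y0 (pvdwYc (𝔓.col t) η g) yr ye k).verts,
      pviePos η v ∈ pvdwYr (pvilLo 𝔓 𝔈 m z t) (pviqLr 𝔓 𝔈 m z t) (pvilLe 𝔓 𝔈 m z t) (pvkdP (pvilRd 𝔓 m)) (pvkdP (pvilRu 𝔈 m)) ((𝔓.Γ m).l1 t).length (pvc1kZ 𝔓 m z t) (pvc1kD 𝔓 m t) (pvc1kCo 𝔓 𝔤 m z t)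
        (pvieZu 𝔓 m z t) 1 MpP MmP k) :
    Pvcy2Own (pvieT η) (pviePos η) (((𝔓.Γ m).l1 t).length + 3)
      (pvdwSt ((𝔓.Γ m).l1 t).length P (pvdwDd (pvkdP (pvilRd 𝔓 m)) (𝔓.col t) η (pvc1kZ 𝔓 m z t) g) (pvilStS (pvkdP (pvilRu 𝔈 m)) η (pvieCol η (𝔓.col t)) (pvieZu 𝔓 m z t) gu))
      (pvdwY ((𝔓.Γ m).l1 t).length y0 (pvdwYc (𝔓.col t) η g) yr ye)
      (pvdwM ((𝔓.Γ m).l1 t).length ((pvilLo 𝔓 𝔈 m z t).msk 𝔓.num) (pvc1kMk 𝔓 𝔤 m z t) ((pviqLr 𝔓 𝔈 m z t).msk 𝔓.num) ((pvilLe 𝔓 𝔈 m z t).msk 𝔓.num))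
      (pvdwB ((𝔓.Γ m).l1 t).length ((pvilLo 𝔓 𝔈 m z t).ball 𝔓.num)) (pvdwDr ((𝔓.Γ m).l1 t).length) := by
  have hrd : 0 < pvilRd 𝔓 m := by unfold pvilRd; linarith [H.δ0]
  have hru : 0 < pvilRu 𝔈 m := by linarith [H.μu, H.μ0]
  have e1 := pviq_Lr_eq 𝔓 𝔈 m z t
  have F : PvdwFit (pvilLo 𝔓 𝔈 m z t) (pviqLr 𝔓 𝔈 m z t) (pvilLe 𝔓 𝔈 m z t) (pvkdP (pvilRd 𝔓 m)) (pvkdP (pvilRu 𝔈 m)) ((𝔓.Γ m).l1 t).length (pvc1kZ 𝔓 m z t) (pvc1kD 𝔓 m t) (pvieZu 𝔓 m z t) 1 :=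
    pvdw_fit_rec 𝔓 𝔈 m z t (Lr := pviqLr 𝔓 𝔈 m z t) (by rw [← e1]; rfl) (by rw [← e1]; rfl) rfl rfl hrd hru
  have z0 : pvieZo 𝔓 m z t = pvc1kZ 𝔓 m z t 0 := F.o_z
  have d0 : (𝔓.Γ m).dout t = pvc1kD 𝔓 m t 0 := F.o_d
  have zn : pvieZu 𝔓 m z t + (𝔓.Γ m).pin0 = pvc1kZ 𝔓 m z t ((𝔓.Γ m).l1 t).length := F.r_z
  have dn : (𝔓.Γ m).din0 = pvc1kD 𝔓 m t ((𝔓.Γ m).l1 t).length := F.r_d
  have ko := pvdw_ko H.toPvdwRcB H.oY z hMp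
  have kr := pvdw_kr H.toPvdwRcB H.rY z
  have ke := pvdw_ke H.toPvdwRcB H.eY z hMm
  rw [z0, d0] at ko
  rw [zn, dn] at kr
  have r0 : ∀ v ∈ y0.verts, pviePos η v ∈ MpP ∪ (pvilLo 𝔓 𝔈 m z t).Yin ∪ pvkdAt (pvc1kZ 𝔓 m z t 0) (pvc1kD 𝔓 m t 0) (pvkdP (pvilRd 𝔓 m)).Zm := by
    intro v hv
    have := R 0 (by omega) v (by rw [pvdw_y_zero]; exact hv)
    unfold pvdwYr at this
    rwa [pvdw_sq_zero] at this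
  have rr : ∀ v ∈ yr.verts, pviePos η v ∈ pvkdAt (pvc1kZ 𝔓 m z t ((𝔓.Γ m).l1 t).length) (pvc1kD 𝔓 m t ((𝔓.Γ m).l1 t).length) (pvkdP (pvilRd 𝔓 m)).Zp ∪ (pviqLr 𝔓 𝔈 m z t).Yin ∪
      pvkdAt (pvieZu 𝔓 m z t) 1 (pvkdP (pvilRu 𝔈 m)).Zm := by
    intro v hv
    have := R (((𝔓.Γ m).l1 t).length + 1) (by omega) v (by rw [pvdw_y_r]; exact hv)
    unfold pvdwYr at this
    rwa [pvdw_sq_r] at this
  have re : ∀ v ∈ ye.verts, pviePos η v ∈ pvkdAt (pvieZu 𝔓 m z t) 1 (pvkdP (pvilRu 𝔈 m)).Zp ∪ (pvilLe 𝔓 𝔈 m z t).Yin ∪ MmP := by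
    intro v hv
    have := R (((𝔓.Γ m).l1 t).length + 2) (by omega) v (by rw [pvdw_y_e]; exact hv)
    unfold pvdwYr at this
    rwa [pvdw_sq_e] at this
  exact (A.ownM F rfl O hμP H.μ0 H.μ0 H.μ0 E.mo.2 E.mr E.me.2 ko kr ke r0 rr re).own

/-- **THE LEAF (O), HYBRID ROPE**: mesh for the first link and the link into the reference plug (lines (Rc) `o`, `r`), the tags of the arc of the thick link GIVEN (`te`: 92, `pvvi_te_rec`, no (Rc)) -/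
theorem pvdw_own_glueH {m : ℕ} {ε : ℝ} {z : ℂ} {t : τ} {ω η : Conf PvPt} (H : PvdwRcB 𝔓 𝔈 m ε t)
    (hoY : ∀ v ∈ 𝔈.oY m t, closedBall v (3 * pvilMu 𝔓 m) ⊆ 𝔈.oM m t ∪ 𝔈.oK m t ∪ pvthSim ((𝔓.Γ m).pout t) ((𝔓.Γ m).dout t) '' (𝔈.kit m ε).O₀)
    (hrY : ∀ v ∈ 𝔈.rY m, closedBall v (3 * pvilMu 𝔓 m) ⊆ pvilWnr 𝔓 𝔈 m ε) {MpP MmP : Set ℂ} {μe μP : ℝ} (hμP : 0 ≤ μP)
    (hMp : MpP ⊆ pvtU (pvlmDel c m) (pvilZo 𝔓 m z t ω) ∩ pvcaBx 𝔓.num (pvilPin 𝔓 m z t))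
    (O : PvdwOw 𝔓.num (pvilLo 𝔓 𝔈 m z t) (pviqLr 𝔓 𝔈 m z t) (pvilLe 𝔓 𝔈 m z t) (pvkdP (pvilRd 𝔓 m)) (pvkdP (pvilRu 𝔈 m)) ((𝔓.Γ m).l1 t).length (pvc1kZ 𝔓 m z t) (pvc1kD 𝔓 m t) (pvc1kCo 𝔓 𝔤 m z t)
      (pvc1kMk 𝔓 𝔤 m z t) (pvieZu 𝔓 m z t) 1 MpP MmP (2 * pvilMu 𝔓 m) (2 * pvilMu 𝔓 m) μe μP)
    (E : Pvc1kEv 𝔓 𝔈 𝔤 m ε z t ω η) {P P' : PvwSt (pvieT η)} {g : ℕ → (pvkiT η).Gate (pvukS (𝔓.col t) η)} {gu : (pvkiT η).Gate (pvukS (𝔓.col t) η)} {y0 yr ye : (pvieT η).Pth}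
    (A : PvdwArcs 𝔓.num (𝔓.col t) η (pvilLo 𝔓 𝔈 m z t) (pviqLr 𝔓 𝔈 m z t) (pvilLe 𝔓 𝔈 m z t) (pvkdP (pvilRd 𝔓 m)) (pvkdP (pvilRu 𝔈 m)) ((𝔓.Γ m).l1 t).length
      (pvc1kZ 𝔓 m z t) (pvc1kD 𝔓 m t) (pvc1kCo 𝔓 𝔤 m z t) (pvieZu 𝔓 m z t) 1 P P' g gu y0 yr ye)
    (R : ∀ k, k < ((𝔓.Γ m).l1 t).length + 3 → ∀ v ∈ (pvdwY ((𝔓.Γ m).l1 t).length y0 (pvdwYc (𝔓.col t) η g) yr ye k).verts,
      pviePos η v ∈ pvdwYr (pvilLo 𝔓 𝔈 m z t) (pviqLr 𝔓 𝔈 m z t) (pvilLe 𝔓 𝔈 m z t) (pvkdP (pvilRd 𝔓 m)) (pvkdP (pvilRu 𝔈 m)) ((𝔓.Γ m).l1 t).length (pvc1kZ 𝔓 m z t) (pvc1kD 𝔓 m t) (pvc1kCo 𝔓 𝔤 m z t)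
        (pvieZu 𝔓 m z t) 1 MpP MmP k)
    (te : ∀ k, k < ye.n → (pvieT η).bary (pviePos η) ((pvieT η).opp (ye.e k)) ∈ (pvilLe 𝔓 𝔈 m z t).msk 𝔓.num) :
    Pvcy2Own (pvieT η) (pviePos η) (((𝔓.Γ m).l1 t).length + 3)
      (pvdwSt ((𝔓.Γ m).l1 t).length P (pvdwDd (pvkdP (pvilRd 𝔓 m)) (𝔓.col t) η (pvc1kZ 𝔓 m z t) g) (pvilStS (pvkdP (pvilRu 𝔈 m)) η (pvieCol η (𝔓.col t)) (pvieZu 𝔓 m z t) gu))
      (pvdwY ((𝔓.Γ m).l1 t).length y0 (pvdwYc (𝔓.col t) η g) yr ye)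
      (pvdwM ((𝔓.Γ m).l1 t).length ((pvilLo 𝔓 𝔈 m z t).msk 𝔓.num) (pvc1kMk 𝔓 𝔤 m z t) ((pviqLr 𝔓 𝔈 m z t).msk 𝔓.num) ((pvilLe 𝔓 𝔈 m z t).msk 𝔓.num))
      (pvdwB ((𝔓.Γ m).l1 t).length ((pvilLo 𝔓 𝔈 m z t).ball 𝔓.num)) (pvdwDr ((𝔓.Γ m).l1 t).length) := by
  have hrd : 0 < pvilRd 𝔓 m := by unfold pvilRd; linarith [H.δ0]
  have hru : 0 < pvilRu 𝔈 m := by linarith [H.μu, H.μ0]
  have e1 := pviq_Lr_eq 𝔓 𝔈 m z t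
  have F : PvdwFit (pvilLo 𝔓 𝔈 m z t) (pviqLr 𝔓 𝔈 m z t) (pvilLe 𝔓 𝔈 m z t) (pvkdP (pvilRd 𝔓 m)) (pvkdP (pvilRu 𝔈 m)) ((𝔓.Γ m).l1 t).length (pvc1kZ 𝔓 m z t) (pvc1kD 𝔓 m t) (pvieZu 𝔓 m z t) 1 :=
    pvdw_fit_rec 𝔓 𝔈 m z t (Lr := pviqLr 𝔓 𝔈 m z t) (by rw [← e1]; rfl) (by rw [← e1]; rfl) rfl rfl hrd hru
  have z0 : pvieZo 𝔓 m z t = pvc1kZ 𝔓 m z t 0 := F.o_z
  have d0 : (𝔓.Γ m).dout t = pvc1kD 𝔓 m t 0 := F.o_d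
  have zn : pvieZu 𝔓 m z t + (𝔓.Γ m).pin0 = pvc1kZ 𝔓 m z t ((𝔓.Γ m).l1 t).length := F.r_z
  have dn : (𝔓.Γ m).din0 = pvc1kD 𝔓 m t ((𝔓.Γ m).l1 t).length := F.r_d
  have ko := pvdw_ko H hoY z hMp
  have kr := pvdw_kr H hrY z
  rw [z0, d0] at ko
  rw [zn, dn] at kr
  have r0 : ∀ v ∈ y0.verts, pviePos η v ∈ MpP ∪ (pvilLo 𝔓 𝔈 m z t).Yin ∪ pvkdAt (pvc1kZ 𝔓 m z t 0) (pvc1kD 𝔓 m t 0) (pvkdP (pvilRd 𝔓 m)).Zm := by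
    intro v hv
    have := R 0 (by omega) v (by rw [pvdw_y_zero]; exact hv)
    unfold pvdwYr at this
    rwa [pvdw_sq_zero] at this
  have rr : ∀ v ∈ yr.verts, pviePos η v ∈ pvkdAt (pvc1kZ 𝔓 m z t ((𝔓.Γ m).l1 t).length) (pvc1kD 𝔓 m t ((𝔓.Γ m).l1 t).length) (pvkdP (pvilRd 𝔓 m)).Zp ∪ (pviqLr 𝔓 𝔈 m z t).Yin ∪
      pvkdAt (pvieZu 𝔓 m z t) 1 (pvkdP (pvilRu 𝔈 m)).Zm := by
    intro v hv
    have := R (((𝔓.Γ m).l1 t).length + 1) (by omega) v (by rw [pvdw_y_r]; exact hv)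
    unfold pvdwYr at this
    rwa [pvdw_sq_r] at this
  exact (A.ownT F rfl (O.oc hμP) (fun k hk => O.y_o ⟨_, r0 _ ⟨k, hk.le, rfl⟩, pvdw_mesh_arc A.good H.μ0 E.mo.2 (fun v hv => ko (r0 v hv)) hk⟩)
    (fun k hk => O.y_r ⟨_, rr _ ⟨k, hk.le, rfl⟩, pvdw_mesh_arc A.good H.μ0 E.mr (fun v hv => kr (rr v hv)) hk⟩) te).own

end glue

end Claimed.Agent.R289
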