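-- KEEP
import Claimed.Agent.R289.Exit.EngRec
import Claimed.Agent.R289.Exit.EngU4L
import Claimed.Agent.R289.Exit.EngYe
import Claimed.Agent.R289.Exit.ParEngH
import Claimed.Agent.R289.Exit.RoomRE

/-!
# Row 289 (S0537), THE WALL, ROAD E, file Exit/EngRoom : THE LINES ON THE FIVE ROOMS AT THE ENGINE OF RECORD (ENGINE v3 = L2, R27 of 234), ONE NAME PER LINE      (pen helper124; prefix `pvy9_`)

ROOMS OF RECORD:   `oY iY := pvegOYc pvegIYc` (245, `Exit/ParEngY`), `eY := pvvzEY` (118, `Exit/EngYe`: open `3 μ₀`-core of `pveheY ∪ pvegIK`), `fY := pveffY` (182, `Exit/ParEngF`: core of `pveffY0`), `rY := pvnuRY` (84 166: closed rectangle from `pin0 + δ/160` to `-Δ/64`).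
By R22 (1) these lines are NOT fields of `PvieEng.Wf`: they are LEMMAS AT THE CONCRETE ENGINE.   `μ₀ = pvilMu 𝔓 m`, `𝔈 = pvnaEngRec N hN c nb`, `𝔓 = pvxParOf N hN c`, hypotheses `c0 : 0 < c`, `hm : N.m0 ≤ m`.
* sec. 1  the model (`PveaPar 𝔓 m0`): `pvy9_eY_u4` (old room of `e` ⊆ mouth ∪ tile AFTER U4 ∪ window AFTER U4), `pvy9_G_win` (`pver_G_win` of 166 after U4), `pvy9_ce`, `pvy9_cf`, `pvy9_cr`
* sec. 2  **(Rc)** `pvy9_col_o pvy9_col_i pvy9_col_e pvy9_col_f pvy9_col_r` : `∀ v ∈ 𝔈.xY, closedBall v (3 * μ₀) ⊆ 𝔈.xM ∪ 𝔈.xK ∪ (region of the plug)`, THE FIELDS OF THE ENGINE (relative form of 22 74 290)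
* sec. 3  **(Rd)** `pvy9_hole_o i e f r` (`IsPreconnected (𝔈.xY ..)ᶜ`), `pvy9_bdd_o i e f r`
* sec. 4  **(Rb) W-7** `pvy9_back_o` (`≤ -δ/160`), `pvy9_front_i` (`δ/160 ≤`), `pvy9_front_e` (`Δ/64 ≤` inside `zu + sq(Δ/4)`), `pvy9_back_f` (`≤ -Δ/64`), `pvy9_front_r` (`δ/160 ≤`), `pvy9_back_r` (`≤ -Δ/64`)
* also `pvy9_G_rec`, `pvy9_eY_old`, `pvy9_rO_sub`
-/

set_option autoImplicit false

namespace Claimed.Agent.R289

open Set Metric Complex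
open scoped ENNReal

/-! ## 1. the model -/

section model

variable {τ : Type} {c : ℝ} {𝔓 : PvxPar τ c} {m0 m : ℕ} {t : τ}

/-- the room v2 of the thick link (166 + funnel of 124) lies in mouth ∪ tile AFTER U4 ∪ window AFTER U4      [twin of `pvjk_eY_u4` of 132, here below `Tr/LinkDet`] -/
theorem pvy9_eY_u4 (J : PveaIn) (H : PveaPar 𝔓 m0) (hm : m0 ≤ m) (hT : pviwTyOk 𝔓 t) :
    pveheY 𝔓 (pvegIM 𝔓) m t ∪ pvegIK 𝔓 m t ⊆ pvegIM 𝔓 m t ∪ pvnuEK 𝔓 m t ∪ pvieSh ((𝔓.Γ m).zu t) (pvnuRO 𝔓 m) := by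
  have hn := pvea_Nw_nonneg H m
  have ip := pvea_i_plug (J := J) H hm hT
  have hM : Disjoint (pvegIM 𝔓 m t) (pvieSh ((pvxrGam 𝔓 m).zu t) (pvehrO 𝔓 m)) := ip.mono subset_union_left subset_union_right
  have hK : Disjoint (pvegIK 𝔓 m t) (pvieSh ((pvxrGam 𝔓 m).zu t) (pvehrO 𝔓 m)) := ip.mono subset_union_right subset_union_right
  have h1 : pveheY 𝔓 (pvegIM 𝔓) m t ∪ pvegIK 𝔓 m t ⊆ (pvegIM 𝔓 m t ∪ (pveheK 𝔓 (pvegIM 𝔓) m t ∪ pvegIK 𝔓 m t)) ∪ pvieSh ((pvxrGam 𝔓 m).zu t) (pvehrO 𝔓 m) := by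
    rintro v (hv | hv)
    · rcases pveh_eY_sub (𝔓 := 𝔓) (Mi := pvegIM 𝔓) (Mo := pvegIM 𝔓) (fun _ _ => Subset.rfl) hn t hv with (h | h) | h
      · exact Or.inl (Or.inl h)
      · exact Or.inl (Or.inr (Or.inl h))
      · exact Or.inr h
    · exact Or.inl (Or.inr (Or.inr hv))
  have h2 := pvnu4_room_W _ h1 (pvnu4_eY_W hn t Subset.rfl hM hK (pvnuRO 𝔓 m))
  unfold pvnuEK
  rw [H.gam]
  rintro v hv
  rcases h2 hv with ((h | h) | h) | h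
  · exact Or.inl (Or.inl h)
  · exact Or.inl (Or.inr (Or.inl h))
  · exact Or.inl (Or.inr (Or.inr h))
  · exact Or.inr h

/-- **the region `G` of 166 (body of the thick link, funnel, mouth) lies in mouth ∪ tile AFTER U4 ∪ window AFTER U4**, every level      [`pver_G_win` after U4] -/
theorem pvy9_G_win (hΓ : 𝔓.Γ m = pvxrGam 𝔓 m) (hn : 0 ≤ pvxrNw 𝔓 m) (t : τ) :
    pverG 𝔓 m t ⊆ pvegIM 𝔓 m t ∪ pvnuEK 𝔓 m t ∪ pvieSh ((𝔓.Γ m).zu t) (pvnuRO 𝔓 m) := by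
  have hΔ := pveh_Dl_pos hn
  unfold pvnuEK
  rw [hΓ]
  rintro w ((hw | hw) | hw)
  · by_cases h1 : w ∈ pvegIM 𝔓 m t
    · exact Or.inl (Or.inl h1)
    by_cases h2 : w ∈ pvccSq ((pvxrGam 𝔓 m).zu t) (pvehDl 𝔓 m / 4)
    · by_cases h3 : w ∈ pvieSh ((pvxrGam 𝔓 m).zu t) (pvnuRO 𝔓 m)
      · exact Or.inr h3
      · have hsq : w ∈ pvehSq ((pvxrGam 𝔓 m).zu t) (pvehDl 𝔓 m / 2) := by
          have h4 : pvccN (w - (pvxrGam 𝔓 m).zu t) < pvehDl 𝔓 m / 4 := h2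
          have h5 := abs_lt.1 (lt_of_le_of_lt (le_max_left _ _) h4)
          have h6 := abs_lt.1 (lt_of_le_of_lt (le_max_right _ _) h4)
          rw [sub_re] at h5
          rw [sub_im] at h6
          rw [pveh_mem_sq]
          exact ⟨⟨by linarith [h5.1], by linarith [h5.2]⟩, by linarith [h6.1], by linarith [h6.2]⟩
        have he := pveh_body_east hΔ _ (pveh_W_le (pvxrB 𝔓 t)) hw hsq
        rw [← pveh_sh_rO (𝔓 := 𝔓)] at h2
        refine Or.inl (Or.inr (Or.inr (pveh_mem_sh.2 ⟨⟨pveh_mem_sh.1 h2, fun h => h3 (pveh_mem_sh.2 h)⟩, ?_⟩)))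
        show 0 ≤ (w - (pvxrGam 𝔓 m).zu t).re
        rw [sub_re]
        linarith
    · exact Or.inl (Or.inr (Or.inl (Or.inl ⟨hw, fun h => h.elim h2 h1⟩)))
  · by_cases hM : w ∈ pvegIM 𝔓 m t
    · exact Or.inl (Or.inl hM)
    · refine Or.inl (Or.inr (Or.inl (Or.inr ?_)))
      unfold pvegIK
      rw [hΓ, pvxr_gam_din, neg_neg]
      exact ⟨hw, hM⟩
  · exact Or.inl (Or.inl hw)

/-- **(Rc) of `e`** at the names of record -/
theorem pvy9_ce (J : PveaIn) (H : PveaPar 𝔓 m0) (hm : m0 ≤ m) (hT : pviwTyOk 𝔓 t) :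
    ∀ v ∈ pvvzEY 𝔓 m t, closedBall v (3 * pvilMu 𝔓 m) ⊆ pvegIM 𝔓 m t ∪ pvnuEK 𝔓 m t ∪ pvieSh ((𝔓.Γ m).zu t) (pvnuRO 𝔓 m) :=
  pvvz_eY_col (pvy9_eY_u4 J H hm hT)

/-- **(Rc) of `f`** at the names of record      [twin of `pvjk_cf_u4` of 132] -/
theorem pvy9_cf (H : PveaPar 𝔓 m0) (hm : m0 ≤ m) (hT : pviwTyOk 𝔓 t) :
    ∀ v ∈ pveffY 𝔓 m t, closedBall v (3 * pvilMu 𝔓 m) ⊆ pvegOM 𝔓 m t ∪ pvnuFK 𝔓 m t ∪ pvieSh ((𝔓.Γ m).zu t) (pvnuRO 𝔓 m) := by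
  intro v hv w hw
  have F := pvea_ndgF H hm hT
  have hΔ := pveh_Dl_pos (pvef_n0 F)
  have h1 := pvef_fY_col F v hv (closedBall_subset_closedBall (pvef_Mu_le (𝔓 := 𝔓) m) hw)
  rcases h1 with (h | h) | ⟨h, h'⟩
  · exact Or.inl (Or.inl h)
  · exact Or.inl (Or.inr (Or.inl h))
  · have h0 : (w - (pvxrGam 𝔓 m).zu t).re ≤ -(pvehDl 𝔓 m / 64) := h'
    rw [pveh_mem_sh] at h
    by_cases hO' : w - (pvxrGam 𝔓 m).zu t ∈ pvnuRO 𝔓 m
    · refine Or.inr ?_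
      rw [H.gam, pveh_mem_sh]
      exact hO'
    · refine Or.inl (Or.inr (Or.inr ?_))
      rw [H.gam, pveh_mem_sh]
      exact ⟨⟨h, hO'⟩, by show (w - (pvxrGam 𝔓 m).zu t).re < 0; linarith⟩

/-- **(Rc) of `r`** at the names of record (84 245) -/
theorem pvy9_cr (H : PveaPar 𝔓 m0) (O0 : ℕ → Set ℂ) (m : ℕ) :
    ∀ v ∈ pvnuRY 𝔓 m, closedBall v (3 * pvilMu 𝔓 m) ⊆ pvnuRK 𝔓 O0 m ∪ pvnuRO 𝔓 m ∪ pvthSim (𝔓.Γ m).pin0 (𝔓.Γ m).din0 '' O0 m := by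
  intro v hv
  rw [H.gam]
  exact pvnu5_RY_collar (pvea_Nw_nonneg H m) O0 hv

end model

/-! ## 2. (Rc) at the engine of record -/

section record

variable (N : PvxNums) (hN : N.Ok) {c : ℝ} (nb : PvnaNb N) {m : ℕ}

/-- `dp_win` in the words of `Exit/ParEngY` -/
theorem pvy9_dp (c0 : 0 < c) (hm : N.m0 ≤ m) : pvwSq 0 (3 * (pvlmDel c m / 40)) ⊆ (pvnaInRec N hN c nb).O0 m := by
  obtain ⟨Cth, r, κs, h⟩ := (pvnr_wf hN c0 nb).wf
  have h1 := h.dp_win m hm 1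
  rw [pvnr_kit_O, ← pvnr_O0 N hN c nb m] at h1
  exact h1

/-- **(Rc), FIRST LINK** -/
theorem pvy9_col_o (c0 : 0 < c) (hm : N.m0 ≤ m) (ε : ℝ) (t : pvxTau N) : ∀ v ∈ (pvnaEngRec N hN c nb).oY m t, closedBall v (3 * pvilMu (pvxParOf N hN c) m) ⊆
    (pvnaEngRec N hN c nb).oM m t ∪ (pvnaEngRec N hN c nb).oK m t ∪ pvieDoor (pvnaEngRec N hN c nb) m ε (((pvxParOf N hN c).Γ m).pout t) (((pvxParOf N hN c).Γ m).dout t) := by
  intro v hv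
  rw [pvnr_oY] at hv
  rw [pvnr_oM, pvnr_oK]
  unfold pvieDoor
  rw [pvnr_kit_O, ← pvnr_O0 N hN c nb m]
  exact pvey_oYc_collar ((pvea_par hN c0).lev hm) (pvy9_dp N hN nb c0 hm) hv

/-- **(Rc), LAST LINK** -/
theorem pvy9_col_i (c0 : 0 < c) (hm : N.m0 ≤ m) (ε : ℝ) (t : pvxTau N) : ∀ v ∈ (pvnaEngRec N hN c nb).iY m t, closedBall v (3 * pvilMu (pvxParOf N hN c) m) ⊆
    (pvnaEngRec N hN c nb).iM m t ∪ (pvnaEngRec N hN c nb).iK m t ∪ pvieDoor (pvnaEngRec N hN c nb) m ε (((pvxParOf N hN c).Γ m).pin t) (((pvxParOf N hN c).Γ m).din t) := by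
  intro v hv
  rw [pvnr_iY] at hv
  rw [pvnr_iM, pvnr_iK]
  unfold pvieDoor
  rw [pvnr_kit_O, ← pvnr_O0 N hN c nb m]
  exact pvey_iYc_collar ((pvea_par hN c0).lev hm) (pvy9_dp N hN nb c0 hm) hv

/-- **(Rc), THICK LINK** -/
theorem pvy9_col_e (c0 : 0 < c) (hm : N.m0 ≤ m) (t : pvxTau N) : ∀ v ∈ (pvnaEngRec N hN c nb).eY m t, closedBall v (3 * pvilMu (pvxParOf N hN c) m) ⊆
    (pvnaEngRec N hN c nb).eM m t ∪ (pvnaEngRec N hN c nb).eK m t ∪ pviwRo (pvxParOf N hN c) (pvnaEngRec N hN c nb) m t := by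
  intro v hv
  rw [pvnr_eY] at hv
  unfold pviwRo
  rw [pvnr_eM, pvnr_eK, pvnr_rO]
  exact pvy9_ce (pvnaInRec N hN c nb) (pvea_par hN c0) hm (pvea_tyOk hN t) v hv

/-- **(Rc), THICK RETURN** -/
theorem pvy9_col_f (c0 : 0 < c) (hm : N.m0 ≤ m) (t : pvxTau N) : ∀ v ∈ (pvnaEngRec N hN c nb).fY m t, closedBall v (3 * pvilMu (pvxParOf N hN c) m) ⊆
    (pvnaEngRec N hN c nb).fM m t ∪ (pvnaEngRec N hN c nb).fK m t ∪ pviwRo (pvxParOf N hN c) (pvnaEngRec N hN c nb) m t := by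
  intro v hv
  rw [pvnr_fY] at hv
  unfold pviwRo
  rw [pvnr_fM, pvnr_fK, pvnr_rO]
  exact pvy9_cf (pvea_par hN c0) hm (pvea_tyOk hN t) v hv

/-- **(Rc), LAST LINK OF THE THIN CHAIN** (every level) -/
theorem pvy9_col_r (c0 : 0 < c) (m : ℕ) (ε : ℝ) : ∀ v ∈ (pvnaEngRec N hN c nb).rY m, closedBall v (3 * pvilMu (pvxParOf N hN c) m) ⊆
    (pvnaEngRec N hN c nb).rK m ∪ (pvnaEngRec N hN c nb).rO m ∪ pvieDoor (pvnaEngRec N hN c nb) m ε ((pvxParOf N hN c).Γ m).pin0 ((pvxParOf N hN c).Γ m).din0 := by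
  intro v hv
  rw [pvnr_rY] at hv
  rw [pvnr_rK, pvnr_rO]
  unfold pvieDoor
  rw [pvnr_kit_O, ← pvnr_O0 N hN c nb m]
  exact pvy9_cr (pvea_par hN c0) _ m v hv

/-! ## 3. (Rd) at the engine of record -/

theorem pvy9_mu0 (m : ℕ) : 0 ≤ pvilMu (pvxParOf N hN c) m := pvey_mu_nonneg hN.msk0.le m

theorem pvy9_hole_o (c0 : 0 < c) (hm : N.m0 ≤ m) (t : pvxTau N) : IsPreconnected ((pvnaEngRec N hN c nb).oY m t)ᶜ := by
  rw [pvnr_oY]
  exact pvey_oYc_hole ((pvea_par hN c0).lev hm) (pvy9_mu0 N hN m) (pvea_tyOk hN t)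

theorem pvy9_hole_i (c0 : 0 < c) (hm : N.m0 ≤ m) (t : pvxTau N) : IsPreconnected ((pvnaEngRec N hN c nb).iY m t)ᶜ := by
  rw [pvnr_iY]
  exact pvey_iYc_hole ((pvea_par hN c0).lev hm) (pvy9_mu0 N hN m) (pvea_tyOk hN t)

theorem pvy9_hole_e (c0 : 0 < c) (hm : N.m0 ≤ m) (t : pvxTau N) : IsPreconnected ((pvnaEngRec N hN c nb).eY m t)ᶜ := by
  rw [pvnr_eY]
  exact pvvz_eY_hole rfl ((pvea_par hN c0).lev hm) (pvea_tyOk hN t) ((pvea_par hN c0).ndg m hm t (pvea_tyOk hN t))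

/-- over the leaves of `Exit/ParEngH` (39) -/
theorem pvy9_hole_f (c0 : 0 < c) (hm : N.m0 ≤ m) (t : pvxTau N) : IsPreconnected ((pvnaEngRec N hN c nb).fY m t)ᶜ := by
  rw [pvnr_fY]
  exact (pvrh_fY ((pvea_par hN c0).ndg m hm t (pvea_tyOk hN t))).1

theorem pvy9_hole_r (m : ℕ) : IsPreconnected ((pvnaEngRec N hN c nb).rY m)ᶜ := by
  rw [pvnr_rY]
  exact pvrh_convex_hole (pvnu5_RY_convex m) (pvnu5_RY_bdd m)

theorem pvy9_bdd_o (c0 : 0 < c) (hm : N.m0 ≤ m) (t : pvxTau N) : Bornology.IsBounded ((pvnaEngRec N hN c nb).oY m t) := by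
  rw [pvnr_oY]
  exact isBounded_closedBall.subset (pvey_oYc_bdd ((pvea_par hN c0).lev hm) (pvy9_mu0 N hN m) (pvea_tyOk hN t))

theorem pvy9_bdd_i (c0 : 0 < c) (hm : N.m0 ≤ m) (t : pvxTau N) : Bornology.IsBounded ((pvnaEngRec N hN c nb).iY m t) := by
  rw [pvnr_iY]
  exact isBounded_closedBall.subset (pvey_iYc_bdd ((pvea_par hN c0).lev hm) (pvy9_mu0 N hN m) (pvea_tyOk hN t))

theorem pvy9_bdd_e (c0 : 0 < c) (hm : N.m0 ≤ m) (t : pvxTau N) : Bornology.IsBounded ((pvnaEngRec N hN c nb).eY m t) := by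
  rw [pvnr_eY]
  exact pvvz_eY_bdd ((pvea_par hN c0).mu3 m) ((pvea_par hN c0).lev hm) (pvea_tyOk hN t)

theorem pvy9_bdd_f (c0 : 0 < c) (hm : N.m0 ≤ m) (t : pvxTau N) : Bornology.IsBounded ((pvnaEngRec N hN c nb).fY m t) := by
  rw [pvnr_fY]
  exact pvef_fY_isBdd (pvea_ndgF (pvea_par hN c0) hm (pvea_tyOk hN t))

theorem pvy9_bdd_r (m : ℕ) : Bornology.IsBounded ((pvnaEngRec N hN c nb).rY m) := by
  rw [pvnr_rY]
  exact pvnu5_RY_bdd m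

/-! ## 4. (Rb) = W-7 at the engine of record -/

/-- the room of the first link stays `δ/160 = pvilRd/4` BEHIND the plane of the exit door -/
theorem pvy9_back_o (c0 : 0 < c) (hm : N.m0 ≤ m) (t : pvxTau N) {v : ℂ} (hv : v ∈ (pvnaEngRec N hN c nb).oY m t) :
    ((v - ((pvxParOf N hN c).Γ m).pout t) * (starRingEnd ℂ) (((pvxParOf N hN c).Γ m).dout t)).re ≤ -(pvlmDel c m / 160) := by
  rw [pvnr_oY] at hv
  exact pvey_oYc_back ((pvea_par hN c0).lev hm) (pvy9_mu0 N hN m) (pvea_tyOk hN t) hv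

/-- the room of the last link stays `δ/160` IN FRONT of the plane of the entrance door -/
theorem pvy9_front_i (c0 : 0 < c) (hm : N.m0 ≤ m) (t : pvxTau N) {v : ℂ} (hv : v ∈ (pvnaEngRec N hN c nb).iY m t) :
    pvlmDel c m / 160 ≤ ((v - ((pvxParOf N hN c).Γ m).pin t) * (starRingEnd ℂ) (((pvxParOf N hN c).Γ m).din t)).re := by
  rw [pvnr_iY] at hv
  exact pvey_iYc_front ((pvea_par hN c0).lev hm) (pvy9_mu0 N hN m) (pvea_tyOk hN t) hv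

/-- the room of the thick link, inside the square `zu + sq(Δ/4)` (hence inside `zu + rO`), stays `Δ/64` IN FRONT of the plane of the reference plug -/
theorem pvy9_front_e (c0 : 0 < c) (hm : N.m0 ≤ m) (t : pvxTau N) {v : ℂ} (hv : v ∈ (pvnaEngRec N hN c nb).eY m t)
    (hO : v ∈ pvieSh (((pvxParOf N hN c).Γ m).zu t) (pvehrO (pvxParOf N hN c) m)) : pvehDl (pvxParOf N hN c) m / 64 ≤ (v - ((pvxParOf N hN c).Γ m).zu t).re := by
  rw [pvnr_eY] at hv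
  have H := pvea_par hN c0
  have hf : 1000 * pvlmDel c m ≤ (pvxParOf N hN c).num.rho * pvlmH m := by
    have := H.fine m hm
    have := pvlm_Del_pos c m
    linarith
  exact pvvz_eY_front (H.mu3 m) (H.lev hm) hf (pvea_tyOk hN t) (H.geo m hm t (pvea_tyOk hN t)) hv hO

/-- the room of the thick return, inside `zu + sq(Δ/4)`, stays `Δ/64` BEHIND the plane of the reference plug -/
theorem pvy9_back_f (c0 : 0 < c) (hm : N.m0 ≤ m) (t : pvxTau N) {v : ℂ} (hv : v ∈ (pvnaEngRec N hN c nb).fY m t)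
    (hO : v ∈ pvieSh (((pvxParOf N hN c).Γ m).zu t) (pvehrO (pvxParOf N hN c) m)) : (v - ((pvxParOf N hN c).Γ m).zu t).re ≤ -(pvehDl (pvxParOf N hN c) m / 64) := by
  rw [pvnr_fY] at hv
  exact pvef_fY_back (pvea_ndgF (pvea_par hN c0) hm (pvea_tyOk hN t)) v hv hO

/-- the room of the last link of the thin chain stays `δ/160` IN FRONT of the plane of the last door -/
theorem pvy9_front_r (m : ℕ) {v : ℂ} (hv : v ∈ (pvnaEngRec N hN c nb).rY m) :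
    pvlmDel c m / 160 ≤ ((v - ((pvxParOf N hN c).Γ m).pin0) * (starRingEnd ℂ) ((pvxParOf N hN c).Γ m).din0).re := by
  rw [pvnr_rY] at hv
  exact pvnu4_RY_front m hv

/-- .. and `Δ/64` BEHIND the plane of the reference plug -/
theorem pvy9_back_r (m : ℕ) {v : ℂ} (hv : v ∈ (pvnaEngRec N hN c nb).rY m) : v.re ≤ -(pvehDl (pvxParOf N hN c) m / 64) := by
  rw [pvnr_rY] at hv
  exact pvnu4_RY_back m hv

/-- `pver_G_win` of 166 at the engine of record, every level -/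
theorem pvy9_G_rec (c0 : 0 < c) (m : ℕ) (t : pvxTau N) : pverG (pvxParOf N hN c) m t ⊆
    (pvnaEngRec N hN c nb).eM m t ∪ (pvnaEngRec N hN c nb).eK m t ∪ pviwRo (pvxParOf N hN c) (pvnaEngRec N hN c nb) m t := by
  unfold pviwRo
  rw [pvnr_eM, pvnr_eK, pvnr_rO]
  exact pvy9_G_win rfl (pvea_Nw_nonneg (pvea_par hN c0) m) t

/-- the room of the thick link lies in the room v2 (166 + funnel of 124), every level -/
theorem pvy9_eY_old (m : ℕ) (t : pvxTau N) : (pvnaEngRec N hN c nb).eY m t ⊆ pveheY (pvxParOf N hN c) (pvegIM (pvxParOf N hN c)) m t ∪ pvegIK (pvxParOf N hN c) m t := by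
  rw [pvnr_eY]
  refine pvvz_eY_old ?_ t
  have h := pvy9_mu0 N hN (c := c) m
  have e : pviwMu (pvxParOf N hN c) m = pvilMu (pvxParOf N hN c) m := rfl
  rw [e]
  linarith

/-- the new window lies in the old one: `rO m = sq(13 Δ/80) ⊆ sq(Δ/4)` -/
theorem pvy9_rO_sub (m : ℕ) : (pvnaEngRec N hN c nb).rO m ⊆ pvehrO (pvxParOf N hN c) m := by
  rw [pvnr_rO]
  exact pvnu4_RO_sub hN.rho0 m

end record

end Claimed.Agent.R289
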