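-- KEEP
import Claimed.Agent.R289.Exit.ParEngF
import Claimed.Agent.R289.Exit.ParEngC
import Claimed.Agent.R289.Exit.ParGeo

/-!
# Row 289 (S0537), THE WALL, ROAD E, file Exit/ParRoom : THE COLLAR (Rc) OF R22 / R23 (1') FOR THE ROOMS `rY eY fY`      (helper285; prefix `pvzhy_`, `pvzhy`)

(Rc): `∀ v ∈ Y, closedBall v (3 μ₀) ⊆ M ∪ K ∪ D`, `μ₀ = pviwMu 𝔓 m = pvilMu 𝔓 m` (need of 74 / 22: `Yin ⊆ pvtrCore (3 μ₀) Wn` for EVERY hull; `pvly_room_e`, `pvly_reg_r` of 22).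
VERDICT: `rY` (166) TRUE AS IT STANDS.   `eY` (166 + funnel of 124), `fY` (182) FALSE: they contain the WHOLE mouth ball and the WHOLE funnel (rim, lateral sides, front line have no collar).
PATCH (lanes, first piece, west lane UNCHANGED): inner mouth `closedBall Y (5 ρ h / 16 - 3 μ₀)`, funnel shrunk by `3 μ₀` on its lateral sides and on its front line (`pvegRa` of 124).
* sec. 1  the reference lane: its `r`-neighbourhood lies in the cell, the cell behind the entrance, the cell beyond the exit      `pvzhy_lane_nb`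
* sec. 2  placed: `pvzhy_C_back`, `pvzhy_lane_ball`, **`pvzhy_lanes_ball`** (a corridor of blocks)
* sec. 3  AT THE MODEL: **`pvzhyEY pvzhyFY`**;   `⊆` old rooms (`pvzhy_eY_sub_old pvzhy_fY_sub_old`: every upper line of 166 182 55 survives by monotonicity), closed, Borel;
          **(Rc) IN BODY FORM** (robust under U4 of R23 (2)): `pvzhy_rY_body pvzhy_eY_body pvzhy_fY_body`;   **(Rc) IN THE FORM OF 22**: `pvzhy_rY_col pvzhy_eY_col pvzhy_fY_col`;   (Re): `pvzhy_Ln_sub` (the lanes door to door of 182 lie in the new `fY`)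
-/

set_option autoImplicit false

namespace Claimed.Agent.R289

open Complex Set Metric

/-! ## 1. the reference lane -/

/-- the `r`-neighbourhood (sup norm) of a reference lane lies in the cell, in the cell behind the entrance side, or in the cell beyond the exit side -/
theorem pvzhy_lane_nb {a b r : ℝ} (hr1 : r ≤ 1) (ha : -(1 / 2) + r ≤ a) (hb : b + r ≤ 1 / 2) (τ : PvtTurn) {w w' : ℂ} (hw : w ∈ pvfeLane a b τ) (h : pvccN (w' - w) ≤ r) :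
    w' ∈ pvehSq (1 / 2) (1 / 2) ∨ w' ∈ pvehSq (-(1 / 2)) (1 / 2) ∨ w' ∈ pvehSq (τ.mid + τ.rot / 2) (1 / 2) := by
  obtain ⟨h1, h2⟩ := max_le_iff.1 h
  rw [sub_re, abs_le] at h1
  rw [sub_im, abs_le] at h2
  obtain ⟨a1, a2⟩ := h1
  obtain ⟨b1, b2⟩ := h2
  simp only [pveh_mem_sq]
  cases τ with
  | S =>
    obtain ⟨w1, w2, w3, w4⟩ := hw
    have e1 : (PvtTurn.S.mid + PvtTurn.S.rot / 2).re = 3 / 2 := by simp [PvtTurn.mid, PvtTurn.rot]; norm_num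
    have e2 : (PvtTurn.S.mid + PvtTurn.S.rot / 2).im = 0 := by simp [PvtTurn.mid, PvtTurn.rot]
    rw [e1, e2]
    norm_num
    by_cases c1 : w'.re < 0
    · right; left
      exact ⟨⟨by linarith, by linarith⟩, by linarith, by linarith⟩
    by_cases c2 : w'.re ≤ 1
    · left
      exact ⟨⟨by linarith, by linarith⟩, by linarith, by linarith⟩
    · right; right
      exact ⟨⟨by linarith, by linarith⟩, by linarith, by linarith⟩
  | L =>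
    have e1 : (PvtTurn.L.mid + PvtTurn.L.rot / 2).re = 1 / 2 := by simp [PvtTurn.mid, PvtTurn.rot]
    have e2 : (PvtTurn.L.mid + PvtTurn.L.rot / 2).im = 1 := by simp [PvtTurn.mid, PvtTurn.rot]; norm_num
    rw [e1, e2]
    norm_num
    rcases hw with ⟨w1, w2, w3, w4⟩ | ⟨w1, w2, w3, w4⟩
    · by_cases c1 : w'.re < 0
      · right; left
        exact ⟨⟨by linarith, by linarith⟩, by linarith, by linarith⟩
      · left
        exact ⟨⟨by linarith, by linarith⟩, by linarith, by linarith⟩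
    · by_cases c1 : w'.im ≤ 1 / 2
      · left
        exact ⟨⟨by linarith, by linarith⟩, by linarith, by linarith⟩
      · right; right
        exact ⟨⟨by linarith, by linarith⟩, by linarith, by linarith⟩
  | R =>
    have e1 : (PvtTurn.R.mid + PvtTurn.R.rot / 2).re = 1 / 2 := by simp [PvtTurn.mid, PvtTurn.rot]
    have e2 : (PvtTurn.R.mid + PvtTurn.R.rot / 2).im = -1 := by simp [PvtTurn.mid, PvtTurn.rot]
    rw [e1, e2]
    norm_num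
    rcases hw with ⟨w1, w2, w3, w4⟩ | ⟨w1, w2, w3, w4⟩
    · by_cases c1 : w'.re < 0
      · right; left
        exact ⟨⟨by linarith, by linarith⟩, by linarith, by linarith⟩
      · left
        exact ⟨⟨by linarith, by linarith⟩, by linarith, by linarith⟩
    · by_cases c1 : -(1 / 2) ≤ w'.im
      · left
        exact ⟨⟨by linarith, by linarith⟩, by linarith, by linarith⟩
      · right; right
        exact ⟨⟨by linarith, by linarith⟩, by linarith, by linarith⟩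

/-! ## 2. placed lanes -/

theorem pvzhy_mid_rot (τ : PvtTurn) : τ.mid - τ.rot / 2 = 1 / 2 := by
  cases τ <;> simp only [PvtTurn.mid, PvtTurn.rot] <;> ring

/-- the centre of a cell seen from its exit door -/
theorem pvzhy_C_back (z d : ℂ) (l : List PvtTurn) {j : ℕ} (hj : j < l.length) : pvccZ z d l (j + 1) - pvccD d l (j + 1) / 2 = pvccC z d l j := by
  rw [pvccZ_succ z d l hj, pvccD_succ d l hj, pvccC]
  linear_combination (pvccD d l j) * pvzhy_mid_rot (pvccT l j)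

/-- **the ball round a point of a placed lane** lies in the block, the block behind its entrance door, the block beyond its exit door -/
theorem pvzhy_lane_ball {Δ : ℝ} (hΔ : 0 < Δ) (z : ℂ) {u₀ : ℂ} (hu₀ : u₀ ^ 4 = 1) (l : List PvtTurn) {j : ℕ} (hj : j < l.length) {a b r : ℝ} (hr1 : r ≤ 1) (ha : -(1 / 2) + r ≤ a) (hb : b + r ≤ 1 / 2)
    {v v' : ℂ} (hv : v ∈ pvccK (pvfeLane a b) z ((Δ : ℂ) * u₀) l j) (h : ‖v' - v‖ ≤ r * Δ) :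
    v' ∈ pvefBl Δ z ((Δ : ℂ) * u₀) l j ∨ v' ∈ pvehSq (pvccZ z ((Δ : ℂ) * u₀) l j - pvccD ((Δ : ℂ) * u₀) l j / 2) (Δ / 2) ∨ v' ∈ pvefBl Δ z ((Δ : ℂ) * u₀) l (j + 1) := by
  have hu : (u₀ * pvccD 1 l j) ^ 4 = 1 := by rw [mul_pow, hu₀, pvccD_pow_four (by norm_num) l j, one_mul]
  have hD : pvccD ((Δ : ℂ) * u₀) l j = (Δ : ℂ) * (u₀ * pvccD 1 l j) := by rw [pvccD_cov, mul_assoc]
  have hn : ‖pvccD ((Δ : ℂ) * u₀) l j‖ = Δ := by
    rw [hD, norm_mul, pveg_norm_unit hu, mul_one, Complex.norm_real, Real.norm_eq_abs, abs_of_pos hΔ]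
  have hD0 : pvccD ((Δ : ℂ) * u₀) l j ≠ 0 := by
    intro h0
    rw [h0, norm_zero] at hn
    exact hΔ.ne hn
  obtain ⟨w, hw, rfl⟩ := hv
  set Z := pvccZ z ((Δ : ℂ) * u₀) l j with hZ
  set D := pvccD ((Δ : ℂ) * u₀) l j with hDdef
  set w' := (v' - Z) / D with hw'
  have ev : v' = Z + D * w' := by rw [hw']; field_simp; ring
  have hN : pvccN (w' - w) ≤ r := by
    refine (pvej_N_le_norm _).trans ?_
    have e : v' - (Z + D * w) = D * (w' - w) := by rw [ev]; ring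
    have h' : ‖v' - (Z + D * w)‖ ≤ r * Δ := h
    rw [e, norm_mul, hn] at h'
    nlinarith
  have pl : ∀ c : ℂ, w' ∈ pvehSq c (1 / 2) → v' ∈ pvehSq (Z + D * c) (Δ / 2) := by
    intro c hc
    have h1 : v' ∈ pvccPl Z D (pvehSq c (1 / 2)) := ⟨w', hc, ev.symm⟩
    rw [hD, pveh_pl_sq hΔ _ hu] at h1
    rw [hD, show Δ / 2 = Δ * (1 / 2) by ring]
    exact h1
  rcases pvzhy_lane_nb hr1 ha hb _ hw hN with h1 | h1 | h1
  · left
    have := pl _ h1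
    unfold pvefBl pvccC
    rwa [show Z + D * (1 / 2) = Z + D / 2 by ring] at this
  · right; left
    have := pl _ h1
    rwa [show Z + D * (-(1 / 2)) = Z - D / 2 by ring] at this
  · right; right
    have := pl _ h1
    unfold pvefBl pvccC
    rw [pvccZ_succ _ _ l hj, pvccD_succ _ l hj]
    rwa [show Z + D * ((pvccT l j).mid + (pvccT l j).rot / 2) = Z + D * (pvccT l j).mid + D * (pvccT l j).rot / 2 by ring] at this

/-- **the ball round a point of the lanes of a corridor of blocks**: in the blocks, or behind the first door (close to the first block), or beyond the last door (close to the last block) -/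
theorem pvzhy_lanes_ball {Δ : ℝ} (hΔ : 0 < Δ) (z : ℂ) {u₀ : ℂ} (hu₀ : u₀ ^ 4 = 1) (l : List PvtTurn) {a b r : ℝ} (hr0 : 0 ≤ r) (hr1 : r ≤ 1) (ha : -(1 / 2) + r ≤ a) (hb : b + r ≤ 1 / 2)
    {v v' : ℂ} (hv : v ∈ pvfeLanes a b z ((Δ : ℂ) * u₀) l) (h : ‖v' - v‖ ≤ r * Δ) :
    v' ∈ pvefBlocks Δ z ((Δ : ℂ) * u₀) l ∨ (v' ∈ pvehSq (z - (Δ : ℂ) * u₀ / 2) (Δ / 2) ∧ v ∈ pvefBl Δ z ((Δ : ℂ) * u₀) l 0) ∨
      (0 < l.length ∧ v' ∈ pvefBl Δ z ((Δ : ℂ) * u₀) l l.length ∧ v ∈ pvefBl Δ z ((Δ : ℂ) * u₀) l (l.length - 1)) := by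
  unfold pvfeLanes at hv
  simp only [mem_iUnion, exists_prop, Finset.mem_range] at hv
  obtain ⟨j, hj, hv⟩ := hv
  have hvB := pvef_lane_sub hΔ z hu₀ l j (a := a) (b := b) (by linarith) (by linarith) hv
  have mem : ∀ k, k < l.length → v' ∈ pvefBl Δ z ((Δ : ℂ) * u₀) l k → v' ∈ pvefBlocks Δ z ((Δ : ℂ) * u₀) l := by
    intro k hk hk'
    unfold pvefBlocks
    simp only [mem_iUnion, exists_prop, Finset.mem_range]
    exact ⟨k, hk, hk'⟩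
  rcases pvzhy_lane_ball hΔ z hu₀ l hj hr1 ha hb hv h with h1 | h1 | h1
  · exact Or.inl (mem j hj h1)
  · rcases Nat.eq_zero_or_pos j with rfl | hj0
    · right; left
      rw [pvccZ_zero, pvccD_zero] at h1
      exact ⟨h1, hvB⟩
    · left
      obtain ⟨k, rfl⟩ : ∃ k, j = k + 1 := ⟨j - 1, by omega⟩
      rw [pvzhy_C_back _ _ l (by omega)] at h1
      exact mem k (by omega) h1
  · by_cases hl : j + 1 < l.length
    · exact Or.inl (mem _ hl h1)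
    · right; right
      have e : j + 1 = l.length := by omega
      refine ⟨by omega, e ▸ h1, ?_⟩
      rwa [show l.length - 1 = j by omega]

/-! ### coordinates -/

theorem pvzhy_S_lip {u : ℂ} (hu : u ^ 4 = 1) (Y v v' : ℂ) : |pvegS Y u v' - pvegS Y u v| ≤ ‖v' - v‖ := by
  rw [pveg_S_sub]
  exact (pveg_re_le_N hu _).trans (pvej_N_le_norm _)

theorem pvzhy_L_lip {u : ℂ} (hu : u ^ 4 = 1) (Y v v' : ℂ) : |pvegL Y u v' - pvegL Y u v| ≤ ‖v' - v‖ := by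
  rw [pveg_L_sub]
  exact (pveg_im_le_N hu _).trans (pvej_N_le_norm _)

theorem pvzhy_S_sq {u : ℂ} (hu : u ^ 4 = 1) (Y : ℂ) {p v : ℂ} {r : ℝ} (hv : v ∈ pvehSq p r) : |pvegS Y u v - pvegS Y u p| ≤ r := by
  rw [pveg_S_sub]
  exact (pveg_re_le_N hu _).trans hv

theorem pvzhy_L_sq {u : ℂ} (hu : u ^ 4 = 1) (Y : ℂ) {p v : ℂ} {r : ℝ} (hv : v ∈ pvehSq p r) : |pvegL Y u v - pvegL Y u p| ≤ r := by
  rw [pveg_L_sub]
  exact (pveg_im_le_N hu _).trans hv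

theorem pvzhy_S_add {u : ℂ} (hu : u ^ 4 = 1) (Y p : ℂ) (s : ℝ) : pvegS Y u (p + (s : ℂ) * u) = pvegS Y u p + s ∧ pvegL Y u (p + (s : ℂ) * u) = pvegL Y u p := by
  have e2 := pveg_unit_conj hu
  have key : (p + (s : ℂ) * u - Y) * (starRingEnd ℂ) u = (p - Y) * (starRingEnd ℂ) u + (s : ℂ) := by linear_combination (s : ℂ) * e2
  unfold pvegS pvegL
  rw [key]
  simp

theorem pvzhy_re_im {v v' : ℂ} {r : ℝ} (h : ‖v' - v‖ ≤ r) : (v.re - r ≤ v'.re ∧ v'.re ≤ v.re + r) ∧ (v.im - r ≤ v'.im ∧ v'.im ≤ v.im + r) := by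
  have h1 := (abs_re_le_norm (v' - v)).trans h
  have h2 := (abs_im_le_norm (v' - v)).trans h
  rw [sub_re, abs_le] at h1
  rw [sub_im, abs_le] at h2
  exact ⟨⟨by linarith [h1.1], by linarith [h1.2]⟩, by linarith [h2.1], by linarith [h2.2]⟩

/-- **a funnel shrunk by `s`**: the ball of radius `s` stays in the funnel or in the mouth ball -/
theorem pvzhy_funnel_ball {Y u p : ℂ} {e δ w rM l s : ℝ} (hu : u ^ 4 = 1) (hl : |pvegL Y u p| ≤ l) (hM : 0 ≤ rM) (hes : 0 ≤ e + 2 * δ - s)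
    (hn : (e + 2 * δ) ^ 2 + (w + l) ^ 2 ≤ rM ^ 2) {v v' : ℂ} (hv : v ∈ pvegRa Y u p e δ (w - s) (δ / 4 + s)) (h : ‖v' - v‖ ≤ s) :
    v' ∈ closedBall Y rM ∨ v' ∈ pvegRc Y u p e δ w \ closedBall Y rM := by
  by_cases hb : v' ∈ closedBall Y rM
  · exact Or.inl hb
  refine Or.inr ⟨?_, hb⟩
  obtain ⟨h1, h2, h3⟩ := hv
  have s1 := abs_le.1 ((pvzhy_S_lip hu Y v v').trans h)
  have l1 := abs_le.1 ((pvzhy_L_lip hu Y v v').trans h)
  rw [abs_le] at h3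
  have hL : |pvegL Y u v' - pvegL Y u p| ≤ w := by
    rw [abs_le]
    constructor <;> linarith [l1.1, l1.2, h3.1, h3.2]
  refine ⟨?_, by linarith [s1.2], hL⟩
  by_contra hc
  push Not at hc
  apply hb
  rw [mem_closedBall_iff_norm]
  refine abs_le_of_sq_le_sq' ?_ hM |>.2
  rw [pveg_sq hu Y v']
  have a1 : 0 ≤ pvegS Y u v' := by linarith [s1.1]
  have a2 : pvegS Y u v' ^ 2 ≤ (e + 2 * δ) ^ 2 := pow_le_pow_left₀ a1 hc.le 2
  have a3 : |pvegL Y u v'| ≤ w + l := by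
    have := abs_add_le (pvegL Y u v' - pvegL Y u p) (pvegL Y u p)
    rw [sub_add_cancel] at this
    linarith
  have a4 : pvegL Y u v' ^ 2 ≤ (w + l) ^ 2 := by
    rw [← sq_abs]
    exact pow_le_pow_left₀ (abs_nonneg _) a3 2
  linarith

/-- **beyond a door which looks at a funnel**: a point of the block beyond the door, close to the block `cc`, lies in the rectangle of the funnel whose reference point is `cc - σ u` -/
theorem pvzhy_front_Rc {Y u p cc : ℂ} {e δ w Δ s σ : ℝ} (hu : u ^ 4 = 1) (hp : p = cc + ((-σ : ℝ) : ℂ) * u) (h1 : e + 2 * δ ≤ pvegS Y u cc - Δ / 2 - s) (h2 : σ + δ / 4 ≤ Δ / 2) (h3 : Δ / 2 ≤ w)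
    {v v' : ℂ} (hv' : v' ∈ pvehSq (cc + ((-Δ : ℝ) : ℂ) * u) (Δ / 2)) (hv : v ∈ pvehSq cc (Δ / 2)) (h : ‖v' - v‖ ≤ s) : v' ∈ pvegRc Y u p e δ w := by
  obtain ⟨p1, p2⟩ := pvzhy_S_add hu Y cc (-σ)
  obtain ⟨q1, q2⟩ := pvzhy_S_add hu Y cc (-Δ)
  rw [← hp] at p1 p2
  have a1 := abs_le.1 (pvzhy_S_sq hu Y hv')
  have a2 := pvzhy_L_sq hu Y hv'
  have a3 := abs_le.1 (pvzhy_S_sq hu Y hv)
  have a4 := abs_le.1 ((pvzhy_S_lip hu Y v v').trans h)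
  rw [q1] at a1
  rw [q2] at a2
  refine ⟨by linarith [a3.1, a4.1], by rw [p1]; linarith [a1.2], ?_⟩
  rw [p2]
  exact a2.trans h3

/-! ## 3. at the model -/

section model

variable {τ : Type} {c : ℝ} (𝔓 : PvxPar τ c)

/-- the inner mouth at the entrance tip -/
noncomputable def pvzhyMi (m : ℕ) (t : τ) : Set ℂ := closedBall (pvegYm 𝔓 m t) (5 * pvegR 𝔓 m / 16 - 3 * pviwMu 𝔓 m)

/-- the inner mouth at the exit tip -/
noncomputable def pvzhyMo (m : ℕ) (t : τ) : Set ℂ := closedBall (pvegYp 𝔓 m t) (5 * pvegR 𝔓 m / 16 - 3 * pviwMu 𝔓 m)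

/-- the funnel of `e`, shrunk -/
noncomputable def pvzhyFi (m : ℕ) (t : τ) : Set ℂ :=
  pvegRa (pvegYm 𝔓 m t) (-(𝔓.Γ m).din t) ((𝔓.Γ m).pin t) (pvegR 𝔓 m / 10) (pvlmDel c m) (pvegR 𝔓 m / 5 - 3 * pviwMu 𝔓 m) (pvlmDel c m / 4 + 3 * pviwMu 𝔓 m)

/-- the funnel of `f`, shrunk -/
noncomputable def pvzhyFo (m : ℕ) (t : τ) : Set ℂ :=
  pvegRa (pvegYp 𝔓 m t) (I ^ pvxrA 𝔓 t) (pvefC0 𝔓 m t) (pvegR 𝔓 m / 10) (pvlmDel c m) (pvegR 𝔓 m / 5 - 3 * pviwMu 𝔓 m) (pvlmDel c m / 4 + 3 * pviwMu 𝔓 m)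

/-- **`eY m t`, PATCHED** -/
noncomputable def pvzhyEY (m : ℕ) (t : τ) : Set ℂ := pveheY 𝔓 (pvzhyMi 𝔓) m t ∪ pvzhyFi 𝔓 m t

/-- **`fY m t`, PATCHED** -/
noncomputable def pvzhyFY (m : ℕ) (t : τ) : Set ℂ :=
  pvefFY (pvehDl 𝔓 m) ((pvxrGam 𝔓 m).zu t) (pvefZ 𝔓 m t) (pvefD 𝔓 m t) (pvefW 𝔓 m t) (pvzhyFo 𝔓 m t) (pvzhyMo 𝔓 m t)

theorem pvzhy_eqns_cite : True := by
  have := @pvzhyMi.eq_1; have := @pvzhyMo.eq_1; have := @pvzhyFi.eq_1; have := @pvzhyFo.eq_1; have := @pvzhyEY.eq_1; have := @pvzhyFY.eq_1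
  trivial

variable {𝔓}

theorem pvzhy_mu_le (m : ℕ) : pviwMu 𝔓 m ≤ pvlmDel c m / 1000 := by
  unfold pviwMu
  have := min_le_left (pvlmDel c m) (𝔓.num.rho3 * pvlmH m)
  linarith

theorem pvzhy_mu_nonneg (h3 : 0 ≤ 𝔓.num.rho3) (m : ℕ) : 0 ≤ pviwMu 𝔓 m := by
  unfold pviwMu
  have := le_min (pvlm_Del_pos c m).le (mul_nonneg h3 (pvlm_H_pos m).le)
  linarith

/-! ### Borel, inclusion in the old rooms -/

theorem pvzhy_Ra_sub_Rc (Y u p : ℂ) (e δ : ℝ) {w s : ℝ} (hs : 0 ≤ s) : pvegRa Y u p e δ (w - s) (δ / 4 + s) ⊆ pvegRc Y u p e δ w :=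
  fun _ hv => ⟨hv.1, by linarith [hv.2.1], by linarith [hv.2.2]⟩

theorem pvzhy_Mi_sub {m : ℕ} (hμ : 0 ≤ pviwMu 𝔓 m) (t : τ) : pvzhyMi 𝔓 m t ⊆ pvegIM 𝔓 m t := closedBall_subset_closedBall (by linarith)

theorem pvzhy_Mo_sub {m : ℕ} (hμ : 0 ≤ pviwMu 𝔓 m) (t : τ) : pvzhyMo 𝔓 m t ⊆ pvegOM 𝔓 m t := closedBall_subset_closedBall (by linarith)

/-- **the patched `eY` lies in the old one** -/
theorem pvzhy_eY_sub_old {m : ℕ} (hμ : 0 ≤ pviwMu 𝔓 m) (t : τ) : pvzhyEY 𝔓 m t ⊆ pveheY 𝔓 (pvegIM 𝔓) m t ∪ pvegIK 𝔓 m t := by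
  rintro v (hv | hv)
  · rcases hv with hv | hv
    · exact Or.inl (Or.inl hv)
    · exact Or.inl (Or.inr (pvzhy_Mi_sub hμ t hv))
  · by_cases hb : v ∈ pvegIM 𝔓 m t
    · exact Or.inl (Or.inr hb)
    · exact Or.inr ⟨pvzhy_Ra_sub_Rc _ _ _ _ _ (by linarith) hv, hb⟩

/-- **the patched `fY` lies in the old one** -/
theorem pvzhy_fY_sub_old {m : ℕ} (hμ : 0 ≤ pviwMu 𝔓 m) (t : τ) : pvzhyFY 𝔓 m t ⊆ pveffY0 𝔓 m t := by
  rintro v (((hv | hv) | hv) | hv)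
  · exact Or.inl (Or.inl (Or.inl (pvzhy_Ra_sub_Rc _ _ _ _ _ (by linarith) hv)))
  · exact Or.inl (Or.inl (Or.inr hv))
  · exact Or.inl (Or.inr hv)
  · exact Or.inr (pvzhy_Mo_sub hμ t hv)

theorem pvzhy_m_eY {m : ℕ} (hn : 0 ≤ pvxrNw 𝔓 m) (t : τ) : MeasurableSet (pvzhyEY 𝔓 m t) :=
  (pveh_m_eY (fun _ _ => measurableSet_closedBall) hn t).union (pveg_Ra_closed _ _ _ _ _ _ _).measurableSet

theorem pvzhy_m_fY {m : ℕ} (hn : 0 ≤ pvxrNw 𝔓 m) (t : τ) : MeasurableSet (pvzhyFY 𝔓 m t) :=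
  pvef_FY_meas _ _ _ (pvef_D_ne hn t) _ (pveg_Ra_closed _ _ _ _ _ _ _).measurableSet measurableSet_closedBall

/-! ### (Rc) for `rY`: TRUE AS IT STANDS -/

theorem pvzhy_RY_body {δ Δ s : ℝ} (hs : s < δ / 64) (hδΔ : δ ≤ Δ) (hδ : 0 < δ) {v v' : ℂ} (hv : v ∈ pvehRY δ Δ) (h : ‖v' - v‖ ≤ s) : v' ∈ pvehSq 0 (Δ / 2) ∧ v'.re < 0 := by
  obtain ⟨h1, h2, h3, h4⟩ := hv
  obtain ⟨⟨a1, a2⟩, a3, a4⟩ := pvzhy_re_im h
  refine ⟨?_, by linarith⟩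
  rw [pveh_mem_sq]
  simp only [zero_re, zero_im]
  exact ⟨⟨by linarith, by linarith⟩, by linarith, by linarith⟩

/-- **(Rc) for `rY`, BODY FORM**: the collar lies in the open west half of the closed block of the plug -/
theorem pvzhy_rY_body (O0 : ℕ → Set ℂ) {m : ℕ} (hn : 0 ≤ pvxrNw 𝔓 m) {v v' : ℂ} (hv : v ∈ pvehrY 𝔓 O0 m) (h : ‖v' - v‖ ≤ 3 * pviwMu 𝔓 m) : v' ∈ pvehSq 0 (pvehDl 𝔓 m / 2) ∧ v'.re < 0 :=
  pvzhy_RY_body (by linarith [pvzhy_mu_le (𝔓 := 𝔓) m, pvlm_Del_pos c m]) (pveh_Del_le_Dl hn) (pvlm_Del_pos c m) hv h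

/-- **(Rc) for `rY`** at the regions of 166 -/
theorem pvzhy_rY_col (O0 : ℕ → Set ℂ) {m : ℕ} (hn : 0 ≤ pvxrNw 𝔓 m) : ∀ v ∈ pvehrY 𝔓 O0 m, closedBall v (3 * pviwMu 𝔓 m) ⊆ pvehrK 𝔓 O0 m ∪ pvehrO 𝔓 m ∪ pvehDr 𝔓 O0 m := by
  intro v hv v' hv'
  rw [mem_closedBall_iff_norm] at hv'
  obtain ⟨h1, h2⟩ := pvzhy_rY_body O0 hn hv hv'
  by_cases hO : v' ∈ pvehrO 𝔓 m
  · exact Or.inl (Or.inr hO)
  by_cases hD : v' ∈ pvehDr 𝔓 O0 m
  · exact Or.inr hD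
  exact Or.inl (Or.inl ⟨h1, h2, hO, hD⟩)

/-! ### (Rc) for the patched `eY` -/

theorem pvzhy_le_pos (b : ℕ) : 0 < (pvxrLe b).length := by
  rcases pveh_le_cases b with h | h | h | h <;> rw [h] <;> decide

/-- the last block of `e` is the block of `e⁻` -/
theorem pvzhy_e_last {m : ℕ} {t : τ} (G : PvehGeo 𝔓 m t) :
    pvccC (pvehZ (pvehDl 𝔓 m) ((pvxrGam 𝔓 m).zu t)) (pvehDl 𝔓 m : ℂ) (pvxrLe (pvxrB 𝔓 t)) ((pvxrLe (pvxrB 𝔓 t)).length - 1) = pvtCtr (pvlmDel c m) (pvxrEm 𝔓 m t) := by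
  rw [pveh_C_eq, G.zu']
  have h := congrArg pvtZ (pveh_last (pvxrB 𝔓 t) 1)
  rw [one_smul, pvtZ_add] at h
  have h0 : pvtZ 0 = 0 := by simp [pvtZ]
  rw [h0] at h
  linear_combination (pvehDl 𝔓 m : ℂ) * h

/-- the block beyond the last door of `e` -/
theorem pvzhy_e_beyond {m : ℕ} {t : τ} (G : PvehGeo 𝔓 m t) :
    pvccC (pvehZ (pvehDl 𝔓 m) ((pvxrGam 𝔓 m).zu t)) (pvehDl 𝔓 m : ℂ) (pvxrLe (pvxrB 𝔓 t)) (pvxrLe (pvxrB 𝔓 t)).length = pvtCtr (pvlmDel c m) (pvxrEm 𝔓 m t) + ((-pvehDl 𝔓 m : ℝ) : ℂ) * I ^ pvxrB 𝔓 t := by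
  have hp := pvzhy_le_pos (pvxrB 𝔓 t)
  have h1 := pvzhy_C_back (pvehZ (pvehDl 𝔓 m) ((pvxrGam 𝔓 m).zu t)) (pvehDl 𝔓 m : ℂ) (pvxrLe (pvxrB 𝔓 t)) (j := (pvxrLe (pvxrB 𝔓 t)).length - 1) (by omega)
  rw [show (pvxrLe (pvxrB 𝔓 t)).length - 1 + 1 = (pvxrLe (pvxrB 𝔓 t)).length by omega, pvzhy_e_last G] at h1
  have h2 : pvccD (pvehDl 𝔓 m : ℂ) (pvxrLe (pvxrB 𝔓 t)) (pvxrLe (pvxrB 𝔓 t)).length = (pvehDl 𝔓 m : ℂ) * (- I ^ pvxrB 𝔓 t) := by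
    rw [pvccD_cov, pvccD_length, pveh_dir_le]
  unfold pvccC
  rw [h2] at h1 ⊢
  push_cast
  linear_combination h1

/-- **(Rc) for the patched `eY`, BODY FORM** (robust under U4): the collar lies in the mouth, the funnel tile, the EAST half of the block of the plug and the blocks -/
theorem pvzhy_eY_body {m : ℕ} {t : τ} (hL : PvegLev 𝔓 m) (hΓ : 𝔓.Γ m = pvxrGam 𝔓 m) (h : PvefNdg 𝔓 m t) {v v' : ℂ} (hv : v ∈ pvzhyEY 𝔓 m t) (hvv : ‖v' - v‖ ≤ 3 * pviwMu 𝔓 m) :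
    v' ∈ pvegIM 𝔓 m t ∪ pvegIK 𝔓 m t ∪ pvehBody (pvehDl 𝔓 m) ((pvxrGam 𝔓 m).zu t) (pvxrLe (pvxrB 𝔓 t)) := by
  have hT : pviwTyOk 𝔓 t := ⟨h.nd_p, h.nd_m, h.far⟩
  have H := pveg_door_i hL hT
  have hd := pvlm_Del_pos c m
  have hn := pvef_n0 h
  have hΔ := pveh_Dl_pos (𝔓 := 𝔓) hn
  obtain ⟨d1, d2, d3⟩ := pvef_Dl_bounds h
  have hμ' := pvzhy_mu_le (𝔓 := 𝔓) m
  have G := pvxr_geo h.ndg
  have hδΔ := pveh_Del_le_Dl (𝔓 := 𝔓) hn
  have hlp := pvzhy_le_pos (pvxrB 𝔓 t)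
  obtain ⟨⟨r1, r2⟩, r3, r4⟩ := pvzhy_re_im hvv
  have eC0 : pvccC (pvehZ (pvehDl 𝔓 m) ((pvxrGam 𝔓 m).zu t)) (pvehDl 𝔓 m : ℂ) (pvxrLe (pvxrB 𝔓 t)) 0 = (pvxrGam 𝔓 m).zu t + (pvehDl 𝔓 m : ℂ) := by
    unfold pvccC
    rw [pvccZ_zero, pvccD_zero]
    unfold pvehZ
    push_cast
    ring
  have blk : ∀ k, k < (pvxrLe (pvxrB 𝔓 t)).length → v' ∈ pvehB (pvehDl 𝔓 m) ((pvxrGam 𝔓 m).zu t) (pvxrLe (pvxrB 𝔓 t)) k →
      v' ∈ pvegIM 𝔓 m t ∪ pvegIK 𝔓 m t ∪ pvehBody (pvehDl 𝔓 m) ((pvxrGam 𝔓 m).zu t) (pvxrLe (pvxrB 𝔓 t)) := by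
    intro k hk hk'
    refine Or.inr (Or.inr ?_)
    simp only [mem_iUnion, exists_prop, Finset.mem_range]
    exact ⟨k, hk, hk'⟩
  have rc : v' ∈ pvegRc (pvegYm 𝔓 m t) (-(𝔓.Γ m).din t) ((𝔓.Γ m).pin t) (pvegR 𝔓 m / 10) (pvlmDel c m) (pvegR 𝔓 m / 5) →
      v' ∈ pvegIM 𝔓 m t ∪ pvegIK 𝔓 m t ∪ pvehBody (pvehDl 𝔓 m) ((pvxrGam 𝔓 m).zu t) (pvxrLe (pvxrB 𝔓 t)) := by
    intro hr
    by_cases hb : v' ∈ pvegIM 𝔓 m t
    · exact Or.inl (Or.inl hb)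
    · exact Or.inl (Or.inr ⟨hr, hb⟩)
  rcases hv with ((hv | hv) | hv) | hv
  · -- the first piece
    obtain ⟨h1, h2, h3, h4⟩ := hv
    by_cases c1 : v'.re ≤ ((pvxrGam 𝔓 m).zu t).re + pvehDl 𝔓 m / 2
    · refine Or.inr (Or.inl ⟨?_, by linarith⟩)
      rw [pveh_mem_sq]
      exact ⟨⟨by linarith, by linarith⟩, by linarith, by linarith⟩
    · refine blk 0 hlp ?_
      unfold pvehB
      rw [eC0, pveh_mem_sq]
      simp only [add_re, add_im, ofReal_re, ofReal_im]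
      exact ⟨⟨by linarith, by linarith⟩, by linarith, by linarith⟩
  · -- the lanes
    have hv1 : v ∈ pvfeLanes (-(1 / 10)) (4 / 10) (pvehZ (pvehDl 𝔓 m) ((pvxrGam 𝔓 m).zu t)) ((pvehDl 𝔓 m : ℂ) * 1) (pvxrLe (pvxrB 𝔓 t)) := by rwa [mul_one]
    have key := pvzhy_lanes_ball hΔ _ (one_pow 4) _ (r := 3 / 1000) (by norm_num) (by norm_num) (by norm_num) (by norm_num) hv1 (v' := v') (by nlinarith)
    rw [mul_one] at key
    rcases key with k1 | ⟨k1, k2⟩ | ⟨-, k1, k2⟩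
    · exact Or.inr (Or.inr k1)
    · have eZ : pvehZ (pvehDl 𝔓 m) ((pvxrGam 𝔓 m).zu t) - (pvehDl 𝔓 m : ℂ) / 2 = (pvxrGam 𝔓 m).zu t := by
        unfold pvehZ
        push_cast
        ring
      rw [eZ] at k1
      unfold pvefBl at k2
      rw [eC0, pveh_mem_sq] at k2
      simp only [add_re, add_im, ofReal_re, ofReal_im] at k2
      exact Or.inr (Or.inl ⟨k1, by linarith [k2.1.1]⟩)
    · unfold pvefBl at k1 k2
      rw [pvzhy_e_beyond G] at k1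
      rw [pvzhy_e_last G] at k2
      have hu : -(𝔓.Γ m).din t = I ^ pvxrB 𝔓 t := by rw [hΓ, pvxr_gam_din, neg_neg]
      have hp : (𝔓.Γ m).pin t = pvtCtr (pvlmDel c m) (pvxrEm 𝔓 m t) + ((-(pvlmDel c m / 2) : ℝ) : ℂ) * I ^ pvxrB 𝔓 t := by
        rw [hΓ, pvxr_gam_pin, pvej_door_eq]
        push_cast
        ring
      refine rc ?_
      rw [hu]
      have Hs := H.s_lo
      rw [hu] at Hs
      obtain ⟨p1, -⟩ := pvzhy_S_add (pvef_I_pow (pvxrB 𝔓 t)) (pvegYm 𝔓 m t) (pvtCtr (pvlmDel c m) (pvxrEm 𝔓 m t)) (-(pvlmDel c m / 2))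
      rw [← hp] at p1
      exact pvzhy_front_Rc (pvef_I_pow _) hp (by linarith) (by linarith) (by linarith) k1 k2 hvv
  · -- the inner mouth
    refine Or.inl (Or.inl ?_)
    have hv2 : ‖v - pvegYm 𝔓 m t‖ ≤ 5 * pvegR 𝔓 m / 16 - 3 * pviwMu 𝔓 m := mem_closedBall_iff_norm.1 hv
    show v' ∈ closedBall _ _
    rw [mem_closedBall_iff_norm]
    have := norm_add_le (v' - v) (v - pvegYm 𝔓 m t)
    rw [sub_add_sub_cancel] at this
    linarith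
  · -- the shrunk funnel
    have hR : 0 < pvegR 𝔓 m := by linarith
    rcases pvzhy_funnel_ball (rM := 5 * pvegR 𝔓 m / 16) H.u4 H.lat (by linarith) (by linarith) (by nlinarith) hv hvv with k | k
    · exact Or.inl (Or.inl k)
    · exact Or.inl (Or.inr k)

/-- **(Rc) for the patched `eY`** in the exact form of 22 (`pvly_room_e`), at the tiles `eM = iM`, `eK = pveheK ∪ iK`, `rO` of today -/
theorem pvzhy_eY_col {m : ℕ} {t : τ} (hL : PvegLev 𝔓 m) (hΓ : 𝔓.Γ m = pvxrGam 𝔓 m) (h : PvefNdg 𝔓 m t) :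
    ∀ v ∈ pvzhyEY 𝔓 m t, closedBall v (3 * pviwMu 𝔓 m) ⊆ pvegIM 𝔓 m t ∪ (pveheK 𝔓 (pvegIM 𝔓) m t ∪ pvegIK 𝔓 m t) ∪ pvieSh ((pvxrGam 𝔓 m).zu t) (pvehrO 𝔓 m) := by
  intro v hv v' hv'
  rw [mem_closedBall_iff_norm] at hv'
  rw [pveh_sh_rO]
  rcases pvzhy_eY_body hL hΓ h hv hv' with (k | k) | k
  · exact Or.inl (Or.inl k)
  · exact Or.inl (Or.inr (Or.inr k))
  · by_cases h1 : v' ∈ pvccSq ((pvxrGam 𝔓 m).zu t) (pvehDl 𝔓 m / 4)
    · exact Or.inr h1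
    by_cases h2 : v' ∈ pvegIM 𝔓 m t
    · exact Or.inl (Or.inl h2)
    exact Or.inl (Or.inr (Or.inl ⟨k, fun hh => hh.elim h1 h2⟩))

/-! ### (Rc) for the patched `fY` -/

/-- **(Rc) for the patched `fY`, BODY FORM** (robust under U4): the collar lies in the mouth, the funnel, the blocks, the open WEST half of the block of the plug -/
theorem pvzhy_fY_body {m : ℕ} {t : τ} (h : PvefNdg 𝔓 m t) {v v' : ℂ} (hv : v ∈ pvzhyFY 𝔓 m t) (hvv : ‖v' - v‖ ≤ 3 * pviwMu 𝔓 m) :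
    v' ∈ pvegOM 𝔓 m t ∪ pvefBody (pvehDl 𝔓 m) ((pvxrGam 𝔓 m).zu t) (pvefZ 𝔓 m t) (pvefD 𝔓 m t) (pvefW 𝔓 m t) (pvefF 𝔓 m t) := by
  have hd := pvlm_Del_pos c m
  have hn := pvef_n0 h
  have hΔ := pveh_Dl_pos (𝔓 := 𝔓) hn
  obtain ⟨d1, d2, d3⟩ := pvef_Dl_bounds h
  obtain ⟨f1, f2, f3⟩ := pvef_C0_frame h
  have hμ' := pvzhy_mu_le (𝔓 := 𝔓) m
  have hδΔ := pveh_Del_le_Dl (𝔓 := 𝔓) hn
  have hlp := pvef_W_pos h
  have hu := pvef_I_pow (pvxrA 𝔓 t)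
  have hR : 0 < pvegR 𝔓 m := by linarith
  obtain ⟨⟨r1, r2⟩, r3, r4⟩ := pvzhy_re_im hvv
  have eZ : pvefZ 𝔓 m t = pvefC0 𝔓 m t - (pvehDl 𝔓 m : ℂ) * I ^ pvxrA 𝔓 t / 2 := rfl
  have eLast : pvccC (pvefZ 𝔓 m t) (pvefD 𝔓 m t) (pvefW 𝔓 m t) ((pvefW 𝔓 m t).length - 1) = (pvxrGam 𝔓 m).zu t - (pvehDl 𝔓 m : ℂ) := by
    have h1 := pvzhy_C_back (pvefZ 𝔓 m t) (pvefD 𝔓 m t) (pvefW 𝔓 m t) (j := (pvefW 𝔓 m t).length - 1) (by omega)
    rw [show (pvefW 𝔓 m t).length - 1 + 1 = (pvefW 𝔓 m t).length by omega, pvef_last_door h, pvef_last_dir h] at h1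
    rw [← h1]
    ring
  have blk : ∀ k, k < (pvefW 𝔓 m t).length → v' ∈ pvefBl (pvehDl 𝔓 m) (pvefZ 𝔓 m t) (pvefD 𝔓 m t) (pvefW 𝔓 m t) k →
      v' ∈ pvegOM 𝔓 m t ∪ pvefBody (pvehDl 𝔓 m) ((pvxrGam 𝔓 m).zu t) (pvefZ 𝔓 m t) (pvefD 𝔓 m t) (pvefW 𝔓 m t) (pvefF 𝔓 m t) := by
    intro k hk hk'
    refine Or.inr (Or.inl (Or.inr ?_))
    unfold pvefBlocks
    simp only [mem_iUnion, exists_prop, Finset.mem_range]
    exact ⟨k, hk, hk'⟩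
  rcases hv with ((hv | hv) | hv) | hv
  · -- the shrunk funnel
    rcases pvzhy_funnel_ball (rM := 5 * pvegR 𝔓 m / 16) hu f3 (by linarith) (by linarith) (by nlinarith) hv hvv with k | k
    · exact Or.inl k
    · exact Or.inr (Or.inl (Or.inl k.1))
  · -- the lanes
    have key := pvzhy_lanes_ball hΔ (pvefZ 𝔓 m t) hu (pvefW 𝔓 m t) (r := 3 / 1000) (by norm_num) (by norm_num) (by norm_num) (by norm_num) hv (v' := v') (by nlinarith)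
    rcases key with k1 | ⟨k1, k2⟩ | ⟨-, k1, k2⟩
    · exact Or.inr (Or.inl (Or.inr k1))
    · refine Or.inr (Or.inl (Or.inl ?_))
      have e1 : pvefZ 𝔓 m t - (pvehDl 𝔓 m : ℂ) * I ^ pvxrA 𝔓 t / 2 = pvefC0 𝔓 m t + ((-pvehDl 𝔓 m : ℝ) : ℂ) * I ^ pvxrA 𝔓 t := by
        rw [eZ]
        push_cast
        ring
      have e2 : pvccC (pvefZ 𝔓 m t) ((pvehDl 𝔓 m : ℂ) * I ^ pvxrA 𝔓 t) (pvefW 𝔓 m t) 0 = pvefC0 𝔓 m t := by
        unfold pvccC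
        rw [pvccZ_zero, pvccD_zero, eZ]
        ring
      rw [e1] at k1
      unfold pvefBl at k2
      rw [e2] at k2
      exact pvzhy_front_Rc (σ := 0) hu (by simp) (by linarith) (by linarith) (by linarith) k1 k2 hvv
    · refine Or.inr (Or.inr ?_)
      have k1' : v' ∈ pvefBl (pvehDl 𝔓 m) (pvefZ 𝔓 m t) (pvefD 𝔓 m t) (pvefW 𝔓 m t) (pvefW 𝔓 m t).length := k1
      have k2' : v ∈ pvefBl (pvehDl 𝔓 m) (pvefZ 𝔓 m t) (pvefD 𝔓 m t) (pvefW 𝔓 m t) ((pvefW 𝔓 m t).length - 1) := k2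
      unfold pvefBl at k1' k2'
      rw [eLast, pveh_mem_sq] at k2'
      simp only [sub_re, sub_im, ofReal_re, ofReal_im] at k2'
      have e3 : pvccC (pvefZ 𝔓 m t) (pvefD 𝔓 m t) (pvefW 𝔓 m t) (pvefW 𝔓 m t).length = (pvxrGam 𝔓 m).zu t := by
        rw [pvccC, pvef_last_dir h, pvef_last_door h]
        ring
      rw [e3] at k1'
      exact ⟨k1', by linarith [k2'.1.2]⟩
  · -- the lane of the west half
    obtain ⟨h1, h2, h3, h4⟩ := hv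
    by_cases c1 : ((pvxrGam 𝔓 m).zu t).re - pvehDl 𝔓 m / 2 ≤ v'.re
    · refine Or.inr (Or.inr ⟨?_, by linarith⟩)
      rw [pveh_mem_sq]
      exact ⟨⟨by linarith, by linarith⟩, by linarith, by linarith⟩
    · refine blk ((pvefW 𝔓 m t).length - 1) (by omega) ?_
      unfold pvefBl
      rw [eLast, pveh_mem_sq]
      simp only [sub_re, sub_im, ofReal_re, ofReal_im]
      exact ⟨⟨by linarith, by linarith⟩, by linarith, by linarith⟩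
  · -- the inner mouth
    refine Or.inl ?_
    have hv2 : ‖v - pvegYp 𝔓 m t‖ ≤ 5 * pvegR 𝔓 m / 16 - 3 * pviwMu 𝔓 m := mem_closedBall_iff_norm.1 hv
    show v' ∈ closedBall _ _
    rw [mem_closedBall_iff_norm]
    have := norm_add_le (v' - v) (v - pvegYp 𝔓 m t)
    rw [sub_add_sub_cancel] at this
    linarith

/-- **(Rc) for the patched `fY`** at the tiles `fM = oM`, `fK = pveffK` of 182, `rO` of today -/
theorem pvzhy_fY_col {m : ℕ} {t : τ} (h : PvefNdg 𝔓 m t) :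
    ∀ v ∈ pvzhyFY 𝔓 m t, closedBall v (3 * pviwMu 𝔓 m) ⊆ pvegOM 𝔓 m t ∪ pveffK 𝔓 m t ∪ pvieSh ((pvxrGam 𝔓 m).zu t) (pvehrO 𝔓 m) := by
  intro v hv v' hv'
  rw [mem_closedBall_iff_norm] at hv'
  rw [pveh_sh_rO]
  rcases pvzhy_fY_body h hv hv' with k | k
  · exact Or.inl (Or.inl k)
  · by_cases h1 : v' ∈ pvccSq ((pvxrGam 𝔓 m).zu t) (pvehDl 𝔓 m / 4)
    · exact Or.inr h1
    by_cases h2 : v' ∈ pvegOM 𝔓 m t
    · exact Or.inl (Or.inl h2)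
    exact Or.inl (Or.inr ⟨k, fun hh => hh.elim h1 h2⟩)

end model

end Claimed.Agent.R289
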