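-- KEEP
import Claimed.Agent.R289.Exit.Cyc1CO
import Claimed.Agent.R289.Exit.Cyc1O
import Claimed.Agent.R289.Tr.LinkDet
import Claimed.Agent.R289.Exit.ParRoom
import Claimed.Agent.R289.Exit.EngRoom
import Claimed.Agent.R289.Exit.Cyc1Y

/-!
# Row 289 (S0537), THE WALL, ROAD E, file Exit/Cyc1CP : THE LEAF (O) `exit_pvcy1d_own` OF 219 AT THE ENGINE OF RECORD, MESH ROPE      (helper42; prefix `pvdw_`)

`pvdw_own_glue` (`Exit/Cyc1CO`) at `pvxParOf`, `pvnaEngRec`, `pvkgG.sc δ_m`:   `PvdwOw := pvio_ow` of 179 (`Exit/Cyc1O`);   `PvdwRc` := numerals + windows of `Tr/LinkDet` sec. 6 + THE THREE LINES (Rc):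
`oY := exit_pvly_col_o` (PROVED, 124 245), `rY := pvy9_col_r` (124, `Exit/EngRoom`: engine v3), `eY := exit_pvly_col_e` (`Tr/LinkDet`: open until the swap of the room `eY`; NOT USED by `pvdw_own_rec` since v2: `te := pvvi_te_rec` of 92, `Exit/Cyc1Y`).
* **`pvdw_rc_rec`** : `PvdwRc` at the record      * **`pvdw_own_rec`** : the statement of `exit_pvcy1d_own` (masks of 219 unfolded), for EVERY `ε`
-/

set_option autoImplicit false

namespace Claimed.Agent.R289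

open Set Metric

section rec

variable {c : ℝ} (N : PvxNums) (hN : N.Ok) (nb : PvnaNb N)

theorem pvdw_mu_pos_rec (m : ℕ) : 0 < pvilMu (pvxParOf N hN c) m := by
  unfold pvilMu
  have h1 := pvlm_Del_pos c m
  have h2 := pvlm_H_pos m
  have h3 : 0 < (pvxParOf N hN c).num.rho3 := hN.msk0
  have : 0 < min (pvlmDel c m) ((pvxParOf N hN c).num.rho3 * pvlmH m) := lt_min h1 (mul_pos h3 h2)
  positivity

/-- the numerals and the windows of the plugs at the record -/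
theorem pvdw_rcb_rec (c0 : 0 < c) {m : ℕ} (hm : (pvxParOf N hN c).m0 ≤ m) (ε : ℝ) (t : pvxTau N) : PvdwRcB (pvxParOf N hN c) (pvnaEngRec N hN c nb) m ε t where
  δ0 := pvlm_Del_pos c m
  μ0 := pvdw_mu_pos_rec N hN m
  μd := by
    have h1 := pvlm_Del_pos c m
    have h2 : pvilMu (pvxParOf N hN c) m ≤ pvlmDel c m / 1000 := pvey_mu_le m
    linarith
  μu := pvly_rec_ru N hN nb m
  dout := pvly_rec_dout N hN m t
  din0 := pvly_rec_din0 N hN m
  dp_win := pvly_rec_dp N hN nb c0 hm ε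
  rp_win := pvly_rec_rp N hN nb c0 hm

/-- (Rc) of the link into the reference plug at the record -/
theorem pvdw_rc_r_rec (c0 : 0 < c) (m : ℕ) (ε : ℝ) : ∀ v ∈ (pvnaEngRec N hN c nb).rY m, closedBall v (3 * pvilMu (pvxParOf N hN c) m) ⊆ pvilWnr (pvxParOf N hN c) (pvnaEngRec N hN c nb) m ε := by
  unfold pvilWnr
  exact pvy9_col_r N hN nb c0 m ε

/-- **THE LINES (Rc), THE NUMERALS AND THE WINDOWS OF THE PLUGS AT THE RECORD** -/
theorem pvdw_rc_rec (c0 : 0 < c) {m : ℕ} (hm : (pvxParOf N hN c).m0 ≤ m) (ε : ℝ) (t : pvxTau N) : PvdwRc (pvxParOf N hN c) (pvnaEngRec N hN c nb) m ε t where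
  toPvdwRcB := pvdw_rcb_rec N hN nb c0 hm ε t
  oY := exit_pvly_col_o N hN nb c0 hm ε t
  rY := pvdw_rc_r_rec N hN nb c0 m ε
  eY := exit_pvly_col_e N hN nb c0 hm t

/-- **THE LEAF (O) AT THE ENGINE OF RECORD** (v2, HYBRID ROPE: mesh for `o`, `r`; `te := pvvi_te_rec` of 92: NO OPEN CITATION): the statement of `exit_pvcy1d_own` of 219, for every `ε`, ANY base `ω` -/
theorem pvdw_own_rec (c0 : 0 < c) {m : ℕ} (hm : (pvxParOf N hN c).m0 ≤ m) (ε : ℝ) (z : ℂ) (t : pvxTau N) (ω η : Conf PvPt)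
    (E : Pvc1kEv (pvxParOf N hN c) (pvnaEngRec N hN c nb) (pvkgG.sc (pvlmDel c m)) m ε z t ω η)
    {P P' : PvwSt (pvieT η)} {g : ℕ → (pvkiT η).Gate (pvukS ((pvxParOf N hN c).col t) η)} {gu : (pvkiT η).Gate (pvukS ((pvxParOf N hN c).col t) η)} {y0 yr ye : (pvieT η).Pth}
    (A : PvdwArcs (pvxParOf N hN c).num ((pvxParOf N hN c).col t) η (pvilLo (pvxParOf N hN c) (pvnaEngRec N hN c nb) m z t) (pviqLr (pvxParOf N hN c) (pvnaEngRec N hN c nb) m z t)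
      (pvilLe (pvxParOf N hN c) (pvnaEngRec N hN c nb) m z t) (pvkdP (pvilRd (pvxParOf N hN c) m)) (pvkdP (pvilRu (pvnaEngRec N hN c nb) m)) (((pvxParOf N hN c).Γ m).l1 t).length
      (pvc1kZ (pvxParOf N hN c) m z t) (pvc1kD (pvxParOf N hN c) m t) (pvc1kCo (pvxParOf N hN c) (pvkgG.sc (pvlmDel c m)) m z t) (pvieZu (pvxParOf N hN c) m z t) 1 P P' g gu y0 yr ye)
    (R : ∀ k, k < (((pvxParOf N hN c).Γ m).l1 t).length + 3 → ∀ v ∈ (pvdwY (((pvxParOf N hN c).Γ m).l1 t).length y0 (pvdwYc ((pvxParOf N hN c).col t) η g) yr ye k).verts,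
      pviePos η v ∈ pvdwYr (pvilLo (pvxParOf N hN c) (pvnaEngRec N hN c nb) m z t) (pviqLr (pvxParOf N hN c) (pvnaEngRec N hN c nb) m z t) (pvilLe (pvxParOf N hN c) (pvnaEngRec N hN c nb) m z t)
        (pvkdP (pvilRd (pvxParOf N hN c) m)) (pvkdP (pvilRu (pvnaEngRec N hN c nb) m)) (((pvxParOf N hN c).Γ m).l1 t).length (pvc1kZ (pvxParOf N hN c) m z t) (pvc1kD (pvxParOf N hN c) m t)
        (pvc1kCo (pvxParOf N hN c) (pvkgG.sc (pvlmDel c m)) m z t) (pvieZu (pvxParOf N hN c) m z t) 1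
        ((pvilPin (pvxParOf N hN c) m z t).Mp ∩ pvtU (pvlmDel c m) (pvilZo (pvxParOf N hN c) m z t ω) ∩ pvcaBx (pvxParOf N hN c).num (pvilPin (pvxParOf N hN c) m z t) ∩
          {w | ((pvxParOf N hN c).ty t).a * pvlmH m ≤ ‖w - z‖})
        ((pvilPin (pvxParOf N hN c) m z t).Mm ∩ pvtU (pvlmDel c m) (pvilZi (pvxParOf N hN c) m z t ω) ∩ pvcaBx (pvxParOf N hN c).num (pvilPin (pvxParOf N hN c) m z t) ∩
          {w | ((pvxParOf N hN c).ty t).a * pvlmH m ≤ ‖w - z‖}) k) :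
    Pvcy2Own (pvieT η) (pviePos η) ((((pvxParOf N hN c).Γ m).l1 t).length + 3)
      (pvdwSt (((pvxParOf N hN c).Γ m).l1 t).length P (pvdwDd (pvkdP (pvilRd (pvxParOf N hN c) m)) ((pvxParOf N hN c).col t) η (pvc1kZ (pvxParOf N hN c) m z t) g)
        (pvilStS (pvkdP (pvilRu (pvnaEngRec N hN c nb) m)) η (pvieCol η ((pvxParOf N hN c).col t)) (pvieZu (pvxParOf N hN c) m z t) gu))
      (pvdwY (((pvxParOf N hN c).Γ m).l1 t).length y0 (pvdwYc ((pvxParOf N hN c).col t) η g) yr ye)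
      (pvdwM (((pvxParOf N hN c).Γ m).l1 t).length ((pvilLo (pvxParOf N hN c) (pvnaEngRec N hN c nb) m z t).msk (pvxParOf N hN c).num) (pvc1kMk (pvxParOf N hN c) (pvkgG.sc (pvlmDel c m)) m z t)
        ((pviqLr (pvxParOf N hN c) (pvnaEngRec N hN c nb) m z t).msk (pvxParOf N hN c).num) ((pvilLe (pvxParOf N hN c) (pvnaEngRec N hN c nb) m z t).msk (pvxParOf N hN c).num))
      (pvdwB (((pvxParOf N hN c).Γ m).l1 t).length ((pvilLo (pvxParOf N hN c) (pvnaEngRec N hN c nb) m z t).ball (pvxParOf N hN c).num)) (pvdwDr (((pvxParOf N hN c).Γ m).l1 t).length) :=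
  pvdw_own_glueH (pvdw_rcb_rec N hN nb c0 hm ε t) (exit_pvly_col_o N hN nb c0 hm ε t) (pvdw_rc_r_rec N hN nb c0 m ε) (μe := 2 * pvilMu (pvxParOf N hN c) m) (μP := 0) le_rfl (fun _ h => ⟨h.1.1.2, h.1.2⟩)
    (pvio_ow (pvea_par hN c0) hm (pvea_tyOk hN t) (pvio_eng_rec N hN nb c0 hm t) (pvio_num_rec N hN c0 hm t) z (fun _ h => h.1.2) (fun _ h => h.2) (fun _ h => h.1.2) (fun _ h => h.2)
      (pvio_mu _ m) (pvio_mu _ m) (pvio_mu _ m) (by have := pvlm_Del_pos c m; linarith))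
    E A R (fun _ hk => pvvi_te_rec hN c0 nb hm E A hk)

end rec

end Claimed.Agent.R289
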