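-- KEEP
import Claimed.Agent.R289.Exit.Cyc1B
import Claimed.Agent.R289.Tr.InstLB

/-!
# Row 289 (S0537), THE WALL, ROAD E, Exit/Cyc1Di : (DICT) OF THE SECOND ROPE OF `cyc1` IS FREE      (helper133; prefix `pvc1d_`)

`Pvcy1Dict 𝔓 m z t` (188, `Exit/Cyc1B` sec. 4) holds for EVERY parameter, level, centre, type: `pvza_at_iff`, `pvza_FzO_eq`, `pvza_FzI_eq` of 38 (`Tr/InstLB`: uniqueness of the half states).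
So the roofs of 188 lose the hypothesis `hd`: **`pvc1d_of_core`**, **`pvc1d_of_rec`**.
-/

set_option autoImplicit false

namespace Claimed.Agent.R289

open MeasureTheory Filter Topology Set Claims.C0465
open scoped ENNReal

variable {τ : Type} {c : ℝ}

/-- **(DICT) IS FREE** -/
theorem pvc1d_dict (𝔓 : PvxPar τ c) (m : ℕ) (z : ℂ) (t : τ) : Pvcy1Dict 𝔓 m z t := fun η 𝔖 h =>
  ⟨pvza_FzO_eq (q := 𝔓.pl m z t) ((pvza_at_iff η 𝔖).1 h).out, pvza_FzI_eq (q := 𝔓.pl m z t) ((pvza_at_iff η 𝔖).1 h).inn⟩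

variable {𝔓 : PvxPar τ c} {𝔈 : PvieEng τ}

/-- the roof of 188 over the core, without (DICT) -/
theorem pvc1d_of_core {𝔊 : PvnaGd τ} {m0 : ℕ} {Cth : ℝ} {r κs : ℕ → ℝ} (hW : PvieEng.Wf 𝔓 𝔈 m0 Cth r κs) (hT : ∀ t, pviwTyOk 𝔓 t)
    (hC : ∀ m, m0 ≤ m → ∀ ε z t, MeasurableSet (pvilCcyc 𝔓 𝔈 m ε z t)) (h : Pvcy1CoreAll 𝔓 𝔈 𝔊 m0) : PvnaCyc1 𝔓 (pvnaDatE 𝔓 𝔈) 𝔊 m0 :=
  pvcy1_of_core hW hT (fun m _ z t => pvc1d_dict 𝔓 m z t) hC h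

/-- the roof of 188 over (REC) + (C2), without (DICT) -/
theorem pvc1d_of_rec {𝔊 : PvnaGd τ} {m0 : ℕ} {Cth : ℝ} {r κs : ℕ → ℝ} (hW : PvieEng.Wf 𝔓 𝔈 m0 Cth r κs) (hT : ∀ t, pviwTyOk 𝔓 t)
    (hC : ∀ m, m0 ≤ m → ∀ ε z t, MeasurableSet (pvilCcyc 𝔓 𝔈 m ε z t)) (h : Pvcy1RecAll 𝔓 𝔈 𝔊 m0) : PvnaCyc1 𝔓 (pvnaDatE 𝔓 𝔈) 𝔊 m0 :=
  pvcy1_of_rec hW hT (fun m _ z t => pvc1d_dict 𝔓 m z t) hC h

end Claimed.Agent.R289
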