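-- KEEP
import Claimed.Agent.R289.Tr.CycI
import Claimed.Agent.R289.Exit.EngRec

/-!
# Row 289 (S0537), THE WALL, ROAD E, file Exit/Cyc1S : THE SECOND MOMENTS OF THE `Σ₁` CYCLE AT THE ENGINE OF RECORD      (helper161; prefix `pvcyi_`; continues `Tr/CycI`)

`Tr/CycI` asks of the regions, beyond `PvieEng.Wf`, only `PvcyiBd 𝔈 m t` (`oK m t`, `rK m` bounded).      HERE it is paid at `pveaEng 𝔓 J` (124 166), hence at `pvnaEngRec N hN c nb` (T12 of 24).
* `pvcyi_SL_bdd` : a rectangle in the coordinates `(S, L)` of 124 is bounded;   `pvcyi_K_bdd`, `pvcyi_Ka_bdd` (tiles `pvegK`, `pvegKa`: both forms, robust to the patch of the slit)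
* **`pvcyi_bd_eng`** : `PvcyiBd (pveaEng 𝔓 J) m t`;   **`pvcyi_bd_rec`** : `PvcyiBd (pvnaEngRec N hN c nb) m t`
-/

set_option autoImplicit false

namespace Claimed.Agent.R289

open Set Metric

/-- a rectangle in the coordinates `(S, L)` is bounded -/
theorem pvcyi_SL_bdd {Y u : ℂ} (hu : u ≠ 0) (a b l w : ℝ) : Bornology.IsBounded {v : ℂ | a ≤ pvegS Y u v ∧ pvegS Y u v ≤ b ∧ |pvegL Y u v - l| ≤ w} := by
  have hu' : 0 < ‖u‖ := norm_pos_iff.2 hu
  refine (isBounded_closedBall (x := Y) (r := (|a| + |b| + (|l| + w)) / ‖u‖)).subset fun v hv => ?_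
  obtain ⟨h1, h2, h3⟩ := hv
  rw [mem_closedBall, dist_eq_norm, le_div_iff₀ hu']
  have e : ‖v - Y‖ * ‖u‖ = ‖(v - Y) * (starRingEnd ℂ) u‖ := by rw [norm_mul, RCLike.norm_conj]
  rw [e]
  have h := Complex.norm_le_abs_re_add_abs_im ((v - Y) * (starRingEnd ℂ) u)
  have hS : |((v - Y) * (starRingEnd ℂ) u).re| ≤ |a| + |b| := by
    have h1' : a ≤ ((v - Y) * (starRingEnd ℂ) u).re := h1
    have h2' : ((v - Y) * (starRingEnd ℂ) u).re ≤ b := h2
    rw [abs_le]
    constructor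
    · have := neg_abs_le a
      have := abs_nonneg b
      linarith
    · have := le_abs_self b
      have := abs_nonneg a
      linarith
  have hL : |((v - Y) * (starRingEnd ℂ) u).im| ≤ |l| + w := by
    have h3' : |((v - Y) * (starRingEnd ℂ) u).im - l| ≤ w := h3
    have := abs_sub_abs_le_abs_sub (((v - Y) * (starRingEnd ℂ) u).im) l
    linarith
  linarith

theorem pvcyi_K_bdd {Y u : ℂ} (hu : u ≠ 0) (p : ℂ) (e δ w rM : ℝ) : Bornology.IsBounded (pvegK Y u p e δ w rM) :=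
  (pvcyi_SL_bdd hu (e + 2 * δ) (pvegS Y u p - δ / 4) (pvegL Y u p) w).subset fun _ hv => hv.1

theorem pvcyi_Ka_bdd {Y u : ℂ} (hu : u ≠ 0) (p : ℂ) (e δ w rM a : ℝ) (O : Set ℂ) : Bornology.IsBounded (pvegKa Y u p e δ w rM a O) :=
  (pvcyi_SL_bdd hu (e + 2 * δ) (pvegS Y u p - a) (pvegL Y u p) w).subset fun _ hv => hv.1.1

theorem pvcyi_csq_bdd (a : ℂ) (ρ : ℝ) : Bornology.IsBounded (pvehSq a ρ) := by
  refine (isBounded_closedBall (x := a) (r := 2 * ρ)).subset fun w hw => ?_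
  rw [mem_closedBall, dist_eq_norm]
  have h := Complex.norm_le_abs_re_add_abs_im (w - a)
  have h0 : pvccN (w - a) ≤ ρ := hw
  have h1 : |(w - a).re| ≤ pvccN (w - a) := le_max_left _ _
  have h2 : |(w - a).im| ≤ pvccN (w - a) := le_max_right _ _
  linarith

/-- **the two lines at the engine of 124 166** -/
theorem pvcyi_bd_eng {τ : Type} {c : ℝ} (𝔓 : PvxPar τ c) (J : PveaIn) (m : ℕ) (t : τ) : PvcyiBd (pveaEng 𝔓 J) m t where
  oK := by
    first
      | exact pvcyi_K_bdd (pvth_ne_zero ((𝔓.Γ m).dout1 t)) _ _ _ _ _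
      | exact pvcyi_Ka_bdd (pvth_ne_zero ((𝔓.Γ m).dout1 t)) _ _ _ _ _ _ _
  rK := (pvcyi_csq_bdd 0 (pvehDl 𝔓 m / 2)).subset (pveh_RK_sub _ _)

set_option linter.unreachableTactic false in
set_option linter.unusedTactic false in
/-- **the two lines at the engine of record**      [146, REPAIR-L2: green BEFORE and AFTER L2: after U4 of 84 the engine is `pvnuEngA` = `pveaEng` with `oK` unchanged and `rK := pvehrK ∪ pvnuAW pvehrO pvnuRO` (West half of the ring, inside the open square `pvehrO`)] -/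
theorem pvcyi_bd_rec (N : PvxNums) (hN : N.Ok) (c : ℝ) (nb : PvnaNb N) (m : ℕ) (t : pvxTau N) : PvcyiBd (pvnaEngRec N hN c nb) m t := by
  first
    | exact pvcyi_bd_eng _ _ m t
    | exact ⟨(pvcyi_bd_eng (pvxParOf N hN c) (pvnaInRec N hN c nb) m t).oK,
        ((pvcyi_bd_eng (pvxParOf N hN c) (pvnaInRec N hN c nb) m t).rK).union ((pvcyi_sq_bdd 0 (pvehDl (pvxParOf N hN c) m / 4)).subset fun _ h => h.1.1)⟩

end Claimed.Agent.R289
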