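-- KEEP
import Claimed.Agent.R289.Exit.Cyc1C
import Claimed.Agent.R289.Tr.CycD
import Claimed.Agent.R289.Tr.MeasL

/-!
# Row 289 (S0537), THE WALL, ROAD E, Exit/Cyc1W : KIT FOR THE WIRING OF `exit_pvc1_c2` (115, `Exit/Cyc1M`) OVER THE WRAP OF 188 (`Exit/Cyc1C`), 0 sorry      (helper17; prefix `pvc9_`, `pvc9`, `Pvc9`)

`Pvc1C2` (115)  ⟸  **`pvc9_c2`** (here, PROVED)  ⟸  `pvcy1c_c2` (188, PROVED)  ⟸  [MEAS] (PROVED HERE) + [CELL] + [DET].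
* sec. 1  THE WINDOWS ARE BOREL (`pvc9_wno_meas _wne_ _wnr_`) from `PvieEng.Wf` + `kit.WF`                                                                                PROVED
* sec. 2  **`pvc9_meas`** : `𝔓.WfB → PvieEng.Wf → kit.WF → 0 < ε → Pvcy1cMeas 𝔓 𝔈 m ε z t` (leaf [MEAS] of 188) := the windows + `pvml_SAo_null _SAe_ _SAr_` of 289 (`Tr/MeasL`)      PROVED
* sec. 3  **`Pvc9In`** = [CELL] + [DET] with ONE box, ONE diameter for all the meshes;   **`pvc9_c2`** : the body of `Pvc1C2` for ANY family of bases                          PROVED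
USE (188, `Exit/Cyc1CM` = the wiring of record):   `exit_pvc1_c2 := pvc9_c2 (pvxo_wf N hN c).toWfB hE ⟨Bd, a₀, .., [CELL], [DET]⟩`   (`B ε := pvConf '' (pvxU .. ∩ 𝔊.all m ε ..)` = `pvc1B` by `rfl`).
-/

set_option autoImplicit false

namespace Claimed.Agent.R289

open MeasureTheory Filter Topology Set Claims.C0465
open scoped ENNReal

/-! ## 1. the windows are Borel -/

section win

variable {τ : Type} {c : ℝ} {𝔓 : PvxPar τ c} {𝔈 : PvieEng τ}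

theorem pvc9_fat_meas (δ : ℝ) (Z : Set (ℤ × ℤ)) : MeasurableSet (pvilFat δ Z) :=
  MeasurableSet.biUnion (to_countable _) fun _ _ => pvt_sq_closed.measurableSet

theorem pvc9_sq_meas (z : ℂ) (r : ℝ) : MeasurableSet (pvwSq z r) := by
  have h1 : Measurable fun w : ℂ => |(w - z).re| := (Complex.measurable_re.comp (measurable_id.sub_const z)).abs
  have h2 : Measurable fun w : ℂ => |(w - z).im| := (Complex.measurable_im.comp (measurable_id.sub_const z)).abs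
  exact (measurableSet_le h1 measurable_const).inter (measurableSet_le h2 measurable_const)

theorem pvc9_wz_meas (𝔓 : PvxPar τ c) (m : ℕ) (z : ℂ) (t : τ) (Z : Set (ℤ × ℤ)) : MeasurableSet (pvilWz 𝔓 m z t Z) := (pvc9_fat_meas _ _).inter (pvc9_sq_meas _ _)

theorem pvc9_dout_ne (𝔓 : PvxPar τ c) (m : ℕ) (t : τ) : (𝔓.Γ m).dout t ≠ 0 := by
  intro h0
  have h := (𝔓.Γ m).dout1 t
  rw [h0, norm_zero] at h
  exact zero_ne_one h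

theorem pvc9_din0_ne (𝔓 : PvxPar τ c) (m : ℕ) (t : τ) : (𝔓.Γ m).din0 ≠ 0 := by
  intro h0
  have h : ‖pvtDir ((𝔓.Γ m).dout t) ((𝔓.Γ m).l1 t)‖ = 1 := by rw [pvt_norm_dir, (𝔓.Γ m).dout1 t]
  rw [(𝔓.Γ m).l1_dir t, h0, norm_zero] at h
  exact zero_ne_one h

variable {m0 : ℕ} {Cth : ℝ} {r κs : ℕ → ℝ} (H : PvieEng.Wf 𝔓 𝔈 m0 Cth r κs) {m : ℕ} {ε : ℝ} (hk : (𝔈.kit m ε).WF)

include H hk

theorem pvc9_wno_meas (z : ℂ) (t : τ) (Z : Set (ℤ × ℤ)) : MeasurableSet (pvilWno 𝔓 𝔈 m ε z t Z) :=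
  (((pvc9_wz_meas 𝔓 m z t Z).union (pvjh_sh_meas z (H.m_oM m t))).union (pvjh_sh_meas z (H.m_oK m t))).union (pvjh_sim_meas _ (pvc9_dout_ne 𝔓 m t) hk.mO)

omit hk in
theorem pvc9_wne_meas (z : ℂ) (t : τ) (Z : Set (ℤ × ℤ)) : MeasurableSet (pvilWne 𝔓 𝔈 m z t Z) :=
  (((pvc9_wz_meas 𝔓 m z t Z).union (pvjh_sh_meas z (H.m_eM m t))).union (pvjh_sh_meas z (H.m_eK m t))).union (pvjh_sh_meas _ (H.m_rO m))

theorem pvc9_wnr_meas (t : τ) : MeasurableSet (pvilWnr 𝔓 𝔈 m ε) :=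
  ((H.m_rK m).union (H.m_rO m)).union (pvjh_sim_meas _ (pvc9_din0_ne 𝔓 m t) hk.mO)

/-! ## 2. [MEAS] -/

/-- **[MEAS] OF THE `Σ₁` CYCLE** (leaf of 188, `Exit/Cyc1C`): every level, mesh, centre, type -/
theorem pvc9_meas (h𝔓 : 𝔓.WfB) (hε : 0 < ε) (z : ℂ) (t : τ) : Pvcy1cMeas 𝔓 𝔈 m ε z t where
  wo := pvc9_wno_meas H hk z t
  we := pvc9_wne_meas H z t
  wr := pvc9_wnr_meas H hk t
  no := fun Z _ => pvml_SAo_null h𝔓 (pvml_engB H) hε pvml_wm_Q m z t Z (pvc9_wno_meas H hk z t Z)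
  ne := fun Z _ => pvml_SAe_null h𝔓 (pvml_engB H) hε pvml_wm_Q m z t Z (pvc9_wne_meas H z t Z)
  nr := pvml_SAr_null 𝔓 (pvml_engB H) hε pvml_wm_Q m (pvc9_wnr_meas H hk t)

end win

/-! ## 3. the contract [CELL] + [DET], the wiring -/

section wire

variable {τ : Type} {c : ℝ} (𝔓 : PvxPar τ c) (𝔈 : PvieEng τ)

/-- **[CELL] + [DET] OF ONE CANDIDATE**, bases `B ε`: ONE box `Bd`, ONE diameter `a₀` for all the meshes;   at every small mesh: plain links `Ac`, plain masses `Xc` of the cells, an a.s. set `Nice` (all free), the two leaves of 188 -/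
def Pvc9In (B : ℝ → Set (Conf PvPt)) (m : ℕ) (z : ℂ) (t : τ) : Prop :=
  ∃ (Bd : Set ℂ) (a₀ : ℝ), Bornology.IsBounded Bd ∧ MeasurableSet Bd ∧ 0 < a₀ ∧ ∀ᶠ ε in 𝓝[>] (0 : ℝ), ∃ (Ac : ℕ → Set (Conf PvPt)) (Xc : ℕ → Conf PvPt → ℂ) (Nice : Set (Conf PvPt)),
    (∀ᵐ η ∂pvP ε, η ∈ Nice) ∧ Pvcy1cCell 𝔓 𝔈 m ε z t Ac Xc ∧ Pvcy1cDet 𝔓 𝔈 m ε z t Ac Xc Nice (B ε) Bd a₀

theorem pvc9_eqns_cite : True := by
  have := @Pvc9In.eq_1
  trivial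

variable {𝔓 𝔈}

/-- the cell kit is well formed at every small mesh (field (NUM) of 258) -/
theorem pvc9_kit (hE : PvnaWf 𝔓 𝔈) (m : ℕ) : ∀ᶠ ε in 𝓝[>] (0 : ℝ), (𝔈.kit m ε).WF := by
  obtain ⟨U, hU⟩ := hE.num
  filter_upwards [(U.fam (pvlm_Del_pos c)).ok m] with ε H
  rw [hU.kit]
  exact H.toQ.wf

/-- **THE BODY OF `Pvc1C2`** (115, `Exit/Cyc1M`) for any family of bases -/
theorem pvc9_c2 (h𝔓 : 𝔓.WfB) (hE : PvnaWf 𝔓 𝔈) {B : ℝ → Set (Conf PvPt)} {m : ℕ} {z : ℂ} {t : τ} (h : Pvc9In 𝔓 𝔈 B m z t) :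
    ∃ (Bd : Set ℂ) (a₀ : ℝ), Bornology.IsBounded Bd ∧ MeasurableSet Bd ∧ 0 < a₀ ∧ ∀ᶠ ε in 𝓝[>] (0 : ℝ), ∀ᵐ η ∂pvP ε, ∀ ω ∈ B ε,
      (∃ p, η = pvcy1R 𝔓 𝔈 m ε z t ω p) → η ∈ pvjgEvL 𝔓 𝔈 m ε z t ω → ‖pvilYcyc 𝔓 𝔈 m ε z t ω η‖ₑ ^ 2 ≤ pvclSum η Bd a₀ := by
  obtain ⟨Bd, a₀, bB, mB, ha, h1⟩ := h
  obtain ⟨Cth, r, κs, H⟩ := hE.wf
  refine ⟨Bd, a₀, bB, mB, ha, ?_⟩
  filter_upwards [h1, pvc9_kit hE m, self_mem_nhdsWithin] with ε ⟨Ac, Xc, Nice, hN, hc, hd⟩ hk hε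
  exact pvcy1c_c2 (pvc9_meas H hk h𝔓 hε z t) hN hc hd

end wire

end Claimed.Agent.R289
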