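-- KEEP
import Claimed.Agent.R289.Exit.GeoWP
import Claimed.Agent.R289.Exit.GeoKitD
import Claimed.Agent.R289.Tr.SideOpen
import Claimed.Agent.R289.Tr.ModP

/-!
# Row 289 (S0537), THE WALL, ROAD P, Exit/DetEndP : H5 = `PvvwDet` / `PvvwLd.Ok` OF 270, THE PARTS WHICH DO NOT DEPEND ON THE LINK      (helper275, post P19 of 273; prefix `pvh5_`, `pvh5`, `Pvh5`)

The five links use two kinds of ends (KIT: doors and reference plug; BIG: the candidate), two sides each.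
* sec. 1  `Pvh5End e ρ Et p l` = WHAT ONE END PAYS TO H5: `l` = the windows (with their meshes) which the end brings to the list, `p ∈ l` = the window of its rooms.
* sec. 2  **THE CONSTRUCTOR** `pvh5_det` : two end parts + `5 ρ < δ` + the hull `P` (finite, connected complement, contains `N¹ (B ∪ W)` and the cells of the two collars) + THE CLAUSE ON THE CELLS OF THE HULL
          (`N¹ {c} ⊆ T` off the two state regions, or deep in a window of an end) `⟹ PvvwDet` at `ms := l ++ l' ++ [(ρ, Et)]`;   **`pvh5_ld`** `⟹ PvvwLd.Ok`.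
* sec. 3  THE KIT END at any placement `(z, a)`: `p := (‖a‖ * (1 / 640), z + a E^σ)`, `l := [p]`;   the collar of the rooms in an explicit rectangle.
* sec. 4  THE BIG END: `p := (μ h, E^±)`, `l := [p, (2 μ h + ρ, O ∪ Et)]` (THE SEAM of 272 at the rim of the state disc);   at the model `𝔤.ty h z s`.
-/

set_option autoImplicit false
set_option linter.unusedSectionVars false
set_option linter.unusedVariables false

namespace Claimed.Agent.R289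

open MeasureTheory Set Metric Filter Topology Claims.C0465 Claimed.Agent.R291
open scoped ENNReal

/-! ## 1. what one end pays -/

/-- **THE PART OF ONE END IN H5**: `ρ Et` = mesh and window of the corridor, `l` = the windows which the end brings to the list, `p ∈ l` = the window of its rooms -/
structure Pvh5End (e : PvnkEnd) (ρ : ℝ) (Et : Set ℂ) (p : ℝ × Set ℂ) (l : List (ℝ × Set ℂ)) : Prop where
  mem : p ∈ l
  pos : ∀ q ∈ l, 0 < q.1
  meas : ∀ q ∈ l, MeasurableSet q.2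
  sub : ∀ q ∈ l, q.2 ⊆ e.O ∪ e.E ∪ Et
  /-- the rooms lie deep in the window of the end -/
  d : e.A₁ ∪ e.A₂ ⊆ pvtrCore (5 * p.1) p.2
  /-- the meshes follow from the side event and the guard of the corridor -/
  mesh : ∀ η : Conf PvPt, η ∈ e.L → PvtrMesh ρ Et (cfSites η) → ∀ q ∈ l, PvtrMesh q.1 q.2 (cfSites η)

section tools

variable {A E : Set ℂ} {a r s : ℝ}

/-- a closed thickening of a set which lies deep in a window, WITH A MARGIN (W2 of 270) -/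
theorem pvh5_cth_core (ha : 0 ≤ a) (hs : a + r < s) (h : A ⊆ pvtrCore s E) : cthickening a A ⊆ pvtrCore r E := by
  intro x hx u hu
  have hx' : x ∈ thickening (s - r) A := cthickening_subset_thickening' (by linarith) (by linarith) A hx
  obtain ⟨y, hy, hxy⟩ := mem_thickening_iff.1 hx'
  refine h hy ?_
  rw [mem_closedBall] at hu ⊢
  have := dist_triangle u x y
  linarith

/-- a ball in a ball -/
theorem pvh5_ball_core {z : ℂ} {R : ℝ} (h : r + s ≤ R) : closedBall z r ⊆ pvtrCore s (closedBall z R) := by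
  intro x hx u hu
  rw [mem_closedBall] at hx hu ⊢
  have := dist_triangle u x z
  linarith

/-- a similarity carries cores to cores -/
theorem pvh5_at_core {z a : ℂ} (ha : a ≠ 0) : pvkdAt z a (pvtrCore r E) ⊆ pvtrCore (‖a‖ * r) (pvkdAt z a E) := by
  rintro _ ⟨u, hu, rfl⟩ x hx
  rw [pvkx_mem_at ha]
  refine hu ?_
  rw [mem_closedBall, dist_eq_norm] at hx ⊢
  have e1 : (x - z) / a - u = (x - pvthSim z a u) / a := by
    unfold pvthSim
    field_simp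
    ring
  rw [e1, norm_div, div_le_iff₀ (norm_pos_iff.2 ha), mul_comm]
  exact hx

/-- a similarity carries closed thickenings into closed thickenings -/
theorem pvh5_at_cth {z a : ℂ} (ha : a ≠ 0) (hr : 0 ≤ r) : cthickening (‖a‖ * r) (pvkdAt z a A) ⊆ pvkdAt z a (cthickening r A) := by
  intro x hx
  rw [pvkx_mem_at ha]
  have hn := norm_pos_iff.2 ha
  rw [cthickening_eq_iInter_thickening hr, mem_iInter₂]
  intro ε hε
  have hx' : x ∈ thickening (‖a‖ * ε) (pvkdAt z a A) :=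
    cthickening_subset_thickening' (mul_pos hn (lt_of_le_of_lt hr hε)) (mul_lt_mul_of_pos_left hε hn) _ hx
  obtain ⟨_, ⟨u, hu, rfl⟩, hxy⟩ := mem_thickening_iff.1 hx'
  refine mem_thickening_iff.2 ⟨u, hu, ?_⟩
  rw [dist_eq_norm] at hxy ⊢
  have e1 : (x - z) / a - u = (x - pvthSim z a u) / a := by
    unfold pvthSim
    field_simp
    ring
  rw [e1, norm_div, div_lt_iff₀ hn, mul_comm]
  exact hxy

/-- the closed thickening of a rectangle -/
theorem pvh5_cth_rect {x0 x1 y0 y1 : ℝ} (hr : 0 ≤ r) : cthickening r (Claimed.Agent.R289.rswRect x0 x1 y0 y1) ⊆ Claimed.Agent.R289.rswRect (x0 - r) (x1 + r) (y0 - r) (y1 + r) := by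
  intro x hx
  rw [cthickening_eq_iInter_thickening hr, mem_iInter₂] at hx
  have key : ∀ ε : ℝ, 0 < ε → x0 - r - ε ≤ x.re ∧ x.re ≤ x1 + r + ε ∧ y0 - r - ε ≤ x.im ∧ x.im ≤ y1 + r + ε := by
    intro ε hε
    obtain ⟨y, ⟨a1, a2, a3, a4⟩, hxy⟩ := mem_thickening_iff.1 (hx (r + ε) (by show r < r + ε; linarith))
    obtain ⟨b1, b2, b3, b4⟩ := pvkgg_ball_box (mem_closedBall.2 hxy.le)
    exact ⟨by linarith, by linarith, by linarith, by linarith⟩
  refine ⟨?_, ?_, ?_, ?_⟩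
  · exact le_of_forall_pos_le_add fun ε hε => by linarith [(key ε hε).1]
  · exact le_of_forall_pos_le_add fun ε hε => by linarith [(key ε hε).2.1]
  · exact le_of_forall_pos_le_add fun ε hε => by linarith [(key ε hε).2.2.1]
  · exact le_of_forall_pos_le_add fun ε hε => by linarith [(key ε hε).2.2.2]

end tools

/-! ## 2. the constructor -/

section ctor

variable {e e' : PvnkEnd} {δ ρ : ℝ} {o : ℤ × ℤ} {N : ℕ} {B W Bk Wh P T : Set (ℤ × ℤ)} {Z Z' V V' : Set ℂ} {p p' : ℝ × Set ℂ} {l l' : List (ℝ × Set ℂ)}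

/-- a block of cells of the window, off the two state regions, lies in the window of the corridor -/
theorem pvh5_sub_Et {S : Set (ℤ × ℤ)} {Q : Set ℂ} (hT : S ⊆ T) (hQ : Disjoint (pvtU δ S) Q) : pvtU δ S ⊆ pvtU δ T \ Q :=
  fun x hx => ⟨pvt_U_mono hT hx, disjoint_left.1 hQ hx⟩

/-- **a block of cells in the window of THE SEAM** `O ∪ Et`: every cell belongs to `T` or lies in `O`, the block is off the other state region -/
theorem pvh5_sub_seam {S : Set (ℤ × ℤ)} {O O' : Set ℂ} (hT : ∀ a ∈ S, a ∈ T ∨ pvtSq δ a ⊆ O) (hO' : Disjoint (pvtU δ S) O') : pvtU δ S ⊆ O ∪ (pvtU δ T \ (O ∪ O')) := by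
  intro x hx
  by_cases hO : x ∈ O
  · exact Or.inl hO
  · obtain ⟨a, ha, hxa⟩ := pvn2_mem_U.1 hx
    rcases hT a ha with h | h
    · exact Or.inr ⟨pvn2_mem_U.2 ⟨a, h, hxa⟩, fun h' => h'.elim hO (disjoint_left.1 hO' hx)⟩
    · exact absurd (h hxa) hO

/-- the same at the second end -/
theorem pvh5_sub_seam' {S : Set (ℤ × ℤ)} {O O' : Set ℂ} (hT : ∀ a ∈ S, a ∈ T ∨ pvtSq δ a ⊆ O') (hO : Disjoint (pvtU δ S) O) : pvtU δ S ⊆ O' ∪ (pvtU δ T \ (O ∪ O')) := by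
  rw [union_comm O O']
  exact pvh5_sub_seam hT hO

/-- **THE CONSTRUCTOR OF H5**: `Et := pvtU δ T \ (O ∪ O')`, `ms := l ++ l' ++ [(ρ, Et)]` -/
theorem pvh5_det {Et : Set ℂ} (G : PvlktPoly e e' δ o N B W Bk Wh Et)
    (E1 : Pvh5End e ρ (pvtU δ T \ (e.O ∪ e'.O)) p l) (E2 : Pvh5End e' ρ (pvtU δ T \ (e.O ∪ e'.O)) p' l')
    (hρ : 0 < ρ) (h5 : 5 * ρ < δ) (fP : P.Finite) (cP : TscConn pvtG8 Pᶜ) (fT : T.Finite) (far : Disjoint Z Z')
    (h : pvtCells δ (cthickening (3 * p.1) (e.A₁ ∪ e.A₂)) ⊆ P) (h' : pvtCells δ (cthickening (3 * p'.1) (e'.A₁ ∪ e'.A₂)) ⊆ P)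
    (lP : pvtwN 1 (B ∪ W) ⊆ P) (lT : pvtwN 1 (B ∪ W) ⊆ T)
    (k : ∀ c ∈ P, (pvtwN 1 {c} ⊆ T ∧ Disjoint (pvtU δ (pvtwN 1 {c})) (e.O ∪ e'.O)) ∨ ∃ q ∈ l ++ l', ∃ k : ℕ, 5 * q.1 < k * δ ∧ pvtU δ (pvtwN k {c}) ⊆ q.2) :
    PvvwDet e e' δ ρ B W P T Z Z' (l ++ l' ++ [(ρ, pvtU δ T \ (e.O ∪ e'.O))]) p p' where
  ρ0 := hρ
  fP := fP
  cP := cP
  fT := fT
  far := far
  mp := List.mem_append_left _ (List.mem_append_left _ E1.mem)
  mp' := List.mem_append_left _ (List.mem_append_right _ E2.mem)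
  d := E1.d
  d' := E2.d
  h := h
  h' := h'
  w := by
    intro c hc
    have hN : pvtwN 1 {c} ⊆ pvtwN 1 (B ∪ W) := pvtw_N_mono le_rfl (singleton_subset_iff.2 hc)
    have hoff : Disjoint (pvtU δ (pvtwN 1 (B ∪ W))) (e.O ∪ e'.O) := by
      rw [pvtw_N_union, pvt_U_union]
      exact G.offB.union_left G.offW
    refine ⟨(ρ, pvtU δ T \ (e.O ∪ e'.O)), List.mem_append_right _ (List.mem_singleton.2 rfl), 1, 1, ?_, pvh5_sub_Et (hN.trans lT) (hoff.mono_left (pvt_U_mono hN)), ?_, hN.trans lP⟩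
    · push_cast
      linarith
    · push_cast
      show 3 * ρ < 1 * δ
      linarith
  k := by
    intro c hc
    rcases k c hc with ⟨h1, h2⟩ | ⟨q, hq, k, h1, h2⟩
    · refine ⟨(ρ, pvtU δ T \ (e.O ∪ e'.O)), List.mem_append_right _ (List.mem_singleton.2 rfl), 1, ?_, pvh5_sub_Et h1 h2⟩
      push_cast
      linarith
    · exact ⟨q, List.mem_append_left _ hq, k, h1, h2⟩

/-- **the meshes of the list** -/
theorem pvh5_ms {Et : Set ℂ} (E1 : Pvh5End e ρ Et p l) (E2 : Pvh5End e' ρ Et p' l') : Pvn2Ms e e' ρ Et (l ++ l' ++ [(ρ, Et)]) := by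
  intro η h1 h2 h3 q hq
  rcases List.mem_append.1 hq with hq | hq
  · rcases List.mem_append.1 hq with hq | hq
    · exact E1.mesh η h1 h3 q hq
    · exact E2.mesh η h2 h3 q hq
  · rw [List.mem_singleton.1 hq]
    exact h3

/-- the windows of the list -/
theorem pvh5_ms0 {Et : Set ℂ} (E1 : Pvh5End e ρ Et p l) (E2 : Pvh5End e' ρ Et p' l') (hρ : 0 < ρ) (mEt : MeasurableSet Et) :
    ∀ q ∈ l ++ l' ++ [(ρ, Et)], 0 < q.1 ∧ MeasurableSet q.2 ∧ q.2 ⊆ e.O ∪ e'.O ∪ e.E ∪ e'.E ∪ Et := by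
  intro q hq
  rcases List.mem_append.1 hq with hq | hq
  · rcases List.mem_append.1 hq with hq | hq
    · refine ⟨E1.pos q hq, E1.meas q hq, (E1.sub q hq).trans ?_⟩
      rintro x ((hx | hx) | hx)
      · exact Or.inl (Or.inl (Or.inl (Or.inl hx)))
      · exact Or.inl (Or.inl (Or.inr hx))
      · exact Or.inr hx
    · refine ⟨E2.pos q hq, E2.meas q hq, (E2.sub q hq).trans ?_⟩
      rintro x ((hx | hx) | hx)
      · exact Or.inl (Or.inl (Or.inl (Or.inr hx)))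
      · exact Or.inl (Or.inr hx)
      · exact Or.inr hx
  · rw [List.mem_singleton.1 hq]
    exact ⟨hρ, mEt, subset_union_right⟩

/-- **THE CONTRACT OF ONE LINK** (270) from the record of 164, the two end parts, the hull -/
theorem pvh5_ld {Et : Set ℂ} {nu : ℕ} (G : PvlktPoly e e' δ o N B W Bk Wh Et) (hnu : PvlktNu N nu) (mO : MeasurableSet e.O) (mO' : MeasurableSet e'.O)
    (E1 : Pvh5End e ρ (pvtU δ T \ (e.O ∪ e'.O)) p l) (E2 : Pvh5End e' ρ (pvtU δ T \ (e.O ∪ e'.O)) p' l')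
    (hρ : 0 < ρ) (h5 : 5 * ρ < δ) (fP : P.Finite) (cP : TscConn pvtG8 Pᶜ) (fT : T.Finite) (far : Disjoint Z Z')
    (h : pvtCells δ (cthickening (3 * p.1) (e.A₁ ∪ e.A₂)) ⊆ P) (h' : pvtCells δ (cthickening (3 * p'.1) (e'.A₁ ∪ e'.A₂)) ⊆ P)
    (lP : pvtwN 1 (B ∪ W) ⊆ P) (lT : pvtwN 1 (B ∪ W) ⊆ T)
    (k : ∀ c ∈ P, (pvtwN 1 {c} ⊆ T ∧ Disjoint (pvtU δ (pvtwN 1 {c})) (e.O ∪ e'.O)) ∨ ∃ q ∈ l ++ l', ∃ k : ℕ, 5 * q.1 < k * δ ∧ pvtU δ (pvtwN k {c}) ⊆ q.2)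
    (vs : V ⊆ pvtU δ Pᶜ) (vt : V' ⊆ pvtU δ Pᶜ) (zc : ∀ x ∈ Z ∪ Z', ∃ q ∈ l ++ l', x ∈ pvtrCore (3 * q.1) q.2) :
    PvvwLd.Ok ⟨pvvwD δ ρ B W Bk Wh P T (e.O ∪ e'.O), l ++ l' ++ [(ρ, pvtU δ T \ (e.O ∪ e'.O))], p, p'⟩ (pvvwD δ ρ B W Bk Wh P T (e.O ∪ e'.O)).walk e e' Z Z' V V' nu where
  walk := rfl
  ok := pvvw_ok_of_poly G (pvh5_det G E1 E2 hρ h5 fP cP fT far h h' lP lT k)
  mQ := mO.union mO'
  len := pvvw_len hnu G _
  mesh := pvh5_ms E1 E2
  vs := vs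
  vt := vt
  ms0 := pvh5_ms0 E1 E2 hρ ((pvn2_U_meas _ _).diff (mO.union mO'))
  zc := by
    intro x hx
    obtain ⟨q, hq, h1⟩ := zc x hx
    exact ⟨q, List.mem_append_left _ hq, h1⟩

end ctor

/-! ## 3. the kit end -/

section kit

/-- the rooms of the unit plug lie deep in the OPEN windows of 258 -/
theorem pvh5_Ln_core (σ β : Bool) : pvk2T.Ln σ β ⊆ pvtrCore (7 / 640) (pvk2Es σ) := by
  intro w hw u hu
  obtain ⟨p1, p2, p3, p4⟩ := pvkgg_ball_box hu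
  have hw' : w ∈ (pvhfT (1 / 40)).Ln σ β := hw
  cases σ <;> cases β <;> simp only [pvhfT, pvkdRect, Claimed.Agent.R289.rswRect, if_true, if_false, mem_union, mem_ofPred_eq, Bool.false_eq_true] at hw' <;>
    rcases hw' with ⟨a, b, c, d⟩ | ⟨a, b, c, d⟩ <;> exact Or.inr ⟨by linarith, by linarith, by linarith, by linarith⟩

/-- the rooms of the unit plug in ONE rectangle -/
theorem pvh5_Ln_rect (σ β : Bool) : pvk2T.Ln σ β ⊆ pvkdRect σ (1 / 80) (1 / 8) (-(3 / 80)) (3 / 80) := by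
  intro w hw
  have hw' : w ∈ (pvhfT (1 / 40)).Ln σ β := hw
  cases σ <;> cases β <;> simp only [pvhfT, pvkdRect, Claimed.Agent.R289.rswRect, if_true, if_false, mem_union, mem_ofPred_eq, Bool.false_eq_true] at hw' ⊢ <;>
    rcases hw' with ⟨a, b, c, d⟩ | ⟨a, b, c, d⟩ <;> exact ⟨by linarith, by linarith, by linarith, by linarith⟩

variable {ρ : ℝ} {Et : Set ℂ}

/-- **THE PART OF A KIT END** (door plug: `a = d δ_m`; reference plug: `a = su_m`), any placement -/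
theorem pvh5_kit (σ c : Bool) (z : ℂ) {a : ℂ} (ha : a ≠ 0) :
    Pvh5End (pvyeEnd (pvyeE0 pvkgG.toPvkdPlug pvk2T pvkgG.O₀ σ) c z a) ρ Et (‖a‖ * (1 / 640), pvkdAt z a (pvk2Es σ)) [(‖a‖ * (1 / 640), pvkdAt z a (pvk2Es σ))] where
  mem := List.mem_singleton.2 rfl
  pos := by
    intro q hq
    rw [List.mem_singleton.1 hq]
    exact mul_pos (norm_pos_iff.2 ha) (by norm_num)
  meas := by
    intro q hq
    rw [List.mem_singleton.1 hq]
    exact pvjo_at_meas ha (pvk2_Es_open σ).measurableSet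
  sub := by
    intro q hq
    rw [List.mem_singleton.1 hq]
    exact fun x hx => Or.inl (Or.inr hx)
  d := by
    have key : ∀ β, pvkdAt z a (cthickening pvkgG.ρ (pvk2T.Ln σ β)) ⊆ pvtrCore (5 * (‖a‖ * (1 / 640))) (pvkdAt z a (pvk2Es σ)) := by
      intro β
      have h1 : cthickening pvkgG.ρ (pvk2T.Ln σ β) ⊆ pvtrCore (5 / 640) (pvk2Es σ) := by
        rw [pvkgg_ρ]
        exact pvh5_cth_core (by norm_num) (by norm_num) (pvh5_Ln_core σ β)
      have e : 5 * (‖a‖ * (1 / 640)) = ‖a‖ * (5 / 640) := by ring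
      rw [e]
      exact (image_mono h1).trans (pvh5_at_core ha)
    exact union_subset (key true) (key false)
  mesh := by
    intro η hη _ q hq
    rw [List.mem_singleton.1 hq]
    have := pvyh_mesh_end pvkgG.toPvkdPlug pvk2T pvkgG.O₀ σ c z ha hη
    rw [pvkgg_ρ] at this
    exact this

/-- **the collar of the rooms of a kit end** lies in the placed rectangle `[1/160, 21/160] × [-7/160, 7/160]` (mirrored for `σ = false`) -/
theorem pvh5_kit_collar (σ c : Bool) (z : ℂ) {a : ℂ} (ha : a ≠ 0) :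
    cthickening (3 * (‖a‖ * (1 / 640))) ((pvyeEnd (pvyeE0 pvkgG.toPvkdPlug pvk2T pvkgG.O₀ σ) c z a).A₁ ∪ (pvyeEnd (pvyeE0 pvkgG.toPvkdPlug pvk2T pvkgG.O₀ σ) c z a).A₂) ⊆
      pvkdAt z a (pvkdRect σ (1 / 160) (21 / 160) (-(7 / 160)) (7 / 160)) := by
  have h1 : ∀ β, cthickening pvkgG.ρ (pvk2T.Ln σ β) ⊆ pvkdRect σ (1 / 80 - 1 / 640) (1 / 8 + 1 / 640) (-(3 / 80) - 1 / 640) (3 / 80 + 1 / 640) := by
    intro β
    rw [pvkgg_ρ]
    refine (cthickening_subset_of_subset _ (pvh5_Ln_rect σ β)).trans ?_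
    cases σ
    · refine (pvh5_cth_rect (by norm_num)).trans ?_
      rintro w ⟨a, b, c, d⟩
      exact ⟨by linarith, by linarith, by linarith, by linarith⟩
    · exact pvh5_cth_rect (by norm_num)
  have h2 : (pvyeEnd (pvyeE0 pvkgG.toPvkdPlug pvk2T pvkgG.O₀ σ) c z a).A₁ ∪ (pvyeEnd (pvyeE0 pvkgG.toPvkdPlug pvk2T pvkgG.O₀ σ) c z a).A₂ ⊆
      pvkdAt z a (pvkdRect σ (1 / 80 - 1 / 640) (1 / 8 + 1 / 640) (-(3 / 80) - 1 / 640) (3 / 80 + 1 / 640)) :=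
    union_subset (image_mono (h1 true)) (image_mono (h1 false))
  have e : 3 * (‖a‖ * (1 / 640)) = ‖a‖ * (3 / 640) := by ring
  rw [e]
  refine (cthickening_subset_of_subset _ h2).trans ((pvh5_at_cth ha (by norm_num)).trans (image_mono ?_))
  cases σ
  · refine (pvh5_cth_rect (by norm_num)).trans ?_
    rintro w ⟨a, b, c, d⟩
    exact ⟨by linarith, by linarith, by linarith, by linarith⟩
  · refine (pvh5_cth_rect (by norm_num)).trans ?_
    rintro w ⟨a, b, c, d⟩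
    exact ⟨by linarith, by linarith, by linarith, by linarith⟩

end kit

/-! ## 4. the big end -/

section big

variable {N : PvspNum} {t : PvspTy} {z : ℂ} {h ρ : ℝ} {Et : Set ℂ}

/-- the radius of the state disc -/
theorem pvh5_mu_le (hW : t.Wf N z h) : N.mu * h ≤ t.rO N * h := by
  have h1 := hW.rO
  have h2 := hW.mu0
  have h3 : (0 : ℝ) ≤ t.b N 1 := by
    have a0 := hW.a_pos; have b0 := hW.ab 0; have b1 := hW.ab 1; have n1 := hW.nest01
    show (0 : ℝ) ≤ N.b 1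
    linarith
  exact mul_le_mul_of_nonneg_right (by linarith) hW.h0.le

/-- the seam at the rim of the state disc, from the mesh of a window which contains the disc -/
theorem pvh5_seam (hW : t.Wf N z h) (hρ : 0 < ρ) {E : Set ℂ} (hE : pvspO N t z h ⊆ E) {Y : Set ℂ} (h1 : PvtrMesh (N.mu * h) E Y) (h2 : PvtrMesh ρ Et Y) :
    PvtrMesh (2 * (N.mu * h) + ρ) (pvspO N t z h ∪ Et) Y :=
  pvn2_seam (mul_pos hW.mu0 hW.h0).le (pvh5_mu_le hW) hρ.le (pvn2_mesh_mono h1 hE) h2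

/-- the star zone of `S₂` lies deep in the state disc -/
theorem pvh5_S2_core (hW : t.Wf N z h) (r7 : t.b N 1 + 1 + 7 * N.mu ≤ t.rO N) : closedBall z ((t.b N 1 + 1) * h) ⊆ pvtrCore (7 * (N.mu * h)) (pvspO N t z h) := by
  refine pvh5_ball_core ?_
  have := mul_le_mul_of_nonneg_right r7 hW.h0.le
  nlinarith

/-- **THE PART OF THE EXIT END OF THE BIG PLUG** (source of `o`, `b`) -/
theorem pvh5_big_p (hW : t.Wf N z h) (hρ : 0 < ρ) (mEt : MeasurableSet Et) (c7 : t.Np ∪ t.Mp ⊆ pvtrCore (7 * (N.mu * h)) t.Ep) (r7 : t.b N 1 + 1 + 7 * N.mu ≤ t.rO N) :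
    Pvh5End (pvfvEndP N t z h) ρ Et (N.mu * h, t.Ep) [(N.mu * h, t.Ep), (2 * (N.mu * h) + ρ, pvspO N t z h ∪ Et)] where
  mem := List.mem_cons_self
  pos := by
    have := mul_pos hW.mu0 hW.h0
    intro q hq
    rcases List.mem_cons.1 hq with rfl | hq
    · exact this
    · rw [List.mem_singleton.1 hq]
      show 0 < 2 * (N.mu * h) + ρ
      linarith
  meas := by
    intro q hq
    rcases List.mem_cons.1 hq with rfl | hq
    · exact hW.wEp.1
    · rw [List.mem_singleton.1 hq]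
      exact measurableSet_closedBall.union mEt
  sub := by
    intro q hq
    rcases List.mem_cons.1 hq with rfl | hq
    · exact fun x hx => Or.inl (Or.inr hx)
    · rw [List.mem_singleton.1 hq]
      rintro x (hx | hx)
      · exact Or.inl (Or.inl hx)
      · exact Or.inr hx
  d := by
    have hμ := mul_pos hW.mu0 hW.h0
    refine union_subset ?_ ?_
    · exact pvh5_cth_core hμ.le (by linarith) (subset_union_left.trans c7)
    · refine pvh5_cth_core hμ.le (by linarith) (s := 7 * (N.mu * h)) ?_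
      rw [pvsp_reg_Mp]
      exact union_subset (subset_union_right.trans c7) (inter_subset_right.trans ((pvh5_S2_core hW r7).trans (pvtr_core_mono hW.O_p)))
  mesh := by
    intro η hη h2 q hq
    have h1 : PvtrMesh (N.mu * h) t.Ep (cfSites η) := hη.1.2.1
    rcases List.mem_cons.1 hq with rfl | hq
    · exact h1
    · rw [List.mem_singleton.1 hq]
      exact pvh5_seam hW hρ hW.O_p h1 h2

/-- **THE PART OF THE ENTRANCE END OF THE BIG PLUG** (target of `i`, `e`) -/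
theorem pvh5_big_m (hW : t.Wf N z h) (hρ : 0 < ρ) (mEt : MeasurableSet Et) (c7 : t.Nm ∪ t.Mm ⊆ pvtrCore (7 * (N.mu * h)) t.Em) (r7 : t.b N 1 + 1 + 7 * N.mu ≤ t.rO N) :
    Pvh5End (pvfvEndM N t z h) ρ Et (N.mu * h, t.Em) [(N.mu * h, t.Em), (2 * (N.mu * h) + ρ, pvspO N t z h ∪ Et)] where
  mem := List.mem_cons_self
  pos := by
    have := mul_pos hW.mu0 hW.h0
    intro q hq
    rcases List.mem_cons.1 hq with rfl | hq
    · exact this
    · rw [List.mem_singleton.1 hq]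
      show 0 < 2 * (N.mu * h) + ρ
      linarith
  meas := by
    intro q hq
    rcases List.mem_cons.1 hq with rfl | hq
    · exact hW.wEm.1
    · rw [List.mem_singleton.1 hq]
      exact measurableSet_closedBall.union mEt
  sub := by
    intro q hq
    rcases List.mem_cons.1 hq with rfl | hq
    · exact fun x hx => Or.inl (Or.inr hx)
    · rw [List.mem_singleton.1 hq]
      rintro x (hx | hx)
      · exact Or.inl (Or.inl hx)
      · exact Or.inr hx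
  d := by
    have hμ := mul_pos hW.mu0 hW.h0
    refine union_subset ?_ ?_
    · exact pvh5_cth_core hμ.le (by linarith) (subset_union_left.trans c7)
    · refine pvh5_cth_core hμ.le (by linarith) (s := 7 * (N.mu * h)) ?_
      rw [pvsp_reg_Mm]
      exact union_subset (subset_union_right.trans c7) (inter_subset_right.trans ((pvh5_S2_core hW r7).trans (pvtr_core_mono hW.O_m)))
  mesh := by
    intro η hη h2 q hq
    have h1 : PvtrMesh (N.mu * h) t.Em (cfSites η) := hη.1.2.1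
    rcases List.mem_cons.1 hq with rfl | hq
    · exact h1
    · rw [List.mem_singleton.1 hq]
      exact pvh5_seam hW hρ hW.O_m h1 h2

/-- the collar of the rooms of the exit end -/
theorem pvh5_big_collar_p (hW : t.Wf N z h) : cthickening (3 * (N.mu * h)) ((pvfvEndP N t z h).A₁ ∪ (pvfvEndP N t z h).A₂) ⊆ cthickening (4 * (N.mu * h)) (t.Np ∪ t.reg N z h .Mp) := by
  have hμ := mul_pos hW.mu0 hW.h0
  have h1 : (pvfvEndP N t z h).A₁ ∪ (pvfvEndP N t z h).A₂ ⊆ cthickening (N.mu * h) (t.Np ∪ t.reg N z h .Mp) :=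
    union_subset (cthickening_subset_of_subset _ subset_union_left) (cthickening_subset_of_subset _ subset_union_right)
  refine (cthickening_subset_of_subset _ h1).trans ((cthickening_cthickening_subset (by linarith) hμ.le _).trans (le_of_eq ?_))
  congr 1
  ring

/-- the collar of the rooms of the entrance end -/
theorem pvh5_big_collar_m (hW : t.Wf N z h) : cthickening (3 * (N.mu * h)) ((pvfvEndM N t z h).A₁ ∪ (pvfvEndM N t z h).A₂) ⊆ cthickening (4 * (N.mu * h)) (t.Nm ∪ t.reg N z h .Mm) := by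
  have hμ := mul_pos hW.mu0 hW.h0
  have h1 : (pvfvEndM N t z h).A₁ ∪ (pvfvEndM N t z h).A₂ ⊆ cthickening (N.mu * h) (t.Nm ∪ t.reg N z h .Mm) :=
    union_subset (cthickening_subset_of_subset _ subset_union_left) (cthickening_subset_of_subset _ subset_union_right)
  refine (cthickening_subset_of_subset _ h1).trans ((cthickening_cthickening_subset (by linarith) hμ.le _).trans (le_of_eq ?_))
  congr 1
  ring

end big

/-! ### at the model -/

section model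

variable {𝔤 : PvmhNum} (H : 𝔤.OK) {h ρ : ℝ} {Et : Set ℂ} (z : ℂ) (s : PvmhT 𝔤)

include H

theorem pvh5_mod_r7 : (𝔤.ty h z s).b 𝔤.sp 1 + 1 + 7 * 𝔤.sp.mu ≤ (𝔤.ty h z s).rO 𝔤.sp := by
  show 𝔤.b 1 + 1 + 7 * 𝔤.mu ≤ 2 * 𝔤.b 1
  obtain ⟨h0, h1, h2, -⟩ := pvmh_basic H
  have := H.mu_eq
  linarith

theorem pvh5_mod_hr (hh : 0 < h) : 7 * (𝔤.mu * h) ≤ ((1 : ℕ) : ℝ) * (𝔤.dl * h) := by
  have h0 := H.dl0
  have := H.mu_eq
  have h1 : 7 * 𝔤.mu ≤ 𝔤.dl := by linarith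
  have := mul_le_mul_of_nonneg_right h1 hh.le
  push_cast
  nlinarith

theorem pvh5_mod_c7p (hh : 0 < h) : (𝔤.ty h z s).Np ∪ (𝔤.ty h z s).Mp ⊆ pvtrCore (7 * (𝔤.sp.mu * h)) (𝔤.ty h z s).Ep := by
  have hδ : 0 < 𝔤.dl * h := mul_pos H.dl0 hh
  have hr := pvh5_mod_hr H hh
  refine Set.union_subset ?_ ?_
  · exact (pvmg_core_of hδ hr (pvtw_N_mono le_rfl Set.subset_union_left)).trans pvmg_core_union_right
  · exact (pvmg_core_sub hδ hr (pvmhq_at_sub H hδ z _) (pvtw_N_mono le_rfl Set.subset_union_right)).trans pvmg_core_union_right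

theorem pvh5_mod_c7m (hh : 0 < h) : (𝔤.ty h z s).Nm ∪ (𝔤.ty h z s).Mm ⊆ pvtrCore (7 * (𝔤.sp.mu * h)) (𝔤.ty h z s).Em := by
  have hδ : 0 < 𝔤.dl * h := mul_pos H.dl0 hh
  have hr := pvh5_mod_hr H hh
  refine Set.union_subset ?_ ?_
  · exact (pvmg_core_of hδ hr (pvtw_N_mono le_rfl Set.subset_union_left)).trans pvmg_core_union_right
  · exact (pvmg_core_sub hδ hr (pvmhq_at_sub H hδ z _) (pvtw_N_mono le_rfl Set.subset_union_right)).trans pvmg_core_union_right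

/-- **THE EXIT END OF THE CANDIDATE `(z, s)` OF THE MODEL** -/
theorem pvh5_mod_p (hh : 0 < h) (hρ : 0 < ρ) (mEt : MeasurableSet Et) :
    Pvh5End (pvfvEndP 𝔤.sp (𝔤.ty h z s) z h) ρ Et (𝔤.sp.mu * h, (𝔤.ty h z s).Ep) [(𝔤.sp.mu * h, (𝔤.ty h z s).Ep), (2 * (𝔤.sp.mu * h) + ρ, pvspO 𝔤.sp (𝔤.ty h z s) z h ∪ Et)] :=
  pvh5_big_p (pvmh_wf H z s hh) hρ mEt (pvh5_mod_c7p H z s hh) (pvh5_mod_r7 H z s)

/-- **THE ENTRANCE END OF THE CANDIDATE `(z, s)` OF THE MODEL** -/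
theorem pvh5_mod_m (hh : 0 < h) (hρ : 0 < ρ) (mEt : MeasurableSet Et) :
    Pvh5End (pvfvEndM 𝔤.sp (𝔤.ty h z s) z h) ρ Et (𝔤.sp.mu * h, (𝔤.ty h z s).Em) [(𝔤.sp.mu * h, (𝔤.ty h z s).Em), (2 * (𝔤.sp.mu * h) + ρ, pvspO 𝔤.sp (𝔤.ty h z s) z h ∪ Et)] :=
  pvh5_big_m (pvmh_wf H z s hh) hρ mEt (pvh5_mod_c7m H z s hh) (pvh5_mod_r7 H z s)

end model

/-! ## 5. THE HULL:   `P := pvtHull X`,   `T := N^K P` -/

section hull

variable {e e' : PvnkEnd} {δ ρ : ℝ} {o : ℤ × ℤ} {n : ℕ} {B W Bk Wh X : Set (ℤ × ℤ)} {Z Z' V V' : Set ℂ} {p p' : ℝ × Set ℂ} {l l' : List (ℝ × Set ℂ)} {K : ℕ}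

/-- the complement of a hull is connected -/
theorem pvh5_hull_cP (fX : X.Finite) : TscConn pvtG8 (pvtHull X)ᶜ := by
  have e : (pvtHull X)ᶜ = pvtOut X := compl_compl _
  rw [e]
  exact pvt_conn_tri8 (pvt_out_conn fX)

/-- **THE CONTRACT OF ONE LINK AT THE HULL OF ANY FINITE SET `X`** which contains the blocks of the lanes and the cells of the two collars:   what is left = the cells of the hull NEXT TO A STATE REGION, `vs`, `vt` -/
theorem pvh5_ld_hull {Et : Set ℂ} {nu : ℕ} (G : PvlktPoly e e' δ o n B W Bk Wh Et) (hnu : PvlktNu n nu) (mO : MeasurableSet e.O) (mO' : MeasurableSet e'.O)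
    (E1 : Pvh5End e ρ (pvtU δ (pvtwN K (pvtHull X)) \ (e.O ∪ e'.O)) p l) (E2 : Pvh5End e' ρ (pvtU δ (pvtwN K (pvtHull X)) \ (e.O ∪ e'.O)) p' l')
    (hρ : 0 < ρ) (h5 : 5 * ρ < δ) (hK : 1 ≤ K) (fX : X.Finite) (far : Disjoint Z Z')
    (h : pvtCells δ (cthickening (3 * p.1) (e.A₁ ∪ e.A₂)) ⊆ X) (h' : pvtCells δ (cthickening (3 * p'.1) (e'.A₁ ∪ e'.A₂)) ⊆ X) (lX : pvtwN 1 (B ∪ W) ⊆ X)
    (k : ∀ c ∈ pvtHull X, ¬ Disjoint (pvtU δ (pvtwN 1 {c})) (e.O ∪ e'.O) → ∃ q ∈ l ++ l', ∃ k : ℕ, 5 * q.1 < k * δ ∧ pvtU δ (pvtwN k {c}) ⊆ q.2)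
    (vs : V ⊆ pvtU δ (pvtHull X)ᶜ) (vt : V' ⊆ pvtU δ (pvtHull X)ᶜ) (zc : ∀ x ∈ Z ∪ Z', ∃ q ∈ l ++ l', x ∈ pvtrCore (3 * q.1) q.2) :
    PvvwLd.Ok ⟨pvvwD δ ρ B W Bk Wh (pvtHull X) (pvtwN K (pvtHull X)) (e.O ∪ e'.O), l ++ l' ++ [(ρ, pvtU δ (pvtwN K (pvtHull X)) \ (e.O ∪ e'.O))], p, p'⟩
      (pvvwD δ ρ B W Bk Wh (pvtHull X) (pvtwN K (pvtHull X)) (e.O ∪ e'.O)).walk e e' Z Z' V V' nu := by
  refine pvh5_ld G hnu mO mO' E1 E2 hρ h5 (pvt_hull_finite fX) (pvh5_hull_cP fX) (pvtw_N_finite (pvt_hull_finite fX)) far (h.trans pvt_hull_sub) (h'.trans pvt_hull_sub)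
    (lX.trans pvt_hull_sub) ((lX.trans pvt_hull_sub).trans pvtw_N_sub) ?_ vs vt zc
  intro c hc
  by_cases hd : Disjoint (pvtU δ (pvtwN 1 {c})) (e.O ∪ e'.O)
  · exact Or.inl ⟨pvtw_N_mono hK (singleton_subset_iff.2 hc), hd⟩
  · exact Or.inr (k c hc hd)

end hull

section bk

variable {N : PvspNum} {t : PvspTy} {z z' d : ℂ} {h s δ ρ : ℝ} {σ c : Bool} {o : ℤ × ℤ} {n nu K k' : ℕ} {B W Bk Wh X : Set (ℤ × ℤ)} {V V' Et : Set ℂ}

theorem pvh5_ds_ne (hd : ‖d‖ = 1) (hs : 0 < s) : d * (s : ℂ) ≠ 0 := mul_ne_zero (by rintro rfl; simp at hd) (by exact_mod_cast hs.ne')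

theorem pvh5_ds_norm (hd : ‖d‖ = 1) (hs : 0 < s) : ‖d * (s : ℂ)‖ = s := by rw [norm_mul, hd, one_mul, Complex.norm_real, Real.norm_eq_abs, abs_of_pos hs]

/-- the part of a kit end at the scale `s`, direction `d` -/
theorem pvh5_kit_s (σ c : Bool) (z' : ℂ) (hd : ‖d‖ = 1) (hs : 0 < s) :
    Pvh5End (pvyeEnd (pvyeE0 pvkgG.toPvkdPlug pvk2T pvkgG.O₀ σ) c z' (d * s)) ρ Et (s * (1 / 640), pvkdAt z' (d * s) (pvk2Es σ)) [(s * (1 / 640), pvkdAt z' (d * s) (pvk2Es σ))] := by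
  have := pvh5_kit (ρ := ρ) (Et := Et) σ c z' (pvh5_ds_ne hd hs)
  rwa [pvh5_ds_norm hd hs] at this

theorem pvh5_kit_collar_s (σ c : Bool) (z' : ℂ) (hd : ‖d‖ = 1) (hs : 0 < s) :
    cthickening (3 * (s * (1 / 640))) ((pvyeEnd (pvyeE0 pvkgG.toPvkdPlug pvk2T pvkgG.O₀ σ) c z' (d * s)).A₁ ∪ (pvyeEnd (pvyeE0 pvkgG.toPvkdPlug pvk2T pvkgG.O₀ σ) c z' (d * s)).A₂) ⊆
      pvkdAt z' (d * s) (pvkdRect σ (1 / 160) (21 / 160) (-(7 / 160)) (7 / 160)) := by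
  have := pvh5_kit_collar σ c z' (pvh5_ds_ne hd hs)
  rwa [pvh5_ds_norm hd hs] at this

/-- a core lies in its set -/
theorem pvh5_core_sub {r : ℝ} (hr : 0 ≤ r) (E : Set ℂ) : pvtrCore r E ⊆ E := fun x hx => hx (mem_closedBall_self hr)

/-- **LINKS `o`, `b`: FROM THE EXIT END OF THE BIG PLUG TO A KIT PLUG** (door: `s = δ_m`; reference plug: `s = su_m`, `d = 1`), `P := pvtHull X`, `T := N^K P` -/
theorem pvh5_ld_bk (hW : t.Wf N z h) (c7 : t.Np ∪ t.Mp ⊆ pvtrCore (7 * (N.mu * h)) t.Ep) (r7 : t.b N 1 + 1 + 7 * N.mu ≤ t.rO N) (hd : ‖d‖ = 1) (hs : 0 < s)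
    (G : PvlktPoly (pvfvEndP N t z h) (pvyeEnd (pvyeE0 pvkgG.toPvkdPlug pvk2T pvkgG.O₀ σ) c z' (d * s)) δ o n B W Bk Wh Et) (hnu : PvlktNu n nu)
    (hρ : 0 < ρ) (h5 : 5 * ρ < δ) (hK : 5 * (2 * (N.mu * h) + ρ) < K * δ) (hk : 5 * (s * (1 / 640)) < k' * δ) (fX : X.Finite) (lX : pvtwN 1 (B ∪ W) ⊆ X)
    (hX : pvtCells δ (cthickening (4 * (N.mu * h)) (t.Np ∪ t.reg N z h .Mp)) ⊆ X)
    (hX' : pvtCells δ (pvkdAt z' (d * s) (pvkdRect σ (1 / 160) (21 / 160) (-(7 / 160)) (7 / 160))) ⊆ X)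
    (hfar : ∀ a ∈ pvtHull X, ¬ Disjoint (pvtU δ (pvtwN 1 {a})) (pvspO N t z h) → Disjoint (pvtU δ (pvtwN K {a})) (pvkdAt z' (d * s) pvkgO))
    (hkit : ∀ a ∈ pvtHull X, ¬ Disjoint (pvtU δ (pvtwN 1 {a})) (pvkdAt z' (d * s) pvkgO) → pvtU δ (pvtwN k' {a}) ⊆ pvkdAt z' (d * s) (pvk2Es σ))
    (vs : V ⊆ pvtU δ (pvtHull X)ᶜ) (vt : V' ⊆ pvtU δ (pvtHull X)ᶜ) :
    PvvwLd.Ok ⟨pvvwD δ ρ B W Bk Wh (pvtHull X) (pvtwN K (pvtHull X)) (pvspO N t z h ∪ pvkdAt z' (d * s) pvkgO),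
        [(N.mu * h, t.Ep), (2 * (N.mu * h) + ρ, pvspO N t z h ∪ (pvtU δ (pvtwN K (pvtHull X)) \ (pvspO N t z h ∪ pvkdAt z' (d * s) pvkgO)))] ++ [(s * (1 / 640), pvkdAt z' (d * s) (pvk2Es σ))] ++
          [(ρ, pvtU δ (pvtwN K (pvtHull X)) \ (pvspO N t z h ∪ pvkdAt z' (d * s) pvkgO))], (N.mu * h, t.Ep), (s * (1 / 640), pvkdAt z' (d * s) (pvk2Es σ))⟩
      (pvvwD δ ρ B W Bk Wh (pvtHull X) (pvtwN K (pvtHull X)) (pvspO N t z h ∪ pvkdAt z' (d * s) pvkgO)).walk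
      (pvfvEndP N t z h) (pvyeEnd (pvyeE0 pvkgG.toPvkdPlug pvk2T pvkgG.O₀ σ) c z' (d * s)) (closedBall z ((t.b N 1 + 1) * h)) (pvvwZk (pvkgG.toPvkdPlug.sc s) z' d) V V' nu := by
  have hμ := mul_pos hW.mu0 hW.h0
  have mO : MeasurableSet (pvspO N t z h) := measurableSet_closedBall
  have mO' : MeasurableSet (pvkdAt z' (d * s) pvkgO) := pvjo_at_meas (pvh5_ds_ne hd hs) (pvkgg_box_open _ _ _ _).measurableSet
  have mEt : MeasurableSet (pvtU δ (pvtwN K (pvtHull X)) \ (pvspO N t z h ∪ pvkdAt z' (d * s) pvkgO)) := (pvn2_U_meas _ _).diff (mO.union mO')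
  have hK1 : 1 ≤ K := by
    rcases Nat.eq_zero_or_pos K with rfl | h0
    · exfalso
      push_cast at hK
      linarith
    · exact h0
  have zZ := pvvw_zc_p hW
  have zZ' := pvvw_zc_kit hs z' hd (pvk2_O_sub σ)
  refine pvh5_ld_hull G hnu mO mO' (pvh5_big_p hW hρ mEt c7 r7) (pvh5_kit_s σ c z' hd hs) hρ h5 hK1 fX ?_ ?_ ?_ lX ?_ vs vt ?_
  · exact pvvw_far G.dj (zZ.trans (pvh5_core_sub (by positivity) _)) (zZ'.trans (pvh5_core_sub (by positivity) _))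
  · exact (pvt_cells_mono (pvh5_big_collar_p hW)).trans hX
  · exact (pvt_cells_mono (pvh5_kit_collar_s σ c z' hd hs)).trans hX'
  · intro a ha hn
    by_cases h1 : Disjoint (pvtU δ (pvtwN 1 {a})) (pvspO N t z h)
    · have h2 : ¬ Disjoint (pvtU δ (pvtwN 1 {a})) (pvkdAt z' (d * s) pvkgO) := fun h2 => hn (h1.union_right h2)
      exact ⟨_, List.mem_append_right _ (List.mem_singleton.2 rfl), k', hk, hkit a ha h2⟩
    · refine ⟨(2 * (N.mu * h) + ρ, _), List.mem_append_left _ (List.mem_cons_of_mem _ (List.mem_singleton.2 rfl)), K, hK, ?_⟩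
      exact pvh5_sub_seam (fun b hb => Or.inl (pvtw_N_mono le_rfl (singleton_subset_iff.2 ha) hb)) (hfar a ha h1)
  · rintro x (hx | hx)
    · exact ⟨_, List.mem_append_left _ List.mem_cons_self, zZ hx⟩
    · exact ⟨_, List.mem_append_right _ (List.mem_singleton.2 rfl), zZ' hx⟩

/-- **LINKS `i`, `e`: FROM A KIT PLUG TO THE ENTRANCE END OF THE BIG PLUG**, `P := pvtHull X`, `T := N^K P` -/
theorem pvh5_ld_kb (hW : t.Wf N z h) (c7 : t.Nm ∪ t.Mm ⊆ pvtrCore (7 * (N.mu * h)) t.Em) (r7 : t.b N 1 + 1 + 7 * N.mu ≤ t.rO N) (hd : ‖d‖ = 1) (hs : 0 < s)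
    (G : PvlktPoly (pvyeEnd (pvyeE0 pvkgG.toPvkdPlug pvk2T pvkgG.O₀ σ) c z' (d * s)) (pvfvEndM N t z h) δ o n B W Bk Wh Et) (hnu : PvlktNu n nu)
    (hρ : 0 < ρ) (h5 : 5 * ρ < δ) (hK : 5 * (2 * (N.mu * h) + ρ) < K * δ) (hk : 5 * (s * (1 / 640)) < k' * δ) (fX : X.Finite) (lX : pvtwN 1 (B ∪ W) ⊆ X)
    (hX : pvtCells δ (cthickening (4 * (N.mu * h)) (t.Nm ∪ t.reg N z h .Mm)) ⊆ X)
    (hX' : pvtCells δ (pvkdAt z' (d * s) (pvkdRect σ (1 / 160) (21 / 160) (-(7 / 160)) (7 / 160))) ⊆ X)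
    (hfar : ∀ a ∈ pvtHull X, ¬ Disjoint (pvtU δ (pvtwN 1 {a})) (pvspO N t z h) → Disjoint (pvtU δ (pvtwN K {a})) (pvkdAt z' (d * s) pvkgO))
    (hkit : ∀ a ∈ pvtHull X, ¬ Disjoint (pvtU δ (pvtwN 1 {a})) (pvkdAt z' (d * s) pvkgO) → pvtU δ (pvtwN k' {a}) ⊆ pvkdAt z' (d * s) (pvk2Es σ))
    (vs : V ⊆ pvtU δ (pvtHull X)ᶜ) (vt : V' ⊆ pvtU δ (pvtHull X)ᶜ) :
    PvvwLd.Ok ⟨pvvwD δ ρ B W Bk Wh (pvtHull X) (pvtwN K (pvtHull X)) (pvkdAt z' (d * s) pvkgO ∪ pvspO N t z h),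
        [(s * (1 / 640), pvkdAt z' (d * s) (pvk2Es σ))] ++ [(N.mu * h, t.Em), (2 * (N.mu * h) + ρ, pvspO N t z h ∪ (pvtU δ (pvtwN K (pvtHull X)) \ (pvkdAt z' (d * s) pvkgO ∪ pvspO N t z h)))] ++
          [(ρ, pvtU δ (pvtwN K (pvtHull X)) \ (pvkdAt z' (d * s) pvkgO ∪ pvspO N t z h))], (s * (1 / 640), pvkdAt z' (d * s) (pvk2Es σ)), (N.mu * h, t.Em)⟩
      (pvvwD δ ρ B W Bk Wh (pvtHull X) (pvtwN K (pvtHull X)) (pvkdAt z' (d * s) pvkgO ∪ pvspO N t z h)).walk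
      (pvyeEnd (pvyeE0 pvkgG.toPvkdPlug pvk2T pvkgG.O₀ σ) c z' (d * s)) (pvfvEndM N t z h) (pvvwZk (pvkgG.toPvkdPlug.sc s) z' d) (closedBall z ((t.b N 1 + 1) * h)) V V' nu := by
  have hμ := mul_pos hW.mu0 hW.h0
  have mO : MeasurableSet (pvspO N t z h) := measurableSet_closedBall
  have mO' : MeasurableSet (pvkdAt z' (d * s) pvkgO) := pvjo_at_meas (pvh5_ds_ne hd hs) (pvkgg_box_open _ _ _ _).measurableSet
  have mEt : MeasurableSet (pvtU δ (pvtwN K (pvtHull X)) \ (pvkdAt z' (d * s) pvkgO ∪ pvspO N t z h)) := (pvn2_U_meas _ _).diff (mO'.union mO)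
  have hK1 : 1 ≤ K := by
    rcases Nat.eq_zero_or_pos K with rfl | h0
    · exfalso
      push_cast at hK
      linarith
    · exact h0
  have zZ := pvvw_zc_m hW
  have zZ' := pvvw_zc_kit hs z' hd (pvk2_O_sub σ)
  refine pvh5_ld_hull G hnu mO' mO (pvh5_kit_s σ c z' hd hs) (pvh5_big_m hW hρ mEt c7 r7) hρ h5 hK1 fX ?_ ?_ ?_ lX ?_ vs vt ?_
  · exact pvvw_far G.dj (zZ'.trans (pvh5_core_sub (by positivity) _)) (zZ.trans (pvh5_core_sub (by positivity) _))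
  · exact (pvt_cells_mono (pvh5_kit_collar_s σ c z' hd hs)).trans hX'
  · exact (pvt_cells_mono (pvh5_big_collar_m hW)).trans hX
  · intro a ha hn
    by_cases h1 : Disjoint (pvtU δ (pvtwN 1 {a})) (pvspO N t z h)
    · have h2 : ¬ Disjoint (pvtU δ (pvtwN 1 {a})) (pvkdAt z' (d * s) pvkgO) := fun h2 => hn (h2.union_right h1)
      exact ⟨_, List.mem_append_left _ (List.mem_singleton.2 rfl), k', hk, hkit a ha h2⟩
    · refine ⟨(2 * (N.mu * h) + ρ, _), List.mem_append_right _ (List.mem_cons_of_mem _ (List.mem_singleton.2 rfl)), K, hK, ?_⟩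
      exact pvh5_sub_seam' (fun b hb => Or.inl (pvtw_N_mono le_rfl (singleton_subset_iff.2 ha) hb)) (hfar a ha h1)
  · rintro x (hx | hx)
    · exact ⟨_, List.mem_append_left _ (List.mem_singleton.2 rfl), zZ' hx⟩
    · exact ⟨_, List.mem_append_right _ List.mem_cons_self, zZ hx⟩

end bk

end Claimed.Agent.R289
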