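-- KEEP
import Claimed.Agent.R289.Exit.DetEndP
import Claimed.Agent.R289.Tr.GlueWM

/-!
# Row 289 (S0537), THE WALL, ROAD P, Exit/DetHullP : H5 WITH THE HULL AS DATA      (helper270; prefix `pvh6_`, `pvh6`, `Pvh6`)

WHY.   `cP` (connected complement) forces the room of (DET) to be a set of cells WITHOUT HOLES which contains the lanes and the collars of the rooms of the two ends, so it contains the hull of the tube.
A piece of a type of the menu is only `tscG`-connected (T1): the tube may carry rings, the cells of its holes are covered by no window of record.      CURE (data only):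
      `X` = any finite set of cells `⊇ N¹ (B ∪ W)`, the cells of the two collars;      **`P := pvtHull X`,   `T := pvtwN K P`**   (`K = 21` at the model: `5 (2 μ h + ρ) < 21 δ`).
Then the clause `k` of `PvvwDet` is generic; the link pays only OUT FACTS on `X`.
* sec. 1  hull tools: `pvh6_cP`, `pvh6_off` (`vs vt` from cells in `pvtOut X`), `pvh6_out_conn` (a connected set off `X` which meets the outside), `pvh6_hull_pre` (REFINEMENT: `X ⊆ φ⁻¹ A ⟹ pvtHull X ⊆ φ⁻¹ (pvtHull A)`), `pvh6_N_pre`.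
* sec. 2  the clause `k` at one cell: `pvh6_blk`, `pvh6_k_seam`, `pvh6_k_seam'`, `pvh6_apart`.
* sec. 3  data `pvh6D`, `pvh6Et`;   **THE CONSTRUCTOR** `pvh6_ld`;   `k1 k2` at a big end (`pvh6_k1_seam`, `pvh6_k2_seam`), at a kit end (`pvh6_k1_deep`, `pvh6_k2_deep`);   the region `pvh6_Kp`.
-/

set_option autoImplicit false
set_option linter.unusedSectionVars false
set_option linter.unusedVariables false

namespace Claimed.Agent.R289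

open MeasureTheory Set Metric Filter Topology Claims.C0465 Claimed.Agent.R291
open scoped ENNReal

/-! ## 1. hull tools -/

section hull

variable {X A S : Set (ℤ × ℤ)} {δ : ℝ} {V : Set ℂ}

/-- the complement of the hull is connected (clause `cP`) -/
theorem pvh6_cP (hX : X.Finite) : TscConn pvtG8 (pvtHull X)ᶜ := by
  rw [pvtHull, compl_compl]
  exact pvt_conn_tri8 (pvt_out_conn hX)

/-- clauses `vs`, `vt`: a set all of whose cells lie in the outside is covered by cells off the hull -/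
theorem pvh6_off (hδ : 0 < δ) (h : pvtCells δ V ⊆ pvtOut X) : V ⊆ pvtU δ (pvtHull X)ᶜ := by
  rw [pvtHull, compl_compl]
  exact (pvt_cells_cover hδ).trans (pvt_U_mono h)

/-- **a connected set of cells, off `X`, which meets the outside, lies in the outside** -/
theorem pvh6_out_conn (hS : TscConn tscG S) (hoff : Disjoint S X) {v : ℤ × ℤ} (hv : v ∈ S) (hout : v ∈ pvtOut X) : S ⊆ pvtOut X := by
  intro w hw
  exact pvt_out_R hout (tsc_R_mono (fun u hu hX => disjoint_left.1 hoff hu hX) (hS v hv w hw))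

/-- **REFINEMENT OF THE OUTSIDE** -/
theorem pvh6_out_pre (M : PvgwMap) (h : X ⊆ M.pre A) : M.pre (pvtOut A) ⊆ pvtOut X := by
  intro v hv B hB
  obtain ⟨t', ht', hR⟩ := hv (M.ap '' B) (hB.image _)
  obtain ⟨x, hx⟩ := M.f_surj t'.1
  obtain ⟨y, hy⟩ := M.g_surj t'.2
  have hw : M.ap (x, y) = t' := Prod.ext hx hy
  refine ⟨(x, y), fun hB' => ht' ⟨_, hB', hw⟩, ?_⟩
  have hv0 : M.ap v ∈ Aᶜ := pvt_out_sub hv
  have hsub : M.pre Aᶜ ⊆ Xᶜ := fun u hu hX => hu (h hX)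
  exact tsc_R_mono hsub (pvgw_pre_R M hv0 hR (x, y) hw)

/-- **REFINEMENT OF THE HULL**: the hull of a set of fine cells lies over the hull of the menu cells which carry it -/
theorem pvh6_hull_pre (M : PvgwMap) (h : X ⊆ M.pre A) : pvtHull X ⊆ M.pre (pvtHull A) := by
  intro v hv
  by_contra hA
  have h1 : M.ap v ∈ pvtOut A := by
    by_contra h'
    exact hA h'
  exact hv (pvh6_out_pre M h h1)

/-- the collar of a hull of fine cells lies over the collar of the hull of the menu cells -/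
theorem pvh6_N_hull_pre {κ : ℤ} (hκ : 0 < κ) (o : ℤ × ℤ) {K : ℕ} (hK : (K : ℤ) ≤ κ) (h : X ⊆ (pvgwDiv κ hκ o).pre A) :
    pvtwN K (pvtHull X) ⊆ (pvgwDiv κ hκ o).pre (pvtwN 1 (pvtHull A)) :=
  (pvtw_N_mono le_rfl (pvh6_hull_pre _ h)).trans (pvwg_N_pre1 hκ o hK _)

end hull

/-! ## 2. the clause `k` at one cell of the hull -/

section kk

variable {δ : ℝ} {T : Set (ℤ × ℤ)} {O O' : Set ℂ} {c : ℤ × ℤ} {K : ℕ} {P : Set (ℤ × ℤ)}

/-- the block of a cell of `P` lies in `N^K P` -/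
theorem pvh6_blk (hc : c ∈ P) {j : ℕ} (hj : j ≤ K) : pvtwN j {c} ⊆ pvtwN K P := pvtw_N_mono hj (singleton_subset_iff.2 hc)

/-- **THE SEAM at the first end**: the block `N^K {c}` of a cell of `P`, off the other state region, lies in `O ∪ Et` -/
theorem pvh6_k_seam (hc : c ∈ P) (hO' : Disjoint (pvtU δ (pvtwN K {c})) O') : pvtU δ (pvtwN K {c}) ⊆ O ∪ (pvtU δ (pvtwN K P) \ (O ∪ O')) :=
  pvh5_sub_seam (fun a ha => Or.inl (pvh6_blk hc le_rfl ha)) hO'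

/-- **THE SEAM at the second end** -/
theorem pvh6_k_seam' (hc : c ∈ P) (hO : Disjoint (pvtU δ (pvtwN K {c})) O) : pvtU δ (pvtwN K {c}) ⊆ O' ∪ (pvtU δ (pvtwN K P) \ (O ∪ O')) :=
  pvh5_sub_seam' (fun a ha => Or.inl (pvh6_blk hc le_rfl ha)) hO

/-- two sets at distance `> (K + 1) δ √2`-free form: if the block `N¹ {c}` meets `O` and `O`, `O'` are `r` apart with `(2 K + 4) δ ≤ r`, the block `N^K {c}` is off `O'` -/
theorem pvh6_apart (hδ : 0 < δ) {r : ℝ} (hr : (2 * (K : ℝ) + 6) * δ < r) (hOO : ∀ x ∈ O, ∀ y ∈ O', r ≤ ‖x - y‖) (h1 : ¬ Disjoint (pvtU δ (pvtwN 1 {c})) O) :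
    Disjoint (pvtU δ (pvtwN K {c})) O' := by
  rw [not_disjoint_iff] at h1
  obtain ⟨x, hx, hxO⟩ := h1
  rw [disjoint_left]
  intro y hy hyO
  obtain ⟨a, ha, hxa⟩ := pvn2_mem_U.1 hx
  obtain ⟨b, hb, hyb⟩ := pvn2_mem_U.1 hy
  have h0 : pvtCtr δ c ∈ pvtSq δ c := pvt_sq_ctr hδ.le
  obtain ⟨c1, hc1, a1, a2, a3, a4⟩ := ha
  obtain ⟨c2, hc2, b1, b2, b3, b4⟩ := hb
  rw [mem_singleton_iff] at hc1 hc2
  rw [hc1] at a1 a2 a3 a4
  rw [hc2] at b1 b2 b3 b4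
  have e1 : |x.re - y.re| ≤ ((K : ℝ) + 3) * δ := by
    obtain ⟨p1, p2, -, -⟩ := hxa
    obtain ⟨q1, q2, -, -⟩ := hyb
    have i1 : (a.1 : ℝ) ≤ c.1 + 1 := by exact_mod_cast a1
    have i2 : (c.1 : ℝ) ≤ a.1 + 1 := by exact_mod_cast a2
    have j1 : (b.1 : ℝ) ≤ c.1 + K := by exact_mod_cast b1
    have j2 : (c.1 : ℝ) ≤ b.1 + K := by exact_mod_cast b2
    rw [abs_le]
    constructor <;> nlinarith
  have e2 : |x.im - y.im| ≤ ((K : ℝ) + 3) * δ := by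
    obtain ⟨-, -, p1, p2⟩ := hxa
    obtain ⟨-, -, q1, q2⟩ := hyb
    have i1 : (a.2 : ℝ) ≤ c.2 + 1 := by exact_mod_cast a3
    have i2 : (c.2 : ℝ) ≤ a.2 + 1 := by exact_mod_cast a4
    have j1 : (b.2 : ℝ) ≤ c.2 + K := by exact_mod_cast b3
    have j2 : (c.2 : ℝ) ≤ b.2 + K := by exact_mod_cast b4
    rw [abs_le]
    constructor <;> nlinarith
  have e3 : ‖x - y‖ ≤ |(x - y).re| + |(x - y).im| := Complex.norm_le_abs_re_add_abs_im _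
  rw [Complex.sub_re, Complex.sub_im] at e3
  have := hOO x hxO y hyO
  linarith

end kk

/-! ## 3. the constructor -/

section ctor

variable {e e' : PvnkEnd} {δ ρ : ℝ} {o : ℤ × ℤ} {N : ℕ} {B W Bk Wh X : Set (ℤ × ℤ)} {Z Z' V V' : Set ℂ} {p p' : ℝ × Set ℂ} {l l' : List (ℝ × Set ℂ)} {K : ℕ}

/-- **THE CELL DATA WITH THE HULL** -/
def pvh6D (δ ρ : ℝ) (B W Bk Wh X : Set (ℤ × ℤ)) (K : ℕ) (Q : Set ℂ) : Pvn2Dat := pvvwD δ ρ B W Bk Wh (pvtHull X) (pvtwN K (pvtHull X)) Q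

/-- the window of the corridor -/
def pvh6Et (δ : ℝ) (X : Set (ℤ × ℤ)) (K : ℕ) (Q : Set ℂ) : Set ℂ := pvtU δ (pvtwN K (pvtHull X)) \ Q

theorem pvh6_eqns_cite : True := by
  have := @pvh6D.eq_1; have := @pvh6Et.eq_1
  trivial

theorem pvh6_D_Et (δ ρ : ℝ) (B W Bk Wh X : Set (ℤ × ℤ)) (K : ℕ) (Q : Set ℂ) : (pvh6D δ ρ B W Bk Wh X K Q).Et = pvh6Et δ X K Q := rfl

theorem pvh6_Et_meas (δ : ℝ) (X : Set (ℤ × ℤ)) (K : ℕ) {Q : Set ℂ} (hQ : MeasurableSet Q) : MeasurableSet (pvh6Et δ X K Q) := (pvn2_U_meas _ _).diff hQ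

/-- **THE CONTRACT OF ONE LINK AT THE HULL DATA**: the link pays `X ⊇` lanes and collars, the cells of the hull near the two state regions (`k1`, `k2`), the OUT facts `vs vt` -/
theorem pvh6_ld {Et : Set ℂ} {nu : ℕ} (G : PvlktPoly e e' δ o N B W Bk Wh Et) (hnu : PvlktNu N nu) (mO : MeasurableSet e.O) (mO' : MeasurableSet e'.O) (hX : X.Finite) (hK : 1 ≤ K)
    (E1 : Pvh5End e ρ (pvh6Et δ X K (e.O ∪ e'.O)) p l) (E2 : Pvh5End e' ρ (pvh6Et δ X K (e.O ∪ e'.O)) p' l')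
    (hρ : 0 < ρ) (h5 : 5 * ρ < δ) (far : Disjoint Z Z')
    (h : pvtCells δ (cthickening (3 * p.1) (e.A₁ ∪ e.A₂)) ⊆ X) (h' : pvtCells δ (cthickening (3 * p'.1) (e'.A₁ ∪ e'.A₂)) ⊆ X) (lX : pvtwN 1 (B ∪ W) ⊆ X)
    (k1 : ∀ c ∈ pvtHull X, ¬ Disjoint (pvtU δ (pvtwN 1 {c})) e.O → ∃ q ∈ l ++ l', ∃ k : ℕ, 5 * q.1 < k * δ ∧ pvtU δ (pvtwN k {c}) ⊆ q.2)
    (k2 : ∀ c ∈ pvtHull X, ¬ Disjoint (pvtU δ (pvtwN 1 {c})) e'.O → ∃ q ∈ l ++ l', ∃ k : ℕ, 5 * q.1 < k * δ ∧ pvtU δ (pvtwN k {c}) ⊆ q.2)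
    (vs : pvtCells δ V ⊆ pvtOut X) (vt : pvtCells δ V' ⊆ pvtOut X) (zc : ∀ x ∈ Z ∪ Z', ∃ q ∈ l ++ l', x ∈ pvtrCore (3 * q.1) q.2) :
    PvvwLd.Ok ⟨pvh6D δ ρ B W Bk Wh X K (e.O ∪ e'.O), l ++ l' ++ [(ρ, pvh6Et δ X K (e.O ∪ e'.O))], p, p'⟩ (pvh6D δ ρ B W Bk Wh X K (e.O ∪ e'.O)).walk e e' Z Z' V V' nu := by
  refine pvh5_ld G hnu mO mO' E1 E2 hρ h5 (pvt_hull_finite hX) (pvh6_cP hX) (pvtw_N_finite (pvt_hull_finite hX)) far (h.trans pvt_hull_sub) (h'.trans pvt_hull_sub)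
    (lX.trans pvt_hull_sub) ((lX.trans pvt_hull_sub).trans pvtw_N_sub) ?_ (pvh6_off G.δ_pos vs) (pvh6_off G.δ_pos vt) zc
  intro c hc
  by_cases c1 : Disjoint (pvtU δ (pvtwN 1 {c})) e.O
  · by_cases c2 : Disjoint (pvtU δ (pvtwN 1 {c})) e'.O
    · exact Or.inl ⟨pvh6_blk hc hK, c1.union_right c2⟩
    · exact Or.inr (k2 c hc c2)
  · exact Or.inr (k1 c hc c1)

/-- **`k2` AT A BIG END** (second end): the seam window `(s, O' ∪ Et)` of 272 / 275 is in the list, `5 s < K δ`, the two state regions are `r` apart -/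
theorem pvh6_k2_seam (hδ : 0 < δ) {s r : ℝ} (hs : 5 * s < K * δ) (hm : (s, e'.O ∪ pvh6Et δ X K (e.O ∪ e'.O)) ∈ l') (hr : (2 * (K : ℝ) + 6) * δ < r) (hOO : ∀ x ∈ e'.O, ∀ y ∈ e.O, r ≤ ‖x - y‖) :
    ∀ c ∈ pvtHull X, ¬ Disjoint (pvtU δ (pvtwN 1 {c})) e'.O → ∃ q ∈ l ++ l', ∃ k : ℕ, 5 * q.1 < k * δ ∧ pvtU δ (pvtwN k {c}) ⊆ q.2 :=
  fun c hc h1 => ⟨_, List.mem_append_right _ hm, K, hs, pvh6_k_seam' hc (pvh6_apart hδ hr hOO h1)⟩

/-- **`k1` AT A BIG END** (first end) -/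
theorem pvh6_k1_seam (hδ : 0 < δ) {s r : ℝ} (hs : 5 * s < K * δ) (hm : (s, e.O ∪ pvh6Et δ X K (e.O ∪ e'.O)) ∈ l) (hr : (2 * (K : ℝ) + 6) * δ < r) (hOO : ∀ x ∈ e.O, ∀ y ∈ e'.O, r ≤ ‖x - y‖) :
    ∀ c ∈ pvtHull X, ¬ Disjoint (pvtU δ (pvtwN 1 {c})) e.O → ∃ q ∈ l ++ l', ∃ k : ℕ, 5 * q.1 < k * δ ∧ pvtU δ (pvtwN k {c}) ⊆ q.2 :=
  fun c hc h1 => ⟨_, List.mem_append_left _ hm, K, hs, pvh6_k_seam hc (pvh6_apart hδ hr hOO h1)⟩

/-- **`k1` AT A KIT END** (first end): `Dk` = the cells which lie deep in the window of the end;   the cells near the state region, off `Dk`, lie in the outside of `X` -/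
theorem pvh6_k1_deep {Dk : Set (ℤ × ℤ)} {k0 : ℕ} (hp : p ∈ l) (h5 : 5 * p.1 < k0 * δ) (deep : ∀ c ∈ Dk, pvtU δ (pvtwN k0 {c}) ⊆ p.2)
    (out : ∀ c, ¬ Disjoint (pvtU δ (pvtwN 1 {c})) e.O → c ∉ Dk → c ∈ pvtOut X) :
    ∀ c ∈ pvtHull X, ¬ Disjoint (pvtU δ (pvtwN 1 {c})) e.O → ∃ q ∈ l ++ l', ∃ k : ℕ, 5 * q.1 < k * δ ∧ pvtU δ (pvtwN k {c}) ⊆ q.2 := by
  intro c hc h1
  by_cases hD : c ∈ Dk
  · exact ⟨p, List.mem_append_left _ hp, k0, h5, deep c hD⟩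
  · exact absurd (out c h1 hD) hc

/-- **`k2` AT A KIT END** (second end) -/
theorem pvh6_k2_deep {Dk : Set (ℤ × ℤ)} {k0 : ℕ} (hp : p' ∈ l') (h5 : 5 * p'.1 < k0 * δ) (deep : ∀ c ∈ Dk, pvtU δ (pvtwN k0 {c}) ⊆ p'.2)
    (out : ∀ c, ¬ Disjoint (pvtU δ (pvtwN 1 {c})) e'.O → c ∉ Dk → c ∈ pvtOut X) :
    ∀ c ∈ pvtHull X, ¬ Disjoint (pvtU δ (pvtwN 1 {c})) e'.O → ∃ q ∈ l ++ l', ∃ k : ℕ, 5 * q.1 < k * δ ∧ pvtU δ (pvtwN k {c}) ⊆ q.2 := by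
  intro c hc h1
  by_cases hD : c ∈ Dk
  · exact ⟨p', List.mem_append_right _ hp, k0, h5, deep c hD⟩
  · exact absurd (out c h1 hD) hc

/-- **where the link is read off its two plugs**: the two windows, the collar of the hull -/
theorem pvh6_Kp {𝔡 : PvvwLd} {w : PvydWalk} {nu : ℕ} {ρ' : ℝ} {Q : Set ℂ} (H : 𝔡.Ok w e e' Z Z' V V' nu) (hD : 𝔡.D = pvh6D δ ρ' B W Bk Wh X K Q) (lX : pvtwN 1 (B ∪ W) ⊆ X) :
    pvnhKp (w.lk e e') w.Et ⊆ (e.E ∪ e'.E ∪ pvtU δ (pvtwN K (pvtHull X))) \ (e.O ∪ e'.O) := by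
  have h0 := H.Kp_sub
  rw [hD] at h0
  refine h0.trans ?_
  rintro x ⟨hx, hO⟩
  refine ⟨?_, hO⟩
  rcases hx with (hx | hx) | hx
  · exact Or.inl hx
  · exact Or.inr (pvt_U_mono ((lX.trans pvt_hull_sub).trans pvtw_N_sub) hx)
  · exact Or.inr hx

end ctor

end Claimed.Agent.R289
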