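-- KEEP
import Claimed.Agent.R289.Brg.Fit
import Claimed.Agent.R289.Brg.FitKit
import Claimed.Agent.R289.Brg.Quad
import Claimed.Agent.R289.Brg.Angle

/-!
# Row 289 (S0537, Cardy for Poisson-Voronoi), contract N1 = DISC, file Exit/Disc : `exit_pv_disc`      (B = chart ⟹ Euclid: helper271;   C = family + Whp + last line: helper188 + helper271;   prefix `pvdx_`;   0 sorry)

TEX: 08-observable.tex, Sec. 8.1: the discrete disc of an analytic quad with the mark `b = ψ⁻¹(x)`, its three fans and the closing face: ONE family, function of the site set, good with high probability at all tolerances.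

LAYERS (each in its own file):
 L1  `Brg/Fit.lean`    (92)   `pvgfDat F : PvoDat`, THE EUCLIDEAN RECORD `PvgfRec F D d ψ x s t`, `pvgf_good`, `pvgf_ok`, `pvgf_whp`, `pvgf_compl_tendsto`
 L2  `Brg/Quad.lean`   (258)  the chart dictionary `PvgqCh D d ψ N g R1`, marks `pvgqTh x = (π, π + 2 arctan x, 3π/2, 2π, 3π)`, arcs as angle intervals, `close close' thick thick_arc depth`
     `Brg/FitKit.lean` (271)  in the chart: `pvgk_densB_range` (K3), `pvgk_sec` (K4)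
     `Brg/Defs.lean`   (188)  THE RECORD `Δ.Ok N g θ ρ` (v2), `PvgFine N g θ ρ Y`, `pvg_fine_geo`
 **L3 = B (here, Sec. 1-2)**  `pvdx_rec_dk` (form `PvgFine`: `pvdx_rec`) : for every output tolerance `t > 0` there are `s > 0`, `ρ0 > 0` such that every disc `Δ.Ok N g (pvgqTh x) ρ`, `ρ ≤ ρ0`, signs `PvgfRec (Δ.fan H) D d ψ x s t` and has its sites of depth `≥ t` as interior vertices;
                          one lemma per field: `pvdx_inD _del _short _arc _densD _densB _conn _sec _deep`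
 **L4 = C (here, Sec. 3)**    `pvdxFam N g θ : PvoFam` (the fan sphere of the disc of the best level of `Y`, junk = the double triangle), `pvdx_fam_eq`, `pvdx_good`, `pvdx_whp`, **`pvdx_disc`** = the text of `exit_pv_disc` (wired in `Exit/Inst.lean`).
The only open input is `pvg_ord` (253, `Brg/Ord.lean`).
-/

set_option autoImplicit false

namespace Claimed.Agent.R289

open Set Metric Relation Filter Topology MeasureTheory Claims.C0465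

/-! ## 1. the fan of a disc: indices and sets -/

section idx

variable {N : Set ℂ} {g : ℂ → ℂ} {θ : ℕ → ℝ} {ρ : ℝ} {Y : Set ℂ} {h : DelGood Y} {Δ : PvgDk h}

theorem pvdx_T (H : Δ.Ok N g θ ρ) : (Δ.fan H).T = (delPl h).toMap := rfl

theorem pvdx_left (H : Δ.Ok N g θ ρ) : (Δ.fan H).c.Left = Δ.c.Left := (pl_shift_left (delp_isSph h) Δ.c (Δ.m 0)).1

theorem pvdx_X (H : Δ.Ok N g θ ρ) (k : ℕ) : pvgfX (Δ.fan H) k = Δ.x (k + Δ.m 0) := rfl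

theorem pvdx_i1 (H : Δ.Ok N g θ ρ) : (Δ.fan H).i1 + Δ.m 0 = Δ.m 2 := (pvgq_fan_hi H).1

/-- the vertices of the closed disc lie in `K(1)` -/
theorem pvdx_VOf (H : Δ.Ok N g θ ρ) {v : ↥Y} (hv : v ∈ (Δ.fan H).T.VOf (Δ.fan H).c.Left) : (v : ℂ) ∈ pvgK N g 1 := by
  rw [pvdx_left H] at hv
  exact H.outer v hv

/-- the end of an edge of the closed disc is a vertex of the closed disc -/
theorem pvdx_edge_mem {c : (delPl h).toMap.Cyc} {a b : ↥Y} (hab : (delPl h).toMap.EdgeIn c.Left a b) : b ∈ (delPl h).toMap.VOf c.Left := by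
  obtain ⟨e, he, -, rfl⟩ := hab
  rcases he with he | he
  · exact ⟨(delPl h).toMap.nxt e, (pl_left_face c e).2 he, rfl⟩
  · exact ⟨(delPl h).toMap.opp e, he, (delPl h).toMap.src_opp' e⟩

end idx

/-! ## 2. L3: the fields of the Euclidean record -/

section fields

variable {D : Set ℂ} {d : ℂ} {ψ : ℂ → ℂ} {N : Set ℂ} {g : ℂ → ℂ} {R1 x : ℝ}

/-- `inD` -/
theorem pvdx_inD (Q : PvgqCh D d ψ N g R1) {t : ℝ} (ht : 0 < t) {ρ : ℝ} {Y : Set ℂ} {h : DelGood Y} {Δ : PvgDk h} (H : Δ.Ok N g (pvgqTh x) ρ) :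
    ∀ v ∈ (Δ.fan H).T.VOf (Δ.fan H).c.Left, (v : ℂ) ∈ thickening t D := by
  intro v hv
  have h1 := pvdx_VOf H hv
  rw [← Q.clo] at h1
  exact closure_subset_thickening ht D h1

/-- `short` -/
theorem pvdx_short (Q : PvgqCh D d ψ N g R1) {t : ℝ} (ht : 0 < t) :
    ∃ ρ0 > 0, ∀ ρ ≤ ρ0, ∀ (Y : Set ℂ) (h : DelGood Y) (Δ : PvgDk h) (H : Δ.Ok N g (pvgqTh x) ρ),
      ∀ e ∈ (Δ.fan H).c.Left, ‖(((Δ.fan H).T.src e : ↥Y) : ℂ) - (((Δ.fan H).T.tgt e : ↥Y) : ℂ)‖ < t := by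
  obtain ⟨ρ0, hρ0, hcl⟩ := Q.close ht
  refine ⟨ρ0, hρ0, fun ρ hρ Y h Δ H e he => ?_⟩
  have h1 := Q.K_sub (pvdx_VOf H ((Δ.fan H).src_mem he))
  have h2 := Q.K_sub (pvdx_VOf H ((Δ.fan H).tgt_mem he))
  rw [← dist_eq_norm]
  refine hcl _ h1 _ h2 ?_
  rw [pvdx_left H] at he
  rw [norm_sub_rev]
  exact (H.step e he).trans hρ

/-- `arc` -/
theorem pvdx_arc (Q : PvgqCh D d ψ N g R1) (hx0 : 0 < x) (hx1 : x < 1) {t : ℝ} (ht : 0 < t) :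
    ∃ ρ0 > 0, ∀ ρ ≤ ρ0, ∀ (Y : Set ℂ) (h : DelGood Y) (Δ : PvgDk h) (H : Δ.Ok N g (pvgqTh x) ρ),
      ∀ (j : Fin 3) (k : ℕ), (Δ.fan H).lo j ≤ k → k ≤ (Δ.fan H).hi j → pvgfX (Δ.fan H) k ∈ thickening t (pvoArc D d ψ j) := by
  obtain ⟨ρ0, hρ0, hth⟩ := Q.thick_arc ht
  refine ⟨ρ0, hρ0, fun ρ hρ Y h Δ H j k h1 h2 => ?_⟩
  obtain ⟨τ, t1, t2, t3⟩ := pvgq_fan_arc hx0 hx1 H j h1 h2
  exact hth j _ (Q.K_sub (pvgq_x_K H _)) τ t1 t2 (t3.trans hρ)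

/-- `densD` -/
theorem pvdx_densD (Q : PvgqCh D d ψ N g R1) {t : ℝ} (ht : 0 < t) :
    ∃ ρ0 > 0, ∀ ρ ≤ ρ0, ∀ (Y : Set ℂ) (h : DelGood Y) (Δ : PvgDk h) (H : Δ.Ok N g (pvgqTh x) ρ),
      ∀ p ∈ D, ∃ v ∈ (Δ.fan H).T.VOf (Δ.fan H).c.Left, ‖(v : ℂ) - p‖ < t := by
  obtain ⟨ρ0, hρ0, hcl⟩ := Q.close ht
  refine ⟨ρ0, hρ0, fun ρ hρ Y h Δ H p hp => ?_⟩
  have hpK : p ∈ pvgK N g 1 := by rw [← Q.clo]; exact subset_closure hp
  obtain ⟨v, hv, hvp⟩ := H.dense p hpK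
  have hv' : v ∈ (delPl h).toMap.VOf Δ.c.Left := by
    rw [pl_VOf_left (delp_isSph h) Δ.c]; exact Or.inr hv
  refine ⟨v, by rw [pvdx_left H]; exact hv', ?_⟩
  rw [← dist_eq_norm]
  exact hcl _ (Q.K_sub (H.outer v hv')) _ (Q.K_sub hpK) (hvp.trans hρ)

/-- `densB` -/
theorem pvdx_densB (Q : PvgqCh D d ψ N g R1) (hx0 : 0 < x) (hx1 : x < 1) {t : ℝ} (ht : 0 < t) :
    ∃ ρ0 > 0, ∀ ρ ≤ ρ0, ∀ (Y : Set ℂ) (h : DelGood Y) (Δ : PvgDk h) (H : Δ.Ok N g (pvgqTh x) ρ),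
      ∀ (j : Fin 3), ∀ p ∈ pvoArc D d ψ j, ∃ k, (Δ.fan H).lo j ≤ k ∧ k ≤ (Δ.fan H).hi j ∧ ‖pvgfX (Δ.fan H) k - p‖ < t := by
  obtain ⟨ρ1, hρ1, hcl⟩ := Q.close ht
  have hθ := pvgq_mk hx0 hx1
  refine ⟨ρ1 / 3, by positivity, fun ρ hρ Y h Δ H j p hp => ?_⟩
  obtain ⟨τ, t1, t2, hpN, hgp⟩ := (Q.arc_iff j p).1 hp
  have hpK : p ∈ pvgK N g R1 := ⟨hpN, by rw [hgp, pvgk_E_norm]; exact Q.ch.one_lt.le⟩
  obtain ⟨a0, a1, a2⟩ := pvgq_fan_lo H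
  obtain ⟨b0, b1, b2⟩ := pvgq_fan_hi H
  -- an index of the arc in the numbering of `Δ`
  obtain ⟨k, k1, k2, k3⟩ : ∃ k, (Δ.fan H).lo j + Δ.m 0 ≤ k ∧ k ≤ (Δ.fan H).hi j + Δ.m 0 ∧ ‖g (Δ.x k) - pvgE τ‖ ≤ 3 * ρ := by
    match j, t1, t2 with
    | 0, t1, t2 =>
      rw [a0, b0]
      exact pvgk_densB_range hθ H (i := 0) (j := 2) (by norm_num) (by norm_num) t1 t2
    | 1, t1, t2 =>
      rw [a1, b1]
      exact pvgk_densB_range hθ H (i := 2) (j := 3) (by norm_num) (by norm_num) t1 t2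
    | 2, t1, t2 =>
      rw [a2, b2]
      exact pvgk_densB_range hθ H (i := 3) (j := 4) (by norm_num) (by norm_num) t1 t2
  refine ⟨k - Δ.m 0, by omega, by omega, ?_⟩
  rw [pvdx_X H, Nat.sub_add_cancel (by omega), ← dist_eq_norm]
  refine hcl _ (Q.K_sub (pvgq_x_K H k)) _ hpK ?_
  rw [hgp]
  exact k3.trans (by linarith)

/-- `conn` -/
theorem pvdx_conn (Q : PvgqCh D d ψ N g R1) {t : ℝ} (ht : 0 < t) :
    ∃ s > 0, ∃ ρ0 > 0, ∀ ρ ≤ ρ0, ∀ (Y : Set ℂ) (h : DelGood Y) (Δ : PvgDk h) (H : Δ.Ok N g (pvgqTh x) ρ),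
      ∀ (p : ℂ), ∀ u ∈ (Δ.fan H).T.VOf (Δ.fan H).c.Left, ∀ v ∈ (Δ.fan H).T.VOf (Δ.fan H).c.Left, ‖(u : ℂ) - p‖ < s → ‖(v : ℂ) - p‖ < s →
        (Δ.fan H).T.Join (Δ.fan H).c.Left {w | ‖(w : ℂ) - p‖ < t} u v := by
  obtain ⟨ρ1, hρ1, hcl⟩ := Q.close (half_pos ht)
  obtain ⟨s1, hs1, hcl'⟩ := Q.close' (half_pos hρ1)
  refine ⟨min (s1 / 2) (t / 2), lt_min (by positivity) (by positivity), ρ1 / 2, by positivity, fun ρ hρ Y h Δ H p u hu v hv hup hvp => ?_⟩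
  rw [lt_min_iff] at hup hvp
  rw [pvdx_left H] at hu hv ⊢
  have huK := Q.K_sub (H.outer u hu)
  have huv : ‖(v : ℂ) - (u : ℂ)‖ < s1 := by
    have := norm_sub_le ((v : ℂ) - p) ((u : ℂ) - p)
    rw [sub_sub_sub_cancel_right] at this
    linarith [hup.1, hvp.1]
  have h1 : ‖g (u : ℂ) - g (v : ℂ)‖ ≤ ρ1 / 2 := by rw [norm_sub_rev]; exact (hcl' _ huK _ huv).2
  obtain ⟨-, j1⟩ := H.d4 u hu v hv _ h1
  refine ⟨lt_of_lt_of_le hup.2 (by linarith), ReflTransGen.mono (fun a b hab => ⟨hab.1, ?_⟩) _ _ j1⟩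
  have hb : ‖g (b : ℂ) - g (u : ℂ)‖ ≤ ρ1 / 2 + ρ := hab.2
  have hbK := Q.K_sub (H.outer b (pvdx_edge_mem hab.1))
  have h2 := hcl _ hbK _ huK (hb.trans (by linarith))
  rw [dist_eq_norm] at h2
  show ‖(b : ℂ) - p‖ < t
  have := norm_add_le ((b : ℂ) - (u : ℂ)) ((u : ℂ) - p)
  rw [sub_add_sub_cancel] at this
  linarith [hup.2]

/-- `sec` -/
theorem pvdx_sec (Q : PvgqCh D d ψ N g R1) (hx0 : 0 < x) (hx1 : x < 1) {t : ℝ} (ht : 0 < t) :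
    ∃ s > 0, ∃ ρ0 > 0, ∀ ρ ≤ ρ0, ∀ (Y : Set ℂ) (h : DelGood Y) (Δ : PvgDk h) (H : Δ.Ok N g (pvgqTh x) ρ),
      ∀ b ∈ frontier D, b ≠ d → ψ b = x → ∀ k, k ≤ (Δ.fan H).i1 → ‖pvgfX (Δ.fan H) k - b‖ < s → ∀ k', k' ≤ k →
        pvgfX (Δ.fan H) k' ∈ thickening t (pvArcL D d ψ x) := by
  obtain ⟨ρ1, hρ1, -, hth, -⟩ := Q.thick x ht
  have hθ := pvgq_mk hx0 hx1
  set γ : ℝ := min (ρ1 / 4) (1 / 4) with hγ
  have hγ0 : 0 < γ := lt_min (by positivity) (by norm_num)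
  obtain ⟨s, hs, hcl'⟩ := Q.close' hγ0
  refine ⟨s, hs, min (ρ1 / 10) (1 / 10), lt_min (by positivity) (by norm_num), fun ρ hρ Y h Δ H b hb hbd hψ k hk hkb k' hk' => ?_⟩
  rw [le_min_iff] at hρ
  have hγ1 : γ ≤ ρ1 / 4 := min_le_left _ _
  have hγ2 : γ ≤ 1 / 4 := min_le_right _ _
  have hρn := pvgk_rho_nonneg H
  have hgb := Q.g_b hb hbd hψ
  have h1 : ‖g (Δ.x (k + Δ.m 0)) - pvgE (pvgqTh x 1)‖ ≤ γ := by
    rw [← hgb]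
    exact (hcl' b (Q.frontier_K hb) _ hkb).2
  have hi1 := pvdx_i1 H
  have hsm : Real.pi / 2 * (γ + ρ) + 2 * ρ < pvgqTh x 4 - pvgqTh x 2 := by
    simp only [pvgq_th4, pvgq_th2]
    have p3 := Real.pi_gt_three
    have p4 := Real.pi_le_four
    have : Real.pi / 2 * (γ + ρ) ≤ 2 * (γ + ρ) := mul_le_mul_of_nonneg_right (by linarith) (by linarith)
    linarith [hρ.2]
  obtain ⟨τ, t0, t1, t2⟩ := pvgk_sec hθ H hsm (k := k + Δ.m 0) (by omega) h1 (k' := k' + Δ.m 0) (by omega) (by omega)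
  exact hth _ (Q.K_sub (pvgq_x_K H _)) τ t0 t1 (t2.trans (by linarith [hρ.1]))

/-- `deep`: the sites of depth `≥ t` are interior vertices -/
theorem pvdx_deep (Q : PvgqCh D d ψ N g R1) {t : ℝ} (ht : 0 < t) :
    ∃ ρ0 > 0, ∀ ρ ≤ ρ0, ∀ (Y : Set ℂ) (h : DelGood Y) (Δ : PvgDk h) (H : Δ.Ok N g (pvgqTh x) ρ),
      ∀ v : ↥Y, t ≤ infDist (v : ℂ) Dᶜ → v ∈ (Δ.fan H).T.Int (Δ.fan H).c.Left := by
  obtain ⟨ρ0, hρ0, hd⟩ := Q.depth ht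
  refine ⟨ρ0, hρ0, fun ρ hρ Y h Δ H v hv => ?_⟩
  rw [pvdx_left H]
  exact H.inner v (hd ρ hρ hv)

/-- **L3**: every disc of small tolerance in the chart signs the Euclidean record -/
theorem pvdx_rec_dk (Q : PvgqCh D d ψ N g R1) (hx0 : 0 < x) (hx1 : x < 1) {t : ℝ} (ht : 0 < t) :
    ∃ s > 0, ∃ ρ0 > 0, ∀ ρ ≤ ρ0, ∀ (Y : Set ℂ) (h : DelGood Y) (Δ : PvgDk h) (H : Δ.Ok N g (pvgqTh x) ρ),
      PvgfRec (Δ.fan H) D d ψ x s t ∧ ∀ v : ↥Y, t ≤ infDist (v : ℂ) Dᶜ → v ∈ (Δ.fan H).T.Int (Δ.fan H).c.Left := by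
  obtain ⟨r1, hr1, f1⟩ := pvdx_short (x := x) Q ht
  obtain ⟨r2, hr2, f2⟩ := pvdx_arc Q hx0 hx1 ht
  obtain ⟨r3, hr3, f3⟩ := pvdx_densD (x := x) Q ht
  obtain ⟨r4, hr4, f4⟩ := pvdx_densB Q hx0 hx1 ht
  obtain ⟨s5, hs5, r5, hr5, f5⟩ := pvdx_conn (x := x) Q ht
  obtain ⟨s6, hs6, r6, hr6, f6⟩ := pvdx_sec Q hx0 hx1 ht
  obtain ⟨r7, hr7, f7⟩ := pvdx_deep (x := x) Q ht
  refine ⟨min s5 s6, lt_min hs5 hs6, min (min (min r1 r2) (min r3 r4)) (min (min r5 r6) r7),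
    lt_min (lt_min (lt_min hr1 hr2) (lt_min hr3 hr4)) (lt_min (lt_min hr5 hr6) hr7), fun ρ hρ Y h Δ H => ?_⟩
  simp only [le_min_iff] at hρ
  obtain ⟨⟨⟨q1, q2⟩, q3, q4⟩, ⟨q5, q6⟩, q7⟩ := hρ
  refine ⟨⟨pvdx_inD Q ht H, fun e _ => pvgf_del (Δ.fan H) rfl e, f1 ρ q1 Y h Δ H, f2 ρ q2 Y h Δ H, f3 ρ q3 Y h Δ H, f4 ρ q4 Y h Δ H, ?_, ?_⟩, f7 ρ q7 Y h Δ H⟩
  · intro p u hu v hv h1 h2
    exact f5 ρ q5 Y h Δ H p u hu v hv (h1.trans_le (min_le_left _ _)) (h2.trans_le (min_le_left _ _))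
  · intro b hb hbd hψ k hk hkb
    exact f6 ρ q6 Y h Δ H b hb hbd hψ k hk (hkb.trans_le (min_le_right _ _))

end fields

/-! ## 3. L4: the family, `Whp`, the exit -/

open Classical in
/-- **THE FAMILY**: the fan sphere of the disc of the best level of `Y`; junk = the double triangle -/
noncomputable def pvdxFam (N : Set ℂ) (g : ℂ → ℂ) (θ : ℕ → ℝ) : PvoFam := fun Y =>
  if H : PvgHas N g θ (pvgTol (pvgLev N g θ Y)) Y then pvgfDat (H.dk.fan H.ok) else pvgfJunk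

theorem pvdx_eqns_cite : True := by
  have := @pvdxFam.eq_1
  trivial

theorem pvdx_fam_eq {N : Set ℂ} {g : ℂ → ℂ} {θ : ℕ → ℝ} {ρ : ℝ} {Y : Set ℂ} (H : PvgFine N g θ ρ Y) : pvdxFam N g θ Y = pvgfDat H.fan := dif_pos H.1

/-- the cycle of the fan of the disc is the cycle of the disc read from the mark `a` -/
theorem pvdx_fan_left {N : Set ℂ} {g : ℂ → ℂ} {θ : ℕ → ℝ} {ρ : ℝ} {Y : Set ℂ} (H : PvgFine N g θ ρ Y) : H.fan.c.Left = H.dk.c.Left :=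
  (pl_shift_left (delp_isSph H.good) H.dk.c (H.dk.m 0)).1

theorem pvdx_fam_junk {N : Set ℂ} {g : ℂ → ℂ} {θ : ℕ → ℝ} {Y : Set ℂ} (H : ¬ PvgHas N g θ (pvgTol (pvgLev N g θ Y)) Y) : pvdxFam N g θ Y = pvgfJunk := dif_neg H

/-- the bulk family of `pvdxFam` on the good event: the surface of `pvgBest` -/
theorem pvdx_fam_surf {N : Set ℂ} {g : ℂ → ℂ} {θ : ℕ → ℝ} {ρ : ℝ} {Y : Set ℂ} (H : PvgFine N g θ ρ Y) :
    pvgDiscS N g θ (pvgTol (pvgLev N g θ Y)) Y = pvgFanS H.fan := H.surf_eq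

section exit

variable {D : Set ℂ} {d : ℂ} {ψ : ℂ → ℂ} {N : Set ℂ} {g : ℂ → ℂ} {R1 x : ℝ}

/-- **B = CHART ⟹ EUCLID**, on the good event of BRIDGE (text of helper188) -/
theorem pvdx_rec (Q : PvgqCh D d ψ N g R1) (hx0 : 0 < x) (hx1 : x < 1) {t : ℝ} (ht : 0 < t) :
    ∃ s : ℝ, 0 < s ∧ ∃ ρ : ℝ, 0 < ρ ∧ ∀ (Y : Set ℂ) (H : PvgFine N g (pvgqTh x) ρ Y),
      PvgfRec H.fan D d ψ x s t ∧ ∀ v : ↥Y, t ≤ infDist (v : ℂ) Dᶜ → v ∈ H.fan.T.Int H.fan.c.Left := by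
  obtain ⟨s, hs, ρ0, hρ0, hrec⟩ := pvdx_rec_dk Q hx0 hx1 ht
  exact ⟨s, hs, ρ0, hρ0, fun Y H => hrec ρ0 le_rfl Y H.good H.dk H.ok⟩

/-- **deterministic exit**: on the good event of BRIDGE at a small level the family is good -/
theorem pvdx_good (Q : PvgqCh D d ψ N g R1) (hx0 : 0 < x) (hx1 : x < 1) {t : ℝ} (ht : 0 < t) :
    ∃ s > 0, ∃ ρ0 > 0, ∀ Y : Set ℂ, PvgFine N g (pvgqTh x) ρ0 Y → (pvdxFam N g (pvgqTh x)).Good D d ψ x Y s t := by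
  obtain ⟨s, hs, ρ0, hρ0, hrec⟩ := pvdx_rec Q hx0 hx1 ht
  refine ⟨s, hs, ρ0, hρ0, fun Y H => ?_⟩
  obtain ⟨R, hdeep⟩ := hrec Y H
  exact pvgf_good H.fan _ (pvdx_fam_eq H) (pvgf_ok H.fan rfl hdeep) R

/-- the family is good with high probability at all tolerances -/
theorem pvdx_whp (Q : PvgqCh D d ψ N g R1) (hx0 : 0 < x) (hx1 : x < 1) : (pvdxFam N g (pvgqTh x)).Whp D d ψ x := by
  refine pvgf_whp fun t ht => ?_
  obtain ⟨s, hs, ρ0, hρ0, hgood⟩ := pvdx_good Q hx0 hx1 ht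
  obtain ⟨G, hm, hG, hlim⟩ := pvg_fine_geo Q.ch (pvgq_mk hx0 hx1) hρ0
  exact ⟨s, hs, G, fun ε γ hγ => hgood _ (hG ε γ hγ), pvgf_compl_tendsto hm hlim⟩

/-- **N1 = DISC**: the text of `exit_pv_disc` -/
theorem pvdx_disc (h : PvAn D d ψ) (hx0 : 0 < x) (hx1 : x < 1) : ∃ 𝔇 : PvoFam, 𝔇.Whp D d ψ x := by
  obtain ⟨N, g, R1, Q⟩ := pvgq_of_an h
  exact ⟨_, pvdx_whp Q hx0 hx1⟩

end exit

end Claimed.Agent.R289
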