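-- KEEP
import Claimed.Agent.R289.Exit.DatP
import Claimed.Agent.R289.Exit.PatD
import Claimed.Agent.R289.Tr.LinkGam
import Claimed.Agent.R289.Tr.HullRef

/-!
# Row 289 (S0537), ROAD P, Exit/DjP : THE TWO LISTS `dj1 dj2` OF `PvydGeo.CandOk` FROM PLANAR FACTS      (pen helper58; prefix `pvyd_dj`, `PvydDj*`)

No list, no index, no coloured point is left to the geometry (138 114 164):
* **`pvyd_dj2_of`** : `dj2` (short cycle `t -b-> u -e-> t`) ⟸ `O_t ∩ O_u = ∅`, `K_b ∩ K_e = ∅` (PLANAR; the four facts `O` against `K` are free: a link reads off its two plugs).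
* **`PvydDjCyc`** = the geometry of the long cycle `t -o-> cells of l1 t -r-> u -e-> t` in the ZONE FORM of 183 (`Tr/PatP.lean`: `pvytZone`, `pvyt_zone_disj`): the path of `δ`-cells `c0 :: c1 :: tl` (`c0` = last cell of the exit nozzle of `t`,
  `v` = the cell behind the last door = last cell of the entrance nozzle of `u`), a set `E` of cells off the path, the FIVE foreign regions `O_t K_o K_r O_u K_e` live in the zone, SIX planar disjointness facts (the other four are free).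
  **`pvyd_dj1_of`** : `PvydDjCyc → dj1` (by `pvccm_dOO pvccm_dKK pvccm_dOK` of 166).
* sec. 2 THE FIT FORM.   `π : PvfjPat PLx mm n` = a `Σ₁` pattern over ANY menu (end pin = the plug of `t`, start pin = the reference plug, arc = the cells of the thick link `e`), `s` = a vector of the fine grid (`z = pvmgPt δc π.1.ct + δ Z(s)`).
  **`PvydDjFit 𝔓 𝔤 c m ε z t r π s`** = FIVE inclusions in fine cells (`O_t`, `K_o`: body of `t` (+ last cell of the exit nozzle off the door square);  `O_u`, `K_r`: body of `u` (+ last cell of the entrance nozzle off the door square);  `K_e`: foreign cells `pvytE π`) + `K_o ∩ K_e = ∅`, `K_r ∩ K_e = ∅`.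
  **`pvyd_dj_fit`** : `PvydDjFit → PvydDjCyc` (path facts: `pvyt_path_*` of 183, shifted).
* sec. 3 AT `Γ` OF 114 (`Tr/LinkGam.lean`).   `pvyd_dj_lz_far` (the two bodies are far apart), `pvyd_dj_grid` (`l9Pt h p` lies on the fine grid: `dl = 1 / nd`), `pvydDjS` (the grid vector of the candidate),
  **`pvyd_dj1_lz`** (fixed mesh), **`pvyd_dj1_lz_ev`** : the field `dj1` of `CandOk` at `z = l9Pt h p` VERBATIM ⟸ eventually `PvccKitRef`, `del`, `PvydDjFit .. (pvlzPat H c' m t) (pvydDjS ..)`.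
-/

set_option autoImplicit false

namespace Claimed.Agent.R289

open MeasureTheory Filter Topology Set Claims.C0465
open scoped ENNReal

section dj

variable {τ : Type} {cc : ℝ} {𝔓 : PvrxPar τ cc} {𝔤 : PvydGeo τ} {c : Bool} {m : ℕ} {ε : ℝ} {z : ℂ} {t : τ}

theorem pvyd_dj_prod {A B : Set ℂ} (h : Disjoint A B) : Disjoint (A ×ˢ (univ : Set Bool)) (B ×ˢ (univ : Set Bool)) := Set.Disjoint.set_prod_left h _ _

theorem pvyd_dj_sim (w : ℂ) {A B : Set ℂ} (h : Disjoint A B) : Disjoint (pvthSim w 1 '' A) (pvthSim w 1 '' B) := by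
  refine (Set.disjoint_image_iff ?_).2 h
  intro x y hxy
  have : w + 1 * x = w + 1 * y := hxy
  simpa using this

/-- **`dj2` FROM TWO PLANAR FACTS** -/
theorem pvyd_dj2_of (h1 : Disjoint (pvspO 𝔓.mod.N (𝔓.ty m z t) z (pvlmH m)) (pvthSim (pvydWu 𝔓 m z t) 1 '' 𝔤.Ou m))
    (h2 : Disjoint (pvnhKp (𝔤.lb 𝔓 c m z t) (𝔤.wb m z t).Et) (pvnhKp (𝔤.le 𝔓 c m z t) (𝔤.we m z t).Et)) :
    PvydDj 2 ((pvydDat 𝔓 𝔤 c).cyc2 m ε z t) where
  dOO := by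
    intro i hi j hj hij
    interval_cases i <;> interval_cases j
    · exact absurd rfl hij
    · exact pvyd_dj_prod h1
    · exact (pvyd_dj_prod h1).symm
    · exact absurd rfl hij
  dKK := by
    intro i hi j hj hij
    interval_cases i <;> interval_cases j
    · exact absurd rfl hij
    · exact pvyd_dj_prod h2
    · exact (pvyd_dj_prod h2).symm
    · exact absurd rfl hij
  dOK := by
    intro i hi j hj
    interval_cases i <;> interval_cases j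
    · exact pvyd_dj_prod ((pvnh_Kp_off (𝔤.lb 𝔓 c m z t) _).mono_left subset_union_left)
    · exact pvyd_dj_prod ((pvnh_Kp_off (𝔤.le 𝔓 c m z t) _).mono_left subset_union_right)
    · exact pvyd_dj_prod ((pvnh_Kp_off (𝔤.lb 𝔓 c m z t) _).mono_left subset_union_right)
    · exact pvyd_dj_prod ((pvnh_Kp_off (𝔤.le 𝔓 c m z t) _).mono_left subset_union_left)

/-- **THE GEOMETRY OF THE LONG CYCLE, ZONE FORM** (all sets PLANAR) -/
structure PvydDjCyc (𝔓 : PvrxPar τ cc) (𝔤 : PvydGeo τ) (c : Bool) (m : ℕ) (ε : ℝ) (z : ℂ) (t : τ) (r : ℝ) (c0 c1 v : ℤ × ℤ) (tl : List (ℤ × ℤ)) (E : Set (ℤ × ℤ)) : Prop where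
  ref : PvccKitRef (𝔤.kit m ε) r
  del : (𝔤.kit m ε).δ = (𝔓.Γ m).δ
  chain : List.IsChain PvtAdj4 (c0 :: c1 :: tl)
  nodup : (c0 :: c1 :: tl).Nodup
  cen : pvtCentres (pvtZ c1) (pvtZ c1 - pvtZ c0) ((𝔓.Γ m).l1 t) = (c1 :: tl).map pvtZ
  last : (c0 :: c1 :: tl)[tl.length + 1]'(by simp) = v
  door : z + (𝔓.Γ m).pout t = (pvtCtr (𝔤.kit m ε).δ c0 + pvtCtr (𝔤.kit m ε).δ c1) / 2
  dir : (𝔓.Γ m).dout t = pvtZ c1 - pvtZ c0
  off : ∀ q ∈ c0 :: c1 :: tl, q ∉ E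
  /-- the five foreign regions live in the zone: cells of `E`, the cell `c0` minus the square of the first door, the cell `v` minus the square of the last door -/
  Ot : pvspO 𝔓.mod.N (𝔓.ty m z t) z (pvlmH m) ⊆ pvytZone (𝔤.kit m ε).δ r E c0 (z + (𝔓.Γ m).pout t) v (pvydWu 𝔓 m z t + (𝔓.Γ m).pin0)
  Ou : pvthSim (pvydWu 𝔓 m z t) 1 '' 𝔤.Ou m ⊆ pvytZone (𝔤.kit m ε).δ r E c0 (z + (𝔓.Γ m).pout t) v (pvydWu 𝔓 m z t + (𝔓.Γ m).pin0)
  Ko : pvnhKp (𝔤.lo 𝔓 c m ε z t) (𝔤.wo m z t).Et ⊆ pvytZone (𝔤.kit m ε).δ r E c0 (z + (𝔓.Γ m).pout t) v (pvydWu 𝔓 m z t + (𝔓.Γ m).pin0)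
  Kr : pvthSim (pvydWu 𝔓 m z t) 1 '' pvnhKp (𝔤.lr 𝔓 m ε) (𝔤.wr m).Et ⊆ pvytZone (𝔤.kit m ε).δ r E c0 (z + (𝔓.Γ m).pout t) v (pvydWu 𝔓 m z t + (𝔓.Γ m).pin0)
  Ke : pvnhKp (𝔤.le 𝔓 c m z t) (𝔤.we m z t).Et ⊆ pvytZone (𝔤.kit m ε).δ r E c0 (z + (𝔓.Γ m).pout t) v (pvydWu 𝔓 m z t + (𝔓.Γ m).pin0)
  /-- six planar facts -/
  dOtOu : Disjoint (pvspO 𝔓.mod.N (𝔓.ty m z t) z (pvlmH m)) (pvthSim (pvydWu 𝔓 m z t) 1 '' 𝔤.Ou m)
  dOtKr : Disjoint (pvspO 𝔓.mod.N (𝔓.ty m z t) z (pvlmH m)) (pvthSim (pvydWu 𝔓 m z t) 1 '' pvnhKp (𝔤.lr 𝔓 m ε) (𝔤.wr m).Et)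
  dOuKo : Disjoint (pvthSim (pvydWu 𝔓 m z t) 1 '' 𝔤.Ou m) (pvnhKp (𝔤.lo 𝔓 c m ε z t) (𝔤.wo m z t).Et)
  dKoKr : Disjoint (pvnhKp (𝔤.lo 𝔓 c m ε z t) (𝔤.wo m z t).Et) (pvthSim (pvydWu 𝔓 m z t) 1 '' pvnhKp (𝔤.lr 𝔓 m ε) (𝔤.wr m).Et)
  dKoKe : Disjoint (pvnhKp (𝔤.lo 𝔓 c m ε z t) (𝔤.wo m z t).Et) (pvnhKp (𝔤.le 𝔓 c m z t) (𝔤.we m z t).Et)
  dKrKe : Disjoint (pvthSim (pvydWu 𝔓 m z t) 1 '' pvnhKp (𝔤.lr 𝔓 m ε) (𝔤.wr m).Et) (pvnhKp (𝔤.le 𝔓 c m z t) (𝔤.we m z t).Et)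

variable {r : ℝ} {c0 c1 v : ℤ × ℤ} {tl : List (ℤ × ℤ)} {E : Set (ℤ × ℤ)}

theorem PvydDjCyc.d4 (h : PvydDjCyc 𝔓 𝔤 c m ε z t r c0 c1 v tl E) : ((𝔓.Γ m).dout t) ^ 4 = 1 := by
  rw [h.dir]
  exact pvt_step_pow_four (by have := h.chain; simp only [List.isChain_cons_cons] at this; exact this.1)

theorem PvydDjCyc.simple (h : PvydDjCyc 𝔓 𝔤 c m ε z t r c0 c1 v tl E) : PvccSimple ((𝔓.Γ m).l1 t) ((𝔓.Γ m).l1 t).length := by
  refine pvcc_simple_of_nodup (z := pvtZ c1) (d := pvtZ c1 - pvtZ c0) ?_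
  rw [h.cen]
  exact (List.nodup_cons.1 h.nodup).2.map pvtZ_injective

/-- **`PvccmFor` OF 166 FOR THE LONG CYCLE AT THE TERM** -/
theorem pvyd_dj_for (h : PvydDjCyc 𝔓 𝔤 c m ε z t r c0 c1 v tl E) :
    PvccmFor ((pvydDat 𝔓 𝔤 c).sOut m ε z t) ((pvydDat 𝔓 𝔤 c).kit m ε) (z + (𝔓.Γ m).pout t) ((𝔓.Γ m).dout t) ((𝔓.Γ m).l1 t) ((pvydDat 𝔓 𝔤 c).Kr m ε z t) ((pvydDat 𝔓 𝔤 c).sRef m ε z t) := by
  have d1 := (pvyd_last' (𝔓 := 𝔓) (𝔤 := 𝔤) h.del c z t).1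
  obtain ⟨hO, hK⟩ := pvyt_zone_disj (pvyt_ref_col h.ref c) h.chain h.nodup h.cen h.last E h.off
  have hδ : (pvydKit (𝔤.kit m ε) c).δ = (𝔤.kit m ε).δ := rfl
  rw [hδ, ← h.door, ← h.dir] at hO hK
  rw [hδ] at d1
  rw [d1] at hO hK
  exact
    { aO_O := fun j hj => ((hO j hj).mono_right (Set.prod_mono h.Ot le_rfl)).symm
      cO_O := fun j hj => ((hO j hj).mono_right (Set.prod_mono h.Ou le_rfl)).symm
      aO_cO := pvyd_dj_prod h.dOtOu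
      aK_K := fun j hj => ((hK j hj).mono_right (Set.prod_mono h.Ko le_rfl)).symm
      cK_K := fun j hj => ((hK j hj).mono_right (Set.prod_mono h.Ke le_rfl)).symm
      fK_K := fun j hj => ((hK j hj).mono_right (Set.prod_mono h.Kr le_rfl)).symm
      aK_cK := pvyd_dj_prod h.dKoKe
      aK_fK := pvyd_dj_prod h.dKoKr
      cK_fK := (pvyd_dj_prod h.dKrKe).symm
      aO_K := fun j hj => ((hK j hj).mono_right (Set.prod_mono h.Ot le_rfl)).symm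
      cO_K := fun j hj => ((hK j hj).mono_right (Set.prod_mono h.Ou le_rfl)).symm
      O_aK := fun j hj => (hO j hj).mono_right (Set.prod_mono h.Ko le_rfl)
      O_cK := fun j hj => (hO j hj).mono_right (Set.prod_mono h.Ke le_rfl)
      O_fK := fun j hj => (hO j hj).mono_right (Set.prod_mono h.Kr le_rfl)
      aO_aK := pvyd_dj_prod ((pvnh_Kp_off (𝔤.lo 𝔓 c m ε z t) _).mono_left subset_union_left)
      aO_cK := pvyd_dj_prod ((pvnh_Kp_off (𝔤.le 𝔓 c m z t) _).mono_left subset_union_right)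
      aO_fK := pvyd_dj_prod h.dOtKr
      cO_aK := pvyd_dj_prod h.dOuKo
      cO_cK := pvyd_dj_prod ((pvnh_Kp_off (𝔤.le 𝔓 c m z t) _).mono_left subset_union_left)
      cO_fK := by
        refine pvyd_dj_prod (pvyd_dj_sim _ ?_)
        have := (pvnh_Kp_off (𝔤.lr 𝔓 m ε) (𝔤.wr m).Et).mono_left subset_union_right
        have e : (𝔤.lr 𝔓 m ε).e'.O = 𝔤.Ou m := pvyd_sim_zero _
        rwa [e] at this }

/-- **`dj1` FROM THE ZONE FORM** (fixed mesh) -/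
theorem pvyd_dj1_of (h : PvydDjCyc 𝔓 𝔤 c m ε z t r c0 c1 v tl E) :
    PvydDj (((𝔓.Γ m).l1 t).length + 3) (pvskList ((pvydDat 𝔓 𝔤 c).sOut m ε z t) ((pvydDat 𝔓 𝔤 c).kit m ε) (z + (𝔓.Γ m).pout t) ((𝔓.Γ m).dout t) ((𝔓.Γ m).l1 t)
      ((pvydDat 𝔓 𝔤 c).Kr m ε z t) ((pvydDat 𝔓 𝔤 c).Ar m ε z t) ((pvydDat 𝔓 𝔤 c).sRef m ε z t)) :=
  have hd : (𝔓.Γ m).dout t ≠ 0 := pvth_ne_zero (pvth_norm_of_pow h.d4)
  ⟨pvccm_dOO (pvyt_ref_col h.ref c) hd h.simple (pvyd_dj_for h), pvccm_dKK (pvyt_ref_col h.ref c) hd h.simple (pvyd_dj_for h), pvccm_dOK (pvyt_ref_col h.ref c) hd h.simple (pvyd_dj_for h)⟩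

end dj

/-! ## 2. the fit form: the long cycle at a pattern of 138 / 114, shifted by a vector of the fine grid -/

/-- cells shifted by the grid vector `s` -/
def pvydDjSh (s : ℤ × ℤ) (A : Set (ℤ × ℤ)) : Set (ℤ × ℤ) := (· + s) '' A

theorem pvyd_dj_eqns_cite : True := by
  have := @pvydDjSh.eq_1
  trivial

section shift

variable (s : ℤ × ℤ)

theorem pvyd_dj_adj {u v : ℤ × ℤ} (h : PvtAdj4 u v) : PvtAdj4 (u + s) (v + s) := by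
  unfold PvtAdj4 at h ⊢
  simp only [Prod.fst_add, Prod.snd_add]
  omega

theorem pvyd_dj_chain {l : List (ℤ × ℤ)} (h : List.IsChain PvtAdj4 l) : List.IsChain PvtAdj4 (l.map (· + s)) := by
  rw [List.isChain_iff_getElem] at h ⊢
  intro i hi
  simp only [List.length_map] at hi
  simp only [List.getElem_map]
  exact pvyd_dj_adj s (h i hi)

theorem pvyd_dj_nodup {l : List (ℤ × ℤ)} (h : l.Nodup) : (l.map (· + s)).Nodup := h.map (add_left_injective s)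

theorem pvyd_dj_ctr (δ : ℝ) (q : ℤ × ℤ) : pvtCtr δ (q + s) = pvtCtr δ q + (δ : ℂ) * pvtZ s := by
  rw [pvccm_ctr, pvccm_ctr, pvtZ_add]
  ring

theorem pvyd_dj_sh_mono {A B : Set (ℤ × ℤ)} (h : A ⊆ B) : pvydDjSh s A ⊆ pvydDjSh s B := Set.image_mono h

end shift

section fit

variable {τ : Type} {cc : ℝ} {𝔓 : PvrxPar τ cc} {𝔤 : PvydGeo τ} {c : Bool} {m : ℕ} {ε : ℝ} {z : ℂ} {t : τ} {r : ℝ}
variable {σ : Type} {PLx : PvfjPlug σ} {mm : ℤ} {n : ℕ}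

/-- **WHAT THE GEOMETRY OWES FOR `dj1`** at the `Σ₁` pattern `π` (end pin = the plug of `t`, start pin = the reference plug, arc = the cells of the thick link `e`), carried by the vector `s` of the fine grid:
FIVE PLANAR INCLUSIONS IN FINE CELLS + TWO PLANAR DISJOINTNESS FACTS -/
structure PvydDjFit (𝔓 : PvrxPar τ cc) (𝔤 : PvydGeo τ) (c : Bool) (m : ℕ) (ε : ℝ) (z : ℂ) (t : τ) (r : ℝ) (π : PvfjPat PLx mm n) (s : ℤ × ℤ) : Prop where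
  /-- the state region of `t` : in the body of `t` -/
  Ot : pvspO 𝔓.mod.N (𝔓.ty m z t) z (pvlmH m) ⊆ pvtU (𝔤.kit m ε).δ (pvydDjSh s (pvytBody PLx mm π.1.ct π.1.tt))
  /-- the exit funnel: in the body of `t` + the last cell of its exit nozzle, off the square of the door -/
  Ko : pvnhKp (𝔤.lo 𝔓 c m ε z t) (𝔤.wo m z t).Et ⊆ pvtU (𝔤.kit m ε).δ (pvydDjSh s (pvytBody PLx mm π.1.ct π.1.tt)) ∪
    (pvtSq (𝔤.kit m ε).δ (pvytSh mm (pvytBo PLx mm π.1.ct π.1.tt) + s) \ pvccSq (z + (𝔓.Γ m).pout t) r)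
  /-- the region of the reference plug: in its body -/
  Ou : pvthSim (pvydWu 𝔓 m z t) 1 '' 𝔤.Ou m ⊆ pvtU (𝔤.kit m ε).δ (pvydDjSh s (pvytBody PLx mm π.1.cs π.1.ts))
  /-- the funnel `r` : in the body of the reference plug + the last cell of its entrance nozzle, off the square of the door -/
  Kr : pvthSim (pvydWu 𝔓 m z t) 1 '' pvnhKp (𝔤.lr 𝔓 m ε) (𝔤.wr m).Et ⊆ pvtU (𝔤.kit m ε).δ (pvydDjSh s (pvytBody PLx mm π.1.cs π.1.ts)) ∪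
    (pvtSq (𝔤.kit m ε).δ (pvytSh mm (pvytBi PLx mm π.1.cs π.1.ts) + s) \ pvccSq (pvydWu 𝔓 m z t + (𝔓.Γ m).pin0) r)
  /-- the thick link `e` : in the foreign cells of the pattern (bodies, arc, their collars) -/
  Ke : pvnhKp (𝔤.le 𝔓 c m z t) (𝔤.we m z t).Et ⊆ pvtU (𝔤.kit m ε).δ (pvydDjSh s (pvytE π))
  dKoKe : Disjoint (pvnhKp (𝔤.lo 𝔓 c m ε z t) (𝔤.wo m z t).Et) (pvnhKp (𝔤.le 𝔓 c m z t) (𝔤.we m z t).Et)
  dKrKe : Disjoint (pvthSim (pvydWu 𝔓 m z t) 1 '' pvnhKp (𝔤.lr 𝔓 m ε) (𝔤.wr m).Et) (pvnhKp (𝔤.le 𝔓 c m z t) (𝔤.we m z t).Et)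

/-- **THE GEOMETRY OF THE LONG CYCLE AT A PATTERN** -/
theorem pvyd_dj_fit (π : PvfjPat PLx mm n) (s : ℤ × ℤ) (hPL : PLx.WF) (R : PvccKitRef (𝔤.kit m ε) r) (del : (𝔤.kit m ε).δ = (𝔓.Γ m).δ) {δc : ℝ} (hδ : (𝔤.kit m ε).δ = δc / (2 * (mm : ℝ) + 1))
    (hz : z = pvmgPt δc π.1.ct + ((𝔤.kit m ε).δ : ℂ) * pvtZ s) (hl1 : (𝔓.Γ m).l1 t = π.w)
    (hpo : (𝔓.Γ m).pout t = pvfjDoor mm δc (PLx.yp π.1.tt) (PLx.dp π.1.tt)) (hdo : (𝔓.Γ m).dout t = pvtZ (PLx.dp π.1.tt))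
    (far : ∀ p ∈ pvfjSh π.1.ct (pvtbHull (PLx.B π.1.tt)), ∀ q ∈ pvfjSh π.1.cs (pvtbHull (PLx.B π.1.ts)), PvfjFar p q)
    (F : PvydDjFit 𝔓 𝔤 c m ε z t r π s) :
    PvydDjCyc 𝔓 𝔤 c m ε z t r (pvytSh mm (pvytF π 0) + s) (pvytSh mm (pvytF π 1) + s) (pvytSh mm (pvytBi PLx mm π.1.cs π.1.ts) + s) ((pvytT π).map (· + s)) (pvydDjSh s (pvytE π)) := by
  have hm : 10 ≤ mm := (pvyt_In π).m10
  have hm0 : 0 ≤ mm := by omega
  have hdis : Disjoint (pvytFull PLx mm π.1.ct π.1.tt) (pvytFull PLx mm π.1.cs π.1.ts) := pvfj_far_disj (by omega) far (by omega)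
  -- the two fattened bodies, shifted, are far apart
  have hU : Disjoint (pvtU (𝔤.kit m ε).δ (pvydDjSh s (pvytSh mm '' pvytFull PLx mm π.1.ct π.1.tt))) (pvtU (𝔤.kit m ε).δ (pvydDjSh s (pvytSh mm '' pvytFull PLx mm π.1.cs π.1.ts))) := by
    refine pvyt_U_disj R.δ0 ?_
    rintro _ ⟨_, ⟨p, hp, rfl⟩, rfl⟩ _ ⟨_, ⟨q, hq, rfl⟩, rfl⟩
    have := pvfj_far_gap' (by omega) far hp hq
    simp only [pvytSh, Prod.fst_add, Prod.snd_add, add_sub_add_right_eq_sub]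
    rcases this with h | h
    · exact Or.inl (by omega)
    · exact Or.inr (by omega)
  have bt : pvytBody PLx mm π.1.ct π.1.tt ⊆ pvytE π := by
    rintro _ ⟨q, ⟨hq, hn⟩, rfl⟩
    simp only [Set.mem_insert_iff, Set.mem_singleton_iff, not_or] at hn
    refine ⟨q, ⟨pvyt_full_sub_t π hq, ?_⟩, rfl⟩
    simp only [Set.mem_insert_iff, Set.mem_singleton_iff, not_or]
    refine ⟨hn.1, ?_⟩
    rintro rfl
    exact Set.disjoint_left.1 hdis hq (pvyt_Bi_full hPL hm0 _ _)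
  have bs : pvytBody PLx mm π.1.cs π.1.ts ⊆ pvytE π := by
    rintro _ ⟨q, ⟨hq, hn⟩, rfl⟩
    simp only [Set.mem_insert_iff, Set.mem_singleton_iff, not_or] at hn
    refine ⟨q, ⟨pvyt_full_sub_s π hq, ?_⟩, rfl⟩
    simp only [Set.mem_insert_iff, Set.mem_singleton_iff, not_or]
    refine ⟨?_, hn.2⟩
    rintro rfl
    exact Set.disjoint_left.1 hdis (pvyt_Bo_full hPL hm0 _ _) hq
  -- everything of a candidate lives in its fattened body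
  have fb : ∀ (cq : ℤ × ℤ) (tq : σ), pvtU (𝔤.kit m ε).δ (pvydDjSh s (pvytBody PLx mm cq tq)) ⊆ pvtU (𝔤.kit m ε).δ (pvydDjSh s (pvytSh mm '' pvytFull PLx mm cq tq)) :=
    fun cq tq => pvyt_U_mono _ (pvyd_dj_sh_mono s (Set.image_mono Set.sdiff_subset))
  have fq : ∀ (cq : ℤ × ℤ) (tq : σ), ∀ q ∈ pvytFull PLx mm cq tq, ∀ S : Set ℂ, pvtSq (𝔤.kit m ε).δ (pvytSh mm q + s) \ S ⊆ pvtU (𝔤.kit m ε).δ (pvydDjSh s (pvytSh mm '' pvytFull PLx mm cq tq)) :=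
    fun cq tq q hq S => Set.sdiff_subset.trans (Set.subset_biUnion_of_mem (u := fun w => pvtSq (𝔤.kit m ε).δ w) (Set.mem_image_of_mem _ (Set.mem_image_of_mem _ hq)))
  have t1 := F.Ot.trans (fb _ _)
  have t2 := F.Ko.trans (Set.union_subset (fb _ _) (fq _ _ _ (pvyt_Bo_full hPL hm0 _ _) _))
  have s1 := F.Ou.trans (fb _ _)
  have s3 := F.Kr.trans (Set.union_subset (fb _ _) (fq _ _ _ (pvyt_Bi_full hPL hm0 _ _) _))
  have z1 : ∀ {A : Set (ℤ × ℤ)}, A ⊆ pvytE π → pvtU (𝔤.kit m ε).δ (pvydDjSh s A) ⊆ pvytZone (𝔤.kit m ε).δ r (pvydDjSh s (pvytE π)) (pvytSh mm (pvytF π 0) + s) (z + (𝔓.Γ m).pout t)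
      (pvytSh mm (pvytBi PLx mm π.1.cs π.1.ts) + s) (pvydWu 𝔓 m z t + (𝔓.Γ m).pin0) :=
    fun hA => (pvyt_U_mono _ (pvyd_dj_sh_mono s hA)).trans (Set.subset_union_left.trans Set.subset_union_left)
  have eL : (pvytSh mm (pvytF π 0) + s) :: (pvytSh mm (pvytF π 1) + s) :: (pvytT π).map (· + s) = (pvytSh mm (pvytF π 0) :: pvytSh mm (pvytF π 1) :: pvytT π).map (· + s) := rfl
  have ed : pvtZ (pvytSh mm (pvytF π 1) + s) - pvtZ (pvytSh mm (pvytF π 0) + s) = pvtZ (pvytSh mm (pvytF π 1)) - pvtZ (pvytSh mm (pvytF π 0)) := by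
    rw [pvtZ_add, pvtZ_add]
    ring
  exact
    { ref := R
      del := del
      chain := by
        rw [eL]
        exact pvyd_dj_chain s (pvyt_path_chain π)
      nodup := by
        rw [eL]
        exact pvyd_dj_nodup s (pvyt_path_nodup π)
      cen := by
        rw [ed, hl1, pvtZ_add, pvyt_centres_add, pvyt_path_cen]
        simp only [List.map_cons, List.map_map, pvtZ_add]
        congr 1
        refine List.map_congr_left fun q _ => ?_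
        simp only [Function.comp, pvtZ_add]
      last := by
        have h := pvyt_path_last π
        have e2 : ((pvytSh mm (pvytF π 0) + s) :: (pvytSh mm (pvytF π 1) + s) :: (pvytT π).map (· + s))[((pvytT π).map (· + s)).length + 1]'(by simp)
            = (pvytSh mm (pvytF π 0) :: pvytSh mm (pvytF π 1) :: pvytT π)[(pvytT π).length + 1]'(by simp) + s := by
          simp only [List.length_map]
          rw [List.getElem_of_eq eL (by simp), List.getElem_map]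
        rw [e2, h]
      door := by
        rw [hz, hpo, pvyd_dj_ctr, pvyd_dj_ctr, add_right_comm, pvyt_path_door π hm0 hδ]
        ring
      dir := by
        rw [hdo, ed, pvyt_path_dir]
      off := by
        rw [eL]
        intro q hq
        obtain ⟨p, hp, rfl⟩ := List.mem_map.1 hq
        rintro ⟨p', hp', e⟩
        have : p' = p := add_right_cancel e
        subst this
        exact pvyt_path_off π _ hp hp'
      Ot := F.Ot.trans (z1 bt)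
      Ou := F.Ou.trans (z1 bs)
      Ko := F.Ko.trans (Set.union_subset (z1 bt) (by
        rw [pvyt_F_zero]
        exact Set.subset_union_right.trans Set.subset_union_left))
      Kr := F.Kr.trans (Set.union_subset (z1 bs) Set.subset_union_right)
      Ke := F.Ke.trans (z1 le_rfl)
      dOtOu := hU.mono t1 s1
      dOtKr := hU.mono t1 s3
      dOuKo := (hU.mono t2 s1).symm
      dKoKr := hU.mono t2 s3
      dKoKe := F.dKoKe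
      dKrKe := F.dKrKe }

end fit

/-! ## 3. at `Γ` of 114 -/

section lz

variable {𝔑r : PvrcNum} {𝔑 : PvmnNum} {T : Type} {ty : T → PvmnType}

/-- integer division moves by at most one when the argument moves by at most one -/
theorem pvyd_dj_div {K a b : ℤ} (hK : 0 < K) (h : a ≤ b + 1) : a / K ≤ b / K + 1 := by
  have := pvlz_div_le hK (j := 1) (a := a) (b := b) (by simpa using h)
  simpa using this

/-- **the bodies of the plug and of the reference plug are far apart** (114: `pvlz_u_off`) -/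
theorem pvyd_dj_lz_far (H : PvlzHyp 𝔑r 𝔑 ty) (c : ℝ) (m : ℕ) (t : T) :
    ∀ p ∈ pvfjSh (pvlzPat H c m t).1.ct (pvtbHull (((pvlzExt (pvfjmPlug 𝔑 ty)).ref (pvlmN c m)).B (pvlzPat H c m t).1.tt)),
      ∀ q ∈ pvfjSh (pvlzPat H c m t).1.cs (pvtbHull (((pvlzExt (pvfjmPlug 𝔑 ty)).ref (pvlmN c m)).B (pvlzPat H c m t).1.ts)), PvfjFar p q := by
  have hN : (0 : ℤ) < (pvlmN c m : ℤ) := by exact_mod_cast pvlm_N_pos c m
  rintro _ ⟨p, hp, rfl⟩ _ ⟨q, hq, rfl⟩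
  -- menu cells (183: the bodies WITH THEIR HOLES; the hull of a refinement is the refined hull, the hull stays in the box)
  have hp' : (p.1 / (pvlmN c m : ℤ), p.2 / (pvlmN c m : ℤ)) ∈ pvmnBox (𝔑.nBx + 8) := by
    have h1 : p ∈ pvtbHull (pvrcRef (pvlmN c m : ℤ) ((pvfjmPlug 𝔑 ty).B t)) := hp
    rw [pvyt_hull_ref hN (pvyt_h_B_fin (pvfjm_wf H.num H.wp H.typ) t)] at h1
    exact pvtb_hull_box ((pvfjm_wf H.num H.wp H.typ).B_box t) h1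
  have hq' : (q.1 / (pvlmN c m : ℤ), q.2 / (pvlmN c m : ℤ)) ∈ pvmnBox 8 := by
    have h1 : q ∈ pvtbHull (pvrcRef (pvlmN c m : ℤ) (pvmnBox 8)) := hq
    rw [pvyt_hull_ref hN (S := pvmnBox 8) (Claimed.Agent.R291.tsc_box_finite _ _ _ _)] at h1
    exact pvtb_hull_box (Set.Subset.refl _) h1
  have hoff := pvlz_u_off (q := (ty t).q 0) (a := pvlzAm 𝔑 (ty t)) (L := pvlzL 𝔑) (pvlz_acc_spec (H.acc t)).am_dir (pvlz_q0_box (H.typ t)) le_rfl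
  have hmem : (q.1 / (pvlmN c m : ℤ), q.2 / (pvlmN c m : ℤ)) + pvlzC 𝔑 (ty t) ∈ pvfjSh (pvlzC 𝔑 (ty t)) (pvmnBox 8) := ⟨_, hq', rfl⟩
  have hout : (q.1 / (pvlmN c m : ℤ), q.2 / (pvlmN c m : ℤ)) + pvlzC 𝔑 (ty t) ∉ pvmnBox (𝔑.nBx + 40) := fun h => Set.disjoint_left.1 hoff hmem h
  -- the shifted cell, divided
  have e1 : (q.1 + (pvlmN c m : ℤ) * (pvlzC 𝔑 (ty t)).1) / (pvlmN c m : ℤ) = q.1 / (pvlmN c m : ℤ) + (pvlzC 𝔑 (ty t)).1 := Int.add_mul_ediv_left _ _ hN.ne'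
  have e2 : (q.2 + (pvlmN c m : ℤ) * (pvlzC 𝔑 (ty t)).2) / (pvlmN c m : ℤ) = q.2 / (pvlmN c m : ℤ) + (pvlzC 𝔑 (ty t)).2 := Int.add_mul_ediv_left _ _ hN.ne'
  have key : ¬ ((q.1 + (pvlmN c m : ℤ) * (pvlzC 𝔑 (ty t)).1 ≤ p.1 + 1 ∧ p.1 ≤ q.1 + (pvlmN c m : ℤ) * (pvlzC 𝔑 (ty t)).1 + 1) ∧
      (q.2 + (pvlmN c m : ℤ) * (pvlzC 𝔑 (ty t)).2 ≤ p.2 + 1 ∧ p.2 ≤ q.2 + (pvlmN c m : ℤ) * (pvlzC 𝔑 (ty t)).2 + 1)) := by
    rintro ⟨⟨a1, a2⟩, a3, a4⟩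
    have b1 := pvyd_dj_div hN a1
    have b2 := pvyd_dj_div hN a2
    have b3 := pvyd_dj_div hN a3
    have b4 := pvyd_dj_div hN a4
    rw [e1] at b1 b2
    rw [e2] at b3 b4
    obtain ⟨c1, c2, c3, c4⟩ := hp'
    refine hout ⟨?_, ?_, ?_, ?_⟩ <;> simp only [Prod.fst_add, Prod.snd_add] <;> push_cast at c1 c2 c3 c4 ⊢ <;> omega
  have hs : (p + (pvlzPat H c m t).1.ct) = p := add_zero p
  have hcs : (pvlzPat H c m t).1.cs = ((pvlmN c m : ℤ) * (pvlzC 𝔑 (ty t)).1, (pvlmN c m : ℤ) * (pvlzC 𝔑 (ty t)).2) := rfl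
  show PvfjFar (p + (pvlzPat H c m t).1.ct) (q + (pvlzPat H c m t).1.cs)
  rw [hs, hcs]
  constructor
  · rintro rfl
    refine key ⟨⟨?_, ?_⟩, ?_, ?_⟩ <;> simp only [Prod.fst_add, Prod.snd_add] <;> omega
  · rintro ⟨-, a1, a2, a3, a4⟩
    simp only [Prod.fst_add, Prod.snd_add] at a1 a2 a3 a4
    exact key ⟨⟨a1, a2⟩, a3, a4⟩

/-- **the lattice of the candidates lies on the fine grid** (`dl = 1 / nd`: M13 of 205 272) -/
theorem pvyd_dj_grid (hr : 𝔑r.Ok) {nd : ℕ} (hnd : 𝔑r.dl = 1 / (nd : ℝ)) (hnd0 : nd ≠ 0) (c : ℝ) (m : ℕ) (p : ℤ × ℤ) :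
    l9Pt (pvlmH m) p = ((𝔑r.dc c m / (2 * (𝔑r.mm : ℝ) + 1) : ℝ) : ℂ) *
      pvtZ (((2 * 𝔑r.mm + 1) * ((nd : ℤ) * (pvlmN c m : ℤ))) * p.1, ((2 * 𝔑r.mm + 1) * ((nd : ℤ) * (pvlmN c m : ℤ))) * p.2) := by
  have h1 := pvrc_dc_mul hr c m
  have hmm : (0 : ℝ) < 2 * (𝔑r.mm : ℝ) + 1 := by
    have : (10 : ℝ) ≤ (𝔑r.mm : ℝ) := by exact_mod_cast hr.mm10
    linarith
  have hnd' : (nd : ℝ) ≠ 0 := by exact_mod_cast hnd0
  have h2 : pvlmH m = (nd : ℝ) * ((pvlmN c m : ℝ) * 𝔑r.dc c m) := by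
    rw [h1, hnd]
    field_simp
  apply Complex.ext
  · simp only [l9Pt, pvtZ, Complex.mul_re, Complex.ofReal_re, Complex.ofReal_im, Complex.add_re, Complex.intCast_re, Complex.mul_im, Complex.I_re, Complex.I_im, Complex.intCast_im, Complex.add_im]
    push_cast
    rw [h2]
    field_simp
    ring
  · simp only [l9Pt, pvtZ, Complex.mul_re, Complex.ofReal_re, Complex.ofReal_im, Complex.add_re, Complex.intCast_re, Complex.mul_im, Complex.I_re, Complex.I_im, Complex.intCast_im, Complex.add_im]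
    push_cast
    rw [h2]
    field_simp
    ring

end lz


/-! ## 4. the field `dj1` at `Γ` of 114 -/

section lzroof

variable {𝔑r : PvrcNum} {𝔑 : PvmnNum} {T : Type} {ty : T → PvmnType} {cc : ℝ} {𝔓 : PvrxPar T cc} {𝔤 : PvydGeo T} {c : Bool} {m : ℕ} {ε : ℝ} {z : ℂ} {t : T} {r : ℝ}

/-- the vector of the fine grid of the candidate `l9Pt h p` -/
noncomputable def pvydDjS (𝔑r : PvrcNum) (nd : ℕ) (c' : ℝ) (m : ℕ) (p : ℤ × ℤ) : ℤ × ℤ :=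
  (((2 * 𝔑r.mm + 1) * ((nd : ℤ) * (pvlmN c' m : ℤ))) * p.1, ((2 * 𝔑r.mm + 1) * ((nd : ℤ) * (pvlmN c' m : ℤ))) * p.2)

theorem pvyd_dj_eqns_cite2 : True := by
  have := @pvydDjS.eq_1
  trivial

/-- **`dj1` AT `Γ` OF 114** (fixed mesh) -/
theorem pvyd_dj1_lz (H : PvlzHyp 𝔑r 𝔑 ty) (c' : ℝ) (hΓ : 𝔓.Γ m = pvlzGam H c' m) (R : PvccKitRef (𝔤.kit m ε) r) (del : (𝔤.kit m ε).δ = (𝔓.Γ m).δ)
    (s : ℤ × ℤ) (hz : z = ((𝔤.kit m ε).δ : ℂ) * pvtZ s) (F : PvydDjFit 𝔓 𝔤 c m ε z t r (pvlzPat H c' m t) s) :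
    PvydDj (((𝔓.Γ m).l1 t).length + 3) (pvskList ((pvydDat 𝔓 𝔤 c).sOut m ε z t) ((pvydDat 𝔓 𝔤 c).kit m ε) (z + (𝔓.Γ m).pout t) ((𝔓.Γ m).dout t) ((𝔓.Γ m).l1 t)
      ((pvydDat 𝔓 𝔤 c).Kr m ε z t) ((pvydDat 𝔓 𝔤 c).Ar m ε z t) ((pvydDat 𝔓 𝔤 c).sRef m ε z t)) := by
  refine pvyd_dj1_of (pvyd_dj_fit (pvlzPat H c' m t) s ((pvlz_ext_wf (pvfjm_wf H.num H.wp H.typ)).ref (pvlm_N_pos c' m)) R del (δc := 𝔑r.dc c' m) ?_ ?_ ?_ ?_ ?_
    (pvyd_dj_lz_far H c' m t) F)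
  · rw [del, hΓ]
    rfl
  · rw [show (pvlzPat H c' m t).1.ct = 0 from rfl, pvfj_Pt_zero, zero_add]
    exact hz
  · rw [hΓ]
    rfl
  · rw [hΓ]
    rfl
  · rw [hΓ]
    rfl

/-- **THE FIELD `dj1` OF `CandOk` AT `Γ` OF 114, AT A CANDIDATE OF THE LATTICE** -/
theorem pvyd_dj1_lz_ev (H : PvlzHyp 𝔑r 𝔑 ty) (c' : ℝ) (hΓ : 𝔓.Γ m = pvlzGam H c' m) {nd : ℕ} (hnd : 𝔑r.dl = 1 / (nd : ℝ)) (hnd0 : nd ≠ 0) (p : ℤ × ℤ) {r : ℝ → ℝ}
    (R : ∀ᶠ ε in 𝓝[>] (0 : ℝ), PvccKitRef (𝔤.kit m ε) (r ε)) (del : ∀ᶠ ε in 𝓝[>] (0 : ℝ), (𝔤.kit m ε).δ = (𝔓.Γ m).δ)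
    (F : ∀ᶠ ε in 𝓝[>] (0 : ℝ), PvydDjFit 𝔓 𝔤 c m ε (l9Pt (pvlmH m) p) t (r ε) (pvlzPat H c' m t) (pvydDjS 𝔑r nd c' m p)) :
    ∀ᶠ ε in 𝓝[>] (0 : ℝ), PvydDj (((𝔓.Γ m).l1 t).length + 3) (pvskList ((pvydDat 𝔓 𝔤 c).sOut m ε (l9Pt (pvlmH m) p) t) ((pvydDat 𝔓 𝔤 c).kit m ε) (l9Pt (pvlmH m) p + (𝔓.Γ m).pout t)
      ((𝔓.Γ m).dout t) ((𝔓.Γ m).l1 t) ((pvydDat 𝔓 𝔤 c).Kr m ε (l9Pt (pvlmH m) p) t) ((pvydDat 𝔓 𝔤 c).Ar m ε (l9Pt (pvlmH m) p) t) ((pvydDat 𝔓 𝔤 c).sRef m ε (l9Pt (pvlmH m) p) t)) := by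
  filter_upwards [R, del, F] with ε h1 h2 h3
  refine pvyd_dj1_lz H c' hΓ h1 h2 (pvydDjS 𝔑r nd c' m p) ?_ h3
  rw [h2, hΓ]
  exact pvyd_dj_grid H.ok hnd hnd0 c' m p

end lzroof

end Claimed.Agent.R289
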