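-- KEEP
import Claimed.Agent.R289.Exit.DjP
import Claimed.Agent.R289.Tr.ModPB
import Claimed.Agent.R289.Tr.LaneS

/-!
# Row 289 (S0537), ROAD P, Exit/DjQ : `dj1 dj2` FROM A CONTRACT IN MENU CELLS, ONE LINE PER LINK      (pen helper58; prefix `pvyd_dq`, `PvydDq*`, `pvydDq*`; continues `Exit/DjP.lean`)

`d = dl h` = side of a MENU cell, `dc = d / N` = side of a coarse cell, `δ = dc / (2 mm + 1)` = side of a fine cell (= mesh of the kit).      `z = pvmgPt dc a` = centre of the candidate.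
**`PvydDqIn 𝔓 𝔤 𝔑r 𝔑 ty c' c m ε r a t`** = THE CONTRACT (all sets PLANAR, each line speaks of ONE link, except the last):
* `pl`    [138 183 169]   `PvytPl` of 183 (state ball, `K_o`, `K_i` in the fine cells of the body)
* `bar`   [model]         the placed bar at the pin lies in the state ball (`pvmh_bar`)
* `o_sd`  [8 135 169]     `K_o ⊆ z + U_d (N⁸ (cells 5..9))`      (EXIT half of the arc)
* `Ou`    [term]          `O_u ⊆ U_d ([-4,3]²)`, reference frame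
* `r_pl`  [294 114]       `K_r ⊆` fine cells of the body of `u` `∪` (last cell of the entrance nozzle minus the door square), REFERENCE FRAME
* `r_sd`  [294 114]       `K_r ⊆ [-9 d, 0] × [-9 d, 10 d]`, REFERENCE FRAME      (WEST of the centre of `u`)
* `e_sd`  [164 122]       `K_e ⊆ z + U_d (pvydDqAe 𝔑 τ)`,   **`pvydDqAe 𝔑 τ := N⁸ (cells 1..4) ∪ N⁶ (C₀ ∪ Ax) ∪ (C + [1,8] × [-8,8])`**   (`pvlzG`, `pvlzC` of 114)
* `dKbKe` [76 15 164]     `K_b ∩ K_e = ∅`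
**`pvyd_dq_fit`** : `PvydDqIn → PvydDjFit` (record of `Exit/DjP`);   **`pvyd_dq_dj`** : `PvydDqIn → dj1 ∧ dj2` at `z = pvmgPt dc a` (fixed mesh; `PvccKitRef`, `del`);   `pvydDqA`, `pvyd_dq_grid` : `pvmgPt dc (pvydDqA nd c' m p) = l9Pt h p`.
PROVED HERE (type level):   `pvyd_dq_sep` : `N⁹ (cells 5..9) ∩ Ae ⊆` bar at the pin (T2 T4 ACC);   `pvyd_dq_west` : `Ae` is off `C + [-10,0] × [-10,10]`;   `pvyd_dq_F0`, `pvyd_dq_F0_ref` : `Ae` lies in the foreign cells of the `Σ₁` pattern of 114.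
DICTIONARY:   `pvyd_dq_menu` : `pvmgPl (pvmgPt δ s) (N K δ) S = pvtU δ (s + Ref_K (Ref_N S))`;   `pvyd_dq_E` : `Ref_K F ⊆ pvytE π` for `F ⊆ F0`;   `pvyd_dq_B` : `Ref_K F ⊆ pvytBody` for `F ⊆ c + B` off the two fronts;   `pvyd_dq_noz` (the last cell of a nozzle lies in the block of the front cell);
`pvyd_dj_body`, `pvyd_dj_Bo`, `pvyd_dj_Bi` (body and nozzles at the coarse cell `a` = those at `0` shifted by `pvydDjK mm a`);   `pvyd_dq_sim_U`, `_sq`, `_cc` (translations).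
-/

set_option autoImplicit false
set_option linter.unusedSectionVars false
set_option linter.unusedVariables false
set_option linter.unusedSimpArgs false

namespace Claimed.Agent.R289

open MeasureTheory Filter Topology Set Metric Claims.C0465 Claims.C0467 Claimed.Agent.R291
open scoped ENNReal


/-! shift lemmas -/
section shiftB

variable {σ : Type} (PLx : PvfjPlug σ) (mm : ℤ)

/-- the vector of the fine grid of the coarse cell `a` -/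
def pvydDjK (mm : ℤ) (a : ℤ × ℤ) : ℤ × ℤ := ((2 * mm + 1) * a.1, (2 * mm + 1) * a.2)

theorem pvyd_dj_Bo (a : ℤ × ℤ) (t : σ) : pvytBo PLx mm a t = pvytBo PLx mm 0 t + pvydDjK mm a := by
  unfold pvytBo pvtbPt pvydDjK
  ext <;> simp <;> ring

theorem pvyd_dj_Bi (a : ℤ × ℤ) (t : σ) : pvytBi PLx mm a t = pvytBi PLx mm 0 t + pvydDjK mm a := by
  unfold pvytBi pvtbPt pvydDjK
  ext <;> simp <;> ring

theorem pvyd_dj_full (a : ℤ × ℤ) (t : σ) (v : ℤ × ℤ) : v + pvydDjK mm a ∈ pvytFull PLx mm a t ↔ v ∈ pvytFull PLx mm 0 t := by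
  unfold pvytFull pvtbD pvfjSh pvydDjK
  constructor
  · rintro ⟨_, ⟨x, hx, rfl⟩, h1, h2, h3, h4⟩
    refine ⟨x + 0, ⟨x, hx, rfl⟩, ?_⟩
    simp only [Prod.fst_add, Prod.snd_add, Prod.fst_zero, Prod.snd_zero] at h1 h2 h3 h4 ⊢
    refine ⟨?_, ?_, ?_, ?_⟩ <;> nlinarith
  · rintro ⟨_, ⟨x, hx, rfl⟩, h1, h2, h3, h4⟩
    refine ⟨x + a, ⟨x, hx, rfl⟩, ?_⟩
    simp only [Prod.fst_add, Prod.snd_add, Prod.fst_zero, Prod.snd_zero] at h1 h2 h3 h4 ⊢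
    refine ⟨?_, ?_, ?_, ?_⟩ <;> nlinarith

/-- **the body at the coarse cell `a` is the shifted body at the origin** -/
theorem pvyd_dj_body (a : ℤ × ℤ) (t : σ) : pvytBody PLx mm a t = pvydDjSh (pvydDjK mm a) (pvytBody PLx mm 0 t) := by
  ext w
  constructor
  · rintro ⟨v, ⟨hv, hn⟩, rfl⟩
    simp only [Set.mem_insert_iff, Set.mem_singleton_iff, not_or] at hn
    refine ⟨pvytSh mm (v - pvydDjK mm a), ⟨v - pvydDjK mm a, ⟨?_, ?_⟩, rfl⟩, ?_⟩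
    · rw [← pvyd_dj_full PLx mm a t, sub_add_cancel]
      exact hv
    · simp only [Set.mem_insert_iff, Set.mem_singleton_iff, not_or]
      refine ⟨fun e => hn.1 ?_, fun e => hn.2 ?_⟩
      · rw [pvyd_dj_Bo, ← e, sub_add_cancel]
      · rw [pvyd_dj_Bi, ← e, sub_add_cancel]
    · show pvytSh mm (v - pvydDjK mm a) + pvydDjK mm a = pvytSh mm v
      unfold pvytSh
      abel
  · rintro ⟨_, ⟨v, ⟨hv, hn⟩, rfl⟩, rfl⟩
    simp only [Set.mem_insert_iff, Set.mem_singleton_iff, not_or] at hn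
    refine ⟨v + pvydDjK mm a, ⟨(pvyd_dj_full PLx mm a t v).2 hv, ?_⟩, ?_⟩
    · simp only [Set.mem_insert_iff, Set.mem_singleton_iff, not_or]
      refine ⟨fun e => hn.1 ?_, fun e => hn.2 ?_⟩
      · rw [pvyd_dj_Bo] at e
        exact add_right_cancel e
      · rw [pvyd_dj_Bi] at e
        exact add_right_cancel e
    · show pvytSh mm (v + pvydDjK mm a) = pvytSh mm v + pvydDjK mm a
      unfold pvytSh
      abel

end shiftB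



/-! ## 1. the menu cells of the thick link `e` -/

/-- **THE MENU CELLS OF THE THICK LINK `e : u → t`**: the 8-tube of the pieces `1..4`, the room `N⁶ (C₀ ∪ Ax)` of 114, the EAST half of the body of `u` -/
noncomputable def pvydDqAe (𝔑 : PvmnNum) (τ : PvmnType) : Set (ℤ × ℤ) :=
  pvtwN 8 (pvmnCells τ 1 4) ∪ pvlzG 𝔑 τ ∪ pvfjSh (pvlzC 𝔑 τ) (tscBox 1 8 (-8) 8)

theorem pvyd_dq_eqns_cite : True := by
  have := @pvydDqAe.eq_1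
  trivial

section types

variable {𝔑 : PvmnNum} {τ : PvmnType}

/-- the axis of `e`: on the entrance ray, or far outside the box of the pieces -/
theorem pvyd_dq_ax {q a : ℤ × ℤ} {L : ℤ} (ha : PvfjDir a) {n : ℕ} (hq : q ∈ pvmnBox n) (hL : 2 * (n : ℤ) + 60 ≤ L) {x : ℤ × ℤ} (hx : x ∈ pvlzAx q a L) :
    x ∈ pvlzRay q a ∨ x ∉ pvmnBox (n + 59) := by
  obtain ⟨q1, q2, q3, q4⟩ := hq
  rcases ha with rfl | rfl | rfl | rfl
  · rw [pvlz_ax_E] at hx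
    rcases hx with (⟨h1, h2, h3, h4⟩ | ⟨h1, h2, h3, h4⟩) | ⟨h1, h2, h3, h4⟩
    · refine Or.inl ⟨(x.1 - q.1).toNat, ?_⟩
      ext
      · simp only [mul_one]
        rw [Int.toNat_of_nonneg (by omega)]
        omega
      · simp only [mul_zero]
        omega
    · refine Or.inr ?_
      rintro ⟨g1, g2, g3, g4⟩
      push_cast at g1 g2 g3 g4
      omega
    · refine Or.inr ?_
      rintro ⟨g1, g2, g3, g4⟩
      push_cast at g1 g2 g3 g4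
      omega
  · rw [pvlz_ax_W] at hx
    obtain ⟨h1, h2, h3, h4⟩ := hx
    refine Or.inl ⟨(q.1 - x.1).toNat, ?_⟩
    ext
    · simp only [mul_neg, mul_one]
      rw [Int.toNat_of_nonneg (by omega)]
      omega
    · simp only [mul_zero]
      omega
  · rw [pvlz_ax_N] at hx
    rcases hx with ⟨h1, h2, h3, h4⟩ | ⟨h1, h2, h3, h4⟩
    · refine Or.inl ⟨(x.2 - q.2).toNat, ?_⟩
      ext
      · simp only [mul_zero]
        omega
      · simp only [mul_one]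
        rw [Int.toNat_of_nonneg (by omega)]
        omega
    · refine Or.inr ?_
      rintro ⟨g1, g2, g3, g4⟩
      push_cast at g1 g2 g3 g4
      omega
  · rw [pvlz_ax_S] at hx
    rcases hx with ⟨h1, h2, h3, h4⟩ | ⟨h1, h2, h3, h4⟩
    · refine Or.inl ⟨(q.2 - x.2).toNat, ?_⟩
      ext
      · simp only [mul_zero]
        omega
      · simp only [mul_neg, mul_one]
        rw [Int.toNat_of_nonneg (by omega)]
        omega
    · refine Or.inr ?_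
      rintro ⟨g1, g2, g3, g4⟩
      push_cast at g1 g2 g3 g4
      omega

/-- the 6-collar of the axis of `e` is off the 9-tube of the pieces `1..9` -/
theorem pvyd_dq_ax_off (hτ : PvmnIsType 𝔑 τ) (hA : PvlzHasAcc 𝔑 τ) :
    Disjoint (pvtwN 9 (pvmnCells τ 1 9)) (pvtwN 6 (pvlzAx (τ.q 0) (pvlzAm 𝔑 τ) (pvlzL 𝔑))) := by
  have A := pvlz_acc_spec hA
  rw [Set.disjoint_left]
  rintro x ⟨y, hy, a1, a2, a3, a4⟩ ⟨w, hw, b1, b2, b3, b4⟩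
  push_cast at a1 a2 a3 a4 b1 b2 b3 b4
  rcases pvyd_dq_ax A.am_dir (pvlz_q0_box hτ) (le_refl (pvlzL 𝔑)) hw with h | h
  · refine Set.disjoint_left.1 A.rm_cells h ⟨y, hy, ?_, ?_, ?_, ?_⟩ <;> push_cast <;> omega
  · obtain ⟨c1, c2, c3, c4⟩ := pvmn_cells_box hτ hy
    refine h ⟨?_, ?_, ?_, ?_⟩ <;> push_cast <;> omega

/-- **(S1)** the 9-tube of the exit half meets the menu cells of `e` only in the bar at the pin -/
theorem pvyd_dq_sep (hτ : PvmnIsType 𝔑 τ) (hA : PvlzHasAcc 𝔑 τ) : pvtwN 9 (pvmnCells τ 5 9) ∩ pvydDqAe 𝔑 τ ⊆ pvmnBar 𝔑 τ 5 := by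
  have A := pvlz_acc_spec hA
  rintro x ⟨h1, (h2 | h2) | h2⟩
  · exact pvls_sep hτ (i := 8) (j := 9) (by omega) (by omega) ⟨pvtw_N_mono le_rfl (pvmn_cells_mono (by omega) le_rfl) h2, h1⟩
  · -- the room of 114
    have h3 : x ∈ pvtwN 6 (τ.C 0 : Set (ℤ × ℤ)) ∪ pvtwN 6 (pvlzAx (τ.q 0) (pvlzAm 𝔑 τ) (pvlzL 𝔑)) := by
      obtain ⟨w, hw, hh⟩ := h2
      rcases hw with hw | hw
      · exact Or.inl ⟨w, hw, hh⟩
      · exact Or.inr ⟨w, hw, hh⟩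
    rcases h3 with h3 | h3
    · exact pvls_sep hτ (i := 6) (j := 9) (by omega) (by omega) ⟨pvtw_N_mono le_rfl (pvmn_C_sub (a := 0) (b := 4) 0 (by simp) (by simp)) h3, h1⟩
    · exact (Set.disjoint_left.1 (pvyd_dq_ax_off hτ hA) (pvtw_N_mono le_rfl (pvmn_cells_mono (by omega) le_rfl) h1) h3).elim
  · -- the body of `u`
    exfalso
    obtain ⟨y, hy, a1, a2, a3, a4⟩ := h1
    obtain ⟨c1, c2, c3, c4⟩ := pvmn_cells_box hτ hy
    have hoff := pvlz_u_off (q := τ.q 0) (a := pvlzAm 𝔑 τ) (L := pvlzL 𝔑) A.am_dir (pvlz_q0_box hτ) le_rfl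
    have hx : x ∈ pvfjSh (pvlzC 𝔑 τ) (pvmnBox 8) := by
      obtain ⟨v, ⟨v1, v2, v3, v4⟩, rfl⟩ := h2
      exact ⟨v, ⟨by push_cast; omega, by push_cast; omega, by push_cast; omega, by push_cast; omega⟩, rfl⟩
    refine Set.disjoint_left.1 hoff hx ⟨?_, ?_, ?_, ?_⟩ <;> push_cast at a1 a2 a3 a4 ⊢ <;> omega

/-- the 10-box round the centre cell of `u` is far outside the box of the pieces -/
theorem pvyd_dq_u_far {q a : ℤ × ℤ} {L : ℤ} (ha : PvfjDir a) {n : ℕ} (hq : q ∈ pvmnBox n) (hL : 2 * (n : ℤ) + 60 ≤ L) {v : ℤ × ℤ} (hv : v ∈ tscBox (-10) 10 (-10) 10) :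
    v + pvlzCu q a L ∉ pvmnBox (n + 49) := by
  obtain ⟨q1, q2, q3, q4⟩ := hq
  obtain ⟨v1, v2, v3, v4⟩ := hv
  rintro ⟨g1, g2, g3, g4⟩
  push_cast at g1 g2 g3 g4
  rcases ha with rfl | rfl | rfl | rfl
  · rw [pvlz_cu_E] at g1 g2 g3 g4
    simp only [Prod.fst_add, Prod.snd_add] at g1 g2 g3 g4
    omega
  · rw [pvlz_cu_W] at g1 g2 g3 g4
    simp only [Prod.fst_add, Prod.snd_add] at g1 g2 g3 g4
    omega
  · rw [pvlz_cu_N] at g1 g2 g3 g4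
    simp only [Prod.fst_add, Prod.snd_add] at g1 g2 g3 g4
    omega
  · rw [pvlz_cu_S] at g1 g2 g3 g4
    simp only [Prod.fst_add, Prod.snd_add] at g1 g2 g3 g4
    omega

/-- the 6-collar of the axis of `e` keeps off the WEST half of the 10-box of `u` -/
theorem pvyd_dq_ax_west {q a : ℤ × ℤ} {L : ℤ} (ha : PvfjDir a) (hL : 60 ≤ L) :
    Disjoint (pvtwN 6 (pvlzAx q a L)) (pvfjSh (pvlzCu q a L) (tscBox (-10) 0 (-10) 10)) := by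
  rw [Set.disjoint_left]
  rintro _ ⟨w, hw, b1, b2, b3, b4⟩ ⟨v, ⟨v1, v2, v3, v4⟩, rfl⟩
  push_cast at b1 b2 b3 b4
  rcases ha with rfl | rfl | rfl | rfl
  · rw [pvlz_cu_E] at b1 b2 b3 b4
    rw [pvlz_ax_E] at hw
    simp only [Prod.fst_add, Prod.snd_add] at b1 b2 b3 b4
    rcases hw with (⟨h1, h2, h3, h4⟩ | ⟨h1, h2, h3, h4⟩) | ⟨h1, h2, h3, h4⟩ <;> omega
  · rw [pvlz_cu_W] at b1 b2 b3 b4
    rw [pvlz_ax_W] at hw
    simp only [Prod.fst_add, Prod.snd_add] at b1 b2 b3 b4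
    obtain ⟨h1, h2, h3, h4⟩ := hw
    omega
  · rw [pvlz_cu_N] at b1 b2 b3 b4
    rw [pvlz_ax_N] at hw
    simp only [Prod.fst_add, Prod.snd_add] at b1 b2 b3 b4
    rcases hw with ⟨h1, h2, h3, h4⟩ | ⟨h1, h2, h3, h4⟩ <;> omega
  · rw [pvlz_cu_S] at b1 b2 b3 b4
    rw [pvlz_ax_S] at hw
    simp only [Prod.fst_add, Prod.snd_add] at b1 b2 b3 b4
    rcases hw with ⟨h1, h2, h3, h4⟩ | ⟨h1, h2, h3, h4⟩ <;> omega

/-- **(S2)** the menu cells of `e` keep off the WEST half of the 10-box of `u` -/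
theorem pvyd_dq_west (hτ : PvmnIsType 𝔑 τ) (hA : PvlzHasAcc 𝔑 τ) : Disjoint (pvydDqAe 𝔑 τ) (pvfjSh (pvlzC 𝔑 τ) (tscBox (-10) 0 (-10) 10)) := by
  have A := pvlz_acc_spec hA
  have far : ∀ v ∈ tscBox (-10) 0 (-10) 10, v + pvlzC 𝔑 τ ∉ pvmnBox (𝔑.nBx + 49) := fun v hv =>
    pvyd_dq_u_far A.am_dir (pvlz_q0_box hτ) le_rfl ⟨hv.1, by have := hv.2.1; omega, hv.2.2.1, hv.2.2.2⟩
  rw [Set.disjoint_left]
  rintro _ h ⟨v, hv, rfl⟩
  rcases h with (h | h) | h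
  · obtain ⟨y, hy, a1, a2, a3, a4⟩ := h
    obtain ⟨c1, c2, c3, c4⟩ := pvmn_cells_box hτ hy
    refine far v hv ⟨?_, ?_, ?_, ?_⟩ <;> push_cast at a1 a2 a3 a4 ⊢ <;> omega
  · obtain ⟨w, hw, hh⟩ := h
    rcases hw with hw | hw
    · obtain ⟨a1, a2, a3, a4⟩ := hh
      obtain ⟨c1, c2, c3, c4⟩ := hτ.box 0 hw
      refine far v hv ⟨?_, ?_, ?_, ?_⟩ <;> push_cast at a1 a2 a3 a4 ⊢ <;> omega
    · exact Set.disjoint_left.1 (pvyd_dq_ax_west A.am_dir (by unfold pvlzL; omega)) ⟨w, hw, hh⟩ ⟨v, hv, rfl⟩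
  · obtain ⟨v', ⟨g1, g2, g3, g4⟩, e⟩ := h
    have e1 : v' = v := add_right_cancel e
    subst e1
    have := hv.2.1
    omega

/-- **(S3)** the menu cells of `e` lie in the foreign cells of the `Σ₁` pattern (menu level) -/
theorem pvyd_dq_F0 : pvydDqAe 𝔑 τ ⊆ pvlzG 𝔑 τ ∪ pvfjSh (pvlzC 𝔑 τ) (pvmnBox 8) ∪ pvfjmB 𝔑 τ := by
  rintro x ((h | h) | h)
  · exact Or.inr (Or.inr (pvtw_N_mono le_rfl (pvmn_cells_mono le_rfl (by omega)) h))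
  · exact Or.inl (Or.inl h)
  · obtain ⟨v, ⟨v1, v2, v3, v4⟩, rfl⟩ := h
    exact Or.inl (Or.inr ⟨v, ⟨by push_cast; omega, by push_cast; omega, by push_cast; omega, by push_cast; omega⟩, rfl⟩)

end types



/-! ## 2. the dictionary: menu cells, coarse cells, fine cells -/

section dict

theorem pvyd_dq_zero {K a : ℤ} (h1 : -K < K * a) (h2 : K * a < K) : a = 0 := by
  have hK : 0 < K := by omega
  by_contra h
  rcases lt_or_gt_of_ne h with h | h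
  · have : K * a ≤ K * (-1) := mul_le_mul_of_nonneg_left (by omega) hK.le
    omega
  · have : K * 1 ≤ K * a := mul_le_mul_of_nonneg_left (by omega) hK.le
    omega

/-- the last cell of a nozzle lies in the block of the coarse cell in front of the door -/
theorem pvyd_dq_noz {mm : ℤ} (hm : 10 ≤ mm) {y d p : ℤ × ℤ} (hd : PvfjDir d) (h : pvtbPt mm y d (mm + 9) 0 ∈ pvtbD (2 * mm + 1) mm {p}) : p = y + d := by
  obtain ⟨p', hp', h1, h2, h3, h4⟩ := h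
  have hp'' : p' = p := hp'
  rw [hp''] at h1 h2 h3 h4
  simp only [pvtbPt] at h1 h2 h3 h4
  generalize hK : 2 * mm + 1 = K at h1 h2 h3 h4
  have e1 : K * (p.1 - y.1 - d.1) = K * p.1 - K * y.1 - K * d.1 := by ring
  have e2 : K * (p.2 - y.2 - d.2) = K * p.2 - K * y.2 - K * d.2 := by ring
  have z1 : p.1 - y.1 - d.1 = 0 := by
    refine pvyd_dq_zero (K := K) ?_ ?_ <;> rw [e1] <;> rcases hd with rfl | rfl | rfl | rfl <;> simp only [mul_one, mul_zero, mul_neg, zero_mul] at h1 h2 h3 h4 ⊢ <;> omega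
  have z2 : p.2 - y.2 - d.2 = 0 := by
    refine pvyd_dq_zero (K := K) ?_ ?_ <;> rw [e2] <;> rcases hd with rfl | rfl | rfl | rfl <;> simp only [mul_one, mul_zero, mul_neg, zero_mul] at h1 h2 h3 h4 ⊢ <;> omega
  ext
  · simp only [Prod.fst_add]; omega
  · simp only [Prod.snd_add]; omega

/-- a fine cell of the refinement of a coarse cell, in the coordinates of 138 -/
theorem pvyd_dq_ref {mm : ℤ} (hm : 0 ≤ mm) {F : Set (ℤ × ℤ)} {w : ℤ × ℤ} (hw : w ∈ pvrcRef (2 * mm + 1) F) :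
    ∃ p ∈ F, ∃ v ∈ pvtbD (2 * mm + 1) mm {p}, w = pvytSh mm v := by
  obtain ⟨p, hp, h1, h2, h3, h4⟩ := (pvrc_ref_iff (by omega)).1 hw
  refine ⟨p, hp, (w.1 - mm, w.2 - mm), ⟨p, rfl, ?_, ?_, ?_, ?_⟩, ?_⟩
  · simp only; omega
  · simp only; omega
  · simp only; omega
  · simp only; omega
  · unfold pvytSh
    ext <;> simp

variable {σ : Type} {PLx : PvfjPlug σ} {mm : ℤ} {n : ℕ}

/-- **the refinement of coarse cells of the foreign set of a pattern lies in its foreign fine cells** -/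
theorem pvyd_dq_E (π : PvfjPat PLx mm n) {F : Set (ℤ × ℤ)} (hF : F ⊆ π.1.F0 PLx) : pvrcRef (2 * mm + 1) F ⊆ pvytE π := by
  have I : PvfjIn mm (π.1.F0 PLx) (π.1.Ys PLx) (π.1.Yt PLx) (PLx.ym π.1.ts + π.1.cs) (PLx.dm π.1.ts) (PLx.yp π.1.tt + π.1.ct) (PLx.dp π.1.tt) (-(n : ℤ)) n (-(n : ℤ)) n := π.2
  have hm := I.m10
  intro w hw
  obtain ⟨p, hp, v, hv, rfl⟩ := pvyd_dq_ref (by omega) hw
  refine ⟨v, ⟨?_, ?_⟩, rfl⟩
  · exact pvtb_D_mono (by omega) (Set.singleton_subset_iff.2 (pvtb_hull_sub (hF hp))) hv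
  · simp only [Set.mem_insert_iff, Set.mem_singleton_iff, not_or]
    constructor
    · rintro rfl
      have := pvyd_dq_noz hm I.hdt hv
      exact pvtb_out_sub I.ot (this ▸ hF hp)
    · rintro rfl
      have := pvyd_dq_noz hm I.hds hv
      exact pvtb_out_sub I.os (this ▸ hF hp)

/-- **the refinement of coarse cells of a body, off the two fronts, lies in the fine cells of the body** -/
theorem pvyd_dq_B (hm : 10 ≤ mm) (hPL : PLx.WF) (c : ℤ × ℤ) (t : σ) {F : Set (ℤ × ℤ)} (hF : F ⊆ pvfjSh c (PLx.B t)) (h1 : PLx.yp t + c + PLx.dp t ∉ F) (h2 : PLx.ym t + c + PLx.dm t ∉ F) :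
    pvrcRef (2 * mm + 1) F ⊆ pvytBody PLx mm c t := by
  intro w hw
  obtain ⟨p, hp, v, hv, rfl⟩ := pvyd_dq_ref (by omega) hw
  refine ⟨v, ⟨?_, ?_⟩, rfl⟩
  · exact pvtb_D_mono (by omega) (Set.singleton_subset_iff.2 (Set.image_mono pvtb_hull_sub (hF hp))) hv
  · simp only [Set.mem_insert_iff, Set.mem_singleton_iff, not_or]
    constructor
    · rintro rfl
      have := pvyd_dq_noz hm (hPL.dp_dir t) hv
      exact h1 (this ▸ hp)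
    · rintro rfl
      have := pvyd_dq_noz hm (hPL.dm_dir t) hv
      exact h2 (this ▸ hp)

/-- the squares of a shifted set of cells -/
theorem pvyd_dq_U_sh (δ : ℝ) (s : ℤ × ℤ) (A : Set (ℤ × ℤ)) : pvtU δ (pvydDjSh s A) = pvmgPl (pvmgPt δ s) δ A := by
  have h := pvmg_shift (z := 0) (δ := δ) (E := A) s
  rw [zero_add] at h
  rw [← h]
  unfold pvmgPl pvydDjSh
  simp

/-- **MENU CELLS ARE UNIONS OF FINE CELLS**: `δ` = side of a fine cell, `K δ` = side of a coarse cell, `N K δ` = side of a menu cell -/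
theorem pvyd_dq_menu {δ : ℝ} (hδ : 0 < δ) {K N : ℤ} (hK : 0 < K) (hN : 0 < N) (s : ℤ × ℤ) (S : Set (ℤ × ℤ)) :
    pvmgPl (pvmgPt δ s) ((N : ℝ) * ((K : ℝ) * δ)) S = pvtU δ (pvydDjSh s (pvrcRef K (pvrcRef N S))) := by
  rw [pvyd_dq_U_sh]
  unfold pvmgPl
  rw [pvrc_U hK hδ, pvrc_U hN (by positivity)]

/-- translation of a planar set -/
theorem pvyd_dq_sim (w : ℂ) (X : Set ℂ) : pvthSim w 1 '' X = (fun p => p + w) '' X := by
  refine Set.image_congr fun x _ => ?_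
  unfold pvthSim
  ring

theorem pvyd_dq_sim_U (δ : ℝ) (s : ℤ × ℤ) (A : Set (ℤ × ℤ)) : pvthSim (pvmgPt δ s) 1 '' pvtU δ A = pvtU δ (pvydDjSh s A) := by
  rw [pvyd_dq_U_sh, pvyd_dq_sim]
  rfl

theorem pvyd_dq_sim_sq (δ : ℝ) (s v : ℤ × ℤ) : pvthSim (pvmgPt δ s) 1 '' pvtSq δ v = pvtSq δ (v + s) := by
  rw [pvyd_dq_sim]
  ext p
  rw [pvmg_sq_shift]
  constructor
  · rintro ⟨x, hx, rfl⟩
    simpa using hx
  · intro h
    exact ⟨_, h, by simp⟩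

theorem pvyd_dq_sim_cc (w z0 : ℂ) (r : ℝ) {x : ℂ} : pvthSim w 1 x ∈ pvccSq (w + z0) r ↔ x ∈ pvccSq z0 r := by
  unfold pvccSq pvthSim
  show pvccN (w + 1 * x - (w + z0)) < r ↔ pvccN (x - z0) < r
  rw [show w + 1 * x - (w + z0) = x - z0 by ring]

end dict


/-! ## 4. the contract, at `Γ` of 114 -/

section contract

variable {𝔑r : PvrcNum} {𝔑 : PvmnNum} {T : Type} {ty : T → PvmnType} {cc : ℝ} {𝔓 : PvrxPar T cc} {𝔤 : PvydGeo T} {c : Bool} {m : ℕ} {ε : ℝ} {a : ℤ × ℤ} {t : T} {r : ℝ}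

/-- **WHAT THE FIVE LINKS OWE FOR `dj1 dj2`** at the candidate with centre = the corner of the coarse cell `a`;   `d = dl h` = side of a menu cell -/
structure PvydDqIn (𝔓 : PvrxPar T cc) (𝔤 : PvydGeo T) (𝔑r : PvrcNum) (𝔑 : PvmnNum) (ty : T → PvmnType) (c' : ℝ) (c : Bool) (m : ℕ) (ε : ℝ) (r : ℝ) (a : ℤ × ℤ) (t : T) : Prop where
  /-- [138 8 135] state ball, funnels `o i` : in the fine cells of the body -/
  pl : PvytPl 𝔓 𝔤 ((pvfjmPlug 𝔑 ty).ref (pvlmN c' m)) 𝔑r.mm (𝔑r.dc c' m) c m ε r a t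
  /-- [model] the bar at the pin lies in the state ball -/
  bar : pvmgPl (pvmgPt (𝔑r.dc c' m) a) (𝔑r.dl * pvlmH m) (pvmnBar 𝔑 (ty t) 5) ⊆ pvspO 𝔓.mod.N (𝔓.ty m (pvmgPt (𝔑r.dc c' m) a) t) (pvmgPt (𝔑r.dc c' m) a) (pvlmH m)
  /-- [8 135] the exit funnel lives over the 8-tube of the EXIT half of the arc -/
  o_sd : pvnhKp (𝔤.lo 𝔓 c m ε (pvmgPt (𝔑r.dc c' m) a) t) (𝔤.wo m (pvmgPt (𝔑r.dc c' m) a) t).Et ⊆ pvmgPl (pvmgPt (𝔑r.dc c' m) a) (𝔑r.dl * pvlmH m) (pvtwN 8 (pvmnCells (ty t) 5 9))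
  /-- [term] the region of the reference plug, reference frame -/
  Ou : 𝔤.Ou m ⊆ pvtU (𝔑r.dl * pvlmH m) (tscBox (-4) 3 (-4) 3)
  /-- [294 114] the funnel `r`, REFERENCE FRAME: in the fine cells of the body of `u` + the last cell of its entrance nozzle, off the square of the door -/
  r_pl : pvnhKp (𝔤.lr 𝔓 m ε) (𝔤.wr m).Et ⊆ pvtU (𝔤.kit m ε).δ (pvytBody ((pvlzExt (pvfjmPlug 𝔑 ty)).ref (pvlmN c' m)) 𝔑r.mm 0 none) ∪
    (pvtSq (𝔤.kit m ε).δ (pvytSh 𝔑r.mm (pvytBi ((pvlzExt (pvfjmPlug 𝔑 ty)).ref (pvlmN c' m)) 𝔑r.mm 0 none)) \ pvccSq (𝔓.Γ m).pin0 r)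
  /-- [294 114] the funnel `r`, REFERENCE FRAME: WEST of the centre of `u` -/
  r_sd : ∀ x ∈ pvnhKp (𝔤.lr 𝔓 m ε) (𝔤.wr m).Et, -(9 * (𝔑r.dl * pvlmH m)) ≤ x.re ∧ x.re ≤ 0 ∧ -(9 * (𝔑r.dl * pvlmH m)) ≤ x.im ∧ x.im ≤ 10 * (𝔑r.dl * pvlmH m)
  /-- [164] the thick link `e` lives over its menu cells -/
  e_sd : pvnhKp (𝔤.le 𝔓 c m (pvmgPt (𝔑r.dc c' m) a) t) (𝔤.we m (pvmgPt (𝔑r.dc c' m) a) t).Et ⊆ pvmgPl (pvmgPt (𝔑r.dc c' m) a) (𝔑r.dl * pvlmH m) (pvydDqAe 𝔑 (ty t))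
  /-- [164] the two thick links -/
  dKbKe : Disjoint (pvnhKp (𝔤.lb 𝔓 c m (pvmgPt (𝔑r.dc c' m) a) t) (𝔤.wb m (pvmgPt (𝔑r.dc c' m) a) t).Et) (pvnhKp (𝔤.le 𝔓 c m (pvmgPt (𝔑r.dc c' m) a) t) (𝔤.we m (pvmgPt (𝔑r.dc c' m) a) t).Et)

/-- the corner of a coarse cell on the fine grid -/
theorem pvyd_dq_pt {dc : ℝ} {mm : ℤ} (hm : 0 ≤ mm) (a : ℤ × ℤ) : pvmgPt dc a = pvmgPt (dc / (2 * (mm : ℝ) + 1)) (pvydDjK mm a) := by
  have h : (2 * (mm : ℝ) + 1) ≠ 0 := by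
    have : (0 : ℝ) ≤ (mm : ℝ) := by exact_mod_cast hm
    positivity
  unfold pvmgPt pvydDjK
  apply Complex.ext
  · simp only
    push_cast
    field_simp
  · simp only
    push_cast
    field_simp

theorem pvyd_dq_pt_add (δ : ℝ) (u v : ℤ × ℤ) : pvmgPt δ (u + v) = pvmgPt δ u + pvmgPt δ v := by
  unfold pvmgPt
  apply Complex.ext
  · simp only [Prod.fst_add, Complex.add_re]
    push_cast
    ring
  · simp only [Prod.snd_add, Complex.add_im]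
    push_cast
    ring

theorem pvyd_dq_sh_sh (u v : ℤ × ℤ) (A : Set (ℤ × ℤ)) : pvydDjSh u (pvydDjSh v A) = pvydDjSh (v + u) A := by
  unfold pvydDjSh
  rw [Set.image_image]
  refine Set.image_congr fun x _ => ?_
  abel

/-- the foreign coarse cells of the `Σ₁` pattern of 114 -/
theorem pvyd_dq_F0_ref (H : PvlzHyp 𝔑r 𝔑 ty) (c' : ℝ) (m : ℕ) (t : T) :
    pvrcRef (pvlmN c' m : ℤ) (pvlzG 𝔑 (ty t) ∪ pvfjSh (pvlzC 𝔑 (ty t)) (pvmnBox 8) ∪ pvfjmB 𝔑 (ty t)) ⊆ (pvlzPat H c' m t).1.F0 ((pvlzExt (pvfjmPlug 𝔑 ty)).ref (pvlmN c' m)) := by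
  have hk := pvlm_N_pos c' m
  have hK : (0 : ℤ) < (pvlmN c' m : ℤ) := by exact_mod_cast hk
  have I := pvlz_in_menu H.num H.wp H.typ t (H.acc t)
  have hGb : pvlzG 𝔑 (ty t) ⊆ pvmnBox (pvlzNT 𝔑) := fun x hx => I.box (Or.inl (Or.inl (pvtw_N_sub hx)))
  have hGf : (pvrcRef (pvlmN c' m : ℤ) (pvlzG 𝔑 (ty t))).Finite := (pvmn_box_finite _).subset (pvrc_ref_box hk hGb)
  have hF : (pvlzPat H c' m t).1.F0 ((pvlzExt (pvfjmPlug 𝔑 ty)).ref (pvlmN c' m)) = pvtwN 2 (pvrcRef (pvlmN c' m : ℤ) (pvlzG 𝔑 (ty t))) ∪ pvrcRef (pvlmN c' m : ℤ) (pvfjSh (pvlzC 𝔑 (ty t)) (pvmnBox 8)) ∪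
      pvrcRef (pvlmN c' m : ℤ) (pvfjmB 𝔑 (ty t)) := by
    show (pvlzDat (pvlmN c' m) (pvlzC 𝔑 (ty t)) none (some t) (pvlzG 𝔑 (ty t))).F0 ((pvlzExt (pvfjmPlug 𝔑 ty)).ref (pvlmN c' m)) = _
    simp only [PvfjDat.F0, pvlzDat, pvlz_fin_coe hGf, pvlz_sh_zero]
    rw [← pvrc_ref_sh hK]
    rfl
  rw [hF]
  rintro x ((hx | hx) | hx)
  · exact Or.inl (Or.inl (pvtw_N_sub hx))
  · exact Or.inl (Or.inr hx)
  · exact Or.inr hx

/-- the front of a refined door -/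
theorem pvyd_dq_front {N : ℤ} (hN : 0 < N) {y d : ℤ × ℤ} (hd : PvfjDir d) {S : Set (ℤ × ℤ)} (h : y + d ∉ S) : pvrcDoor N y d + 0 + d ∉ pvrcRef N S := by
  intro hx
  rw [add_zero] at hx
  have h1 : ((pvrcDoor N y d + d).1 / N, (pvrcDoor N y d + d).2 / N) = y + d := pvrc_door_front hN y hd
  have h2 : ((pvrcDoor N y d + d).1 / N, (pvrcDoor N y d + d).2 / N) ∈ S := hx
  rw [h1] at h2
  exact h h2

theorem pvyd_dq_sh_add (mm : ℤ) (u v : ℤ × ℤ) : pvytSh mm (u + v) = pvytSh mm u + v := by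
  unfold pvytSh
  abel

/-- **THE FIT RECORD OF `Exit/DjP` FROM THE CONTRACT** -/
theorem pvyd_dq_fit (H : PvlzHyp 𝔑r 𝔑 ty) (c' : ℝ) (hΓ : 𝔓.Γ m = pvlzGam H c' m) (del : (𝔤.kit m ε).δ = (𝔓.Γ m).δ) (F : PvydDqIn 𝔓 𝔤 𝔑r 𝔑 ty c' c m ε r a t) :
    PvydDjFit 𝔓 𝔤 c m ε (pvmgPt (𝔑r.dc c' m) a) t r (pvlzPat H c' m t) (pvydDjK 𝔑r.mm a) := by
  have hm : 10 ≤ 𝔑r.mm := H.ok.mm10
  have hmR : (0 : ℝ) < 2 * (𝔑r.mm : ℝ) + 1 := by
    have : (10 : ℝ) ≤ (𝔑r.mm : ℝ) := by exact_mod_cast hm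
    linarith
  have hδe : (𝔤.kit m ε).δ = 𝔑r.dc c' m / (2 * (𝔑r.mm : ℝ) + 1) := by
    rw [del, hΓ]
    rfl
  have hdc := pvrc_dc_pos H.ok c' m
  have hδ : 0 < (𝔤.kit m ε).δ := by
    rw [hδe]
    positivity
  have hK : (0 : ℤ) < 2 * 𝔑r.mm + 1 := by omega
  have hN : (0 : ℤ) < (pvlmN c' m : ℤ) := by exact_mod_cast pvlm_N_pos c' m
  have hPL : ((pvlzExt (pvfjmPlug 𝔑 ty)).ref (pvlmN c' m)).WF := (pvlz_ext_wf (pvfjm_wf H.num H.wp H.typ)).ref (pvlm_N_pos c' m)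
  have hd : 𝔑r.dl * pvlmH m = ((pvlmN c' m : ℤ) : ℝ) * (((2 * 𝔑r.mm + 1 : ℤ) : ℝ) * (𝔤.kit m ε).δ) := by
    rw [← pvrc_dc_mul H.ok c' m, hδe]
    push_cast
    field_simp
  have hd0 : 0 < 𝔑r.dl * pvlmH m := by
    rw [← pvrc_dc_mul H.ok c' m]
    have : (0 : ℝ) < (pvlmN c' m : ℝ) := by exact_mod_cast pvlm_N_pos c' m
    positivity
  have hz : pvmgPt (𝔑r.dc c' m) a = pvmgPt (𝔤.kit m ε).δ (pvydDjK 𝔑r.mm a) := by
    rw [hδe]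
    exact pvyd_dq_pt (by omega) a
  have menu : ∀ S : Set (ℤ × ℤ), pvmgPl (pvmgPt (𝔑r.dc c' m) a) (𝔑r.dl * pvlmH m) S =
      pvtU (𝔤.kit m ε).δ (pvydDjSh (pvydDjK 𝔑r.mm a) (pvrcRef (2 * 𝔑r.mm + 1) (pvrcRef (pvlmN c' m : ℤ) S))) := by
    intro S
    rw [hz, hd]
    exact pvyd_dq_menu hδ hK hN _ S
  -- the centre of `u`
  have hzu : (𝔓.Γ m).zu t = pvmgPt (𝔑r.dc c' m) (pvlzPat H c' m t).1.cs := by
    rw [hΓ]
    rfl
  have hw : pvydWu 𝔓 m (pvmgPt (𝔑r.dc c' m) a) t = pvmgPt (𝔤.kit m ε).δ (pvydDjK 𝔑r.mm (pvlzPat H c' m t).1.cs + pvydDjK 𝔑r.mm a) := by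
    unfold pvydWu
    rw [hzu, pvyd_dq_pt_add, ← hz, hδe, ← pvyd_dq_pt (by omega), add_comm]
  have hbody : pvthSim (pvydWu 𝔓 m (pvmgPt (𝔑r.dc c' m) a) t) 1 '' pvtU (𝔤.kit m ε).δ (pvytBody ((pvlzExt (pvfjmPlug 𝔑 ty)).ref (pvlmN c' m)) 𝔑r.mm 0 none) =
      pvtU (𝔤.kit m ε).δ (pvydDjSh (pvydDjK 𝔑r.mm a) (pvytBody ((pvlzExt (pvfjmPlug 𝔑 ty)).ref (pvlmN c' m)) 𝔑r.mm (pvlzPat H c' m t).1.cs none)) := by
    rw [hw, pvyd_dq_sim_U, pvyd_dj_body _ _ (pvlzPat H c' m t).1.cs, pvyd_dq_sh_sh]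
  refine ⟨?_, ?_, ?_, ?_, ?_, ?_, ?_⟩
  · -- Ot
    have h := F.pl.O
    rw [pvyd_dj_body] at h
    exact h
  · -- Ko
    have h := F.pl.Ko
    rw [pvyd_dj_body, pvyd_dj_Bo, pvyd_dq_sh_add] at h
    exact h
  · -- Ou
    have b0 : pvtU (𝔑r.dl * pvlmH m) (tscBox (-4) 3 (-4) 3) ⊆ pvtU (𝔤.kit m ε).δ (pvytBody ((pvlzExt (pvfjmPlug 𝔑 ty)).ref (pvlmN c' m)) 𝔑r.mm 0 none) := by
      rw [hd, ← pvrc_U hN (by positivity), ← pvrc_U hK hδ]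
      refine pvt_U_mono (pvyd_dq_B hm hPL 0 none ?_ ?_ ?_)
      · rw [pvlz_sh_zero]
        refine pvrc_ref_mono ?_
        rintro x ⟨x1, x2, x3, x4⟩
        exact ⟨by push_cast; omega, by push_cast; omega, by push_cast; omega, by push_cast; omega⟩
      · refine pvyd_dq_front hN (y := ((8 : ℤ), (0 : ℤ))) (d := ((1 : ℤ), (0 : ℤ))) (Or.inl rfl) ?_
        rintro ⟨x1, x2, x3, x4⟩
        simp only [Prod.fst_add] at x2
        omega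
      · refine pvyd_dq_front hN (y := ((-8 : ℤ), (0 : ℤ))) (d := ((-1 : ℤ), (0 : ℤ))) (Or.inr (Or.inl rfl)) ?_
        rintro ⟨x1, x2, x3, x4⟩
        simp only [Prod.fst_add] at x1
        omega
    exact (Set.image_mono (F.Ou.trans b0)).trans hbody.le
  · -- Kr
    rintro _ ⟨x, hx, rfl⟩
    rcases F.r_pl hx with h | ⟨h1, h2⟩
    · exact Or.inl (hbody.le ⟨x, h, rfl⟩)
    · refine Or.inr ⟨?_, ?_⟩
      · have h3 : pvthSim (pvydWu 𝔓 m (pvmgPt (𝔑r.dc c' m) a) t) 1 x ∈ pvthSim (pvydWu 𝔓 m (pvmgPt (𝔑r.dc c' m) a) t) 1 '' pvtSq (𝔤.kit m ε).δ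
            (pvytSh 𝔑r.mm (pvytBi ((pvlzExt (pvfjmPlug 𝔑 ty)).ref (pvlmN c' m)) 𝔑r.mm 0 none)) := ⟨x, h1, rfl⟩
        rw [hw, pvyd_dq_sim_sq, ← hw] at h3
        rw [pvyd_dj_Bi _ _ (pvlzPat H c' m t).1.cs, pvyd_dq_sh_add, add_assoc]
        exact h3
      · exact fun h => h2 ((pvyd_dq_sim_cc _ _ _).1 h)
  · -- Ke
    refine F.e_sd.trans ?_
    rw [menu]
    exact pvt_U_mono (pvyd_dj_sh_mono _ (pvyd_dq_E _ ((pvrc_ref_mono pvyd_dq_F0).trans (pvyd_dq_F0_ref H c' m t))))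
  · -- dKoKe
    rw [Set.disjoint_left]
    intro x hx hx'
    obtain ⟨c1, hc1, g1⟩ := pvmg_mem_sq.1 (F.o_sd hx)
    obtain ⟨c2, hc2, g2⟩ := pvmg_mem_sq.1 (F.e_sd hx')
    have h9 : c2 ∈ pvtwN 1 (pvtwN 8 (pvmnCells (ty t) 5 9)) := pvtw_N_iff.2 ⟨c1, hc1, pvls_touch hd0 g1 g2⟩
    rw [pvtw_N_add] at h9
    have hb := pvyd_dq_sep (H.typ t) (H.acc t) ⟨h9, hc2⟩
    exact hx.2 (Or.inl (F.bar (pvmg_mem_sq.2 ⟨c2, hb, g2⟩)))
  · -- dKrKe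
    rw [Set.disjoint_left]
    rintro _ ⟨y, hy, rfl⟩ hx'
    obtain ⟨c2, hc2, g2⟩ := pvmg_mem_sq.1 (F.e_sd hx')
    have hzu' : (𝔓.Γ m).zu t = pvmgPt (𝔑r.dl * pvlmH m) (pvlzC 𝔑 (ty t)) := by
      rw [hΓ]
      exact pvlz_zu H c' m t
    have e1 : pvthSim (pvydWu 𝔓 m (pvmgPt (𝔑r.dc c' m) a) t) 1 y - pvmgPt (𝔑r.dc c' m) a = y + pvmgPt (𝔑r.dl * pvlmH m) (pvlzC 𝔑 (ty t)) := by
      unfold pvthSim pvydWu
      rw [hzu']
      ring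
    rw [e1, show c2 = (c2 - pvlzC 𝔑 (ty t)) + pvlzC 𝔑 (ty t) from (sub_add_cancel _ _).symm, pvmg_sq_shift, add_sub_cancel_right] at g2
    obtain ⟨s1, s2, s3, s4⟩ := g2
    obtain ⟨r1, r2, r3, r4⟩ := F.r_sd y hy
    refine Set.disjoint_left.1 (pvyd_dq_west (H.typ t) (H.acc t)) hc2 ⟨c2 - pvlzC 𝔑 (ty t), ⟨?_, ?_, ?_, ?_⟩, sub_add_cancel _ _⟩
    · have : (-10 : ℝ) ≤ ((c2 - pvlzC 𝔑 (ty t)).1 : ℝ) := by
        by_contra hc
        rw [not_le] at hc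
        nlinarith
      exact_mod_cast this
    · have : ((c2 - pvlzC 𝔑 (ty t)).1 : ℝ) ≤ 0 := by
        by_contra hc
        rw [not_le] at hc
        nlinarith
      exact_mod_cast this
    · have : (-10 : ℝ) ≤ ((c2 - pvlzC 𝔑 (ty t)).2 : ℝ) := by
        by_contra hc
        rw [not_le] at hc
        nlinarith
      exact_mod_cast this
    · have : ((c2 - pvlzC 𝔑 (ty t)).2 : ℝ) ≤ 10 := by
        by_contra hc
        rw [not_le] at hc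
        nlinarith
      exact_mod_cast this

/-- **`dj1` AND `dj2` FROM THE CONTRACT** (fixed mesh) -/
theorem pvyd_dq_dj (H : PvlzHyp 𝔑r 𝔑 ty) (c' : ℝ) (hΓ : 𝔓.Γ m = pvlzGam H c' m) (R : PvccKitRef (𝔤.kit m ε) r) (del : (𝔤.kit m ε).δ = (𝔓.Γ m).δ) (F : PvydDqIn 𝔓 𝔤 𝔑r 𝔑 ty c' c m ε r a t) :
    PvydDj (((𝔓.Γ m).l1 t).length + 3) (pvskList ((pvydDat 𝔓 𝔤 c).sOut m ε (pvmgPt (𝔑r.dc c' m) a) t) ((pvydDat 𝔓 𝔤 c).kit m ε) (pvmgPt (𝔑r.dc c' m) a + (𝔓.Γ m).pout t) ((𝔓.Γ m).dout t) ((𝔓.Γ m).l1 t)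
      ((pvydDat 𝔓 𝔤 c).Kr m ε (pvmgPt (𝔑r.dc c' m) a) t) ((pvydDat 𝔓 𝔤 c).Ar m ε (pvmgPt (𝔑r.dc c' m) a) t) ((pvydDat 𝔓 𝔤 c).sRef m ε (pvmgPt (𝔑r.dc c' m) a) t)) ∧
    PvydDj 2 ((pvydDat 𝔓 𝔤 c).cyc2 m ε (pvmgPt (𝔑r.dc c' m) a) t) := by
  have hm : 10 ≤ 𝔑r.mm := H.ok.mm10
  have hδe : (𝔤.kit m ε).δ = 𝔑r.dc c' m / (2 * (𝔑r.mm : ℝ) + 1) := by
    rw [del, hΓ]
    rfl
  have hz : pvmgPt (𝔑r.dc c' m) a = ((𝔤.kit m ε).δ : ℂ) * pvtZ (pvydDjK 𝔑r.mm a) := by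
    rw [← pvfj_Pt_eq, hδe]
    exact pvyd_dq_pt (by omega) a
  have Cy := pvyd_dj_fit (pvlzPat H c' m t) (pvydDjK 𝔑r.mm a) ((pvlz_ext_wf (pvfjm_wf H.num H.wp H.typ)).ref (pvlm_N_pos c' m)) R del (δc := 𝔑r.dc c' m) hδe
    (by rw [show (pvlzPat H c' m t).1.ct = 0 from rfl, pvfj_Pt_zero, zero_add]; exact hz) (by rw [hΓ]; rfl) (by rw [hΓ]; rfl) (by rw [hΓ]; rfl)
    (pvyd_dj_lz_far H c' m t) (pvyd_dq_fit H c' hΓ del F)
  exact ⟨pvyd_dj1_of Cy, pvyd_dj2_of Cy.dOtOu F.dKbKe⟩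

/-- the coarse cell whose corner is the candidate `l9Pt h p` -/
noncomputable def pvydDqA (nd : ℕ) (c' : ℝ) (m : ℕ) (p : ℤ × ℤ) : ℤ × ℤ := (((nd : ℤ) * (pvlmN c' m : ℤ)) * p.1, ((nd : ℤ) * (pvlmN c' m : ℤ)) * p.2)

theorem pvyd_dq_eqns_cite2 : True := by
  have := @pvydDqA.eq_1; have := @pvydDjK.eq_1
  trivial

/-- **the lattice of the candidates lies on the coarse grid** (`dl = 1 / nd`) -/
theorem pvyd_dq_grid (hr : 𝔑r.Ok) {nd : ℕ} (hnd : 𝔑r.dl = 1 / (nd : ℝ)) (hnd0 : nd ≠ 0) (c' : ℝ) (m : ℕ) (p : ℤ × ℤ) : pvmgPt (𝔑r.dc c' m) (pvydDqA nd c' m p) = l9Pt (pvlmH m) p := by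
  have h1 := pvrc_dc_mul hr c' m
  have hnd' : (nd : ℝ) ≠ 0 := by exact_mod_cast hnd0
  have h2 : pvlmH m = (nd : ℝ) * ((pvlmN c' m : ℝ) * 𝔑r.dc c' m) := by
    rw [h1, hnd]
    field_simp
  unfold pvmgPt pvydDqA l9Pt
  apply Complex.ext
  · simp only
    push_cast
    rw [h2]
    ring
  · simp only
    push_cast
    rw [h2]
    ring

end contract

end Claimed.Agent.R289
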