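-- KEEP
import Claimed.Agent.R289.Tr.LinkGeoT
import Claimed.Agent.R289.Tr.LinkGeoV
import Claimed.Agent.R289.Tr.LinkBig
import Claimed.Agent.R289.Tr.LinkPoly
import Claimed.Agent.R289.Tr.WalkLen
import Claimed.Agent.R289.Exit.GeoKitP
import Claimed.Agent.R289.Exit.AccP
import Claimed.Agent.R289.Exit.ParP
import Claimed.Agent.R289.Exit.GeoWP
import Claimed.Agent.R289.Exit.GeoP
import Claimed.Agent.R289.Tr.LinkLayX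
import Claimed.Agent.R289.Exit.DetEndP

/-!
# ROAD P, (THICK): the two thick links `e` (u → t), `b` (t → u) AT THE TERM OF `Exit/GeoP`      [190, second pen of 164]

This file sits BELOW `Exit/GeoP` (it never imports it).
* sec. 1  `pvq0_dict` : the record `PvlktPoly` of 164 + `PvlktNu` of 203 give `PvlktOut` AT THE WALK OF RECORD `Pvn2Dat.walk` of 272 (the two dictionaries agree; the hull is not read by the walk).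
* sec. 2  the grid of the model: `pvq0D` (fine mesh `dl h_m / 40`), `pvq0R` (mesh of the guard), `pvq0O` (fine cell of the centre), the cell data `pvq0De pvq0Db`, THE WALKS `pvq0We pvq0Wb` (explicit; choice only on the half glue `S`).
* sec. 3  the three ends in fine cells, by citation (15 `pvli_v_U`, 203 `pvlkg_bigM pvlkg_bigP`).
* sec. 4  `pvq0_thk` : `∃ nu, ∀ m p t, Pvq0Thk 𝔤 nu m p t` = `PvlktSe PvlktSb` + `PvlktOut` of both links at the ends of record.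
* sec. 5  `pvq0_le_eq pvq0_lb_eq` : the links `𝔶.le 𝔶.lb` of ANY datum with the equations `PvyhIs` of 291 at the scales of record are the links of sec. 4.
-/

set_option autoImplicit false
set_option linter.unusedSectionVars false
set_option linter.unusedVariables false

namespace Claimed.Agent.R289

open MeasureTheory Filter Topology Set Metric Claims.C0465 Claims.C0467 Claimed.Agent.R291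
open scoped ENNReal

/-! ## 1. the two dictionaries agree -/

section dict

variable {e e' : PvnkEnd} {δ ρ : ℝ} {o : ℤ × ℤ} {N nu : ℕ} {B W Bk Wh Ec : Set (ℤ × ℤ)}

/-- the cell data of 272 at the cell sets of 164 (`Pl` = the hull: the walk does not read it) -/
def pvq0Dat (δ ρ : ℝ) (B W Bk Wh Pl Ec : Set (ℤ × ℤ)) (Q : Set ℂ) : Pvn2Dat := ⟨δ, ρ, B, W, Bk, Wh, Pl, Ec, Q⟩

theorem pvq0_eqns_cite : True := by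
  have := @pvq0Dat.eq_1
  trivial

theorem pvq0_dict (hnu : PvlktNu N nu) (P : PvlktPoly e e' δ o N B W Bk Wh (pvtU δ Ec \ (e.O ∪ e'.O))) (hρ : 0 < ρ) (Pl : Set (ℤ × ℤ)) :
    PvlktOut e e' δ ρ nu B W Bk Wh (pvtU δ Ec \ (e.O ∪ e'.O)) (pvq0Dat δ ρ B W Bk Wh Pl Ec (e.O ∪ e'.O)).walk := by
  obtain ⟨L₁, n1, c1, f1, s1, l1⟩ := hnu o B P.neB P.boxB P.cB
  obtain ⟨L₂, n2, c2, f2, s2, l2⟩ := hnu o W P.neW P.boxW P.cW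
  obtain ⟨⟨n1', c1', f1', s1'⟩, l1'⟩ := pvn2_walk_spec (W := B) (L := L₁) ⟨n1, c1, f1, s1⟩
  obtain ⟨⟨n2', c2', f2', s2'⟩, l2'⟩ := pvn2_walk_spec (W := W) (L := L₂) ⟨n2, c2, f2, s2⟩
  have w1 : pvlnW δ (pvn2Walk B) ⊆ pvtU δ (pvtwN 1 B) := by
    have := pvwg_W_U P.δ_pos (pvn2Walk B)
    rwa [s1'] at this
  have w2 : pvlnW δ (pvn2Walk W) ⊆ pvtU δ (pvtwN 1 W) := by
    have := pvwg_W_U P.δ_pos (pvn2Walk W)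
    rwa [s2'] at this
  have k1 : pvlnW δ (pvn2Walk B) ∪ pvtU δ Bk = pvtU δ Bk := union_eq_self_of_subset_left (w1.trans (pvt_U_mono P.subB))
  have k2 : pvlnW δ (pvn2Walk W) ∪ pvtU δ Wh = pvtU δ Wh := union_eq_self_of_subset_left (w2.trans (pvt_U_mono P.subW))
  refine ⟨rfl, s1', s2', k1, k2, rfl, rfl, ?_, ?_, ⟨l1'.trans l1, l2'.trans l2⟩, pvnh_mesh_win ρ P.mEt, pvnh_mesh_off ρ P.offEt, pvnh_mesh_lim hρ P.bEt⟩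
  · exact
    { col := P.col
      dj := P.dj
      δ_pos := P.δ_pos
      ne₁ := n1'
      ne₂ := n2'
      ch₁ := c1'
      ch₂ := c2'
      full₁ := f1'
      full₂ := f2'
      djK := by
        show Disjoint (pvlnW δ (pvn2Walk B) ∪ pvtU δ Bk) (pvlnW δ (pvn2Walk W) ∪ pvtU δ Wh)
        rw [k1, k2]
        exact pvwg_U_disj P.δ_pos P.sep
      w₁ := subset_union_left
      w₂ := subset_union_left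
      off₁ := P.offB.mono_left w1
      off₂ := P.offW.mono_left w2
      z₁ := by show PvfpZone δ {k | k ∈ pvn2Walk B} e.A₁ e.X₁ e.Y₁; rw [s1']; exact P.z₁
      z₁' := by show PvfpZone δ {k | k ∈ pvn2Walk B} e'.A₁ e'.X₁ e'.Y₁; rw [s1']; exact P.z₁'
      z₂ := by show PvfpZone δ {k | k ∈ pvn2Walk W} e.A₂ e.X₂ e.Y₂; rw [s2']; exact P.z₂
      z₂' := by show PvfpZone δ {k | k ∈ pvn2Walk W} e'.A₂ e'.X₂ e'.Y₂; rw [s2']; exact P.z₂' }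
  · refine ⟨?_, ?_, ?_, ?_⟩
    · show e.A₁ ⊆ e.O ∪ (pvlnW δ (pvn2Walk B) ∪ pvtU δ Bk)
      rw [k1]; exact P.a₁
    · show e.A₂ ⊆ e.O ∪ (pvlnW δ (pvn2Walk W) ∪ pvtU δ Wh)
      rw [k2]; exact P.a₂
    · show e'.A₁ ⊆ e'.O ∪ (pvlnW δ (pvn2Walk B) ∪ pvtU δ Bk)
      rw [k1]; exact P.a₁'
    · show e'.A₂ ⊆ e'.O ∪ (pvlnW δ (pvn2Walk W) ∪ pvtU δ Wh)
      rw [k2]; exact P.a₂'

end dict

/-! ## 2. the objects of record -/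

section defs

variable (𝔤 : PvmhNum)

/-- the mesh of the fine cells of level `m` -/
noncomputable def pvq0D (m : ℕ) : ℝ := 𝔤.dl * pvlmH m / 40

/-- the mesh of the sites in the windows of the corridors of the two thick links -/
noncomputable def pvq0R (m : ℕ) : ℝ := pvq0D 𝔤 m / 8

/-- the point `p` of the grid `h ℤ²`, in fine cells -/
def pvq0O (p : ℤ × ℤ) : ℤ × ℤ := (40 * (𝔤.nd : ℤ) * p.1, 40 * (𝔤.nd : ℤ) * p.2)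

open Classical in
/-- the coordinates of a point of the grid `h_m ℤ²` -/
noncomputable def pvq0P (m : ℕ) (z : ℂ) : ℤ × ℤ := if h : ∃ p : ℤ × ℤ, z = l9Pt (pvlmH m) p then h.choose else (0, 0)

open Classical in
/-- the white contour of `e` (output of the half glue of 205) -/
noncomputable def pvq0Se (t : PvmhT 𝔤) (o : ℤ × ℤ) : Set (ℤ × ℤ) := if h : ∃ S, PvlktSe 𝔤.NN t.typ t.ln o S then h.choose else ∅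

open Classical in
/-- the white contour of `b` -/
noncomputable def pvq0Sb (t : PvmhT 𝔤) (o : ℤ × ℤ) : Set (ℤ × ℤ) := if h : ∃ S, PvlktSb 𝔤.NN t.typ t.ln o S then h.choose else ∅

/-- the exit / entrance end of the reference plug of the candidate `(o, t)` -/
noncomputable def pvq0Eu (m : ℕ) (t : PvmhT 𝔤) (o : ℤ × ℤ) (σ c : Bool) : PvnkEnd := pvliVE (pvq0D 𝔤 m) (pvlktU0 𝔤.NN t.typ o) σ c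

/-- **THE CELL DATA OF THE THICK LINK `e : u → t`** (`Pl` = the hull: free, the walk does not read it) -/
noncomputable def pvq0De (Pl : Set (ℤ × ℤ)) (m : ℕ) (z : ℂ) (t : PvmhT 𝔤) : Pvn2Dat :=
  pvq0Dat (pvq0D 𝔤 m) (pvq0R 𝔤 m) (pvtwN 1 (pvlktXBe 𝔤.NN t.typ (pvq0O 𝔤 (pvq0P m z)))) (pvtwN 1 (pvlktXWe 𝔤.NN t.typ t.ln (pvq0O 𝔤 (pvq0P m z)) (pvq0Se 𝔤 t (pvq0O 𝔤 (pvq0P m z)))))
    (pvlktBke 𝔤.NN t.typ (pvq0O 𝔤 (pvq0P m z))) (pvlktWhe 𝔤.NN t.typ t.ln (pvq0O 𝔤 (pvq0P m z)) (pvq0Se 𝔤 t (pvq0O 𝔤 (pvq0P m z)))) Pl (pvlktEce 𝔤.NN t.typ (pvq0O 𝔤 (pvq0P m z)))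
    ((pvq0Eu 𝔤 m t (pvq0O 𝔤 (pvq0P m z)) true true).O ∪ (pvfvEndM 𝔤.sp (𝔤.ty (pvlmH m) z t) z (pvlmH m)).O)

/-- **THE CELL DATA OF THE THICK RETURN `b : t → u`** -/
noncomputable def pvq0Db (Pl : Set (ℤ × ℤ)) (m : ℕ) (z : ℂ) (t : PvmhT 𝔤) : Pvn2Dat :=
  pvq0Dat (pvq0D 𝔤 m) (pvq0R 𝔤 m) (pvtwN 1 (pvlktXBb 𝔤.NN t.typ (pvq0O 𝔤 (pvq0P m z)))) (pvtwN 1 (pvlktXWb 𝔤.NN t.typ t.ln (pvq0O 𝔤 (pvq0P m z)) (pvq0Sb 𝔤 t (pvq0O 𝔤 (pvq0P m z)))))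
    (pvlktBkb 𝔤.NN t.typ (pvq0O 𝔤 (pvq0P m z))) (pvlktWhb 𝔤.NN t.typ t.ln (pvq0O 𝔤 (pvq0P m z)) (pvq0Sb 𝔤 t (pvq0O 𝔤 (pvq0P m z)))) Pl (pvlktEcb 𝔤.NN t.typ (pvq0O 𝔤 (pvq0P m z)))
    ((pvfvEndP 𝔤.sp (𝔤.ty (pvlmH m) z t) z (pvlmH m)).O ∪ (pvq0Eu 𝔤 m t (pvq0O 𝔤 (pvq0P m z)) false true).O)

/-- **THE WALKS OF RECORD OF THE THICK LINK `e`** -/
noncomputable def pvq0We (m : ℕ) (z : ℂ) (t : PvmhT 𝔤) : PvydWalk := (pvq0De 𝔤 ∅ m z t).walk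

/-- **THE WALKS OF RECORD OF THE THICK RETURN `b`** -/
noncomputable def pvq0Wb (m : ℕ) (z : ℂ) (t : PvmhT 𝔤) : PvydWalk := (pvq0Db 𝔤 ∅ m z t).walk

end defs

theorem pvq0_eqns_cite2 : True := by
  have := @pvq0D.eq_1; have := @pvq0R.eq_1; have := @pvq0O.eq_1; have := @pvq0P.eq_1; have := @pvq0Se.eq_1; have := @pvq0Sb.eq_1; have := @pvq0Eu.eq_1
  have := @pvq0De.eq_1; have := @pvq0Db.eq_1; have := @pvq0We.eq_1; have := @pvq0Wb.eq_1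
  trivial

section grid

variable {𝔤 : PvmhNum}

theorem pvq0_walk_e (Pl : Set (ℤ × ℤ)) (m : ℕ) (z : ℂ) (t : PvmhT 𝔤) : (pvq0De 𝔤 Pl m z t).walk = pvq0We 𝔤 m z t := rfl
theorem pvq0_walk_b (Pl : Set (ℤ × ℤ)) (m : ℕ) (z : ℂ) (t : PvmhT 𝔤) : (pvq0Db 𝔤 Pl m z t).walk = pvq0Wb 𝔤 m z t := rfl

theorem pvq0_D_pos (H : 𝔤.OK) (m : ℕ) : 0 < pvq0D 𝔤 m := by
  have := H.dl0
  have := pvlm_H_pos m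
  unfold pvq0D
  positivity

theorem pvq0_R_pos (H : 𝔤.OK) (m : ℕ) : 0 < pvq0R 𝔤 m := by
  have := pvq0_D_pos H m
  unfold pvq0R
  positivity

theorem pvq0_D_mul (m : ℕ) : 𝔤.dl * pvlmH m = 40 * pvq0D 𝔤 m := by
  unfold pvq0D
  ring

/-- the coordinates of a grid point -/
theorem pvq0_P (m : ℕ) (p : ℤ × ℤ) : pvq0P m (l9Pt (pvlmH m) p) = p := by
  classical
  have hex : ∃ p' : ℤ × ℤ, l9Pt (pvlmH m) p = l9Pt (pvlmH m) p' := ⟨p, rfl⟩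
  unfold pvq0P
  rw [dif_pos hex]
  have h := hex.choose_spec
  have hh := (pvlm_H_pos m).ne'
  have h1 := congrArg Complex.re h
  have h2 := congrArg Complex.im h
  simp only [l9Pt] at h1 h2
  have a1 : (p.1 : ℝ) = (hex.choose.1 : ℝ) := mul_right_cancel₀ hh h1
  have a2 : (p.2 : ℝ) = (hex.choose.2 : ℝ) := mul_right_cancel₀ hh h2
  exact Prod.ext (by exact_mod_cast a1.symm) (by exact_mod_cast a2.symm)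

/-- the grid `h ℤ²` lies on the fine grid -/
theorem pvq0_z (H : 𝔤.OK) (m : ℕ) (p : ℤ × ℤ) : l9Pt (pvlmH m) p = pvmgPt (pvq0D 𝔤 m) (pvq0O 𝔤 p) := by
  have hn : (𝔤.nd : ℝ) ≠ 0 := by exact_mod_cast H.nd0.ne'
  have e : ∀ x : ℤ, (x : ℝ) * pvlmH m = ((40 * (𝔤.nd : ℤ) * x : ℤ) : ℝ) * pvq0D 𝔤 m := by
    intro x
    unfold pvq0D
    rw [H.dl_eq]
    push_cast
    field_simp
  unfold l9Pt pvmgPt pvq0O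
  rw [e p.1, e p.2]

/-- the centre of the reference plug lies on the fine grid -/
theorem pvq0_wu (H : 𝔤.OK) (c : ℝ) (m : ℕ) (p : ℤ × ℤ) (t : PvmhT 𝔤) :
    l9Pt (pvlmH m) p + (pvmaGam H c m).zu t = pvmgPt (pvq0D 𝔤 m) (pvlktU0 𝔤.NN t.typ (pvq0O 𝔤 p)) := by
  have h1 : (pvmaGam H c m).zu t = pvmgPt (𝔤.dl * pvlmH m) (pvlzC 𝔤.NN t.typ) := pvlz_zu (pvma_hyp H) c m t
  rw [h1, pvq0_z H, pvq0_D_mul]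
  unfold pvmgPt pvlktU0 pvlktOu
  apply Complex.ext
  · simp only [Complex.add_re]
    push_cast
    ring
  · simp only [Complex.add_im]
    push_cast
    ring

end grid

/-! ## 3. what the pens of the ends owe -/

section leaves

variable {𝔤 : PvmhNum}

/-- **(U)** [15, `Tr/LinkGeoV`]: the end of side `σ` of the reference plug satisfies the record of 164 -/
theorem exit_pvq0_U {δ : ℝ} (hδ : 0 < δ) (u : ℤ × ℤ) (σ c : Bool) : PvlktU (pvliVE δ u σ c) δ u σ :=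
  pvli_v_U hδ u σ c

/-- **(BIG-)** [203, `Tr/LinkBig`]: the entrance end of the big plug, in fine cells -/
theorem exit_pvq0_bigM (H : 𝔤.OK) {h δ : ℝ} (hh : 0 < h) (hd : 𝔤.dl * h = 40 * δ) (o : ℤ × ℤ) (s : PvmhT 𝔤) :
    PvlktBigM 𝔤.NN s.typ s.ln o (pvfvEndM 𝔤.sp (𝔤.ty h (pvmgPt δ o) s) (pvmgPt δ o) h) δ :=
  pvlkg_bigM H o s hh hd

/-- **(BIG+)** [203, `Tr/LinkBig`]: the exit end of the big plug, in fine cells -/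
theorem exit_pvq0_bigP (H : 𝔤.OK) {h δ : ℝ} (hh : 0 < h) (hd : 𝔤.dl * h = 40 * δ) (o : ℤ × ℤ) (s : PvmhT 𝔤) :
    PvlktBigP 𝔤.NN s.typ s.ln o (pvfvEndP 𝔤.sp (𝔤.ty h (pvmgPt δ o) s) (pvmgPt δ o) h) δ :=
  pvlkg_bigP H o s hh hd

end leaves

/-! ## 4. the two thick links at the model -/

/-- **ALL THAT THE TWO THICK LINKS OF THE CANDIDATE `(h_m p, t)` DELIVER** -/
structure Pvq0Thk (𝔤 : PvmhNum) (nu m : ℕ) (p : ℤ × ℤ) (t : PvmhT 𝔤) : Prop where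
  Se : PvlktSe 𝔤.NN t.typ t.ln (pvq0O 𝔤 p) (pvq0Se 𝔤 t (pvq0O 𝔤 p))
  Sb : PvlktSb 𝔤.NN t.typ t.ln (pvq0O 𝔤 p) (pvq0Sb 𝔤 t (pvq0O 𝔤 p))
  hnu : PvlktNu (pvlktNN 𝔤.NN) nu
  fE : (pvlktEce 𝔤.NN t.typ (pvq0O 𝔤 p)).Finite
  fB : (pvlktEcb 𝔤.NN t.typ (pvq0O 𝔤 p)).Finite
  mU : ∀ σ c, MeasurableSet (pvq0Eu 𝔤 m t (pvq0O 𝔤 p) σ c).O
  mM : MeasurableSet (pvfvEndM 𝔤.sp (𝔤.ty (pvlmH m) (l9Pt (pvlmH m) p) t) (l9Pt (pvlmH m) p) (pvlmH m)).O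
  mP : MeasurableSet (pvfvEndP 𝔤.sp (𝔤.ty (pvlmH m) (l9Pt (pvlmH m) p) t) (l9Pt (pvlmH m) p) (pvlmH m)).O
  pe : PvlktPoly (pvq0Eu 𝔤 m t (pvq0O 𝔤 p) true (𝔤.ty (pvlmH m) (l9Pt (pvlmH m) p) t).col) (pvfvEndM 𝔤.sp (𝔤.ty (pvlmH m) (l9Pt (pvlmH m) p) t) (l9Pt (pvlmH m) p) (pvlmH m)) (pvq0D 𝔤 m) (pvq0O 𝔤 p) (pvlktNN 𝔤.NN)
    (pvtwN 1 (pvlktXBe 𝔤.NN t.typ (pvq0O 𝔤 p))) (pvtwN 1 (pvlktXWe 𝔤.NN t.typ t.ln (pvq0O 𝔤 p) (pvq0Se 𝔤 t (pvq0O 𝔤 p)))) (pvlktBke 𝔤.NN t.typ (pvq0O 𝔤 p))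
    (pvlktWhe 𝔤.NN t.typ t.ln (pvq0O 𝔤 p) (pvq0Se 𝔤 t (pvq0O 𝔤 p)))
    (pvtU (pvq0D 𝔤 m) (pvlktEce 𝔤.NN t.typ (pvq0O 𝔤 p)) \ ((pvq0Eu 𝔤 m t (pvq0O 𝔤 p) true (𝔤.ty (pvlmH m) (l9Pt (pvlmH m) p) t).col).O ∪ (pvfvEndM 𝔤.sp (𝔤.ty (pvlmH m) (l9Pt (pvlmH m) p) t) (l9Pt (pvlmH m) p) (pvlmH m)).O))
  pb : PvlktPoly (pvfvEndP 𝔤.sp (𝔤.ty (pvlmH m) (l9Pt (pvlmH m) p) t) (l9Pt (pvlmH m) p) (pvlmH m)) (pvq0Eu 𝔤 m t (pvq0O 𝔤 p) false (𝔤.ty (pvlmH m) (l9Pt (pvlmH m) p) t).col) (pvq0D 𝔤 m) (pvq0O 𝔤 p) (pvlktNN 𝔤.NN)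
    (pvtwN 1 (pvlktXBb 𝔤.NN t.typ (pvq0O 𝔤 p))) (pvtwN 1 (pvlktXWb 𝔤.NN t.typ t.ln (pvq0O 𝔤 p) (pvq0Sb 𝔤 t (pvq0O 𝔤 p)))) (pvlktBkb 𝔤.NN t.typ (pvq0O 𝔤 p))
    (pvlktWhb 𝔤.NN t.typ t.ln (pvq0O 𝔤 p) (pvq0Sb 𝔤 t (pvq0O 𝔤 p)))
    (pvtU (pvq0D 𝔤 m) (pvlktEcb 𝔤.NN t.typ (pvq0O 𝔤 p)) \ ((pvfvEndP 𝔤.sp (𝔤.ty (pvlmH m) (l9Pt (pvlmH m) p) t) (l9Pt (pvlmH m) p) (pvlmH m)).O ∪ (pvq0Eu 𝔤 m t (pvq0O 𝔤 p) false (𝔤.ty (pvlmH m) (l9Pt (pvlmH m) p) t).col).O))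
  e : PvlktOut (pvq0Eu 𝔤 m t (pvq0O 𝔤 p) true (𝔤.ty (pvlmH m) (l9Pt (pvlmH m) p) t).col) (pvfvEndM 𝔤.sp (𝔤.ty (pvlmH m) (l9Pt (pvlmH m) p) t) (l9Pt (pvlmH m) p) (pvlmH m)) (pvq0D 𝔤 m) (pvq0R 𝔤 m) nu
    (pvtwN 1 (pvlktXBe 𝔤.NN t.typ (pvq0O 𝔤 p))) (pvtwN 1 (pvlktXWe 𝔤.NN t.typ t.ln (pvq0O 𝔤 p) (pvq0Se 𝔤 t (pvq0O 𝔤 p)))) (pvlktBke 𝔤.NN t.typ (pvq0O 𝔤 p))
    (pvlktWhe 𝔤.NN t.typ t.ln (pvq0O 𝔤 p) (pvq0Se 𝔤 t (pvq0O 𝔤 p)))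
    (pvtU (pvq0D 𝔤 m) (pvlktEce 𝔤.NN t.typ (pvq0O 𝔤 p)) \ ((pvq0Eu 𝔤 m t (pvq0O 𝔤 p) true (𝔤.ty (pvlmH m) (l9Pt (pvlmH m) p) t).col).O ∪ (pvfvEndM 𝔤.sp (𝔤.ty (pvlmH m) (l9Pt (pvlmH m) p) t) (l9Pt (pvlmH m) p) (pvlmH m)).O))
    (pvq0We 𝔤 m (l9Pt (pvlmH m) p) t)
  b : PvlktOut (pvfvEndP 𝔤.sp (𝔤.ty (pvlmH m) (l9Pt (pvlmH m) p) t) (l9Pt (pvlmH m) p) (pvlmH m)) (pvq0Eu 𝔤 m t (pvq0O 𝔤 p) false (𝔤.ty (pvlmH m) (l9Pt (pvlmH m) p) t).col) (pvq0D 𝔤 m) (pvq0R 𝔤 m) nu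
    (pvtwN 1 (pvlktXBb 𝔤.NN t.typ (pvq0O 𝔤 p))) (pvtwN 1 (pvlktXWb 𝔤.NN t.typ t.ln (pvq0O 𝔤 p) (pvq0Sb 𝔤 t (pvq0O 𝔤 p)))) (pvlktBkb 𝔤.NN t.typ (pvq0O 𝔤 p))
    (pvlktWhb 𝔤.NN t.typ t.ln (pvq0O 𝔤 p) (pvq0Sb 𝔤 t (pvq0O 𝔤 p)))
    (pvtU (pvq0D 𝔤 m) (pvlktEcb 𝔤.NN t.typ (pvq0O 𝔤 p)) \ ((pvfvEndP 𝔤.sp (𝔤.ty (pvlmH m) (l9Pt (pvlmH m) p) t) (l9Pt (pvlmH m) p) (pvlmH m)).O ∪ (pvq0Eu 𝔤 m t (pvq0O 𝔤 p) false (𝔤.ty (pvlmH m) (l9Pt (pvlmH m) p) t).col).O))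
    (pvq0Wb 𝔤 m (l9Pt (pvlmH m) p) t)

section main

variable {𝔤 : PvmhNum}

theorem pvq0_Se (H : 𝔤.OK) (t : PvmhT 𝔤) (o : ℤ × ℤ) : PvlktSe 𝔤.NN t.typ t.ln o (pvq0Se 𝔤 t o) := by
  classical
  have hex := pvlkt_e_S (o := o) (pvmh_numOK H) t.isType (pvma_lz t.acc) t.isLane
  unfold pvq0Se
  rw [dif_pos hex]
  exact hex.choose_spec

theorem pvq0_Sb (H : 𝔤.OK) (t : PvmhT 𝔤) (o : ℤ × ℤ) : PvlktSb 𝔤.NN t.typ t.ln o (pvq0Sb 𝔤 t o) := by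
  classical
  have hex := pvlkt_b_S (o := o) (pvmh_numOK H) t.isType (pvma_lz t.acc) t.isLane
  unfold pvq0Sb
  rw [dif_pos hex]
  exact hex.choose_spec

theorem pvq0_Eu_c (m : ℕ) (t : PvmhT 𝔤) (o : ℤ × ℤ) (σ c : Bool) : (pvq0Eu 𝔤 m t o σ c).c = c := by
  show (true == c) = c
  cases c <;> rfl

/-- the walks of record at a grid point, any hull, any colour -/
theorem pvq0_We_eq (Pl : Set (ℤ × ℤ)) (m : ℕ) (p : ℤ × ℤ) (t : PvmhT 𝔤) (col : Bool) :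
    pvq0We 𝔤 m (l9Pt (pvlmH m) p) t = (pvq0Dat (pvq0D 𝔤 m) (pvq0R 𝔤 m) (pvtwN 1 (pvlktXBe 𝔤.NN t.typ (pvq0O 𝔤 p))) (pvtwN 1 (pvlktXWe 𝔤.NN t.typ t.ln (pvq0O 𝔤 p) (pvq0Se 𝔤 t (pvq0O 𝔤 p))))
        (pvlktBke 𝔤.NN t.typ (pvq0O 𝔤 p)) (pvlktWhe 𝔤.NN t.typ t.ln (pvq0O 𝔤 p) (pvq0Se 𝔤 t (pvq0O 𝔤 p))) Pl (pvlktEce 𝔤.NN t.typ (pvq0O 𝔤 p))
        ((pvq0Eu 𝔤 m t (pvq0O 𝔤 p) true col).O ∪ (pvfvEndM 𝔤.sp (𝔤.ty (pvlmH m) (l9Pt (pvlmH m) p) t) (l9Pt (pvlmH m) p) (pvlmH m)).O)).walk := by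
  unfold pvq0We pvq0De
  rw [pvq0_P]
  rfl

theorem pvq0_Wb_eq (Pl : Set (ℤ × ℤ)) (m : ℕ) (p : ℤ × ℤ) (t : PvmhT 𝔤) (col : Bool) :
    pvq0Wb 𝔤 m (l9Pt (pvlmH m) p) t = (pvq0Dat (pvq0D 𝔤 m) (pvq0R 𝔤 m) (pvtwN 1 (pvlktXBb 𝔤.NN t.typ (pvq0O 𝔤 p))) (pvtwN 1 (pvlktXWb 𝔤.NN t.typ t.ln (pvq0O 𝔤 p) (pvq0Sb 𝔤 t (pvq0O 𝔤 p))))
        (pvlktBkb 𝔤.NN t.typ (pvq0O 𝔤 p)) (pvlktWhb 𝔤.NN t.typ t.ln (pvq0O 𝔤 p) (pvq0Sb 𝔤 t (pvq0O 𝔤 p))) Pl (pvlktEcb 𝔤.NN t.typ (pvq0O 𝔤 p))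
        ((pvfvEndP 𝔤.sp (𝔤.ty (pvlmH m) (l9Pt (pvlmH m) p) t) (l9Pt (pvlmH m) p) (pvlmH m)).O ∪ (pvq0Eu 𝔤 m t (pvq0O 𝔤 p) false col).O)).walk := by
  unfold pvq0Wb pvq0Db
  rw [pvq0_P]
  rfl

/-- **THE TWO THICK LINKS AT THE MODEL**: lengths uniform in the level, the candidate, the type -/
theorem pvq0_thk (H : 𝔤.OK) : ∃ nu : ℕ, ∀ (m : ℕ) (p : ℤ × ℤ) (t : PvmhT 𝔤), Pvq0Thk 𝔤 nu m p t := by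
  obtain ⟨nu, hnu⟩ := pvlkt_nu (pvlktNN 𝔤.NN)
  refine ⟨nu, fun m p t => ?_⟩
  have hδ := pvq0_D_pos H m
  have hρ := pvq0_R_pos H m
  have hSe := pvq0_Se H t (pvq0O 𝔤 p)
  have hSb := pvq0_Sb H t (pvq0O 𝔤 p)
  have hz := pvq0_z H m p
  have hM := exit_pvq0_bigM H (pvlm_H_pos m) (pvq0_D_mul m) (pvq0O 𝔤 p) t
  have hP := exit_pvq0_bigP H (pvlm_H_pos m) (pvq0_D_mul m) (pvq0O 𝔤 p) t
  rw [← hz] at hM hP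
  have Pe : PvlktPoly (pvq0Eu 𝔤 m t (pvq0O 𝔤 p) true (𝔤.ty (pvlmH m) (l9Pt (pvlmH m) p) t).col) (pvfvEndM 𝔤.sp (𝔤.ty (pvlmH m) (l9Pt (pvlmH m) p) t) (l9Pt (pvlmH m) p) (pvlmH m)) (pvq0D 𝔤 m) (pvq0O 𝔤 p) (pvlktNN 𝔤.NN)
      (pvtwN 1 (pvlktXBe 𝔤.NN t.typ (pvq0O 𝔤 p))) (pvtwN 1 (pvlktXWe 𝔤.NN t.typ t.ln (pvq0O 𝔤 p) (pvq0Se 𝔤 t (pvq0O 𝔤 p)))) (pvlktBke 𝔤.NN t.typ (pvq0O 𝔤 p))
      (pvlktWhe 𝔤.NN t.typ t.ln (pvq0O 𝔤 p) (pvq0Se 𝔤 t (pvq0O 𝔤 p)))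
      (pvtU (pvq0D 𝔤 m) (pvlktEce 𝔤.NN t.typ (pvq0O 𝔤 p)) \ ((pvq0Eu 𝔤 m t (pvq0O 𝔤 p) true (𝔤.ty (pvlmH m) (l9Pt (pvlmH m) p) t).col).O ∪ (pvfvEndM 𝔤.sp (𝔤.ty (pvlmH m) (l9Pt (pvlmH m) p) t) (l9Pt (pvlmH m) p) (pvlmH m)).O)) := by
    have hcol : (pvfvEndM 𝔤.sp (𝔤.ty (pvlmH m) (l9Pt (pvlmH m) p) t) (l9Pt (pvlmH m) p) (pvlmH m)).c = (pvq0Eu 𝔤 m t (pvq0O 𝔤 p) true (𝔤.ty (pvlmH m) (l9Pt (pvlmH m) p) t).col).c := by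
      rw [pvq0_Eu_c]
      rfl
    have hU : PvlktU (pvq0Eu 𝔤 m t (pvq0O 𝔤 p) true (𝔤.ty (pvlmH m) (l9Pt (pvlmH m) p) t).col) (pvq0D 𝔤 m) (pvlktU0 𝔤.NN t.typ (pvq0O 𝔤 p)) true := exit_pvq0_U hδ _ true _
    exact pvlkt_poly_e hδ hcol hU hM (pvlkt_e_cell (pvmh_numOK H) t.isType (pvma_lz t.acc) t.isLane hSe)
  have Pb : PvlktPoly (pvfvEndP 𝔤.sp (𝔤.ty (pvlmH m) (l9Pt (pvlmH m) p) t) (l9Pt (pvlmH m) p) (pvlmH m)) (pvq0Eu 𝔤 m t (pvq0O 𝔤 p) false (𝔤.ty (pvlmH m) (l9Pt (pvlmH m) p) t).col) (pvq0D 𝔤 m) (pvq0O 𝔤 p) (pvlktNN 𝔤.NN)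
      (pvtwN 1 (pvlktXBb 𝔤.NN t.typ (pvq0O 𝔤 p))) (pvtwN 1 (pvlktXWb 𝔤.NN t.typ t.ln (pvq0O 𝔤 p) (pvq0Sb 𝔤 t (pvq0O 𝔤 p)))) (pvlktBkb 𝔤.NN t.typ (pvq0O 𝔤 p))
      (pvlktWhb 𝔤.NN t.typ t.ln (pvq0O 𝔤 p) (pvq0Sb 𝔤 t (pvq0O 𝔤 p)))
      (pvtU (pvq0D 𝔤 m) (pvlktEcb 𝔤.NN t.typ (pvq0O 𝔤 p)) \ ((pvfvEndP 𝔤.sp (𝔤.ty (pvlmH m) (l9Pt (pvlmH m) p) t) (l9Pt (pvlmH m) p) (pvlmH m)).O ∪ (pvq0Eu 𝔤 m t (pvq0O 𝔤 p) false (𝔤.ty (pvlmH m) (l9Pt (pvlmH m) p) t).col).O)) := by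
    have hcol : (pvq0Eu 𝔤 m t (pvq0O 𝔤 p) false (𝔤.ty (pvlmH m) (l9Pt (pvlmH m) p) t).col).c = (pvfvEndP 𝔤.sp (𝔤.ty (pvlmH m) (l9Pt (pvlmH m) p) t) (l9Pt (pvlmH m) p) (pvlmH m)).c := by
      rw [pvq0_Eu_c]
      rfl
    have hU : PvlktU (pvq0Eu 𝔤 m t (pvq0O 𝔤 p) false (𝔤.ty (pvlmH m) (l9Pt (pvlmH m) p) t).col) (pvq0D 𝔤 m) (pvlktU0 𝔤.NN t.typ (pvq0O 𝔤 p)) false := exit_pvq0_U hδ _ false _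
    exact pvlkt_poly_b hδ hcol hU hP (pvlkt_b_cell (pvmh_numOK H) t.isType (pvma_lz t.acc) t.isLane hSb)
  refine ⟨hSe, hSb, hnu, (pvlkt_e_cell (pvmh_numOK H) t.isType (pvma_lz t.acc) t.isLane hSe).finE, (pvlkt_b_cell (pvmh_numOK H) t.isType (pvma_lz t.acc) t.isLane hSb).finE, fun σ c => (exit_pvq0_U hδ _ σ c).mO, hM.mO, hP.mO, Pe, Pb, ?_, ?_⟩
  · have Q := pvq0_dict hnu Pe hρ ∅
    have e : pvq0We 𝔤 m (l9Pt (pvlmH m) p) t = (pvq0Dat (pvq0D 𝔤 m) (pvq0R 𝔤 m) (pvtwN 1 (pvlktXBe 𝔤.NN t.typ (pvq0O 𝔤 p))) (pvtwN 1 (pvlktXWe 𝔤.NN t.typ t.ln (pvq0O 𝔤 p) (pvq0Se 𝔤 t (pvq0O 𝔤 p))))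
        (pvlktBke 𝔤.NN t.typ (pvq0O 𝔤 p)) (pvlktWhe 𝔤.NN t.typ t.ln (pvq0O 𝔤 p) (pvq0Se 𝔤 t (pvq0O 𝔤 p))) ∅ (pvlktEce 𝔤.NN t.typ (pvq0O 𝔤 p))
        ((pvq0Eu 𝔤 m t (pvq0O 𝔤 p) true (𝔤.ty (pvlmH m) (l9Pt (pvlmH m) p) t).col).O ∪ (pvfvEndM 𝔤.sp (𝔤.ty (pvlmH m) (l9Pt (pvlmH m) p) t) (l9Pt (pvlmH m) p) (pvlmH m)).O)).walk := pvq0_We_eq ∅ m p t _
    rw [e]
    exact Q
  · have Q := pvq0_dict hnu Pb hρ ∅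
    have e : pvq0Wb 𝔤 m (l9Pt (pvlmH m) p) t = (pvq0Dat (pvq0D 𝔤 m) (pvq0R 𝔤 m) (pvtwN 1 (pvlktXBb 𝔤.NN t.typ (pvq0O 𝔤 p))) (pvtwN 1 (pvlktXWb 𝔤.NN t.typ t.ln (pvq0O 𝔤 p) (pvq0Sb 𝔤 t (pvq0O 𝔤 p))))
        (pvlktBkb 𝔤.NN t.typ (pvq0O 𝔤 p)) (pvlktWhb 𝔤.NN t.typ t.ln (pvq0O 𝔤 p) (pvq0Sb 𝔤 t (pvq0O 𝔤 p))) ∅ (pvlktEcb 𝔤.NN t.typ (pvq0O 𝔤 p))
        ((pvfvEndP 𝔤.sp (𝔤.ty (pvlmH m) (l9Pt (pvlmH m) p) t) (l9Pt (pvlmH m) p) (pvlmH m)).O ∪ (pvq0Eu 𝔤 m t (pvq0O 𝔤 p) false (𝔤.ty (pvlmH m) (l9Pt (pvlmH m) p) t).col).O)).walk := pvq0_Wb_eq ∅ m p t _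
    rw [e]
    exact Q

end main

/-! ## 5. the links of a datum with the six equations of 291 -/

section datum

variable {𝔤 : PvmhNum} (H : PvrzGood 𝔤) (c : ℝ) {b q : ℝ≥0∞} {δ : ℕ → ℝ} {𝔶 : PvydGeo (PvmhT 𝔤)}

theorem pvq0_eU (hI : PvyhIs 𝔶 pvkgG pvk2T b q δ (fun m => 40 * 𝔤.dl * pvlmH m)) (m0 m : ℕ) (p : ℤ × ℤ) (t : PvmhT 𝔤) (σ col : Bool) :
    𝔶.eU col m σ (pvydWu (pvrzPar c 𝔤 H (pvmaGam H.ok c) m0) m (l9Pt (pvlmH m) p) t) = pvq0Eu 𝔤 m t (pvq0O 𝔤 p) σ col := by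
  have hw : pvydWu (pvrzPar c 𝔤 H (pvmaGam H.ok c) m0) m (l9Pt (pvlmH m) p) t = pvmgPt (pvq0D 𝔤 m) (pvlktU0 𝔤.NN t.typ (pvq0O 𝔤 p)) := pvq0_wu H.ok c m p t
  have hs : 40 * 𝔤.dl * pvlmH m = 1600 * pvq0D 𝔤 m := by
    unfold pvq0D
    ring
  unfold PvydGeo.eU
  rw [hI.is.eu, hI.is.Ou, pvye_V_sd]
  exact pvli_v_end hw hs σ col

/-- **the thick link of the datum** -/
theorem pvq0_le_eq (hI : PvyhIs 𝔶 pvkgG pvk2T b q δ (fun m => 40 * 𝔤.dl * pvlmH m)) (m0 m : ℕ) (p : ℤ × ℤ) (t : PvmhT 𝔤) (col : Bool) :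
    𝔶.le (pvrzPar c 𝔤 H (pvmaGam H.ok c) m0) col m (l9Pt (pvlmH m) p) t =
      (𝔶.we m (l9Pt (pvlmH m) p) t).lk (pvq0Eu 𝔤 m t (pvq0O 𝔤 p) true col) (pvfvEndM 𝔤.sp (𝔤.ty (pvlmH m) (l9Pt (pvlmH m) p) t) (l9Pt (pvlmH m) p) (pvlmH m)) := by
  unfold PvydGeo.le
  rw [pvq0_eU H c hI]
  rfl

/-- **the thick return of the datum** -/
theorem pvq0_lb_eq (hI : PvyhIs 𝔶 pvkgG pvk2T b q δ (fun m => 40 * 𝔤.dl * pvlmH m)) (m0 m : ℕ) (p : ℤ × ℤ) (t : PvmhT 𝔤) (col : Bool) :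
    𝔶.lb (pvrzPar c 𝔤 H (pvmaGam H.ok c) m0) col m (l9Pt (pvlmH m) p) t =
      (𝔶.wb m (l9Pt (pvlmH m) p) t).lk (pvfvEndP 𝔤.sp (𝔤.ty (pvlmH m) (l9Pt (pvlmH m) p) t) (l9Pt (pvlmH m) p) (pvlmH m)) (pvq0Eu 𝔤 m t (pvq0O 𝔤 p) false col) := by
  unfold PvydGeo.lb
  rw [pvq0_eU H c hI]
  rfl

end datum

/-! ## 6. the contract `PvvwLd.Ok` of 270 from the record of 164 and the half (DET) -/

/-- **WHAT (DET) ASKS OF A LINK BEYOND `PvlktPoly`** = `PvvwDet` (H5) + the fields `mesh vs vt ms0 zc` of `PvvwLd.Ok` (270), at the window `pvtU δ T \ (O ∪ O')` -/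
structure Pvq0Det (e e' : PvnkEnd) (δ ρ : ℝ) (B W P T : Set (ℤ × ℤ)) (Z Z' V V' : Set ℂ) (ms : List (ℝ × Set ℂ)) (p p' : ℝ × Set ℂ) : Prop where
  det : PvvwDet e e' δ ρ B W P T Z Z' ms p p'
  mesh : Pvn2Ms e e' ρ (pvtU δ T \ (e.O ∪ e'.O)) ms
  vs : V ⊆ pvtU δ Pᶜ
  vt : V' ⊆ pvtU δ Pᶜ
  ms0 : ∀ q ∈ ms, 0 < q.1 ∧ MeasurableSet q.2 ∧ q.2 ⊆ e.O ∪ e'.O ∪ e.E ∪ e'.E ∪ (pvtU δ T \ (e.O ∪ e'.O))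
  zc : ∀ x ∈ Z ∪ Z', ∃ q ∈ ms, x ∈ pvtrCore (3 * q.1) q.2

/-- **WHAT THE HULL `P` OF A LINK OWES** = the hypotheses of `pvh5_ld` (275) which depend on the link;   `L` = the windows which the two ends bring to the list -/
structure Pvq0Hull (e e' : PvnkEnd) (δ : ℝ) (B W P T : Set (ℤ × ℤ)) (V V' : Set ℂ) (p p' : ℝ × Set ℂ) (L : List (ℝ × Set ℂ)) : Prop where
  fP : P.Finite
  cP : TscConn pvtG8 Pᶜ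
  /-- the cells of the collars of the rooms of the two ends -/
  h : pvtCells δ (cthickening (3 * p.1) (e.A₁ ∪ e.A₂)) ⊆ P
  h' : pvtCells δ (cthickening (3 * p'.1) (e'.A₁ ∪ e'.A₂)) ⊆ P
  /-- the blocks of the lanes -/
  lP : pvtwN 1 (B ∪ W) ⊆ P
  lT : pvtwN 1 (B ∪ W) ⊆ T
  /-- every cell of the hull: its block in the window of the corridor, off the two state regions, or deep in a window of an end -/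
  k : ∀ c ∈ P, (pvtwN 1 {c} ⊆ T ∧ Disjoint (pvtU δ (pvtwN 1 {c})) (e.O ∪ e'.O)) ∨ ∃ q ∈ L, ∃ k : ℕ, 5 * q.1 < k * δ ∧ pvtU δ (pvtwN k {c}) ⊆ q.2
  /-- the rooms of the far vertices of the two gates are covered by cells off the hull -/
  vs : V ⊆ pvtU δ Pᶜ
  vt : V' ⊆ pvtU δ Pᶜ

section contract

variable {e e' : PvnkEnd} {δ ρ : ℝ} {o : ℤ × ℤ} {N nu : ℕ} {B W Bk Wh P T : Set (ℤ × ℤ)} {Z Z' V V' Et : Set ℂ} {ms : List (ℝ × Set ℂ)} {p p' : ℝ × Set ℂ}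

/-- **THE CONTRACT OF ONE LINK** from the record of 164, the lengths of 203, the half (DET) -/
theorem pvq0_ok_of (hnu : PvlktNu N nu) (G : PvlktPoly e e' δ o N B W Bk Wh Et) (mO : MeasurableSet e.O) (mO' : MeasurableSet e'.O) (D : Pvq0Det e e' δ ρ B W P T Z Z' V V' ms p p') :
    (⟨pvq0Dat δ ρ B W Bk Wh P T (e.O ∪ e'.O), ms, p, p'⟩ : PvvwLd).Ok (pvq0Dat δ ρ B W Bk Wh P T (e.O ∪ e'.O)).walk e e' Z Z' V V' nu where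
  walk := rfl
  ok := pvvw_ok_of_poly G D.det
  mQ := mO.union mO'
  len := pvvw_len hnu G _
  mesh := D.mesh
  vs := D.vs
  vt := D.vt
  ms0 := D.ms0
  zc := D.zc

end contract

/-! ## 7. the candidate record `PvvwT` of 270 at the model -/

section model

variable (𝔤 : PvmhNum)

/-- the reference plug of level `m` -/
noncomputable def pvq0U (m : ℕ) : PvkdPlug := pvkgG.toPvkdPlug.sc (40 * 𝔤.dl * pvlmH m)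

/-- the centre of the reference plug of the candidate -/
noncomputable def pvq0Wu (m : ℕ) (p : ℤ × ℤ) (t : PvmhT 𝔤) : ℂ := pvmgPt (pvq0D 𝔤 m) (pvlktU0 𝔤.NN t.typ (pvq0O 𝔤 p))

/-- the zone of the big plug of the candidate -/
noncomputable def pvq0Zt (m : ℕ) (z : ℂ) (t : PvmhT 𝔤) : Set ℂ := (pvkjBig ((𝔤.ty (pvlmH m) z t).reg 𝔤.sp z (pvlmH m))).Z

/-- the room of `g⁻` of the big plug -/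
noncomputable def pvq0Vm (m : ℕ) (z : ℂ) (t : PvmhT 𝔤) : Set ℂ :=
  ((𝔤.ty (pvlmH m) z t).Nm ∩ closedBall z (((𝔤.ty (pvlmH m) z t).b 𝔤.sp 1 + 1) * pvlmH m)) \ closedBall z ((𝔤.ty (pvlmH m) z t).a 𝔤.sp 1 * pvlmH m)

/-- the room of `g⁺` of the big plug -/
noncomputable def pvq0Vp (m : ℕ) (z : ℂ) (t : PvmhT 𝔤) : Set ℂ :=
  ((𝔤.ty (pvlmH m) z t).Np ∩ closedBall z (((𝔤.ty (pvlmH m) z t).b 𝔤.sp 1 + 1) * pvlmH m)) \ closedBall z ((𝔤.ty (pvlmH m) z t).a 𝔤.sp 1 * pvlmH m)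

/-- the window of the rooms of the end of side `σ` of the reference plug, with its mesh `2.5 δ`   (275 `pvh5_kit`) -/
noncomputable def pvq0Pu (m : ℕ) (p : ℤ × ℤ) (t : PvmhT 𝔤) (σ : Bool) : ℝ × Set ℂ :=
  (‖((1600 * pvq0D 𝔤 m : ℝ) : ℂ)‖ * (1 / 640), pvkdAt (pvq0Wu 𝔤 m p t) ((1600 * pvq0D 𝔤 m : ℝ) : ℂ) (pvk2Es σ))

/-- the window `E⁻` of the big plug, with its mesh `μ h = 2 δ`   (275 `pvh5_mod_m`) -/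
noncomputable def pvq0Pm (m : ℕ) (z : ℂ) (t : PvmhT 𝔤) : ℝ × Set ℂ := (𝔤.sp.mu * pvlmH m, (𝔤.ty (pvlmH m) z t).Em)

/-- the window `E⁺` of the big plug -/
noncomputable def pvq0Pp (m : ℕ) (z : ℂ) (t : PvmhT 𝔤) : ℝ × Set ℂ := (𝔤.sp.mu * pvlmH m, (𝔤.ty (pvlmH m) z t).Ep)

/-- THE SEAM at the rim of the state disc of the big plug (272 `pvn2_seam`) -/
noncomputable def pvq0Ps (m : ℕ) (z : ℂ) (t : PvmhT 𝔤) (Et : Set ℂ) : ℝ × Set ℂ := (2 * (𝔤.sp.mu * pvlmH m) + pvq0R 𝔤 m, pvspO 𝔤.sp (𝔤.ty (pvlmH m) z t) z (pvlmH m) ∪ Et)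

/-- **THE CONTRACT OF `e` AT THE CANDIDATE `(h_m p, t)`**, in words of the model only (no `m0 b q c`) -/
def Pvq0OkE (nu m : ℕ) (p : ℤ × ℤ) (t : PvmhT 𝔤) (L : PvvwLd) : Prop :=
  L.Ok (pvq0We 𝔤 m (l9Pt (pvlmH m) p) t) (pvq0Eu 𝔤 m t (pvq0O 𝔤 p) true (𝔤.ty (pvlmH m) (l9Pt (pvlmH m) p) t).col) (pvfvEndM 𝔤.sp (𝔤.ty (pvlmH m) (l9Pt (pvlmH m) p) t) (l9Pt (pvlmH m) p) (pvlmH m))
    (pvvwZk (pvq0U 𝔤 m) (pvq0Wu 𝔤 m p t) 1) (pvq0Zt 𝔤 m (l9Pt (pvlmH m) p) t) (pvvwVk (pvq0U 𝔤 m) (pvq0Wu 𝔤 m p t) 1 true) (pvq0Vp 𝔤 m (l9Pt (pvlmH m) p) t) nu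

/-- **THE CONTRACT OF `b` AT THE CANDIDATE `(h_m p, t)`** -/
def Pvq0OkB (nu m : ℕ) (p : ℤ × ℤ) (t : PvmhT 𝔤) (L : PvvwLd) : Prop :=
  L.Ok (pvq0Wb 𝔤 m (l9Pt (pvlmH m) p) t) (pvfvEndP 𝔤.sp (𝔤.ty (pvlmH m) (l9Pt (pvlmH m) p) t) (l9Pt (pvlmH m) p) (pvlmH m)) (pvq0Eu 𝔤 m t (pvq0O 𝔤 p) false (𝔤.ty (pvlmH m) (l9Pt (pvlmH m) p) t).col)
    (pvq0Zt 𝔤 m (l9Pt (pvlmH m) p) t) (pvvwZk (pvq0U 𝔤 m) (pvq0Wu 𝔤 m p t) 1) (pvq0Vm 𝔤 m (l9Pt (pvlmH m) p) t) (pvvwVk (pvq0U 𝔤 m) (pvq0Wu 𝔤 m p t) 1 false) nu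

open Classical in
/-- **THE DATA OF THE THICK LINK `e`** (hull, list of windows: by choice among the data with the contract;   the walks are ALWAYS `pvq0We`) -/
noncomputable def pvq0Le (nu m : ℕ) (z : ℂ) (t : PvmhT 𝔤) : PvvwLd :=
  if h : (∃ p : ℤ × ℤ, z = l9Pt (pvlmH m) p) ∧ ∃ L, Pvq0OkE 𝔤 nu m (pvq0P m z) t L then h.2.choose else ⟨pvq0De 𝔤 ∅ m z t, [], (0, ∅), (0, ∅)⟩

open Classical in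
/-- **THE DATA OF THE THICK RETURN `b`** -/
noncomputable def pvq0Lb (nu m : ℕ) (z : ℂ) (t : PvmhT 𝔤) : PvvwLd :=
  if h : (∃ p : ℤ × ℤ, z = l9Pt (pvlmH m) p) ∧ ∃ L, Pvq0OkB 𝔤 nu m (pvq0P m z) t L then h.2.choose else ⟨pvq0Db 𝔤 ∅ m z t, [], (0, ∅), (0, ∅)⟩

end model

theorem pvq0_eqns_cite3 : True := by
  have := @pvq0U.eq_1; have := @pvq0Wu.eq_1; have := @pvq0Zt.eq_1; have := @pvq0Vm.eq_1; have := @pvq0Vp.eq_1; have := @Pvq0OkE.eq_1; have := @Pvq0OkB.eq_1; have := @pvq0Pu.eq_1; have := @pvq0Pm.eq_1; have := @pvq0Pp.eq_1; have := @pvq0Ps.eq_1; have := @pvq0Le.eq_1; have := @pvq0Lb.eq_1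
  trivial

section model2

variable {𝔤 : PvmhNum}

/-- the walks of the data are the walks of record, EVERYWHERE -/
theorem pvq0_Le_walk (nu m : ℕ) (z : ℂ) (t : PvmhT 𝔤) : (pvq0Le 𝔤 nu m z t).D.walk = pvq0We 𝔤 m z t := by
  classical
  unfold pvq0Le
  split_ifs with h
  · obtain ⟨⟨p, rfl⟩, h2⟩ := h
    exact h2.choose_spec.walk.symm.trans (by rw [pvq0_P])
  · rfl

theorem pvq0_Lb_walk (nu m : ℕ) (z : ℂ) (t : PvmhT 𝔤) : (pvq0Lb 𝔤 nu m z t).D.walk = pvq0Wb 𝔤 m z t := by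
  classical
  unfold pvq0Lb
  split_ifs with h
  · obtain ⟨⟨p, rfl⟩, h2⟩ := h
    exact h2.choose_spec.walk.symm.trans (by rw [pvq0_P])
  · rfl

theorem pvq0_Le_ok {nu m : ℕ} {p : ℤ × ℤ} {t : PvmhT 𝔤} (h : ∃ L, Pvq0OkE 𝔤 nu m p t L) : Pvq0OkE 𝔤 nu m p t (pvq0Le 𝔤 nu m (l9Pt (pvlmH m) p) t) := by
  classical
  have h' : (∃ p' : ℤ × ℤ, l9Pt (pvlmH m) p = l9Pt (pvlmH m) p') ∧ ∃ L, Pvq0OkE 𝔤 nu m (pvq0P m (l9Pt (pvlmH m) p)) t L := ⟨⟨p, rfl⟩, by rw [pvq0_P]; exact h⟩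
  unfold pvq0Le
  rw [dif_pos h']
  have aux : ∀ {p' : ℤ × ℤ} (e : p' = p) (h : ∃ L, Pvq0OkE 𝔤 nu m p' t L), Pvq0OkE 𝔤 nu m p t h.choose := by
    intro p' e h
    subst e
    exact h.choose_spec
  exact aux (pvq0_P m p) h'.2

theorem pvq0_Lb_ok {nu m : ℕ} {p : ℤ × ℤ} {t : PvmhT 𝔤} (h : ∃ L, Pvq0OkB 𝔤 nu m p t L) : Pvq0OkB 𝔤 nu m p t (pvq0Lb 𝔤 nu m (l9Pt (pvlmH m) p) t) := by
  classical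
  have h' : (∃ p' : ℤ × ℤ, l9Pt (pvlmH m) p = l9Pt (pvlmH m) p') ∧ ∃ L, Pvq0OkB 𝔤 nu m (pvq0P m (l9Pt (pvlmH m) p)) t L := ⟨⟨p, rfl⟩, by rw [pvq0_P]; exact h⟩
  unfold pvq0Lb
  rw [dif_pos h']
  have aux : ∀ {p' : ℤ × ℤ} (e : p' = p) (h : ∃ L, Pvq0OkB 𝔤 nu m p' t L), Pvq0OkB 𝔤 nu m p t h.choose := by
    intro p' e h
    subst e
    exact h.choose_spec
  exact aux (pvq0_P m p) h'.2

/-- **LEAF (HULL-e)**   [221]:   THE HULL OF `e`;   the list = the window of the East end of `u` (mesh `2.5 δ`), the window `E⁻` of `t` (mesh `μ h = 2 δ`), THE SEAM `O_t ∪ Et` (mesh `4 δ + ρ`)   (275 `Exit/DetEndP`) -/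
theorem exit_pvq0_hull_e (H : 𝔤.OK) (m : ℕ) (p : ℤ × ℤ) (t : PvmhT 𝔤) (hb : (𝔤.ty (pvlmH m) (l9Pt (pvlmH m) p) t).col = true) :
    ∃ Pl : Set (ℤ × ℤ),
      Pvq0Hull (pvq0Eu 𝔤 m t (pvq0O 𝔤 p) true (𝔤.ty (pvlmH m) (l9Pt (pvlmH m) p) t).col) (pvfvEndM 𝔤.sp (𝔤.ty (pvlmH m) (l9Pt (pvlmH m) p) t) (l9Pt (pvlmH m) p) (pvlmH m)) (pvq0D 𝔤 m)
        (pvtwN 1 (pvlktXBe 𝔤.NN t.typ (pvq0O 𝔤 p))) (pvtwN 1 (pvlktXWe 𝔤.NN t.typ t.ln (pvq0O 𝔤 p) (pvq0Se 𝔤 t (pvq0O 𝔤 p)))) Pl (pvlktEce 𝔤.NN t.typ (pvq0O 𝔤 p))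
        (pvvwVk (pvq0U 𝔤 m) (pvq0Wu 𝔤 m p t) 1 true) (pvq0Vp 𝔤 m (l9Pt (pvlmH m) p) t) (pvq0Pu 𝔤 m p t true) (pvq0Pm 𝔤 m (l9Pt (pvlmH m) p) t)
        ([pvq0Pu 𝔤 m p t true] ++ [pvq0Pm 𝔤 m (l9Pt (pvlmH m) p) t, pvq0Ps 𝔤 m (l9Pt (pvlmH m) p) t
          (pvtU (pvq0D 𝔤 m) (pvlktEce 𝔤.NN t.typ (pvq0O 𝔤 p)) \ ((pvq0Eu 𝔤 m t (pvq0O 𝔤 p) true (𝔤.ty (pvlmH m) (l9Pt (pvlmH m) p) t).col).O ∪ (pvfvEndM 𝔤.sp (𝔤.ty (pvlmH m) (l9Pt (pvlmH m) p) t) (l9Pt (pvlmH m) p) (pvlmH m)).O))]) := by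
  sorry

/-- **LEAF (HULL-b)**   [148]:   THE HULL OF `b` -/
theorem exit_pvq0_hull_b (H : 𝔤.OK) (m : ℕ) (p : ℤ × ℤ) (t : PvmhT 𝔤) (hb : (𝔤.ty (pvlmH m) (l9Pt (pvlmH m) p) t).col = true) :
    ∃ Pl : Set (ℤ × ℤ),
      Pvq0Hull (pvfvEndP 𝔤.sp (𝔤.ty (pvlmH m) (l9Pt (pvlmH m) p) t) (l9Pt (pvlmH m) p) (pvlmH m)) (pvq0Eu 𝔤 m t (pvq0O 𝔤 p) false (𝔤.ty (pvlmH m) (l9Pt (pvlmH m) p) t).col) (pvq0D 𝔤 m)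
        (pvtwN 1 (pvlktXBb 𝔤.NN t.typ (pvq0O 𝔤 p))) (pvtwN 1 (pvlktXWb 𝔤.NN t.typ t.ln (pvq0O 𝔤 p) (pvq0Sb 𝔤 t (pvq0O 𝔤 p)))) Pl (pvlktEcb 𝔤.NN t.typ (pvq0O 𝔤 p))
        (pvq0Vm 𝔤 m (l9Pt (pvlmH m) p) t) (pvvwVk (pvq0U 𝔤 m) (pvq0Wu 𝔤 m p t) 1 false) (pvq0Pp 𝔤 m (l9Pt (pvlmH m) p) t) (pvq0Pu 𝔤 m p t false)
        ([pvq0Pp 𝔤 m (l9Pt (pvlmH m) p) t, pvq0Ps 𝔤 m (l9Pt (pvlmH m) p) t
          (pvtU (pvq0D 𝔤 m) (pvlktEcb 𝔤.NN t.typ (pvq0O 𝔤 p)) \ ((pvfvEndP 𝔤.sp (𝔤.ty (pvlmH m) (l9Pt (pvlmH m) p) t) (l9Pt (pvlmH m) p) (pvlmH m)).O ∪ (pvq0Eu 𝔤 m t (pvq0O 𝔤 p) false (𝔤.ty (pvlmH m) (l9Pt (pvlmH m) p) t).col).O))] ++ [pvq0Pu 𝔤 m p t false]) := by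
  sorry

/-- the scale of the reference plug, in fine cells -/
theorem pvq0_su (m : ℕ) : 40 * 𝔤.dl * pvlmH m = 1600 * pvq0D 𝔤 m := by
  unfold pvq0D
  ring

theorem pvq0_a_ne (H : 𝔤.OK) (m : ℕ) : ((1600 * pvq0D 𝔤 m : ℝ) : ℂ) ≠ 0 := by
  have := pvq0_D_pos H m
  exact_mod_cast (by positivity : (1600 * pvq0D 𝔤 m : ℝ) ≠ 0)

theorem pvq0_a_norm (H : 𝔤.OK) (m : ℕ) : ‖((1600 * pvq0D 𝔤 m : ℝ) : ℂ)‖ = 1600 * pvq0D 𝔤 m := by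
  have := pvq0_D_pos H m
  rw [Complex.norm_real, Real.norm_eq_abs, abs_of_pos (by positivity)]

/-- the zone of the reference plug lies deep in the window of either side -/
theorem pvq0_zc_u (H : 𝔤.OK) (m : ℕ) (p : ℤ × ℤ) (t : PvmhT 𝔤) (σ : Bool) : pvvwZk (pvq0U 𝔤 m) (pvq0Wu 𝔤 m p t) 1 ⊆ pvtrCore (3 * (pvq0Pu 𝔤 m p t σ).1) (pvq0Pu 𝔤 m p t σ).2 := by
  have hs : 0 < 1600 * pvq0D 𝔤 m := by have := pvq0_D_pos H m; positivity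
  have h := pvvw_zc_kit hs (pvq0Wu 𝔤 m p t) (d := 1) (by simp) (pvk2_O_sub σ)
  unfold pvq0U pvq0Pu
  rw [pvq0_su, pvq0_a_norm H]
  rw [one_mul] at h
  exact h

/-- the zone of the big plug lies deep in its two windows -/
theorem pvq0_zc_m (H : 𝔤.OK) (m : ℕ) (z : ℂ) (t : PvmhT 𝔤) : pvq0Zt 𝔤 m z t ⊆ pvtrCore (3 * (pvq0Pm 𝔤 m z t).1) (pvq0Pm 𝔤 m z t).2 :=
  pvvw_zc_m (pvmh_wf H z t (pvlm_H_pos m))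

theorem pvq0_zc_p (H : 𝔤.OK) (m : ℕ) (z : ℂ) (t : PvmhT 𝔤) : pvq0Zt 𝔤 m z t ⊆ pvtrCore (3 * (pvq0Pp 𝔤 m z t).1) (pvq0Pp 𝔤 m z t).2 :=
  pvvw_zc_p (pvmh_wf H z t (pvlm_H_pos m))

theorem pvq0_core_sub {r : ℝ} (hr : 0 ≤ r) {E : Set ℂ} : pvtrCore r E ⊆ E := fun z hz => hz (mem_closedBall_self hr)

/-- the contract of `e` at the model -/
theorem pvq0_okE (H : 𝔤.OK) {nu m : ℕ} {p : ℤ × ℤ} {t : PvmhT 𝔤} (T : Pvq0Thk 𝔤 nu m p t) (hb : (𝔤.ty (pvlmH m) (l9Pt (pvlmH m) p) t).col = true) : ∃ L, Pvq0OkE 𝔤 nu m p t L := by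
  obtain ⟨Pl, D⟩ := exit_pvq0_hull_e H m p t hb
  have hδ := pvq0_D_pos H m
  have hρ := pvq0_R_pos H m
  have h5 : 5 * pvq0R 𝔤 m < pvq0D 𝔤 m := by unfold pvq0R; linarith
  have mEt := (pvn2_U_meas (pvq0D 𝔤 m) (pvlktEce 𝔤.NN t.typ (pvq0O 𝔤 p))).diff ((T.mU true (𝔤.ty (pvlmH m) (l9Pt (pvlmH m) p) t).col).union T.mM)
  have E1 := pvh5_kit (ρ := pvq0R 𝔤 m) (Et := pvtU (pvq0D 𝔤 m) (pvlktEce 𝔤.NN t.typ (pvq0O 𝔤 p)) \ ((pvq0Eu 𝔤 m t (pvq0O 𝔤 p) true (𝔤.ty (pvlmH m) (l9Pt (pvlmH m) p) t).col).O ∪ (pvfvEndM 𝔤.sp (𝔤.ty (pvlmH m) (l9Pt (pvlmH m) p) t) (l9Pt (pvlmH m) p) (pvlmH m)).O))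
    true (𝔤.ty (pvlmH m) (l9Pt (pvlmH m) p) t).col (pvq0Wu 𝔤 m p t) (pvq0_a_ne H m)
  have E2 := pvh5_mod_m H (l9Pt (pvlmH m) p) t (pvlm_H_pos m) hρ mEt
  have z1 := pvq0_zc_u H m p t true
  have z2 := pvq0_zc_m H m (l9Pt (pvlmH m) p) t
  have p1 : 0 ≤ 3 * (pvq0Pu 𝔤 m p t true).1 := by have := E1.pos _ E1.mem; exact (mul_pos (by norm_num) this).le
  have p2 : 0 ≤ 3 * (pvq0Pm 𝔤 m (l9Pt (pvlmH m) p) t).1 := by have := E2.pos _ E2.mem; exact (mul_pos (by norm_num) this).le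
  have far : Disjoint (pvvwZk (pvq0U 𝔤 m) (pvq0Wu 𝔤 m p t) 1) (pvq0Zt 𝔤 m (l9Pt (pvlmH m) p) t) := pvvw_far T.pe.dj (z1.trans (pvq0_core_sub p1)) (z2.trans (pvq0_core_sub p2))
  have h := pvh5_ld T.pe T.hnu (T.mU _ _) T.mM E1 E2 hρ h5 D.fP D.cP T.fE far D.h D.h' D.lP D.lT D.k D.vs D.vt
    (pvvw_zc (List.mem_append_left _ E1.mem) (List.mem_append_right _ E2.mem) z1 z2)
  have e := pvq0_We_eq Pl m p t (𝔤.ty (pvlmH m) (l9Pt (pvlmH m) p) t).col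
  exact ⟨_, e ▸ h⟩

/-- the contract of `b` at the model -/
theorem pvq0_okB (H : 𝔤.OK) {nu m : ℕ} {p : ℤ × ℤ} {t : PvmhT 𝔤} (T : Pvq0Thk 𝔤 nu m p t) (hb : (𝔤.ty (pvlmH m) (l9Pt (pvlmH m) p) t).col = true) : ∃ L, Pvq0OkB 𝔤 nu m p t L := by
  obtain ⟨Pl, D⟩ := exit_pvq0_hull_b H m p t hb
  have hδ := pvq0_D_pos H m
  have hρ := pvq0_R_pos H m
  have h5 : 5 * pvq0R 𝔤 m < pvq0D 𝔤 m := by unfold pvq0R; linarith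
  have mEt := (pvn2_U_meas (pvq0D 𝔤 m) (pvlktEcb 𝔤.NN t.typ (pvq0O 𝔤 p))).diff (T.mP.union (T.mU false (𝔤.ty (pvlmH m) (l9Pt (pvlmH m) p) t).col))
  have E2 := pvh5_kit (ρ := pvq0R 𝔤 m) (Et := pvtU (pvq0D 𝔤 m) (pvlktEcb 𝔤.NN t.typ (pvq0O 𝔤 p)) \ ((pvfvEndP 𝔤.sp (𝔤.ty (pvlmH m) (l9Pt (pvlmH m) p) t) (l9Pt (pvlmH m) p) (pvlmH m)).O ∪ (pvq0Eu 𝔤 m t (pvq0O 𝔤 p) false (𝔤.ty (pvlmH m) (l9Pt (pvlmH m) p) t).col).O))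
    false (𝔤.ty (pvlmH m) (l9Pt (pvlmH m) p) t).col (pvq0Wu 𝔤 m p t) (pvq0_a_ne H m)
  have E1 := pvh5_mod_p H (l9Pt (pvlmH m) p) t (pvlm_H_pos m) hρ mEt
  have z2 := pvq0_zc_u H m p t false
  have z1 := pvq0_zc_p H m (l9Pt (pvlmH m) p) t
  have p2 : 0 ≤ 3 * (pvq0Pu 𝔤 m p t false).1 := by have := E2.pos _ E2.mem; exact (mul_pos (by norm_num) this).le
  have p1 : 0 ≤ 3 * (pvq0Pp 𝔤 m (l9Pt (pvlmH m) p) t).1 := by have := E1.pos _ E1.mem; exact (mul_pos (by norm_num) this).le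
  have far : Disjoint (pvq0Zt 𝔤 m (l9Pt (pvlmH m) p) t) (pvvwZk (pvq0U 𝔤 m) (pvq0Wu 𝔤 m p t) 1) := pvvw_far T.pb.dj (z1.trans (pvq0_core_sub p1)) (z2.trans (pvq0_core_sub p2))
  have h := pvh5_ld T.pb T.hnu T.mP (T.mU _ _) E1 E2 hρ h5 D.fP D.cP T.fB far D.h D.h' D.lP D.lT D.k D.vs D.vt
    (pvvw_zc (List.mem_append_left _ E1.mem) (List.mem_append_right _ E2.mem) z1 z2)
  have e := pvq0_Wb_eq Pl m p t (𝔤.ty (pvlmH m) (l9Pt (pvlmH m) p) t).col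
  exact ⟨_, e ▸ h⟩

end model2

/-! ## 8. THE CANDIDATE RECORD OF THE THICK LINKS at any datum with the equations of 291 -/

section top

variable {𝔤 : PvmhNum} (H : PvrzGood 𝔤) (c : ℝ) {b q : ℝ≥0∞} {δ : ℕ → ℝ} {𝔶 : PvydGeo (PvmhT 𝔤)}

/-- the contract of `e` at the ends, zones, far rooms of record -/
theorem pvq0_e_ok {nu m : ℕ} {p : ℤ × ℤ} {t : PvmhT 𝔤} (T : Pvq0Thk 𝔤 nu m p t) (hb : (𝔤.ty (pvlmH m) (l9Pt (pvlmH m) p) t).col = true)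
    (hI : PvyhIs 𝔶 pvkgG pvk2T b q δ (fun m => 40 * 𝔤.dl * pvlmH m)) (he : 𝔶.we = pvq0We 𝔤) (m0 : ℕ) :
    (pvq0Le 𝔤 nu m (l9Pt (pvlmH m) p) t).Ok (𝔶.we m (l9Pt (pvlmH m) p) t)
      (𝔶.eU ((pvrzPar c 𝔤 H (pvmaGam H.ok c) m0).ty m (l9Pt (pvlmH m) p) t).col m true (pvydWu (pvrzPar c 𝔤 H (pvmaGam H.ok c) m0) m (l9Pt (pvlmH m) p) t)) (pvydEM (pvrzPar c 𝔤 H (pvmaGam H.ok c) m0) m (l9Pt (pvlmH m) p) t)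
      (pvvwZk (pvkgG.toPvkdPlug.sc (40 * 𝔤.dl * pvlmH m)) (pvydWu (pvrzPar c 𝔤 H (pvmaGam H.ok c) m0) m (l9Pt (pvlmH m) p) t) 1) (pvvwZt (pvrzPar c 𝔤 H (pvmaGam H.ok c) m0) m (l9Pt (pvlmH m) p) t)
      (pvvwVk (pvkgG.toPvkdPlug.sc (40 * 𝔤.dl * pvlmH m)) (pvydWu (pvrzPar c 𝔤 H (pvmaGam H.ok c) m0) m (l9Pt (pvlmH m) p) t) 1 true) (pvvwVp (pvrzPar c 𝔤 H (pvmaGam H.ok c) m0) m (l9Pt (pvlmH m) p) t) nu := by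
  have h := pvq0_Le_ok (pvq0_okE H.ok T hb)
  have hw : pvydWu (pvrzPar c 𝔤 H (pvmaGam H.ok c) m0) m (l9Pt (pvlmH m) p) t = pvq0Wu 𝔤 m p t := pvq0_wu H.ok c m p t
  rw [pvq0_eU H c hI, hw, he]
  exact h

/-- the contract of `b` at the ends, zones, far rooms of record -/
theorem pvq0_b_ok {nu m : ℕ} {p : ℤ × ℤ} {t : PvmhT 𝔤} (T : Pvq0Thk 𝔤 nu m p t) (hb : (𝔤.ty (pvlmH m) (l9Pt (pvlmH m) p) t).col = true)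
    (hI : PvyhIs 𝔶 pvkgG pvk2T b q δ (fun m => 40 * 𝔤.dl * pvlmH m)) (hw : 𝔶.wb = pvq0Wb 𝔤) (m0 : ℕ) :
    (pvq0Lb 𝔤 nu m (l9Pt (pvlmH m) p) t).Ok (𝔶.wb m (l9Pt (pvlmH m) p) t)
      (pvydEP (pvrzPar c 𝔤 H (pvmaGam H.ok c) m0) m (l9Pt (pvlmH m) p) t) (𝔶.eU ((pvrzPar c 𝔤 H (pvmaGam H.ok c) m0).ty m (l9Pt (pvlmH m) p) t).col m false (pvydWu (pvrzPar c 𝔤 H (pvmaGam H.ok c) m0) m (l9Pt (pvlmH m) p) t))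
      (pvvwZt (pvrzPar c 𝔤 H (pvmaGam H.ok c) m0) m (l9Pt (pvlmH m) p) t) (pvvwZk (pvkgG.toPvkdPlug.sc (40 * 𝔤.dl * pvlmH m)) (pvydWu (pvrzPar c 𝔤 H (pvmaGam H.ok c) m0) m (l9Pt (pvlmH m) p) t) 1)
      (pvvwVm (pvrzPar c 𝔤 H (pvmaGam H.ok c) m0) m (l9Pt (pvlmH m) p) t) (pvvwVk (pvkgG.toPvkdPlug.sc (40 * 𝔤.dl * pvlmH m)) (pvydWu (pvrzPar c 𝔤 H (pvmaGam H.ok c) m0) m (l9Pt (pvlmH m) p) t) 1 false) nu := by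
  have h := pvq0_Lb_ok (pvq0_okB H.ok T hb)
  have hw' : pvydWu (pvrzPar c 𝔤 H (pvmaGam H.ok c) m0) m (l9Pt (pvlmH m) p) t = pvq0Wu 𝔤 m p t := pvq0_wu H.ok c m p t
  rw [pvq0_eU H c hI, hw', hw]
  exact h

/-- **(THICK) IN THE WORDS OF 270**: `PvvwT` (abstract data) at the parameters of record -/
theorem pvq0_T {nu m : ℕ} {p : ℤ × ℤ} {t : PvmhT 𝔤} (T : Pvq0Thk 𝔤 nu m p t) (hb : (𝔤.ty (pvlmH m) (l9Pt (pvlmH m) p) t).col = true)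
    (hI : PvyhIs 𝔶 pvkgG pvk2T b q δ (fun m => 40 * 𝔤.dl * pvlmH m)) (he : 𝔶.we = pvq0We 𝔤) (hw : 𝔶.wb = pvq0Wb 𝔤) (m0 : ℕ) :
    PvvwT (pvrzPar c 𝔤 H (pvmaGam H.ok c) m0) 𝔶 (pvkgG.toPvkdPlug.sc (40 * 𝔤.dl * pvlmH m)) nu m (l9Pt (pvlmH m) p) t (pvq0Le 𝔤 nu m (l9Pt (pvlmH m) p) t).toLa (pvq0Lb 𝔤 nu m (l9Pt (pvlmH m) p) t).toLa where
  we := by rw [he]; exact (pvq0_Le_walk nu m _ t).symm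
  wb := by rw [hw]; exact (pvq0_Lb_walk nu m _ t).symm
  e := (pvq0_e_ok H c T hb hI he m0).toLa
  b := (pvq0_b_ok H c T hb hI hw m0).toLa

end top

/-! ## 9. (THICK) at the term of `Exit/GeoP` -/

section term

variable {𝔤 : PvmhNum}

/-- the layout record of 76 (`Tr/LinkLayX`: `dKbKe`, `e_sd`, `Ke`, `Kb`) at any datum with the equations of 291 and the walks of record -/
theorem pvq0_lay (H : PvrzGood 𝔤) (c : ℝ) {b q : ℝ≥0∞} {δ : ℕ → ℝ} {𝔶 : PvydGeo (PvmhT 𝔤)} {nu m : ℕ} {p : ℤ × ℤ} {t : PvmhT 𝔤} (T : Pvq0Thk 𝔤 nu m p t)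
    (hI : PvyhIs 𝔶 pvkgG pvk2T b q δ (fun m => 40 * 𝔤.dl * pvlmH m)) (he : 𝔶.we = pvq0We 𝔤) (hw : 𝔶.wb = pvq0Wb 𝔤) (m0 : ℕ) :
    PvvqxLay (pvrzPar c 𝔤 H (pvmaGam H.ok c) m0) 𝔶 (𝔤.ty (pvlmH m) (l9Pt (pvlmH m) p) t).col m (l9Pt (pvlmH m) p) t (pvq0D 𝔤 m) (pvq0O 𝔤 p) where
  δ0 := pvq0_D_pos H.ok m
  dl := pvq0_D_mul m
  hz := pvq0_z H.ok m p
  e := by
    refine ⟨pvq0Se 𝔤 t (pvq0O 𝔤 p), pvq0R 𝔤 m, nu, T.Se, ?_⟩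
    rw [pvq0_eU H c hI, he]
    exact T.e
  b := by
    refine ⟨pvq0Sb 𝔤 t (pvq0O 𝔤 p), pvq0R 𝔤 m, nu, T.Sb, ?_⟩
    rw [pvq0_eU H c hI, hw]
    exact T.b

/-- **(THICK)** `= exit_pveq_thick` of `Exit/GeoTP`, over the two leaves (HULL-e) (HULL-b) -/
theorem pvq0_thick (c : ℝ) (H : PvrzGood 𝔤) : PveqThkSt c H := by
  obtain ⟨nu, hT⟩ := pvq0_thk H.ok
  refine ⟨0, fun m z t => (pvq0Le 𝔤 nu m z t).toLa, fun m z t => (pvq0Lb 𝔤 nu m z t).toLa, nu, fun b q Λ h1 h2 h3 => ?_⟩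
  have he : (pveqT c b q Λ).we = pvq0We 𝔤 := by
    funext m z t
    show (Λ.Le m z t).w = _
    rw [h1]
    exact pvq0_Le_walk nu m z t
  have hw : (pveqT c b q Λ).wb = pvq0Wb 𝔤 := by
    funext m z t
    show (Λ.Lb m z t).w = _
    rw [h2]
    exact pvq0_Lb_walk nu m z t
  refine ⟨fun m0 m _ p t hb => ?_⟩
  have h := pvq0_T H c (hT m p t) hb (pveq_is b q (pveqDel c 𝔤) (pveqSu 𝔤) Λ) he hw m0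
  rw [h1, h2, h3]
  exact h

end term

end Claimed.Agent.R289
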