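-- KEEP
import Claimed.Agent.R289.Exit.DjQ
import Claimed.Agent.R289.Tr.LinkLayW
import Claimed.Agent.R289.Tr.LinkGeoV
import Claimed.Agent.R289.Exit.ThkP

/-!
# Row 289 (S0537), ROAD P, Exit/DjKe : THE FIELD `e_sd` OF THE CONTRACT `PvydDqIn` OF 58 (`Exit/DjQ`)      (pen helper122, post P19 of 273; prefix `pvkh_`)

`K_e = pvnhKp (w.lk eu ep) w.Et ⊆ z + U_d (pvydDqAe 𝔑 τ)`, `d = 40 δ` = side of a MENU cell, `z = pvmgPt δ o`, for EVERY walk `w` delivered by the dictionary of 164 (`PvlktOut` at the layout `XBe XWe Bke Whe Ece` of `Tr/LinkLay`).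
* cells:   `pvkh_bx` (boxes at `u`), `pvkh_ax` (collars of the axis), `pvkh_cl` (collars of the pieces `1..4`);   **`pvkh_XBe`**, **`pvkh_XWe`**, **`pvkh_Ece`** : `N² XBe`, `N² XWe`, `Ece ⊆ φ⁻¹ (pvydDqAe)`
* plane:   **`pvkh_e_sd`** (any two ends: `eu.E ⊆ eu.O ∪ U [130,219] × [-100,99]`, `ep.E \ ep.O ⊆ z + U_d N⁸ (cells 1..4)`);
  **`pvkh_e_sd_rec`** : the same at the ends of record `pvliVE δ u₀ true c` (15) and `pvfvEndM 𝔤.sp (𝔤.ty h z s) z h` (`pvmhb_Em_off`), `𝔤.dl * h = 40 * δ`.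
* term:    **`pvkh_e_sd_thk`** : from `Pvq0Thk` of 190 (`Exit/ThkP`), at the walk of record `pvq0We`;   **`pvkh_e_sd_term`** : THE FIELD `e_sd` at ANY datum `𝔶` with the six equations `PvyhIs` of 291 and `𝔶.we m z t = pvq0We 𝔤 m z t`, `z = l9Pt h_m p`.
-/

set_option autoImplicit false
set_option linter.unusedSectionVars false
set_option linter.unusedVariables false
set_option linter.unusedSimpArgs false

namespace Claimed.Agent.R289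

open MeasureTheory Filter Topology Set Metric Claims.C0465 Claims.C0467 Claimed.Agent.R291
open scoped ENNReal

section cells

variable {𝔑 : PvmnNum} {τ : PvmnType} {ln : ((ℤ × ℤ) × (ℤ × ℤ)) × ℕ} {o : ℤ × ℤ} {S : Set (ℤ × ℤ)}

/-- a box of fine cells in the EAST half of the body of `u` -/
theorem pvkh_bx {a b c d : ℤ} (ha : 40 ≤ a) (hb : b ≤ 359) (hc : -320 ≤ c) (hd : d ≤ 359) : pvlktBx (pvlktU0 𝔑 τ o) a b c d ⊆ (pvlktPhi o).pre (pvydDqAe 𝔑 τ) := by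
  intro k hk
  obtain ⟨h1, h2, h3, h4⟩ := pvlkv_bx_pre (o := o) (C := pvlzC 𝔑 τ) (a' := 1) (b' := 8) (c' := -8) (d' := 8) (by omega) (by omega) (by omega) (by omega) hk
  refine Or.inr ⟨(pvlktPhi o).ap k - pvlzC 𝔑 τ, ⟨?_, ?_, ?_, ?_⟩, sub_add_cancel _ _⟩
  · simp only [Prod.fst_sub]; omega
  · simp only [Prod.fst_sub]; omega
  · simp only [Prod.snd_sub]; omega
  · simp only [Prod.snd_sub]; omega

/-- a fine collar of a box -/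
theorem pvkh_N_bx (j : ℕ) {a b c d : ℤ} (ha : 40 + (j : ℤ) ≤ a) (hb : b + j ≤ 359) (hc : -320 + (j : ℤ) ≤ c) (hd : d + j ≤ 359) :
    pvtwN j (pvlktBx (pvlktU0 𝔑 τ o) a b c d) ⊆ (pvlktPhi o).pre (pvydDqAe 𝔑 τ) :=
  (pvlkv_N_bx (a' := 40) (b' := 359) (c' := -320) (d' := 359) j ha hb hc hd).trans (pvkh_bx le_rfl le_rfl le_rfl le_rfl)

/-- a fine collar of the axis -/
theorem pvkh_ax {j : ℕ} (hj : j ≤ 40) : pvtwN j ((pvlktPhi o).pre ((τ.C 0 : Set (ℤ × ℤ)) ∪ pvlktAxE 𝔑 τ)) ⊆ (pvlktPhi o).pre (pvydDqAe 𝔑 τ) :=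
  (pvlkv_N_pre hj _).trans (pvlkv_pre_mono fun x hx => Or.inl (Or.inr (pvtw_N_mono (k' := 6) (by omega) (le_refl _) hx)))

/-- a fine collar of a menu collar of the pieces `1..4` -/
theorem pvkh_cl {j i a b : ℕ} (hj : j ≤ 40) (hi : i ≤ 7) (ha : 1 ≤ a) (hb : b ≤ 4) : pvtwN j ((pvlktPhi o).pre (pvtwN i (pvmnCells τ a b))) ⊆ (pvlktPhi o).pre (pvydDqAe 𝔑 τ) := by
  refine (pvlkv_N_pre hj _).trans (pvlkv_pre_mono fun x hx => Or.inl (Or.inl ?_))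
  rw [pvtw_N_add] at hx
  exact pvtw_N_mono (by omega) (pvmn_cells_mono ha hb) hx

/-- a fine collar of a menu collar of one piece -/
theorem pvkh_C {j i : ℕ} (hj : j ≤ 40) (hi : i ≤ 7) (k : Fin 10) (h1 : 1 ≤ k.1) (h4 : k.1 ≤ 4) : pvtwN j ((pvlktPhi o).pre (pvtwN i (τ.C k : Set (ℤ × ℤ)))) ⊆ (pvlktPhi o).pre (pvydDqAe 𝔑 τ) :=
  (pvtw_N_mono le_rfl (pvlkv_pre_mono (pvtw_N_mono le_rfl (pvmn_C_sub (a := 1) (b := 4) k h1 h4)))).trans (pvkh_cl hj hi le_rfl le_rfl)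

/-- **the black walk of `e`** -/
theorem pvkh_XBe : pvtwN 2 (pvlktXBe 𝔑 τ o) ⊆ (pvlktPhi o).pre (pvydDqAe 𝔑 τ) := by
  unfold pvlktXBe
  rw [pvtw_N_union, pvtw_N_union, pvtw_N_add]
  rintro k ((h | h) | h)
  · have e : ((τ.C 0 : Set (ℤ × ℤ)) ∪ (τ.C 1 : Set (ℤ × ℤ)) ∪ pvlktAxE 𝔑 τ) = ((τ.C 0 : Set (ℤ × ℤ)) ∪ pvlktAxE 𝔑 τ) ∪ pvtwN 0 (τ.C 1 : Set (ℤ × ℤ)) := by
      rw [pvtw_N_zero, Set.union_right_comm]
    rw [e, pvgw_pre_union, pvtw_N_union] at h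
    rcases h with h | h
    · exact pvkh_ax (by omega) h
    · exact pvkh_C (by omega) (by omega) 1 (by simp) (by simp) h
  · exact pvkh_C (by omega) (by omega) 2 (by simp) (by simp) h
  · exact pvkh_N_bx 2 (by norm_num) (by norm_num) (by norm_num) (by norm_num) h

/-- **the white walk of `e`** -/
theorem pvkh_XWe (hτ : PvmnIsType 𝔑 τ) (hl : PvmnLaneR τ ln.1 ln.2) (hadj : ∀ w ∈ S, ∃ b, triAdj b w ∧ b ∈ pvlktFaE 𝔑 τ o ∪ (pvlktPhi o).pre (pvtwN 4 (pvmnCells τ 1 2))) :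
    pvtwN 2 (pvlktXWe 𝔑 τ ln o S) ⊆ (pvlktPhi o).pre (pvydDqAe 𝔑 τ) := by
  intro k hk
  rcases pvlkv_in_e hadj (pvtw_N_mono (k' := 3) (by omega) le_rfl hk) with ((h | h) | h) | h
  · exact Or.inl (Or.inl (pvtw_N_mono (by omega) (pvmn_cells_mono le_rfl (by omega)) h))
  · exact Or.inl (Or.inr (pvtw_N_mono (k' := 6) (by omega) (le_refl _) h))
  · have : (pvlktPhi o).ap k ∈ pvtwN (2 + 5) (τ.C 1 : Set (ℤ × ℤ)) := by
      rw [← pvtw_N_add]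
      exact pvtw_N_mono le_rfl (Set.singleton_subset_iff.2 (pvlkv_A0_C1 hτ hl)) h
    exact Or.inl (Or.inl (pvtw_N_mono (by omega) (pvmn_C_sub (a := 1) (b := 4) 1 (by simp) (by simp)) this))
  · exact pvkh_bx (by norm_num) (by norm_num) (by norm_num) (by norm_num) h

/-- **the window of the corridor of `e`** -/
theorem pvkh_Ece : pvlktEce 𝔑 τ o ⊆ (pvlktPhi o).pre (pvydDqAe 𝔑 τ) := by
  unfold pvlktEce pvlktFaE
  rw [pvtw_N_union, pvtw_N_union, pvtw_N_union, pvtw_N_add]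
  rintro k ((((h | h) | h) | h) | h)
  · exact pvkh_ax (by omega) h
  · exact pvkh_N_bx 6 (by norm_num) (by norm_num) (by norm_num) (by norm_num) h
  · exact pvkh_N_bx 6 (by norm_num) (by norm_num) (by norm_num) (by norm_num) h
  · exact pvkh_cl (by omega) (by omega) le_rfl (by omega) h
  · exact pvkh_bx (by norm_num) (by norm_num) (by norm_num) (by norm_num) h

end cells

section plane

variable {𝔑 : PvmnNum} {τ : PvmnType} {ln : ((ℤ × ℤ) × (ℤ × ℤ)) × ℕ} {o : ℤ × ℤ} {S : Set (ℤ × ℤ)} {eu ep : PvnkEnd} {δ ρ : ℝ} {nu : ℕ} {w : PvydWalk}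

/-- fine cells over menu cells, in the plane -/
theorem pvkh_U (hδ : 0 < δ) {X A : Set (ℤ × ℤ)} (h : X ⊆ (pvlktPhi o).pre A) : pvtU δ X ⊆ pvmgPl (pvmgPt δ o) (40 * δ) A := by
  have e := pvwg_U_pre hδ (κ := 40) (by norm_num) o A
  push_cast at e
  rw [← e]
  exact pvt_U_mono h

/-- **THE FIELD `e_sd`**, any two ends -/
theorem pvkh_e_sd (hδ : 0 < δ) (hτ : PvmnIsType 𝔑 τ) (hl : PvmnLaneR τ ln.1 ln.2) (hS : PvlktSe 𝔑 τ ln o S)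
    (hEu : eu.E ⊆ eu.O ∪ pvtU δ (pvlktBx (pvlktU0 𝔑 τ o) 130 219 (-100) 99))
    (hEp : ep.E \ ep.O ⊆ pvmgPl (pvmgPt δ o) (40 * δ) (pvtwN 8 (pvmnCells τ 1 4)))
    (Q : PvlktOut eu ep δ ρ nu (pvtwN 1 (pvlktXBe 𝔑 τ o)) (pvtwN 1 (pvlktXWe 𝔑 τ ln o S)) (pvlktBke 𝔑 τ o) (pvlktWhe 𝔑 τ ln o S) (pvtU δ (pvlktEce 𝔑 τ o) \ (eu.O ∪ ep.O)) w) :
    pvnhKp (w.lk eu ep) w.Et ⊆ pvmgPl (pvmgPt δ o) (40 * δ) (pvydDqAe 𝔑 τ) := by
  intro p hp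
  have hoff : p ∉ eu.O ∪ ep.O := hp.2
  rw [Set.mem_union, not_or] at hoff
  rcases Q.Kp_sub hδ hp with (((h | h) | h) | h) | h
  · rcases hEu h with h' | h'
    · exact (hoff.1 h').elim
    · exact pvkh_U hδ (pvkh_bx (by norm_num) (by norm_num) (by norm_num) (by norm_num)) h'
  · exact pvmg_mono (fun x hx => Or.inl (Or.inl hx)) (hEp ⟨h, hoff.2⟩)
  · rw [pvtw_N_add] at h
    exact pvkh_U hδ pvkh_XBe h
  · rw [pvtw_N_add] at h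
    exact pvkh_U hδ (pvkh_XWe hτ hl hS.adj) h
  · exact pvkh_U hδ pvkh_Ece h.1

/-- **THE FIELD `e_sd` AT THE ENDS OF RECORD**: the exit end of the reference plug in fine units (15), the entrance end of the plug of the model -/
theorem pvkh_e_sd_rec {𝔤 : PvmhNum} (H : 𝔤.OK) {h : ℝ} (hh : 0 < h) (s : PvmhT 𝔤) (c : Bool) (hδ : 0 < δ) (hd : 𝔤.dl * h = 40 * δ) (hS : PvlktSe 𝔤.NN s.typ s.ln o S)
    (Q : PvlktOut (pvliVE δ (pvlktU0 𝔤.NN s.typ o) true c) (pvfvEndM 𝔤.sp (𝔤.ty h (pvmgPt δ o) s) (pvmgPt δ o) h) δ ρ nu (pvtwN 1 (pvlktXBe 𝔤.NN s.typ o)) (pvtwN 1 (pvlktXWe 𝔤.NN s.typ s.ln o S))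
      (pvlktBke 𝔤.NN s.typ o) (pvlktWhe 𝔤.NN s.typ s.ln o S)
      (pvtU δ (pvlktEce 𝔤.NN s.typ o) \ ((pvliVE δ (pvlktU0 𝔤.NN s.typ o) true c).O ∪ (pvfvEndM 𝔤.sp (𝔤.ty h (pvmgPt δ o) s) (pvmgPt δ o) h).O)) w) :
    pvnhKp (w.lk (pvliVE δ (pvlktU0 𝔤.NN s.typ o) true c) (pvfvEndM 𝔤.sp (𝔤.ty h (pvmgPt δ o) s) (pvmgPt δ o) h)) w.Et ⊆ pvmgPl (pvmgPt δ o) (𝔤.dl * h) (pvydDqAe 𝔤.NN s.typ) := by
  rw [hd]
  refine pvkh_e_sd hδ s.isType s.isLane hS ?_ ?_ Q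
  · exact pvli_v_E_sub hδ _ true c
  · have := pvmhb_Em_off H (pvmgPt δ o) s hh
    rw [hd] at this
    exact this

end plane

/-! ## the term -/

section term

variable {𝔤 : PvmhNum} {nu m : ℕ} {p : ℤ × ℤ} {t : PvmhT 𝔤}

/-- `e_sd` at the walk of record of 190 -/
theorem pvkh_e_sd_thk (H : 𝔤.OK) (T : Pvq0Thk 𝔤 nu m p t) :
    pvnhKp ((pvq0We 𝔤 m (l9Pt (pvlmH m) p) t).lk (pvq0Eu 𝔤 m t (pvq0O 𝔤 p) true (𝔤.ty (pvlmH m) (l9Pt (pvlmH m) p) t).col) (pvfvEndM 𝔤.sp (𝔤.ty (pvlmH m) (l9Pt (pvlmH m) p) t) (l9Pt (pvlmH m) p) (pvlmH m)))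
      (pvq0We 𝔤 m (l9Pt (pvlmH m) p) t).Et ⊆ pvmgPl (l9Pt (pvlmH m) p) (𝔤.dl * pvlmH m) (pvydDqAe 𝔤.NN t.typ) := by
  have Q := T.e
  have hz := pvq0_z H m p
  generalize pvq0We 𝔤 m (l9Pt (pvlmH m) p) t = w at Q ⊢
  rw [hz] at Q ⊢
  exact pvkh_e_sd_rec H (pvlm_H_pos m) t _ (pvq0_D_pos H m) (pvq0_D_mul m) T.Se Q

/-- **THE FIELD `e_sd` OF `PvydDqIn` AT THE TERM** (any datum with the six equations of 291 at the scale `su = 40 dl h` whose walk `we` is the walk of record) -/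
theorem pvkh_e_sd_term (H : PvrzGood 𝔤) (c : ℝ) {b q : ℝ≥0∞} {δ : ℕ → ℝ} {𝔶 : PvydGeo (PvmhT 𝔤)} (hI : PvyhIs 𝔶 pvkgG pvk2T b q δ (fun m => 40 * 𝔤.dl * pvlmH m)) (m0 : ℕ)
    (T : Pvq0Thk 𝔤 nu m p t) (hw : 𝔶.we m (l9Pt (pvlmH m) p) t = pvq0We 𝔤 m (l9Pt (pvlmH m) p) t) :
    pvnhKp (𝔶.le (pvrzPar c 𝔤 H (pvmaGam H.ok c) m0) (𝔤.ty (pvlmH m) (l9Pt (pvlmH m) p) t).col m (l9Pt (pvlmH m) p) t) (𝔶.we m (l9Pt (pvlmH m) p) t).Et ⊆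
      pvmgPl (l9Pt (pvlmH m) p) (𝔤.dl * pvlmH m) (pvydDqAe 𝔤.NN t.typ) := by
  rw [pvq0_le_eq H c hI, hw]
  exact pvkh_e_sd_thk H.ok T

end term

end Claimed.Agent.R289
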