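-- KEEP
import Claimed.Agent.R289.Exit.DjQ

/-!
# Row 289 (S0537), ROAD P, Exit/DjRP : THE FIELD `r_pl` OF `PvydDqIn` (58, `Exit/DjQ`) FROM A RECTANGLE      (helper4; node given by 58; prefix `pvz4_`)

* `pvz4_cell` : a point of a closed rectangle of fine cells lies in a closed fine cell of the rectangle.
* `pvz4_split` : a point of a closed fine cell `v` of the fattened body, `v ≠` last cell of the exit nozzle, off the door square, lies in `U(body) ∪ (last cell of the entrance nozzle minus the door square)` (ANY plug, ANY coarse cell).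
* **`pvz4_r_pl`** : `K_r ⊆ [pin0.re, 9 d] × [-8 d, 9 d]` (reference frame, `d = dl h`) + `pvccSq 0 r ⊆ O₀` (the door square IS the state region of the door: equality at the term) ⟹ the field `r_pl` VERBATIM.
-/

set_option autoImplicit false

namespace Claimed.Agent.R289

open Set Claims.C0465 Claims.C0467 Claimed.Agent.R291

/-- one coordinate -/
theorem pvz4_cell_1d {δ : ℝ} (hδ : 0 < δ) {A B : ℤ} (hAB : A ≤ B) {x : ℝ} (h1 : (A : ℝ) * δ ≤ x) (h2 : x ≤ ((B : ℝ) + 1) * δ) :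
    ∃ k : ℤ, A ≤ k ∧ k ≤ B ∧ (k : ℝ) * δ ≤ x ∧ x ≤ ((k : ℝ) + 1) * δ := by
  have hA : A ≤ ⌊x / δ⌋ := Int.le_floor.2 ((le_div_iff₀ hδ).2 h1)
  by_cases hB : ⌊x / δ⌋ ≤ B
  · refine ⟨⌊x / δ⌋, hA, hB, ?_, ?_⟩
    · exact (le_div_iff₀ hδ).1 (Int.floor_le _)
    · exact ((div_lt_iff₀ hδ).1 (Int.lt_floor_add_one _)).le
  · refine ⟨B, hAB, le_rfl, ?_, h2⟩
    have h3 : B ≤ ⌊x / δ⌋ := by omega
    have h4 : (B : ℝ) ≤ x / δ := Int.le_floor.1 h3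
    exact (le_div_iff₀ hδ).1 h4

/-- a point of a closed rectangle lies in a closed cell of the box -/
theorem pvz4_cell {δ : ℝ} (hδ : 0 < δ) {A B C D : ℤ} (hAB : A ≤ B) (hCD : C ≤ D) {p : ℂ} (h1 : (A : ℝ) * δ ≤ p.re) (h2 : p.re ≤ ((B : ℝ) + 1) * δ)
    (h3 : (C : ℝ) * δ ≤ p.im) (h4 : p.im ≤ ((D : ℝ) + 1) * δ) : ∃ v : ℤ × ℤ, A ≤ v.1 ∧ v.1 ≤ B ∧ C ≤ v.2 ∧ v.2 ≤ D ∧ p ∈ pvtSq δ v := by
  obtain ⟨k, k1, k2, k3, k4⟩ := pvz4_cell_1d hδ hAB h1 h2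
  obtain ⟨l, l1, l2, l3, l4⟩ := pvz4_cell_1d hδ hCD h3 h4
  exact ⟨(k, l), k1, k2, l1, l2, k3, k4, l3, l4⟩

/-- **the split**: body, or last cell of the ENTRANCE nozzle off the door square -/
theorem pvz4_split_i {σ : Type} (PLx : PvfjPlug σ) (mm : ℤ) (c : ℤ × ℤ) (t : σ) {δ r : ℝ} {p q : ℂ} {v : ℤ × ℤ} (hv : v ∈ pvytFull PLx mm c t) (hp : p ∈ pvtSq δ (pvytSh mm v))
    (ho : v ≠ pvytBo PLx mm c t) (hq : p ∉ pvccSq q r) : p ∈ pvtU δ (pvytBody PLx mm c t) ∪ (pvtSq δ (pvytSh mm (pvytBi PLx mm c t)) \ pvccSq q r) := by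
  by_cases hi : v = pvytBi PLx mm c t
  · subst hi
    exact Or.inr ⟨hp, hq⟩
  · refine Or.inl (mem_iUnion₂.2 ⟨pvytSh mm v, ⟨v, ⟨hv, ?_⟩, rfl⟩, hp⟩)
    simp only [mem_insert_iff, mem_singleton_iff, not_or]
    exact ⟨ho, hi⟩

/-- **the split**: body, or last cell of the EXIT nozzle off the door square -/
theorem pvz4_split_o {σ : Type} (PLx : PvfjPlug σ) (mm : ℤ) (c : ℤ × ℤ) (t : σ) {δ r : ℝ} {p q : ℂ} {v : ℤ × ℤ} (hv : v ∈ pvytFull PLx mm c t) (hp : p ∈ pvtSq δ (pvytSh mm v))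
    (hi : v ≠ pvytBi PLx mm c t) (hq : p ∉ pvccSq q r) : p ∈ pvtU δ (pvytBody PLx mm c t) ∪ (pvtSq δ (pvytSh mm (pvytBo PLx mm c t)) \ pvccSq q r) := by
  by_cases ho : v = pvytBo PLx mm c t
  · subst ho
    exact Or.inr ⟨hp, hq⟩
  · refine Or.inl (mem_iUnion₂.2 ⟨pvytSh mm v, ⟨v, ⟨hv, ?_⟩, rfl⟩, hp⟩)
    simp only [mem_insert_iff, mem_singleton_iff, not_or]
    exact ⟨ho, hi⟩

/-- one coordinate, two scales: a point of `[(K A - 9) δ, K (B + 1) δ]` lies in a fine cell `k` within `9` (on the low side) of the block of a coarse cell `p ∈ [A, B]` -/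
theorem pvz4_two_1d {δ : ℝ} (hδ : 0 < δ) {K : ℤ} (hK : 0 < K) {A B : ℤ} (hAB : A ≤ B) {x : ℝ} (h1 : ((K * A - 9 : ℤ) : ℝ) * δ ≤ x) (h2 : x ≤ ((K * (B + 1) : ℤ) : ℝ) * δ) :
    ∃ p k : ℤ, A ≤ p ∧ p ≤ B ∧ K * p - 9 ≤ k ∧ k ≤ K * p + K - 1 ∧ (k : ℝ) * δ ≤ x ∧ x ≤ ((k : ℝ) + 1) * δ := by
  have hKr : (0 : ℝ) < (K : ℝ) := by exact_mod_cast hK
  by_cases hx : ((K * A : ℤ) : ℝ) * δ ≤ x
  · have hD : 0 < (K : ℝ) * δ := mul_pos hKr hδ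
    obtain ⟨p, p1, p2, p3, p4⟩ := pvz4_cell_1d hD hAB (x := x) (by push_cast at hx; nlinarith) (by push_cast at h2; nlinarith)
    obtain ⟨k, k1, k2, k3, k4⟩ := pvz4_cell_1d hδ (A := K * p) (B := K * p + K - 1) (by omega) (x := x) (by push_cast; nlinarith) (by push_cast; nlinarith)
    exact ⟨p, k, p1, p2, by omega, k2, k3, k4⟩
  · obtain ⟨k, k1, k2, k3, k4⟩ := pvz4_cell_1d hδ (A := K * A - 9) (B := K * A - 1) (by omega) (x := x) h1 (by push_cast; push_cast at hx; nlinarith)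
    exact ⟨A, k, le_rfl, hAB, k1, by omega, k3, k4⟩

/-- cell level: the fattened body of the reference plug `u` contains the fine cells within `9` of the blocks of `[-8N, 9N-1]²` -/
theorem pvz4_full_none {τ : Type} (PL : PvfjPlug τ) {N : ℕ} (hN : 0 < N) (mm : ℤ) {p k : ℤ × ℤ} (p1 : -8 * (N : ℤ) ≤ p.1) (p2 : p.1 ≤ 9 * (N : ℤ) - 1) (p3 : -8 * (N : ℤ) ≤ p.2) (p4 : p.2 ≤ 9 * (N : ℤ) - 1)
    (k1 : (2 * mm + 1) * p.1 - 9 ≤ k.1) (k2 : k.1 ≤ (2 * mm + 1) * p.1 + (2 * mm + 1) - 1) (k3 : (2 * mm + 1) * p.2 - 9 ≤ k.2) (k4 : k.2 ≤ (2 * mm + 1) * p.2 + (2 * mm + 1) - 1) :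
    (k.1 - mm, k.2 - mm) ∈ pvytFull ((pvlzExt PL).ref N) mm 0 none := by
  have hNz : (0 : ℤ) < (N : ℤ) := by exact_mod_cast hN
  refine ⟨p, ⟨p, pvtb_hull_sub ?_, add_zero p⟩, ?_, ?_, ?_, ?_⟩
  · show (p.1 / (N : ℤ), p.2 / (N : ℤ)) ∈ tscBox (-((8 : ℕ) : ℤ)) ((8 : ℕ) : ℤ) (-((8 : ℕ) : ℤ)) ((8 : ℕ) : ℤ)
    refine ⟨?_, ?_, ?_, ?_⟩
    · exact (Int.le_ediv_iff_mul_le hNz).2 (by push_cast; omega)
    · exact Int.lt_add_one_iff.1 ((Int.ediv_lt_iff_lt_mul hNz).2 (by push_cast; omega))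
    · exact (Int.le_ediv_iff_mul_le hNz).2 (by push_cast; omega)
    · exact Int.lt_add_one_iff.1 ((Int.ediv_lt_iff_lt_mul hNz).2 (by push_cast; omega))
  · show (2 * mm + 1) * p.1 - (mm + 9) ≤ k.1 - mm
    omega
  · show k.1 - mm ≤ (2 * mm + 1) * p.1 + (mm + 9)
    omega
  · show (2 * mm + 1) * p.2 - (mm + 9) ≤ k.2 - mm
    omega
  · show k.2 - mm ≤ (2 * mm + 1) * p.2 + (mm + 9)
    omega

section main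

variable {𝔑r : PvrcNum} {𝔑 : PvmnNum} {T : Type} {ty : T → PvmnType} {cc : ℝ} {𝔓 : PvrxPar T cc} {𝔤 : PvydGeo T} {m : ℕ} {ε r : ℝ}

/-- the abscissa of the door of `u` : the WEST side of the last cell of its entrance nozzle -/
theorem pvz4_pin0_re (H : PvlzHyp 𝔑r 𝔑 ty) (c' : ℝ) (m : ℕ) :
    (pvlzGam H c' m).pin0.re = (((2 * 𝔑r.mm + 1) * (-8 * (pvlmN c' m : ℤ)) - 9 : ℤ) : ℝ) * (𝔑r.dc c' m / (2 * (𝔑r.mm : ℝ) + 1)) := by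
  rw [pvlz_pin0]
  unfold pvfjDoor
  rw [Complex.re_ofReal_mul, mul_comm]
  congr 1
  unfold pvfjA pvtbPt pvrcDoor pvrcOf pvtZ
  simp
  ring

/-- **THE FIELD `r_pl` OF `PvydDqIn` FROM A RECTANGLE**: `K_r ⊆ [pin0.re, 9 d] × [-8 d, 9 d]`, `d = dl h` -/
theorem pvz4_r_pl (H : PvlzHyp 𝔑r 𝔑 ty) (c' : ℝ) (hΓ : 𝔓.Γ m = pvlzGam H c' m) (del : (𝔤.kit m ε).δ = (𝔓.Γ m).δ) (hO : pvccSq 0 r ⊆ (𝔤.kit m ε).O₀)
    (hK : ∀ x ∈ pvnhKp (𝔤.lr 𝔓 m ε) (𝔤.wr m).Et, (𝔓.Γ m).pin0.re ≤ x.re ∧ x.re ≤ 9 * (𝔑r.dl * pvlmH m) ∧ -(8 * (𝔑r.dl * pvlmH m)) ≤ x.im ∧ x.im ≤ 9 * (𝔑r.dl * pvlmH m)) :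
    pvnhKp (𝔤.lr 𝔓 m ε) (𝔤.wr m).Et ⊆ pvtU (𝔤.kit m ε).δ (pvytBody ((pvlzExt (pvfjmPlug 𝔑 ty)).ref (pvlmN c' m)) 𝔑r.mm 0 none) ∪
      (pvtSq (𝔤.kit m ε).δ (pvytSh 𝔑r.mm (pvytBi ((pvlzExt (pvfjmPlug 𝔑 ty)).ref (pvlmN c' m)) 𝔑r.mm 0 none)) \ pvccSq (𝔓.Γ m).pin0 r) := by
  intro x hx
  obtain ⟨x1, x2, x3, x4⟩ := hK x hx
  have hm : (10 : ℤ) ≤ 𝔑r.mm := H.ok.mm10
  have hmr : (10 : ℝ) ≤ (𝔑r.mm : ℝ) := by exact_mod_cast hm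
  have hKr : (0 : ℝ) < 2 * (𝔑r.mm : ℝ) + 1 := by linarith
  have hN : 0 < pvlmN c' m := pvlm_N_pos c' m
  have hδe : (𝔤.kit m ε).δ = 𝔑r.dc c' m / (2 * (𝔑r.mm : ℝ) + 1) := by rw [del, hΓ]; rfl
  have hδ : 0 < (𝔤.kit m ε).δ := by rw [hδe]; exact div_pos (pvrc_dc_pos H.ok c' m) hKr
  have hd : (pvlmN c' m : ℝ) * ((2 * (𝔑r.mm : ℝ) + 1) * (𝔤.kit m ε).δ) = 𝔑r.dl * pvlmH m := by
    rw [← pvrc_dc_mul H.ok c' m, hδe, mul_div_cancel₀ _ hKr.ne']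
  rw [hΓ, pvz4_pin0_re, ← hδe] at x1
  obtain ⟨p1, k1, a1, a2, a3, a4, a5, a6⟩ := pvz4_two_1d hδ (K := 2 * 𝔑r.mm + 1) (by omega) (A := -8 * (pvlmN c' m : ℤ)) (B := 9 * (pvlmN c' m : ℤ) - 1) (by omega) x1
    (by rw [← hd] at x2; push_cast; linarith)
  obtain ⟨p2, k2, b1, b2, b3, b4, b5, b6⟩ := pvz4_two_1d hδ (K := 2 * 𝔑r.mm + 1) (by omega) (A := -8 * (pvlmN c' m : ℤ)) (B := 9 * (pvlmN c' m : ℤ) - 1) (by omega) (x := x.im)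
    (by rw [← hd] at x3; push_cast; linarith) (by rw [← hd] at x4; push_cast; linarith)
  have hv := pvz4_full_none (pvfjmPlug 𝔑 ty) hN 𝔑r.mm (p := (p1, p2)) (k := (k1, k2)) a1 a2 b1 b2 a3 a4 b3 b4
  refine pvz4_split_i _ _ _ _ hv ?_ ?_ ?_
  · show x ∈ pvtSq _ ((k1 - 𝔑r.mm, k2 - 𝔑r.mm) + (𝔑r.mm, 𝔑r.mm))
    rw [show ((k1 - 𝔑r.mm, k2 - 𝔑r.mm) + (𝔑r.mm, 𝔑r.mm) : ℤ × ℤ) = (k1, k2) by ext <;> simp]
    exact ⟨a5, a6, b5, b6⟩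
  · intro h
    have h1 : k1 - 𝔑r.mm = (2 * 𝔑r.mm + 1) * ((pvlmN c' m : ℤ) * 8 + ((pvlmN c' m : ℤ) - 1) + 0) + (𝔑r.mm + 9) * 1 - 0 * 0 := congrArg Prod.fst h
    have h2 : (2 * 𝔑r.mm + 1) * p1 ≤ (2 * 𝔑r.mm + 1) * (9 * (pvlmN c' m : ℤ) - 1) := mul_le_mul_of_nonneg_left a2 (by omega)
    have h3 : (2 * 𝔑r.mm + 1) * ((pvlmN c' m : ℤ) * 8 + ((pvlmN c' m : ℤ) - 1) + 0) = (2 * 𝔑r.mm + 1) * (9 * (pvlmN c' m : ℤ) - 1) := by ring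
    omega
  · intro h
    refine Set.disjoint_left.1 (pvnh_Kp_off (𝔤.lr 𝔓 m ε) (𝔤.wr m).Et) (Or.inl ?_) hx
    show x ∈ pvthSim (𝔓.Γ m).pin0 (𝔓.Γ m).din0 '' (𝔤.kit m ε).O₀
    refine ⟨x - (𝔓.Γ m).pin0, hO ?_, ?_⟩
    · show pvccN (x - (𝔓.Γ m).pin0 - 0) < r
      rw [sub_zero]
      exact h
    · rw [hΓ, pvlz_din0]
      unfold pvthSim
      ring

end main

end Claimed.Agent.R289
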