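-- KEEP
import Claimed.Agent.R289.Exit.NumQ
import Claimed.Agent.R289.Tr.KitGeo
import Claimed.Agent.R289.Tr.PlugFrcR
import Claimed.Agent.R289.Tr.PlugFrcT

/-!
# Row 289 (S0537), THE WALL, ROAD E, node (1), file Exit/EngMesh : (MESH-D) **THE USABLE STATES CARRY THE MESH** = THE WRAPPER OF R23 (1') OF 234      (helper9; prefix `pvdr`, `Pvdr`)

`Hf' i := Hf i ∩ R`,  `R` an exact reader of the door region (`R := pvjoMesh μ₁ 𝔤.O₀` of 52, `Tr/PlugFrcR` sec. 4).      NO FILE OF 52 174 204 278 MOVES.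
* `PvdrIn Hf`            THE DEBT OF RECORD OF (NUM) (T18 of 24): `mH dict frc` at `pvkgG` (same three fields as `PvdkSide` of 10)
* `pvdr_frc_mono`        [FRC] is ANTITONE in the side events (`G2' ⊆ G2`, the conclusion does not mention `Hf`)
* `pvdr_dict_inter`      [HDICT] `err/2 + err/2`
* **`pvdr_mesh`**        `PvdrIn Hf → 0 < μ₁ → PvdrIn (pvdrHm μ₁ Hf)`,   `pvdrHm μ₁ Hf i := Hf i ∩ pvjoMesh μ₁ pvkgO`
* `pvdr_thr_in`, **`pvdr_G0_mesh`**   every usable state (threshold `b ≠ 0`) has the mesh `μ₁` on the WHOLE door square;   `pvdr_Hm_sub`, `pvdr_Hm_in`, `pvdr_Hm_mesh`.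
* **`pvdrH0`**           THE BASE SIDE EVENTS OF RECORD `:= pvhfH pvkgG.toPvkdPlug (pvjoT pvkgG.a)` (174 `Tr/FrcM`, truncation + windows of 52 `Tr/PlugFrcT`; 10 id 93893: [FRC] is FALSE at `pvhfT`),
                         `pvdr_H0_geo`, **`pvdr_in_lay`** : `Λ.Ok pvkgG (pvjoT pvkgG.a) → PvdrIn pvdrH0` (`pvjo_t_side` of 52: PURE GEOMETRY is the whole debt),   `pvdr_in_lay_mesh`.
-/

set_option autoImplicit false

namespace Claimed.Agent.R289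

open Set MeasureTheory Filter Topology Claims.C0465
open scoped ENNReal

/-- **THE DEBTS OF THE CELL KIT** at the instance of record -/
structure PvdrIn (Hf : Fin 4 → Set (Conf PvPt)) : Prop where
  mH : ∀ i, MeasurableSet (Hf i)
  dict : ∀ err : ℝ≥0∞, err ≠ 0 → ∀ᶠ ε in 𝓝[>] (0 : ℝ), pvkgG.HDict Hf ε err
  frc : PvkuFrc (pvkgG.glob Hf)

/-- the conditional probability is monotone in the event -/
theorem pvdr_P_mono {E : Type} [MeasurableSpace E] (μ : Measure (Conf E)) (W : Set E) {S S' : Set (Conf E)} (h : S' ⊆ S) (σ : Conf E) : pvtiP μ W S' σ ≤ pvtiP μ W S σ := by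
  unfold pvtiP
  refine lintegral_mono fun η => ?_
  exact indicator_le_indicator_of_subset h (fun _ => zero_le) _

theorem pvdr_thr_mono {E : Type} [MeasurableSpace E] (μ : Measure (Conf E)) (W : Set E) {S S' : Set (Conf E)} (h : S' ⊆ S) (b : ℝ≥0∞) : pvpgThr μ W S' b ⊆ pvpgThr μ W S b :=
  fun σ hσ => le_trans (show b ≤ pvtiP μ W S' σ from hσ) (pvdr_P_mono μ W h σ)

/-- a state with a positive propensity for an event inside an exact reader `R` of the window is in `R` -/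
theorem pvdr_thr_in {E : Type} [MeasurableSpace E] (μ : Measure (Conf E)) {W : Set E} {S R : Set (Conf E)} (hR : Conf.ReadsSet W R) (h : S ⊆ R) {b : ℝ≥0∞} (hb : b ≠ 0) {σ : Conf E}
    (hσ : σ ∈ pvpgThr μ W S b) : σ ∈ R := by
  by_contra hn
  have h0 : pvtiP μ W S σ = 0 := by
    unfold pvtiP
    have : ∀ η, S.indicator (1 : Conf E → ℝ≥0∞) (Conf.spl W (σ, η)) = 0 := by
      intro η
      refine indicator_of_notMem (fun hm => hn ?_) _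
      have h1 := (hR _).2 (h hm)
      rw [Conf.restr_spl] at h1
      exact (hR σ).1 h1
    simp only [this, lintegral_zero]
  have : b ≤ 0 := h0 ▸ (show b ≤ pvtiP μ W S σ from hσ)
  exact hb (le_antisymm this zero_le)

section gen

variable (𝔤 : PvkdGeo) {Hf Hf' : Fin 4 → Set (Conf PvPt)}

theorem pvdr_G0_mono (h : ∀ i, Hf' i ⊆ Hf i) (μ : Measure (Conf PvPt)) (b : ℝ≥0∞) : (𝔤.glob Hf').G₀ μ b ⊆ (𝔤.glob Hf).G₀ μ b := by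
  rintro σ ⟨h1, h2⟩
  refine ⟨h1, mem_iInter.2 fun i => ?_⟩
  exact pvdr_thr_mono μ _ (h i) b (mem_iInter.1 h2 i)

theorem pvdr_G2_mono (h : ∀ i, Hf' i ⊆ Hf i) (μ : Measure (Conf PvPt)) (b : ℝ≥0∞) (τ : PvtTurn) : (𝔤.glob Hf').G2 μ b τ ⊆ (𝔤.glob Hf).G2 μ b τ := by
  rintro σ ⟨h1, h2⟩
  exact ⟨pvdr_G0_mono 𝔤 h μ b h1, pvdr_G0_mono 𝔤 h μ b h2⟩

/-- **[FRC] IS ANTITONE IN THE SIDE EVENTS** -/
theorem pvdr_frc_mono (h : ∀ i, Hf' i ⊆ Hf i) (H : PvkuFrc (𝔤.glob Hf)) : PvkuFrc (𝔤.glob Hf') := by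
  intro b hb0 hb1
  obtain ⟨q, hq0, hq1, hq⟩ := H b hb0 hb1
  refine ⟨q, hq0, hq1, ?_⟩
  filter_upwards [hq] with ε hε τ
  filter_upwards [hε τ] with σ hσ hG
  exact hσ (pvdr_G2_mono 𝔤 h (pvP ε) b τ hG)

/-- **[HDICT]** `err₁ + err₂` -/
theorem pvdr_dict_inter {R : Set (Conf PvPt)} {ε : ℝ} {e₁ e₂ : ℝ≥0∞} (h1 : 𝔤.HDict Hf ε e₁) (h2 : pvP ε Rᶜ ≤ e₂) : 𝔤.HDict (fun i => Hf i ∩ R) ε (e₁ + e₂) := by
  unfold PvkdGeo.HDict at h1 ⊢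
  have hs : 𝔤.CH 0 1 \ ⋂ i, (Hf i ∩ R) ⊆ (𝔤.CH 0 1 \ ⋂ i, Hf i) ∪ Rᶜ := by
    rintro η ⟨hc, hn⟩
    by_cases hR : η ∈ R
    · refine Or.inl ⟨hc, fun hm => hn (mem_iInter.2 fun i => ⟨mem_iInter.1 hm i, hR⟩)⟩
    · exact Or.inr hR
  calc pvP ε (𝔤.CH 0 1 \ ⋂ i, (Hf i ∩ R)) ≤ pvP ε ((𝔤.CH 0 1 \ ⋂ i, Hf i) ∪ Rᶜ) := measure_mono hs
    _ ≤ pvP ε (𝔤.CH 0 1 \ ⋂ i, Hf i) + pvP ε Rᶜ := measure_union_le _ _
    _ ≤ e₁ + e₂ := add_le_add h1 h2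

theorem pvdr_dict_lim {R : Set (Conf PvPt)} (hd : ∀ err : ℝ≥0∞, err ≠ 0 → ∀ᶠ ε in 𝓝[>] (0 : ℝ), 𝔤.HDict Hf ε err) (hR : Tendsto (fun ε : ℝ => pvP ε Rᶜ) (𝓝[>] 0) (𝓝 0)) :
    ∀ err : ℝ≥0∞, err ≠ 0 → ∀ᶠ ε in 𝓝[>] (0 : ℝ), 𝔤.HDict (fun i => Hf i ∩ R) ε err := by
  intro err herr
  have h2 : err / 2 ≠ 0 := (ENNReal.half_pos herr).ne'
  filter_upwards [hd _ h2, hR.eventually (gt_mem_nhds (pos_iff_ne_zero.2 h2))] with ε h1 h3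
  have := pvdr_dict_inter 𝔤 h1 h3.le
  rwa [ENNReal.add_halves] at this

/-- every usable state of the wrapped datum is in `R` -/
theorem pvdr_G0_in {R : Set (Conf PvPt)} (hR : Conf.ReadsSet ((𝔤.glob Hf').pre.O 0 1) R) (h : ∀ i, Hf' i ⊆ R) (μ : Measure (Conf PvPt)) {b : ℝ≥0∞} (hb : b ≠ 0) {σ : Conf PvPt}
    (hσ : σ ∈ (𝔤.glob Hf').G₀ μ b) : σ ∈ R :=
  pvdr_thr_in μ hR (h 0) hb (mem_iInter.1 hσ.2 0)

end gen

/-- **the side events with the mesh `μ₁` of the whole door square** -/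
def pvdrHm (μ₁ : ℝ) (Hf : Fin 4 → Set (Conf PvPt)) (i : Fin 4) : Set (Conf PvPt) := Hf i ∩ pvjoMesh μ₁ pvkgO

theorem pvdrHm_eqns_cite : True := by
  have := @pvdrHm.eq_1
  trivial

variable {Hf : Fin 4 → Set (Conf PvPt)}

theorem pvdr_Hm_sub (μ₁ : ℝ) (Hf : Fin 4 → Set (Conf PvPt)) (i : Fin 4) : pvdrHm μ₁ Hf i ⊆ Hf i := inter_subset_left

theorem pvdr_Hm_in (μ₁ : ℝ) (Hf : Fin 4 → Set (Conf PvPt)) (i : Fin 4) : pvdrHm μ₁ Hf i ⊆ pvjoMesh μ₁ pvkgO := inter_subset_right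

theorem pvdr_Hm_mesh {μ₁ : ℝ} {i : Fin 4} {η : Conf PvPt} (h : η ∈ pvdrHm μ₁ Hf i) : PvtrMesh μ₁ pvkgO (cfSites η) := pvjo_mesh_of h.2

theorem pvdr_O_bdd : Bornology.IsBounded pvkgO := by
  refine pvkgg_bdd_of (C := 1) fun w hw => ?_
  obtain ⟨h1, h2, h3, h4⟩ := hw
  exact ⟨abs_le.2 ⟨by linarith, by linarith⟩, abs_le.2 ⟨by linarith, by linarith⟩⟩

/-- **(MESH-D), THE WRAPPER** -/
theorem pvdr_mesh (H : PvdrIn Hf) {μ₁ : ℝ} (hμ : 0 < μ₁) : PvdrIn (pvdrHm μ₁ Hf) where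
  mH := fun i => (H.mH i).inter (pvjo_mesh_meas _ pvkgg_ze.mO)
  dict := pvdr_dict_lim pvkgG H.dict (pvjo_mesh_lim hμ pvdr_O_bdd)
  frc := pvdr_frc_mono pvkgG (pvdr_Hm_sub μ₁ Hf) H.frc

/-- **every usable state has the mesh `μ₁` on the whole door square** -/
theorem pvdr_G0_mesh (μ₁ : ℝ) (Hf : Fin 4 → Set (Conf PvPt)) (μ : Measure (Conf PvPt)) {b : ℝ≥0∞} (hb : b ≠ 0) {σ : Conf PvPt} (hσ : σ ∈ (pvkgG.glob (pvdrHm μ₁ Hf)).G₀ μ b) :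
    PvtrMesh μ₁ pvkgO (cfSites σ) := by
  refine pvjo_mesh_of (pvdr_G0_in pvkgG ?_ (pvdr_Hm_in μ₁ Hf) μ hb hσ)
  show Conf.ReadsSet ((pvthSim 0 1 '' pvkgO) ×ˢ univ) _
  rw [pvth_sim_id, image_id]
  exact pvjo_mesh_reads _ _

/-! ## the base side events of record -/

/-- **THE BASE SIDE EVENTS OF RECORD** (no mesh of the door square yet) -/
noncomputable def pvdrH0 : Fin 4 → Set (Conf PvPt) := pvhfH pvkgG.toPvkdPlug (pvjoT pvkgG.a)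

theorem pvdrH0_eqns_cite : True := by
  have := @pvdrH0.eq_1
  trivial

theorem pvdr_H0_geo : PvhfGeo pvkgG.toPvkdPlug (pvjoT pvkgG.a) := pvjo_t_geo (r := pvkgG.a) (by show (0 : ℝ) < 1 / 40; norm_num)

/-- the three debts from the layout of 52 (regions and walks only), ANY truncation -/
theorem pvdr_in_lay_of {Λ : PvjoLay} {𝔱 : PvhfTr} (hG : PvhfGeo pvkgG.toPvkdPlug 𝔱) (H : Λ.Ok pvkgG 𝔱) : PvdrIn (pvhfH pvkgG.toPvkdPlug 𝔱) :=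
  have h := pvjo_t_side hG H (pvze_mC pvkgg_ze)
  ⟨h.1, h.2.1, h.2.2⟩

/-- **THE DEBT OF RECORD FROM PURE GEOMETRY** -/
theorem pvdr_in_lay {Λ : PvjoLay} (H : Λ.Ok pvkgG (pvjoT pvkgG.a)) : PvdrIn pvdrH0 := pvdr_in_lay_of pvdr_H0_geo H

theorem pvdr_in_lay_mesh {Λ : PvjoLay} (H : Λ.Ok pvkgG (pvjoT pvkgG.a)) {μ₁ : ℝ} (hμ : 0 < μ₁) : PvdrIn (pvdrHm μ₁ pvdrH0) := pvdr_mesh (pvdr_in_lay H) hμ

end Claimed.Agent.R289
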