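-- KEEP
import Claimed.Agent.R289.Exit.EngAll
import Claimed.Agent.R289.Exit.EngRec
import Claimed.Agent.R289.Exit.EngMesh
import Claimed.Agent.R289.Exit.NumK
import Claimed.Agent.R289.Exit.NumI
import Claimed.Agent.R289.Tr.KitGeo
import Claimed.Agent.R289.Tr.FrameIso
import Claimed.Agent.R289.Exit.Adm
import Claimed.Agent.R289.Tr.PlugFrcR
import Claimed.Agent.R289.Tr.FrcLayB
import Claimed.Agent.R289.Tr.FrcLayE

/-!
# Row 289 (S0537), THE WALL, ROAD E, node (1) `exit_pvie_eng`, file Exit/EngTop : THE TERM OF NODE (1), DOWN TO THE REAL DEBTS OF THE CELL KIT      (helper9, second cutter, post of 82 12:03Z; prefix `pvdr`, `Pvdr`)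

CHAIN (all compiled):   `exit_pvie_eng` (271, `Exit/Ana.lean`)  ⟸  **`pvdr_eng`** (here, the statement VERBATIM)  ⟸  `pvea_exit_par` (124, `Exit/EngAll`)  ⟸  `PveaUnitOk` (`pvdr_unit_ok`, here)
      ⟸  `pvku_unit (pvku_in_of ·)` (258, `Exit/NumQ`)  ⟸  **`pvdr_K : PvdrIn Hf → PvkuK pvkgG Hf (13/160)`** (here)  ⟸  THE DEBTS `PvdrIn Hf`.
PAID BY CITATION at the instance of record `pvkgG` (258, `Tr/KitGeo`):   [GEO] `pvkgg_ref pvkgg_xref`,   [MEAS] [LOC] of `C A XQ`: `pvkgg_ze` + `pvze_mC mA mX lC lA lX` (173 107),   [COV] `pvco_cov` (251, `Tr/FrameIso`),   [CLOSE] inside `pvku_in_of` (244),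
[ADM] in graph form `exit_pvkd_adm` (262, `Tr/AdmP`; ONE deterministic sorry `exit_pvko_inst`, pen 19).
**v3 (13:25Z)**: [ADM] IS CLOSED (`Exit/Adm`, 0 sorry in its closure).   `Exit/Ana.lean` v4 (243) wires (1) := `pvnr_exit` of 124 over `exit_pvie_side : PvdkSide pvnaHf`.   HERE: `PvdrIn` moved to `Exit/EngMesh.lean` (with the wrapper (MESH-D) `pvdr_mesh`, the base side events `pvdrH0`);
`pvdr_dk pvdr_of_dk pvdr_nn` (the three names of one debt);   **`exit_pvdr_lay`** = THE ONLY SORRY UNDER NODE (1) = pure geometry `PvjoLay.Ok` of 52;   `exit_pvdr_in : PvdrIn pvdrH0`, `pvdr_in_mesh` (every `μ₁ > 0`), `pvdr_mu` (the constant `μ₁ := min 1 ρ'' / 3000`).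
**THE DEBTS** = the record `PvdrIn Hf` on the four half lanes IN THE FORM OF [FRC] (`Hf := ![S⁺, S⁺, S⁻, S⁻]` of 174 52):
* `mH`    Borel
* `dict`  [HDICT] up to `err`, the plug with its four half lanes in graph form has its four half lanes in the form of [FRC]
* `frc`   [FRC] `PvkuFrc (pvkgG.glob Hf)`
The plugs `sp rp`, the usable states `rG` of the reference plug are PARAMETERS of the term (`rp` only through `(rp m).h = pvehDl 𝔓 m / 16`): defs of record 84 31.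
-/

set_option autoImplicit false

namespace Claimed.Agent.R289

open Set MeasureTheory Filter Topology Claims.C0465
open scoped ENNReal

variable {Hf : Fin 4 → Set (Conf PvPt)}

/-- **the list of 258 at the instance of record** -/
theorem pvdr_K (H : PvdrIn Hf) : PvkuK pvkgG Hf (13 / 160) where
  δ1 := rfl
  ref := pvkgg_ref
  xref := pvkgg_xref
  mO := pvkgg_ze.mO
  mK := pvkgg_ze.mK
  mC := pvze_mC pvkgg_ze
  mH := H.mH
  mA := pvze_mA pvkgg_ze
  mX := pvze_mX pvkgg_ze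
  loc := by
    filter_upwards [self_mem_nhdsWithin] with ε hε
    have h0 : ε ≠ 0 := (show (0 : ℝ) < ε from hε).ne'
    exact ⟨pvze_lC pvkgg_ze Hf h0, pvze_lA pvkgg_ze Hf h0, pvze_lX pvkgg_ze Hf h0⟩
  adm := pvnn_adm exit_pvkd_adm H.dict
  frc := H.frc
  cov := pvco_cov pvkgG

/-- **THE REFERENCE FAMILY OF RECORD**, with what the consumers read of it -/
theorem pvdr_unit (H : PvdrIn Hf) : ∃ (U : PvkmUnit) (b q : ℝ≥0∞), b ≠ 0 ∧ q ≠ 0 ∧ (∀ e, U.kit e = (pvkgG.glob Hf).kit (pvP e) b q) ∧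
    (∀ e, U.XQ e = (pvkgG.glob Hf).fQ (pvP e)) ∧ (∀ e, U.XV e = (pvkgG.glob Hf).fV (pvP e)) ∧ (∀ e, U.r e = 13 / 160) ∧
    ∀ᶠ ε in 𝓝[>] (0 : ℝ), ∃ β' CB, (pvkgG.glob Hf).Ok ε b q β' CB (13 / 160) :=
  pvku_unit (pvku_in_of (pvdr_K H))

/-- the mesh window of the door plug lies in the door square -/
theorem pvdr_win : pvwSq 0 (3 / 40) ⊆ pvkgO := by
  rintro w ⟨h1, h2⟩
  simp only [sub_zero] at h1 h2
  rw [abs_le] at h1 h2
  exact ⟨by linarith [h1.1], by linarith [h1.2], by linarith [h2.1], by linarith [h2.2]⟩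

theorem pvdr_kit_O (μ : Measure (Conf PvPt)) (b q : ℝ≥0∞) : ((pvkgG.glob Hf).kit μ b q).O₀ = pvkgO := rfl

theorem pvdr_kit_K (μ : Measure (Conf PvPt)) (b q : ℝ≥0∞) : ((pvkgG.glob Hf).kit μ b q).K₀ = pvkgK := rfl

/-- the four lines of 124 on the regions of the reference family -/
theorem pvdr_unit_ok {τ : Type} {c : ℝ} (𝔓 : PvxPar τ c) {U : PvkmUnit} {b q : ℝ≥0∞} (hk : ∀ e, U.kit e = (pvkgG.glob Hf).kit (pvP e) b q) {rp : ℕ → PviePl}
    (hrp : ∀ m, (rp m).h = pvehDl 𝔓 m / 16) : PveaUnitOk 𝔓 U rp where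
  mO := fun e => by rw [hk e, pvdr_kit_O]; exact pvkgg_ze.mO
  hO := fun e e' => by rw [hk e, hk e', pvdr_kit_O, pvdr_kit_O]
  hK := fun e e' => by rw [hk e, hk e', pvdr_kit_K, pvdr_kit_K]
  win := fun e => by rw [hk e, pvdr_kit_O]; exact pvdr_win
  rp_h := hrp

/-- a placed plug with the unit of record of the reference plug (only `.h` is read since InstWf v4) -/
noncomputable def pvdrRp {τ : Type} {c : ℝ} (𝔓 : PvxPar τ c) (m : ℕ) : PviePl := ⟨0, pvehDl 𝔓 m / 16, ⟨0, 0, 0, 0, 0, true, 0, 0⟩, ∅, ∅, ∅, ∅, True⟩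

theorem pvdr_eqns_cite : True := by
  have := @pvdrRp.eq_1
  trivial

/-- **NODE (1) FROM THE DEBTS OF THE CELL KIT**, any `sp rG`, any `rp` with the unit of record -/
theorem pvdr_eng_of {c : ℝ} (c0 : 0 < c) (N : PvxNums) (hN : N.Ok) (H : PvdrIn Hf) (sp rp : ℕ → PviePl) (rG : ℕ → ℝ → Set (Conf PvPt))
    (hrp : ∀ m, (rp m).h = pvehDl (pvxParOf N hN c) m / 16) :
    ∃ U : PvkmUnit, PvnaWf (pvxParOf N hN c) (pveaEng (pvxParOf N hN c) (pveaInOf U c sp rp rG)) := by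
  obtain ⟨U, b, q, -, -, hk, -⟩ := pvdr_unit H
  exact ⟨U, pvea_exit_par hN c0 (pvdr_unit_ok _ hk hrp)⟩

/-- the debts from the record of 52 (`Tr/PlugFrcR.lean`: [FRC] = ONE deterministic record in the reference frame) + [HDICT] -/
theorem pvdr_in_of {I : PvjoIn} (H : I.Ok pvkgG) (hd : ∀ err : ℝ≥0∞, err ≠ 0 → ∀ᶠ ε in 𝓝[>] (0 : ℝ), pvkgG.HDict I.Hf ε err) : PvdrIn I.Hf :=
  ⟨pvjo_mH H, hd, pvjo_frc H⟩

/-- the same debt in the words of 10 (`Exit/NumK.lean`), of 258 (`Exit/NumI.lean`) -/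
theorem pvdr_dk (H : PvdrIn Hf) : PvdkSide Hf := ⟨H.mH, H.dict, H.frc⟩

theorem pvdr_of_dk (H : PvdkSide Hf) : PvdrIn Hf := ⟨H.mH, H.dict, H.frc⟩

theorem pvdr_nn (H : PvdrIn Hf) : PvnnIn Hf := pvdk_in (pvdr_dk H)

/-- **THE WHOLE DEBT OF (SIDE) = PURE GEOMETRY** (regions and walks of the reference cell; record `PvjoLay.Ok` of 52, `Tr/PlugFrcT.lean`)      [10 = integrator (`Tr/FrcLayC`, `Exit/NumS`);  52 (`Tr/FrcLayB`);  278 (`Tr/FrcLay`)] -/
theorem exit_pvdr_lay : ∃ Λ : PvjoLay, Λ.Ok pvkgG (pvjoT pvkgG.a) :=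
  ⟨⟨1 / 320, fun τ β => pvufL β τ, fun τ β => pvufK β τ, pvkgEt, pvjoKr⟩,
    { mO := pvjo_b_mO
      EO := pvjo_b_EO
      dj := pvjo_b_dj
      djK := pvuf_f_djK
      w := pvuf_f_w
      off := pvuf_f_off
      zp := pvuf_f_zp
      zm := pvuf_f_zm
      mEt := pvjo_b_mEt
      bEt := pvjo_b_bEt
      dEt := pvjo_b_dEt
      cover := pvjo_b_cover
      sub := pvjo_b_sub
      lay := fun τ => pvuf_lay τ (X0 := 0) (X1 := 357 / 640) (Y := 37 / 640) (by norm_num) (by norm_num) (by norm_num)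
        (by rw [pvkgg_zo]; intro w hw; simpa [pvjoKr, pvjoKc] using hw) (pvjo_b_geo_r τ) }⟩

/-- **THE DEBT OF RECORD OF (NUM)** (T18 of 24: ONE DEBT, ONE NAME) at the BASE side events of record `pvdrH0` (`Exit/EngMesh.lean`), a compiled node over `exit_pvdr_lay` -/
theorem exit_pvdr_in : PvdrIn pvdrH0 := by
  obtain ⟨Λ, H⟩ := exit_pvdr_lay
  exact pvdr_in_lay H

/-- the same with the mesh `μ₁` of the whole door square (MESH-D, R23 (1') of 234), EVERY `μ₁ > 0` -/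
theorem pvdr_in_mesh {μ₁ : ℝ} (hμ : 0 < μ₁) : PvdrIn (pvdrHm μ₁ pvdrH0) := pvdr_mesh exit_pvdr_in hμ

/-- **the constant `μ₁` of the datum** (R23 (1')): at every level `m ≥ m0` the mesh `μ₁ δ_m` of the scaled door square is finer than a third of the mesh of the windows -/
theorem pvdr_mu {c : ℝ} (c0 : 0 < c) (N : PvxNums) (hN : N.Ok) : 0 < min 1 N.rho3 / 3000 ∧
    ∀ m, N.m0 ≤ m → min 1 N.rho3 / 3000 * pvlmDel c m ≤ pvilMu (pvxParOf N hN c) m / 3 := by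
  have h3 := hN.msk0
  refine ⟨by positivity, fun m hm => ?_⟩
  have hD := pvlm_Del_pos c m
  have hH := pvlm_H_pos m
  have hf := pvxo_fine hN c0 hm
  have hr : N.rho ≤ 1 := by linarith [hN.rho1, hN.rho2, hN.rho3, hN.rho0]
  have hDH : pvlmDel c m ≤ pvlmH m := by nlinarith
  show min 1 N.rho3 / 3000 * pvlmDel c m ≤ min (pvlmDel c m) (N.rho3 * pvlmH m) / 1000 / 3
  have h1 : min 1 N.rho3 * pvlmDel c m ≤ min (pvlmDel c m) (N.rho3 * pvlmH m) := by
    refine le_min ?_ ?_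
    · calc min 1 N.rho3 * pvlmDel c m ≤ 1 * pvlmDel c m := mul_le_mul_of_nonneg_right (min_le_left _ _) hD.le
        _ = pvlmDel c m := one_mul _
    · calc min 1 N.rho3 * pvlmDel c m ≤ N.rho3 * pvlmDel c m := mul_le_mul_of_nonneg_right (min_le_right _ _) hD.le
        _ ≤ N.rho3 * pvlmH m := mul_le_mul_of_nonneg_left hDH h3.le
  linarith

end Claimed.Agent.R289
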