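-- KEEP
import Claimed.Agent.R289.Exit.EngU4
import Claimed.Agent.R289.Tr.SideOpen

/-!
# Row 289 (S0537), THE WALL, ROAD E, file Exit/EngU4T : ACCEPTANCE TESTS OF THE CURE U4 (84, `Exit/EngU4`)      (helper31, reader of U4; prefix `pvnv_`)

`Δ = pvehDl 𝔓 m`, `u = pvurRu 𝔓 m = Δ / 20`, `s = pvurS 𝔓 m = 2 Δ = 40 u`, `zu = (pvxrGam 𝔓 m).zu t`.      New window `pvnuRO 𝔓 m` = open square of half side `13 u / 4 = 13 Δ / 80`.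
* (T1) **`pvnv_mem_EK`** : `0 ≤ re (w - zu) ≤ Δ/2`, `|im (w - zu)| ≤ Δ/2`, `13 Δ/80 ≤ N(w - zu)` `⟹ w ∈ pvnuEK 𝔓 m t`      (THE WHOLE EAST HALF OF THE BLOCK OF THE PLUG, MINUS THE NEW WINDOW, IS RESAMPLED BY `e`)
* (T2) **`pvnv_mem_FK`** : the mirror, West half, `⟹ w ∈ pvnuFK 𝔓 m t`
* (T3) **`pvnv_mem_RK`** : West half of the block of centre `0`, off the door region of the last door `⟹ w ∈ pvnuRK 𝔓 O0 m`;   `pvnv_mem_RK'` : `- 2 Δ / 5 ≤ re w` is enough at the door region of record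
* (T4) the placed dilated windows of the side events: `pvnv_Es_e` `pvnv_Es_f` `pvnv_Es_r` (open windows `pvk2Es` of 258 / 9), `pvnv_EsT_e` .. (windows of `pvhfT` of 174)
* (T5) the unit: `pvnv_unit : pvkgG.toPvkdPlug.sc (pvurS 𝔓 m) = pvkdP (pvurRu 𝔓 m)`;   the slot range of the bars: `pvnv_slot` (`13 u / 4 + 2 ρ ≤ 51 Δ / 320 · ..`)
-/

set_option autoImplicit false

namespace Claimed.Agent.R289

open Set Metric MeasureTheory Claims.C0465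
open scoped ENNReal

section tiles

variable {τ : Type} {c : ℝ} {𝔓 : PvxPar τ c}

theorem pvnv_mem_RO (hρ : 0 < 𝔓.num.rho) (m : ℕ) (z w : ℂ) : w ∈ pvieSh z (pvnuRO 𝔓 m) ↔ pvccN (w - z) < 13 * pvehDl 𝔓 m / 80 := by
  rw [pveh_mem_sh, pvnu4_RO_sq hρ]
  show pvccN (w - z - 0) < _ ↔ _
  rw [sub_zero]

theorem pvnv_mem_rO (m : ℕ) (z w : ℂ) : w ∈ pvieSh z (pvehrO 𝔓 m) ↔ pvccN (w - z) < pvehDl 𝔓 m / 4 := by
  rw [pveh_sh_rO]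
  rfl

/-- **(T1)** -/
theorem pvnv_mem_EK (hρ : 0 < 𝔓.num.rho) {m : ℕ} {t : τ} (h : PvefNdg 𝔓 m t) (hΓ : 𝔓.Γ m = pvxrGam 𝔓 m) {w : ℂ} (h0 : 0 ≤ (w - (pvxrGam 𝔓 m).zu t).re)
    (h1 : pvccN (w - (pvxrGam 𝔓 m).zu t) ≤ pvehDl 𝔓 m / 2) (h2 : 13 * pvehDl 𝔓 m / 80 ≤ pvccN (w - (pvxrGam 𝔓 m).zu t)) : w ∈ pvnuEK 𝔓 m t := by
  have hΔ := pveh_Dl_pos (pvef_n0 h)
  by_cases h3 : pvccN (w - (pvxrGam 𝔓 m).zu t) < pvehDl 𝔓 m / 4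
  · right
    rw [hΓ, pveh_mem_sh]
    refine ⟨⟨?_, ?_⟩, h0⟩
    · show pvccN (w - (pvxrGam 𝔓 m).zu t - 0) < pvehDl 𝔓 m / 4
      rwa [sub_zero]
    · intro h4
      rw [pvnu4_RO_sq hρ] at h4
      have h5 : pvccN (w - (pvxrGam 𝔓 m).zu t - 0) < 13 * pvehDl 𝔓 m / 80 := h4
      rw [sub_zero] at h5
      linarith
  · left; left
    refine ⟨Or.inl ⟨h1, ?_⟩, ?_⟩
    · rw [Complex.sub_re] at h0
      linarith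
    · rintro (h4 | h4)
      · exact h3 h4
      · have h5 := pvef_blocks_i h (w := w) (v := w) (Or.inr h1) (Or.inl h4)
        rw [sub_self] at h5
        simp only [pvccN, Complex.zero_re, Complex.zero_im, abs_zero, max_self] at h5
        linarith

/-- **(T2)** -/
theorem pvnv_mem_FK (hρ : 0 < 𝔓.num.rho) {m : ℕ} {t : τ} (h : PvefNdg 𝔓 m t) (hΓ : 𝔓.Γ m = pvxrGam 𝔓 m) {w : ℂ} (h0 : (w - (pvxrGam 𝔓 m).zu t).re < 0)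
    (h1 : pvccN (w - (pvxrGam 𝔓 m).zu t) ≤ pvehDl 𝔓 m / 2) (h2 : 13 * pvehDl 𝔓 m / 80 ≤ pvccN (w - (pvxrGam 𝔓 m).zu t)) : w ∈ pvnuFK 𝔓 m t := by
  have hΔ := pveh_Dl_pos (pvef_n0 h)
  by_cases h3 : pvccN (w - (pvxrGam 𝔓 m).zu t) < pvehDl 𝔓 m / 4
  · right
    rw [hΓ, pveh_mem_sh]
    refine ⟨⟨?_, ?_⟩, h0⟩
    · show pvccN (w - (pvxrGam 𝔓 m).zu t - 0) < pvehDl 𝔓 m / 4
      rwa [sub_zero]
    · intro h4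
      rw [pvnu4_RO_sq hρ] at h4
      have h5 : pvccN (w - (pvxrGam 𝔓 m).zu t - 0) < 13 * pvehDl 𝔓 m / 80 := h4
      rw [sub_zero] at h5
      linarith
  · left
    refine ⟨Or.inr ⟨h1, ?_⟩, ?_⟩
    · rw [Complex.sub_re] at h0
      linarith
    · rintro (h4 | h4)
      · exact h3 h4
      · have h5 := pvef_e_far h (v := w) (Or.inl h1)
        have h6 : ‖w - pvegYp 𝔓 m t‖ ≤ 5 * pvegR 𝔓 m / 16 := mem_closedBall_iff_norm.1 h4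
        obtain ⟨-, -, h7⟩ := pvef_Dl_bounds h
        have hd := pvlm_Del_pos c m
        linarith

/-- **(T3)** -/
theorem pvnv_mem_RK (hρ : 0 < 𝔓.num.rho) (O0 : ℕ → Set ℂ) {m : ℕ} {w : ℂ} (h0 : w.re < 0) (h1 : pvccN w ≤ pvehDl 𝔓 m / 2) (h2 : 13 * pvehDl 𝔓 m / 80 ≤ pvccN w)
    (hD : w ∉ pvehDr 𝔓 O0 m) : w ∈ pvnuRK 𝔓 O0 m := by
  by_cases h3 : pvccN w < pvehDl 𝔓 m / 4
  · right
    refine ⟨⟨?_, ?_⟩, h0⟩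
    · show pvccN (w - 0) < pvehDl 𝔓 m / 4
      rwa [sub_zero]
    · intro h4
      rw [pvnu4_RO_sq hρ] at h4
      have h5 : pvccN (w - 0) < 13 * pvehDl 𝔓 m / 80 := h4
      rw [sub_zero] at h5
      linarith
  · left
    refine ⟨?_, h0, ?_, hD⟩
    · show pvccN (w - 0) ≤ pvehDl 𝔓 m / 2
      rwa [sub_zero]
    · intro h4
      have h5 : pvccN (w - 0) < pvehDl 𝔓 m / 4 := h4
      rw [sub_zero] at h5
      exact h3 h5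

/-- the door region of the last door is far from the plug -/
theorem pvnv_Dr_off {O0 : ℕ → Set ℂ} {m : ℕ} {r : ℝ} (hO : O0 m ⊆ pvccSq 0 r) (hr : r ≤ pvehDl 𝔓 m / 10) {w : ℂ} (hw : -(2 * pvehDl 𝔓 m / 5) ≤ w.re) : w ∉ pvehDr 𝔓 O0 m := by
  rintro ⟨v, hv, rfl⟩
  have h1 := (pvccm_mem_sq.1 (hO hv)).1.2
  rw [pvxr_gam_din0, pvxr_gam_pin0] at hw
  have e : (pvthSim (-(pvlmDel c m : ℂ) * ((pvxrNw 𝔓 m : ℂ) + 1 / 2)) 1 v).re = -(pvehDl 𝔓 m / 2) + v.re := by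
    have : -(pvlmDel c m : ℂ) * ((pvxrNw 𝔓 m : ℂ) + 1 / 2) = ((-(pvehDl 𝔓 m / 2) : ℝ) : ℂ) := by
      unfold pvehDl; push_cast; ring
    rw [this]
    simp [pvthSim]
  rw [e] at hw
  simp only [Complex.zero_re] at h1
  linarith

/-- **(T3')** -/
theorem pvnv_mem_RK' (hρ : 0 < 𝔓.num.rho) {O0 : ℕ → Set ℂ} {m : ℕ} {r : ℝ} (hO : O0 m ⊆ pvccSq 0 r) (hr : r ≤ pvehDl 𝔓 m / 10) {w : ℂ} (h0 : w.re < 0) (h0' : -(2 * pvehDl 𝔓 m / 5) ≤ w.re)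
    (h1 : pvccN w ≤ pvehDl 𝔓 m / 2) (h2 : 13 * pvehDl 𝔓 m / 80 ≤ pvccN w) : w ∈ pvnuRK 𝔓 O0 m :=
  pvnv_mem_RK hρ O0 h0 h1 h2 (pvnv_Dr_off hO hr h0')

/-! ## the placed dilated windows of the side events -/

theorem pvnv_sim_re (m : ℕ) (z v : ℂ) : (pvthSim z (pvurS 𝔓 m) v - z).re = 2 * pvehDl 𝔓 m * v.re := by
  simp [pvthSim, pvurS]

theorem pvnv_sim_im (m : ℕ) (z v : ℂ) : (pvthSim z (pvurS 𝔓 m) v - z).im = 2 * pvehDl 𝔓 m * v.im := by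
  simp [pvthSim, pvurS]

theorem pvnv_sim_N (hρ : 0 < 𝔓.num.rho) (m : ℕ) (z v : ℂ) : pvccN (pvthSim z (pvurS 𝔓 m) v - z) = 2 * pvehDl 𝔓 m * pvccN v := by
  have hΔ := pvur_Dl_pos hρ m
  unfold pvccN
  rw [pvnv_sim_re, pvnv_sim_im, abs_mul (2 * pvehDl 𝔓 m), abs_mul (2 * pvehDl 𝔓 m), abs_of_pos (by positivity : 0 < 2 * pvehDl 𝔓 m), mul_max_of_nonneg _ _ (by positivity)]

/-- a point of the unit picture in the window of the unit plug goes to the new window -/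
theorem pvnv_sim_O (hρ : 0 < 𝔓.num.rho) (m : ℕ) (z : ℂ) {v : ℂ} : pvthSim z (pvurS 𝔓 m) v ∈ pvieSh z (pvnuRO 𝔓 m) ↔ pvccN v < 13 / 160 := by
  have hΔ := pvur_Dl_pos hρ m
  rw [pvnv_mem_RO hρ, pvnv_sim_N hρ]
  constructor
  · intro h
    by_contra h'
    have := not_lt.1 h'
    nlinarith
  · intro h
    nlinarith

/-- **the general form of (T4), exit side**: a region of the unit picture in `[0, 1/4] × [-1/4, 1/4]` -/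
theorem pvnv_place_e (hρ : 0 < 𝔓.num.rho) {m : ℕ} {t : τ} (h : PvefNdg 𝔓 m t) (hΓ : 𝔓.Γ m = pvxrGam 𝔓 m) {S : Set ℂ} (hS : ∀ v ∈ S, pvccN v < 13 / 160 ∨ (0 ≤ v.re ∧ pvccN v ≤ 1 / 4)) :
    pvthSim ((pvxrGam 𝔓 m).zu t) (pvurS 𝔓 m) '' S ⊆ pvieSh ((pvxrGam 𝔓 m).zu t) (pvnuRO 𝔓 m) ∪ pvnuEK 𝔓 m t := by
  have hΔ := pvur_Dl_pos hρ m
  rintro _ ⟨v, hv, rfl⟩
  by_cases h1 : pvccN v < 13 / 160
  · exact Or.inl ((pvnv_sim_O hρ m _).2 h1)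
  · obtain ⟨h2, h3⟩ := (hS v hv).resolve_left h1
    refine Or.inr (pvnv_mem_EK hρ h hΓ ?_ ?_ ?_)
    · rw [pvnv_sim_re]; positivity
    · rw [pvnv_sim_N hρ]; nlinarith
    · rw [pvnv_sim_N hρ]; nlinarith [not_lt.1 h1]

/-- **the general form of (T4), entrance side, link `f`** -/
theorem pvnv_place_f (hρ : 0 < 𝔓.num.rho) {m : ℕ} {t : τ} (h : PvefNdg 𝔓 m t) (hΓ : 𝔓.Γ m = pvxrGam 𝔓 m) {S : Set ℂ} (hS : ∀ v ∈ S, pvccN v < 13 / 160 ∨ (v.re < 0 ∧ pvccN v ≤ 1 / 4)) :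
    pvthSim ((pvxrGam 𝔓 m).zu t) (pvurS 𝔓 m) '' S ⊆ pvieSh ((pvxrGam 𝔓 m).zu t) (pvnuRO 𝔓 m) ∪ pvnuFK 𝔓 m t := by
  have hΔ := pvur_Dl_pos hρ m
  rintro _ ⟨v, hv, rfl⟩
  by_cases h1 : pvccN v < 13 / 160
  · exact Or.inl ((pvnv_sim_O hρ m _).2 h1)
  · obtain ⟨h2, h3⟩ := (hS v hv).resolve_left h1
    refine Or.inr (pvnv_mem_FK hρ h hΓ ?_ ?_ ?_)
    · rw [pvnv_sim_re]; nlinarith
    · rw [pvnv_sim_N hρ]; nlinarith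
    · rw [pvnv_sim_N hρ]; nlinarith [not_lt.1 h1]

/-- **the general form of (T4), entrance side, link `r`** (centre `0`) -/
theorem pvnv_place_r (hρ : 0 < 𝔓.num.rho) {O0 : ℕ → Set ℂ} {m : ℕ} {r : ℝ} (hO : O0 m ⊆ pvccSq 0 r) (hr : r ≤ pvehDl 𝔓 m / 10) {S : Set ℂ} (hS : ∀ v ∈ S, pvccN v < 13 / 160 ∨ (v.re < 0 ∧ pvccN v ≤ 1 / 5)) :
    pvthSim 0 (pvurS 𝔓 m) '' S ⊆ pvnuRO 𝔓 m ∪ pvnuRK 𝔓 O0 m := by
  have hΔ := pvur_Dl_pos hρ m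
  rintro _ ⟨v, hv, rfl⟩
  by_cases h1 : pvccN v < 13 / 160
  · have := (pvnv_sim_O hρ m 0 (v := v)).2 h1
    rw [pveh_mem_sh, sub_zero] at this
    exact Or.inl this
  · obtain ⟨h2, h3⟩ := (hS v hv).resolve_left h1
    have e1 := pvnv_sim_re (𝔓 := 𝔓) m 0 v
    have e2 := pvnv_sim_N hρ m 0 v
    rw [sub_zero] at e1 e2
    have h4 : |v.re| ≤ 1 / 5 := (le_max_left _ _).trans h3
    have h5 := (abs_le.1 h4).1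
    refine Or.inr (pvnv_mem_RK' hρ hO hr ?_ ?_ ?_ ?_)
    · rw [e1]; nlinarith
    · rw [e1]; nlinarith
    · rw [e2]; nlinarith
    · rw [e2]; nlinarith [not_lt.1 h1]

theorem pvnv_N_lt {v : ℂ} {a : ℝ} (h1 : -a < v.re) (h2 : v.re < a) (h3 : -a < v.im) (h4 : v.im < a) : pvccN v < a := max_lt (abs_lt.2 ⟨h1, h2⟩) (abs_lt.2 ⟨h3, h4⟩)

theorem pvnv_N_le {v : ℂ} {a : ℝ} (h1 : -a ≤ v.re) (h2 : v.re ≤ a) (h3 : -a ≤ v.im) (h4 : v.im ≤ a) : pvccN v ≤ a := max_le (abs_le.2 ⟨h1, h2⟩) (abs_le.2 ⟨h3, h4⟩)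

/-- the open windows of 258 -/
theorem pvnv_Es_p : ∀ v ∈ pvk2Es true, pvccN v < 13 / 160 ∨ (0 ≤ v.re ∧ pvccN v ≤ 1 / 5) := by
  rintro v (⟨a, b, c, d⟩ | ⟨a, b, c, d⟩)
  · exact Or.inl (pvnv_N_lt a b c d)
  · exact Or.inr ⟨a.le, pvnv_N_le (by linarith) (by linarith) (by linarith) (by linarith)⟩

theorem pvnv_Es_m : ∀ v ∈ pvk2Es false, pvccN v < 13 / 160 ∨ (v.re < 0 ∧ pvccN v ≤ 1 / 5) := by
  rintro v (⟨a, b, c, d⟩ | ⟨a, b, c, d⟩)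
  · exact Or.inl (pvnv_N_lt a b c d)
  · exact Or.inr ⟨b, pvnv_N_le (by linarith) (by linarith) (by linarith) (by linarith)⟩

/-- **(T4) `e`**: the window of the exit side event of the reference plug lies in `(zu + rO) ∪ eK` -/
theorem pvnv_Es_e (hρ : 0 < 𝔓.num.rho) {m : ℕ} {t : τ} (h : PvefNdg 𝔓 m t) (hΓ : 𝔓.Γ m = pvxrGam 𝔓 m) :
    pvthSim ((pvxrGam 𝔓 m).zu t) (pvurS 𝔓 m) '' pvk2Es true ⊆ pvieSh ((pvxrGam 𝔓 m).zu t) (pvnuRO 𝔓 m) ∪ pvnuEK 𝔓 m t :=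
  pvnv_place_e hρ h hΓ fun v hv => (pvnv_Es_p v hv).imp id fun h' => ⟨h'.1, h'.2.trans (by norm_num)⟩

/-- **(T4) `f`** -/
theorem pvnv_Es_f (hρ : 0 < 𝔓.num.rho) {m : ℕ} {t : τ} (h : PvefNdg 𝔓 m t) (hΓ : 𝔓.Γ m = pvxrGam 𝔓 m) :
    pvthSim ((pvxrGam 𝔓 m).zu t) (pvurS 𝔓 m) '' pvk2Es false ⊆ pvieSh ((pvxrGam 𝔓 m).zu t) (pvnuRO 𝔓 m) ∪ pvnuFK 𝔓 m t :=
  pvnv_place_f hρ h hΓ fun v hv => (pvnv_Es_m v hv).imp id fun h' => ⟨h'.1, h'.2.trans (by norm_num)⟩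

/-- **(T4) `r`** -/
theorem pvnv_Es_r (hρ : 0 < 𝔓.num.rho) {O0 : ℕ → Set ℂ} {m : ℕ} {r : ℝ} (hO : O0 m ⊆ pvccSq 0 r) (hr : r ≤ pvehDl 𝔓 m / 10) :
    pvthSim 0 (pvurS 𝔓 m) '' pvk2Es false ⊆ pvnuRO 𝔓 m ∪ pvnuRK 𝔓 O0 m :=
  pvnv_place_r hρ hO hr pvnv_Es_m

/-- the closed windows of 174 at the unit `1/40` -/
theorem pvnv_EsT_p : ∀ v ∈ (pvhfT pvkgG.a).Es true, pvccN v < 13 / 160 ∨ (0 ≤ v.re ∧ pvccN v ≤ 1 / 5) := by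
  have ea : pvkgG.a = 1 / 40 := rfl
  rw [ea]
  rintro v (⟨a, b⟩ | ⟨a, b, c, d⟩)
  · rw [sub_zero] at a b
    exact Or.inl (max_lt (lt_of_le_of_lt a (by norm_num)) (lt_of_le_of_lt b (by norm_num)))
  · exact Or.inr ⟨by linarith, pvnv_N_le (by linarith) (by linarith) (by linarith) (by linarith)⟩

theorem pvnv_EsT_m : ∀ v ∈ (pvhfT pvkgG.a).Es false, pvccN v < 13 / 160 ∨ (v.re < 0 ∧ pvccN v ≤ 1 / 5) := by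
  have ea : pvkgG.a = 1 / 40 := rfl
  rw [ea]
  rintro v (⟨a, b⟩ | ⟨a, b, c, d⟩)
  · rw [sub_zero] at a b
    exact Or.inl (max_lt (lt_of_le_of_lt a (by norm_num)) (lt_of_le_of_lt b (by norm_num)))
  · exact Or.inr ⟨by linarith, pvnv_N_le (by linarith) (by linarith) (by linarith) (by linarith)⟩

/-- **(T5)** the unit of the dilated plug -/
theorem pvnv_unit (hρ : 0 < 𝔓.num.rho) (m : ℕ) : pvkgG.toPvkdPlug.sc (pvurS 𝔓 m) = pvkdP (pvurRu 𝔓 m) := by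
  have e : pvkgG.toPvkdPlug = pvkdP (1 / 40) := rfl
  rw [e, pvdil_P (pvur_S_pos hρ m), pvur_S_Ru]

end tiles

end Claimed.Agent.R289
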