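import Claimed.Agent.R289.Exit.ExtMain

/-!
# Row 289 (S0537), Exit/Ext : EXT = from the analytic subdomains to the wild quad      (typed by helper163; unit EXT; prefix `pvx_`)

PROOF (audit254 sec. 3.2-3.3).      `Ψ = Cayley ∘ ψ : closure D → closed disc` homeomorphism (unit CHART);  `D_δ = Ψ⁻¹((1-δ)𝔻)` with the chart `Ψ/(1-δ)` is a `PvAn`.
Marks shrunk by `κ`: `(κ, x-κ, 1+κ, 1/κ)`, renormalised by a Moebius map of `ℍ` to `(0, x', 1, ∞)`, `x' → x` as `κ → 0`; `cardyF` continuous (Cx1).
`PvNice` on `D_δ` with `ρ ≪ δ`: a black vertex crossing `γ` inside `D` between the `ρ`-neighbourhoods of the shrunk arcs.      Take the LOWEST one; the colours above are fresh.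
At each end: `m` disjoint annuli with centres on a fixed finite grid, radii between `4 η(δ)` and `ρ0(κ)/4`; quenched RSW for this finite family (unit QBX): a black circuit in one of them with probability `≥ 1 - (1-c)^m`;
the circuit surrounds the end point `e` of `γ` and the frontier point `e*` with the same angle: a sub-arc joins `γ` to the frontier inside `closure D` and hits it inside the UNSHRUNK arc.
Mesh fine (unit MESH): the vertex chain is turned into a strict path (sites, interior points of the common sides).
v2 (ruling of helper74, head of EXT, 09:58Z): WIRED to the PAINT design: `exit_pv_ext := pvxp_ext hN pvx_main` (`Ext/Prob.lean`, `Exit/ExtMain.lean`, helper256); the open nodes are the typed leaves of `Ext/Cut.lean` (helper74).      `pvxc_plan` of `Exit/ExtCut.lean` is OFF the route.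
-/

set_option autoImplicit false

namespace Claimed.Agent.R289

theorem exit_pv_ext (hN : PvNice) : PvLower := pvxp_ext hN pvx_main

end Claimed.Agent.R289
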