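import Claimed.Agent.R289.Defs.Top
import Claimed.Agent.R289.Ext.Sub
import Claimed.Agent.R289.Arm.Law
import Claimed.Agent.R289.Vor.Chain

/-!
# Row 289 (S0537), Exit/ExtCut : THE CUT OF `exit_pv_ext : PvNice → PvLower`      (ruling EXT-2 of helper82; level 1 = text of helper61; level 2 glue = pen helper100; head of level 2 = helper74; prefixes `pvx_`, `pvxc_`, defs `Pvxc*`)

## STATUS (v4): EXT IS CLOSED ON MAIN by the PAINT design of helper74: `exit_pv_ext := pvxp_ext hN pvx_main` (`Ext/Prob.lean`, `Exit/ExtMain.lean` of 256, `Ext/Cut.lean` of 74).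
This file keeps what is cited there (`pvxc_anneal`, `pvxc_pow_small`) and the fresh-copy form of the quenched bound (`PvxcPlan`, `pvxc_quench`, 0 sorry).      The fallback chain `pvx_ext ⟸ pvx_core ⟸ pvxc_plan` (v1-v3) is DELETED: no open node here.

## The idea
Fix the geometry `g : PvGeoT`; the colours `c : PvColT = PvIx → Bool` are fair bits (`PppQ`, 261).      `Cr` = black vertex crossing of `W` (compact in `D`) between the `τ`-neighbourhoods of `AL`, `AR`;  `T` = a MEASURABLE event inside the strict crossing of `D`.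
A PLAN for `g` (`PvxcPlan T Cr g m q`) is:
* an EXPLORATION `S : PvColT → Finset PvIx` (stopping set, `Arm/Stop` of 128) and an explored-measurable event `K ⊇ Cr` ("the bank exists": the lowest crossing and what lies below it are in `S c`);
* for every explored outcome `c` with `K c`, at EACH of the two ends of the bank `m` events `CL c j`, `CR c j` (`j < m`) of an INDEPENDENT copy `c₂` of the colours ("no white arm across the `j`-th annulus round the grid point next to the end"),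
  which read pairwise disjoint finite sets of indices and have quenched probability `≥ q`;
* ATTACH (deterministic): if the copy has one good annulus at each end, then the colouring `c` on `S c`, `c₂` off `S c` belongs to `T`.
Then `pvQ (Cr \ T) g ≤ 2 (1 - q)^m` (`pvxc_quench`), and `pvLaw ε (Cr \ T) ≤ 2 (1-q)^m + pvGeo ε {no plan}` (`pvxc_anneal`).
v3 (74, 4): the CORNER event `M` (trap T2: the bank lands next to a bottom corner) is ANNEALED: the plan is owed for `Cr \ M` only, `pvLaw ε M ≤ θ0`, `θ0` quantified before `τ`.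
-/

set_option autoImplicit false

namespace Claimed.Agent.R289

open MeasureTheory ProbabilityTheory Set Filter Topology Claims.C0465
open scoped ENNReal

/-! ## 1. the plan -/

/-- a PLAN for the geometry `g` -/
def PvxcPlan (T Cr : Set PVSample) (g : PvGeoT) (m : ℕ) (q : ℝ) : Prop :=
  ∃ (I : Finset PvIx) (S : PvColT → Finset PvIx) (K : PvColT → Prop) (CL CR : PvColT → ℕ → PvColT → Prop) (RL RR : PvColT → ℕ → Finset PvIx),
    PvaStop S ∧ PvaMeas S K ∧ (∀ c, pvMerge (g, c) ∈ Cr → K c) ∧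
    (∀ c, K c → ∀ j ∈ Finset.range m, RL c j ⊆ I ∧ RR c j ⊆ I) ∧
    (∀ c, K c → ∀ i ∈ Finset.range m, ∀ j ∈ Finset.range m, i ≠ j → Disjoint (RL c i) (RL c j) ∧ Disjoint (RR c i) (RR c j)) ∧
    (∀ c, K c → ∀ j ∈ Finset.range m, ∀ ξ, PvaDep I (RL c j) ξ (CL c j) ∧ PvaDep I (RR c j) ξ (CR c j)) ∧
    (∀ c, K c → ∀ j ∈ Finset.range m, ∀ ξ, q ≤ pvaP I ξ (CL c j) ∧ q ≤ pvaP I ξ (CR c j)) ∧
    (∀ c c₂, K c → (∃ j ∈ Finset.range m, CL c j c₂) → (∃ j ∈ Finset.range m, CR c j c₂) → pvMerge (g, pvaMix (S c) c c₂) ∈ T)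

theorem pvxc_eqns_cite : True := by
  have := @PvxcPlan.eq_1
  trivial

theorem PvxcPlan.mono {T Cr Cr' : Set PVSample} {g : PvGeoT} {m : ℕ} {q : ℝ} (h : PvxcPlan T Cr g m q) (hC : Cr' ⊆ Cr) : PvxcPlan T Cr' g m q := by
  obtain ⟨I, S, K, CL, CR, RL, RR, h1, h2, h3, h4⟩ := h
  exact ⟨I, S, K, CL, CR, RL, RR, h1, h2, fun c hc => h3 c (hC hc), h4⟩

/-! ## 2. the quenched bound -/

theorem pvxc_dep_not {A R : Finset PvIx} {ξ : PvColT} {G : PvColT → Prop} (h : PvaDep A R ξ G) : PvaDep A R ξ (fun c => ¬ G c) :=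
  fun c₁ c₂ h1 h2 h3 => congrArg Not (h c₁ c₂ h1 h2 h3)

/-- none of `m` independent events of probability `≥ q` -/
theorem pvxc_none {I : Finset PvIx} {ξ : PvColT} {m : ℕ} {q : ℝ} (C : ℕ → PvColT → Prop) (R : ℕ → Finset PvIx)
    (hR : ∀ j ∈ Finset.range m, R j ⊆ I) (hd : ∀ i ∈ Finset.range m, ∀ j ∈ Finset.range m, i ≠ j → Disjoint (R i) (R j))
    (hC : ∀ j ∈ Finset.range m, PvaDep I (R j) ξ (C j)) (hq : ∀ j ∈ Finset.range m, q ≤ pvaP I ξ (C j)) :
    pvaP I ξ (fun c => ∀ j ∈ Finset.range m, ¬ C j c) ≤ (1 - q) ^ m := by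
  rw [pva_P_forall (Finset.range m) R (fun j c => ¬ C j c) hR hd fun j hj => pvxc_dep_not (hC j hj)]
  calc ∏ j ∈ Finset.range m, pvaP I ξ (fun c => ¬ C j c) ≤ ∏ _j ∈ Finset.range m, (1 - q) := by
        refine Finset.prod_le_prod (fun j _ => pva_P_nonneg _ _ _) fun j hj => ?_
        rw [pva_P_not]
        linarith [hq j hj]
    _ = (1 - q) ^ m := by rw [Finset.prod_const, Finset.card_range]

/-- **the quenched bound**: strong Markov property at the explored set, circuits of the fresh copy -/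
theorem pvxc_quench {T Cr : Set PVSample} (hT : MeasurableSet T) (hCr : MeasurableSet Cr) {g : PvGeoT} {m : ℕ} {q : ℝ} (hq1 : q ≤ 1)
    (P : PvxcPlan T Cr g m q) : pvQ (Cr \ T) g ≤ ENNReal.ofReal (2 * (1 - q) ^ m) := by
  obtain ⟨I, S, K, CL, CR, RL, RR, hS, hK, hcr, hsub, hdisj, hdep, hprob, hatt⟩ := P
  have hp0 : 0 ≤ (1 - q) ^ m := pow_nonneg (by linarith) m
  have hm : MeasurableSet {c : PvColT | pvMerge (g, c) ∈ Cr \ T} := pvqu_section_meas (hCr.diff hT) g
  have key : ∀ ξ, pvaP I ξ (fun c => pvMerge (g, c) ∈ Cr \ T) ≤ 2 * (1 - q) ^ m := by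
    intro ξ
    have h1 : pvaP I ξ (fun c => pvMerge (g, c) ∈ Cr \ T) ≤ pvaP I ξ (fun c => K c ∧ pvMerge (g, c) ∉ T) :=
      pva_P_mono fun c _ h => ⟨hcr c h.1, h.2⟩
    have h2 : pvaP I ξ (fun c => K c ∧ pvMerge (g, c) ∉ T) ≤ (2 * (1 - q) ^ m) * pvaP I ξ K := by
      refine pva_smarkov_le hS hK I ξ fun c hc hKc => ?_
      have h3 : pvaP (I \ S c) c (fun c' => pvMerge (g, c') ∉ T) ≤
          pvaP I ξ (fun c₂ => (∀ j ∈ Finset.range m, ¬ CL c j c₂) ∨ (∀ j ∈ Finset.range m, ¬ CR c j c₂)) := by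
        refine pva_P_fresh_le (S c) hc fun c₂ _ hG => ?_
        by_contra hcon
        rw [not_or] at hcon
        obtain ⟨hL, hR⟩ := hcon
        simp only [not_forall, not_not] at hL hR
        obtain ⟨j, hj, hjL⟩ := hL
        obtain ⟨j', hj', hjR⟩ := hR
        exact hG (hatt c c₂ hKc ⟨j, hj, hjL⟩ ⟨j', hj', hjR⟩)
      have h4 := pva_P_or_le I ξ (fun c₂ => ∀ j ∈ Finset.range m, ¬ CL c j c₂) (fun c₂ => ∀ j ∈ Finset.range m, ¬ CR c j c₂)
      have h5 := pvxc_none (I := I) (ξ := ξ) (m := m) (q := q) (CL c) (RL c) (fun j hj => (hsub c hKc j hj).1)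
        (fun i hi j hj hij => (hdisj c hKc i hi j hj hij).1) (fun j hj => (hdep c hKc j hj ξ).1) (fun j hj => (hprob c hKc j hj ξ).1)
      have h6 := pvxc_none (I := I) (ξ := ξ) (m := m) (q := q) (CR c) (RR c) (fun j hj => (hsub c hKc j hj).2)
        (fun i hi j hj hij => (hdisj c hKc i hi j hj hij).2) (fun j hj => (hdep c hKc j hj ξ).2) (fun j hj => (hprob c hKc j hj ξ).2)
      linarith
    have h7 : (2 * (1 - q) ^ m) * pvaP I ξ K ≤ 2 * (1 - q) ^ m :=
      mul_le_of_le_one_right (by positivity) (pva_P_le_one _ _ _)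
    linarith
  have h8 := pval_real_le I hm key
  have h9 : pvQ (Cr \ T) g = ENNReal.ofReal ((colLaw PvIx).real {c : PvColT | pvMerge (g, c) ∈ Cr \ T}) := by
    rw [ofReal_measureReal (measure_ne_top _ _)]
    rfl
  rw [h9]
  exact ENNReal.ofReal_le_ofReal h8

/-! ## 3. annealing -/

/-- a quenched bound on the good geometries gives an annealed bound; NO measurability of the set of good geometries -/
theorem pvxc_anneal (ε : ℝ) {Bad : Set PVSample} (hB : MeasurableSet Bad) (Good : PvGeoT → Prop) {p : ℝ≥0∞} (h : ∀ g, Good g → pvQ Bad g ≤ p) :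
    pvLaw ε Bad ≤ p + pvGeo ε {g | ¬ Good g} := by
  rw [← pvqu_Q_lintegral ε hB]
  set N := toMeasurable (pvGeo ε) {g | ¬ Good g} with hN
  have hNm : MeasurableSet N := measurableSet_toMeasurable _ _
  calc ∫⁻ g, pvQ Bad g ∂(pvGeo ε) ≤ ∫⁻ g, (p + N.indicator (fun _ => (1 : ℝ≥0∞)) g) ∂(pvGeo ε) := by
        refine lintegral_mono fun g => ?_
        by_cases hg : g ∈ N
        · rw [indicator_of_mem hg]
          exact (pvqu_Q_le_one _ _).trans le_add_self
        · have hG : Good g := by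
            by_contra hcon
            exact hg (subset_toMeasurable _ _ hcon)
          exact (h g hG).trans le_self_add
    _ = p + pvGeo ε {g | ¬ Good g} := by
        rw [lintegral_add_left measurable_const, lintegral_const, measure_univ, mul_one, lintegral_indicator_const hNm, one_mul, hN, measure_toMeasurable]

/-! ## 4. small kit (cited by `Ext/Prob.lean`) -/


theorem pvxc_pow_small {q : ℝ} (hq0 : 0 < q) {θ : ℝ} (hθ : 0 < θ) : ∃ m : ℕ, 2 * (1 - q) ^ m ≤ θ := by
  obtain ⟨m, hm⟩ := exists_pow_lt_of_lt_one (show 0 < θ / 2 by positivity) (show 1 - q < 1 by linarith)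
  exact ⟨m, by linarith⟩

/-- the vertex crossing event is monotone in its three sets (61; the name `PvVC.mono` is taken by `Exit/Path.lean`) -/
theorem pvxc_vc_mono {η : Conf PvPt} {W W' A A' B B' : Set ℂ} (hW : W ⊆ W') (hA : A ⊆ A') (hB : B ⊆ B') (h : PvVC η W A B) : PvVC η W' A' B' := by
  obtain ⟨u, v, hu, hv, hb, hr⟩ := h
  exact ⟨u, v, hA hu, hB hv, ⟨hb.1, hW hb.2⟩, Relation.ReflTransGen.mono (fun a b hab => ⟨⟨hab.1.1, hW hab.1.2⟩, hab.2⟩) u v hr⟩

end Claimed.Agent.R289
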