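import Claimed.Agent.R289.Ext.Cut

/-!
# Row 289 (S0537), unit EXT, file Exit/ExtMain : `pvx_main : PvxpGeo` = THE LAST GLUE OF EXT      (helper256; prefix `pvxe_`)

`pvxp_ext (hN : PvNice) (hG : PvxpGeo) : PvLower` (`Ext/Prob.lean`) asks `PvxpGeo`.      Here: `PvxpGeo` from the typed leaves of `Ext/Cut.lean` (head helper74):
`pvx_geo` (frame), `pvx_plan` (compiled plan), `pvx_corner_prob`, `pvxq_frame` + `exit_pv_qbx` (QARM), `pvxg_tgt_fat` (TGT).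
CHOICES.   `u0 = ρ0 / (10 * 6^m)`;   `τ = min (u0/14) (s0 ρ0/24)` with `s0^a = θ/(2C)` (corner event);   `μ = min μ0 τ`;   `Z` = a finite `τ`-net of `closure D`;   `U` = the scales `u0 6^j`, `j < m`;
`K` = the `1`-neighbourhood of `closure D` and the annuli of the family.
-/

set_option autoImplicit false

namespace Claimed.Agent.R289

open Set Metric Filter Topology MeasureTheory
open Claims.C0465
open scoped ENNReal

/-- a small number for the corner event -/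
theorem pvxe_small {C a θ : ℝ} (hC : 0 < C) (ha : 0 < a) (hθ : 0 < θ) : ∃ s0 : ℝ, 0 < s0 ∧ ∀ s : ℝ, 0 ≤ s → s ≤ s0 → 2 * (C * s ^ a) ≤ θ := by
  refine ⟨(θ / (2 * C)) ^ (1 / a), by positivity, fun s h0 hs => ?_⟩
  have h1 : s ^ a ≤ ((θ / (2 * C)) ^ (1 / a)) ^ a := Real.rpow_le_rpow h0 hs ha.le
  rw [← Real.rpow_mul (by positivity), one_div, inv_mul_cancel₀ ha.ne', Real.rpow_one] at h1
  have h2 : C * s ^ a ≤ C * (θ / (2 * C)) := mul_le_mul_of_nonneg_left h1 hC.le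
  have h3 : C * (θ / (2 * C)) = θ / 2 := by field_simp
  linarith

/-- a finite net with its projection -/
theorem pvxe_net {D : Set ℂ} (hD : Bornology.IsBounded D) {τ : ℝ} (hτ : 0 < τ) : ∃ (Z : Finset ℂ) (gr : ℂ → ℂ), ∀ e ∈ D, gr e ∈ Z ∧ ‖gr e - e‖ ≤ τ := by
  classical
  have hc : IsCompact (closure D) := Metric.isCompact_of_isClosed_isBounded isClosed_closure hD.closure
  obtain ⟨t, -, htf, hcov⟩ := hc.finite_cover_balls hτ
  have key : ∀ e ∈ D, ∃ z, z ∈ htf.toFinset ∧ ‖z - e‖ ≤ τ := by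
    intro e he
    obtain ⟨z, hz, hez⟩ := mem_iUnion₂.1 (hcov (subset_closure he))
    refine ⟨z, htf.mem_toFinset.2 hz, ?_⟩
    rw [mem_ball, dist_comm, dist_eq_norm] at hez
    exact hez.le
  refine ⟨htf.toFinset, fun e => if h : ∃ z, z ∈ htf.toFinset ∧ ‖z - e‖ ≤ τ then h.choose else 0, fun e he => ?_⟩
  simp only [dif_pos (key e he)]
  exact (key e he).choose_spec

/-- **THE SUB-EXIT OF EXT** -/
theorem pvx_main : PvxpGeo := by
  classical
  intro D d ψ h x η hx0 hx1 hη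
  obtain ⟨x', ρ0, z1, z2, hx'0, hx'1, hF, hρ0, HG⟩ := pvx_geo h hx0 hx1 hη
  obtain ⟨q0, hq0, hQ0⟩ := exit_pv_qbx
  obtain ⟨C, a, hC, ha, hcor⟩ := pvx_corner_prob
  obtain ⟨T, hTm, hTs, hT⟩ := pvxg_tgt_fat h x
  have hQ : PvaxQbx (min q0 1) := pvax_qbx_mono hQ0 (min_le_left _ _)
  refine ⟨x', min q0 1, hx'0, hx'1, hF, lt_min hq0 one_pos, min_le_right _ _, fun m θ hθ => ?_⟩
  obtain ⟨s0, hs0, hs⟩ := pvxe_small hC ha hθ
  have h6 : (0 : ℝ) < 6 ^ m := by positivity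
  have h61 : (1 : ℝ) ≤ 6 ^ m := one_le_pow₀ (by norm_num)
  set u0 : ℝ := ρ0 / (10 * 6 ^ m) with hu0d
  have hu0 : 0 < u0 := by positivity
  have hu0m : u0 * 6 ^ m = ρ0 / 10 := by rw [hu0d]; field_simp
  have hu0le : u0 ≤ ρ0 / 10 := by
    rw [← hu0m]
    exact le_mul_of_one_le_right hu0.le h61
  set τ : ℝ := min (u0 / 14) (s0 * ρ0 / 24) with hτd
  have hτ : 0 < τ := lt_min (by positivity) (by positivity)
  have hτ1 : τ ≤ u0 / 14 := min_le_left _ _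
  have hτ2 : τ ≤ s0 * ρ0 / 24 := min_le_right _ _
  obtain ⟨D', d', ψ', ρ, μ0, F, hAn, hρ, hμ0, HG'⟩ := HG τ hτ (by linarith)
  set μ : ℝ := min μ0 τ with hμd
  have hμ : 0 < μ := lt_min hμ0 hτ
  have hμτ : μ ≤ τ := min_le_right _ _
  have G := HG' μ hμ (min_le_left _ _)
  obtain ⟨Z, gr, hgr⟩ := pvxe_net h.bdd hτ
  set U : Finset ℝ := (Finset.range m).image (pvxqSc u0) with hUd
  have hU : ∀ j < m, pvxqSc u0 j ∈ U := fun j hj => Finset.mem_image_of_mem _ (Finset.mem_range.2 hj)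
  have hUpos : ∀ u ∈ U, 0 < u := by
    intro u hu
    obtain ⟨j, -, rfl⟩ := Finset.mem_image.1 hu
    exact pvxq_sc_pos hu0 j
  set K : Set ℂ := cthickening 1 (closure D) ∪ ⋃ z ∈ Z, ⋃ j ∈ Finset.range m, pvxqAnK z (pvxqSc u0 j) with hKd
  have hKb : Bornology.IsBounded K := by
    refine (h.bdd.closure.cthickening).union ?_
    refine (Bornology.isBounded_biUnion Z.finite_toSet).2 fun z _ => ?_
    exact (Bornology.isBounded_biUnion (Finset.range m).finite_toSet).2 fun j _ => pvxq_anK_bdd _ _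
  have hK : cthickening 1 (closure D) ⊆ K := subset_union_left
  have hKan : ∀ z ∈ Z, ∀ j < m, pvxqAnK z (pvxqSc u0 j) ⊆ K := by
    intro z hz j hj w hw
    exact Or.inr (mem_biUnion (Finset.mem_coe.2 hz) (mem_biUnion (Finset.mem_coe.2 (Finset.mem_range.2 hj)) hw))
  have hout : ∀ j < m, 5 * pvxqSc u0 j ≤ ρ0 - 5 * μ - τ := by
    intro j hj
    have h1 : pvxqSc u0 j ≤ u0 * 6 ^ m := by
      unfold pvxqSc
      exact mul_le_mul_of_nonneg_left (pow_le_pow_right₀ (by norm_num) hj.le) hu0.le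
    rw [hu0m] at h1
    linarith
  refine ⟨D', d', ψ', ρ, T, hAn, hρ, hTm, hTs, ?_⟩
  have ht0 : 0 < 3 * τ + 3 * μ := by positivity
  have e1 : ∀ᶠ ε in 𝓝[>] (0 : ℝ), 0 < ε ∧ ε ≤ 3 * τ + 3 * μ := by
    filter_upwards [Ioc_mem_nhdsGT ht0] with ε hε using hε
  have e2 : ∀ᶠ ε in 𝓝[>] (0 : ℝ), pvGeo ε {g | ¬ PvxqFrame (min q0 1) μ K Z U g} ≤ ENNReal.ofReal θ :=
    (pvxq_frame hQ hμ hKb Z U hUpos).eventually (Iic_mem_nhds (ENNReal.ofReal_pos.2 hθ))
  filter_upwards [e1, e2] with ε hε hfr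
  refine ⟨pvxX z1 z2 (3 * τ + 3 * μ) (ρ0 / 4), ?_, ?_⟩
  · refine (hcor ε hε.1 (3 * τ + 3 * μ) (ρ0 / 4) hε.2 (by linarith) z1 z2).trans (ENNReal.ofReal_le_ofReal ?_)
    refine hs _ (by positivity) ?_
    rw [div_le_iff₀ (by positivity)]
    nlinarith
  · refine le_trans (measure_mono ?_) hfr
    intro g hg hFr
    exact hg (pvx_plan h hx0 hx1 G (min_le_right _ _) hKb hK hFr hT hu0 (by linarith) hU hKan gr hgr (by linarith) hout)

end Claimed.Agent.R289
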