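-- KEEP
import Claimed.Agent.R289.Tr.FrcDoor
import Claimed.Agent.R289.Tr.FrcPat
import Claimed.Agent.R289.Tr.DoorSoft
import Claimed.Agent.R289.Exit.FrcOG
import Claimed.Agent.R289.Tr.SideOpen

/-!
# Row 289 (S0537), THE WALL, ROAD E, E10 step (b2), file Exit/FrcDoorE : THE DOOR HALF OF `PvjeTest.Ok` AT THE THREE HYBRID ENDS `pvjeO pvjeI pvjeE`, ASSEMBLED      (helper77; names `pvdp_rec_*`, `pvdp_fr_*`; prefix `pvdp` of `Tr/FrcDoor`)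

ONE CALL PER END: **`PvjpDoor E ε ℋ Cd b Kb Kw`** of 248 (`Tr/FrcPat`: `mH rH thr loc` + the `ℋ` half of `up`), `ℋ`, `Cd` VERBATIM those of the tests of record `pvj0T` (35, `Exit/FrcO`), `pviiT` (116, `Exit/FrcIDefs`), `pvetT` (54, `Exit/FrcT`; 31 `Exit/RefEnd`).
NO NAME OF `Exit/EngRec` (method of 173: the file survives the swap R24 of 234).      WHAT IS READ OF THE ENGINE:
      `hU : PvkmEng 𝔈 c U`,   `hk : ∀ e, U.kit e = (pvkgG.glob (pvhfH pvkgG.toPvkdPlug 𝔱)).kit (pvP e) b0 q`,   `hK : 𝔈.oK m t = pvegOKa 𝔓 O₀ m t`,   `hO : O₀ m = pvthSim 0 δ_m '' pvkgO`      (at the engine of record: `pvnr_num ..`, `fun _ => rfl`, `rfl`, `rfl`)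
WHAT IS READ OF THE TRUNCATION `𝔱`:   `hG : PvhfGeo pvkgG.toPvkdPlug 𝔱`,   `𝔱.Es false ⊆ pvkgEm`,   `𝔱.Es true ⊆ pvkgEp`      (`pvk2T` of 125: `pvk2_geo`, `Subset.rfl`;   `pvnaT N` of R24 = `pvk2T.fine ..`: same windows).
* sec. 1  the door plug of level `m` of an engine whose reference family is the unit kit of the datum of record: **`pvdp_fr_end_k`** (`PvdpEnd`, ANY tile `C` with ONE region line)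
* sec. 2  **`pvdp_rec_o`**, **`pvdp_rec_i`** : `PvjpDoor` at `pvjeO`, `pvjeI`   (region lines: 144 `pvo4_o_win _i_win`;   `loc`: 173 `pvyo_rec_door_ae`);      fields one by one: `pvdp_rec_o_rH`, `pvdp_rec_i_rH`
* sec. 3  **`pvdp_rec_e`** : `PvjpDoor` at `pvjeE` (ANY scale `s`; what is read of `rO rG`: `mW hEw hsure hthr`; ONE region line `hC`)
          `pvdp_rec_r` (ANY `E : PvjeEnd` whose plug is a reference type plug: `f`, `r`, `σ = false`), `pvdp_rec_k` (ANY `E` whose plug is a door plug of level `m`)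
WHAT IS LEFT TO THE INTEGRATOR: the halves `Kb Kw` of the order = (placed rooms off the door) `∪` (rooms of the routes of the pattern), ONE disjointness (248 `Exit/FrcRooms`).
USE AT THE ENGINE OF RECORD (compiled 14:20Z against `Exit/EngRec`; `hpin : pvnaHf = pvhfH pvkgG.toPvkdPlug 𝔱`, `rfl` after R24):
      `pvdp_rec_o pvilQ (pvnr_num N hN c nb) (by rw [← hpin]; exact fun _ => rfl) hG hEs ((pvea_par hN c0).lev hm) (pvea_tyOk hN t) (pvnr_oK N hN c nb m t) rfl hε.ne' z hd hb hw`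
      and `ℋ` of the test `= pvdpPl .. (pvnaHf N 2) = pvdpPl .. (pvhfS .. false)` by `pvdp_H_two` (`rfl`);   `i`: `pvnr_iK`, `pvnaHf 0`, `pvdp_H_zero`.
0 sorry
-/

set_option autoImplicit false
set_option linter.unusedSectionVars false

namespace Claimed.Agent.R289

open MeasureTheory Set Filter Topology Claims.C0465
open scoped ENNReal

/-! ## 1. the door plug of level `m` -/

section kit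

variable {τ : Type} {c : ℝ} {𝔈 : PvieEng τ} {U : PvkmUnit} {𝔤 : PvkdGeo} {𝔱 : PvhfTr} {b0 q : ℝ≥0∞}

/-- **THE DOOR END OF LEVEL `m`, SIDE `σ`, COLOUR `b`, FRAME `(z, d)`**: ONE region line `hC` -/
theorem pvdp_fr_end_k (hU : PvkmEng 𝔈 c U) (hk : ∀ e, U.kit e = (𝔤.glob (pvhfH 𝔤.toPvkdPlug 𝔱)).kit (pvP e) b0 q) (G : PvzeGeo 𝔤) (hG : PvhfGeo 𝔤.toPvkdPlug 𝔱) (σ : Bool) (m : ℕ) (ε : ℝ) (b : Bool) (z : ℂ)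
    {d : ℂ} (hd : ‖d‖ = 1) {C : Set ℂ} (hC : pvthSim z (d * pvlmDel c m) '' 𝔱.Es σ ⊆ pvkyDoor (𝔈.kit m ε) z d ∪ C) :
    PvdpEnd ε (pvkyDoor (𝔈.kit m ε) z d) C (pvrgGk 𝔈 m ε b z d) (pvdpPl z (d * pvlmDel c m) b (pvhfS 𝔤.toPvkdPlug 𝔱 σ)) (pvdpPl z (d * pvlmDel c m) b (𝔤.C 0 1))
      (pvthSim z (d * pvlmDel c m) '' 𝔱.Ln σ b) (pvthSim z (d * pvlmDel c m) '' 𝔱.Ln σ (!b)) b0 := by
  have h0 := pvdp_end_side 𝔤 hG G.mO (pvze_mC G) G.EO σ (ε / pvlmDel c m) b0 q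
  rw [← hk] at h0
  have h1 := pvdp_end_k hU m ε b z d hd h0 hC
  cases b
  · exact h1
  · exact h1

end kit

/-! ## 2. the thin ends `o`, `i` -/

section thin

variable {τ : Type} {c : ℝ} {𝔓 : PvxPar τ c} {𝔈 : PvieEng τ} {U : PvkmUnit} {𝔱 : PvhfTr} {b0 q : ℝ≥0∞} (w : ∀ η : Conf PvPt, (delbPl (pvieY η)).Dart → ℂ)

/-- the region of the door plug of level `m` of the engine -/
theorem pvdp_fr_door (hU : PvkmEng 𝔈 c U) (hk : ∀ e, U.kit e = (pvkgG.glob (pvhfH pvkgG.toPvkdPlug 𝔱)).kit (pvP e) b0 q) (m : ℕ) (ε : ℝ) : (𝔈.kit m ε).O₀ = pvthSim 0 (pvlmDel c m : ℂ) '' pvkgO := by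
  have h := pvdp_door hU m ε 0 1
  unfold pvkyDoor at h
  rw [pvdp_sim01, one_mul, hk] at h
  exact h

/-- **[rH] region line at `o`** -/
theorem pvdp_rec_o_win (hU : PvkmEng 𝔈 c U) (hk : ∀ e, U.kit e = (pvkgG.glob (pvhfH pvkgG.toPvkdPlug 𝔱)).kit (pvP e) b0 q) (hEs : 𝔱.Es false ⊆ pvkgEm) {m : ℕ} {t : τ} (hL : PvegLev 𝔓 m) (hT : pviwTyOk 𝔓 t)
    {O₀ : ℕ → Set ℂ} (hK : 𝔈.oK m t = pvegOKa 𝔓 O₀ m t) (hO : O₀ m = pvthSim 0 (pvlmDel c m : ℂ) '' pvkgO) (ε : ℝ) (z : ℂ) :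
    pvthSim (pvieZo 𝔓 m z t) ((𝔓.Γ m).dout t * pvlmDel c m) '' 𝔱.Es false ⊆ pvkyDoor (𝔈.kit m ε) (pvieZo 𝔓 m z t) ((𝔓.Γ m).dout t) ∪ pvieSh z (𝔈.oK m t) := by
  refine (image_mono hEs).trans ?_
  have h := pvo4_o_win hL hT hO z
  unfold pvkyDoor
  rw [pvdp_fr_door hU hk, hK, ← hO]
  exact h

/-- **[rH] region line at `i`** -/
theorem pvdp_rec_i_win (hU : PvkmEng 𝔈 c U) (hk : ∀ e, U.kit e = (pvkgG.glob (pvhfH pvkgG.toPvkdPlug 𝔱)).kit (pvP e) b0 q) (hEs : 𝔱.Es true ⊆ pvkgEp) {m : ℕ} {t : τ} (hL : PvegLev 𝔓 m) (hT : pviwTyOk 𝔓 t)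
    {O₀ : ℕ → Set ℂ} (hK : 𝔈.iK m t = pvegIKa 𝔓 O₀ m t) (hO : O₀ m = pvthSim 0 (pvlmDel c m : ℂ) '' pvkgO) (ε : ℝ) (z : ℂ) :
    pvthSim (pvieZi 𝔓 m z t) ((𝔓.Γ m).din t * pvlmDel c m) '' 𝔱.Es true ⊆ pvkyDoor (𝔈.kit m ε) (pvieZi 𝔓 m z t) ((𝔓.Γ m).din t) ∪ pvieSh z (𝔈.iK m t) := by
  refine (image_mono hEs).trans ?_
  have h := pvo4_i_win hL hT hO z
  unfold pvkyDoor
  rw [pvdp_fr_door hU hk, hK, ← hO]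
  exact h

/-- **THE DOOR END OF THE FIRST LINK** (`PvdpEnd`), plain plug of 35 -/
theorem pvdp_rec_o_end (hU : PvkmEng 𝔈 c U) (hk : ∀ e, U.kit e = (pvkgG.glob (pvhfH pvkgG.toPvkdPlug 𝔱)).kit (pvP e) b0 q) (hG : PvhfGeo pvkgG.toPvkdPlug 𝔱) (hEs : 𝔱.Es false ⊆ pvkgEm)
    {m : ℕ} {t : τ} (hL : PvegLev 𝔓 m) (hT : pviwTyOk 𝔓 t) {O₀ : ℕ → Set ℂ} (hK : 𝔈.oK m t = pvegOKa 𝔓 O₀ m t) (hO : O₀ m = pvthSim 0 (pvlmDel c m : ℂ) '' pvkgO) {ε : ℝ} (hε : ε ≠ 0) (z : ℂ) :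
    PvdpEnd ε (pvjeO 𝔓 𝔈 w m ε z t).D (pvjeO 𝔓 𝔈 w m ε z t).K (pvjeO 𝔓 𝔈 w m ε z t).G (pvdpPl (pvieZo 𝔓 m z t) ((𝔓.Γ m).dout t * pvlmDel c m) (𝔓.col t) (pvhfS pvkgG.toPvkdPlug 𝔱 false))
      {η | ∃ 𝔖 : PvwSt (pvieT η), PvilDoor (pvkdP (pvilRd 𝔓 m)) (𝔓.col t) η (pvieZo 𝔓 m z t) ((𝔓.Γ m).dout t) 𝔖}
      (pvthSim (pvieZo 𝔓 m z t) ((𝔓.Γ m).dout t * pvlmDel c m) '' 𝔱.Ln false (𝔓.col t)) (pvthSim (pvieZo 𝔓 m z t) ((𝔓.Γ m).dout t * pvlmDel c m) '' 𝔱.Ln false (!𝔓.col t)) b0 :=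
  (pvdp_fr_end_k hU hk pvkgg_ze hG false m ε (𝔓.col t) (pvieZo 𝔓 m z t) (pvth_norm_of_pow (pveg_dout4 hL t)) (pvdp_rec_o_win hU hk hEs hL hT hK hO ε z)).loc_of
    (pvyo_rec_door_ae 𝔓 hU hk m hε (𝔓.col t) (pvieZo 𝔓 m z t) (pveg_dout4 hL t))

/-- **THE DOOR END OF THE LAST LINK** (`PvdpEnd`), plain plug of 116 -/
theorem pvdp_rec_i_end (hU : PvkmEng 𝔈 c U) (hk : ∀ e, U.kit e = (pvkgG.glob (pvhfH pvkgG.toPvkdPlug 𝔱)).kit (pvP e) b0 q) (hG : PvhfGeo pvkgG.toPvkdPlug 𝔱) (hEs : 𝔱.Es true ⊆ pvkgEp)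
    {m : ℕ} {t : τ} (hL : PvegLev 𝔓 m) (hT : pviwTyOk 𝔓 t) {O₀ : ℕ → Set ℂ} (hK : 𝔈.iK m t = pvegIKa 𝔓 O₀ m t) (hO : O₀ m = pvthSim 0 (pvlmDel c m : ℂ) '' pvkgO) {ε : ℝ} (hε : ε ≠ 0) (z : ℂ) :
    PvdpEnd ε (pvjeI 𝔓 𝔈 w m ε z t).D (pvjeI 𝔓 𝔈 w m ε z t).K (pvjeI 𝔓 𝔈 w m ε z t).G (pvdpPl (pvieZi 𝔓 m z t) ((𝔓.Γ m).din t * pvlmDel c m) (𝔓.col t) (pvhfS pvkgG.toPvkdPlug 𝔱 true))
      {η | ∃ 𝔖 : PvwSt (pvieT η), PvilDoor (pvkdP (pvilRd 𝔓 m)) (𝔓.col t) η (pvieZi 𝔓 m z t) ((𝔓.Γ m).din t) 𝔖}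
      (pvthSim (pvieZi 𝔓 m z t) ((𝔓.Γ m).din t * pvlmDel c m) '' 𝔱.Ln true (𝔓.col t)) (pvthSim (pvieZi 𝔓 m z t) ((𝔓.Γ m).din t * pvlmDel c m) '' 𝔱.Ln true (!𝔓.col t)) b0 :=
  (pvdp_fr_end_k hU hk pvkgg_ze hG true m ε (𝔓.col t) (pvieZi 𝔓 m z t) (pvth_norm_of_pow (pveg_din4 hL t)) (pvdp_rec_i_win hU hk hEs hL hT hK hO ε z)).loc_of
    (pvyo_rec_door_ae 𝔓 hU hk m hε (𝔓.col t) (pvieZi 𝔓 m z t) (pveg_din4 hL t))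

/-- **THE DOOR HALF OF `PvjeTest.Ok` AT THE FIRST LINK**: `Kb Kw` = ANY disjoint halves which contain the placed rooms off the door -/
theorem pvdp_rec_o (hU : PvkmEng 𝔈 c U) (hk : ∀ e, U.kit e = (pvkgG.glob (pvhfH pvkgG.toPvkdPlug 𝔱)).kit (pvP e) b0 q) (hG : PvhfGeo pvkgG.toPvkdPlug 𝔱) (hEs : 𝔱.Es false ⊆ pvkgEm)
    {m : ℕ} {t : τ} (hL : PvegLev 𝔓 m) (hT : pviwTyOk 𝔓 t) {O₀ : ℕ → Set ℂ} (hK : 𝔈.oK m t = pvegOKa 𝔓 O₀ m t) (hO : O₀ m = pvthSim 0 (pvlmDel c m : ℂ) '' pvkgO) {ε : ℝ} (hε : ε ≠ 0) (z : ℂ)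
    {Kb Kw : Set ℂ} (hd : Disjoint Kb Kw) (hb : pvthSim (pvieZo 𝔓 m z t) ((𝔓.Γ m).dout t * pvlmDel c m) '' 𝔱.Ln false (𝔓.col t) \ (pvjeO 𝔓 𝔈 w m ε z t).D ⊆ Kb)
    (hw : pvthSim (pvieZo 𝔓 m z t) ((𝔓.Γ m).dout t * pvlmDel c m) '' 𝔱.Ln false (!𝔓.col t) \ (pvjeO 𝔓 𝔈 w m ε z t).D ⊆ Kw) :
    PvjpDoor (pvjeO 𝔓 𝔈 w m ε z t) ε (pvdpPl (pvieZo 𝔓 m z t) ((𝔓.Γ m).dout t * pvlmDel c m) (𝔓.col t) (pvhfS pvkgG.toPvkdPlug 𝔱 false))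
      {η | ∃ 𝔖 : PvwSt (pvieT η), PvilDoor (pvkdP (pvilRd 𝔓 m)) (𝔓.col t) η (pvieZo 𝔓 m z t) ((𝔓.Γ m).dout t) 𝔖} b0 Kb Kw :=
  pvjp_door_of_end (pvdp_rec_o_end w hU hk hG hEs hL hT hK hO hε z) hd hb hw

/-- **THE DOOR HALF OF `PvjeTest.Ok` AT THE LAST LINK** -/
theorem pvdp_rec_i (hU : PvkmEng 𝔈 c U) (hk : ∀ e, U.kit e = (pvkgG.glob (pvhfH pvkgG.toPvkdPlug 𝔱)).kit (pvP e) b0 q) (hG : PvhfGeo pvkgG.toPvkdPlug 𝔱) (hEs : 𝔱.Es true ⊆ pvkgEp)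
    {m : ℕ} {t : τ} (hL : PvegLev 𝔓 m) (hT : pviwTyOk 𝔓 t) {O₀ : ℕ → Set ℂ} (hK : 𝔈.iK m t = pvegIKa 𝔓 O₀ m t) (hO : O₀ m = pvthSim 0 (pvlmDel c m : ℂ) '' pvkgO) {ε : ℝ} (hε : ε ≠ 0) (z : ℂ)
    {Kb Kw : Set ℂ} (hd : Disjoint Kb Kw) (hb : pvthSim (pvieZi 𝔓 m z t) ((𝔓.Γ m).din t * pvlmDel c m) '' 𝔱.Ln true (𝔓.col t) \ (pvjeI 𝔓 𝔈 w m ε z t).D ⊆ Kb)
    (hw : pvthSim (pvieZi 𝔓 m z t) ((𝔓.Γ m).din t * pvlmDel c m) '' 𝔱.Ln true (!𝔓.col t) \ (pvjeI 𝔓 𝔈 w m ε z t).D ⊆ Kw) :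
    PvjpDoor (pvjeI 𝔓 𝔈 w m ε z t) ε (pvdpPl (pvieZi 𝔓 m z t) ((𝔓.Γ m).din t * pvlmDel c m) (𝔓.col t) (pvhfS pvkgG.toPvkdPlug 𝔱 true))
      {η | ∃ 𝔖 : PvwSt (pvieT η), PvilDoor (pvkdP (pvilRd 𝔓 m)) (𝔓.col t) η (pvieZi 𝔓 m z t) ((𝔓.Γ m).din t) 𝔖} b0 Kb Kw :=
  pvjp_door_of_end (pvdp_rec_i_end w hU hk hG hEs hL hT hK hO hε z) hd hb hw

end thin

/-! ## 3. a reference type plug (ends `e`, `f`, `r`) -/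

section thick

variable {τ : Type} {c : ℝ} {𝔓 : PvxPar τ c} {𝔈 : PvieEng τ} {𝔭 : PvkdPlug} {𝔱 : PvhfTr} {b0 : ℝ≥0∞} (w : ∀ η : Conf PvPt, (delbPl (pvieY η)).Dart → ℂ)

theorem pvdp_fr_sh (z : ℂ) (s : ℂ) (S : Set ℂ) : pvieSh z (pvthSim 0 s '' S) = pvthSim z s '' S := by
  rw [pvjh_sh_sim, add_zero]

/-- **THE DOOR END AT A REFERENCE TYPE PLUG**: unit plug `𝔭` at ANY scale `s`, side `σ`, colour `b`, centre `z'`.      `mW hEw hsure hthr` = what is read of `rO`, `rG` (BY DEFINITION of `pvnaRG` of 31 / 124);   ONE region line `hC` -/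
theorem pvdp_fr_end_r (hG : PvhfGeo 𝔭 𝔱) (σ : Bool) {s : ℝ} (hs : 0 < s) {m : ℕ} {ε : ℝ} (mW : MeasurableSet (𝔈.rO m)) (hEw : pvthSim 0 (s : ℂ) '' 𝔭.Ew ⊆ 𝔈.rO m) {Cp : Set (Conf PvPt)} (mC : MeasurableSet Cp)
    (hsure : 𝔈.rG m ε ⊆ pvpgSure (pvP ε) (𝔈.rO m ×ˢ univ) (cfMap (pvthInv 0 (s : ℂ)) ⁻¹' Cp)) (hthr : 𝔈.rG m ε ⊆ pvpgThr (pvP ε) (𝔈.rO m ×ˢ univ) (cfMap (pvthInv 0 (s : ℂ)) ⁻¹' pvhfS 𝔭 𝔱 σ) b0)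
    (b : Bool) (z' : ℂ) {C : Set ℂ} (hC : pvthSim z' (s : ℂ) '' 𝔱.Es σ ⊆ pvieSh z' (𝔈.rO m) ∪ C) :
    PvdpEnd ε (pvieSh z' (𝔈.rO m)) C (pvrgGr 𝔈 m ε b z') (pvdpPl z' 1 b (cfMap (pvthInv 0 (s : ℂ)) ⁻¹' pvhfS 𝔭 𝔱 σ)) (pvdpPl z' 1 b (cfMap (pvthInv 0 (s : ℂ)) ⁻¹' Cp))
      (pvthSim z' (s : ℂ) '' 𝔱.Ln σ b) (pvthSim z' (s : ℂ) '' 𝔱.Ln σ (!b)) b0 := by
  have hs0 : (s : ℂ) ≠ 0 := Complex.ofReal_ne_zero.2 hs.ne'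
  have h0 := pvdp_end_scaled hG σ hs0 mW hEw mC (ε := ε) (G := 𝔈.rG m ε) (b := b0) hsure hthr
  have h1 := pvdp_end_r 𝔈 m ε b z' h0 (C := C) (by rw [pvdp_fr_sh]; exact hC)
  cases b
  · simp only [Bool.false_eq_true, if_false, pvdp_fr_sh] at h1
    exact h1
  · simp only [if_true, pvdp_fr_sh] at h1
    exact h1

/-- **THE DOOR HALF OF `PvjeTest.Ok` AT THE THICK LINK `reference plug → t`** (`σ = true`: the strand leaves the plug forwards) -/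
theorem pvdp_rec_e (hG : PvhfGeo 𝔭 𝔱) {s : ℝ} (hs : 0 < s) {m : ℕ} {ε : ℝ} (mW : MeasurableSet (𝔈.rO m)) (hEw : pvthSim 0 (s : ℂ) '' 𝔭.Ew ⊆ 𝔈.rO m) {Cp : Set (Conf PvPt)} (mC : MeasurableSet Cp)
    (hsure : 𝔈.rG m ε ⊆ pvpgSure (pvP ε) (𝔈.rO m ×ˢ univ) (cfMap (pvthInv 0 (s : ℂ)) ⁻¹' Cp)) (hthr : 𝔈.rG m ε ⊆ pvpgThr (pvP ε) (𝔈.rO m ×ˢ univ) (cfMap (pvthInv 0 (s : ℂ)) ⁻¹' pvhfS 𝔭 𝔱 true) b0)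
    (z : ℂ) (t : τ) (hC : pvthSim (pvieZu 𝔓 m z t) (s : ℂ) '' 𝔱.Es true ⊆ (pvjeE 𝔓 𝔈 w m ε z t).D ∪ (pvjeE 𝔓 𝔈 w m ε z t).K)
    {Kb Kw : Set ℂ} (hd : Disjoint Kb Kw) (hb : pvthSim (pvieZu 𝔓 m z t) (s : ℂ) '' 𝔱.Ln true (𝔓.col t) \ (pvjeE 𝔓 𝔈 w m ε z t).D ⊆ Kb)
    (hw : pvthSim (pvieZu 𝔓 m z t) (s : ℂ) '' 𝔱.Ln true (!𝔓.col t) \ (pvjeE 𝔓 𝔈 w m ε z t).D ⊆ Kw) :
    PvjpDoor (pvjeE 𝔓 𝔈 w m ε z t) ε (pvdpPl (pvieZu 𝔓 m z t) 1 (𝔓.col t) (cfMap (pvthInv 0 (s : ℂ)) ⁻¹' pvhfS 𝔭 𝔱 true)) (pvdpPl (pvieZu 𝔓 m z t) 1 (𝔓.col t) (cfMap (pvthInv 0 (s : ℂ)) ⁻¹' Cp)) b0 Kb Kw :=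
  pvjp_door_of_end (pvdp_fr_end_r hG true hs mW hEw mC hsure hthr (𝔓.col t) (pvieZu 𝔓 m z t) hC) hd hb hw

/-- ANY end whose plug is a reference type plug (ends `f`, `r`: `σ = false`) -/
theorem pvdp_rec_r {E : PvjeEnd} (hG : PvhfGeo 𝔭 𝔱) (σ : Bool) {s : ℝ} (hs : 0 < s) {m : ℕ} {ε : ℝ} (mW : MeasurableSet (𝔈.rO m)) (hEw : pvthSim 0 (s : ℂ) '' 𝔭.Ew ⊆ 𝔈.rO m) {Cp : Set (Conf PvPt)} (mC : MeasurableSet Cp)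
    (hsure : 𝔈.rG m ε ⊆ pvpgSure (pvP ε) (𝔈.rO m ×ˢ univ) (cfMap (pvthInv 0 (s : ℂ)) ⁻¹' Cp)) (hthr : 𝔈.rG m ε ⊆ pvpgThr (pvP ε) (𝔈.rO m ×ˢ univ) (cfMap (pvthInv 0 (s : ℂ)) ⁻¹' pvhfS 𝔭 𝔱 σ) b0)
    (b : Bool) (z' : ℂ) (hD : E.D = pvieSh z' (𝔈.rO m)) (hGE : E.G = pvrgGr 𝔈 m ε b z') (hC : pvthSim z' (s : ℂ) '' 𝔱.Es σ ⊆ E.D ∪ E.K)
    {Kb Kw : Set ℂ} (hd : Disjoint Kb Kw) (hb : pvthSim z' (s : ℂ) '' 𝔱.Ln σ b \ E.D ⊆ Kb) (hw : pvthSim z' (s : ℂ) '' 𝔱.Ln σ (!b) \ E.D ⊆ Kw) :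
    PvjpDoor E ε (pvdpPl z' 1 b (cfMap (pvthInv 0 (s : ℂ)) ⁻¹' pvhfS 𝔭 𝔱 σ)) (pvdpPl z' 1 b (cfMap (pvthInv 0 (s : ℂ)) ⁻¹' Cp)) b0 Kb Kw := by
  refine pvjp_door_of_end ?_ hd hb hw
  rw [hGE, hD]
  rw [hD] at hC
  exact pvdp_fr_end_r hG σ hs mW hEw mC hsure hthr b z' hC

/-- ANY end whose plug is a door plug of level `m` -/
theorem pvdp_rec_k {E : PvjeEnd} {U : PvkmUnit} {𝔤 : PvkdGeo} {q : ℝ≥0∞} (hU : PvkmEng 𝔈 c U) (hk : ∀ e, U.kit e = (𝔤.glob (pvhfH 𝔤.toPvkdPlug 𝔱)).kit (pvP e) b0 q) (G : PvzeGeo 𝔤) (hG : PvhfGeo 𝔤.toPvkdPlug 𝔱)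
    (σ : Bool) (m : ℕ) (ε : ℝ) (b : Bool) (z' : ℂ) {d : ℂ} (hd1 : ‖d‖ = 1) (hD : E.D = pvkyDoor (𝔈.kit m ε) z' d) (hGE : E.G = pvrgGk 𝔈 m ε b z' d) (hC : pvthSim z' (d * pvlmDel c m) '' 𝔱.Es σ ⊆ E.D ∪ E.K)
    {Kb Kw : Set ℂ} (hd : Disjoint Kb Kw) (hb : pvthSim z' (d * pvlmDel c m) '' 𝔱.Ln σ b \ E.D ⊆ Kb) (hw : pvthSim z' (d * pvlmDel c m) '' 𝔱.Ln σ (!b) \ E.D ⊆ Kw) :
    PvjpDoor E ε (pvdpPl z' (d * pvlmDel c m) b (pvhfS 𝔤.toPvkdPlug 𝔱 σ)) (pvdpPl z' (d * pvlmDel c m) b (𝔤.C 0 1)) b0 Kb Kw := by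
  refine pvjp_door_of_end ?_ hd hb hw
  rw [hGE, hD]
  rw [hD] at hC
  exact pvdp_fr_end_k hU hk G hG σ m ε b z' hd1 hC

end thick

end Claimed.Agent.R289
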