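-- KEEP
import Claimed.Agent.R289.Exit.FrcDefs

/-!
# Row 289 (S0537), THE WALL, ROAD E, file Exit/FrcEP : E10 FOR ONE HYBRID END AT ONE BASE = `pvje_frc` OF 35 (`Exit/FrcE.lean`), PROVED      (helper284, RACE; prefix `pvjx_`)

`pvjx_frc` = the statement of `pvje_frc` VERBATIM := the roof `pvlhg_forced` of 250 (`Tr/LinkG`) at `K D O := E.K E.D T.O`, `Wn := E.Wn (E.Hu η₀)`, `y₀ := E.y η₀`, `𝒩 := pvjeN E T ε`, `M := E.Pl Z ∩ {X = Loc}`.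
* `pvjx_N_sub`, `pvjx_N_meas`      the nice event: measurable, inside `pvjeN0`
* `pvjx_win`                       a good configuration is simple in every bounded window
* `pvjx_fin`                       the hypotheses of (DET) of 250 give a final configuration of 35
-/

set_option autoImplicit false

namespace Claimed.Agent.R289

open Set MeasureTheory Filter Topology Claims.C0465
open scoped ENNReal

theorem pvjx_N_sub (E : PvjeEnd) (T : PvjeTest) (ε : ℝ) : pvjeN E T ε ⊆ pvjeN0 E T ε := by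
  intro η hη
  by_contra hn
  exact hη (subset_toMeasurable _ _ hn)

theorem pvjx_N_meas (E : PvjeEnd) (T : PvjeTest) (ε : ℝ) : MeasurableSet (pvjeN E T ε) := (measurableSet_toMeasurable _ _).compl

theorem pvjx_win {η : Conf PvPt} (h : CfOK η) {O : Set ℂ} (hO : Bornology.IsBounded O) : PvayWin O η := by
  obtain ⟨R, hR⟩ := hO.subset_closedBall (0 : ℂ)
  have hf : (cfSites η ∩ O).Finite := (h.del.lf R).subset (inter_subset_inter_right _ hR)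
  rw [pvay_conf_of h.col]
  exact pvay_win_of hf _

/-- the hypotheses of (DET) in the `η`-form of 250 give a final configuration in the sense of 35 -/
theorem pvjx_fin {E : PvjeEnd} {T : PvjeTest} {ε : ℝ} {η₀ η : Conf PvPt} {τ : ℂ → Bool} (hN : η ∈ pvjeN E T ε)
    (hs : ∀ z ∈ E.Wn (E.Hu η₀), z ∉ E.K ∪ E.D → (z ∈ cfSites η ↔ z ∈ cfSites η₀))
    (hc : ∀ z ∈ cfSites η₀, z ∈ E.Wn (E.Hu η₀) → z ∉ E.K ∪ E.D → z ∉ E.y η₀ → cfCol η z = cfCol η₀ z) (hG : η ∈ E.G) (hH : η ∈ T.ℋ) (hK : cfOf (cfSites η) τ ∈ T.𝒦)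
    (hτ : ∀ z ∈ cfSites η, z ∈ E.Wn (E.Hu η₀) → (z ∈ E.K ∨ z ∈ E.y η₀) → cfCol η z = τ z) : PvjeFin E T η₀ η := by
  have hR := (pvjx_N_sub E T ε hN).1
  have hKp : ∀ z ∈ E.Kp (E.Hu η₀), z ∈ E.Wn (E.Hu η₀) ∧ z ∉ E.K ∪ E.D := fun z hz => ⟨Or.inl (Or.inl hz.1), hz.2⟩
  refine ⟨hR.1, hR.2.1, ?_, ?_, hG, hR.2.2 hG, hH, τ, hK, ?_⟩
  · ext z
    simp only [mem_inter_iff]
    exact and_congr_left fun hz => hs z (hKp z hz).1 (hKp z hz).2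
  · intro v hv hvy
    exact hc v hv.1 (hKp v hv.2).1 (hKp v hv.2).2 hvy
  · intro v hv hvK
    refine hτ v hv ?_ hvK
    rcases hvK with h | h
    · exact Or.inl (Or.inr h)
    · exact Or.inl (Or.inl (Or.inr h.1))

/-- **E10 FOR ONE HYBRID END, AT ONE BASE** = `pvje_frc` of 35, VERBATIM -/
theorem pvjx_frc {E : PvjeEnd} {T : PvjeTest} {ε : ℝ} (_hε : 0 < ε) {θ : ℝ≥0∞} (hE : E.Wf ε) (hT : T.Ok E ε) {yf : Conf PvPt → Set ℂ} (hyf : ∀ η₀ ∈ E.U, ∀ p, pvdyR (E.K ∪ E.D) yf η₀ p = E.R η₀ p)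
    {Mc : Set (Conf PvPt)} {η₀ : Conf PvPt} (hU : η₀ ∈ E.U) (hC : η₀ ∈ pvjeCert E T ε θ yf Mc) (hD : PvjeDet E T η₀) : η₀ ∈ E.Frc ε (T.t * (T.b - θ)) := by
  obtain ⟨hok, hcnt, hcert, -, hnice⟩ := hC
  have hfin : (E.Hu η₀).Finite := hE.fin η₀ hU
  have eZ : (↑hfin.toFinset : Set (ℤ × ℤ)) = E.Hu η₀ := hfin.coe_toFinset
  have eA : E.A ε η₀ = pvsuSure (pvP ε) (E.Wn (E.Hu η₀) ×ˢ univ) (E.Pl (E.Hu η₀) ∩ {η | E.X η = pvilLoc ε (E.Wn (E.Hu η₀)) (E.Pl (E.Hu η₀)) E.X η}) := by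
    unfold PvjeEnd.A pvilFin
    rw [if_pos hfin]
    rfl
  have mW : MeasurableSet (E.Wn (E.Hu η₀)) := (((hE.mWz _).union hE.mM).union hE.mK).union hE.mD
  have hOD : Disjoint T.O E.D := Set.disjoint_left.2 fun z hz hzD => by
    rcases hT.O_sub hz with h | h
    · exact Set.disjoint_left.1 hE.MD h hzD
    · exact Set.disjoint_left.1 hE.KD h hzD
  have hy : Disjoint (E.y η₀) (E.K ∪ E.D) := Set.disjoint_left.2 fun z hz hzC => by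
    rcases hzC with h | h
    · exact Set.disjoint_left.1 hE.MK hz.1 h
    · exact Set.disjoint_left.1 hE.MD hz.1 h
  have hKW : E.K ⊆ E.Wn (E.Hu η₀) := fun z hz => Or.inl (Or.inr hz)
  have hDW : E.D ⊆ E.Wn (E.Hu η₀) := fun z hz => Or.inr hz
  have hOW : T.O ⊆ E.Wn (E.Hu η₀) := fun z hz => by
    rcases hT.O_sub hz with h | h
    · exact Or.inl (Or.inl (Or.inr h))
    · exact Or.inl (Or.inr h)
  have nice : ∀ᵐ p ∂pvdyNu ε, ∀ᵐ ξ ∂pvP ε, Conf.spl (E.Wn (E.Hu η₀) ×ˢ (univ : Set Bool)) (pvdyR (E.K ∪ E.D) (fun _ => E.y η₀) η₀ p, ξ) ∈ pvjeN E T ε := by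
    have h1 := hnice hfin.toFinset
    rw [eZ] at h1
    filter_upwards [h1] with p hp
    rw [hyf η₀ hU p] at hp
    exact hp
  have key := pvlhg_forced (ε := ε) (K := E.K) (D := E.D) (O := T.O) (Wn := E.Wn (E.Hu η₀)) (y₀ := E.y η₀) hE.mK hE.mD hT.mO hT.bO mW hE.KD.symm hOD hy hKW hDW hOW
    (G := E.G) (ℋ := T.ℋ) (𝒦 := T.𝒦) (𝒩 := pvjeN E T ε) (M := E.Pl (E.Hu η₀) ∩ {η | E.X η = pvilLoc ε (E.Wn (E.Hu η₀)) (E.Pl (E.Hu η₀)) E.X η})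
    hE.rG hT.mH hT.rH hT.mK hT.rK (pvjx_N_meas E T ε) (t := T.t) (θ := θ) (b₀ := T.b) hT.thr (pvjx_win hok hT.bO) hcnt hcert nice
    (fun Y Fz s hY hrg hFz hDF hFK => by
      obtain ⟨η, hη, e⟩ := hrg
      exact hT.up η₀ Y Fz s hY ⟨η, (pvjx_N_sub E T ε hη).1.1, e⟩ hFz hDF hFK)
    (fun η τ hN hs hc hG hH hK hτ => by
      have hF : PvjeFin E T η₀ η := pvjx_fin hN hs hc hG hH hK hτ
      refine ⟨hD.ev η hF, ?_⟩
      have h2 := (pvjx_N_sub E T ε hN).2 hfin.toFinset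
      rw [eZ] at h2
      exact h2 ⟨η₀, rfl, hD, hF⟩)
  show ∀ᵐ p ∂pvdyNu ε, E.R η₀ p ∈ E.G → T.t * (T.b - θ) ≤ pvdyQ ε E.K (fun _ => E.y η₀) (E.A ε η₀) (E.R η₀ p)
  rw [eA]
  exact key

end Claimed.Agent.R289
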