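-- KEEP
import Claimed.Agent.R289.Tr.HookFA
import Claimed.Agent.R289.Tr.AtCylL
import Claimed.Agent.R289.Tr.InstEKR
import Claimed.Agent.R289.Exit.RefEnd
import Claimed.Agent.R289.Exit.GdRec
import Claimed.Agent.R289.Exit.ParGr

/-!
# Row 289 (S0537), THE WALL, ROAD E, E10, file Exit/FrcFA : **(b3) THE RUN OF THE THICK RETURN `f`, THE TERM END TO END AT THE ENGINE OF RECORD**      (helper99, ASSEMBLER, post XV of 243; prefix `pvq9_`, `Pvq9`)      0 sorry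

GLUE over `pvj8_evD` of 284 (`Tr/HookFA` sec. 5: DET.ev of an out-type hybrid link, ALL TIP CELLS), `Exit/RefEnd` of 31 (plug side at the record), `pvw7_pat_col` of 88, uniqueness of the end states (150 / 255 `pvkfl_out_same`, 132 `pvjk_door_uniq`).
* sec. 1  **`pvq9_run_of_A`** : `η ∈ L.A N b` (link `pin → door type plug`) + ANY exit half state `𝔖` of the pin + ANY door state `𝔖'`  ⟹  `∃ y n, L.Run b η 𝔖 𝔖' n ∧ LE`      (the shape of `pvif_l_run` of 196)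
* sec. 2  **`Pvq9Rt 𝔓 𝔈 𝔱 s μ₀ δ F m z t`** = ALL THAT (b3) OWES TO THE ROUTES `F` (STATE FREE, no configuration): numbers at the tip `PvhoTip` (266), regions `Pvj8LayD` (284), the two routes are in the pattern;
          **`pvq9_A`** : generic engine, `η`-form of 196  ⟹  `η ∈ (pvjtLf ..).A`, hull carried
* sec. 3  **`pvq9_run_rec`** : AT THE ENGINE OF RECORD, every number paid: `Pvq9Rt` + ONE certificate at the base + the lines of `PvifFin` + the mesh (b6)  ⟹  the conclusion of `pvif_l_run` VERBATIM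
-/

set_option autoImplicit false

namespace Claimed.Agent.R289

open Set Metric Claims.C0465

/-! ## 1. from the plain success to the run at the given states -/

/-- **THE RUN AT THE GIVEN END STATES**: the end states of a link `pin → door type plug` are unique in all that `Run` and `LE` read -/
theorem pvq9_run_of_A {L : PvilLk} {N : PvwNum} {b : Bool} {η : Conf PvPt} (h0 : L.dr = false) (h1 : L.dr' = true) (hfr : L.p.fr ≠ 0) (hA : η ∈ L.A N b)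
    {𝔖 𝔖' : PvwSt (pvieT η)} (hp : PvilOut N b L.p η 𝔖) (hd : PvilDoor (pvkdP L.p'.h) b η L.p'.z L.p'.fr 𝔖') :
    ∃ (y : (pvieT η).Pth) (n : ℕ), L.Run b η 𝔖 𝔖' n ∧ PvwLE (pvieT η) (fun i => (pvieT η).src (pvasIt (pvieT η) (pvieCol η b) 𝔖.dp i)) n y := by
  obtain ⟨𝔖₁, 𝔖₁', y, a1, a2, n, r, le⟩ := hA
  have e1 := pvkfl_out_same hfr ((PvilLk.atP_pin h0 _ _ _ _).1 a1) hp
  have e2 : 𝔖₁' = 𝔖' := pvjk_door_uniq ((PvilLk.atP'_door h1 _ _ _ _).1 a2) hd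
  subst e2
  refine ⟨y, n, ?_, ?_⟩
  · unfold PvilLk.Run at r ⊢
    rw [← e1.1.dp, ← e1.2.np]
    exact r
  · rw [← e1.1.dp]
    exact le

/-! ## 2. the contract on the routes; the plain success, generic engine -/

section gen

variable {τ : Type} {c : ℝ}

/-- **ALL THAT (b3) OF THE THICK RETURN OWES TO THE ROUTES** (no configuration, no state).   `𝔱`, `s` = truncation and scale of the side event of the reference plug, `μ₀` = mesh of the certificate at the base, `δ`, `F` = cell and list of the copy pattern.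
WITNESSES: small mouth `rs`, tip face `rt`, `e₀`, `ρl`, the two routes listed FROM THE TIP `eC β :: eN β :: tt β` (RELATIVE colour `β`), closing sets, door legs `eD β`, cut records.
`tip` = 8 number lines (266) | `lay` = the regions (284; payers 276 47 215) | `mem` = the routes are in the pattern with the ABSOLUTE colour `β == col t` -/
def Pvq9Rt (𝔓 : PvxPar τ c) (𝔈 : PvieEng τ) (𝔱 : PvhfTr) (s μ₀ δ : ℝ) (F : List (Bool × List (Set ℂ × ℂ × ℂ))) (m : ℕ) (z : ℂ) (t : τ) : Prop :=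
  ∃ (rs rt e₀ ρl : ℝ) (eC eN eD : Bool → Set ℂ × ℂ × ℂ) (tt : Bool → List (Set ℂ × ℂ × ℂ)) (Sg : Bool → Set ℂ) (jN jS : Bool → ℕ) (ζd : ℂ) (xc xa xb y0 y1 : Bool → ℝ),
    PvhoTip 𝔓 m t μ₀ rs rt ∧
    Pvj8LayD ⟨pvilPin 𝔓 m z t, pvilPlug (pvilRu 𝔈 m) (pvieZu 𝔓 m z t) 1, pvieSh z (𝔈.fY m t), univ, false, true⟩ 𝔓.num
      (pvieSh z (pvegOM 𝔓 m t) ∪ pvieSh z (𝔈.fK m t) ∪ pvieSh (pvieZu 𝔓 m z t) (𝔈.rO m)) ((pvieSh z (pvegOM 𝔓 m t) ∪ pvieSh z (𝔈.fK m t)) \ pvwSq z (pviwRad 𝔓 m t))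
      (pvilMu 𝔓 m) ((starRingEnd ℂ) ((𝔓.Γ m).dout t)) ((𝔓.ty t).cp (pvlmH m) z) rs μ₀ rt e₀ ρl δ eC eN eD tt Sg jN jS ζd
      (fun β => pvkdAt (pvieZu 𝔓 m z t) (1 * s) (𝔱.Ln false β)) (fun β => pvkdAt (pvieZu 𝔓 m z t) (1 * s) (𝔱.Dr false β)) xc xa xb y0 y1 ∧
    ∀ β, (β == 𝔓.col t, eC β :: eN β :: tt β) ∈ F

theorem pvq9_eqns_cite : True := by
  have := @Pvq9Rt.eq_1
  trivial

variable {𝔓 : PvxPar τ c} {𝔈 : PvieEng τ} {𝔭 : PvkdPlug} {𝔱 : PvhfTr} {s μ₀ δ : ℝ} {F : List (Bool × List (Set ℂ × ℂ × ℂ))} {m : ℕ} {z : ℂ} {t : τ} {ω η : Conf PvPt} {τ' : ℂ → Bool}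

/-- **THE PLAIN SUCCESS OF THE THICK RETURN AND THE HULL AT A FINAL CONFIGURATION**, generic engine, `η`-form of 196 -/
theorem pvq9_A (n : PvhoNum 𝔓) (hL : PvegLev 𝔓 m) (hT : pviwTyOk 𝔓 t) (hcp : ∀ x ∈ 𝔓.cp t, ‖x - (𝔓.ty t).yp‖ ≤ 𝔓.num.rho / 10) (hM : 𝔈.fM m t = pvegOM 𝔓 m t)
    (offC : Disjoint (pvieSh z (𝔈.fK m t) ∪ pvieSh (pvieZu 𝔓 m z t) (𝔈.rO m)) (pvieSh z (pviwBox 𝔓 m t)))
    (MC : Disjoint (pvieSh z (𝔈.fM m t)) (pvieSh z (𝔈.fK m t) ∪ pvieSh (pvieZu 𝔓 m z t) (𝔈.rO m)))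
    (hRt : Pvq9Rt 𝔓 𝔈 𝔱 s μ₀ δ F m z t)
    (hG : PvhfGeo 𝔭 𝔱) (hs0 : 0 < s) (hsc : 𝔭.sc s = pvkdP (pvilRu 𝔈 m)) (hside : η ∈ pvdpPl (pvieZu 𝔓 m z t) 1 (𝔓.col t) (pvurSc s (pvhfS 𝔭 𝔱 false)))
    (hpat : cfOf (cfSites η) τ' ∈ pvkqPat δ F)
    (cert : ω ∈ pvrgMesh μ₀ (closedBall z (2 * pviwRad 𝔓 m t + 4 * pvlmH m)))
    {𝔖₀ : PvwSt (pvieT ω)} (h₀ : PvilOut 𝔓.num (𝔓.col t) (pvilPin 𝔓 m z t) ω 𝔖₀)
    (hnice : PvatNice (cfSites η)) (hone : ∀ p ∈ η.pts, ∀ q ∈ η.pts, p.1 = q.1 → p = q)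
    (hmesh : η ∈ pvilMs 𝔓 m (pvjtWnf 𝔓 𝔈 (pvguRet 𝔈) m z t (pvilZo 𝔓 m z t ω)))
    (hs : ∀ a ∈ pvjtWnf 𝔓 𝔈 (pvguRet 𝔈) m z t (pvilZo 𝔓 m z t ω), a ∉ pvieSh z (𝔈.fK m t) ∪ pvieSh (pvieZu 𝔓 m z t) (𝔈.rO m) → (a ∈ cfSites η ↔ a ∈ cfSites ω))
    (hc : ∀ a ∈ cfSites ω, a ∈ pvjtWnf 𝔓 𝔈 (pvguRet 𝔈) m z t (pvilZo 𝔓 m z t ω) → a ∉ pvieSh z (𝔈.fK m t) ∪ pvieSh (pvieZu 𝔓 m z t) (𝔈.rO m) →
      a ∉ pvieSh z (𝔈.fM m t) \ pvilFo 𝔓 m z t ω → cfCol η a = cfCol ω a)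
    (hk : ∀ a ∈ cfSites η, a ∈ pvjtWnf 𝔓 𝔈 (pvguRet 𝔈) m z t (pvilZo 𝔓 m z t ω) → (a ∈ pvieSh z (𝔈.fK m t) ∨ a ∈ pvieSh z (𝔈.fM m t) \ pvilFo 𝔓 m z t ω) → cfCol η a = τ' a) :
    η ∈ (pvjtLf 𝔓 𝔈 (pvguRet 𝔈) m z t).A 𝔓.num (𝔓.col t) ∧ pvilZo 𝔓 m z t η = pvilZo 𝔓 m z t ω := by
  obtain ⟨rs, rt, e₀, ρl, eC, eN, eD, tt, Sg, jN, jS, ζd, xc, xa, xb, y0, y1, Θ, Λ, mem⟩ := hRt
  rw [pvur_end_T] at hside
  rw [hM] at MC hc hk
  refine pvj8_evD (Wn := pvjtWnf 𝔓 𝔈 (pvguRet 𝔈) m z t (pvilZo 𝔓 m z t ω)) n hL hT hcp Θ offC MC Λ hG norm_one hs0 hsc hside (fun β => pvw7_pat_col hpat (mem β)) cert h₀ hnice hone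
    (fun _ ha => Or.inl (Or.inl (Or.inl ha))) ?_ hmesh hs hc hk
  rintro a ((ha | ha) | ha)
  · exact Or.inl (Or.inl (Or.inr (by rw [show (pvguRet 𝔈).fM m t = 𝔈.fM m t from rfl, hM]; exact ha)))
  · exact Or.inl (Or.inr ha)
  · exact Or.inr ha

end gen

/-! ## 3. at the engine of record -/

section rec

variable {c : ℝ} {N : PvxNums} {m : ℕ} {δ : ℝ} {F : List (Bool × List (Set ℂ × ℂ × ℂ))} {ω η : Conf PvPt} {τ' : ℂ → Bool}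

/-- **(b3) + (b1) AT THE ENGINE OF RECORD: plain success and hull** -/
theorem pvq9_A_rec (c0 : 0 < c) (hN : N.Ok) (nb : PvnaNb N) (hm : (pvxParOf N hN c).m0 ≤ m) (z : ℂ) (t : pvxTau N)
    (hRt : Pvq9Rt (pvxParOf N hN c) (pvnaEngRec N hN c nb) (pvnaT N) (pvurSr (pvxParOf N hN c) m) (pvilMu (pvxParOf N hN c) m / 8) δ F m z t)
    (hside : η ∈ pvdpPl (pvieZu (pvxParOf N hN c) m z t) 1 ((pvxParOf N hN c).col t) (pvurSc (pvurSr (pvxParOf N hN c) m) (nb.Hf 2)))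
    (hpat : cfOf (cfSites η) τ' ∈ pvkqPat δ F)
    (cert : ω ∈ pvrgMesh (pvilMu (pvxParOf N hN c) m / 8) (closedBall z (2 * pviwRad (pvxParOf N hN c) m t + 4 * pvlmH m)))
    {𝔖₀ : PvwSt (pvieT ω)} (h₀ : PvilOut (pvxParOf N hN c).num ((pvxParOf N hN c).col t) (pvilPin (pvxParOf N hN c) m z t) ω 𝔖₀)
    (hnice : PvatNice (cfSites η)) (hone : ∀ p ∈ η.pts, ∀ q ∈ η.pts, p.1 = q.1 → p = q)
    (hmesh : η ∈ pvilMs (pvxParOf N hN c) m (pvjtWnf (pvxParOf N hN c) (pvnaEngRec N hN c nb) (pvguRet (pvnaEngRec N hN c nb)) m z t (pvilZo (pvxParOf N hN c) m z t ω)))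
    (hs : ∀ a ∈ pvjtWnf (pvxParOf N hN c) (pvnaEngRec N hN c nb) (pvguRet (pvnaEngRec N hN c nb)) m z t (pvilZo (pvxParOf N hN c) m z t ω),
      a ∉ pvieSh z ((pvnaEngRec N hN c nb).fK m t) ∪ pvieSh (pvieZu (pvxParOf N hN c) m z t) ((pvnaEngRec N hN c nb).rO m) → (a ∈ cfSites η ↔ a ∈ cfSites ω))
    (hc : ∀ a ∈ cfSites ω, a ∈ pvjtWnf (pvxParOf N hN c) (pvnaEngRec N hN c nb) (pvguRet (pvnaEngRec N hN c nb)) m z t (pvilZo (pvxParOf N hN c) m z t ω) →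
      a ∉ pvieSh z ((pvnaEngRec N hN c nb).fK m t) ∪ pvieSh (pvieZu (pvxParOf N hN c) m z t) ((pvnaEngRec N hN c nb).rO m) →
      a ∉ pvieSh z ((pvnaEngRec N hN c nb).fM m t) \ pvilFo (pvxParOf N hN c) m z t ω → cfCol η a = cfCol ω a)
    (hk : ∀ a ∈ cfSites η, a ∈ pvjtWnf (pvxParOf N hN c) (pvnaEngRec N hN c nb) (pvguRet (pvnaEngRec N hN c nb)) m z t (pvilZo (pvxParOf N hN c) m z t ω) →
      (a ∈ pvieSh z ((pvnaEngRec N hN c nb).fK m t) ∨ a ∈ pvieSh z ((pvnaEngRec N hN c nb).fM m t) \ pvilFo (pvxParOf N hN c) m z t ω) → cfCol η a = τ' a) :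
    η ∈ (pvjtLf (pvxParOf N hN c) (pvnaEngRec N hN c nb) (pvguRet (pvnaEngRec N hN c nb)) m z t).A (pvxParOf N hN c).num ((pvxParOf N hN c).col t) ∧
      pvilZo (pvxParOf N hN c) m z t η = pvilZo (pvxParOf N hN c) m z t ω := by
  obtain ⟨Cth, r, κs, H⟩ := (pvnr_wf (N := N) (hN := hN) c0 nb).wf
  have hT := pvea_tyOk hN (c := c) t
  have hd := H.th_disj m hm t hT
  simp only [List.pairwise_cons, List.mem_cons, List.not_mem_nil, or_false, forall_eq_or_imp, forall_eq, IsEmpty.forall_iff, implies_true, List.Pairwise.nil, and_true] at hd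
  refine pvq9_A (𝔭 := pvkgG.toPvkdPlug) (pvho_num_par hN c) ((pvea_par hN c0).lev hm) hT ?_ rfl (pvhq_off_f H hm hT) ?_ hRt (pvur_end_geo hN) (pvur_Sr_pos (𝔓 := pvxParOf N hN c) hN.rho0 m)
    (pvur_end_unit hN c nb m) hside hpat cert h₀ hnice hone hmesh hs hc hk
  · exact (pvea_par hN c0).cp_small t
  · rw [pvjh_ro_sh]
    exact Disjoint.union_right ((pvjh_sh_disj z).2 hd.2.2.1.1) ((pvjh_sh_disj z).2 hd.2.2.1.2)

/-- **(b3) AT THE ENGINE OF RECORD = THE CONCLUSION OF `pvif_l_run` OF 196 VERBATIM**, at ANY exit half state `𝔖` and ANY door state `𝔖'` of the final configuration -/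
theorem pvq9_run_rec (c0 : 0 < c) (hN : N.Ok) (nb : PvnaNb N) (hm : (pvxParOf N hN c).m0 ≤ m) (z : ℂ) (t : pvxTau N)
    (hRt : Pvq9Rt (pvxParOf N hN c) (pvnaEngRec N hN c nb) (pvnaT N) (pvurSr (pvxParOf N hN c) m) (pvilMu (pvxParOf N hN c) m / 8) δ F m z t)
    (hside : η ∈ pvdpPl (pvieZu (pvxParOf N hN c) m z t) 1 ((pvxParOf N hN c).col t) (pvurSc (pvurSr (pvxParOf N hN c) m) (nb.Hf 2)))
    (hpat : cfOf (cfSites η) τ' ∈ pvkqPat δ F)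
    (cert : ω ∈ pvrgMesh (pvilMu (pvxParOf N hN c) m / 8) (closedBall z (2 * pviwRad (pvxParOf N hN c) m t + 4 * pvlmH m)))
    {𝔖₀ : PvwSt (pvieT ω)} (h₀ : PvilOut (pvxParOf N hN c).num ((pvxParOf N hN c).col t) (pvilPin (pvxParOf N hN c) m z t) ω 𝔖₀)
    (hnice : PvatNice (cfSites η)) (hone : ∀ p ∈ η.pts, ∀ q ∈ η.pts, p.1 = q.1 → p = q)
    (hmesh : η ∈ pvilMs (pvxParOf N hN c) m (pvjtWnf (pvxParOf N hN c) (pvnaEngRec N hN c nb) (pvguRet (pvnaEngRec N hN c nb)) m z t (pvilZo (pvxParOf N hN c) m z t ω)))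
    (hs : ∀ a ∈ pvjtWnf (pvxParOf N hN c) (pvnaEngRec N hN c nb) (pvguRet (pvnaEngRec N hN c nb)) m z t (pvilZo (pvxParOf N hN c) m z t ω),
      a ∉ pvieSh z ((pvnaEngRec N hN c nb).fK m t) ∪ pvieSh (pvieZu (pvxParOf N hN c) m z t) ((pvnaEngRec N hN c nb).rO m) → (a ∈ cfSites η ↔ a ∈ cfSites ω))
    (hc : ∀ a ∈ cfSites ω, a ∈ pvjtWnf (pvxParOf N hN c) (pvnaEngRec N hN c nb) (pvguRet (pvnaEngRec N hN c nb)) m z t (pvilZo (pvxParOf N hN c) m z t ω) →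
      a ∉ pvieSh z ((pvnaEngRec N hN c nb).fK m t) ∪ pvieSh (pvieZu (pvxParOf N hN c) m z t) ((pvnaEngRec N hN c nb).rO m) →
      a ∉ pvieSh z ((pvnaEngRec N hN c nb).fM m t) \ pvilFo (pvxParOf N hN c) m z t ω → cfCol η a = cfCol ω a)
    (hk : ∀ a ∈ cfSites η, a ∈ pvjtWnf (pvxParOf N hN c) (pvnaEngRec N hN c nb) (pvguRet (pvnaEngRec N hN c nb)) m z t (pvilZo (pvxParOf N hN c) m z t ω) →
      (a ∈ pvieSh z ((pvnaEngRec N hN c nb).fK m t) ∨ a ∈ pvieSh z ((pvnaEngRec N hN c nb).fM m t) \ pvilFo (pvxParOf N hN c) m z t ω) → cfCol η a = τ' a)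
    {𝔖 𝔖' : PvwSt (pvieT η)} (h1 : PvilOut (pvxParOf N hN c).num ((pvxParOf N hN c).col t) (pvilPin (pvxParOf N hN c) m z t) η 𝔖)
    (h2 : PvilDoor (pvkdP (pvilRu (pvnaEngRec N hN c nb) m)) ((pvxParOf N hN c).col t) η (pvieZu (pvxParOf N hN c) m z t) 1 𝔖') :
    ∃ (y : (pvieT η).Pth) (n : ℕ), (pvjtLf (pvxParOf N hN c) (pvnaEngRec N hN c nb) (pvguRet (pvnaEngRec N hN c nb)) m z t).Run ((pvxParOf N hN c).col t) η 𝔖 𝔖' n ∧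
      PvwLE (pvieT η) (fun i => (pvieT η).src (pvasIt (pvieT η) (pvieCol η ((pvxParOf N hN c).col t)) 𝔖.dp i)) n y :=
  pvq9_run_of_A (L := pvjtLf (pvxParOf N hN c) (pvnaEngRec N hN c nb) (pvguRet (pvnaEngRec N hN c nb)) m z t) rfl rfl (by rw [show (pvjtLf (pvxParOf N hN c) (pvnaEngRec N hN c nb) (pvguRet (pvnaEngRec N hN c nb)) m z t).p.fr = 1 from rfl]; exact one_ne_zero)
    (pvq9_A_rec c0 hN nb hm z t hRt hside hpat cert h₀ hnice hone hmesh hs hc hk).1 h1 h2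

end rec

end Claimed.Agent.R289
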