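-- KEEP
import Claimed.Agent.R289.Exit.FrcIEv
import Claimed.Agent.R289.Exit.FrcIEvM
import Claimed.Agent.R289.Exit.ParEngY
import Claimed.Agent.R289.Exit.ParGr
import Claimed.Agent.R289.Exit.FrcOq

/-!
# Row 289 (S0537), THE WALL, ROAD E, E10 DET.ev AT THE LAST LINK, file Exit/FrcIEvR : `pviy_A` (`Exit/FrcIEv`) AT THE ENGINE OF RECORD AND THE TESTS OF 116      (helper19; prefix `pviy_`)

* sec. 1  **`pviy_room_c`** : the contract `PviyRoom` at the room with collar `pvegIYc` of 245 (room of record since EngRec v3)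
* sec. 2  **`pviy_ev_S`** = THE STATEMENT OF `exit_pvii_ev` (116, `Exit/FrcI`) for any side event `S ⊆ S⁺` (any truncation with the lanes of record) which carries the fine mesh of the door square;   **`pviy_ev`** = the same at `S = pvnaHf N 0`.      The mesh conjunct (b6) = `pvim9_mesh` of 46.
0 SORRY.
-/

set_option autoImplicit false
set_option linter.unusedSectionVars false
set_option linter.unusedVariables false

namespace Claimed.Agent.R289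

open Set Metric MeasureTheory Filter Topology Claims.C0465
open scoped ENNReal ComplexConjugate

/-! ## 1. the room with collar -/

section room

variable {τ : Type} {c : ℝ} {𝔓 : PvxPar τ c} {m : ℕ} {t : τ}

theorem pviy_S_sh (𝔓 : PvxPar τ c) (m : ℕ) (z : ℂ) (t : τ) (v : ℂ) : pvge2S ((𝔓.ty t).cm (pvlmH m) z) (-(𝔓.Γ m).din t) v = pvegS (pvegYm 𝔓 m t) (-(𝔓.Γ m).din t) (v - z) := by
  have := pvge3_S_sh z (pvegYm 𝔓 m t) (-(𝔓.Γ m).din t) (v - z)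
  rwa [add_sub_cancel] at this

theorem pviy_T_sh (𝔓 : PvxPar τ c) (m : ℕ) (z : ℂ) (t : τ) (v : ℂ) : |pvge2T ((𝔓.ty t).cm (pvlmH m) z) (-(𝔓.Γ m).din t) false v - pviyLam 𝔓 m t| =
    |pvegL (pvegYm 𝔓 m t) (-(𝔓.Γ m).din t) (v - z) - pvegL (pvegYm 𝔓 m t) (-(𝔓.Γ m).din t) ((𝔓.Γ m).pin t)| := by
  have h := pvge3_L_sh z (pvegYm 𝔓 m t) (-(𝔓.Γ m).din t) (v - z)
  rw [add_sub_cancel] at h
  have e : pvge2T ((𝔓.ty t).cm (pvlmH m) z) (-(𝔓.Γ m).din t) false v = pvge2Sg false * pvegL (pvegYm 𝔓 m t) (-(𝔓.Γ m).din t) (v - z) := by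
    show pvge2Sg false * pvegL (z + pvegYm 𝔓 m t) (-(𝔓.Γ m).din t) v = _
    rw [h]
  rw [e]
  unfold pviyLam
  rw [← mul_sub, abs_mul, pvge2_sg_abs, one_mul]

/-- **THE ROOM OF RECORD `pvegIYc` (245) HAS THE CONTRACT OF THE RUN** -/
theorem pviy_room_c (hL : PvegLev 𝔓 m) (hT : pviwTyOk 𝔓 t) (hf : 10000 * pvlmDel c m ≤ pvegR 𝔓 m) (h0 : 0 ≤ pvilMu 𝔓 m) (z : ℂ) : PviyRoom 𝔓 m z t (pvieSh z (pvegIYc 𝔓 m t)) where
  bdd := by
    have h : pvieSh z (pvegIYc 𝔓 m t) ⊆ closedBall (z + pvegYm 𝔓 m t) (pvegR 𝔓 m / 2) := (image_mono (pvey_iYc_bdd hL h0 hT)).trans (pveg_sh_ball _ _ _).subset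
    exact isBounded_closedBall.subset h
  co := by
    have h := pvey_iYc_hole hL h0 hT
    have e : (pvieSh z (pvegIYc 𝔓 m t))ᶜ = (fun w : ℂ => z + w) '' (pvegIYc 𝔓 m t)ᶜ := (Set.image_compl_eq (AddGroup.addLeft_bijective z)).symm
    rw [e]
    exact h.image _ (continuous_const.add continuous_id).continuousOn
  ball := by
    intro v hv
    have hδ := pvlm_Del_pos c m
    have hμ := pvey_mu_le (𝔓 := 𝔓) m
    rw [mem_closedBall, dist_eq_norm] at hv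
    refine pvge3_mem_sh.2 (pvey_mem_ball ?_)
    have e : v - z - pvegYm 𝔓 m t = v - (𝔓.ty t).cm (pvlmH m) z := by rw [pviy_cm]; ring
    rw [e]
    linarith
  fnl := by
    intro v h1 h2 h3
    have hδ := pvlm_Del_pos c m
    have hμ := pvey_mu_le (𝔓 := 𝔓) m
    have eq : pvge3Q c m = pvlmDel c m / 40 := rfl
    have eA : pvegA c m = pvlmDel c m / 160 := rfl
    rw [pviy_S_sh] at h1 h2
    rw [pviy_T_sh] at h3
    unfold pviySp at h2
    exact pvge3_mem_sh.2 (pvey_mem_fun (by linarith) (by linarith) (by linarith))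
  back := by
    intro v hv
    have h := pvey_iYc_front hL h0 hT (pvge3_mem_sh.1 hv)
    have hA := pveg_A_pos c m
    rw [pviy_S _ (pvieZi 𝔓 m z t) ((𝔓.Γ m).din t) v, pviy_S_Zi]
    have e : ((v - z - (𝔓.Γ m).pin t) * (starRingEnd ℂ) ((𝔓.Γ m).din t)).re = (conj ((𝔓.Γ m).din t) * v).re - (conj ((𝔓.Γ m).din t) * pvieZi 𝔓 m z t).re := by
      rw [← Complex.sub_re, ← mul_sub]
      congr 1
      unfold pvieZi
      ring
    rw [e] at h
    linarith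

end room

/-! ## 2. the statement of `exit_pvii_ev` -/

section rec

variable {N : PvxNums} (hN : N.Ok) {c : ℝ} (nb : PvnaNb N)

/-- the ball of the certificate of record contains the ball `B(cm, r)`, `r ≤ 3 h` -/
theorem pviy_ball_sub (c0 : 0 < c) {m : ℕ} (hm : (pvxParOf N hN c).m0 ≤ m) (z : ℂ) (t : pvxTau N) {r : ℝ} (hr : r ≤ 3 * pvlmH m) :
    closedBall (((pvxParOf N hN c).ty t).cm (pvlmH m) z) r ⊆ closedBall z (2 * pviwRad (pvxParOf N hN c) m t + 4 * pvlmH m) := by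
  obtain ⟨s1, s2, s3, s0⟩ := pvho_small (pvho_num_par hN c) m
  have hY := pvim9_Ym_le (c := c) hN m t
  have eR : pvegR (pvxParOf N hN c) m = (pvxParOf N hN c).num.rho * pvlmH m := rfl
  intro v hv
  rw [mem_closedBall_iff_norm] at hv ⊢
  rw [pviy_cm] at hv
  have h := norm_add_le (v - (z + pvegYm (pvxParOf N hN c) m t)) (pvegYm (pvxParOf N hN c) m t)
  have e : v - (z + pvegYm (pvxParOf N hN c) m t) + pvegYm (pvxParOf N hN c) m t = v - z := by ring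
  rw [e] at h
  linarith

theorem pviy_rec_O (m : ℕ) : (pvnaInRec N hN c nb).O0 m ⊆ pvccSq 0 (13 * pvge3Q c m / 4) := by
  have hδ := pvlm_Del_pos c m
  have eq : pvge3Q c m = pvlmDel c m / 40 := rfl
  rw [pvim9_O0 hN nb m]
  exact pvcc_sq_mono _ (by rw [eq]; linarith)

theorem pviy_rec_eO (m : ℕ) (ε : ℝ) : ((pvnaEngRec N hN c nb).kit m ε).O₀ = (pvnaInRec N hN c nb).O0 m := (pvnr_kit_O N hN c nb m ε).trans (pvnr_O0 N hN c nb m).symm

theorem pviy_rec_room (c0 : 0 < c) {m : ℕ} (hm : (pvxParOf N hN c).m0 ≤ m) (z : ℂ) (t : pvxTau N) : PviyRoom (pvxParOf N hN c) m z t (pvieSh z ((pvnaEngRec N hN c nb).iY m t)) := by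
  rw [pvnr_iY]
  exact pviy_room_c (pvqh_lev hN c0 hm) (pvqh_tyOk hN c t) (pvuo_fine hN c0 hm) (pvim9_Mu_pos (c := c) hN m).le z

theorem pviy_rec_box (c0 : 0 < c) {m : ℕ} (hm : (pvxParOf N hN c).m0 ≤ m) (z : ℂ) (t : pvxTau N) {η₀ : Conf PvPt} (hMc : η₀ ∈ pviiMc (pvxParOf N hN c) m z t) :
    η₀ ∈ pvrgMesh (pvilMu (pvxParOf N hN c) m / 20) (pvieSh z (pviwBox (pvxParOf N hN c) m t)) := by
  have hδ := pvlm_Del_pos c m
  have hh := pvlm_H_pos m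
  have hf := pvuo_fine hN c0 hm
  obtain ⟨s1, s2, s3, s0⟩ := pvho_small (pvho_num_par hN c) m
  have eR : pvegR (pvxParOf N hN c) m = (pvxParOf N hN c).num.rho * pvlmH m := rfl
  have hbox : pvieSh z (pviwBox (pvxParOf N hN c) m t) ⊆ closedBall z (2 * pviwRad (pvxParOf N hN c) m t + 4 * pvlmH m) := by
    rintro _ ⟨w, hw, rfl⟩
    have h1 := pvim9_sq_ball 0 _ hw
    rw [mem_closedBall_iff_norm] at h1 ⊢
    rw [sub_zero] at h1
    rw [add_sub_cancel_left]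
    linarith
  exact pvrg_mesh_mono hbox hMc

theorem pviy_rec_M (c0 : 0 < c) {m : ℕ} (hm : (pvxParOf N hN c).m0 ≤ m) (z : ℂ) (t : pvxTau N) {η₀ : Conf PvPt} (hMc : η₀ ∈ pviiMc (pvxParOf N hN c) m z t) :
    η₀ ∈ pvrgMesh (pvilMu (pvxParOf N hN c) m / 20) (pvieSh z ((pvnaEngRec N hN c nb).iM m t)) := by
  have hh := pvlm_H_pos m
  obtain ⟨s1, s2, s3, s0⟩ := pvho_small (pvho_num_par hN c) m
  refine pvrg_mesh_mono ?_ hMc
  rw [pvnr_iM, pvho_iM]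
  exact pviy_ball_sub hN c0 hm z t (by linarith)

theorem pviy_rec_big (c0 : 0 < c) {m : ℕ} (hm : (pvxParOf N hN c).m0 ≤ m) (z : ℂ) (t : pvxTau N) {η₀ : Conf PvPt} (hMc : η₀ ∈ pviiMc (pvxParOf N hN c) m z t) :
    VorDense (pvieY η₀) (closedBall (((pvxParOf N hN c).ty t).cm (pvlmH m) z) ((pvxParOf N hN c).num.rho2 * pvlmH m + 3 * (pvilMu (pvxParOf N hN c) m / 20))) (pvilMu (pvxParOf N hN c) m / 20) := by
  have hδ := pvlm_Del_pos c m
  have hh := pvlm_H_pos m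
  have hμ := pvim9_Mu_le (c := c) hN m
  have hμ0 := pvim9_Mu_pos (c := c) hN m
  have hf := pvuo_fine hN c0 hm
  obtain ⟨s1, s2, s3, s0⟩ := pvho_small (pvho_num_par hN c) m
  have eR : pvegR (pvxParOf N hN c) m = (pvxParOf N hN c).num.rho * pvlmH m := rfl
  have hMc' : VorDense (cfSites η₀) (pvtrCore (pvilMu (pvxParOf N hN c) m / 20) (closedBall z (2 * pviwRad (pvxParOf N hN c) m t + 4 * pvlmH m))) (pvilMu (pvxParOf N hN c) m / 20) := hMc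
  intro v hv
  refine hMc' v (fun u hu => pviy_ball_sub hN c0 hm z t (r := (pvxParOf N hN c).num.rho2 * pvlmH m + 4 * (pvilMu (pvxParOf N hN c) m / 20)) (by linarith) ?_)
  rw [mem_closedBall] at hv hu ⊢
  have := dist_triangle u v (((pvxParOf N hN c).ty t).cm (pvlmH m) z)
  linarith

/-- **[DET.ev] (b1) (b2) (b3) AT THE ENGINE OF RECORD** -/
theorem pviy_A_rec {S : Set (Conf PvPt)} {𝔱 : PvhfTr} (hG : PvhfGeo (pvkdP (1 / 40)) 𝔱) (hLn : 𝔱.Ln = (pvhfT (1 / 40)).Ln) (hDr : 𝔱.Dr = (pvhfT (1 / 40)).Dr) (hS : S ⊆ pvhfS (pvkdP (1 / 40)) 𝔱 true)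
    (c0 : 0 < c) (q₀ : ℝ) {m : ℕ} (hm : (pvxParOf N hN c).m0 ≤ m) (ε : ℝ) (z : ℂ) (t : pvxTau N)
    {η₀ : Conf PvPt} (hU : η₀ ∈ pvilUi (pvxParOf N hN c).num ((pvxParOf N hN c).col t) (pvilPin (pvxParOf N hN c) m z t)) (hMc : η₀ ∈ pviiMc (pvxParOf N hN c) m z t)
    {η : Conf PvPt} (hF : PvjeFin (pvjeI (pvxParOf N hN c) (pvnaEngRec N hN c nb) pvilQ m ε z t) (pviiT (pvxParOf N hN c) (pvnaEngRec N hN c nb) S q₀ nb.b m z t) η₀ η) :
    η ∈ (pvilLi (pvxParOf N hN c) (pvnaEngRec N hN c nb) m z t).A (pvxParOf N hN c).num ((pvxParOf N hN c).col t) ∧ pvilZi (pvxParOf N hN c) m z t η = pvilZi (pvxParOf N hN c) m z t η₀ := by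
  have hδ := pvlm_Del_pos c m
  have hμ := pvim9_Mu_le (c := c) hN m
  have hμ0 := pvim9_Mu_pos (c := c) hN m
  have eq : pvge3Q c m = pvlmDel c m / 40 := rfl
  have h3 : 3 * (pvilMu (pvxParOf N hN c) m / 20) ≤ pvlmDel c m := by linarith
  have hK : (pviiT (pvxParOf N hN c) (pvnaEngRec N hN c nb) S q₀ nb.b m z t).𝒦 ⊆ pvkqPat (pvge3Dl c m) (pvge3PatI (pvxParOf N hN c) m z t) := inter_subset_left
  have hM : ∀ ξ ∈ (pviiT (pvxParOf N hN c) (pvnaEngRec N hN c nb) S q₀ nb.b m z t).𝒦,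
      PvtrMesh (pviiRho (pvxParOf N hN c) m) (pvieSh z ((pvnaEngRec N hN c nb).iM m t) ∪ pvieSh z ((pvnaEngRec N hN c nb).iK m t)) (cfSites ξ) := fun ξ hξ => hξ.2.2
  have hH : (pviiT (pvxParOf N hN c) (pvnaEngRec N hN c nb) S q₀ nb.b m z t).ℋ ⊆
      pvdpPl (pvieZi (pvxParOf N hN c) m z t) (((pvxParOf N hN c).Γ m).din t * pvlmDel c m) ((pvxParOf N hN c).col t) (pvhfS (pvkdP (1 / 40)) 𝔱 true) := pvdp_Pl_mono _ _ _ hS
  exact pviy_A (pvho_num_par hN c) (pvqh_lev hN c0 hm) (pvqh_tyOk hN c t) (pvuo_fine hN c0 hm) (pvqh_cm hN c t)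
    (pvnr_iM N hN c nb m t) (pvnr_iK N hN c nb m t) (pviy_rec_eO hN nb m ε) (pviy_rec_O hN nb m) (pviy_rec_room hN nb c0 hm z t)
    (μ₀ := pvilMu (pvxParOf N hN c) m / 20) (μ₁ := pviiRho (pvxParOf N hN c) m) (by positivity) h3 (pvjv_carf_hr (pvxParOf N hN c) (pvxo_wf N hN c).toWfB h3 t)
    (by unfold pviiRho; positivity) (by unfold pviiRho; rw [eq]; linarith)
    (pviy_rec_box hN c0 hm z t hMc) (pviy_rec_M hN nb c0 hm z t hMc) (pviy_rec_big hN c0 hm z t hMc) hK hM hG hLn hDr hH hU hF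

/-- **[DET.ev] OF THE LAST LINK AT THE ENGINE OF RECORD**, any side event `S ⊆ S⁺` of a truncation with the lanes of record, which carries the fine mesh of the door square -/
theorem pviy_ev_S {S : Set (Conf PvPt)} {𝔱 : PvhfTr} (hG : PvhfGeo (pvkdP (1 / 40)) 𝔱) (hLn : 𝔱.Ln = (pvhfT (1 / 40)).Ln) (hDr : 𝔱.Dr = (pvhfT (1 / 40)).Dr) (hS : S ⊆ pvhfS (pvkdP (1 / 40)) 𝔱 true)
    (hHf : ∀ σ ∈ S, PvtrMesh (pvwyMu N.rho3) pvkgO (cfSites σ)) (c0 : 0 < c) (q₀ : ℝ) {m : ℕ} (hm : (pvxParOf N hN c).m0 ≤ m) (ε : ℝ) (z : ℂ) (t : pvxTau N)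
    {η₀ : Conf PvPt} (hU : η₀ ∈ pvilUi (pvxParOf N hN c).num ((pvxParOf N hN c).col t) (pvilPin (pvxParOf N hN c) m z t)) (hMc : η₀ ∈ pviiMc (pvxParOf N hN c) m z t)
    {η : Conf PvPt} (hF : PvjeFin (pvjeI (pvxParOf N hN c) (pvnaEngRec N hN c nb) pvilQ m ε z t) (pviiT (pvxParOf N hN c) (pvnaEngRec N hN c nb) S q₀ nb.b m z t) η₀ η) :
    η ∈ pvilMi (pvxParOf N hN c) (pvnaEngRec N hN c nb) m ε z t (pvilZi (pvxParOf N hN c) m z t η₀) := by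
  have hA := pviy_A_rec hN nb hG hLn hDr hS c0 q₀ hm ε z t hU hMc hF
  exact ⟨⟨hA.1, hA.2⟩, pvim9_mesh hN nb q₀ c0 hm hHf hMc hF⟩

/-- **THE STATEMENT OF `exit_pvii_ev`** (116, `Exit/FrcI`) VERBATIM -/
theorem pviy_ev (c0 : 0 < c) (q₀ : ℝ) {m : ℕ} (hm : (pvxParOf N hN c).m0 ≤ m) (z : ℂ) (t : pvxTau N) :
    ∀ᶠ ε in 𝓝[>] (0 : ℝ), ∀ η₀ ∈ pvilUi (pvxParOf N hN c).num ((pvxParOf N hN c).col t) (pvilPin (pvxParOf N hN c) m z t), η₀ ∈ pviiMc (pvxParOf N hN c) m z t → CfOK η₀ →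
      ∀ η, PvjeFin (pvjeI (pvxParOf N hN c) (pvnaEngRec N hN c nb) pvilQ m ε z t) (pviiT (pvxParOf N hN c) (pvnaEngRec N hN c nb) (pvnaHf N 0) q₀ nb.b m z t) η₀ η →
        η ∈ pvilMi (pvxParOf N hN c) (pvnaEngRec N hN c nb) m ε z t (pvilZi (pvxParOf N hN c) m z t η₀) :=
  Eventually.of_forall fun ε η₀ hU hMc _ η hF =>
    pviy_ev_S hN nb (𝔱 := pvnaT N) (pvna_geo hN) rfl rfl (pvna_Hf_S N 0).subset (fun _ h => pvna_Hf_mesh N h) c0 q₀ hm ε z t hU hMc hF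

end rec

end Claimed.Agent.R289
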