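-- KEEP
import Claimed.Agent.R289.Exit.FrcDefs
import Claimed.Agent.R289.Exit.GoodEM
import Claimed.Agent.R289.Exit.FrcOG
import Claimed.Agent.R289.Tr.FrcDoor
import Claimed.Agent.R289.Tr.FrcPat
import Claimed.Agent.R289.Tr.DoorSoft
import Claimed.Agent.R289.Exit.FrcODefs
import Claimed.Agent.R289.Exit.FrcIDefs
import Claimed.Agent.R289.Exit.FrcOq
import Claimed.Agent.R289.Exit.ParGr
import Claimed.Agent.R289.Tr.FrcLayE
import Claimed.Agent.R289.Tr.PatMs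

/-!
# Row 289 (S0537), THE WALL, ROAD E, E10, file Exit/FrcOK : THE DOOR HALF OF `PvjeTest.Ok` AT THE FIRST LINK `t → door plug` = `exit_pvj0_door` OF `Exit/FrcO`, GENERIC IN THE ENGINE AND IN THE SIDE EVENT      (helper171; prefix `pvj2_`, `pvj2`, `Pvj2`)      0 sorry

SEC. 1-5: NO NAME OF `Exit/EngRec`, NO NAME OF `Exit/FrcODefs`: they survive the swap (B) of R24 (sec. 6 = the four lines at the record).   WHAT IS READ OF THE ENGINE: `hU : PvkmEng 𝔈 c U`, `hk : ∀ e, U.kit e = (pvkgG.glob Hf).kit (pvP e) b0 q`, `hK : 𝔈.oK m t = pvegOKa 𝔓 O₀ m t`, `hO : O₀ m = δ_m pvkgO`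
(at the engine of record: `pvnr_num N hN c nb`, `fun _ => rfl`, `pvnr_oK ..`, `pvnr_O0 ..`);   OF THE SIDE EVENT `Hf 2`: the record `Pvj2Side` (Borel, exact reader of the OPEN window `pvkgEm`, up in the label free order of 77 with the rooms of `pvhfT (1/40)`).
* sec. 1  model free geometry: `pvj2_rt₁ pvj2_rt₂` (beyond `S(p) - 5q` a route of record of 298 stays at `≥ q/8` on ITS side of the axis of the door), `pvj2_lane` (a room of a half lane off the door square: `|y| ≥ r/2` on its side)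
* sec. 2  THE TWO HALVES OF THE MIXED ORDER OF THE LINK: `pvj2A` (placed room off the door), **`pvj2Kb`, `pvj2Kw`**, `pvj2_A_coord`, **`pvj2_disj`** : `Disjoint Kb Kw` (the four cases: room x room, room x route of the other colour (twice), route x route `pvjp_rm_disj` of 248)
* sec. 3  `Pvj2Side S`, producers **`pvj2_side_geo`** (`S = pvhfS pvkgG.toPvkdPlug 𝔱 false`, ANY truncation with `PvhfGeo`, `𝔱.Es false ⊆ pvkgEm`, `𝔱.Ln false = (pvhfT (1/40)).Ln false`: `pvhfT (1/40)` (`pvuf_Es` of 278), `pvk2T`, `pvk2T.fine μ pvkgO`), `Pvj2Side.inter` (`∩` a Borel clause read in the door square: wrapper form)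
* sec. 4  **`pvj2_end`** : `PvdpEnd` of 77 at the first link (`mH rH up thr loc`; `rH` := `pvo4_o_win` of 144, `loc` := `pvyo_rec_door_ae` of 173),   **`pvj2_doorH`** : `PvjpDoor (pvjeO 𝔓 𝔈 w m ε z t) ε ℋ Cd b0 Kb Kw` of 248,
          **`pvj2_door_ex`** = the statement of `exit_pvj0_door` (211, `Exit/FrcO`) with `pvnaHf 2` replaced by `Hf 2`
* sec. 5  THE MIRROR AT THE LAST LINK `door plug → t` (`pvjeI`, `S⁺ = Hf 0`, window `pvkgEp`, tile `pvegIKa`, pattern `pvge3PatI`, outer normal `- din`): `pvj2B`, **`pvj2Ib`, `pvj2Iw`**, **`pvj2_disj_i`**, `Pvj2SideP`, `pvj2_sideP_geo`, **`pvj2_end_i`**, **`pvj2_doorH_i`**, **`pvj2_door_ex_i`**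
* sec. 6  AT THE ENGINE OF RECORD (v3 of `Exit/EngRec`, AFTER (B) of R24): `pvj2_side_rec hN : Pvj2Side (pvnaHf N 2)`, `pvj2_sideP_rec hN : Pvj2SideP (pvnaHf N 0)` (`:= pvj2_side_geo (pvna_geo hN) Subset.rfl rfl`),
          **`pvj2_door_rec`** = `exit_pvj0_door` (`Exit/FrcO`) VERBATIM,   **`pvj2_up_rec_i`** = `exit_pvii_up` (`Exit/FrcI`) VERBATIM,   `pvj2_doorH_rec_i` (`mH rH thr loc up` at `i`)
-/

set_option autoImplicit false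

namespace Claimed.Agent.R289

open Set MeasureTheory Filter Topology Claims.C0465
open scoped ENNReal

/-! ## 1. model free geometry -/

section geo

variable {Y u : ℂ} {up : Bool} {r δ q dl ρ b μ Sp lam : ℝ}

/-- near the door the inner route of record stays on its own side of the axis of the door -/
theorem pvj2_rt₁ (R : Pvge2Rec r δ q dl ρ b μ Sp lam) {v : ℂ}
    (hv : v ∈ pvkqRtR (pvge2Rt Y u up (27 * r / 200) (r / 200) (23 * r / 200) (23 * r / 200) (3 * r / 20) (Sp - 29 * q / 8) (q / 8) (lam + q / 4))) (hS : Sp - 5 * q ≤ pvge2S Y u v) :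
    lam + q / 8 ≤ pvge2T Y u up v := by
  have h1 := R.δ0; have h3 := R.fine; have h8 := R.s_lo; have h9 := abs_le.1 R.lat; have h10 := R.qδ; have h11 := R.q0
  rw [pvge2_Rt_R] at hv
  rcases hv with ((((hv | hv) | hv) | hv) | hv) | hv
  · exact absurd hv.2.1 (by linarith)
  · exact absurd hv.2.1 (by linarith)
  · exact absurd hv.2.1 (by linarith)
  · exact absurd hv.2.1 (by linarith)
  · have := hv.2.2.1
    linarith [h9.2]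
  · have := hv.2.2.1
    linarith

/-- the outer route -/
theorem pvj2_rt₂ (R : Pvge2Rec r δ q dl ρ b μ Sp lam) {v : ℂ}
    (hv : v ∈ pvkqRtR (pvge2Rt Y u up (4 * r / 25) (r / 200) (23 * r / 200) (23 * r / 200) (3 * r / 20) (Sp - 29 * q / 8) (q / 8) (lam + q / 4))) (hS : Sp - 5 * q ≤ pvge2S Y u v) :
    lam + q / 8 ≤ pvge2T Y u up v := by
  have h1 := R.δ0; have h3 := R.fine; have h8 := R.s_lo; have h9 := abs_le.1 R.lat; have h10 := R.qδ; have h11 := R.q0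
  rw [pvge2_Rt_R] at hv
  rcases hv with ((((hv | hv) | hv) | hv) | hv) | hv
  · exact absurd hv.2.1 (by linarith)
  · exact absurd hv.2.1 (by linarith)
  · exact absurd hv.2.1 (by linarith)
  · exact absurd hv.2.1 (by linarith)
  · have := hv.2.2.1
    linarith [h9.2]
  · have := hv.2.2.1
    linarith

/-- the room of a half lane of the entrance side, off the door square -/
theorem pvj2_lane {β : Bool} {w : ℂ} (hw : w ∈ (pvhfT (1 / 40)).Ln false β) (hO : w ∉ pvkgO) :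
    -(5 / 40) ≤ w.re ∧ (if β then 1 / 80 ≤ w.im else w.im ≤ -(1 / 80)) := by
  cases β
  · rcases hw with ⟨a1, a2, a3, a4⟩ | ⟨a1, a2, a3, a4⟩
    · exact absurd (show w ∈ pvkgO from ⟨by linarith, by linarith, by linarith, by linarith⟩) hO
    · exact ⟨by linarith, by simp only [Bool.false_eq_true, if_false]; linarith⟩
  · rcases hw with ⟨a1, a2, a3, a4⟩ | ⟨a1, a2, a3, a4⟩
    · exact absurd (show w ∈ pvkgO from ⟨by linarith, by linarith, by linarith, by linarith⟩) hO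
    · exact ⟨by linarith, by simp only [if_true]; linarith⟩

end geo

/-! ## 2. the two halves of the mixed order -/

section rooms

variable {τ : Type} {c : ℝ} (𝔓 : PvxPar τ c)

/-- the placed room of the half lane of REFERENCE colour `β` of the side event `S⁻` of the exit door, off the door region -/
def pvj2A (m : ℕ) (z : ℂ) (t : τ) (β : Bool) : Set ℂ :=
  pvthSim (pvieZo 𝔓 m z t) ((𝔓.Γ m).dout t * pvlmDel c m) '' (pvhfT (1 / 40)).Ln false β \ pvthSim (pvieZo 𝔓 m z t) ((𝔓.Γ m).dout t * pvlmDel c m) '' pvkgO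

/-- **the black half of the mixed order of the first link** -/
def pvj2Kb (m : ℕ) (z : ℂ) (t : τ) : Set ℂ := pvj2A 𝔓 m z t (𝔓.col t) ∪ pvjpRm true (pvge3PatO 𝔓 m z t)

/-- **the white half of the mixed order of the first link** -/
def pvj2Kw (m : ℕ) (z : ℂ) (t : τ) : Set ℂ := pvj2A 𝔓 m z t (!𝔓.col t) ∪ pvjpRm false (pvge3PatO 𝔓 m z t)

theorem pvj2_eqns_cite : True := by
  have := @pvj2A.eq_1; have := @pvj2Kb.eq_1; have := @pvj2Kw.eq_1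
  trivial

variable {𝔓} {m : ℕ} {t : τ}

/-- coordinates of a point of a placed room, in the frame of the mouth -/
theorem pvj2_A_coord (hL : PvegLev 𝔓 m) (hT : pviwTyOk 𝔓 t) {z : ℂ} {β : Bool} {v : ℂ} (hv : v ∈ pvj2A 𝔓 m z t β) :
    pvegS (pvegYp 𝔓 m t) ((𝔓.Γ m).dout t) ((𝔓.Γ m).pout t) - 5 * pvge3Q c m ≤ pvegS (z + pvegYp 𝔓 m t) ((𝔓.Γ m).dout t) v ∧
      (if β then pvegL (pvegYp 𝔓 m t) ((𝔓.Γ m).dout t) ((𝔓.Γ m).pout t) + pvge3Q c m / 2 ≤ pvegL (z + pvegYp 𝔓 m t) ((𝔓.Γ m).dout t) v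
        else pvegL (z + pvegYp 𝔓 m t) ((𝔓.Γ m).dout t) v ≤ pvegL (pvegYp 𝔓 m t) ((𝔓.Γ m).dout t) ((𝔓.Γ m).pout t) - pvge3Q c m / 2) := by
  obtain ⟨⟨w, hw, rfl⟩, hO⟩ := hv
  have hu := (pveg_door_o hL hT).u4
  have hδ := pvlm_Del_pos c m
  obtain ⟨h1, h2⟩ := pvj2_lane hw fun h => hO ⟨w, h, rfl⟩
  unfold pvieZo
  rw [pvo4_S_at hu, pvo4_L_at hu, pvge3_S_sh, pvge3_L_sh]
  unfold pvge3Q
  refine ⟨by nlinarith, ?_⟩
  cases β
  · simp only [Bool.false_eq_true, if_false] at h2 ⊢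
    nlinarith
  · simp only [if_true] at h2 ⊢
    nlinarith

/-- **ONE MIXED ORDER**: relative colours -/
theorem pvj2_disj_b (hL : PvegLev 𝔓 m) (hT : pviwTyOk 𝔓 t) (hf : 10000 * pvlmDel c m ≤ pvegR 𝔓 m) (z : ℂ) (b : Bool) :
    Disjoint (pvj2A 𝔓 m z t b ∪ pvjpRm true (pvge3PatOb 𝔓 b m z t)) (pvj2A 𝔓 m z t (!b) ∪ pvjpRm false (pvge3PatOb 𝔓 b m z t)) := by
  have R := pvge3_rec_o hL hT hf (ρ := 0) (b := 0) (μ := 0) le_rfl (pvlm_Del_pos c m).le (by norm_num) (by have := pveg_R_pos hL; linarith)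
  have hq := pvge3_q_pos c m
  have hfit := pvge3_fit_ob hL hT hf b z
  have e := pvjp_rm_two b (pvge2Rt (z + pvegYp 𝔓 m t) ((𝔓.Γ m).dout t) true (27 * pvegR 𝔓 m / 200) (pvegR 𝔓 m / 200) (23 * pvegR 𝔓 m / 200) (23 * pvegR 𝔓 m / 200) (3 * pvegR 𝔓 m / 20)
      (pvegS (pvegYp 𝔓 m t) ((𝔓.Γ m).dout t) ((𝔓.Γ m).pout t) - 29 * pvge3Q c m / 8) (pvge3Q c m / 8) (pvge2Sg true * pvegL (pvegYp 𝔓 m t) ((𝔓.Γ m).dout t) ((𝔓.Γ m).pout t) + pvge3Q c m / 4))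
    (pvge2Rt (z + pvegYp 𝔓 m t) ((𝔓.Γ m).dout t) (!true) (4 * pvegR 𝔓 m / 25) (pvegR 𝔓 m / 200) (23 * pvegR 𝔓 m / 200) (23 * pvegR 𝔓 m / 200) (3 * pvegR 𝔓 m / 20)
      (pvegS (pvegYp 𝔓 m t) ((𝔓.Γ m).dout t) ((𝔓.Γ m).pout t) - 29 * pvge3Q c m / 8) (pvge3Q c m / 8) (-(pvge2Sg true * pvegL (pvegYp 𝔓 m t) ((𝔓.Γ m).dout t) ((𝔓.Γ m).pout t)) + pvge3Q c m / 4))
  have s1 : pvge2Sg true = 1 := by simp [pvge2Sg]
  have s2 : pvge2Sg false = -1 := by simp [pvge2Sg]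
  -- the route of the colour `b` near the door
  have r1 : ∀ v ∈ pvjpRm b (pvge3PatOb 𝔓 b m z t), pvegS (pvegYp 𝔓 m t) ((𝔓.Γ m).dout t) ((𝔓.Γ m).pout t) - 5 * pvge3Q c m ≤ pvegS (z + pvegYp 𝔓 m t) ((𝔓.Γ m).dout t) v →
      pvegL (pvegYp 𝔓 m t) ((𝔓.Γ m).dout t) ((𝔓.Γ m).pout t) + pvge3Q c m / 8 ≤ pvegL (z + pvegYp 𝔓 m t) ((𝔓.Γ m).dout t) v := by
    intro v hv hS
    have hv' := e.1.subset hv
    have h := pvj2_rt₁ R hv' hS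
    rw [pvge3_T, s1, one_mul, one_mul] at h
    exact h
  have r2 : ∀ v ∈ pvjpRm (!b) (pvge3PatOb 𝔓 b m z t), pvegS (pvegYp 𝔓 m t) ((𝔓.Γ m).dout t) ((𝔓.Γ m).pout t) - 5 * pvge3Q c m ≤ pvegS (z + pvegYp 𝔓 m t) ((𝔓.Γ m).dout t) v →
      pvegL (z + pvegYp 𝔓 m t) ((𝔓.Γ m).dout t) v ≤ pvegL (pvegYp 𝔓 m t) ((𝔓.Γ m).dout t) ((𝔓.Γ m).pout t) - pvge3Q c m / 8 := by
    intro v hv hS
    have hv' := e.2.subset hv
    have h := pvj2_rt₂ R.flip hv' hS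
    rw [pvge3_T, s1, one_mul] at h
    simp only [Bool.not_true, s2] at h
    linarith
  have key : Disjoint (pvj2A 𝔓 m z t true ∪ pvjpRm b (pvge3PatOb 𝔓 b m z t)) (pvj2A 𝔓 m z t false ∪ pvjpRm (!b) (pvge3PatOb 𝔓 b m z t)) := by
    refine disjoint_left.2 fun v h1 h2 => ?_
    rcases h1 with h1 | h1 <;> rcases h2 with h2 | h2
    · have a1 := (pvj2_A_coord hL hT h1).2
      have a2 := (pvj2_A_coord hL hT h2).2
      simp only [if_true, Bool.false_eq_true, if_false] at a1 a2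
      linarith
    · have a1 := pvj2_A_coord hL hT h1
      have a2 := r2 v h2 a1.1
      have a3 := a1.2
      simp only [if_true] at a3
      linarith
    · have a1 := pvj2_A_coord hL hT h2
      have a2 := r1 v h1 a1.1
      have a3 := a1.2
      simp only [Bool.false_eq_true, if_false] at a3
      linarith
    · cases b
      · exact disjoint_left.1 (pvjp_rm_disj hfit) h2 h1
      · exact disjoint_left.1 (pvjp_rm_disj hfit) h1 h2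
  cases b
  · exact key.symm
  · exact key

theorem pvj2_disj (hL : PvegLev 𝔓 m) (hT : pviwTyOk 𝔓 t) (hf : 10000 * pvlmDel c m ≤ pvegR 𝔓 m) (z : ℂ) : Disjoint (pvj2Kb 𝔓 m z t) (pvj2Kw 𝔓 m z t) :=
  pvj2_disj_b hL hT hf z (𝔓.col t)

end rooms

/-! ## 3. what is read of the side event -/

/-- **what the door half reads of the side event `S⁻` of the reference frame** -/
structure Pvj2Side (S : Set (Conf PvPt)) : Prop where
  mS : MeasurableSet S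
  rS : Conf.ReadsSet (pvkgEm ×ˢ (univ : Set Bool)) S
  uS : PvdpUp pvkgEm pvkgO ((pvhfT (1 / 40)).Ln false true) ((pvhfT (1 / 40)).Ln false false) S

/-- **the side event of ANY truncation at the open window** -/
theorem pvj2_side_geo {𝔱 : PvhfTr} (hG : PvhfGeo pvkgG.toPvkdPlug 𝔱) (hEs : 𝔱.Es false ⊆ pvkgEm) (hLn : 𝔱.Ln false = (pvhfT (1 / 40)).Ln false) : Pvj2Side (pvhfS pvkgG.toPvkdPlug 𝔱 false) where
  mS := (pvhf_S_is hG false).meas (hG.wf false)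
  rS := (pvhf_rS hG false).mono (prod_mono hEs le_rfl)
  uS := by
    have h := (pvhf_S_is hG false).pvdp_up (hG.wf false)
    have h' : PvdpUp (𝔱.Es false) pvkgG.Ew (𝔱.Ln false true) (𝔱.Ln false false) (pvhfS pvkgG.toPvkdPlug 𝔱 false) := h
    rw [hLn] at h'
    exact h'.mono hEs pvkgg_ze.EO subset_union_right subset_union_right

/-- one more Borel clause read in the door square (the wrapper form of the fine mesh) -/
theorem Pvj2Side.inter {S B : Set (Conf PvPt)} (h : Pvj2Side S) (mB : MeasurableSet B) (rB : Conf.ReadsSet (pvkgO ×ˢ (univ : Set Bool)) B) : Pvj2Side (S ∩ B) where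
  mS := h.mS.inter mB
  rS := h.rS.inter (rB.mono (prod_mono subset_union_left Subset.rfl))
  uS := h.uS.inter (pvdp_up_reads rB _ _ _)

/-! ## 4. the door half at the model -/

section model

variable {τ : Type} {c : ℝ} {𝔓 : PvxPar τ c} {𝔈 : PvieEng τ} {U : PvkmUnit} {Hf : Fin 4 → Set (Conf PvPt)} {b0 q : ℝ≥0∞} {O₀ : ℕ → Set ℂ} {m : ℕ} {t : τ}

/-- the region of the door plug of level `m`, at an engine whose unit kit is the kit of the datum of record -/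
theorem pvj2_door (hU : PvkmEng 𝔈 c U) (hk : ∀ e, U.kit e = (pvkgG.glob Hf).kit (pvP e) b0 q) (m : ℕ) (ε : ℝ) (z d : ℂ) : pvieDoor 𝔈 m ε z d = pvthSim z (d * pvlmDel c m) '' pvkgO := by
  have h := pvdp_door hU m ε z d
  rw [hk] at h
  exact h

/-- **THE DOOR END OF THE FIRST LINK** (record of 77) -/
theorem pvj2_end (hU : PvkmEng 𝔈 c U) (hk : ∀ e, U.kit e = (pvkgG.glob Hf).kit (pvP e) b0 q) (hS : Pvj2Side (Hf 2))
    (hL : PvegLev 𝔓 m) (hT : pviwTyOk 𝔓 t) (hK : 𝔈.oK m t = pvegOKa 𝔓 O₀ m t) (hO : O₀ m = pvthSim 0 (pvlmDel c m : ℂ) '' pvkgO) (z : ℂ) {ε : ℝ} (hε : 0 < ε) :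
    PvdpEnd ε (pvieDoor 𝔈 m ε (pvieZo 𝔓 m z t) ((𝔓.Γ m).dout t)) (pvieSh z (𝔈.oK m t)) (pvrgGk 𝔈 m ε (𝔓.col t) (pvieZo 𝔓 m z t) ((𝔓.Γ m).dout t))
      (pvdpPl (pvieZo 𝔓 m z t) ((𝔓.Γ m).dout t * pvlmDel c m) (𝔓.col t) (Hf 2)) {η | ∃ 𝔖 : PvwSt (pvieT η), PvilDoor (pvkdP (pvilRd 𝔓 m)) (𝔓.col t) η (pvieZo 𝔓 m z t) ((𝔓.Γ m).dout t) 𝔖}
      (pvthSim (pvieZo 𝔓 m z t) ((𝔓.Γ m).dout t * pvlmDel c m) '' (pvhfT (1 / 40)).Ln false (𝔓.col t))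
      (pvthSim (pvieZo 𝔓 m z t) ((𝔓.Γ m).dout t * pvlmDel c m) '' (pvhfT (1 / 40)).Ln false (!𝔓.col t)) b0 := by
  have hd4 : (𝔓.Γ m).dout t ^ 4 = 1 := (pveg_door_o hL hT).u4
  have hd : ‖(𝔓.Γ m).dout t‖ = 1 := pveg_norm_unit hd4
  have ha := pvdp_a_ne hd c m
  have eD := pvj2_door hU hk m ε (pvieZo 𝔓 m z t) ((𝔓.Γ m).dout t)
  have hwin : pvthSim (pvieZo 𝔓 m z t) ((𝔓.Γ m).dout t * pvlmDel c m) '' pvkgEm ⊆ pvieDoor 𝔈 m ε (pvieZo 𝔓 m z t) ((𝔓.Γ m).dout t) ∪ pvieSh z (𝔈.oK m t) := by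
    have h := pvo4_o_win hL hT hO z
    rw [hO, pvo4_sim_sim] at h
    rw [eD, hK]
    exact h
  refine ⟨pvdp_meas _ _ _ hS.mS, (pvdp_reads _ _ ha _ hS.rS).mono (prod_mono hwin Subset.rfl), ?_, ?_, ?_⟩
  · have h := (hS.uS.pl (pvieZo 𝔓 m z t) _ ha (𝔓.col t)).mono hwin eD.ge subset_union_right subset_union_right
    have e1 : (if 𝔓.col t then (pvhfT (1 / 40)).Ln false true else (pvhfT (1 / 40)).Ln false false) = (pvhfT (1 / 40)).Ln false (𝔓.col t) := by cases 𝔓.col t <;> rfl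
    have e2 : (if 𝔓.col t then (pvhfT (1 / 40)).Ln false false else (pvhfT (1 / 40)).Ln false true) = (pvhfT (1 / 40)).Ln false (!𝔓.col t) := by cases 𝔓.col t <;> rfl
    rw [e1, e2] at h
    exact h
  · refine pvdp_thr_k hU m ε (𝔓.col t) (pvieZo 𝔓 m z t) ((𝔓.Γ m).dout t) hd ?_
    rw [hk]
    exact pvdp_glob_thr (pvkgG.glob Hf) _ b0 q 2
  · exact pvyo_rec_door_ae 𝔓 hU hk m hε.ne' (𝔓.col t) (pvieZo 𝔓 m z t) hd4

/-- **THE DOOR HALF OF `PvjeTest.Ok` AT THE FIRST LINK** (record of 248), at the halves of record -/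
theorem pvj2_doorH (hU : PvkmEng 𝔈 c U) (hk : ∀ e, U.kit e = (pvkgG.glob Hf).kit (pvP e) b0 q) (hS : Pvj2Side (Hf 2))
    (hL : PvegLev 𝔓 m) (hT : pviwTyOk 𝔓 t) (hf : 10000 * pvlmDel c m ≤ pvegR 𝔓 m) (hK : 𝔈.oK m t = pvegOKa 𝔓 O₀ m t) (hO : O₀ m = pvthSim 0 (pvlmDel c m : ℂ) '' pvkgO)
    (w : ∀ η : Conf PvPt, (delbPl (pvieY η)).Dart → ℂ) (z : ℂ) {ε : ℝ} (hε : 0 < ε) :
    PvjpDoor (pvjeO 𝔓 𝔈 w m ε z t) ε (pvdpPl (pvieZo 𝔓 m z t) ((𝔓.Γ m).dout t * pvlmDel c m) (𝔓.col t) (Hf 2))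
      {η | ∃ 𝔖 : PvwSt (pvieT η), PvilDoor (pvkdP (pvilRd 𝔓 m)) (𝔓.col t) η (pvieZo 𝔓 m z t) ((𝔓.Γ m).dout t) 𝔖} b0 (pvj2Kb 𝔓 m z t) (pvj2Kw 𝔓 m z t) := by
  have eD := pvj2_door hU hk m ε (pvieZo 𝔓 m z t) ((𝔓.Γ m).dout t)
  refine pvjp_door_of_end (E := pvjeO 𝔓 𝔈 w m ε z t) (pvj2_end hU hk hS hL hT hK hO z hε) (pvj2_disj hL hT hf z) ?_ ?_
  · show _ \ pvieDoor 𝔈 m ε (pvieZo 𝔓 m z t) ((𝔓.Γ m).dout t) ⊆ _
    rw [eD]
    exact subset_union_left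
  · show _ \ pvieDoor 𝔈 m ε (pvieZo 𝔓 m z t) ((𝔓.Γ m).dout t) ⊆ _
    rw [eD]
    exact subset_union_left

/-- **THE STATEMENT OF `exit_pvj0_door`** (`Exit/FrcO`, 211), generic in the engine and in the side event -/
theorem pvj2_door_ex (hU : PvkmEng 𝔈 c U) (hk : ∀ e, U.kit e = (pvkgG.glob Hf).kit (pvP e) b0 q) (hS : Pvj2Side (Hf 2))
    (hL : PvegLev 𝔓 m) (hT : pviwTyOk 𝔓 t) (hf : 10000 * pvlmDel c m ≤ pvegR 𝔓 m) (hK : 𝔈.oK m t = pvegOKa 𝔓 O₀ m t) (hO : O₀ m = pvthSim 0 (pvlmDel c m : ℂ) '' pvkgO)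
    (w : ∀ η : Conf PvPt, (delbPl (pvieY η)).Dart → ℂ) (z : ℂ) {ε : ℝ} (hε : 0 < ε) :
    ∃ Kb Kw : Set ℂ, Disjoint Kb Kw ∧ pvjpRm true (pvge3PatO 𝔓 m z t) ⊆ Kb ∧ pvjpRm false (pvge3PatO 𝔓 m z t) ⊆ Kw ∧
      PvjpDoor (pvjeO 𝔓 𝔈 w m ε z t) ε (pvdpPl (pvieZo 𝔓 m z t) ((𝔓.Γ m).dout t * pvlmDel c m) (𝔓.col t) (Hf 2))
        {η | ∃ 𝔖 : PvwSt (pvieT η), PvilDoor (pvkdP (pvilRd 𝔓 m)) (𝔓.col t) η (pvieZo 𝔓 m z t) ((𝔓.Γ m).dout t) 𝔖} b0 Kb Kw :=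
  ⟨pvj2Kb 𝔓 m z t, pvj2Kw 𝔓 m z t, pvj2_disj hL hT hf z, subset_union_right, subset_union_right, pvj2_doorH hU hk hS hL hT hf hK hO w z hε⟩

end model

/-! ## 5. THE MIRROR: the last link `door plug → t` -/

/-- the room of a half lane of the exit side, off the door square -/
theorem pvj2_laneP {β : Bool} {w : ℂ} (hw : w ∈ (pvhfT (1 / 40)).Ln true β) (hO : w ∉ pvkgO) :
    w.re ≤ 5 / 40 ∧ (if β then 1 / 80 ≤ w.im else w.im ≤ -(1 / 80)) := by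
  cases β
  · rcases hw with ⟨a1, a2, a3, a4⟩ | ⟨a1, a2, a3, a4⟩
    · exact absurd (show w ∈ pvkgO from ⟨by linarith, by linarith, by linarith, by linarith⟩) hO
    · exact ⟨by linarith, by simp only [Bool.false_eq_true, if_false]; linarith⟩
  · rcases hw with ⟨a1, a2, a3, a4⟩ | ⟨a1, a2, a3, a4⟩
    · exact absurd (show w ∈ pvkgO from ⟨by linarith, by linarith, by linarith, by linarith⟩) hO
    · exact ⟨by linarith, by simp only [if_true]; linarith⟩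

section roomsI

variable {τ : Type} {c : ℝ} (𝔓 : PvxPar τ c)

/-- the placed room of the half lane of REFERENCE colour `β` of the side event `S⁺` of the entrance door, off the door region -/
def pvj2B (m : ℕ) (z : ℂ) (t : τ) (β : Bool) : Set ℂ :=
  pvthSim (pvieZi 𝔓 m z t) ((𝔓.Γ m).din t * pvlmDel c m) '' (pvhfT (1 / 40)).Ln true β \ pvthSim (pvieZi 𝔓 m z t) ((𝔓.Γ m).din t * pvlmDel c m) '' pvkgO

/-- **the black half of the mixed order of the last link** -/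
def pvj2Ib (m : ℕ) (z : ℂ) (t : τ) : Set ℂ := pvj2B 𝔓 m z t (𝔓.col t) ∪ pvjpRm true (pvge3PatI 𝔓 m z t)

/-- **the white half of the mixed order of the last link** -/
def pvj2Iw (m : ℕ) (z : ℂ) (t : τ) : Set ℂ := pvj2B 𝔓 m z t (!𝔓.col t) ∪ pvjpRm false (pvge3PatI 𝔓 m z t)

theorem pvj2_eqns_cite2 : True := by
  have := @pvj2B.eq_1; have := @pvj2Ib.eq_1; have := @pvj2Iw.eq_1
  trivial

variable {𝔓} {m : ℕ} {t : τ}

/-- coordinates of a point of a placed room, in the frame of the entrance mouth (outer normal `- din`) -/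
theorem pvj2_B_coord (hL : PvegLev 𝔓 m) (hT : pviwTyOk 𝔓 t) {z : ℂ} {β : Bool} {v : ℂ} (hv : v ∈ pvj2B 𝔓 m z t β) :
    pvegS (pvegYm 𝔓 m t) (-(𝔓.Γ m).din t) ((𝔓.Γ m).pin t) - 5 * pvge3Q c m ≤ pvegS (z + pvegYm 𝔓 m t) (-(𝔓.Γ m).din t) v ∧
      (if β then pvegL (z + pvegYm 𝔓 m t) (-(𝔓.Γ m).din t) v ≤ pvegL (pvegYm 𝔓 m t) (-(𝔓.Γ m).din t) ((𝔓.Γ m).pin t) - pvge3Q c m / 2
        else pvegL (pvegYm 𝔓 m t) (-(𝔓.Γ m).din t) ((𝔓.Γ m).pin t) + pvge3Q c m / 2 ≤ pvegL (z + pvegYm 𝔓 m t) (-(𝔓.Γ m).din t) v) := by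
  obtain ⟨⟨w, hw, rfl⟩, hO⟩ := hv
  have hu := (pveg_door_i hL hT).u4
  have hδ := pvlm_Del_pos c m
  obtain ⟨h1, h2⟩ := pvj2_laneP hw fun h => hO ⟨w, h, rfl⟩
  have e : pvthSim (pvieZi 𝔓 m z t) ((𝔓.Γ m).din t * pvlmDel c m) w = pvthSim (z + (𝔓.Γ m).pin t) (-(𝔓.Γ m).din t * pvlmDel c m) (-w) := by
    unfold pvthSim pvieZi
    ring
  rw [e, pvo4_S_at hu, pvo4_L_at hu, pvge3_S_sh, pvge3_L_sh, Complex.neg_re, Complex.neg_im]
  unfold pvge3Q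
  refine ⟨by nlinarith, ?_⟩
  cases β
  · simp only [Bool.false_eq_true, if_false] at h2 ⊢
    nlinarith
  · simp only [if_true] at h2 ⊢
    nlinarith

/-- **ONE MIXED ORDER**: relative colours -/
theorem pvj2_disj_ib (hL : PvegLev 𝔓 m) (hT : pviwTyOk 𝔓 t) (hf : 10000 * pvlmDel c m ≤ pvegR 𝔓 m) (z : ℂ) (b : Bool) :
    Disjoint (pvj2B 𝔓 m z t b ∪ pvjpRm true (pvge3PatIb 𝔓 b m z t)) (pvj2B 𝔓 m z t (!b) ∪ pvjpRm false (pvge3PatIb 𝔓 b m z t)) := by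
  have R := pvge3_rec_i hL hT hf (ρ := 0) (b := 0) (μ := 0) le_rfl (pvlm_Del_pos c m).le (by norm_num) (by have := pveg_R_pos hL; linarith)
  have hq := pvge3_q_pos c m
  have hfit := pvge3_fit_ib hL hT hf b z
  have e := pvjp_rm_two b (pvge2Rt (z + pvegYm 𝔓 m t) (-(𝔓.Γ m).din t) false (27 * pvegR 𝔓 m / 200) (pvegR 𝔓 m / 200) (23 * pvegR 𝔓 m / 200) (23 * pvegR 𝔓 m / 200) (3 * pvegR 𝔓 m / 20)
      (pvegS (pvegYm 𝔓 m t) (-(𝔓.Γ m).din t) ((𝔓.Γ m).pin t) - 29 * pvge3Q c m / 8) (pvge3Q c m / 8) (pvge2Sg false * pvegL (pvegYm 𝔓 m t) (-(𝔓.Γ m).din t) ((𝔓.Γ m).pin t) + pvge3Q c m / 4))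
    (pvge2Rt (z + pvegYm 𝔓 m t) (-(𝔓.Γ m).din t) (!false) (4 * pvegR 𝔓 m / 25) (pvegR 𝔓 m / 200) (23 * pvegR 𝔓 m / 200) (23 * pvegR 𝔓 m / 200) (3 * pvegR 𝔓 m / 20)
      (pvegS (pvegYm 𝔓 m t) (-(𝔓.Γ m).din t) ((𝔓.Γ m).pin t) - 29 * pvge3Q c m / 8) (pvge3Q c m / 8) (-(pvge2Sg false * pvegL (pvegYm 𝔓 m t) (-(𝔓.Γ m).din t) ((𝔓.Γ m).pin t)) + pvge3Q c m / 4))
  have s1 : pvge2Sg true = 1 := by simp [pvge2Sg]
  have s2 : pvge2Sg false = -1 := by simp [pvge2Sg]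
  have r1 : ∀ v ∈ pvjpRm b (pvge3PatIb 𝔓 b m z t), pvegS (pvegYm 𝔓 m t) (-(𝔓.Γ m).din t) ((𝔓.Γ m).pin t) - 5 * pvge3Q c m ≤ pvegS (z + pvegYm 𝔓 m t) (-(𝔓.Γ m).din t) v →
      pvegL (z + pvegYm 𝔓 m t) (-(𝔓.Γ m).din t) v ≤ pvegL (pvegYm 𝔓 m t) (-(𝔓.Γ m).din t) ((𝔓.Γ m).pin t) - pvge3Q c m / 8 := by
    intro v hv hS
    have hv' := e.1.subset hv
    have h := pvj2_rt₁ R hv' hS
    rw [pvge3_T, s2] at h
    linarith
  have r2 : ∀ v ∈ pvjpRm (!b) (pvge3PatIb 𝔓 b m z t), pvegS (pvegYm 𝔓 m t) (-(𝔓.Γ m).din t) ((𝔓.Γ m).pin t) - 5 * pvge3Q c m ≤ pvegS (z + pvegYm 𝔓 m t) (-(𝔓.Γ m).din t) v →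
      pvegL (pvegYm 𝔓 m t) (-(𝔓.Γ m).din t) ((𝔓.Γ m).pin t) + pvge3Q c m / 8 ≤ pvegL (z + pvegYm 𝔓 m t) (-(𝔓.Γ m).din t) v := by
    intro v hv hS
    have hv' := e.2.subset hv
    have h := pvj2_rt₂ R.flip hv' hS
    rw [pvge3_T, s2] at h
    simp only [Bool.not_false, s1] at h
    linarith
  have key : Disjoint (pvj2B 𝔓 m z t true ∪ pvjpRm b (pvge3PatIb 𝔓 b m z t)) (pvj2B 𝔓 m z t false ∪ pvjpRm (!b) (pvge3PatIb 𝔓 b m z t)) := by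
    refine disjoint_left.2 fun v h1 h2 => ?_
    rcases h1 with h1 | h1 <;> rcases h2 with h2 | h2
    · have a1 := (pvj2_B_coord hL hT h1).2
      have a2 := (pvj2_B_coord hL hT h2).2
      simp only [if_true, Bool.false_eq_true, if_false] at a1 a2
      linarith
    · have a1 := pvj2_B_coord hL hT h1
      have a2 := r2 v h2 a1.1
      have a3 := a1.2
      simp only [if_true] at a3
      linarith
    · have a1 := pvj2_B_coord hL hT h2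
      have a2 := r1 v h1 a1.1
      have a3 := a1.2
      simp only [Bool.false_eq_true, if_false] at a3
      linarith
    · cases b
      · exact disjoint_left.1 (pvjp_rm_disj hfit) h2 h1
      · exact disjoint_left.1 (pvjp_rm_disj hfit) h1 h2
  cases b
  · exact key.symm
  · exact key

theorem pvj2_disj_i (hL : PvegLev 𝔓 m) (hT : pviwTyOk 𝔓 t) (hf : 10000 * pvlmDel c m ≤ pvegR 𝔓 m) (z : ℂ) : Disjoint (pvj2Ib 𝔓 m z t) (pvj2Iw 𝔓 m z t) :=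
  pvj2_disj_ib hL hT hf z (𝔓.col t)

end roomsI

/-- **what the door half reads of the side event `S⁺` of the reference frame** -/
structure Pvj2SideP (S : Set (Conf PvPt)) : Prop where
  mS : MeasurableSet S
  rS : Conf.ReadsSet (pvkgEp ×ˢ (univ : Set Bool)) S
  uS : PvdpUp pvkgEp pvkgO ((pvhfT (1 / 40)).Ln true true) ((pvhfT (1 / 40)).Ln true false) S

/-- **the side event of ANY truncation at the open window** -/
theorem pvj2_sideP_geo {𝔱 : PvhfTr} (hG : PvhfGeo pvkgG.toPvkdPlug 𝔱) (hEs : 𝔱.Es true ⊆ pvkgEp) (hLn : 𝔱.Ln true = (pvhfT (1 / 40)).Ln true) : Pvj2SideP (pvhfS pvkgG.toPvkdPlug 𝔱 true) where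
  mS := (pvhf_S_is hG true).meas (hG.wf true)
  rS := (pvhf_rS hG true).mono (prod_mono hEs le_rfl)
  uS := by
    have h := (pvhf_S_is hG true).pvdp_up (hG.wf true)
    have h' : PvdpUp (𝔱.Es true) pvkgG.Ew (𝔱.Ln true true) (𝔱.Ln true false) (pvhfS pvkgG.toPvkdPlug 𝔱 true) := h
    rw [hLn] at h'
    exact h'.mono hEs pvkgg_ze.EO subset_union_right subset_union_right

theorem Pvj2SideP.inter {S B : Set (Conf PvPt)} (h : Pvj2SideP S) (mB : MeasurableSet B) (rB : Conf.ReadsSet (pvkgO ×ˢ (univ : Set Bool)) B) : Pvj2SideP (S ∩ B) where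
  mS := h.mS.inter mB
  rS := h.rS.inter (rB.mono (prod_mono subset_union_left Subset.rfl))
  uS := h.uS.inter (pvdp_up_reads rB _ _ _)

section modelI

variable {τ : Type} {c : ℝ} {𝔓 : PvxPar τ c} {𝔈 : PvieEng τ} {U : PvkmUnit} {Hf : Fin 4 → Set (Conf PvPt)} {b0 q : ℝ≥0∞} {O₀ : ℕ → Set ℂ} {m : ℕ} {t : τ}

/-- **THE DOOR END OF THE LAST LINK** (record of 77) -/
theorem pvj2_end_i (hU : PvkmEng 𝔈 c U) (hk : ∀ e, U.kit e = (pvkgG.glob Hf).kit (pvP e) b0 q) (hS : Pvj2SideP (Hf 0))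
    (hL : PvegLev 𝔓 m) (hT : pviwTyOk 𝔓 t) (hK : 𝔈.iK m t = pvegIKa 𝔓 O₀ m t) (hO : O₀ m = pvthSim 0 (pvlmDel c m : ℂ) '' pvkgO) (z : ℂ) {ε : ℝ} (hε : 0 < ε) :
    PvdpEnd ε (pvieDoor 𝔈 m ε (pvieZi 𝔓 m z t) ((𝔓.Γ m).din t)) (pvieSh z (𝔈.iK m t)) (pvrgGk 𝔈 m ε (𝔓.col t) (pvieZi 𝔓 m z t) ((𝔓.Γ m).din t))
      (pvdpPl (pvieZi 𝔓 m z t) ((𝔓.Γ m).din t * pvlmDel c m) (𝔓.col t) (Hf 0)) {η | ∃ 𝔖 : PvwSt (pvieT η), PvilDoor (pvkdP (pvilRd 𝔓 m)) (𝔓.col t) η (pvieZi 𝔓 m z t) ((𝔓.Γ m).din t) 𝔖}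
      (pvthSim (pvieZi 𝔓 m z t) ((𝔓.Γ m).din t * pvlmDel c m) '' (pvhfT (1 / 40)).Ln true (𝔓.col t))
      (pvthSim (pvieZi 𝔓 m z t) ((𝔓.Γ m).din t * pvlmDel c m) '' (pvhfT (1 / 40)).Ln true (!𝔓.col t)) b0 := by
  have hd4 : (𝔓.Γ m).din t ^ 4 = 1 := by
    have := (pveg_door_i hL hT).u4
    rwa [show (-(𝔓.Γ m).din t) ^ 4 = (𝔓.Γ m).din t ^ 4 by ring] at this
  have hd : ‖(𝔓.Γ m).din t‖ = 1 := pveg_norm_unit hd4
  have ha := pvdp_a_ne hd c m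
  have eD := pvj2_door hU hk m ε (pvieZi 𝔓 m z t) ((𝔓.Γ m).din t)
  have hwin : pvthSim (pvieZi 𝔓 m z t) ((𝔓.Γ m).din t * pvlmDel c m) '' pvkgEp ⊆ pvieDoor 𝔈 m ε (pvieZi 𝔓 m z t) ((𝔓.Γ m).din t) ∪ pvieSh z (𝔈.iK m t) := by
    have h := pvo4_i_win hL hT hO z
    rw [hO, pvo4_sim_sim] at h
    rw [eD, hK]
    exact h
  refine ⟨pvdp_meas _ _ _ hS.mS, (pvdp_reads _ _ ha _ hS.rS).mono (prod_mono hwin Subset.rfl), ?_, ?_, ?_⟩
  · have h := (hS.uS.pl (pvieZi 𝔓 m z t) _ ha (𝔓.col t)).mono hwin eD.ge subset_union_right subset_union_right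
    have e1 : (if 𝔓.col t then (pvhfT (1 / 40)).Ln true true else (pvhfT (1 / 40)).Ln true false) = (pvhfT (1 / 40)).Ln true (𝔓.col t) := by cases 𝔓.col t <;> rfl
    have e2 : (if 𝔓.col t then (pvhfT (1 / 40)).Ln true false else (pvhfT (1 / 40)).Ln true true) = (pvhfT (1 / 40)).Ln true (!𝔓.col t) := by cases 𝔓.col t <;> rfl
    rw [e1, e2] at h
    exact h
  · refine pvdp_thr_k hU m ε (𝔓.col t) (pvieZi 𝔓 m z t) ((𝔓.Γ m).din t) hd ?_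
    rw [hk]
    exact pvdp_glob_thr (pvkgG.glob Hf) _ b0 q 0
  · exact pvyo_rec_door_ae 𝔓 hU hk m hε.ne' (𝔓.col t) (pvieZi 𝔓 m z t) hd4

/-- **THE DOOR HALF OF `PvjeTest.Ok` AT THE LAST LINK** (record of 248), at the halves of record -/
theorem pvj2_doorH_i (hU : PvkmEng 𝔈 c U) (hk : ∀ e, U.kit e = (pvkgG.glob Hf).kit (pvP e) b0 q) (hS : Pvj2SideP (Hf 0))
    (hL : PvegLev 𝔓 m) (hT : pviwTyOk 𝔓 t) (hf : 10000 * pvlmDel c m ≤ pvegR 𝔓 m) (hK : 𝔈.iK m t = pvegIKa 𝔓 O₀ m t) (hO : O₀ m = pvthSim 0 (pvlmDel c m : ℂ) '' pvkgO)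
    (w : ∀ η : Conf PvPt, (delbPl (pvieY η)).Dart → ℂ) (z : ℂ) {ε : ℝ} (hε : 0 < ε) :
    PvjpDoor (pvjeI 𝔓 𝔈 w m ε z t) ε (pvdpPl (pvieZi 𝔓 m z t) ((𝔓.Γ m).din t * pvlmDel c m) (𝔓.col t) (Hf 0))
      {η | ∃ 𝔖 : PvwSt (pvieT η), PvilDoor (pvkdP (pvilRd 𝔓 m)) (𝔓.col t) η (pvieZi 𝔓 m z t) ((𝔓.Γ m).din t) 𝔖} b0 (pvj2Ib 𝔓 m z t) (pvj2Iw 𝔓 m z t) := by
  have eD := pvj2_door hU hk m ε (pvieZi 𝔓 m z t) ((𝔓.Γ m).din t)
  refine pvjp_door_of_end (E := pvjeI 𝔓 𝔈 w m ε z t) (pvj2_end_i hU hk hS hL hT hK hO z hε) (pvj2_disj_i hL hT hf z) ?_ ?_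
  · show _ \ pvieDoor 𝔈 m ε (pvieZi 𝔓 m z t) ((𝔓.Γ m).din t) ⊆ _
    rw [eD]
    exact subset_union_left
  · show _ \ pvieDoor 𝔈 m ε (pvieZi 𝔓 m z t) ((𝔓.Γ m).din t) ⊆ _
    rw [eD]
    exact subset_union_left

/-- **THE DOOR HALF AT `i`, EXISTENTIAL FORM** (mirror of `pvj2_door_ex`) -/
theorem pvj2_door_ex_i (hU : PvkmEng 𝔈 c U) (hk : ∀ e, U.kit e = (pvkgG.glob Hf).kit (pvP e) b0 q) (hS : Pvj2SideP (Hf 0))
    (hL : PvegLev 𝔓 m) (hT : pviwTyOk 𝔓 t) (hf : 10000 * pvlmDel c m ≤ pvegR 𝔓 m) (hK : 𝔈.iK m t = pvegIKa 𝔓 O₀ m t) (hO : O₀ m = pvthSim 0 (pvlmDel c m : ℂ) '' pvkgO)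
    (w : ∀ η : Conf PvPt, (delbPl (pvieY η)).Dart → ℂ) (z : ℂ) {ε : ℝ} (hε : 0 < ε) :
    ∃ Kb Kw : Set ℂ, Disjoint Kb Kw ∧ pvjpRm true (pvge3PatI 𝔓 m z t) ⊆ Kb ∧ pvjpRm false (pvge3PatI 𝔓 m z t) ⊆ Kw ∧
      PvjpDoor (pvjeI 𝔓 𝔈 w m ε z t) ε (pvdpPl (pvieZi 𝔓 m z t) ((𝔓.Γ m).din t * pvlmDel c m) (𝔓.col t) (Hf 0))
        {η | ∃ 𝔖 : PvwSt (pvieT η), PvilDoor (pvkdP (pvilRd 𝔓 m)) (𝔓.col t) η (pvieZi 𝔓 m z t) ((𝔓.Γ m).din t) 𝔖} b0 Kb Kw :=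
  ⟨pvj2Ib 𝔓 m z t, pvj2Iw 𝔓 m z t, pvj2_disj_i hL hT hf z, subset_union_right, subset_union_right, pvj2_doorH_i hU hk hS hL hT hf hK hO w z hε⟩

end modelI

/-! ## 6. AT THE ENGINE OF RECORD -/

section record

/-- the side event `S⁻` of record -/
theorem pvj2_side_rec {N : PvxNums} (hN : N.Ok) : Pvj2Side (pvnaHf N 2) := pvj2_side_geo (pvna_geo hN) Subset.rfl rfl

/-- the side event `S⁺` of record -/
theorem pvj2_sideP_rec {N : PvxNums} (hN : N.Ok) : Pvj2SideP (pvnaHf N 0) := pvj2_sideP_geo (pvna_geo hN) Subset.rfl rfl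

variable {c : ℝ}

/-- **THE STATEMENT OF `exit_pvj0_door`** (`Exit/FrcO.lean`), VERBATIM -/
theorem pvj2_door_rec (c0 : 0 < c) (N : PvxNums) (hN : N.Ok) (nb : PvnaNb N) (q₀ : ℝ) {m : ℕ} (hm : (pvxParOf N hN c).m0 ≤ m) (z : ℂ) (t : pvxTau N) {ε : ℝ} (hε : 0 < ε) :
    ∃ Kb Kw : Set ℂ, Disjoint Kb Kw ∧ pvjpRm true (pvge3PatO (pvxParOf N hN c) m z t) ⊆ Kb ∧ pvjpRm false (pvge3PatO (pvxParOf N hN c) m z t) ⊆ Kw ∧
      PvjpDoor (pvjeO (pvxParOf N hN c) (pvnaEngRec N hN c nb) pvilQ m ε z t) ε (pvj0T (pvxParOf N hN c) (pvnaEngRec N hN c nb) q₀ nb.b m z t).ℋ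
        (pvj0T (pvxParOf N hN c) (pvnaEngRec N hN c nb) q₀ nb.b m z t).Cd nb.b Kb Kw :=
  pvj2_door_ex (pvnr_num N hN c nb) (fun _ => rfl) (pvj2_side_rec hN) (pvqh_lev hN c0 hm) (pvqh_tyOk hN c t) (pvuo_fine hN c0 hm) (pvnr_oK N hN c nb m t) (pvnr_O0 N hN c nb m) pvilQ z hε

variable {N : PvxNums} (hN : N.Ok) (nb : PvnaNb N)

/-- the door half of `[Ok]` at the last link, at the record (`mH rH thr loc up`) -/
theorem pvj2_doorH_rec_i (c0 : 0 < c) {m : ℕ} (hm : (pvxParOf N hN c).m0 ≤ m) (z : ℂ) (t : pvxTau N) {ε : ℝ} (hε : 0 < ε) :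
    PvjpDoor (pvjeI (pvxParOf N hN c) (pvnaEngRec N hN c nb) pvilQ m ε z t) ε (pvdpPl (pvieZi (pvxParOf N hN c) m z t) (((pvxParOf N hN c).Γ m).din t * pvlmDel c m) ((pvxParOf N hN c).col t) (pvnaHf N 0))
      (pviiCd (pvxParOf N hN c) m z t) nb.b (pvj2Ib (pvxParOf N hN c) m z t) (pvj2Iw (pvxParOf N hN c) m z t) :=
  pvj2_doorH_i (pvnr_num N hN c nb) (fun _ => rfl) (pvj2_sideP_rec hN) (pvqh_lev hN c0 hm) (pvqh_tyOk hN c t) (pvuo_fine hN c0 hm) (pvnr_iK N hN c nb m t) (pvnr_O0 N hN c nb m) pvilQ z hε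

/-- **THE STATEMENT OF `exit_pvii_up`** (`Exit/FrcI.lean`), VERBATIM -/
theorem pvj2_up_rec_i (c0 : 0 < c) (q₀ : ℝ) {m : ℕ} (hm : (pvxParOf N hN c).m0 ≤ m) (z : ℂ) (t : pvxTau N) :
    ∀ᶠ ε in 𝓝[>] (0 : ℝ), ∀ (η₀ : Conf PvPt) (Y Fz : Set ℂ) (σ : ℂ → Bool), Y.Countable →
      (∃ η, PvatNice (cfSites η) ∧ cfSites η ∩ (pvjeI (pvxParOf N hN c) (pvnaEngRec N hN c nb) pvilQ m ε z t).Wn ((pvjeI (pvxParOf N hN c) (pvnaEngRec N hN c nb) pvilQ m ε z t).Hu η₀) =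
        Y ∩ (pvjeI (pvxParOf N hN c) (pvnaEngRec N hN c nb) pvilQ m ε z t).Wn ((pvjeI (pvxParOf N hN c) (pvnaEngRec N hN c nb) pvilQ m ε z t).Hu η₀)) → Fz ⊆ Y →
      (∀ v ∈ Y, v ∈ (pvjeI (pvxParOf N hN c) (pvnaEngRec N hN c nb) pvilQ m ε z t).D → v ∈ Fz) →
      (∀ v ∈ Fz, v ∉ (pvjeI (pvxParOf N hN c) (pvnaEngRec N hN c nb) pvilQ m ε z t).K ∧ v ∉ (pvjeI (pvxParOf N hN c) (pvnaEngRec N hN c nb) pvilQ m ε z t).y η₀) →
      ∃ s : ℂ → Option Bool, {z | s z ≠ none}.Countable ∧ PvlhUp s (pvlhSec Y Fz σ (pviiT (pvxParOf N hN c) (pvnaEngRec N hN c nb) (pvnaHf N 0) q₀ nb.b m z t).ℋ) ∧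
        PvlhUp s (pvlhCp Y (pviiT (pvxParOf N hN c) (pvnaEngRec N hN c nb) (pvnaHf N 0) q₀ nb.b m z t).𝒦) := by
  filter_upwards [self_mem_nhdsWithin] with ε hε
  have hL := pvqh_lev hN c0 hm
  have hT := pvqh_tyOk hN c t
  have hf := pvuo_fine hN c0 hm
  have hB : PvjpBlind (pviiMs (pvxParOf N hN c) (pvnaEngRec N hN c nb) m z t) := fun Y a a' h =>
    pvpz_Ms_blind (pviiRho (pvxParOf N hN c) m) (pviiO (pvnaEngRec N hN c nb) m z t) _ _ (by rw [cfOf_sites, cfOf_sites]) h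
  exact pvjp_up_field (pvj2_disj_i hL hT hf z) (pvge3_fit_i hL hT hf z) hB subset_union_right subset_union_right (pvj2_doorH_rec_i hN nb c0 hm z t hε).up

end record

end Claimed.Agent.R289
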