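-- KEEP
import Claimed.Agent.R289.Exit.FrcDoorE
import Claimed.Agent.R289.Exit.FrcOK
import Claimed.Agent.R289.Exit.FrcIDefs
import Claimed.Agent.R289.Exit.FrcOq
import Claimed.Agent.R289.Tr.UpMix
import Claimed.Agent.R289.Tr.PatMs

/-!
# Row 289 (S0537), THE WALL, ROAD E, E10, file Exit/FrcIK : THE FIELD `up` (ONE MIXED ORDER) AND THE READER `rH` AT THE LAST LINK `door plug → t`      (helper88; leaves `exit_pvii_up`, `exit_pvii_rH` of `Exit/FrcI` of 116; prefix `pvi8_`)      0 sorry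

MIRROR of `Exit/FrcOK` of 171 (first link), over his model free `pvj2_rt₁ pvj2_rt₂`, the ONE TEXT of 17 (`Tr/UpMix`: `pvub_geo_rec`, `PvubGeo.field`), the region line of 77 / 144 (`pvdp_rec_i_win`, `pvo4_i_win`).
GENERIC IN THE ENGINE AND IN THE TRUNCATION `𝔱` OF THE SIDE EVENT (`𝔱.Ln = (pvhfT (1/40)).Ln`, `𝔱.Es true ⊆ pvkgEp`, `PvhfGeo`): `pvhfT (1/40)` (today), `pvk2T`, `pvk2T.fine μ pvkgO` (after the swap (B) of R24).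
* sec. 1  `pvi8_out_coord` (a point of the placed outer rectangle of a lane of `S⁺`, in the frame of the entrance mouth), **`pvi8_off_b`**, **`pvi8_off`** : off the door the room of a lane misses the route of the other colour
* sec. 2  `pvi8_sq_O`, **`pvi8_geo`** : `PvubGeo` of 17 at the last link;   `pvi8_blind` (`pviiMs` sees only the sites);   **`pvi8_up`** = the field `up` of `PvjeTest.Ok` VERBATIM at `pvjeI 𝔓 𝔈 w m ε z t`, `pviiT 𝔓 𝔈 (pvhfS pvkgG.toPvkdPlug 𝔱 true) q₀ b₀ m z t`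
* sec. 3  the closed windows of `pvhfT (1/40)` lie in the open windows of 258 (`pvi8_Es_sub`), `pvi8_reads`;   AT THE ENGINE OF RECORD: **`pvi8_rec_up`** = `exit_pvii_up`, **`pvi8_rec_rH`** = `exit_pvii_rH` at `pvnaHf N` (R24);   `pvvg_rH pvvg_rH_o` = the names of 119 (his file of 14:07Z stood under this path)
-/

set_option autoImplicit false

namespace Claimed.Agent.R289

open Set MeasureTheory Filter Topology Claims.C0465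
open scoped ENNReal

/-! ## 1. the rooms of the lanes of `S⁺` and the routes of the pattern of record -/

section geo

variable {τ : Type} {c : ℝ} {𝔓 : PvxPar τ c} {m : ℕ} {t : τ}

/-- coordinates, in the frame of the entrance mouth, of a point of the placed outer rectangle of the lane of REFERENCE colour `β` of the side event `S⁺` of the entrance door -/
theorem pvi8_out_coord (hL : PvegLev 𝔓 m) (hT : pviwTyOk 𝔓 t) (z : ℂ) {β : Bool} {v : ℂ} (hv : v ∈ pvthSim (pvieZi 𝔓 m z t) ((𝔓.Γ m).din t * pvlmDel c m) '' pvubOut (1 / 40) true β) :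
    pvegS (pvegYm 𝔓 m t) (-(𝔓.Γ m).din t) ((𝔓.Γ m).pin t) - 5 * pvge3Q c m ≤ pvegS (z + pvegYm 𝔓 m t) (-(𝔓.Γ m).din t) v ∧
      (if β then pvegL (z + pvegYm 𝔓 m t) (-(𝔓.Γ m).din t) v ≤ pvegL (pvegYm 𝔓 m t) (-(𝔓.Γ m).din t) ((𝔓.Γ m).pin t) - pvge3Q c m / 2
        else pvegL (pvegYm 𝔓 m t) (-(𝔓.Γ m).din t) ((𝔓.Γ m).pin t) + pvge3Q c m / 2 ≤ pvegL (z + pvegYm 𝔓 m t) (-(𝔓.Γ m).din t) v) := by
  obtain ⟨w, hw, rfl⟩ := hv
  have hu := (pveg_door_i hL hT).u4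
  have hδ := pvlm_Del_pos c m
  have e : pvthSim (pvieZi 𝔓 m z t) ((𝔓.Γ m).din t * pvlmDel c m) w = pvthSim (z + (𝔓.Γ m).pin t) (-(𝔓.Γ m).din t * pvlmDel c m) (-w) := by
    unfold pvthSim pvieZi
    ring
  rw [e, pvo4_S_at hu, pvo4_L_at hu, pvge3_S_sh, pvge3_L_sh, Complex.neg_re, Complex.neg_im]
  unfold pvge3Q
  cases β
  · simp only [pvubOut, pvkdRect, rswRect, if_true, Bool.false_eq_true, if_false, mem_ofPred_eq] at hw ⊢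
    obtain ⟨h1, h2, h3, h4⟩ := hw
    exact ⟨by nlinarith, by nlinarith⟩
  · simp only [pvubOut, pvkdRect, rswRect, if_true, mem_ofPred_eq] at hw ⊢
    obtain ⟨h1, h2, h3, h4⟩ := hw
    exact ⟨by nlinarith, by nlinarith⟩

/-- **off the door the room of the lane `β` misses the route of the other colour**, relative colours -/
theorem pvi8_off_b (hL : PvegLev 𝔓 m) (hT : pviwTyOk 𝔓 t) (hf : 10000 * pvlmDel c m ≤ pvegR 𝔓 m) (z : ℂ) (b β : Bool) :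
    Disjoint (pvjpRm (!pvubCl b β) (pvge3PatIb 𝔓 b m z t)) (pvthSim (pvieZi 𝔓 m z t) ((𝔓.Γ m).din t * pvlmDel c m) '' pvubOut (1 / 40) true β) := by
  have R := pvge3_rec_i hL hT hf (ρ := 0) (b := 0) (μ := 0) le_rfl (pvlm_Del_pos c m).le (by norm_num) (by have := pveg_R_pos hL; linarith)
  have hq := pvge3_q_pos c m
  have e := pvjp_rm_two b (pvge2Rt (z + pvegYm 𝔓 m t) (-(𝔓.Γ m).din t) false (27 * pvegR 𝔓 m / 200) (pvegR 𝔓 m / 200) (23 * pvegR 𝔓 m / 200) (23 * pvegR 𝔓 m / 200) (3 * pvegR 𝔓 m / 20)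
      (pvegS (pvegYm 𝔓 m t) (-(𝔓.Γ m).din t) ((𝔓.Γ m).pin t) - 29 * pvge3Q c m / 8) (pvge3Q c m / 8) (pvge2Sg false * pvegL (pvegYm 𝔓 m t) (-(𝔓.Γ m).din t) ((𝔓.Γ m).pin t) + pvge3Q c m / 4))
    (pvge2Rt (z + pvegYm 𝔓 m t) (-(𝔓.Γ m).din t) (!false) (4 * pvegR 𝔓 m / 25) (pvegR 𝔓 m / 200) (23 * pvegR 𝔓 m / 200) (23 * pvegR 𝔓 m / 200) (3 * pvegR 𝔓 m / 20)
      (pvegS (pvegYm 𝔓 m t) (-(𝔓.Γ m).din t) ((𝔓.Γ m).pin t) - 29 * pvge3Q c m / 8) (pvge3Q c m / 8) (-(pvge2Sg false * pvegL (pvegYm 𝔓 m t) (-(𝔓.Γ m).din t) ((𝔓.Γ m).pin t)) + pvge3Q c m / 4))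
  have s1 : pvge2Sg true = 1 := by simp [pvge2Sg]
  have s2 : pvge2Sg false = -1 := by simp [pvge2Sg]
  -- the route of the colour `b` (right of the outer normal) near the door
  have r1 : ∀ v ∈ pvjpRm b (pvge3PatIb 𝔓 b m z t), pvegS (pvegYm 𝔓 m t) (-(𝔓.Γ m).din t) ((𝔓.Γ m).pin t) - 5 * pvge3Q c m ≤ pvegS (z + pvegYm 𝔓 m t) (-(𝔓.Γ m).din t) v →
      pvegL (z + pvegYm 𝔓 m t) (-(𝔓.Γ m).din t) v ≤ pvegL (pvegYm 𝔓 m t) (-(𝔓.Γ m).din t) ((𝔓.Γ m).pin t) - pvge3Q c m / 8 := by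
    intro v hv hS
    have hv' := e.1.subset hv
    have h := pvj2_rt₁ R hv' hS
    rw [pvge3_T, s2] at h
    linarith
  -- the route of the colour `!b`
  have r2 : ∀ v ∈ pvjpRm (!b) (pvge3PatIb 𝔓 b m z t), pvegS (pvegYm 𝔓 m t) (-(𝔓.Γ m).din t) ((𝔓.Γ m).pin t) - 5 * pvge3Q c m ≤ pvegS (z + pvegYm 𝔓 m t) (-(𝔓.Γ m).din t) v →
      pvegL (pvegYm 𝔓 m t) (-(𝔓.Γ m).din t) ((𝔓.Γ m).pin t) + pvge3Q c m / 8 ≤ pvegL (z + pvegYm 𝔓 m t) (-(𝔓.Γ m).din t) v := by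
    intro v hv hS
    have hv' := e.2.subset hv
    have h := pvj2_rt₂ R.flip hv' hS
    rw [pvge3_T, s2] at h
    simp only [Bool.not_false, s1] at h
    linarith
  refine disjoint_left.2 fun v h1 h2 => ?_
  obtain ⟨a1, a2⟩ := pvi8_out_coord hL hT z h2
  cases β
  · have e1 : (!pvubCl b false) = b := by cases b <;> rfl
    rw [e1] at h1
    have a3 := r1 v h1 a1
    simp only [Bool.false_eq_true, if_false] at a2
    linarith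
  · have e1 : (!pvubCl b true) = !b := by cases b <;> rfl
    rw [e1] at h1
    have a3 := r2 v h1 a1
    simp only [if_true] at a2
    linarith

/-- the same in ACTUAL colours -/
theorem pvi8_off (hL : PvegLev 𝔓 m) (hT : pviwTyOk 𝔓 t) (hf : 10000 * pvlmDel c m ≤ pvegR 𝔓 m) (z : ℂ) (β : Bool) :
    Disjoint (pvjpRm (!pvubCl (𝔓.col t) β) (pvge3PatI 𝔓 m z t)) (pvthSim (pvieZi 𝔓 m z t) ((𝔓.Γ m).din t * pvlmDel c m) '' pvubOut (1 / 40) true β) :=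
  pvi8_off_b hL hT hf z (𝔓.col t) β

end geo

/-! ## 2. the contract of 17, the field `up` -/

/-- the closed window of the plug lies in the open door square -/
theorem pvi8_sq_O : pvwSq 0 (3 * (1 / 40)) ⊆ pvkgO := by
  rintro w ⟨h1, h2⟩
  rw [sub_zero] at h1 h2
  have a1 := abs_le.1 h1
  have a2 := abs_le.1 h2
  exact ⟨by linarith [a1.1], by linarith [a1.2], by linarith [a2.1], by linarith [a2.2]⟩

section model

variable {τ : Type} {c : ℝ} {𝔓 : PvxPar τ c} {𝔈 : PvieEng τ} {U : PvkmUnit} {𝔱 : PvhfTr} {b0 q : ℝ≥0∞} {O₀ : ℕ → Set ℂ} {m : ℕ} {t : τ}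

/-- **THE CONTRACT `PvubGeo` OF 17 AT THE LAST LINK** -/
theorem pvi8_geo (w : ∀ η : Conf PvPt, (delbPl (pvieY η)).Dart → ℂ) (hU : PvkmEng 𝔈 c U) (hk : ∀ e, U.kit e = (pvkgG.glob (pvhfH pvkgG.toPvkdPlug 𝔱)).kit (pvP e) b0 q)
    (hLn : 𝔱.Ln = (pvhfT (1 / 40)).Ln) (hEs : 𝔱.Es true ⊆ pvkgEp) (hL : PvegLev 𝔓 m) (hT : pviwTyOk 𝔓 t) (hf : 10000 * pvlmDel c m ≤ pvegR 𝔓 m)
    (hK : 𝔈.iK m t = pvegIKa 𝔓 O₀ m t) (hO : O₀ m = pvthSim 0 (pvlmDel c m : ℂ) '' pvkgO) (ε : ℝ) (z : ℂ) :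
    PvubGeo (pvkdP (1 / 40)) 𝔱 true (pvieZi 𝔓 m z t) ((𝔓.Γ m).din t * pvlmDel c m) (𝔓.col t) (pvjeI 𝔓 𝔈 w m ε z t).D ((pvjeI 𝔓 𝔈 w m ε z t).D ∪ (pvjeI 𝔓 𝔈 w m ε z t).K) (pvge3PatI 𝔓 m z t) := by
  have hd : ‖(𝔓.Γ m).din t‖ = 1 := pveg_norm_unit (pveg_din4 hL t)
  have eD : (pvjeI 𝔓 𝔈 w m ε z t).D = pvthSim (pvieZi 𝔓 m z t) ((𝔓.Γ m).din t * pvlmDel c m) '' pvkgO := pvj2_door hU hk m ε (pvieZi 𝔓 m z t) ((𝔓.Γ m).din t)
  refine pvub_geo_rec (by norm_num) hLn true _ (pvdp_a_ne hd c m) _ ?_ (pvdp_rec_i_win hU hk hEs hL hT hK hO ε z) (pvi8_off hL hT hf z)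
  rw [eD]
  exact image_mono pvi8_sq_O

/-- the mesh clause of the test of 116 sees only the sites -/
theorem pvi8_blind (𝔓 : PvxPar τ c) (𝔈 : PvieEng τ) (m : ℕ) (z : ℂ) (t : τ) : PvjpBlind (pviiMs 𝔓 𝔈 m z t) := fun Y a a' h =>
  pvpz_Ms_blind (pviiRho 𝔓 m) (pviiO 𝔈 m z t) _ _ (by rw [cfOf_sites, cfOf_sites]) h

/-- **THE FIELD `up` OF `PvjeTest.Ok` AT THE LAST LINK, VERBATIM**, generic in the engine and in the truncation -/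
theorem pvi8_up (w : ∀ η : Conf PvPt, (delbPl (pvieY η)).Dart → ℂ) (hU : PvkmEng 𝔈 c U) (hk : ∀ e, U.kit e = (pvkgG.glob (pvhfH pvkgG.toPvkdPlug 𝔱)).kit (pvP e) b0 q)
    (hG : PvhfGeo pvkgG.toPvkdPlug 𝔱) (hLn : 𝔱.Ln = (pvhfT (1 / 40)).Ln) (hEs : 𝔱.Es true ⊆ pvkgEp) (hL : PvegLev 𝔓 m) (hT : pviwTyOk 𝔓 t) (hf : 10000 * pvlmDel c m ≤ pvegR 𝔓 m)
    (hK : 𝔈.iK m t = pvegIKa 𝔓 O₀ m t) (hO : O₀ m = pvthSim 0 (pvlmDel c m : ℂ) '' pvkgO) (q₀ : ℝ) (b₀ : ℝ≥0∞) (ε : ℝ) (z : ℂ) :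
    ∀ (η₀ : Conf PvPt) (Y Fz : Set ℂ) (σ : ℂ → Bool), Y.Countable →
      (∃ η, PvatNice (cfSites η) ∧ cfSites η ∩ (pvjeI 𝔓 𝔈 w m ε z t).Wn ((pvjeI 𝔓 𝔈 w m ε z t).Hu η₀) = Y ∩ (pvjeI 𝔓 𝔈 w m ε z t).Wn ((pvjeI 𝔓 𝔈 w m ε z t).Hu η₀)) → Fz ⊆ Y →
      (∀ v ∈ Y, v ∈ (pvjeI 𝔓 𝔈 w m ε z t).D → v ∈ Fz) → (∀ v ∈ Fz, v ∉ (pvjeI 𝔓 𝔈 w m ε z t).K ∧ v ∉ (pvjeI 𝔓 𝔈 w m ε z t).y η₀) →
      ∃ s : ℂ → Option Bool, {z | s z ≠ none}.Countable ∧ PvlhUp s (pvlhSec Y Fz σ (pviiT 𝔓 𝔈 (pvhfS pvkgG.toPvkdPlug 𝔱 true) q₀ b₀ m z t).ℋ) ∧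
        PvlhUp s (pvlhCp Y (pviiT 𝔓 𝔈 (pvhfS pvkgG.toPvkdPlug 𝔱 true) q₀ b₀ m z t).𝒦) :=
  (pvi8_geo w hU hk hLn hEs hL hT hf hK hO ε z).field hG (pvge3_fit_i hL hT hf z) (pvi8_blind 𝔓 𝔈 m z t)

end model

/-! ## 3. the windows of `pvhfT (1/40)`; the engine of record -/

/-- **the CLOSED window of the exit side event of `pvhfT (1/40)` lies in the OPEN window `pvkgEp` of 258** -/
theorem pvi8_Es_sub : (pvhfT (1 / 40)).Es true ⊆ pvkgEp := by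
  rintro w (hw | hw)
  · exact Or.inl (pvi8_sq_O hw)
  · simp only [pvkdRect, rswRect, if_true, mem_ofPred_eq] at hw
    obtain ⟨h1, h2, h3, h4⟩ := hw
    exact Or.inr ⟨by linarith, by linarith, by linarith, by linarith⟩

/-- the mirror -/
theorem pvi8_Es_sub' : (pvhfT (1 / 40)).Es false ⊆ pvkgEm := by
  rintro w (hw | hw)
  · exact Or.inl (pvi8_sq_O hw)
  · simp only [pvkdRect, rswRect, Bool.false_eq_true, if_false, mem_ofPred_eq] at hw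
    obtain ⟨h1, h2, h3, h4⟩ := hw
    exact Or.inr ⟨by linarith, by linarith, by linarith, by linarith⟩

/-- a side event `S⁺` whose window lies in `pvkgEp` is read there -/
theorem pvi8_reads {𝔱 : PvhfTr} (hG : PvhfGeo pvkgG.toPvkdPlug 𝔱) (hEs : 𝔱.Es true ⊆ pvkgEp) : Conf.ReadsSet (pvkgEp ×ˢ (univ : Set Bool)) (pvhfS pvkgG.toPvkdPlug 𝔱 true) :=
  (pvhf_rS hG true).mono (prod_mono hEs Subset.rfl)

theorem pvi8_reads' {𝔱 : PvhfTr} (hG : PvhfGeo pvkgG.toPvkdPlug 𝔱) (hEs : 𝔱.Es false ⊆ pvkgEm) : Conf.ReadsSet (pvkgEm ×ˢ (univ : Set Bool)) (pvhfS pvkgG.toPvkdPlug 𝔱 false) :=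
  (pvhf_rS hG false).mono (prod_mono hEs Subset.rfl)

section record

variable {N : PvxNums} (hN : N.Ok) {c : ℝ} (nb : PvnaNb N)

include hN in
/-- **`exit_pvii_rH` OF `Exit/FrcI`** at the side events of record (R24) -/
theorem pvi8_rec_rH : Conf.ReadsSet (pvkgEp ×ˢ (univ : Set Bool)) (pvnaHf N 0) :=
  pvi8_reads (𝔱 := pvnaT N) (pvna_geo hN) Subset.rfl

include hN in
/-- the mirror: the side event `S⁻` of record is read in the open window `pvkgEm` -/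
theorem pvi8_rec_rH' : Conf.ReadsSet (pvkgEm ×ˢ (univ : Set Bool)) (pvnaHf N 2) :=
  pvi8_reads' (𝔱 := pvnaT N) (pvna_geo hN) Subset.rfl

include hN in
/-- the names of 119 (his file `Exit/FrcIK` of 14:07Z, cited by `Exit/FrcI`), at the side events of record -/
theorem pvvg_rH : Conf.ReadsSet (pvkgEp ×ˢ (univ : Set Bool)) (pvnaHf N 0) := pvi8_rec_rH hN

include hN in
theorem pvvg_rH_o : Conf.ReadsSet (pvkgEm ×ˢ (univ : Set Bool)) (pvnaHf N 2) := pvi8_rec_rH' hN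

/-- **`exit_pvii_up` OF `Exit/FrcI`** at the side events of record (R24) -/
theorem pvi8_rec_up (c0 : 0 < c) (q₀ : ℝ) {m : ℕ} (hm : (pvxParOf N hN c).m0 ≤ m) (z : ℂ) (t : pvxTau N) :
    ∀ᶠ ε in 𝓝[>] (0 : ℝ), ∀ (η₀ : Conf PvPt) (Y Fz : Set ℂ) (σ : ℂ → Bool), Y.Countable →
      (∃ η, PvatNice (cfSites η) ∧ cfSites η ∩ (pvjeI (pvxParOf N hN c) (pvnaEngRec N hN c nb) pvilQ m ε z t).Wn ((pvjeI (pvxParOf N hN c) (pvnaEngRec N hN c nb) pvilQ m ε z t).Hu η₀) =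
        Y ∩ (pvjeI (pvxParOf N hN c) (pvnaEngRec N hN c nb) pvilQ m ε z t).Wn ((pvjeI (pvxParOf N hN c) (pvnaEngRec N hN c nb) pvilQ m ε z t).Hu η₀)) → Fz ⊆ Y →
      (∀ v ∈ Y, v ∈ (pvjeI (pvxParOf N hN c) (pvnaEngRec N hN c nb) pvilQ m ε z t).D → v ∈ Fz) →
      (∀ v ∈ Fz, v ∉ (pvjeI (pvxParOf N hN c) (pvnaEngRec N hN c nb) pvilQ m ε z t).K ∧ v ∉ (pvjeI (pvxParOf N hN c) (pvnaEngRec N hN c nb) pvilQ m ε z t).y η₀) →
      ∃ s : ℂ → Option Bool, {z | s z ≠ none}.Countable ∧ PvlhUp s (pvlhSec Y Fz σ (pviiT (pvxParOf N hN c) (pvnaEngRec N hN c nb) (pvnaHf N 0) q₀ nb.b m z t).ℋ) ∧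
        PvlhUp s (pvlhCp Y (pviiT (pvxParOf N hN c) (pvnaEngRec N hN c nb) (pvnaHf N 0) q₀ nb.b m z t).𝒦) :=
  Eventually.of_forall fun ε =>
    pvi8_up (𝔱 := pvnaT N) pvilQ (pvnr_num N hN c nb) (fun _ => rfl) (pvna_geo hN) rfl Subset.rfl (pvqh_lev hN c0 hm) (pvqh_tyOk hN c t) (pvuo_fine hN c0 hm)
      (pvnr_iK N hN c nb m t) rfl q₀ nb.b ε z

end record

end Claimed.Agent.R289
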