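-- KEEP
import Claimed.Agent.R289.Tr.HookI
import Claimed.Agent.R289.Exit.GoodEH
import Claimed.Agent.R289.Exit.ParRec2
import Claimed.Agent.R289.Tr.FrcDetOY
import Claimed.Agent.R289.Exit.FrcIEvM
import Claimed.Agent.R289.Exit.FrcWf
import Claimed.Agent.R289.Exit.RefEnd

/-!
# Row 289 (S0537), THE WALL, ROAD E, E10 AT THE HYBRID ENDS, (b3) DET, file Exit/FrcIL : **THE REGIONS OF THE LAST LINK AT THE ROOMS OF RECORD** (instance of `PvhlLay` of `Tr/HookI`)      (helper106; prefix `pvhl_` continued)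

THE ROOM `iY` IS A VARIABLE BETWEEN `pvegIYc` (245, room with collar) AND `pvegIYa` (124): every line "inside the room" is proved inside `pvegIYc` (187 `Exit/ParRec2`), every line "off the room" off `pvegIYa`: the file survives the swap L2.
-/

set_option autoImplicit false
set_option linter.unusedSectionVars false
set_option linter.unusedVariables false

namespace Claimed.Agent.R289

open Set Metric Complex Filter Topology Claims.C0465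
open scoped ENNReal

/-- the lane of record of the relative colour `β` is a part of the region of the pattern of record -/
theorem pvhl_lane_pat (Y u : ℂ) (up c : Bool) (r q Sp lam : ℝ) (β : Bool) :
    pvge4Lane Y u (if β then up else !up) r q Sp (pvge2Aa r β) (pvge2Lm lam β) ⊆ pvkqPatR (pvge2PatRec Y u up c r q Sp lam) := by
  unfold pvge2PatRec
  rw [pvge2_pat_R, pvge2_Rt_R, pvge2_Rt_R]
  cases β
  · rintro v ((hv | hv) | hv)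
    · exact Or.inr (Or.inl (Or.inl (Or.inr hv)))
    · exact Or.inr (Or.inl (Or.inr hv))
    · exact Or.inr (Or.inr hv)
  · rintro v ((hv | hv) | hv)
    · exact Or.inl (Or.inl (Or.inl (Or.inr hv)))
    · exact Or.inl (Or.inl (Or.inr hv))
    · exact Or.inl (Or.inr hv)

section inst

variable {τ : Type} {c : ℝ} {𝔓 : PvxPar τ c} {𝔈 : PvieEng τ} {m : ℕ} {z : ℂ} {t : τ} {O₀ : ℕ → Set ℂ} {𝔱 : PvhfTr}

/-- the door in the frame of the mouth -/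
theorem pvhl_Sp (𝔓 : PvxPar τ c) (m : ℕ) (z : ℂ) (t : τ) : pvge2S (z + pvegYm 𝔓 m t) (-(𝔓.Γ m).din t) (pvieZi 𝔓 m z t) = pvegS (pvegYm 𝔓 m t) (-(𝔓.Γ m).din t) ((𝔓.Γ m).pin t) := by
  rw [pvge3_S]
  exact pvge3_S_sh _ _ _ _

theorem pvhl_lam (𝔓 : PvxPar τ c) (m : ℕ) (z : ℂ) (t : τ) : pvge2T (z + pvegYm 𝔓 m t) (-(𝔓.Γ m).din t) false (pvieZi 𝔓 m z t) = pvge2Sg false * pvegL (pvegYm 𝔓 m t) (-(𝔓.Γ m).din t) ((𝔓.Γ m).pin t) := by
  rw [pvge3_T]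
  congr 1
  exact pvge3_L_sh _ _ _ _

/-- off the placed box with collar, off the own-level box -/
theorem pvhl_off_box {x : ℂ} (hx : x ∉ pvieSh z (pviwBox 𝔓 m t)) : x ∉ pvwSq z (pviwRad 𝔓 m t) :=
  pvho_box_off (A := (pviwBox 𝔓 m t)ᶜ) disjoint_compl_left (by rw [← pvho_sh_compl]; exact hx)

/-- **THE REGIONS OF THE LAST LINK** -/
theorem pvhl_lay_i (hL : PvegLev 𝔓 m) (hT : pviwTyOk 𝔓 t) (hf : 10000 * pvlmDel c m ≤ pvegR 𝔓 m) (h3 : 0 < 𝔓.num.rho3) (hc : ∀ x ∈ 𝔓.cm t, ‖x - (𝔓.ty t).ym‖ ≤ 𝔓.num.rho / 10)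
    (hM : 𝔈.iM m t = pvegIM 𝔓 m t) (hK : 𝔈.iK m t = pvegIKa 𝔓 O₀ m t) (hO : O₀ m ⊆ pvccSq 0 (13 * pvge3Q c m / 4))
    (hY1 : pvegIYc 𝔓 m t ⊆ 𝔈.iY m t) (hY2 : 𝔈.iY m t ⊆ pvegIYa 𝔓 m t) (hco : IsPreconnected (pvieSh z (𝔈.iY m t))ᶜ)
    (G : Pvge5Side (1 / 40) true (𝔱.Ln true) (𝔱.Dr true)) :
    PvhlLay (pvilLi 𝔓 𝔈 m z t) 𝔓.num (pviiO 𝔈 m z t) (pviiO 𝔈 m z t \ pvwSq z (pviwRad 𝔓 m t))
      (pviiRho 𝔓 m) (z + pvegYm 𝔓 m t) (-(𝔓.Γ m).din t) (pvegR 𝔓 m) (pvge3Q c m) (pvge3Dl c m) (pvegS (pvegYm 𝔓 m t) (-(𝔓.Γ m).din t) ((𝔓.Γ m).pin t)) (pvge2Sg false * pvegL (pvegYm 𝔓 m t) (-(𝔓.Γ m).din t) ((𝔓.Γ m).pin t))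
      (fun β => pvkdAt (pvieZi 𝔓 m z t) ((𝔓.Γ m).din t * (pvlmDel c m : ℝ)) (𝔱.Ln true β)) (fun β => pvkdAt (pvieZi 𝔓 m z t) ((𝔓.Γ m).din t * (pvlmDel c m : ℝ)) (𝔱.Dr true β)) := by
  obtain ⟨m1, m2, m3⟩ := pvho_mu hL h3
  have hδ := pvlm_Del_pos c m
  have hq : pvge3Q c m = pvlmDel c m / 40 := rfl
  have hρ : pviiRho 𝔓 m = pvilMu 𝔓 m / 20 := rfl
  have m0 : 0 < pviiRho 𝔓 m := by rw [hρ]; linarith
  have hu := pvge3_u_i hL hT
  have hdd := pvge3_dd_i hL hT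
  have hW : pviiO 𝔈 m z t = pvieSh z (pvegIM 𝔓 m t) ∪ pvieSh z (pvegIKa 𝔓 O₀ m t) := by unfold pviiO; rw [hM, hK]
  have hYc : pvieSh z (pvegIYc 𝔓 m t) ⊆ pvieSh z (𝔈.iY m t) := image_mono hY1
  have laneW : ∀ β, pvge6LaneI 𝔓 m z t β ⊆ pvtrCore (4 * pviiRho 𝔓 m) (pviiO 𝔈 m z t) := fun β => by
    rw [hW]
    exact pvge6_lane_core_i hL hT hf (hO.trans (pvcc_sq_mono _ (by linarith))) z β (by linarith)
  refine ⟨m0, (pvho_iYa_bdd hL hT z).subset (image_mono hY2), hco, laneW, fun β => ?_, fun β => ?_, fun β => ?_, fun β => ?_, fun β w hw hs => ?_, ?_, fun β w hw => ?_, fun w hw => ?_, fun w hw hY => ?_, ?_, ?_⟩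
  · -- laneY
    rintro v ⟨w, hw, hvw⟩
    have h1 : w ∈ pvkqPatR (pvge3PatIb 𝔓 true m z t) := by
      have := pvhl_lane_pat (z + pvegYm 𝔓 m t) (-(𝔓.Γ m).din t) false true (pvegR 𝔓 m) (pvge3Q c m) (pvegS (pvegYm 𝔓 m t) (-(𝔓.Γ m).din t) ((𝔓.Γ m).pin t)) (pvge2Sg false * pvegL (pvegYm 𝔓 m t) (-(𝔓.Γ m).din t) ((𝔓.Γ m).pin t)) β
      refine this ?_
      cases β <;> exact hw
    have h2 := pvz7_pat_ib hL hT hf (σ := 2 * pviiRho 𝔓 m) (by linarith) true z h1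
    exact hYc (h2 (by rwa [mem_closedBall, dist_eq_norm]))
  · -- laneF
    rintro v ⟨w, hw, hvw⟩
    refine ⟨laneW β hw (by rw [mem_closedBall, dist_eq_norm]; linarith), pvhl_off_box ?_⟩
    exact (pvge6_lane_nbd_i hL hT hf z β (ρ' := pviiRho 𝔓 m) (by linarith) ⟨w, hw, hvw⟩).2.1
  · -- clW
    intro x hx y hy
    rw [hW]
    refine Or.inl (pvge3_ball_sh _ _ _ (closedBall_subset_closedBall (by have := pveg_R_pos hL; linarith) (pvge6_cl_i hL hT hf z (!β) β (ρ := pviiRho 𝔓 m) m0.le (by linarith) ⟨x, hx, ?_⟩)))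
    rwa [mem_closedBall, dist_eq_norm] at hy
  · -- roomY
    rintro v ⟨_, ⟨w, hw, rfl⟩, hvw⟩
    obtain ⟨b1, b2, b3⟩ := G.box β w hw
    simp only [pvge5E, if_true, one_mul] at b1 b2
    have e : pvthSim (pvieZi 𝔓 m z t) ((𝔓.Γ m).din t * (pvlmDel c m : ℝ)) w = pvthSim (pvieZi 𝔓 m z t) ((𝔓.Γ m).din t) ((pvlmDel c m : ℝ) * w) := by unfold pvthSim; ring
    rw [e] at hvw
    have hre : (((pvlmDel c m : ℝ) : ℂ) * w).re = pvlmDel c m * w.re := re_ofReal_mul _ _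
    have him : (((pvlmDel c m : ℝ) : ℂ) * w).im = pvlmDel c m * w.im := im_ofReal_mul _ _
    refine hYc (pvz7_door_i hL hT z (σ := pvge3Q c m / 16) (w := (pvlmDel c m : ℝ) * w) ?_ ?_ ?_ (by rwa [mem_closedBall, dist_eq_norm]))
    · rw [hre]; nlinarith
    · rw [hre]; unfold pvegA; nlinarith
    · rw [him, abs_mul, abs_of_pos hδ]; nlinarith
  · -- roomF
    have h1 := pvge6_room_Ka_i hL hT hf G hO z β hw (by rw [pvge3_S_sh]; exact hs)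
    refine ⟨by rw [hW]; exact Or.inr h1, pvho_box_off ((pveg_Ra_off (pveg_door_i hL hT)).mono_left (pveg_Ka_sub_Ra _ _ _ _ _ _ _ _ _)) h1⟩
  · -- roomT
    exact pvge5_room_i G hδ hdd (pvge6_q_eq c m) (pvhl_Sp 𝔓 m z t) (pvhl_lam 𝔓 m z t)
  · -- tgt
    have := pvge5_tgt (Yc := z + pvegYm 𝔓 m t) G hδ (pvge5_k_i hdd) β w hw
    rw [pvhl_Sp] at this
    linarith
  · -- ftS
    have h1 : ‖w - pvieZi 𝔓 m z t‖ < 2 * (pvlmDel c m / 40) := by simpa [pvkdP, pvilLi, pvilPlug, pvilRd, dist_eq_norm] using hw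
    have h2 := abs_le.1 (pvge2_S_lip hu (z + pvegYm 𝔓 m t) w (pvieZi 𝔓 m z t))
    rw [pvhl_Sp] at h2
    linarith [h2.1]
  · -- gm
    obtain ⟨w₀, hw₀, rfl⟩ := hw
    have h1 : pvthSim (pvieZi 𝔓 m z t) ((𝔓.Γ m).din t) w₀ - z ∈ pvegIYa 𝔓 m t := hY2 (pvge3_mem_sh.1 hY)
    have h2 := pveg_iYa_front hL hT h1
    have e : (pvthSim (pvieZi 𝔓 m z t) ((𝔓.Γ m).din t) w₀ - z - (𝔓.Γ m).pin t) * (starRingEnd ℂ) ((𝔓.Γ m).din t) = w₀ := by
      have h4 : (𝔓.Γ m).din t * (starRingEnd ℂ) ((𝔓.Γ m).din t) = 1 := by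
        have := hdd
        rw [map_neg, mul_neg, neg_inj] at this
        exact this
      unfold pvthSim pvieZi
      linear_combination w₀ * h4
    rw [e] at h2
    have h5 : w₀.re ≤ -(pvlmDel c m / 40 / 2) := hw₀.2.1
    have := pveg_A_pos c m
    linarith
  · -- offBox
    rw [Set.disjoint_left]
    intro w hw hb
    have h1 : ‖w - pvieZi 𝔓 m z t‖ < 2 * (pvlmDel c m / 40) := by simpa [pvkdP, pvilLi, pvilPlug, pvilRd, dist_eq_norm] using hw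
    have hb' : w ∈ pvwSq z (pviwRad 𝔓 m t) := by
      have : (starRingEnd ℂ) (1 : ℂ) * w ∈ pvwSq ((starRingEnd ℂ) (1 : ℂ) * z) (pviwRad 𝔓 m t) := hb
      simpa using this
    refine pvhl_off_box (fun hx => ?_) hb'
    rw [pvge3_mem_sh] at hx
    refine Set.disjoint_left.1 (pveg_D_off (pveg_door_i hL hT)) ?_ hx
    show pvccN (w - z - (𝔓.Γ m).pin t) < pvlmDel c m / 4
    have e : w - z - (𝔓.Γ m).pin t = w - pvieZi 𝔓 m z t := by unfold pvieZi; ring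
    rw [e]
    exact lt_of_le_of_lt (max_le (abs_re_le_norm _) (abs_im_le_norm _)) (by linarith)
  · -- offTip
    rw [Set.disjoint_left]
    intro w hw hx
    have h1 : ‖w - pvieZi 𝔓 m z t‖ < 2 * (pvlmDel c m / 40) := by simpa [pvkdP, pvilLi, pvilPlug, pvilRd, dist_eq_norm] using hw
    have h2 := abs_le.1 (pvge2_S_lip hu (z + pvegYm 𝔓 m t) w (pvieZi 𝔓 m z t))
    rw [pvhl_Sp] at h2
    have h4 : ‖w - (z + pvegYm 𝔓 m t)‖ ≤ 𝔓.num.rho / 10 * pvlmH m := pvho_cell hc (pvlm_H_pos m) hx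
    have h5 := abs_le.1 (pvge2_S_lip hu (z + pvegYm 𝔓 m t) w (z + pvegYm 𝔓 m t))
    have h6 : pvge2S (z + pvegYm 𝔓 m t) (-(𝔓.Γ m).din t) (z + pvegYm 𝔓 m t) = 0 := by simp [pvge2S]
    rw [h6] at h5
    have h7 := (pveg_door_i hL hT).s_lo
    have hR : pvegR 𝔓 m = 𝔓.num.rho * pvlmH m := rfl
    linarith [h2.1, h5.2]

end inst

/-! ## at the engine of record -/

section rec

variable {N : PvxNums} (hN : N.Ok) {c : ℝ} (nb : PvnaNb N) {S : Set (Conf PvPt)} {𝔱 : PvhfTr}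

/-- **THE STATEMENT OF `exit_pvii_ev`** (116, `Exit/FrcI`), ANY SIDE EVENT `S` inside the placed `S⁺` of a truncation `𝔱` whose rooms and targets are those of record (`Pvge5Side` of 298), with the mesh of the unit door region (`hHf`: only for the third conjunct, 46 / 206) -/
theorem pvhl_exit_ev (hG : PvhfGeo pvkgG.toPvkdPlug 𝔱) (G5 : Pvge5Side (1 / 40) true (𝔱.Ln true) (𝔱.Dr true)) (hS : S ⊆ pvhfS pvkgG.toPvkdPlug 𝔱 true)
    (hHf : ∀ σ ∈ S, PvtrMesh (pvwyMu N.rho3) pvkgO (cfSites σ)) (c0 : 0 < c) (q₀ : ℝ) {m : ℕ} (hm : (pvxParOf N hN c).m0 ≤ m) (z : ℂ) (t : pvxTau N) :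
    ∀ᶠ ε in 𝓝[>] (0 : ℝ), ∀ η₀ ∈ pvilUi (pvxParOf N hN c).num ((pvxParOf N hN c).col t) (pvilPin (pvxParOf N hN c) m z t), η₀ ∈ pviiMc (pvxParOf N hN c) m z t → CfOK η₀ →
      ∀ η, PvjeFin (pvjeI (pvxParOf N hN c) (pvnaEngRec N hN c nb) pvilQ m ε z t) (pviiT (pvxParOf N hN c) (pvnaEngRec N hN c nb) S q₀ nb.b m z t) η₀ η →
        η ∈ pvilMi (pvxParOf N hN c) (pvnaEngRec N hN c nb) m ε z t (pvilZi (pvxParOf N hN c) m z t η₀) := by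
  have hE := pvnr_wf hN c0 nb
  filter_upwards [pvji_I_rec hE ⟨nb, rfl⟩ pvml_wm_Q hm z t] with ε Wf η₀ hU hMc _ η hF
  obtain ⟨𝔖₀, h₀⟩ := hU
  obtain ⟨Cth, r, κs, hW⟩ := hE.wf
  have hL := (pvea_par hN c0).lev hm
  have hT := pvea_tyOk (c := c) hN t
  have hf := pvz7_rec_fine hN c0 hm
  have h3 : 0 < (pvxParOf N hN c).num.rho3 := hN.msk0
  have hc := (pvea_par hN c0).cm_small t
  have hδ := pvlm_Del_pos c m
  obtain ⟨m1, m2, m3⟩ := pvho_mu hL h3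
  have hμ0 : 0 ≤ pvilMu (pvxParOf N hN c) m := by linarith
  have off := pvjv_carf_off_i hW hm ε hT
  have hR : pvegR (pvxParOf N hN c) m = (pvxParOf N hN c).num.rho * pvlmH m := rfl
  have hY1 : pvegIYc (pvxParOf N hN c) m t ⊆ (pvnaEngRec N hN c nb).iY m t := by
    rw [pvnr_iY]
  have Λ := pvhl_lay_i (𝔈 := pvnaEngRec N hN c nb) (z := z) (𝔱 := 𝔱) hL hT hf h3 hc (pvnr_iM N hN c nb m t) (pvnr_iK N hN c nb m t)
    (by rw [pvim9_O0]; exact pvcc_sq_mono _ (by unfold pvge3Q; linarith)) hY1 (by rw [pvnr_iY]; exact pvey_iYc_sub_iYa hL hμ0 t) (by rw [pvnr_iY]; exact pvey_sh_iYc_co hL hμ0 hT z) G5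
  have A := pvhl_A_i (pvho_num_par hN c) hL hT hf h3 hc Wf (pvnr_iM N hN c nb m t) (pvjv_carf_hb _ (pvxo_wf N hN c).toWfB (pvjv_carf_b2 N hN c) m t)
    (pvjv_carf_hr _ (pvxo_wf N hN c).toWfB (by linarith) t) off.1 off.2 Λ
    ((pvz7_mouth_i z (by linarith)).trans (image_mono hY1)) hG hδ (by show (0 : ℝ) < 1 / 40 / 16; norm_num) (by show pvlmDel c m * (1 / 40 / 16) ≤ pvlmDel c m / 40 / 16; linarith)
    (pvyo_plug_rd _ m) (fun η h => hS h) Subset.rfl hMc h₀ hF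
  exact ⟨⟨A.1, A.2⟩, pvim9_mesh hN nb q₀ c0 hm hHf hMc hF⟩

end rec

end Claimed.Agent.R289
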