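-- KEEP
import Claimed.Agent.R289.Exit.FrcIQ
import Claimed.Agent.R289.Exit.FrcIDefs
import Claimed.Agent.R289.Exit.FrcIEvM
import Claimed.Agent.R289.Exit.FrcWf
import Claimed.Agent.R289.Exit.FrcOq
import Claimed.Agent.R289.Exit.ParGr
import Claimed.Agent.R289.Tr.FrcCarF

/-!
# Row 289 (S0537), THE WALL, ROAD E, E10 AT THE MODEL, file Exit/FrcIQR : **[DET.ev] OF THE LAST LINK `door plug → t` AT THE ENGINE OF RECORD = THE STATEMENT OF `exit_pvii_ev` (116, `Exit/FrcI`) VERBATIM**      (helper267; prefix `pvzqj_` continued)      0 sorry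

`pvzqj_ev` (`Exit/FrcIQ`: generic engine + four equations) at `pvnaEngRec N hN c nb`, tests `pviiT .. (pvnaHf N 0) ..`;   mesh of the window: `pvim9_mesh` of 46 (206 173 10);   `Wf` of the end: `pvji_I_rec` of 1.
-/

set_option autoImplicit false

namespace Claimed.Agent.R289

open Set Metric MeasureTheory Filter Topology Claims.C0465
open scoped ENNReal

section rec

variable {N : PvxNums} (hN : N.Ok) {c : ℝ} (nb : PvnaNb N)

/-- the rooms and targets of the truncation of record are those of 174 -/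
theorem pvzqj_side_rec (N : PvxNums) : Pvge5Side (1 / 40) true ((pvnaT N).Ln true) ((pvnaT N).Dr true) := by
  have ha : pvkgG.a = 1 / 40 := rfl
  have h := pvge5_side_Tw (r₀ := pvkgG.a) (by rw [ha]; norm_num) pvk2Es true
  rw [ha] at h
  rw [pvna_T_Ln, pvna_T_Dr]
  unfold pvk2T
  rw [ha]
  exact h

theorem pvzqj_kit_O (m : ℕ) (ε : ℝ) : ((pvnaEngRec N hN c nb).kit m ε).O₀ = (pvnaInRec N hN c nb).O0 m := (pvnr_kit_O N hN c nb m ε).trans (pvnr_O0 N hN c nb m).symm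

/-- the side event of the tests of record is the placed `S⁺` of the truncation of record -/
theorem pvzqj_side_ev (q₀ : ℝ) (m : ℕ) (z : ℂ) (t : pvxTau N) : ∀ η ∈ (pviiT (pvxParOf N hN c) (pvnaEngRec N hN c nb) (pvnaHf N 0) q₀ nb.b m z t).ℋ,
    pvdpT (pvieZi (pvxParOf N hN c) m z t) (((pvxParOf N hN c).Γ m).din t * (pvlmDel c m : ℝ)) ((pvxParOf N hN c).col t) η ∈ pvhfS pvkgG.toPvkdPlug (pvnaT N) true := by
  intro η hη
  have h : pvdpT (pvieZi (pvxParOf N hN c) m z t) (((pvxParOf N hN c).Γ m).din t * (pvlmDel c m : ℝ)) ((pvxParOf N hN c).col t) η ∈ pvnaHf N 0 := hη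
  rw [pvna_Hf_S] at h
  exact h

/-- **THE STATEMENT OF `exit_pvii_ev`** -/
theorem pvzqj_ev_rec (c0 : 0 < c) (q₀ : ℝ) {m : ℕ} (hm : (pvxParOf N hN c).m0 ≤ m) (z : ℂ) (t : pvxTau N) :
    ∀ᶠ ε in 𝓝[>] (0 : ℝ), ∀ η₀ ∈ pvilUi (pvxParOf N hN c).num ((pvxParOf N hN c).col t) (pvilPin (pvxParOf N hN c) m z t), η₀ ∈ pviiMc (pvxParOf N hN c) m z t → CfOK η₀ →
      ∀ η, PvjeFin (pvjeI (pvxParOf N hN c) (pvnaEngRec N hN c nb) pvilQ m ε z t) (pviiT (pvxParOf N hN c) (pvnaEngRec N hN c nb) (pvnaHf N 0) q₀ nb.b m z t) η₀ η →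
        η ∈ pvilMi (pvxParOf N hN c) (pvnaEngRec N hN c nb) m ε z t (pvilZi (pvxParOf N hN c) m z t η₀) := by
  filter_upwards [pvji_I_rec (pvnr_wf hN c0 nb) ⟨nb, rfl⟩ pvml_wm_Q hm z t] with ε W η₀ hU hMc _ η hF
  have hδ := pvlm_Del_pos c m
  have hμ1 := pvim9_Mu_le (c := c) hN m
  have hμ0 := pvim9_Mu_pos (c := c) hN m
  have hO0 := pvim9_O0 hN nb (c := c) m
  refine pvzqj_ev (O₀ := (pvnaInRec N hN c nb).O0) (𝔭 := pvkgG.toPvkdPlug) (𝔱 := pvnaT N) (pvho_num_par hN c) (pvqh_lev hN c0 hm) (pvqh_tyOk hN c t) (pvuo_fine hN c0 hm) hN.msk0 (pvqh_cm hN c t)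
    (pvjv_carf_hb _ (pvxo_wf N hN c).toWfB (pvjv_carf_b2 N hN c) m t) (pvjv_carf_hr _ (pvxo_wf N hN c).toWfB (by linarith) t) W (pvnr_iM N hN c nb m t) (pvnr_iK N hN c nb m t) (pvnr_iY N hN c nb m t) (pvzqj_kit_O hN nb m ε) ?_ ?_ (pvzqj_side_rec N) (pvna_geo hN) (pvyo_plug_rd (pvxParOf N hN c) m)
    (pvzqj_side_ev hN nb q₀ m z t) inter_subset_left hMc hU hF (pvim9_mesh hN nb q₀ c0 hm (fun _ h => pvna_Hf_mesh N h) hMc hF)
  · rw [hO0]
    intro w hw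
    have h1 : |(w - 0).re| ≤ 3 * (pvlmDel c m / 40) := hw.1
    have h2 : |(w - 0).im| ≤ 3 * (pvlmDel c m / 40) := hw.2
    show max |(w - 0).re| |(w - 0).im| < _
    exact max_lt (by linarith) (by linarith)
  · rw [hO0]
    exact pvcc_sq_mono _ (by show _ ≤ 13 * (pvlmDel c m / 40) / 4; linarith)

end rec

end Claimed.Agent.R289
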