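-- KEEP
import Claimed.Agent.R289.Exit.FrcOE
import Claimed.Agent.R289.Exit.FrcWf
import Claimed.Agent.R289.Exit.FrcOq
import Claimed.Agent.R289.Exit.ParGr
import Claimed.Agent.R289.Tr.FrcDetA
import Claimed.Agent.R289.Tr.HookColF
import Claimed.Agent.R289.Tr.HookOL

/-!
# Row 289 (S0537), THE WALL, ROAD E, E10, file Exit/FrcOW : LINK o, THE WRAP OF `pvho_ev_o` (266, `Tr/FrcDetA`) AT THE RECORD      (helper61, second cutter by post of 243; prefix `pvo6_`)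

EVERY hypothesis of `pvho_ev_o` OTHER THAN THE REGION RECORD `Λ : PvhoLayO ..` is paid here at `pvxParOf N hN c`, `pvnaEngRec N hN c nb`, `pvj0T` (`Exit/FrcODefs`).      0 sorry.
* `pvo6Rs = R / 4`, `pvo6Rt = R / 10 + 4 μ₀`, `μ₀ = pvj0Rho = pvilMu / 20`, **`pvo6_tip`** : `PvhoTip` at the record
* **`pvo6_ev`** : `W : (pvjeO ..).Wf ε`, `Θ : PvhoTip .. rs rt`, `hrt : ∀ β, (β == col t, eC β :: eN β :: tt β) ∈ pvge3PatO ..`, `Λ` (cell `pvge3Dl c m`, rooms / targets of the half lanes `pvkdAt zo (dout * δ_m) ((pvnaT N).Ln false β)`, `.Dr false β`), `hU hMc hF hmesh` ⟹ `η ∈ pvilMo ..`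
* the legs of record by relative colour: `pvo6EC pvo6EN pvo6TT pvo6ED`, **`pvo6_rt_mem`** = `hrt` at them
* `Pvo6Lay` (the record, data hidden), **`pvo6_ev_all`** : `(∀ᶠ ε, Pvo6Lay ..) →` THE STATEMENT OF `exit_pvj0_ev` (`Exit/FrcO`) VERBATIM (mesh `:= pvj6_mesh`)
* sec. 2  **`pvo6_lay`** : `PvhoLayO ..` at the legs of record, ANY engine with `hM hK hY hO` (`oM = pvegOM`, `oK = pvegOKa 𝔓 O₀`, `oY = pvegOYc`, door region `O₀ m`), any truncation with `Pvge5Side r₀ false Ln Dr`   (`pvo6_gate_cut`, `pvo6_room_strip`, `pvo6_tgt`, `pvo6_lane_eq`, `pvo6_win3`)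
* sec. 3  AT THE RECORD: `pvo6_O0`, `pvo6_O0_in`, `pvo6_side_rec`, **`pvo6_lay_rec`** : `Pvo6Lay c N hN nb m z t ε` FOR EVERY `ε`;   **`pvo6_ev_rec` = THE STATEMENT OF `exit_pvj0_ev` VERBATIM, PROVED** (only leaf below: `pvj6_mesh`;   `pvj6_run` is NOT used)
-/

set_option autoImplicit false

namespace Claimed.Agent.R289

open Set Metric MeasureTheory Filter Topology Claims.C0465
open scoped ENNReal

section wrap

variable {c : ℝ} (c0 : 0 < c) (N : PvxNums) (hN : N.Ok) (nb : PvnaNb N) (q₀ : ℝ) {m : ℕ} (hm : (pvxParOf N hN c).m0 ≤ m) (z : ℂ) (t : pvxTau N)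

/-- the small mouth of record -/
noncomputable def pvo6Rs (m : ℕ) : ℝ := pvegR (pvxParOf N hN c) m / 4
/-- the tip face of record -/
noncomputable def pvo6Rt (m : ℕ) : ℝ := pvegR (pvxParOf N hN c) m / 10 + 4 * pvj0Rho (pvxParOf N hN c) m

include c0 hm in
/-- **THE NUMBERS AT THE TIP, AT THE RECORD** -/
theorem pvo6_tip : PvhoTip (pvxParOf N hN c) m t (pvj0Rho (pvxParOf N hN c) m) (pvo6Rs (c := c) N hN m) (pvo6Rt (c := c) N hN m) := by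
  have hW : (pvxParOf N hN c).WfB := (pvxo_wf N hN c).toWfB
  have hρ : 0 < pvj0Rho (pvxParOf N hN c) m := pvj6_rho_pos _ hN.msk0 m
  have hf := pvuo_fine hN c0 hm
  have h1 := pvlm_Del_pos c m
  have h2 : pvilMu (pvxParOf N hN c) m ≤ pvlmDel c m / 1000 := by
    unfold pvilMu
    exact div_le_div_of_nonneg_right (min_le_left _ _) (by norm_num)
  have h4 : pvj0Rho (pvxParOf N hN c) m ≤ pvlmDel c m / 20000 := by
    unfold pvj0Rho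
    linarith
  have h3 : 3 * pvj0Rho (pvxParOf N hN c) m ≤ pvlmDel c m := by linarith
  have e : pvegR (pvxParOf N hN c) m = (pvxParOf N hN c).num.rho * pvlmH m := rfl
  refine ⟨hρ, ?_, h3, pvjv_carf_hr _ hW h3 t, ?_, ?_, ?_, ?_⟩ <;> (try simp only [pvo6Rs, pvo6Rt]) <;> rw [← e] <;> linarith

variable {ε : ℝ} {rs rt e₀ ρl : ℝ} {eC eN eD : Bool → Set ℂ × ℂ × ℂ} {tt : Bool → List (Set ℂ × ℂ × ℂ)} {Sg : Bool → Set ℂ} {jN jS : Bool → ℕ} {ζd : ℂ} {xc xa xb y0 y1 : Bool → ℝ} {η₀ η : Conf PvPt}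

include c0 hm in
/-- **THE WRAP**: `PvjeDet.ev` of the first link at the record, at one final configuration, from THE REGION RECORD `Λ` alone -/
theorem pvo6_ev (W : (pvjeO (pvxParOf N hN c) (pvnaEngRec N hN c nb) pvilQ m ε z t).Wf ε)
    (Θ : PvhoTip (pvxParOf N hN c) m t (pvj0Rho (pvxParOf N hN c) m) rs rt)
    (hrt : ∀ β : Bool, (β == (pvxParOf N hN c).col t, eC β :: eN β :: tt β) ∈ pvge3PatO (pvxParOf N hN c) m z t)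
    (Λ : PvhoLayO (pvilLo (pvxParOf N hN c) (pvnaEngRec N hN c nb) m z t) (pvxParOf N hN c).num
      (pvieSh z ((pvnaEngRec N hN c nb).oM m t) ∪ pvieSh z ((pvnaEngRec N hN c nb).oK m t) ∪ pvieDoor (pvnaEngRec N hN c nb) m ε (pvieZo (pvxParOf N hN c) m z t) (((pvxParOf N hN c).Γ m).dout t))
      ((pvieSh z ((pvnaEngRec N hN c nb).oM m t) ∪ pvieSh z ((pvnaEngRec N hN c nb).oK m t)) \ pvwSq z (pviwRad (pvxParOf N hN c) m t))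
      (pvilMu (pvxParOf N hN c) m) ((starRingEnd ℂ) (((pvxParOf N hN c).Γ m).dout t)) (((pvxParOf N hN c).ty t).cp (pvlmH m) z) rs (pvj0Rho (pvxParOf N hN c) m) rt e₀ ρl (pvge3Dl c m) eC eN eD tt Sg jN jS ζd
      (fun β => pvkdAt (pvieZo (pvxParOf N hN c) m z t) (((pvxParOf N hN c).Γ m).dout t * pvlmDel c m) ((pvnaT N).Ln false β))
      (fun β => pvkdAt (pvieZo (pvxParOf N hN c) m z t) (((pvxParOf N hN c).Γ m).dout t * pvlmDel c m) ((pvnaT N).Dr false β)) xc xa xb y0 y1)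
    (hU : η₀ ∈ pvilUo (pvxParOf N hN c).num ((pvxParOf N hN c).col t) (pvilPin (pvxParOf N hN c) m z t)) (hMc : η₀ ∈ pvj0Mc (pvxParOf N hN c) m z t)
    (hF : PvjeFin (pvjeO (pvxParOf N hN c) (pvnaEngRec N hN c nb) pvilQ m ε z t) (pvj0T (pvxParOf N hN c) (pvnaEngRec N hN c nb) q₀ nb.b m z t) η₀ η)
    (hmesh : η ∈ pvilMs (pvxParOf N hN c) m (pvilWno (pvxParOf N hN c) (pvnaEngRec N hN c nb) m ε z t (pvilZo (pvxParOf N hN c) m z t η₀))) :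
    η ∈ pvilMo (pvxParOf N hN c) (pvnaEngRec N hN c nb) m ε z t (pvilZo (pvxParOf N hN c) m z t η₀) := by
  obtain ⟨Cth, r, κs, H⟩ := (pvnr_wf hN c0 nb).wf
  obtain ⟨𝔖₀, h₀⟩ := hU
  have hT := pvqh_tyOk hN c t
  have off := pvjv_carf_off_o H hm ε hT
  have hsc : pvkgG.toPvkdPlug.sc (pvlmDel c m) = pvkdP (pvilRd (pvxParOf N hN c) m) := by
    show (pvkdP (1 / 40)).sc (pvlmDel c m) = pvkdP (pvilRd (pvxParOf N hN c) m)
    rw [pvdil_P (pvlm_Del_pos c m)]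
    congr 1
    unfold pvilRd
    ring
  exact pvho_ev_o (𝔭 := pvkgG.toPvkdPlug) (𝔱 := pvnaT N) (s := pvlmDel c m) (pvho_num_par hN c) (pvqh_lev hN c0 hm) hT ((pvea_par hN c0).cp_small t) Θ off.1 off.2 W.MK W.MD rfl Λ
    (pvna_geo hN) (pvlm_Del_pos c m) hsc (fun η h => h) (fun Y κ h β => pvw7_pat_col (mem_of_mem_inter_left h) (hrt β)) hMc h₀ hF hmesh

/-! ### the legs of record, by relative colour -/

/-- the C-shape of the relative colour `β` -/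
noncomputable def pvo6EC {τ : Type} (𝔓 : PvxPar τ c) (m : ℕ) (z : ℂ) (t : τ) (β : Bool) : Set ℂ × ℂ × ℂ :=
  (pvge2RC (z + pvegYp 𝔓 m t) ((𝔓.Γ m).dout t) β (pvge2Aa (pvegR 𝔓 m) β) (pvegR 𝔓 m / 200) (23 * pvegR 𝔓 m / 200) (23 * pvegR 𝔓 m / 200),
    pvge2P (z + pvegYp 𝔓 m t) ((𝔓.Γ m).dout t) β (23 * pvegR 𝔓 m / 200) (-pvge2Aa (pvegR 𝔓 m) β), pvge2P (z + pvegYp 𝔓 m t) ((𝔓.Γ m).dout t) β (23 * pvegR 𝔓 m / 200) (pvge2Aa (pvegR 𝔓 m) β))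

/-- the neck of the relative colour `β` -/
noncomputable def pvo6EN {τ : Type} (𝔓 : PvxPar τ c) (m : ℕ) (z : ℂ) (t : τ) (β : Bool) : Set ℂ × ℂ × ℂ :=
  (pvge2RN (z + pvegYp 𝔓 m t) ((𝔓.Γ m).dout t) β (pvge2Aa (pvegR 𝔓 m) β) (pvegR 𝔓 m / 200) (23 * pvegR 𝔓 m / 200) (3 * pvegR 𝔓 m / 20),
    pvge2P (z + pvegYp 𝔓 m t) ((𝔓.Γ m).dout t) β (23 * pvegR 𝔓 m / 200) (pvge2Aa (pvegR 𝔓 m) β), pvge2P (z + pvegYp 𝔓 m t) ((𝔓.Γ m).dout t) β (3 * pvegR 𝔓 m / 20) (pvge2Aa (pvegR 𝔓 m) β))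

/-- abscissa of the door in the frame of the mouth -/
noncomputable def pvo6Sp {τ : Type} (𝔓 : PvxPar τ c) (m : ℕ) (t : τ) : ℝ := pvegS (pvegYp 𝔓 m t) ((𝔓.Γ m).dout t) ((𝔓.Γ m).pout t)
/-- lateral coordinate of the door in the frame of the mouth -/
noncomputable def pvo6Lam {τ : Type} (𝔓 : PvxPar τ c) (m : ℕ) (t : τ) : ℝ := pvge2Sg true * pvegL (pvegYp 𝔓 m t) ((𝔓.Γ m).dout t) ((𝔓.Γ m).pout t)

/-- lane and bar of the relative colour `β` -/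
noncomputable def pvo6TT {τ : Type} (𝔓 : PvxPar τ c) (m : ℕ) (z : ℂ) (t : τ) (β : Bool) : List (Set ℂ × ℂ × ℂ) :=
  pvge2LegsD (z + pvegYp 𝔓 m t) ((𝔓.Γ m).dout t) β (pvge2Aa (pvegR 𝔓 m) β) (pvegR 𝔓 m / 200) (3 * pvegR 𝔓 m / 20) (pvo6Sp 𝔓 m t - 29 * pvge3Q c m / 8) (pvge3Q c m / 8) (pvge2Lm (pvo6Lam 𝔓 m t) β + pvge3Q c m / 4)

/-- the bar of the relative colour `β` -/
noncomputable def pvo6ED {τ : Type} (𝔓 : PvxPar τ c) (m : ℕ) (z : ℂ) (t : τ) (β : Bool) : Set ℂ × ℂ × ℂ :=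
  (pvge2RV (z + pvegYp 𝔓 m t) ((𝔓.Γ m).dout t) β (pvge2Aa (pvegR 𝔓 m) β) (pvegR 𝔓 m / 200) (pvo6Sp 𝔓 m t - 29 * pvge3Q c m / 8) (pvge3Q c m / 8) (pvge2Lm (pvo6Lam 𝔓 m t) β + pvge3Q c m / 4),
    pvge2P (z + pvegYp 𝔓 m t) ((𝔓.Γ m).dout t) β (pvo6Sp 𝔓 m t - 29 * pvge3Q c m / 8) (pvge2Aa (pvegR 𝔓 m) β),
    pvge2P (z + pvegYp 𝔓 m t) ((𝔓.Γ m).dout t) β (pvo6Sp 𝔓 m t - 29 * pvge3Q c m / 8) (pvge2Lm (pvo6Lam 𝔓 m t) β + pvge3Q c m / 4))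

theorem pvo6_eqns_cite : True := by
  have := @pvo6Rs.eq_1; have := @pvo6Rt.eq_1; have := @pvo6EC.eq_1; have := @pvo6EN.eq_1; have := @pvo6Sp.eq_1; have := @pvo6Lam.eq_1; have := @pvo6TT.eq_1; have := @pvo6ED.eq_1
  trivial

/-- **`hrt` AT THE LEGS OF RECORD** -/
theorem pvo6_rt_mem {τ : Type} (𝔓 : PvxPar τ c) (m : ℕ) (z : ℂ) (t : τ) (β : Bool) : (β == 𝔓.col t, pvo6EC 𝔓 m z t β :: pvo6EN 𝔓 m z t β :: pvo6TT 𝔓 m z t β) ∈ pvge3PatO 𝔓 m z t := by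
  unfold pvge3PatO pvge3PatOb pvge2PatRec pvge2Pat
  cases β
  · refine List.mem_cons_of_mem _ (List.mem_singleton.2 ?_)
    refine Prod.ext ?_ ?_
    · cases 𝔓.col t <;> rfl
    · simp only [pvo6EC, pvo6EN, pvo6TT, pvo6Sp, pvo6Lam, pvge2Rt, pvge2LegsO, pvge2Aa, pvge2Lm, Bool.false_eq_true, if_false, Bool.not_true, List.cons_append, List.nil_append]
  · refine List.mem_cons.2 (Or.inl ?_)
    refine Prod.ext ?_ ?_
    · cases 𝔓.col t <;> rfl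
    · simp only [pvo6EC, pvo6EN, pvo6TT, pvo6Sp, pvo6Lam, pvge2Rt, pvge2LegsO, pvge2Aa, pvge2Lm, if_true, List.cons_append, List.nil_append]

theorem pvo6_ED_mem {τ : Type} (𝔓 : PvxPar τ c) (m : ℕ) (z : ℂ) (t : τ) (β : Bool) : pvo6ED 𝔓 m z t β ∈ pvo6EN 𝔓 m z t β :: pvo6TT 𝔓 m z t β := by
  unfold pvo6TT pvge2LegsD pvo6ED
  simp

/-! ### the statement of `exit_pvj0_ev` -/

/-- **ALL THAT IS LEFT OF `PvjeDet.ev` AT THE FIRST LINK** (regions and numbers only; the data are hidden) -/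
def Pvo6Lay (c : ℝ) (N : PvxNums) (hN : N.Ok) (nb : PvnaNb N) (m : ℕ) (z : ℂ) (t : pvxTau N) (ε : ℝ) : Prop :=
  ∃ (rs rt e₀ ρl : ℝ) (eC eN eD : Bool → Set ℂ × ℂ × ℂ) (tt : Bool → List (Set ℂ × ℂ × ℂ)) (Sg : Bool → Set ℂ) (jN jS : Bool → ℕ) (ζd : ℂ) (xc xa xb y0 y1 : Bool → ℝ),
    PvhoTip (pvxParOf N hN c) m t (pvj0Rho (pvxParOf N hN c) m) rs rt ∧
    (∀ β : Bool, (β == (pvxParOf N hN c).col t, eC β :: eN β :: tt β) ∈ pvge3PatO (pvxParOf N hN c) m z t) ∧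
    PvhoLayO (pvilLo (pvxParOf N hN c) (pvnaEngRec N hN c nb) m z t) (pvxParOf N hN c).num
      (pvieSh z ((pvnaEngRec N hN c nb).oM m t) ∪ pvieSh z ((pvnaEngRec N hN c nb).oK m t) ∪ pvieDoor (pvnaEngRec N hN c nb) m ε (pvieZo (pvxParOf N hN c) m z t) (((pvxParOf N hN c).Γ m).dout t))
      ((pvieSh z ((pvnaEngRec N hN c nb).oM m t) ∪ pvieSh z ((pvnaEngRec N hN c nb).oK m t)) \ pvwSq z (pviwRad (pvxParOf N hN c) m t))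
      (pvilMu (pvxParOf N hN c) m) ((starRingEnd ℂ) (((pvxParOf N hN c).Γ m).dout t)) (((pvxParOf N hN c).ty t).cp (pvlmH m) z) rs (pvj0Rho (pvxParOf N hN c) m) rt e₀ ρl (pvge3Dl c m) eC eN eD tt Sg jN jS ζd
      (fun β => pvkdAt (pvieZo (pvxParOf N hN c) m z t) (((pvxParOf N hN c).Γ m).dout t * pvlmDel c m) ((pvnaT N).Ln false β))
      (fun β => pvkdAt (pvieZo (pvxParOf N hN c) m z t) (((pvxParOf N hN c).Γ m).dout t * pvlmDel c m) ((pvnaT N).Dr false β)) xc xa xb y0 y1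

include c0 hm in
/-- **THE STATEMENT OF `exit_pvj0_ev` (`Exit/FrcO`) VERBATIM, FROM THE REGION RECORD** -/
theorem pvo6_ev_all (hΛ : ∀ᶠ ε in 𝓝[>] (0 : ℝ), Pvo6Lay c N hN nb m z t ε) :
    ∀ᶠ ε in 𝓝[>] (0 : ℝ), ∀ η₀ ∈ pvilUo (pvxParOf N hN c).num ((pvxParOf N hN c).col t) (pvilPin (pvxParOf N hN c) m z t), η₀ ∈ pvj0Mc (pvxParOf N hN c) m z t → CfOK η₀ →
      ∀ η, PvjeFin (pvjeO (pvxParOf N hN c) (pvnaEngRec N hN c nb) pvilQ m ε z t) (pvj0T (pvxParOf N hN c) (pvnaEngRec N hN c nb) q₀ nb.b m z t) η₀ η →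
        η ∈ pvilMo (pvxParOf N hN c) (pvnaEngRec N hN c nb) m ε z t (pvilZo (pvxParOf N hN c) m z t η₀) := by
  filter_upwards [hΛ, pvji_O_rec (pvnr_wf hN c0 nb) ⟨nb, rfl⟩ pvml_wm_Q hm z t] with ε h W η₀ hU hMc hOK η hF
  obtain ⟨rs, rt, e₀, ρl, eC, eN, eD, tt, Sg, jN, jS, ζd, xc, xa, xb, y0, y1, Θ, hrt, Λ⟩ := h
  exact pvo6_ev c0 N hN nb q₀ hm z t W Θ hrt Λ hU hMc hF (pvj6_mesh c0 N hN nb q₀ hm z t ε hU hMc hOK hF)

end wrap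

/-! ## 2. THE REGION RECORD `PvhoLayO` AT THE ROOM OF RECORD `pvegOYc` (model level, any engine with the four equations; on `Tr/HookOL` of 71, mirror of his `Tr/HookILay`) -/

section lay

variable {τ : Type} {c : ℝ} {𝔓 : PvxPar τ c} {m : ℕ} {t : τ} {𝔈 : PvieEng τ} {O₀ : ℕ → Set ℂ} {ε : ℝ} {r₀ s : ℝ} {Ln Dr : Bool → Set ℂ}

/-- off the box with its collar ⟹ off the box -/
theorem pvo6_fr_mono (𝔓 : PvxPar τ c) (m : ℕ) (z : ℂ) (t : τ) (A : Set ℂ) : A \ pvilBx 𝔓 m z t ⊆ A \ pvwSq z (pviwRad 𝔓 m t) := by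
  rintro v ⟨h1, h2⟩
  refine ⟨h1, fun hb => h2 ?_⟩
  have hδ := pvlm_Del_pos c m
  have hb' : |(v - z).re| ≤ pvwRad 𝔓.num (pvlmH m) (𝔓.ty t) (𝔓.ty t).k ∧ |(v - z).im| ≤ pvwRad 𝔓.num (pvlmH m) (𝔓.ty t) (𝔓.ty t).k := hb
  exact ⟨by linarith [hb'.1], by linarith [hb'.2]⟩

/-- the disc of the gate of the door plug -/
theorem pvo6_gate_ball (𝔓 : PvxPar τ c) (m : ℕ) (z : ℂ) (t : τ) {w : ℂ} (hw : w ∈ ball (pvieZo 𝔓 m z t) (pvkdP (pvilRd 𝔓 m)).b) : ‖w - pvieZo 𝔓 m z t‖ < pvlmDel c m / 20 := by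
  rw [mem_ball, dist_eq_norm] at hw
  have e : (pvkdP (pvilRd 𝔓 m)).b = 2 * (pvlmDel c m / 40) := rfl
  rw [e] at hw
  linarith

/-- the disc of the gate lies beyond the cut plane -/
theorem pvo6_gate_cut (hL : PvegLev 𝔓 m) (hT : pviwTyOk 𝔓 t) (z : ℂ) {w : ℂ} (hw : w ∈ ball (pvieZo 𝔓 m z t) (pvkdP (pvilRd 𝔓 m)).b) :
    pvo6Sp 𝔓 m t - 13 * pvge3Q c m / 4 ≤ pvge2S (z + pvegYp 𝔓 m t) ((𝔓.Γ m).dout t) w := by
  have h1 := pvo6_gate_ball 𝔓 m z t hw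
  have hδ := pvlm_Del_pos c m
  have h2 := abs_le.1 (pvge2_S_lip (pvge3_u_o hL hT) (z + pvegYp 𝔓 m t) w (pvieZo 𝔓 m z t))
  have eS : pvge2S (z + pvegYp 𝔓 m t) ((𝔓.Γ m).dout t) (pvieZo 𝔓 m z t) = pvegS (pvegYp 𝔓 m t) ((𝔓.Γ m).dout t) ((𝔓.Γ m).pout t) := pvge3_S_sh _ _ _ _
  rw [eS] at h2
  have hq : pvge3Q c m = pvlmDel c m / 40 := rfl
  unfold pvo6Sp
  rw [hq]
  linarith [h2.1]

/-- before the cut plane the rooms are strips -/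
theorem pvo6_room_strip (hL : PvegLev 𝔓 m) (hT : pviwTyOk 𝔓 t) (G : Pvge5Side r₀ false Ln Dr) (hs : 0 < s) (hq : pvge3Q c m = s * r₀) (z : ℂ) (β : Bool) :
    ∀ w ∈ pvkdAt (pvieZo 𝔓 m z t) ((𝔓.Γ m).dout t * s) (Ln β), pvge2S (z + pvegYp 𝔓 m t) ((𝔓.Γ m).dout t) w < pvo6Sp 𝔓 m t - 13 * pvge3Q c m / 4 →
      pvge2Lm (pvo6Lam 𝔓 m t) β + pvge3Q c m / 2 ≤ pvge2T (z + pvegYp 𝔓 m t) ((𝔓.Γ m).dout t) β w ∧
      pvge2T (z + pvegYp 𝔓 m t) ((𝔓.Γ m).dout t) β w ≤ pvge2Lm (pvo6Lam 𝔓 m t) β + 3 * pvge3Q c m / 2 := by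
  intro w hw hx
  have eS : pvge2S (z + pvegYp 𝔓 m t) ((𝔓.Γ m).dout t) (pvieZo 𝔓 m z t) = pvegS (pvegYp 𝔓 m t) ((𝔓.Γ m).dout t) ((𝔓.Γ m).pout t) := pvge3_S_sh _ _ _ _
  have eT : pvge2T (z + pvegYp 𝔓 m t) ((𝔓.Γ m).dout t) true (pvieZo 𝔓 m z t) = pvge2Sg true * pvegL (pvegYp 𝔓 m t) ((𝔓.Γ m).dout t) ((𝔓.Γ m).pout t) := by
    rw [pvge3_T]; unfold pvieZo; rw [pvge3_L_sh]
  have h := pvge5_room (Yc := z + pvegYp 𝔓 m t) (p := pvieZo 𝔓 m z t) G hs (pvge5_k_o (pvge3_dd_o hL hT)) (sd := id) (fun β => by simp [pvge5E]) β w hw (by rw [eS, ← hq]; exact hx)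
  simp only [id] at h
  rw [pvge5_Lm_o, eT, ← hq] at h
  exact h

/-- the targets lie before the bars -/
theorem pvo6_tgt (hL : PvegLev 𝔓 m) (hT : pviwTyOk 𝔓 t) (G : Pvge5Side r₀ false Ln Dr) (hs : 0 < s) (hq : pvge3Q c m = s * r₀) (z : ℂ) (β : Bool) :
    ∀ w ∈ pvkdAt (pvieZo 𝔓 m z t) ((𝔓.Γ m).dout t * s) (Dr β), pvge2S (z + pvegYp 𝔓 m t) ((𝔓.Γ m).dout t) w ≤ pvo6Sp 𝔓 m t - 15 * pvge3Q c m / 4 := by
  intro w hw
  have eS : pvge2S (z + pvegYp 𝔓 m t) ((𝔓.Γ m).dout t) (pvieZo 𝔓 m z t) = pvegS (pvegYp 𝔓 m t) ((𝔓.Γ m).dout t) ((𝔓.Γ m).pout t) := pvge3_S_sh _ _ _ _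
  have h := pvge5_tgt (Yc := z + pvegYp 𝔓 m t) (p := pvieZo 𝔓 m z t) G hs (pvge5_k_o (pvge3_dd_o hL hT)) β w hw
  rw [eS, ← hq] at h
  have := pvge3_q_pos c m
  unfold pvo6Sp
  linarith

/-- the region of neck, lane and bar -/
theorem pvo6_lane_eq (𝔓 : PvxPar τ c) (m : ℕ) (z : ℂ) (t : τ) (β : Bool) : pvkqRtR (pvo6EN 𝔓 m z t β :: pvo6TT 𝔓 m z t β) =
    pvge4Lane (z + pvegYp 𝔓 m t) ((𝔓.Γ m).dout t) β (pvegR 𝔓 m) (pvge3Q c m) (pvegS (pvegYp 𝔓 m t) ((𝔓.Γ m).dout t) ((𝔓.Γ m).pout t)) (pvge2Aa (pvegR 𝔓 m) β)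
      (pvge2Lm (pvge2Sg true * pvegL (pvegYp 𝔓 m t) ((𝔓.Γ m).dout t) ((𝔓.Γ m).pout t)) β) := by
  ext v
  simp only [pvkqRtR, pvo6EN, pvo6TT, pvge2LegsD, pvge4Lane, pvo6Sp, pvo6Lam, List.mem_cons, List.not_mem_nil, or_false, mem_iUnion, mem_ofPred_eq, exists_prop, mem_union]
  constructor
  · rintro ⟨e, (rfl | rfl | rfl), hv⟩
    · exact Or.inl (Or.inl hv)
    · exact Or.inl (Or.inr hv)
    · exact Or.inr hv
  · rintro ((hv | hv) | hv)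
    · exact ⟨_, Or.inl rfl, hv⟩
    · exact ⟨_, Or.inr (Or.inl rfl), hv⟩
    · exact ⟨_, Or.inr (Or.inr rfl), hv⟩

/-- the room lies in mouth ∪ tile ∪ door region -/
theorem pvo6_win3 (hL : PvegLev 𝔓 m) (h0 : 0 ≤ pvilMu 𝔓 m) (hM : 𝔈.oM m t = pvegOM 𝔓 m t) (hK : 𝔈.oK m t = pvegOKa 𝔓 O₀ m t) (hO : (𝔈.kit m ε).O₀ = O₀ m) (z : ℂ) :
    pvieSh z (pvegOYc 𝔓 m t) ⊆ pvieSh z (𝔈.oM m t) ∪ pvieSh z (𝔈.oK m t) ∪ pvieDoor 𝔈 m ε (pvieZo 𝔓 m z t) ((𝔓.Γ m).dout t) := by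
  rintro _ ⟨w, hw, rfl⟩
  rw [hM, hK]
  rcases pvey_oYc_sub hL h0 O₀ t hw with (h | h) | h
  · exact Or.inl (Or.inl ⟨w, h, rfl⟩)
  · exact Or.inl (Or.inr ⟨w, h, rfl⟩)
  · refine Or.inr ?_
    unfold pvieDoor pvieZo
    rw [hO, ← pvge3_sh_sim]
    exact ⟨w, h, rfl⟩

/-- **THE REGION RECORD OF 266 AT THE ROOM OF RECORD**: VERBATIM the hypothesis `Λ` of `pvho_ev_o` at the legs of record, base mesh `pvj0Rho = μ/20`, `rs = R/4`, `rt = R/10 + 4 μ₀`, `e₀ = 21 R/200`, `ρl = δ/1000`, cell `pvge3Dl` -/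
theorem pvo6_lay (n : PvhoNum 𝔓) (hL : PvegLev 𝔓 m) (hT : pviwTyOk 𝔓 t) (hf : 10000 * pvlmDel c m ≤ pvegR 𝔓 m) (hμ0 : 0 < pvilMu 𝔓 m)
    (hM : 𝔈.oM m t = pvegOM 𝔓 m t) (hK : 𝔈.oK m t = pvegOKa 𝔓 O₀ m t) (hY : 𝔈.oY m t = pvegOYc 𝔓 m t) (hO : (𝔈.kit m ε).O₀ = O₀ m) (hO' : O₀ m ⊆ pvccSq 0 (13 * pvge3Q c m / 4))
    (hO'' : pvwSq 0 (3 * (pvlmDel c m / 40)) ⊆ O₀ m) (G : Pvge5Side r₀ false Ln Dr) (hs : 0 < s) (hq : pvge3Q c m = s * r₀) (z : ℂ) :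
    PvhoLayO (pvilLo 𝔓 𝔈 m z t) 𝔓.num (pvieSh z (𝔈.oM m t) ∪ pvieSh z (𝔈.oK m t) ∪ pvieDoor 𝔈 m ε (pvieZo 𝔓 m z t) ((𝔓.Γ m).dout t)) ((pvieSh z (𝔈.oM m t) ∪ pvieSh z (𝔈.oK m t)) \ pvwSq z (pviwRad 𝔓 m t))
      (pvilMu 𝔓 m) ((starRingEnd ℂ) ((𝔓.Γ m).dout t)) ((𝔓.ty t).cp (pvlmH m) z) (pvegR 𝔓 m / 4) (pvj0Rho 𝔓 m) (pvegR 𝔓 m / 10 + 4 * pvj0Rho 𝔓 m) (21 * pvegR 𝔓 m / 200) (pvlmDel c m / 1000) (pvge3Dl c m)
      (pvo6EC 𝔓 m z t) (pvo6EN 𝔓 m z t) (pvo6ED 𝔓 m z t) (pvo6TT 𝔓 m z t)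
      (fun β => pvge2Cl (z + pvegYp 𝔓 m t) ((𝔓.Γ m).dout t) β (pvge2Aa (pvegR 𝔓 m) β) (23 * pvegR 𝔓 m / 200) (3 * pvegR 𝔓 m / 20) (pvge3Dl c m)) (fun _ => 0) (fun _ => 0) (-(starRingEnd ℂ) ((𝔓.Γ m).dout t))
      (fun β => pvkdAt (pvieZo 𝔓 m z t) ((𝔓.Γ m).dout t * s) (Ln β)) (fun β => pvkdAt (pvieZo 𝔓 m z t) ((𝔓.Γ m).dout t * s) (Dr β))
      (fun _ => -((starRingEnd ℂ) ((𝔓.Γ m).dout t) * (z + pvegYp 𝔓 m t)).re - (pvo6Sp 𝔓 m t - 13 * pvge3Q c m / 4))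
      (fun _ => -((starRingEnd ℂ) ((𝔓.Γ m).dout t) * (z + pvegYp 𝔓 m t)).re - (pvo6Sp 𝔓 m t - 29 * pvge3Q c m / 8 + pvge3Q c m / 8))
      (fun _ => -((starRingEnd ℂ) ((𝔓.Γ m).dout t) * (z + pvegYp 𝔓 m t)).re - (pvo6Sp 𝔓 m t - 29 * pvge3Q c m / 8 - pvge3Q c m / 8))
      (fun β => -((starRingEnd ℂ) ((𝔓.Γ m).dout t) * (z + pvegYp 𝔓 m t)).im - pvge2Sg β * ((pvge2Lm (pvo6Lam 𝔓 m t) β + pvge3Q c m / 2 + (pvge2Lm (pvo6Lam 𝔓 m t) β + 3 * pvge3Q c m / 2)) / 2)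
        - (pvge2Lm (pvo6Lam 𝔓 m t) β + 3 * pvge3Q c m / 2 - (pvge2Lm (pvo6Lam 𝔓 m t) β + pvge3Q c m / 2)) / 2 - pvilMu 𝔓 m)
      (fun β => -((starRingEnd ℂ) ((𝔓.Γ m).dout t) * (z + pvegYp 𝔓 m t)).im - pvge2Sg β * ((pvge2Lm (pvo6Lam 𝔓 m t) β + pvge3Q c m / 2 + (pvge2Lm (pvo6Lam 𝔓 m t) β + 3 * pvge3Q c m / 2)) / 2)
        + (pvge2Lm (pvo6Lam 𝔓 m t) β + 3 * pvge3Q c m / 2 - (pvge2Lm (pvo6Lam 𝔓 m t) β + pvge3Q c m / 2)) / 2 + pvilMu 𝔓 m) := by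
  have hδ := pvlm_Del_pos c m
  have hμ := pvey_mu_le (𝔓 := 𝔓) m
  have hq2 : pvge3Q c m = pvlmDel c m / 40 := rfl
  have hdl : pvge3Dl c m = pvlmDel c m / 1280 := rfl
  have hρ : pvj0Rho 𝔓 m = pvilMu 𝔓 m / 20 := rfl
  have hu := pvge3_u_o hL hT
  have hW := pvo6_win3 (ε := ε) hL hμ0.le hM hK hO z
  have eY : (pvilLo 𝔓 𝔈 m z t).Yin = pvieSh z (pvegOYc 𝔓 m t) := by
    show pvieSh z (𝔈.oY m t) = _
    rw [hY]
  have R := pvge3_rec_o hL hT hf (ρ := pvlmDel c m / 1000) (b := pvegR 𝔓 m / 10 + 4 * pvj0Rho 𝔓 m) (μ := 2 * pvj0Rho 𝔓 m) (by linarith) (by linarith) (by rw [hρ]; linarith) (by rw [hρ]; linarith)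
  have hlat := abs_le.1 R.lat
  have hLm : ∀ β, pvge2Lm (pvo6Lam 𝔓 m t) β ≤ pvlmDel c m := by
    intro β
    cases β
    · simp only [pvge2Lm, Bool.false_eq_true, if_false]; unfold pvo6Lam; linarith [hlat.1]
    · simp only [pvge2Lm, if_true]; unfold pvo6Lam; linarith [hlat.2]
  have hAa : ∀ β, 27 * pvegR 𝔓 m / 200 ≤ pvge2Aa (pvegR 𝔓 m) β := by
    intro β
    cases β
    · simp only [pvge2Aa, Bool.false_eq_true, if_false]; linarith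
    · simp only [pvge2Aa, if_true]; exact le_rfl
  exact
    { mu := hμ0
      rho := by rw [hρ]; linarith
      he := by rw [hρ]; linarith
      bdd := by rw [eY]; exact pvhw8_bdd hL hμ0.le hT z
      co := by rw [eY]; exact pvhw8_co hL hμ0.le hT z
      collar := fun v hv => by
        rw [eY] at hv
        obtain ⟨w, hw, rfl⟩ := hv
        have h1 := pvz7_ball_sh (z := z) (pvey_oYc_collar hL hO'' hw)
        refine h1.trans ?_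
        rintro _ ⟨x, hx, rfl⟩
        rw [hM, hK]
        rcases hx with (h | h) | h
        · exact Or.inl (Or.inl ⟨x, h, rfl⟩)
        · exact Or.inl (Or.inr ⟨x, h, rfl⟩)
        · refine Or.inr ?_
          unfold pvieDoor pvieZo
          rw [hO, ← pvge3_sh_sim]
          exact ⟨x, h, rfl⟩
      dl := pvge3_dl_pos c m
      route := fun β => (pvge3_fit_o hL hT hf z).route _ (pvo6_rt_mem 𝔓 m z t β)
      arm1 := fun β => pvge2_armReg hu (R.num β) (by linarith) le_rfl le_rfl le_rfl Subset.rfl Subset.rfl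
      arm2 := fun β => pvge2_armReg hu (R.num β) le_rfl (by linarith) le_rfl le_rfl Subset.rfl Subset.rfl
      rl := by rw [hdl]; linarith
      mul := hμ
      sgW := fun β => pvhw8_core_win hW (pvhw8_Cl_core hL hT hf hμ0.le (by linarith) β z) le_rfl
      jN4 := fun _ => by norm_num
      jS4 := fun _ => by norm_num
      sN := fun β w hw => Or.inr hw.1
      sS := fun β w hw => Or.inl (Or.inl (Or.inl hw.1))
      mouth := by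
        rw [eY]
        refine (closedBall_subset_closedBall ?_).trans (pvhw8_mouth hf t z (μ := pvilMu 𝔓 m) (by linarith))
        rw [hρ]; linarith
      mid := fun β w hw => by
        rw [pvo6_lane_eq] at hw
        rw [eY]
        refine ⟨pvhw8_lane_core hL hT hf (by linarith) β z hw, fun x hx => ?_⟩
        rw [hM, hK]
        exact pvo6_fr_mono 𝔓 m z t _ (pvhw8_lane_fr hL hT hf hO' (σ := pvilMu 𝔓 m) (by rw [hq2]; linarith) β z ⟨w, hw, by rwa [mem_closedBall, dist_eq_norm] at hx⟩).1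
      leg := pvo6_ED_mem 𝔓 m z t
      nz := pvge4_turn_norm hu
      door := fun β => pvge4_doorReg hu hμ0 (by rw [hq2]; linarith) (by rw [hq2]; linarith) (pvo6_room_strip hL hT G hs hq z β) (by rw [hq2, hdl]; linarith) (by rw [hq2, hdl]; linarith [hLm β, hAa β])
      foot := fun β w hw => by
        rw [pvge4_turn_re (z + pvegYp 𝔓 m t)]
        linarith [pvo6_gate_cut hL hT z hw]
      tgt := fun β w hw => by
        rw [pvge4_turn_re (z + pvegYp 𝔓 m t)]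
        linarith [pvo6_tgt hL hT G hs hq z β w hw]
      room := fun β w hw => by
        rw [eY]
        exact pvhw8_room_core hL hT G hs hq (by linarith) β z hw
      roomF := fun β w hw hx => by
        rw [pvge4_turn_re (z + pvegYp 𝔓 m t)] at hx
        rw [hM, hK]
        exact pvo6_fr_mono 𝔓 m z t _ (pvhw8_room_fr hL hT hO' G hs hq β z w hw (by unfold pvo6Sp at hx; linarith))
      gp := fun w hw => by
        rw [eY] at hw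
        exact pvey_sh_oYc_core n hL hμ0.le hT z w hw
      offBox := Set.disjoint_left.2 fun w hw => (pvhw8_door_far hL hT z (by have := pvo6_gate_ball 𝔓 m z t hw; linarith)).2.1 }

end lay

/-! ## 3. at the record -/

section rec

variable {c : ℝ} (c0 : 0 < c) (N : PvxNums) (hN : N.Ok) (nb : PvnaNb N) (q₀ : ℝ) {m : ℕ} (hm : (pvxParOf N hN c).m0 ≤ m) (z : ℂ) (t : pvxTau N)

/-- the door region of record lies in the OPEN square of half side `13 q / 4` -/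
theorem pvo6_O0 (m : ℕ) : (pvnaInRec N hN c nb).O0 m ⊆ pvccSq 0 (13 * pvge3Q c m / 4) := by
  rw [pvnr_O0]
  have e : pvkgG.O₀ = pvkgO := rfl
  rw [e, pvkgg_O_sq]
  rintro _ ⟨w, hw, rfl⟩
  have hδ := pvlm_Del_pos c m
  have hw' : pvccN (w - 0) < 13 / 160 := hw
  rw [sub_zero] at hw'
  show pvccN (pvthSim 0 (pvlmDel c m) w - 0) < 13 * pvge3Q c m / 4
  unfold pvccN at hw' ⊢
  obtain ⟨h1, h2⟩ := max_lt_iff.1 hw'
  have e1 : (pvthSim 0 (pvlmDel c m : ℂ) w - 0).re = pvlmDel c m * w.re := by simp [pvthSim]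
  have e2 : (pvthSim 0 (pvlmDel c m : ℂ) w - 0).im = pvlmDel c m * w.im := by simp [pvthSim]
  rw [e1, e2, abs_mul, abs_mul, abs_of_pos hδ]
  unfold pvge3Q
  refine max_lt ?_ ?_ <;> nlinarith

theorem pvo6_side_rec : Pvge5Side (1 / 40) false ((pvnaT N).Ln false) ((pvnaT N).Dr false) := pvge5_side_Tw (by norm_num) pvk2Es false

theorem pvo6_kit_O (m : ℕ) (ε : ℝ) : ((pvnaEngRec N hN c nb).kit m ε).O₀ = (pvnaInRec N hN c nb).O0 m := (pvnr_kit_O N hN c nb m ε).trans (pvnr_O0 N hN c nb m).symm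

include c0 hm in
theorem pvo6_O0_in : pvwSq 0 (3 * (pvlmDel c m / 40)) ⊆ (pvnaInRec N hN c nb).O0 m := by
  obtain ⟨Cth, r, κs, H⟩ := (pvnr_wf hN c0 nb).wf
  have h := H.dp_win m hm 1
  rw [pvo6_kit_O] at h
  exact h

theorem pvo6_mu_pos (m : ℕ) : 0 < pvilMu (pvxParOf N hN c) m := by
  have := pvj6_rho_pos (pvxParOf N hN c) hN.msk0 m
  unfold pvj0Rho at this
  linarith

include c0 hm in
/-- **THE REGION RECORD OF THE FIRST LINK AT THE RECORD, EVERY `ε`** -/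
theorem pvo6_lay_rec (ε : ℝ) : Pvo6Lay c N hN nb m z t ε := by
  have Λ := pvo6_lay (ε := ε) (𝔈 := pvnaEngRec N hN c nb) (O₀ := (pvnaInRec N hN c nb).O0) (pvho_num_par hN c) (pvqh_lev hN c0 hm) (pvqh_tyOk hN c t) (pvuo_fine hN c0 hm) (pvo6_mu_pos N hN m)
    (pvnr_oM N hN c nb m t) (pvnr_oK N hN c nb m t) (pvnr_oY N hN c nb m t) (pvo6_kit_O N hN nb m ε) (pvo6_O0 N hN nb m) (pvo6_O0_in c0 N hN nb hm) (pvo6_side_rec N) (pvlm_Del_pos c m)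
      (by unfold pvge3Q; ring) z
  exact ⟨_, _, _, _, _, _, _, _, _, _, _, _, _, _, _, _, _, pvo6_tip c0 N hN hm t, pvo6_rt_mem _ m z t, Λ⟩

include c0 hm in
/-- **THE STATEMENT OF `exit_pvj0_ev` (`Exit/FrcO`) VERBATIM** (the only leaf below: `pvj6_mesh`) -/
theorem pvo6_ev_rec :
    ∀ᶠ ε in 𝓝[>] (0 : ℝ), ∀ η₀ ∈ pvilUo (pvxParOf N hN c).num ((pvxParOf N hN c).col t) (pvilPin (pvxParOf N hN c) m z t), η₀ ∈ pvj0Mc (pvxParOf N hN c) m z t → CfOK η₀ →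
      ∀ η, PvjeFin (pvjeO (pvxParOf N hN c) (pvnaEngRec N hN c nb) pvilQ m ε z t) (pvj0T (pvxParOf N hN c) (pvnaEngRec N hN c nb) q₀ nb.b m z t) η₀ η →
        η ∈ pvilMo (pvxParOf N hN c) (pvnaEngRec N hN c nb) m ε z t (pvilZo (pvxParOf N hN c) m z t η₀) :=
  pvo6_ev_all c0 N hN nb q₀ hm z t (Eventually.of_forall fun ε => pvo6_lay_rec c0 N hN nb hm z t ε)

end rec

end Claimed.Agent.R289
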