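-- KEEP
import Claimed.Agent.R289.Exit.FrcOW
import Claimed.Agent.R289.Exit.ParRec2
import Claimed.Agent.R289.Exit.FrcRooms
import Claimed.Agent.R289.Exit.FrcOG
import Claimed.Agent.R289.Tr.FrcDetOY

/-!
# Row 289 (S0537), THE WALL, ROAD E, E10, file Exit/FrcOLay : LINK o, THE REGION RECORD `PvhoLayO` (266, `Tr/FrcDetA`) AT THE RECORD      (helper44; prefix `pvo5_`)

`pvho_ev_o` (266) = `PvjeDet.ev` of the first link from ONE region record `Λ : PvhoLayO ..`;   `pvo6_ev_all` (61, `Exit/FrcOW`) = the statement of `exit_pvj0_ev` from `∀ᶠ ε, Pvo6Lay c N hN nb m z t ε`.      HERE: `Λ`.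
DATA: legs of record `pvo6EC pvo6EN pvo6TT pvo6ED` of 61 (= the routes of `pvge3PatO` of 298), closing sets `pvge2Cl`, small mouth `R / 4`, `e₀ = 21 R / 200`, `ρl = δ_m / 1000`, cells `pvge3Dl c m`, turn at the door `- conj (dout t)`,
cut plane `s = Sp - 13 q / 4` (= the rim of the door square), rooms and targets of the half lanes `pvhfT (1/40)` scaled by `δ_m`.
* sec. 1  frame of the mouth: `pvo5_lane` (where the lane of record is)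
* sec. 2  at the parameters (ANY `𝔓` with `PvegLev`, `pviwTyOk`, `10000 δ ≤ R`): `pvo5_fresh` (fresh part), `pvo5_collar` ((Rc) placed), `pvo5_room_*` (the placed rooms of the half lanes)
* sec. 3  **`pvo5_lay`** : the record at ANY engine with the regions of record;   sec. 4  **`pvo5_lay_rec`** : `Pvo6Lay c N hN nb m z t ε`, **`pvo5_ev`** = THE STATEMENT OF `exit_pvj0_ev`
-/

set_option autoImplicit false
set_option linter.unusedSectionVars false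
set_option linter.unusedVariables false

namespace Claimed.Agent.R289

open Set Metric Complex Filter Topology Claims.C0465
open scoped ENNReal

/-! ## 1. the frame of the mouth -/

section frame

variable {Y u : ℂ} {r δ q dl ρ b μ Sp lam : ℝ}

/-- **where the lane of record of the relative colour `β` is** (arm of the lane, lane, bar) -/
theorem pvo5_lane (R : Pvge2Rec r δ q dl ρ b μ Sp lam) (β : Bool) {w : ℂ}
    (hw : w ∈ pvge2RN Y u β (pvge2Aa r β) (r / 200) (23 * r / 200) (3 * r / 20) ∪ pvge2RH Y u β (pvge2Aa r β) (r / 200) (3 * r / 20) (Sp - 29 * q / 8) (q / 8) ∪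
      pvge2RV Y u β (pvge2Aa r β) (r / 200) (Sp - 29 * q / 8) (q / 8) (pvge2Lm lam β + q / 4)) :
    11 * r / 100 ≤ pvge2S Y u w ∧ pvge2S Y u w ≤ Sp - 7 * q / 2 ∧ |pvge2T Y u β w| ≤ 33 * r / 200 := by
  have h1 := R.δ0; have h3 := R.fine; have h8 := R.s_lo; have h9 := abs_le.1 R.lat; have h10 := R.qδ; have h11 := R.q0
  cases β <;> simp only [pvge2Aa, pvge2Lm, pvge2RN, pvge2RH, pvge2RV, if_true, if_false, Bool.false_eq_true] at hw <;>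
  rcases hw with (⟨x1, x2, x3, x4⟩ | ⟨x1, x2, x3, x4⟩) | ⟨x1, x2, x3, x4⟩ <;>
  exact ⟨by linarith, by linarith, by rw [abs_le]; constructor <;> linarith⟩

theorem pvo5_S_rel (z Y u v : ℂ) : pvegS Y u (v - z) = pvge2S (z + Y) u v := by
  unfold pvegS pvge2S
  congr 2
  ring

theorem pvo5_L_rel (z Y u v : ℂ) (β : Bool) : pvegL Y u (v - z) = pvge2Sg β * pvge2T (z + Y) u β v := by
  unfold pvegL pvge2T
  rw [← mul_assoc, pvge2_sg_sq, one_mul]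
  congr 2
  ring

theorem pvo5_L_abs (z Y u v : ℂ) (β : Bool) : |pvegL Y u (v - z)| = |pvge2T (z + Y) u β v| := by
  rw [pvo5_L_rel z Y u v β, abs_mul, pvge2_sg_abs, one_mul]

end frame

/-! ## 2. at the parameters -/

section par

variable {τ : Type} {c : ℝ} {𝔓 : PvxPar τ c} {m : ℕ} {t : τ} {O₀ : ℕ → Set ℂ}

/-- the numbers of record of 298 in the names of 61 -/
theorem pvo5_rec (hL : PvegLev 𝔓 m) (hT : pviwTyOk 𝔓 t) (hf : 10000 * pvlmDel c m ≤ pvegR 𝔓 m) {ρ b μ : ℝ} (hρ0 : 0 ≤ ρ) (hρ : ρ ≤ pvlmDel c m) (hb0 : 0 ≤ b + μ) (hb : b + μ ≤ pvegR 𝔓 m / 8) :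
    Pvge2Rec (pvegR 𝔓 m) (pvlmDel c m) (pvge3Q c m) (pvge3Dl c m) ρ b μ (pvo6Sp 𝔓 m t) (pvo6Lam 𝔓 m t) := pvge3_rec_o hL hT hf hρ0 hρ hb0 hb

theorem pvo5_lam (𝔓 : PvxPar τ c) (m : ℕ) (t : τ) : pvegL (pvegYp 𝔓 m t) ((𝔓.Γ m).dout t) ((𝔓.Γ m).pout t) = pvo6Lam 𝔓 m t := by
  simp [pvo6Lam, pvge2Sg]

/-- the door square of level `m` -/
theorem pvo5_O_sub (c : ℝ) (m : ℕ) : pvthSim 0 (pvlmDel c m : ℂ) '' pvkgO ⊆ pvccSq 0 (13 * pvge3Q c m / 4) := by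
  rintro _ ⟨w, ⟨h1, h2, h3, h4⟩, rfl⟩
  have hD := pvlm_Del_pos c m
  show max |(pvthSim 0 (pvlmDel c m : ℂ) w - 0).re| |(pvthSim 0 (pvlmDel c m : ℂ) w - 0).im| < 13 * pvge3Q c m / 4
  have e1 : (pvthSim 0 (pvlmDel c m : ℂ) w - 0).re = pvlmDel c m * w.re := by simp [pvthSim]
  have e2 : (pvthSim 0 (pvlmDel c m : ℂ) w - 0).im = pvlmDel c m * w.im := by simp [pvthSim]
  unfold pvge3Q
  rw [e1, e2, max_lt_iff, abs_lt, abs_lt]
  refine ⟨⟨?_, ?_⟩, ?_, ?_⟩ <;> nlinarith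

/-- the line `dp_win` -/
theorem pvo5_O_win (c : ℝ) (m : ℕ) : pvwSq 0 (3 * (pvlmDel c m / 40)) ⊆ pvthSim 0 (pvlmDel c m : ℂ) '' pvkgO := by
  intro x hx
  have hD := pvlm_Del_pos c m
  have hx' : |x.re| ≤ 3 * (pvlmDel c m / 40) ∧ |x.im| ≤ 3 * (pvlmDel c m / 40) := by simpa [pvwSq] using hx
  obtain ⟨a1, a2⟩ := abs_le.1 hx'.1
  obtain ⟨b1, b2⟩ := abs_le.1 hx'.2
  have hne : (pvlmDel c m : ℂ) ≠ 0 := by exact_mod_cast hD.ne'
  refine ⟨x / (pvlmDel c m : ℂ), ⟨?_, ?_, ?_, ?_⟩, ?_⟩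
  · rw [Complex.div_ofReal_re, lt_div_iff₀ hD]; linarith
  · rw [Complex.div_ofReal_re, div_lt_iff₀ hD]; linarith
  · rw [Complex.div_ofReal_im, lt_div_iff₀ hD]; linarith
  · rw [Complex.div_ofReal_im, div_lt_iff₀ hD]; linarith
  · unfold pvthSim
    field_simp
    ring

/-- **THE FRESH PART**: a point in front of the collar of the box, before the rim of the door square, laterally within `R / 5` of the door -/
theorem pvo5_fresh (hL : PvegLev 𝔓 m) (hT : pviwTyOk 𝔓 t) (hO : O₀ m = pvthSim 0 (pvlmDel c m : ℂ) '' pvkgO) (z : ℂ) {v : ℂ}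
    (h1 : pvegR 𝔓 m / 10 + 2 * pvlmDel c m ≤ pvge2S (z + pvegYp 𝔓 m t) ((𝔓.Γ m).dout t) v) (h2 : pvge2S (z + pvegYp 𝔓 m t) ((𝔓.Γ m).dout t) v ≤ pvo6Sp 𝔓 m t - 13 * pvge3Q c m / 4)
    (h3 : |pvegL (pvegYp 𝔓 m t) ((𝔓.Γ m).dout t) (v - z) - pvo6Lam 𝔓 m t| ≤ pvegR 𝔓 m / 5) :
    v ∈ (pvieSh z (pvegOM 𝔓 m t) ∪ pvieSh z (pvegOKa 𝔓 O₀ m t)) \ pvwSq z (pviwRad 𝔓 m t) := by
  have hδ := pvlm_Del_pos c m
  have H := pveg_door_o hL hT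
  rw [← pvo5_S_rel] at h1 h2
  refine ⟨?_, fun hb => ?_⟩
  · by_cases hM : v - z ∈ pvegOM 𝔓 m t
    · exact Or.inl (pvge3_mem_sh.2 hM)
    · refine Or.inr (pvge3_mem_sh.2 ⟨⟨⟨h1, ?_, ?_⟩, hM⟩, fun hvO => ?_⟩)
      · have : pvo6Sp 𝔓 m t = pvegS (pvegYp 𝔓 m t) ((𝔓.Γ m).dout t) ((𝔓.Γ m).pout t) := rfl
        rw [← this]
        unfold pvegA
        unfold pvge3Q at h2
        linarith
      · rw [pvo5_lam]; exact h3
      · have := pvge3_O_front (Y := pvegYp 𝔓 m t) (p := (𝔓.Γ m).pout t) (Or.inl (pvge3_dd_o hL hT)) (hO ▸ pvo5_O_sub c m) _ hvO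
        have e : pvo6Sp 𝔓 m t = pvegS (pvegYp 𝔓 m t) ((𝔓.Γ m).dout t) ((𝔓.Γ m).pout t) := rfl
        rw [← e] at this
        linarith
  · have hb' : v - z ∈ pvwSq 0 (pviwRad 𝔓 m t) := by simpa [pvwSq] using hb
    have a1 := pveg_sq_zero H.u4 hb'
    rw [pveg_S_zero (pvegYp 𝔓 m t)] at a1
    have a2 := H.out
    linarith

/-- **(Rc) PLACED** -/
theorem pvo5_collar (hL : PvegLev 𝔓 m) (hO : O₀ m = pvthSim 0 (pvlmDel c m : ℂ) '' pvkgO) (z : ℂ) {v : ℂ} (hv : v ∈ pvieSh z (pvegOYc 𝔓 m t)) :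
    closedBall v (3 * pvilMu 𝔓 m) ⊆ pvieSh z (pvegOM 𝔓 m t) ∪ pvieSh z (pvegOKa 𝔓 O₀ m t) ∪ pvthSim (pvieZo 𝔓 m z t) ((𝔓.Γ m).dout t * pvlmDel c m) '' pvkgO := by
  obtain ⟨v', hv', rfl⟩ := hv
  have h := pvey_oYc_collar hL (O₀ := O₀) (hO ▸ pvo5_O_win c m) hv'
  have e : pvthSim (pvieZo 𝔓 m z t) ((𝔓.Γ m).dout t * pvlmDel c m) '' pvkgO = pvieSh z (pvthSim ((𝔓.Γ m).pout t) ((𝔓.Γ m).dout t) '' O₀ m) := by
    rw [pvge3_sh_sim, hO, pvo4_sim_sim]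
    rfl
  rw [e, pvge3_sh_union, pvge3_sh_union]
  exact pvz7_ball_sh h

/-- a point in front of the side of the box is off the box -/
theorem pvo5_off_box (hL : PvegLev 𝔓 m) (hT : pviwTyOk 𝔓 t) (z : ℂ) {v : ℂ} (h1 : pvegR 𝔓 m / 10 < pvge2S (z + pvegYp 𝔓 m t) ((𝔓.Γ m).dout t) v) : v ∉ pvwSq z (pviwRad 𝔓 m t) := by
  intro hb
  have H := pveg_door_o hL hT
  rw [← pvo5_S_rel] at h1
  have hb' : v - z ∈ pvwSq 0 (pviwRad 𝔓 m t) := by simpa [pvwSq] using hb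
  have a1 := pveg_sq_zero H.u4 hb'
  rw [pveg_S_zero (pvegYp 𝔓 m t)] at a1
  have a2 := H.out
  linarith

/-- the rooms of the entrance half lanes of record, reference frame -/
theorem pvo5_Ln {β : Bool} {w : ℂ} (hw : w ∈ (pvhfT (1 / 40)).Ln false β) :
    -(1 / 8) ≤ w.re ∧ w.re ≤ -(1 / 80) ∧ |w.im| ≤ 3 / 80 ∧ (w.re < -(3 / 40) → 1 / 80 ≤ (if β then w.im else -w.im) ∧ (if β then w.im else -w.im) ≤ 3 / 80) := by
  cases β <;> simp only [pvhfT, pvkdRect, rswRect, if_true, if_false, Bool.false_eq_true, mem_union, mem_ofPred_eq] at hw ⊢ <;>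
  rcases hw with ⟨a1, a2, a3, a4⟩ | ⟨a1, a2, a3, a4⟩ <;>
  exact ⟨by linarith, by linarith, by rw [abs_le]; constructor <;> linarith, fun h => ⟨by linarith, by linarith⟩⟩

/-- the targets of the entrance half lanes of record, reference frame -/
theorem pvo5_Dr {β : Bool} {w : ℂ} (hw : w ∈ (pvhfT (1 / 40)).Dr false β) : w.re ≤ -(1 / 10) := by
  cases β <;> simp only [pvhfT, pvkdRect, rswRect, if_true, if_false, Bool.false_eq_true, mem_ofPred_eq] at hw <;> linarith [hw.2.1]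

theorem pvo5_S_at (hL : PvegLev 𝔓 m) (hT : pviwTyOk 𝔓 t) (z w : ℂ) :
    pvge2S (z + pvegYp 𝔓 m t) ((𝔓.Γ m).dout t) (pvthSim (pvieZo 𝔓 m z t) ((𝔓.Γ m).dout t * pvlmDel c m) w) = pvo6Sp 𝔓 m t + pvlmDel c m * w.re := pvjp_room_S_o hL hT z w

theorem pvo5_T_at (hL : PvegLev 𝔓 m) (hT : pviwTyOk 𝔓 t) (z w : ℂ) (β : Bool) :
    pvge2T (z + pvegYp 𝔓 m t) ((𝔓.Γ m).dout t) β (pvthSim (pvieZo 𝔓 m z t) ((𝔓.Γ m).dout t * pvlmDel c m) w) = pvge2Lm (pvo6Lam 𝔓 m t) β + pvlmDel c m * (if β then w.im else -w.im) := by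
  have h : pvge2T (z + pvegYp 𝔓 m t) ((𝔓.Γ m).dout t) true (pvthSim (pvieZo 𝔓 m z t) ((𝔓.Γ m).dout t * pvlmDel c m) w) = pvo6Lam 𝔓 m t + pvlmDel c m * w.im := pvjp_room_T_o hL hT z w
  cases β
  · have h2 := pvge2_T_flip (z + pvegYp 𝔓 m t) ((𝔓.Γ m).dout t) true (pvthSim (pvieZo 𝔓 m z t) ((𝔓.Γ m).dout t * pvlmDel c m) w)
    rw [Bool.not_true] at h2
    rw [h2, h]
    simp only [pvge2Lm, Bool.false_eq_true, if_false]
    ring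
  · rw [h]
    simp only [pvge2Lm, if_true]

/-- the door in the frame of the mouth -/
theorem pvo5_S_zo (𝔓 : PvxPar τ c) (m : ℕ) (z : ℂ) (t : τ) : pvge2S (z + pvegYp 𝔓 m t) ((𝔓.Γ m).dout t) (pvieZo 𝔓 m z t) = pvo6Sp 𝔓 m t := by
  rw [pvge3_S]
  unfold pvieZo
  rw [pvge3_S_sh]
  rfl

/-- **the placed rooms of the half lanes lie in the `μ`-core of the room of the link** -/
theorem pvo5_room (hL : PvegLev 𝔓 m) (hT : pviwTyOk 𝔓 t) (z : ℂ) {β : Bool} {w : ℂ} (hw : w ∈ (pvhfT (1 / 40)).Ln false β) :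
    closedBall (pvthSim (pvieZo 𝔓 m z t) ((𝔓.Γ m).dout t * pvlmDel c m) w) (pvilMu 𝔓 m) ⊆ pvieSh z (pvegOYc 𝔓 m t) := by
  obtain ⟨a1, a2, a3, -⟩ := pvo5_Ln hw
  have hδ := pvlm_Del_pos c m
  have hμ := pvey_mu_le (𝔓 := 𝔓) m
  have hR := pveg_R_pos hL
  have hf : 64 * pvlmDel c m ≤ pvegR 𝔓 m := hL.fine
  have e : pvthSim (pvieZo 𝔓 m z t) ((𝔓.Γ m).dout t * pvlmDel c m) w = pvthSim (pvieZo 𝔓 m z t) ((𝔓.Γ m).dout t) ((pvlmDel c m : ℂ) * w) := by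
    unfold pvthSim
    ring
  rw [e]
  have a3' : |((pvlmDel c m : ℂ) * w).im| ≤ pvlmDel c m * (3 / 80) := by
    rw [Complex.im_ofReal_mul, abs_mul, abs_of_pos hδ]
    exact mul_le_mul_of_nonneg_left a3 hδ.le
  refine pvz7_door_o hL hT z ?_ ?_ ?_
  · rw [Complex.re_ofReal_mul]; nlinarith
  · rw [Complex.re_ofReal_mul]; unfold pvegA; nlinarith
  · linarith

/-- **beyond the cut plane the placed rooms of the half lanes lie in the fresh part** -/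
theorem pvo5_roomF (hL : PvegLev 𝔓 m) (hT : pviwTyOk 𝔓 t) (hO : O₀ m = pvthSim 0 (pvlmDel c m : ℂ) '' pvkgO) (z : ℂ) {β : Bool} {w : ℂ} (hw : w ∈ (pvhfT (1 / 40)).Ln false β)
    (hc : pvge2S (z + pvegYp 𝔓 m t) ((𝔓.Γ m).dout t) (pvthSim (pvieZo 𝔓 m z t) ((𝔓.Γ m).dout t * pvlmDel c m) w) < pvo6Sp 𝔓 m t - 13 * pvge3Q c m / 4) :
    pvthSim (pvieZo 𝔓 m z t) ((𝔓.Γ m).dout t * pvlmDel c m) w ∈ (pvieSh z (pvegOM 𝔓 m t) ∪ pvieSh z (pvegOKa 𝔓 O₀ m t)) \ pvwSq z (pviwRad 𝔓 m t) := by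
  obtain ⟨a1, a2, a3, -⟩ := pvo5_Ln hw
  have hδ := pvlm_Del_pos c m
  have hR := pveg_R_pos hL
  have hf : 64 * pvlmDel c m ≤ pvegR 𝔓 m := hL.fine
  have H := pveg_door_o hL hT
  have hs : 3 * pvegR 𝔓 m / 8 - 2 * pvlmDel c m ≤ pvo6Sp 𝔓 m t := H.s_lo
  refine pvo5_fresh hL hT hO z ?_ hc.le ?_
  · rw [pvo5_S_at hL hT]; nlinarith
  · rw [pvo5_L_rel z _ _ _ true, pvo5_T_at hL hT]
    simp only [pvge2Sg, pvge2Lm, if_true, one_mul, add_sub_cancel_left]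
    rw [abs_mul, abs_of_pos hδ]
    nlinarith

end par

/-! ## 3. the record at any engine with the regions of record -/

section lay

variable {τ : Type} {c : ℝ} {𝔓 : PvxPar τ c} {𝔈 : PvieEng τ} {m : ℕ} {ε : ℝ} {t : τ} {O₀ : ℕ → Set ℂ} {𝔱 : PvhfTr} {μ₀ rt : ℝ}

/-- the region of the lane of record -/
theorem pvo5_mid_R (𝔓 : PvxPar τ c) (m : ℕ) (z : ℂ) (t : τ) (β : Bool) {w : ℂ} (hw : w ∈ pvkqRtR (pvo6EN 𝔓 m z t β :: pvo6TT 𝔓 m z t β)) :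
    w ∈ pvge2RN (z + pvegYp 𝔓 m t) ((𝔓.Γ m).dout t) β (pvge2Aa (pvegR 𝔓 m) β) (pvegR 𝔓 m / 200) (23 * pvegR 𝔓 m / 200) (3 * pvegR 𝔓 m / 20) ∪
      pvge2RH (z + pvegYp 𝔓 m t) ((𝔓.Γ m).dout t) β (pvge2Aa (pvegR 𝔓 m) β) (pvegR 𝔓 m / 200) (3 * pvegR 𝔓 m / 20) (pvo6Sp 𝔓 m t - 29 * pvge3Q c m / 8) (pvge3Q c m / 8) ∪
      pvge2RV (z + pvegYp 𝔓 m t) ((𝔓.Γ m).dout t) β (pvge2Aa (pvegR 𝔓 m) β) (pvegR 𝔓 m / 200) (pvo6Sp 𝔓 m t - 29 * pvge3Q c m / 8) (pvge3Q c m / 8) (pvge2Lm (pvo6Lam 𝔓 m t) β + pvge3Q c m / 4) := by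
  simp only [pvkqRtR, pvo6TT, pvge2LegsD, List.mem_cons, List.not_mem_nil, or_false, mem_iUnion, mem_ofPred_eq, exists_prop] at hw
  obtain ⟨e, (rfl | rfl | rfl), hw⟩ := hw
  · exact Or.inl (Or.inl hw)
  · exact Or.inl (Or.inr hw)
  · exact Or.inr hw

/-- the region of a route of record lies in the region of the pattern of record -/
theorem pvo5_mid_pat (𝔓 : PvxPar τ c) (m : ℕ) (z : ℂ) (t : τ) (β : Bool) : pvkqRtR (pvo6EN 𝔓 m z t β :: pvo6TT 𝔓 m z t β) ⊆ pvkqPatR (pvge3PatO 𝔓 m z t) := by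
  intro w hw
  simp only [pvkqRtR, mem_iUnion, mem_ofPred_eq, exists_prop] at hw
  obtain ⟨e, he, hw⟩ := hw
  simp only [pvkqPatR, pvkqRtR, mem_iUnion, mem_ofPred_eq, exists_prop]
  exact ⟨_, pvo6_rt_mem 𝔓 m z t β, e, List.mem_cons_of_mem _ he, hw⟩

/-- **THE REGION RECORD OF THE FIRST LINK**, any engine with the regions of record `oM oK oY`, door square `δ_m · pvkgO`, any truncation with the rooms and targets of `pvhfT (1/40)` on the entrance side;   `μ₀` = mesh of the certificate, `rt` = tip face -/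
theorem pvo5_lay (n : PvhoNum 𝔓) (hL : PvegLev 𝔓 m) (hT : pviwTyOk 𝔓 t) (hf : 10000 * pvlmDel c m ≤ pvegR 𝔓 m) (hμ : 0 < pvilMu 𝔓 m) (z : ℂ)
    (hM : 𝔈.oM m t = pvegOM 𝔓 m t) (hK : 𝔈.oK m t = pvegOKa 𝔓 O₀ m t) (hO : O₀ m = pvthSim 0 (pvlmDel c m : ℂ) '' pvkgO) (hY : 𝔈.oY m t = pvegOYc 𝔓 m t)
    (hD : pvieDoor 𝔈 m ε (pvieZo 𝔓 m z t) ((𝔓.Γ m).dout t) = pvthSim (pvieZo 𝔓 m z t) ((𝔓.Γ m).dout t * pvlmDel c m) '' pvkgO)
    (hLn : 𝔱.Ln false = (pvhfT (1 / 40)).Ln false) (hDr : 𝔱.Dr false = (pvhfT (1 / 40)).Dr false)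
    (h0 : 0 ≤ μ₀) (h80 : 80 * μ₀ ≤ pvegR 𝔓 m) (hrt0 : 0 ≤ rt) (hrt : rt + 2 * μ₀ < 21 * pvegR 𝔓 m / 200) :
    PvhoLayO (pvilLo 𝔓 𝔈 m z t) 𝔓.num (pvieSh z (𝔈.oM m t) ∪ pvieSh z (𝔈.oK m t) ∪ pvieDoor 𝔈 m ε (pvieZo 𝔓 m z t) ((𝔓.Γ m).dout t)) ((pvieSh z (𝔈.oM m t) ∪ pvieSh z (𝔈.oK m t)) \ pvwSq z (pviwRad 𝔓 m t))
      (pvilMu 𝔓 m) ((starRingEnd ℂ) ((𝔓.Γ m).dout t)) ((𝔓.ty t).cp (pvlmH m) z) (pvegR 𝔓 m / 4) μ₀ rt (21 * pvegR 𝔓 m / 200) (pvlmDel c m / 1000) (pvge3Dl c m)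
      (pvo6EC 𝔓 m z t) (pvo6EN 𝔓 m z t) (pvo6ED 𝔓 m z t) (pvo6TT 𝔓 m z t)
      (fun β => pvge2Cl (z + pvegYp 𝔓 m t) ((𝔓.Γ m).dout t) β (pvge2Aa (pvegR 𝔓 m) β) (23 * pvegR 𝔓 m / 200) (3 * pvegR 𝔓 m / 20) (pvge3Dl c m)) (fun _ => 0) (fun _ => 0) (-(starRingEnd ℂ) ((𝔓.Γ m).dout t))
      (fun β => pvkdAt (pvieZo 𝔓 m z t) ((𝔓.Γ m).dout t * pvlmDel c m) (𝔱.Ln false β)) (fun β => pvkdAt (pvieZo 𝔓 m z t) ((𝔓.Γ m).dout t * pvlmDel c m) (𝔱.Dr false β))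
      (fun _ => -((starRingEnd ℂ) ((𝔓.Γ m).dout t) * (z + pvegYp 𝔓 m t)).re - (pvo6Sp 𝔓 m t - 13 * pvge3Q c m / 4))
      (fun _ => -((starRingEnd ℂ) ((𝔓.Γ m).dout t) * (z + pvegYp 𝔓 m t)).re - (pvo6Sp 𝔓 m t - 29 * pvge3Q c m / 8 + pvge3Q c m / 8))
      (fun _ => -((starRingEnd ℂ) ((𝔓.Γ m).dout t) * (z + pvegYp 𝔓 m t)).re - (pvo6Sp 𝔓 m t - 29 * pvge3Q c m / 8 - pvge3Q c m / 8))
      (fun β => -((starRingEnd ℂ) ((𝔓.Γ m).dout t) * (z + pvegYp 𝔓 m t)).im - pvge2Sg β * ((pvge2Lm (pvo6Lam 𝔓 m t) β + pvge3Q c m / 2 + (pvge2Lm (pvo6Lam 𝔓 m t) β + 3 * pvge3Q c m / 2)) / 2)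
        - (pvge2Lm (pvo6Lam 𝔓 m t) β + 3 * pvge3Q c m / 2 - (pvge2Lm (pvo6Lam 𝔓 m t) β + pvge3Q c m / 2)) / 2 - pvilMu 𝔓 m)
      (fun β => -((starRingEnd ℂ) ((𝔓.Γ m).dout t) * (z + pvegYp 𝔓 m t)).im - pvge2Sg β * ((pvge2Lm (pvo6Lam 𝔓 m t) β + pvge3Q c m / 2 + (pvge2Lm (pvo6Lam 𝔓 m t) β + 3 * pvge3Q c m / 2)) / 2)
        + (pvge2Lm (pvo6Lam 𝔓 m t) β + 3 * pvge3Q c m / 2 - (pvge2Lm (pvo6Lam 𝔓 m t) β + pvge3Q c m / 2)) / 2 + pvilMu 𝔓 m) := by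
  have hcp : (𝔓.ty t).cp (pvlmH m) z = z + pvegYp 𝔓 m t := rfl
  rw [hM, hK, hD, hLn, hDr, hcp]
  have hYin : (pvilLo 𝔓 𝔈 m z t).Yin = pvieSh z (pvegOYc 𝔓 m t) := by
    show pvieSh z (𝔈.oY m t) = _
    rw [hY]
  have hδ := pvlm_Del_pos c m
  have hμ' := pvey_mu_le (𝔓 := 𝔓) m
  have hR := pveg_R_pos hL
  have hu := pvge3_u_o hL hT
  have hq : pvge3Q c m = pvlmDel c m / 40 := rfl
  have hdl : pvge3Dl c m = pvlmDel c m / 1280 := rfl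
  have Rc := pvo5_rec hL hT hf (ρ := pvlmDel c m / 1000) (b := rt) (μ := 2 * μ₀) (by linarith) (by linarith) (by linarith) (by linarith)
  have hs : 3 * pvegR 𝔓 m / 8 - 2 * pvlmDel c m ≤ pvo6Sp 𝔓 m t := Rc.s_lo
  have hlat := abs_le.1 Rc.lat
  have hmouth : ∀ a : ℝ, a ≤ 5 * pvegR 𝔓 m / 16 - 3 * pvilMu 𝔓 m → closedBall (z + pvegYp 𝔓 m t) a ⊆ pvieSh z (pvegOYc 𝔓 m t) := fun a ha => pvz7_mouth_o z ha
  have arm : ∀ (β : Bool) (xB : ℝ), xB ≤ ((starRingEnd ℂ) ((𝔓.Γ m).dout t) * (z + pvegYp 𝔓 m t)).re + 21 * pvegR 𝔓 m / 200 → ((starRingEnd ℂ) ((𝔓.Γ m).dout t) * (z + pvegYp 𝔓 m t)).re - 21 * pvegR 𝔓 m / 200 ≤ xB →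
      PvhzArmReg ((starRingEnd ℂ) ((𝔓.Γ m).dout t)) xB (((starRingEnd ℂ) ((𝔓.Γ m).dout t) * (z + pvegYp 𝔓 m t)).im - rt) (((starRingEnd ℂ) ((𝔓.Γ m).dout t) * (z + pvegYp 𝔓 m t)).im + rt) (2 * μ₀) (z + pvegYp 𝔓 m t) (pvegR 𝔓 m / 4) (pvlmDel c m / 1000) β
        (pvo6EN 𝔓 m z t β).1 (pvo6EC 𝔓 m z t β).1 (pvge2Cl (z + pvegYp 𝔓 m t) ((𝔓.Γ m).dout t) β (pvge2Aa (pvegR 𝔓 m) β) (23 * pvegR 𝔓 m / 200) (3 * pvegR 𝔓 m / 20) (pvge3Dl c m)) :=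
    fun β xB h1 h2 => pvge2_armReg hu (Rc.num β) h1 h2 le_rfl le_rfl Subset.rfl Subset.rfl
  have collar : ∀ v ∈ pvieSh z (pvegOYc 𝔓 m t), closedBall v (3 * pvilMu 𝔓 m) ⊆ pvieSh z (pvegOM 𝔓 m t) ∪ pvieSh z (pvegOKa 𝔓 O₀ m t) ∪ pvthSim (pvieZo 𝔓 m z t) ((𝔓.Γ m).dout t * pvlmDel c m) '' pvkgO :=
    fun v hv => pvo5_collar hL hO z hv
  exact
    { mu := hμ
      rho := h0
      he := hrt
      bdd := by rw [hYin]; exact pvey_sh_oYc_bdd hL hμ.le hT z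
      co := by rw [hYin]; exact pvey_sh_oYc_co hL hμ.le hT z
      collar := by rw [hYin]; exact collar
      dl := pvge3_dl_pos c m
      route := fun β => pvge2_Rt_route hu (Rc.num β) (Rc.bar β)
      arm1 := fun β => arm β _ (by linarith) le_rfl
      arm2 := fun β => arm β _ le_rfl (by linarith)
      rl := by rw [hdl]; linarith
      mul := hμ'
      sgW := fun β w hw => by
        have h1 : ‖w - (z + pvegYp 𝔓 m t)‖ ≤ pvegR 𝔓 m / 4 := (arm β _ le_rfl (by linarith)).near w ⟨w, Or.inr hw, by rw [sub_self, norm_zero]; linarith⟩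
        have h2 : w ∈ pvieSh z (pvegOYc 𝔓 m t) := hmouth (pvegR 𝔓 m / 4) (by linarith) (by rwa [mem_closedBall, dist_eq_norm])
        exact (closedBall_subset_closedBall (by linarith)).trans (collar w h2)
      jN4 := fun _ => by norm_num
      jS4 := fun _ => by norm_num
      sN := fun β => (pvge2_sd_sub _ _ 0).trans (pvge2_Cl_cellN _)
      sS := fun β => (pvge2_sd_sub _ _ 0).trans (pvge2_Cl_cellS _)
      mouth := by rw [hYin]; exact hmouth _ (by linarith)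
      mid := fun β w hw => by
        rw [hYin]
        refine ⟨pvz7_pat_o hL hT hf (by linarith) z (pvo5_mid_pat 𝔓 m z t β hw), fun v hv => ?_⟩
        obtain ⟨a1, a2, a3⟩ := pvo5_lane Rc β (pvo5_mid_R 𝔓 m z t β hw)
        rw [mem_closedBall, dist_eq_norm] at hv
        have hS := abs_le.1 ((pvge2_S_lip hu (z + pvegYp 𝔓 m t) v w).trans hv)
        have hT' := abs_le.1 ((pvge2_T_lip hu (z + pvegYp 𝔓 m t) β v w).trans hv)
        have a3' := abs_le.1 a3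
        refine pvo5_fresh hL hT hO z (by linarith [hS.1]) (by rw [hq] at a2 ⊢; linarith [hS.2]) ?_
        have b1 : |pvegL (pvegYp 𝔓 m t) ((𝔓.Γ m).dout t) (v - z)| ≤ 33 * pvegR 𝔓 m / 200 + pvilMu 𝔓 m := by
          rw [pvo5_L_abs z _ _ _ β, abs_le]
          constructor <;> linarith [hT'.1, hT'.2, a3'.1, a3'.2]
        have b2 := abs_le.1 b1
        rw [abs_le]
        constructor <;> linarith [b2.1, b2.2, hlat.1, hlat.2]
      leg := pvo6_ED_mem 𝔓 m z t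
      nz := pvge4_turn_norm hu
      door := fun β => pvge4_doorReg hu hμ (by rw [hq]; linarith) (by rw [hq]; linarith) (fun w hw hc => by
          obtain ⟨w', hw', rfl⟩ := hw
          rw [pvo5_S_at hL hT, hq] at hc
          have hre : w'.re < -(3 / 40) := by nlinarith
          obtain ⟨b1, b2⟩ := (pvo5_Ln hw').2.2.2 hre
          rw [pvo5_T_at hL hT, hq]
          constructor <;> nlinarith) (by rw [hq, hdl]; linarith) (by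
          rw [hq, hdl]
          cases β <;> simp only [pvge2Lm, pvge2Aa, if_true, if_false, Bool.false_eq_true] <;> linarith [hlat.1, hlat.2])
      foot := fun β w hw => by
        have hw' : ‖w - pvieZo 𝔓 m z t‖ < 2 * (pvlmDel c m / 40) := by simpa [pvilLo, pvilPlug, pvkdP, pvilRd, dist_eq_norm] using hw
        have hS := abs_le.1 ((pvge2_S_lip hu (z + pvegYp 𝔓 m t) w (pvieZo 𝔓 m z t)).trans hw'.le)
        rw [pvo5_S_zo] at hS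
        rw [pvge4_turn_re (z + pvegYp 𝔓 m t), hq]
        linarith [hS.1]
      tgt := fun β w hw => by
        obtain ⟨w', hw', rfl⟩ := hw
        have := pvo5_Dr hw'
        rw [pvge4_turn_re (z + pvegYp 𝔓 m t), pvo5_S_at hL hT, hq]
        nlinarith
      room := fun β w hw => by
        obtain ⟨w', hw', rfl⟩ := hw
        rw [hYin]
        exact pvo5_room hL hT z hw'
      roomF := fun β w hw hx => by
        obtain ⟨w', hw', rfl⟩ := hw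
        rw [pvge4_turn_re (z + pvegYp 𝔓 m t)] at hx
        exact pvo5_roomF hL hT hO z hw' (by linarith)
      gp := by rw [hYin]; exact pvey_sh_oYc_core n hL hμ.le hT z
      offBox := by
        rw [pvha_bx_std rfl]
        refine Set.disjoint_left.2 fun w hw => ?_
        have hw' : ‖w - pvieZo 𝔓 m z t‖ < 2 * (pvlmDel c m / 40) := by simpa [pvilLo, pvilPlug, pvkdP, pvilRd, dist_eq_norm] using hw
        have hS := abs_le.1 ((pvge2_S_lip hu (z + pvegYp 𝔓 m t) w (pvieZo 𝔓 m z t)).trans hw'.le)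
        rw [pvo5_S_zo] at hS
        exact pvo5_off_box hL hT z (by linarith [hS.1]) }

end lay

/-! ## 4. at the record -/

section rec

variable {c : ℝ} (c0 : 0 < c) (N : PvxNums) (hN : N.Ok) (nb : PvnaNb N) (q₀ : ℝ) {m : ℕ} (hm : (pvxParOf N hN c).m0 ≤ m) (z : ℂ) (t : pvxTau N)

include c0 hm in
/-- **THE REGION RECORD OF THE FIRST LINK AT THE RECORD**, every `ε` -/
theorem pvo5_lay_rec (ε : ℝ) : Pvo6Lay c N hN nb m z t ε := by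
  have hρ : 0 < pvj0Rho (pvxParOf N hN c) m := pvj6_rho_pos _ hN.msk0 m
  have hf := pvuo_fine hN c0 hm
  have h1 := pvlm_Del_pos c m
  have h2 := pvey_mu_le (𝔓 := pvxParOf N hN c) m
  have h4 : pvj0Rho (pvxParOf N hN c) m ≤ pvlmDel c m / 20000 := by
    unfold pvj0Rho
    linarith
  have hD : pvieDoor (pvnaEngRec N hN c nb) m ε (pvieZo (pvxParOf N hN c) m z t) (((pvxParOf N hN c).Γ m).dout t) =
      pvthSim (pvieZo (pvxParOf N hN c) m z t) (((pvxParOf N hN c).Γ m).dout t * pvlmDel c m) '' pvkgO := by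
    unfold pvieDoor
    rw [pvnr_kit_O]
    exact pvo4_sim_sim _ _ _ _
  exact ⟨_, _, _, _, _, _, _, _, _, _, _, _, _, _, _, _, _, pvo6_tip c0 N hN hm t, pvo6_rt_mem _ m z t,
    pvo5_lay (𝔱 := pvnaT N) (pvho_num_par hN c) (pvqh_lev hN c0 hm) (pvqh_tyOk hN c t) hf (pvz7_rec_mu0 hN m) z rfl (pvnr_oK N hN c nb m t) (pvnr_O0 N hN c nb m) rfl hD rfl rfl hρ.le (by linarith)
      (by unfold pvo6Rt; linarith) (by unfold pvo6Rt; linarith)⟩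

include c0 hm in
/-- **THE STATEMENT OF `exit_pvj0_ev` (`Exit/FrcO`) VERBATIM**:   `PvjeDet.ev` OF THE FIRST LINK AT THE RECORD      (266 `pvho_ev_o`, 61 `pvo6_ev_all`, the record of sec. 3) -/
theorem pvo5_ev : ∀ᶠ ε in 𝓝[>] (0 : ℝ), ∀ η₀ ∈ pvilUo (pvxParOf N hN c).num ((pvxParOf N hN c).col t) (pvilPin (pvxParOf N hN c) m z t), η₀ ∈ pvj0Mc (pvxParOf N hN c) m z t → CfOK η₀ →
      ∀ η, PvjeFin (pvjeO (pvxParOf N hN c) (pvnaEngRec N hN c nb) pvilQ m ε z t) (pvj0T (pvxParOf N hN c) (pvnaEngRec N hN c nb) q₀ nb.b m z t) η₀ η →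
        η ∈ pvilMo (pvxParOf N hN c) (pvnaEngRec N hN c nb) m ε z t (pvilZo (pvxParOf N hN c) m z t η₀) :=
  pvo6_ev_all c0 N hN nb q₀ hm z t (Eventually.of_forall fun ε => pvo5_lay_rec c0 N hN nb hm z t ε)

end rec

end Claimed.Agent.R289
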