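-- KEEP
import Claimed.Agent.R289.Tr.HookOLay
import Claimed.Agent.R289.Exit.FrcODefs
import Claimed.Agent.R289.Exit.MeshWO
import Claimed.Agent.R289.Exit.FrcWf
import Claimed.Agent.R289.Exit.FrcIEvM
import Claimed.Agent.R289.Tr.FrcCarF
import Claimed.Agent.R289.Exit.ParRec2

/-!
# Row 289 (S0537), THE WALL, ROAD E, E10 (b3) DET, LINK o, file Exit/FrcOLk : **`exit_pvj0_link` VERBATIM** `:= pvo3_link_o` (26, `Tr/HookOM`) at `pvhw8_lay`, `pvhw8_lay_mouth` (71, `Tr/HookOLay`), engine and tests of record      (helper71; prefix `pvhw9_`)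
-/

set_option autoImplicit false

namespace Claimed.Agent.R289

open Set MeasureTheory Filter Topology Claims.C0465
open scoped ENNReal

section leaves

variable {c : ℝ}

/-- the rooms and targets of the truncation of record -/
theorem pvhw9_side (N : PvxNums) (σ : Bool) : Pvge5Side (1 / 40) σ ((pvnaT N).Ln σ) ((pvnaT N).Dr σ) := pvge5_side_T (r₀ := 1 / 40) (by norm_num) σ

/-- **[DET.ev, link]** THE STATEMENT OF `exit_pvj0_link` (`Exit/FrcO`) VERBATIM -/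
theorem pvhw9_link_o (c0 : 0 < c) (N : PvxNums) (hN : N.Ok) (nb : PvnaNb N) (q₀ : ℝ) {m : ℕ} (hm : (pvxParOf N hN c).m0 ≤ m) (z : ℂ) (t : pvxTau N) :
    ∀ᶠ ε in 𝓝[>] (0 : ℝ), ∀ η₀ ∈ pvilUo (pvxParOf N hN c).num ((pvxParOf N hN c).col t) (pvilPin (pvxParOf N hN c) m z t), η₀ ∈ pvj0Mc (pvxParOf N hN c) m z t → CfOK η₀ →
      ∀ η, PvjeFin (pvjeO (pvxParOf N hN c) (pvnaEngRec N hN c nb) pvilQ m ε z t) (pvj0T (pvxParOf N hN c) (pvnaEngRec N hN c nb) q₀ nb.b m z t) η₀ η →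
        η ∈ (pvilLo (pvxParOf N hN c) (pvnaEngRec N hN c nb) m z t).A (pvxParOf N hN c).num ((pvxParOf N hN c).col t) := by
  have hE := pvnr_wf hN c0 nb
  filter_upwards [pvji_O_rec hE ⟨nb, rfl⟩ pvml_wm_Q hm z t] with ε Wf η₀ hU hMc _ η hF
  obtain ⟨𝔖₀, h₀⟩ := hU
  obtain ⟨Cth, r, κs, hW⟩ := hE.wf
  have hL := (pvea_par hN c0).lev hm
  have hT := pvea_tyOk (c := c) hN t
  have hf := pvz7_rec_fine hN c0 hm
  have h3 : 0 < (pvxParOf N hN c).num.rho3 := hN.msk0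
  have hc := (pvea_par hN c0).cp_small t
  have hδ := pvlm_Del_pos c m
  obtain ⟨m1, m2, m3⟩ := pvho_mu hL h3
  have hμ0 : 0 < pvilMu (pvxParOf N hN c) m := by linarith
  have off := pvjv_carf_off_o hW hm ε hT
  have hmesh : η ∈ pvilMs (pvxParOf N hN c) m (pvilWno (pvxParOf N hN c) (pvnaEngRec N hN c nb) m ε z t (pvilZo (pvxParOf N hN c) m z t η₀)) :=
    pvwu_rec_o N hN (fun _ h => pvna_Hf_mesh N h) c0 nb hm z t ε (T := pvj0T (pvxParOf N hN c) (pvnaEngRec N hN c nb) q₀ nb.b m z t) (ρK := pvj0Rho (pvxParOf N hN c) m) rfl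
      (fun _ h => pvjo_mesh_of h.2) (by unfold pvj0Rho; linarith) hMc le_rfl hF
  have Λ := pvhw8_lay (𝔈 := pvnaEngRec N hN c nb) (ε := ε) (O₀ := (pvnaInRec N hN c nb).O0) (s := pvlmDel c m) (pvho_num_par hN c) hL hT hf hμ0 (pvnr_oM N hN c nb m t) (pvnr_oK N hN c nb m t) (pvnr_oY N hN c nb m t)
    (pvnr_kit_O N hN c nb m ε) (by rw [pvim9_O0]; exact pvcc_sq_mono _ (by unfold pvge3Q; linarith)) (pvhw9_side N false) hδ (by unfold pvge3Q; ring) z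
  exact (pvo3_link_o (𝔭 := pvkgG.toPvkdPlug) (𝔱 := pvnaT N) (s := pvlmDel c m) (pvho_num_par hN c) hL hT hf h3 hc Wf (pvnr_oM N hN c nb m t) (pvjv_carf_hb _ (pvxo_wf N hN c).toWfB (pvjv_carf_b2 N hN c) m t)
    (pvjv_carf_hr _ (pvxo_wf N hN c).toWfB (by linarith) t) off.1 off.2 Λ (pvhw8_lay_mouth hf hμ0.le (pvnr_oY N hN c nb m t) z) (pvna_geo hN) hδ (pvyo_plug_rd _ m) (fun η h => h) inter_subset_left hMc h₀ hF hmesh).1

end leaves

end Claimed.Agent.R289
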