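-- KEEP
import Claimed.Agent.R289.Tr.FrcDetO
import Claimed.Agent.R289.Tr.FrcDetE
import Claimed.Agent.R289.Tr.HookYT
import Claimed.Agent.R289.Tr.HookLA
import Claimed.Agent.R289.Tr.FrcCarF

/-!
# Row 289 (S0537), THE WALL, ROAD E, E10 (b3) DET, file Exit/FrcOT : THE TIP HALF OF THE RUN OF A HYBRID LINK WHICH STARTS AT AN EXIT TIP (`o`, `f`), AT A FINAL CONFIGURATION, AT THE MODEL      (helper211; prefix `pvo9_`)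

GENERIC in the parameters `𝔓` (`PvhoNum`, `PvegLev`, `pviwTyOk` of 266 / 124 / 168) and in the end `E : PvjeEnd` of 35 (only: `E.Wf ε`, `E.M = closedBall c⁺ (5 R / 16)`, `E.Fz = pvilFo 𝔓 m z t`).      `R = ρ h`, `c⁺ = (𝔓.ty t).cp h z`, mesh `μ`, `112 μ ≤ R`.
* `pvo9_at`      the exit half state in the words of the hooks (`AtOut` at absolute positions)
* `pvo9_tw_src`, `pvo9_tw_tgt`      the tip darts of twin states have the same end points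
* **`pvo9_foot`** = the hypothesis `foot` of `pvdd_pat_o` (228) VERBATIM `:= pvhj_foot_outU_pl` (23) at `Y₀ = sites of the base`, `U = E.M`
-/

set_option autoImplicit false
set_option linter.unusedSectionVars false
set_option linter.unusedVariables false

namespace Claimed.Agent.R289

open Set Metric Claims.C0465

section tip

variable {τ : Type} {c : ℝ} {𝔓 : PvxPar τ c} {m : ℕ} {t : τ} {z : ℂ} {b : Bool}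

/-- the exit half state in the words of the hooks -/
theorem pvo9_at {η : Conf PvPt} {𝔖 : PvwSt (pvieT η)} (h : PvilOut 𝔓.num b (pvilPin 𝔓 m z t) η 𝔖) : 𝔖.AtOut (dlsPos (pvieY η)) 𝔓.num (pvlmH m) z (𝔓.ty t) (pvieCol η b) := by
  have st := h.st
  rw [pvfc7_pos_std (p := pvilPin 𝔓 m z t) rfl, pvfc7_zf_std (p := pvilPin 𝔓 m z t) rfl] at st
  exact st

theorem pvo9_tw_src {η₀ η : Conf PvPt} {Kc : Set ℂ} {𝔖₀ : PvwSt (pvieT η₀)} {𝔖 : PvwSt (pvieT η)} (tw : PvLocSP (pvfc7R η₀ η Kc) 𝔖₀ 𝔖) :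
    (((pvieT η₀).src (𝔖₀.ep 𝔖₀.np) : ↥(pvieY η₀)) : ℂ) = (pvieT η).src (𝔖.ep 𝔖.np) := by
  have h := tw.ep 𝔖₀.np le_rfl
  rw [← tw.np] at h
  rw [tw.np] at h ⊢
  exact h.1

theorem pvo9_tw_tgt {η₀ η : Conf PvPt} {Kc : Set ℂ} {𝔖₀ : PvwSt (pvieT η₀)} {𝔖 : PvwSt (pvieT η)} (tw : PvLocSP (pvfc7R η₀ η Kc) 𝔖₀ 𝔖) :
    (((pvieT η₀).tgt (𝔖₀.ep 𝔖₀.np) : ↥(pvieY η₀)) : ℂ) = (pvieT η).tgt (𝔖.ep 𝔖.np) := by
  have h := tw.ep 𝔖₀.np le_rfl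
  rw [tw.np]
  exact h.2.1

/-- **THE FOOT AT THE EXIT TIP, AT A FINAL CONFIGURATION, AT THE MODEL** = the hypothesis `foot` of `pvdd_pat_o` -/
theorem pvo9_foot (n : PvhoNum 𝔓) (hL : PvegLev 𝔓 m) (hT : pviwTyOk 𝔓 t) (hc : ∀ w ∈ 𝔓.cp t, ‖w - (𝔓.ty t).yp‖ ≤ 𝔓.num.rho / 10)
    {E : PvjeEnd} {T : PvjeTest} {ε : ℝ} (W : E.Wf ε) (hM : E.M = closedBall ((𝔓.ty t).cp (pvlmH m) z) (5 * (𝔓.num.rho * pvlmH m) / 16)) (hFz : E.Fz = pvilFo 𝔓 m z t)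
    {μ : ℝ} (hμ : 0 < μ) (hμ' : 112 * μ ≤ 𝔓.num.rho * pvlmH m) {η₀ η : Conf PvPt} (hF : PvjeFin E T η₀ η)
    (mesh : VorDense (cfSites η₀) (closedBall ((𝔓.ty t).cp (pvlmH m) z) (𝔓.num.rho2 * pvlmH m + 3 * μ)) μ) (hm : PvtrMesh μ E.M (cfSites η₀))
    {𝔖₀ : PvwSt (pvieT η₀)} (h₀ : PvilOut 𝔓.num (𝔓.col t) (pvilPin 𝔓 m z t) η₀ 𝔖₀) {𝔖 : PvwSt (pvieT η)} (h1 : PvilOut 𝔓.num (𝔓.col t) (pvilPin 𝔓 m z t) η 𝔖)
    {Kc : Set ℂ} (tw : PvLocSP (pvfc7R η₀ η Kc) 𝔖₀ 𝔖) {τc : ℂ → Bool} (hτ : ∀ v ∈ cfSites η, v ∈ E.K ∪ E.y η₀ → cfCol η v = τc v)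
    {K : Set ↥(pvieY η)} (hK : ∀ v : ↥(pvieY η), ‖(v : ℂ) - (𝔓.ty t).cp (pvlmH m) z‖ < 𝔓.num.rho * pvlmH m / 4 + 4 * μ → v ∈ K)
    (GN GC Sg : Bool → Set ℂ)
    (A : ∀ β, PvhjArmT (pvieY η) (pvddRel (𝔓.col t) τc) β ((starRingEnd ℂ) ((𝔓.Γ m).dout t)) ((𝔓.ty t).cp (pvlmH m) z) (𝔓.num.rho * pvlmH m / 10 + 4 * μ) μ (𝔓.num.rho * pvlmH m / 4) β (GN β) (GC β) (Sg β)) :
    PvhjFootP (delbPl (pvieY η)) (pvieCol η (𝔓.col t)) (pvddRel (𝔓.col t) τc) K (𝔖.ep 𝔖.np) GN := by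
  have hR : 0 < 𝔓.num.rho * pvlmH m := mul_pos n.rho0 (pvlm_H_pos m)
  have hE : PvhjEndD (pvieY η₀) 𝔓.num (pvlmH m) (𝔓.ty t) z ((𝔓.ty t).cp (pvlmH m) z) (univ : Set ↥(pvieY η₀)) (𝔓.num.rho2 * pvlmH m) (𝔓.num.rho * pvlmH m / 2) μ (𝔓.num.rho * pvlmH m / 4)
      (𝔓.num.rho * pvlmH m / 10 + 4 * μ) ((starRingEnd ℂ) ((𝔓.Γ m).dout t)) :=
    pvho_endD_o n hL hT z hμ (by linarith) le_rfl (by linarith) (by linarith) (by linarith) mesh fun _ _ => mem_univ _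
  obtain ⟨s1, s2, s3, s0⟩ := pvho_small n m
  have htip := pvho_tip_o hc h₀ hμ (pvho_dense_mono mesh (by linarith))
  have a1 : ‖(((delbPl (pvieY η₀)).toMap.src (𝔖₀.ep 𝔖₀.np) : ↥(pvieY η₀)) : ℂ) - (𝔓.ty t).cp (pvlmH m) z‖ ≤ 𝔓.num.rho * pvlmH m / 10 := htip.1
  have a2 : ‖(((delbPl (pvieY η₀)).toMap.tgt (𝔖₀.ep 𝔖₀.np) : ↥(pvieY η₀)) : ℂ) - (𝔓.ty t).cp (pvlmH m) z‖ ≤ 𝔓.num.rho * pvlmH m / 10 + 2 * μ := htip.2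
  have hpos : ∀ v : ↥(pvieY η₀), ‖(v : ℂ) - (𝔓.ty t).cp (pvlmH m) z‖ < 𝔓.num.rho * pvlmH m / 4 + 4 * μ → (v : ℂ) ∈ E.M := fun v hv => by
    rw [hM, mem_closedBall, dist_eq_norm]
    linarith
  have eFz : E.Fz η₀ = pviePos η₀ '' 𝔖₀.fzOut := by
    rw [hFz]
    exact pvfc7_fzO (p := pvilPin 𝔓 m z t) (by show ‖(1 : ℂ)‖ = 1; simp) h₀
  refine pvhj_foot_outU_pl (U := E.M) (μ := μ) (K₀ := univ) (delb_pl_eq h₀.good) (delb_pl_eq h1.good) hμ (pvho_fin_M W hF).symm hm (pvo9_at h₀) hE (by linarith) (by linarith) ?_ A ?_ ?_ hK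
    (pvo9_tw_src tw) (pvo9_tw_tgt tw)
  · rw [hM]
    exact closedBall_subset_closedBall (by linarith)
  · intro v v' e hv hb
    have hz : (v : ℂ) ∈ E.Fz η₀ := by
      rw [eFz]
      exact ⟨v, hb.elim (fun h => Or.inl (Or.inr h)) (fun h => Or.inr h), rfl⟩
    have := pvho_fin_kept W hF v.2 (hpos v hv) hz
    show (cfCol η (v' : ℂ) == 𝔓.col t) = (cfCol η₀ (v : ℂ) == 𝔓.col t)
    rw [← e, this]
  · intro v v' e hv hf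
    have hz : (v : ℂ) ∉ E.Fz η₀ := by
      rw [eFz]
      rintro ⟨u, hu, huv⟩
      exact hf (Subtype.val_injective huv ▸ hu)
    have := pvho_fin_fresh (E := E) (η₀ := η₀) hτ v'.2 (by rw [← e]; exact hpos v hv) (by rw [← e]; exact hz)
    show (cfCol η (v' : ℂ) == 𝔓.col t) = (τc (v : ℂ) == 𝔓.col t)
    rw [this, e]

end tip

end Claimed.Agent.R289
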