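-- KEEP
import Claimed.Agent.R289.Exit.FrcOX
import Claimed.Agent.R289.Exit.GoodEH
import Claimed.Agent.R289.Exit.ParRec2
import Claimed.Agent.R289.Tr.FrcDetO
import Claimed.Agent.R289.Tr.FrcDetOY
import Claimed.Agent.R289.Tr.HookColF

/-!
# Row 289 (S0537), THE WALL, ROAD E, E10 (b3) DET, file Exit/FrcOXA : THE CONTRACT `PvhpDat.Ok`, `PvhpDat.OkT` AT THE DATUM OF RECORD `pvhpX`      (helper199; prefix `pvhpX_`, `PvhpXH`)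

0 sorry.   GENERIC in the parameters `𝔓`, the engine `𝔈`, the truncation `𝔱`, the tests `T` (no name of `Exit/EngRec`: survives the swaps).
* `PvhpXH 𝔓 𝔈 𝔱 O₀ m ε t` = WHAT IS READ: `PvhoNum`, `PvegLev`, `pviwTyOk`, tip cell `≤ ρ/10`, `10000 δ ≤ R`, `0 < ρ₃`, `b h ≤ r_k`, `δ/3 < b h`, `𝔈.oM = pvegOM`, `𝔈.oK = pvegOKa 𝔓 O₀`, `kit.O₀ = O₀ m ⊆ sq (13q/4)`,
  `pvegOYc ⊆ 𝔈.oY ⊆ pvegOYa`, the complement of the placed room is preconnected, `PvhfGeo pvkgG.toPvkdPlug 𝔱`, `Pvge5Side (1/40) false ..` (298)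
* **`pvhpX_ok H z : (pvhpX 𝔓 𝔱 m z t).Ok 𝔓 𝔈 m ε z t`** (ALL 60 FIELDS),   **`pvhpX_okT`** (pattern: 88 `pvw7_pat_col`; side: an inclusion)
* **`pvhpX_link`**, **`pvhpX_ev`** : from `η₀ ∈ pvilUo`, `η₀ ∈ pvj0Mc`, `PvjeFin`, and (b6) `η ∈ pvilMs ..` : the plain link + hull, `η ∈ pvilMo ..`
TOOLS: 298 (`Tr/GoodE GoodD GoodH`, `Exit/GoodEM GoodEH`), 187 (`Exit/ParRec2`), 245 (`Tr/FrcDetOY`), 266 (`Tr/FrcDetO`), 124 (`Exit/ParEng`), 173 (`pvyo_plug_rd`), 88.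
-/

set_option autoImplicit false
set_option linter.unusedSectionVars false
set_option linter.unusedVariables false

namespace Claimed.Agent.R289

open Set Metric Claims.C0465

section hyp

variable {τ : Type} {c : ℝ}

/-- **WHAT IS READ OF THE PARAMETERS, OF THE ENGINE AND OF THE TRUNCATION** (one level, one type) -/
structure PvhpXH (𝔓 : PvxPar τ c) (𝔈 : PvieEng τ) (𝔱 : PvhfTr) (O₀ : ℕ → Set ℂ) (m : ℕ) (ε : ℝ) (t : τ) : Prop where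
  n : PvhoNum 𝔓
  lev : PvegLev 𝔓 m
  ty : pviwTyOk 𝔓 t
  cp : ∀ w ∈ 𝔓.cp t, ‖w - (𝔓.ty t).yp‖ ≤ 𝔓.num.rho / 10
  fine : 10000 * pvlmDel c m ≤ pvegR 𝔓 m
  rho3 : 0 < 𝔓.num.rho3
  hb : (𝔓.ty t).b * pvlmH m ≤ pviwRad 𝔓 m t
  hr : pvlmDel c m / 3 < (𝔓.ty t).b * pvlmH m
  oM : 𝔈.oM m t = pvegOM 𝔓 m t
  oK : 𝔈.oK m t = pvegOKa 𝔓 O₀ m t
  kO : (𝔈.kit m ε).O₀ = O₀ m
  O13 : O₀ m ⊆ pvccSq 0 (13 * pvge3Q c m / 4)
  Yc : pvegOYc 𝔓 m t ⊆ 𝔈.oY m t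
  Ya : 𝔈.oY m t ⊆ pvegOYa 𝔓 m t
  co : ∀ z, IsPreconnected (pvieSh z (𝔈.oY m t))ᶜ
  geo : PvhfGeo pvkgG.toPvkdPlug 𝔱
  side : Pvge5Side (1 / 40) false (𝔱.Ln false) (𝔱.Dr false)

end hyp

section fields

variable {τ : Type} {c : ℝ} {𝔓 : PvxPar τ c} {𝔈 : PvieEng τ} {𝔱 : PvhfTr} {O₀ : ℕ → Set ℂ} {m : ℕ} {ε : ℝ} {t : τ}

theorem pvhpX_nums (H : PvhpXH 𝔓 𝔈 𝔱 O₀ m ε t) : 0 < pvlmDel c m ∧ 0 < pvilMu 𝔓 m ∧ 1000 * pvilMu 𝔓 m ≤ pvlmDel c m ∧ pvj0Rho 𝔓 m = pvilMu 𝔓 m / 20 ∧ pvge3Q c m = pvlmDel c m / 40 ∧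
    pvge3Dl c m = pvlmDel c m / 1280 ∧ 10000 * pvlmDel c m ≤ pvegR 𝔓 m ∧ pvegR 𝔓 m = 𝔓.num.rho * pvlmH m := by
  have h1 := pvlm_Del_pos c m
  have h2 : 0 < 𝔓.num.rho3 * pvlmH m := mul_pos H.rho3 (pvlm_H_pos m)
  refine ⟨h1, ?_, ?_, rfl, rfl, rfl, H.fine, rfl⟩
  · unfold pvilMu
    have := lt_min h1 h2
    positivity
  · unfold pvilMu
    have := min_le_left (pvlmDel c m) (𝔓.num.rho3 * pvlmH m)
    linarith

/-- the numbers of record of 298 at the tip face `rt`, edges `2ρ`, mesh `δ` of the closing sets -/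
theorem pvhpX_rec (H : PvhpXH 𝔓 𝔈 𝔱 O₀ m ε t) : Pvge2Rec (pvegR 𝔓 m) (pvlmDel c m) (pvge3Q c m) (pvge3Dl c m) (pvlmDel c m) (pvegR 𝔓 m / 10 + 4 * pvj0Rho 𝔓 m) (2 * pvj0Rho 𝔓 m) (pvhpXSp 𝔓 m t) (pvhpXLam 𝔓 m t) := by
  obtain ⟨hδ, hμ0, hμ1, eρ, eq, edl, hf, eR⟩ := pvhpX_nums H
  exact pvge3_rec_o H.lev H.ty H.fine hδ.le le_rfl (by linarith) (by linarith)

/-- mouth `∪` tile `∪` door contains the old room -/
theorem pvhpX_W (H : PvhpXH 𝔓 𝔈 𝔱 O₀ m ε t) (z : ℂ) : pvieSh z (pvegOYa 𝔓 m t) ⊆ pvhpW 𝔓 𝔈 m ε z t := by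
  rintro _ ⟨w, hw, rfl⟩
  unfold pvhpW
  rw [H.oM, H.oK]
  rcases pveg_oYa_sub O₀ m t hw with (h | h) | h
  · exact Or.inl (Or.inl ⟨w, h, rfl⟩)
  · exact Or.inl (Or.inr ⟨w, h, rfl⟩)
  · refine Or.inr ?_
    unfold pvieDoor pvieZo
    rw [H.kO, ← pvge3_sh_sim]
    exact ⟨w, h, rfl⟩

theorem pvhpX_Wc (H : PvhpXH 𝔓 𝔈 𝔱 O₀ m ε t) (z : ℂ) : pvieSh z (pvegOYc 𝔓 m t) ⊆ pvhpW 𝔓 𝔈 m ε z t :=
  (pvey_sh_oYc_sub H.lev (pvhpX_nums H).2.1.le t z).trans (pvhpX_W H z)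

theorem pvhpX_Yc (H : PvhpXH 𝔓 𝔈 𝔱 O₀ m ε t) (z : ℂ) : pvieSh z (pvegOYc 𝔓 m t) ⊆ pvieSh z (𝔈.oY m t) := image_mono H.Yc

/-- the lanes of the datum are the lanes of record of 298 -/
theorem pvhpX_lane (𝔓 : PvxPar τ c) (𝔱 : PvhfTr) (m : ℕ) (z : ℂ) (t : τ) (β : Bool) : pvkqRtR ((pvhpX 𝔓 𝔱 m z t).eN β :: (pvhpX 𝔓 𝔱 m z t).tl β) ⊆ pvge6LaneO 𝔓 m z t β := by
  intro v hv
  simp only [pvkqRtR, pvhpX, pvge2LegsD, List.mem_cons, List.not_mem_nil, or_false, mem_iUnion, mem_ofPred_eq, exists_prop] at hv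
  obtain ⟨e, (rfl | rfl | rfl), hv⟩ := hv
  · exact Or.inl (Or.inl hv)
  · exact Or.inl (Or.inr hv)
  · exact Or.inr hv

/-- the lanes of record lie in the region of the pattern of record -/
theorem pvhpX_lane_pat (𝔓 : PvxPar τ c) (m : ℕ) (z : ℂ) (t : τ) (β : Bool) : pvge6LaneO 𝔓 m z t β ⊆ pvkqPatR (pvge3PatOb 𝔓 true m z t) := by
  intro v hv
  unfold pvge3PatOb pvge2PatRec
  rw [pvge2_pat_R, pvge2_Rt_R, pvge2_Rt_R]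
  cases β
  · rcases hv with (hv | hv) | hv
    · exact Or.inr (Or.inl (Or.inl (Or.inr hv)))
    · exact Or.inr (Or.inl (Or.inr hv))
    · exact Or.inr (Or.inr hv)
  · rcases hv with (hv | hv) | hv
    · exact Or.inl (Or.inl (Or.inl (Or.inr hv)))
    · exact Or.inl (Or.inl (Or.inr hv))
    · exact Or.inl (Or.inr hv)

/-- the own-level box lies in the box with collar -/
theorem pvhpX_box (𝔓 : PvxPar τ c) (m : ℕ) (t : τ) {z x : ℂ} (hx : x ∈ pvwSq z (pviwRad 𝔓 m t)) : x ∈ pvieSh z (pviwBox 𝔓 m t) := by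
  have hδ := pvlm_Del_pos c m
  refine ⟨x - z, ⟨?_, ?_⟩, by ring⟩
  · rw [sub_zero]; linarith [hx.1]
  · rw [sub_zero]; linarith [hx.2]

theorem pvhpX_sq_mono {r r' : ℝ} (h : r ≤ r') (x : ℂ) : pvccSq x r ⊆ pvccSq x r' := fun _ hw => lt_of_lt_of_le hw h

theorem pvhpX_sh_disj {A B : Set ℂ} (h : Disjoint A B) (z : ℂ) : Disjoint (pvieSh z A) (pvieSh z B) :=
  (Set.disjoint_image_iff (add_right_injective z)).2 h

/-- a point of the placed room of a half lane, with its collar `σ ≤ 3 μ₀`, lies in the room with collar of 187 -/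
theorem pvhpX_room_pt (H : PvhpXH 𝔓 𝔈 𝔱 O₀ m ε t) (z : ℂ) (β : Bool) {x : ℂ} (hx : x ∈ pvkdAt (pvieZo 𝔓 m z t) ((𝔓.Γ m).dout t * (pvlmDel c m : ℝ)) (𝔱.Ln false β)) {σ : ℝ} (hσ : σ ≤ 3 * pvilMu 𝔓 m) :
    closedBall x σ ⊆ pvieSh z (pvegOYc 𝔓 m t) := by
  obtain ⟨hδ, hμ0, hμ1, eρ, eq, edl, hf, eR⟩ := pvhpX_nums H
  obtain ⟨w, hw, rfl⟩ := hx
  obtain ⟨b1, b2, b3⟩ := H.side.box β w hw
  have eE : pvge5E false = -1 := by simp [pvge5E]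
  rw [eE] at b1 b2
  have e : pvthSim (pvieZo 𝔓 m z t) ((𝔓.Γ m).dout t * (pvlmDel c m : ℝ)) w = pvthSim (pvieZo 𝔓 m z t) ((𝔓.Γ m).dout t) ((pvlmDel c m : ℝ) * w) := by
    unfold pvthSim; ring
  rw [e]
  have r1 : (((pvlmDel c m : ℝ) : ℂ) * w).re = pvlmDel c m * w.re := Complex.re_ofReal_mul _ _
  have r2 : (((pvlmDel c m : ℝ) : ℂ) * w).im = pvlmDel c m * w.im := Complex.im_ofReal_mul _ _
  have hA : pvegA c m = pvlmDel c m / 160 := rfl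
  refine pvz7_door_o H.lev H.ty z ?_ ?_ ?_
  · rw [r1]; nlinarith
  · rw [r1, hA]; nlinarith
  · rw [r2, abs_mul, abs_of_pos hδ]; nlinarith

/-- the abscissa and the lateral coordinate of the placed door -/
theorem pvhpX_Sp (𝔓 : PvxPar τ c) (m : ℕ) (z : ℂ) (t : τ) : pvge2S (z + pvegYp 𝔓 m t) ((𝔓.Γ m).dout t) (pvieZo 𝔓 m z t) = pvhpXSp 𝔓 m t := pvge3_S_sh z _ _ _

theorem pvhpX_Lam (𝔓 : PvxPar τ c) (m : ℕ) (z : ℂ) (t : τ) : pvge2T (z + pvegYp 𝔓 m t) ((𝔓.Γ m).dout t) true (pvieZo 𝔓 m z t) = pvhpXLam 𝔓 m t := by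
  rw [pvge3_T]
  unfold pvieZo pvhpXLam
  rw [pvge3_L_sh]

/-- the tube of the door plug of record, placed -/
theorem pvhpX_tube (H : PvhpXH 𝔓 𝔈 𝔱 O₀ m ε t) (z : ℂ) {x : ℂ} (hx : x ∈ pvkdAt (pvieZo 𝔓 m z t) ((𝔓.Γ m).dout t) (pvkgG.toPvkdPlug.sc (pvlmDel c m)).Tb) :
    pvhpXSp 𝔓 m t - 13 * pvge3Q c m / 4 ≤ pvge2S (z + pvegYp 𝔓 m t) ((𝔓.Γ m).dout t) x ∧ x ∉ pvwSq z (pviwRad 𝔓 m t) := by
  obtain ⟨hδ, hμ0, hμ1, eρ, eq, edl, hf, eR⟩ := pvhpX_nums H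
  rw [pvyo_plug_rd 𝔓 m] at hx
  obtain ⟨w, ⟨h1, h2, h3, h4⟩, rfl⟩ := hx
  have er : pvilRd 𝔓 m = pvlmDel c m / 40 := rfl
  rw [er] at h1 h2 h3 h4
  constructor
  · rw [pvge5_S_at, pvhpX_Sp, pvge3_dd_o H.lev H.ty, one_mul]
    linarith
  · have hO : ({w} : Set ℂ) ⊆ pvccSq 0 (13 * pvge3Q c m / 4) := by
      intro v hv
      rw [mem_singleton_iff.1 hv]
      show pvccN (w - 0) < _
      rw [sub_zero]
      unfold pvccN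
      exact max_lt (abs_lt.2 ⟨by linarith, by linarith⟩) (abs_lt.2 ⟨by linarith, by linarith⟩)
    refine pvho_box_off (pvho_door_off_o H.lev H.ty hO (by linarith)) ?_
    rw [pvge3_sh_sim]
    exact ⟨w, rfl, rfl⟩

/-- **THE DETERMINISTIC CONTRACT HOLDS AT THE DATUM OF RECORD** -/
theorem pvhpX_ok (H : PvhpXH 𝔓 𝔈 𝔱 O₀ m ε t) (z : ℂ) : (pvhpX 𝔓 𝔱 m z t).Ok 𝔓 𝔈 m ε z t := by
  obtain ⟨hδ, hμ0, hμ1, eρ, eq, edl, hf, eR⟩ := pvhpX_nums H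
  have R := pvhpX_rec H
  have hu := pvge3_u_o H.lev H.ty
  have dd := pvge3_dd_o H.lev H.ty
  have eμ : (pvhpX 𝔓 𝔱 m z t).μw = pvilMu 𝔓 m := rfl
  have edl' : (pvhpX 𝔓 𝔱 m z t).dl = pvge3Dl c m := rfl
  obtain ⟨s1, s2, s3, s0⟩ := pvho_small H.n m
  have hrad := pvho_rad H.n m t
  have hb0 : 0 ≤ (𝔓.ty t).b * pvlmH m := mul_nonneg (H.n.b0 t) (pvlm_H_pos m).le
  have hdis := pveg_o_disj_a H.lev H.ty H.O13 (by linarith : 13 * pvge3Q c m / 4 ≤ pvlmDel c m / 4)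
  have hMb : ∀ a : ℝ, a ≤ 5 * pvegR 𝔓 m / 16 → closedBall ((𝔓.ty t).cp (pvlmH m) z) a ⊆ pvieSh z (𝔈.oM m t) := fun a ha => by
    rw [H.oM, pvho_oM]
    exact closedBall_subset_closedBall (by rw [← eR]; linarith)
  have hMW : pvieSh z (𝔈.oM m t) ⊆ pvhpW 𝔓 𝔈 m ε z t := fun x hx => Or.inl (Or.inl hx)
  have A : ∀ xB : ℝ, xB ≤ ((starRingEnd ℂ) ((𝔓.Γ m).dout t) * (z + pvegYp 𝔓 m t)).re + 21 * pvegR 𝔓 m / 200 → ((starRingEnd ℂ) ((𝔓.Γ m).dout t) * (z + pvegYp 𝔓 m t)).re - 21 * pvegR 𝔓 m / 200 ≤ xB → ∀ β,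
      PvhzArmReg ((starRingEnd ℂ) ((𝔓.Γ m).dout t)) xB (((starRingEnd ℂ) ((𝔓.Γ m).dout t) * (z + pvegYp 𝔓 m t)).im - (pvegR 𝔓 m / 10 + 4 * pvj0Rho 𝔓 m))
        (((starRingEnd ℂ) ((𝔓.Γ m).dout t) * (z + pvegYp 𝔓 m t)).im + (pvegR 𝔓 m / 10 + 4 * pvj0Rho 𝔓 m)) (2 * pvj0Rho 𝔓 m) (z + pvegYp 𝔓 m t) (pvegR 𝔓 m / 4) (pvlmDel c m) β
        (pvge2RN (z + pvegYp 𝔓 m t) ((𝔓.Γ m).dout t) β (pvge2Aa (pvegR 𝔓 m) β) (pvegR 𝔓 m / 200) (23 * pvegR 𝔓 m / 200) (3 * pvegR 𝔓 m / 20))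
        (pvge2RC (z + pvegYp 𝔓 m t) ((𝔓.Γ m).dout t) β (pvge2Aa (pvegR 𝔓 m) β) (pvegR 𝔓 m / 200) (23 * pvegR 𝔓 m / 200) (23 * pvegR 𝔓 m / 200))
        (pvge2Cl (z + pvegYp 𝔓 m t) ((𝔓.Γ m).dout t) β (pvge2Aa (pvegR 𝔓 m) β) (23 * pvegR 𝔓 m / 200) (3 * pvegR 𝔓 m / 20) (pvge3Dl c m)) :=
    fun xB h1 h2 β => pvge2_armReg hu (R.num β) h1 h2 le_rfl le_rfl Subset.rfl Subset.rfl
  have hlane : ∀ β, ∀ x ∈ pvkqRtR ((pvhpX 𝔓 𝔱 m z t).eN β :: (pvhpX 𝔓 𝔱 m z t).tl β), closedBall x (4 * pvilMu 𝔓 m) ⊆ pvieSh z (pvegOYc 𝔓 m t) := fun β x hx =>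
    pvz7_pat_ob H.lev H.ty H.fine (σ := 4 * pvilMu 𝔓 m) (by linarith) true z (pvhpX_lane_pat 𝔓 m z t β (pvhpX_lane 𝔓 𝔱 m z t β hx))
  exact
    { ρ0 := show 0 < pvj0Rho 𝔓 m by linarith
      h3 := show 3 * pvj0Rho 𝔓 m ≤ pvlmDel c m by linarith
      hb := H.hb
      hr := show pvj0Rho 𝔓 m < _ by linarith [H.hr]
      hK := by rw [H.oK]; exact pveg_oKa_off H.lev H.ty O₀
      hD := by
        unfold pviwDo pvieDoor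
        rw [H.kO]
        exact pvho_door_off_o H.lev H.ty H.O13 (by linarith)
      MK := by
        rw [H.oM, H.oK]
        exact pvhpX_sh_disj ((List.pairwise_cons.1 hdis).1 _ (by simp)) z
      MD := by
        unfold pvieDoor pvieZo
        rw [H.oM, H.kO, ← pvge3_sh_sim]
        exact pvhpX_sh_disj ((List.pairwise_cons.1 hdis).1 _ (by simp)) z
      num := pvho_endNum H.n m t (μ := pvj0Rho 𝔓 m) (rs := pvegR 𝔓 m / 4) (by linarith) (by linarith) (by linarith) (by linarith)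
      rt1 := show 2 * (pvegR 𝔓 m / 10 + 4 * pvj0Rho 𝔓 m) + 5 * pvj0Rho 𝔓 m ≤ 𝔓.num.rho * pvlmH m / 2 by linarith
      big := show pvegR 𝔓 m / 10 + 4 * pvj0Rho 𝔓 m ≤ pvwRad 𝔓.num (pvlmH m) (𝔓.ty t) (𝔓.ty t).k by linarith [pvlm_H_pos m]
      dir := pvho_dir_o H.lev t
      dom := by
        intro ζ' hζ'
        obtain ⟨e, u, hu', -, h2, -, h4⟩ := H.lev.doors.out t
        have e1 : (𝔓.ty t).cp (pvlmH m) z - z = (pvlmH m : ℂ) * (𝔓.ty t).yp := by unfold PvwTy.cp; ring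
        show (ζ' * _).re ≤ ((starRingEnd ℂ) ((𝔓.Γ m).dout t) * _).re
        rw [e1]
        have e2 : ((starRingEnd ℂ) ((𝔓.Γ m).dout t) * ((pvlmH m : ℂ) * (𝔓.ty t).yp)).re = pvlmH m * pvccN (𝔓.ty t).yp := by
          rw [← h4, h2, show (starRingEnd ℂ) (pvtZ u) * ((pvlmH m : ℂ) * (𝔓.ty t).yp) = (pvlmH m : ℂ) * ((𝔓.ty t).yp * (starRingEnd ℂ) (pvtZ u)) by ring, Complex.re_ofReal_mul]
        have e3 : (ζ' * ((pvlmH m : ℂ) * (𝔓.ty t).yp)).re = pvlmH m * (ζ' * (𝔓.ty t).yp).re := by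
          rw [show ζ' * ((pvlmH m : ℂ) * (𝔓.ty t).yp) = (pvlmH m : ℂ) * (ζ' * (𝔓.ty t).yp) by ring, Complex.re_ofReal_mul]
        rw [e2, e3]
        refine mul_le_mul_of_nonneg_left ?_ (pvlm_H_pos m).le
        unfold pvccN
        rcases hζ' with rfl | rfl | rfl | rfl
        · simpa using le_max_of_le_left (le_abs_self _)
        · simpa using le_max_of_le_left (neg_le_abs _)
        · simpa using le_max_of_le_right (neg_le_abs _)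
        · simpa using le_max_of_le_right (le_abs_self _)
      tip := by
        intro p hp
        have := pvho_cell H.cp (pvlm_H_pos m) hp
        show ‖p - (𝔓.ty t).cp (pvlmH m) z‖ + 4 * pvj0Rho 𝔓 m ≤ pvegR 𝔓 m / 10 + 4 * pvj0Rho 𝔓 m
        have e : ‖p - (𝔓.ty t).cp (pvlmH m) z‖ ≤ 𝔓.num.rho / 10 * pvlmH m := this
        rw [eR]
        linarith
      μw0 := hμ0
      mouth := hMb _ (show pvegR 𝔓 m / 4 + 4 * pvj0Rho 𝔓 m + 3 * pvj0Rho 𝔓 m ≤ _ by linarith)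
      mouthW := (hMb _ (show pvegR 𝔓 m / 4 + 4 * pvj0Rho 𝔓 m + 3 * pvilMu 𝔓 m ≤ _ by linarith)).trans hMW
      mouthY := (pvz7_mouth_o z (show pvegR 𝔓 m / 4 + 4 * pvj0Rho 𝔓 m + pvilMu 𝔓 m ≤ _ by linarith)).trans (pvhpX_Yc H z)
      bd := (pvho_oYa_bdd H.lev H.ty z).subset (image_mono H.Ya)
      co := H.co z
      core := fun x hx => pvho_oYa_core H.n H.lev H.ty z x (image_mono H.Ya hx)
      dl0 := pvge3_dl_pos c m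
      route := fun β => pvge2_Rt_route hu (R.num β) (R.bar β)
      he := show pvegR 𝔓 m / 10 + 4 * pvj0Rho 𝔓 m + 2 * pvj0Rho 𝔓 m < 21 * pvegR 𝔓 m / 200 by linarith
      R₁ := fun β => A (((starRingEnd ℂ) ((𝔓.Γ m).dout t) * (z + pvegYp 𝔓 m t)).re - 21 * pvegR 𝔓 m / 200) (by linarith) le_rfl β
      R₂ := fun β => A (((starRingEnd ℂ) ((𝔓.Γ m).dout t) * (z + pvegYp 𝔓 m t)).re + 21 * pvegR 𝔓 m / 200) le_rfl (by linarith) β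
      ρl := show pvge3Dl c m / 16 ≤ pvlmDel c m by linarith
      μl := show pvilMu 𝔓 m ≤ pvlmDel c m by linarith
      jN := fun _ => by show (0 : ℕ) < 4; norm_num
      jS := fun _ => by show (0 : ℕ) < 4; norm_num
      SN := fun β => (pvge2_sd_sub _ _ 0).trans (pvge2_Cl_cellN _)
      SS := fun β => (pvge2_sd_sub _ _ 0).trans (pvge2_Cl_cellS _)
      SgW := fun β x hx => by
        refine Subset.trans (fun v hv => ?_) ((hMb (pvegR 𝔓 m / 4) (by linarith)).trans hMW)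
        exact pvge6_cl_o H.lev H.ty H.fine z β β hμ0.le (by linarith) ⟨x, hx, by rwa [mem_closedBall, dist_eq_norm] at hv⟩
      rtW := fun β x hx => (hlane β x hx).trans (pvhpX_Wc H z)
      rtY := fun β x hx => ((closedBall_subset_closedBall (by linarith)).trans (hlane β x hx)).trans (pvhpX_Yc H z)
      rtF := fun β x hx v hv => by
        have hl := pvhpX_lane 𝔓 𝔱 m z t β hx
        have hv' : ‖v - x‖ ≤ pvilMu 𝔓 m := by rwa [mem_closedBall, dist_eq_norm] at hv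
        refine ⟨?_, fun hb => (pvge6_lane_nbd_o H.lev H.ty H.fine z β (ρ' := pvilMu 𝔓 m) (by linarith) ⟨x, hl, hv'⟩).2.1 (pvhpX_box 𝔓 m t hb)⟩
        rw [H.oM, H.oK]
        exact pvge6_lane_core_o H.lev H.ty H.fine (H.O13.trans (pvhpX_sq_mono (by linarith) 0)) z β (ρ' := pvilMu 𝔓 m) (by linarith) hl hv
      d1 := hu
      s0 := hδ
      sc := pvyo_plug_rd 𝔓 m
      geo := H.geo
      eD := fun β => by simp [pvhpX, pvge2LegsD]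
      ζd := pvge4_turn_norm hu
      door := fun β => pvge4_doorReg hu hμ0 (by linarith) (by linarith)
        (pvge5_room_o H.side hδ dd (by rw [eq]; ring) (pvhpX_Sp 𝔓 m z t) (pvhpX_Lam 𝔓 m z t) β) (by linarith) (by
          have h9 := abs_le.1 R.lat
          cases β <;> simp only [pvge2Lm, pvge2Aa, if_true, if_false, Bool.false_eq_true] <;> linarith [h9.1, h9.2])
      tgt := fun β x hx => by
        have h1 := pvge5_tgt (Yc := z + pvegYp 𝔓 m t) H.side hδ (pvge5_k_o dd) β x hx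
        rw [pvhpX_Sp] at h1
        show -((starRingEnd ℂ) ((𝔓.Γ m).dout t) * (z + pvegYp 𝔓 m t)).re - (pvhpXSp 𝔓 m t - 29 * pvge3Q c m / 8 - pvge3Q c m / 8) ≤ (-(starRingEnd ℂ) ((𝔓.Γ m).dout t) * x).re
        rw [pvge4_turn_re (z + pvegYp 𝔓 m t)]
        linarith
      tube := fun β x hx => by
        have h1 := (pvhpX_tube H z hx).1
        show (-(starRingEnd ℂ) ((𝔓.Γ m).dout t) * x).re ≤ -((starRingEnd ℂ) ((𝔓.Γ m).dout t) * (z + pvegYp 𝔓 m t)).re - (pvhpXSp 𝔓 m t - 13 * pvge3Q c m / 4)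
        rw [pvge4_turn_re (z + pvegYp 𝔓 m t)]
        linarith
      tubeB := fun x hx => (pvhpX_tube H z hx).2
      rmW := fun β x hx => (pvhpX_room_pt H z β hx le_rfl).trans (pvhpX_Wc H z)
      rmY := fun β x hx => (pvhpX_room_pt H z β hx (by linarith)).trans (pvhpX_Yc H z)
      rmF := fun β x hx hc => by
        have hc' : -((starRingEnd ℂ) ((𝔓.Γ m).dout t) * (z + pvegYp 𝔓 m t)).re - (pvhpXSp 𝔓 m t - 13 * pvge3Q c m / 4) < (-(starRingEnd ℂ) ((𝔓.Γ m).dout t) * x).re := hc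
        rw [pvge4_turn_re (z + pvegYp 𝔓 m t)] at hc'
        have hk : x ∈ pvieSh z (pvegOKa 𝔓 O₀ m t) := pvge6_room_Ka_o H.lev H.ty H.fine H.side H.O13 z β hx (by
          rw [pvge3_S_sh]
          have e : pvge2S (z + pvegYp 𝔓 m t) ((𝔓.Γ m).dout t) x = pvegS (z + pvegYp 𝔓 m t) ((𝔓.Γ m).dout t) x := rfl
          have e' : pvhpXSp 𝔓 m t = pvegS (pvegYp 𝔓 m t) ((𝔓.Γ m).dout t) ((𝔓.Γ m).pout t) := rfl
          rw [← e, ← e']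
          linarith)
        refine ⟨Or.inr (by rw [H.oK]; exact hk), pvho_box_off (pveg_oKa_off H.lev H.ty O₀) hk⟩ }

/-- **THE CONTRACT ON THE TESTS HOLDS AT THE DATUM OF RECORD** -/
theorem pvhpX_okT (𝔓 : PvxPar τ c) (𝔱 : PvhfTr) (m : ℕ) (z : ℂ) (t : τ) {T : PvjeTest} (hK : T.𝒦 ⊆ pvkqPat (pvge3Dl c m) (pvge3PatO 𝔓 m z t))
    (hH : T.ℋ ⊆ pvdpPl (pvieZo 𝔓 m z t) ((𝔓.Γ m).dout t * (pvlmDel c m : ℝ)) (𝔓.col t) (pvhfS pvkgG.toPvkdPlug 𝔱 false)) : (pvhpX 𝔓 𝔱 m z t).OkT 𝔓 m z t T where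
  pat := fun Y κ h β => by
    have h1 := hK h
    cases β
    · refine pvw7_pat_col (b := 𝔓.col t) (bt := false) h1 ?_
      rw [show (false == 𝔓.col t) = !𝔓.col t by cases 𝔓.col t <;> rfl]
      exact List.mem_cons_of_mem _ (List.mem_singleton.2 rfl)
    · refine pvw7_pat_col (b := 𝔓.col t) (bt := true) h1 ?_
      rw [show (true == 𝔓.col t) = 𝔓.col t by cases 𝔓.col t <;> rfl]
      exact List.mem_cons_self
  side := hH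

/-- **THE FIRST LINK AT A FINAL CONFIGURATION, FROM THE CERTIFICATE OF RECORD** (`pvj0Mc`: mesh `μ₀/20` of the base in the large ball), generic parameters / engine / truncation / tests -/
theorem pvhpX_link (H : PvhpXH 𝔓 𝔈 𝔱 O₀ m ε t) {w : ∀ η : Conf PvPt, (delbPl (pvieY η)).Dart → ℂ} {z : ℂ} {T : PvjeTest} (hK : T.𝒦 ⊆ pvkqPat (pvge3Dl c m) (pvge3PatO 𝔓 m z t))
    (hH : T.ℋ ⊆ pvdpPl (pvieZo 𝔓 m z t) ((𝔓.Γ m).dout t * (pvlmDel c m : ℝ)) (𝔓.col t) (pvhfS pvkgG.toPvkdPlug 𝔱 false)) {η₀ η : Conf PvPt}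
    (hU : η₀ ∈ pvilUo 𝔓.num (𝔓.col t) (pvilPin 𝔓 m z t)) (hMc : η₀ ∈ pvj0Mc 𝔓 m z t) (hF : PvjeFin (pvjeO 𝔓 𝔈 w m ε z t) T η₀ η)
    (hms : η ∈ pvilMs 𝔓 m (pvilWno 𝔓 𝔈 m ε z t (pvilZo 𝔓 m z t η₀))) :
    η ∈ (pvilLo 𝔓 𝔈 m z t).A 𝔓.num (𝔓.col t) ∧ pvilZo 𝔓 m z t η = pvilZo 𝔓 m z t η₀ := by
  obtain ⟨hδ, hμ0, hμ1, eρ, eq, edl, hf, eR⟩ := pvhpX_nums H
  obtain ⟨s1, s2, s3, s0⟩ := pvho_small H.n m
  obtain ⟨𝔖₀, h₀⟩ := hU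
  refine pvhp_link_o (pvhpX 𝔓 𝔱 m z t) (pvhpX_ok H z) (pvhpX_okT 𝔓 𝔱 m z t hK hH) (pvho_cert_box H.n H.lev z hMc) ?_ (pvho_cert_o H.n H.ty z (μ := pvj0Rho 𝔓 m) (by rw [← eR]; linarith) hMc) h₀ hF hms
  refine pvrg_mesh_mono ?_ hMc
  rw [H.oM, pvho_oM]
  intro x hx
  rw [mem_closedBall, dist_eq_norm] at hx ⊢
  have h1 := pvho_cp_le H.ty m z
  have h2 := pvhg_tri3 x ((𝔓.ty t).cp (pvlmH m) z) z
  linarith

/-- **`PvjeDet.ev` OF THE FIRST LINK, FROM THE CERTIFICATE OF RECORD AND (b6)** -/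
theorem pvhpX_ev (H : PvhpXH 𝔓 𝔈 𝔱 O₀ m ε t) {w : ∀ η : Conf PvPt, (delbPl (pvieY η)).Dart → ℂ} {z : ℂ} {T : PvjeTest} (hK : T.𝒦 ⊆ pvkqPat (pvge3Dl c m) (pvge3PatO 𝔓 m z t))
    (hH : T.ℋ ⊆ pvdpPl (pvieZo 𝔓 m z t) ((𝔓.Γ m).dout t * (pvlmDel c m : ℝ)) (𝔓.col t) (pvhfS pvkgG.toPvkdPlug 𝔱 false)) {η₀ η : Conf PvPt}
    (hU : η₀ ∈ pvilUo 𝔓.num (𝔓.col t) (pvilPin 𝔓 m z t)) (hMc : η₀ ∈ pvj0Mc 𝔓 m z t) (hF : PvjeFin (pvjeO 𝔓 𝔈 w m ε z t) T η₀ η)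
    (hms : η ∈ pvilMs 𝔓 m (pvilWno 𝔓 𝔈 m ε z t (pvilZo 𝔓 m z t η₀))) : η ∈ pvilMo 𝔓 𝔈 m ε z t (pvilZo 𝔓 m z t η₀) :=
  ⟨pvhpX_link H hK hH hU hMc hF hms, hms⟩

end fields

end Claimed.Agent.R289
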