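-- KEEP
import Claimed.Agent.R289.Exit.FrcOX
import Claimed.Agent.R289.Tr.FrcDetO
import Claimed.Agent.R289.Tr.FrcCarF
import Claimed.Agent.R289.Exit.ParGr

/-!
# Row 289 (S0537), THE WALL, ROAD E, E10 (b3) DET, file Exit/FrcOXN : BLOCK (N) OF `(pvhpX ..).Ok` = THE NUMBERS AT THE TIP OF THE FIRST LINK      (helper167, second rope of 199; prefix `pvf7_`)

Each field of block (N) of `PvhpDat.Ok` (199, `Tr/HookOE`) at the data of record `pvhpX 𝔓 𝔱 m z t` (`Exit/FrcOX`), TEXT OF THE FIELD VERBATIM: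
* sec. 1  generic parameters `𝔓`, generic engine `𝔈`, any truncation `𝔱`: `pvf7_rho0 _h3 _hb _hr _num _rt1 _big _dir _dom _tip _muw0`
* sec. 2  AT THE RECORD (`pvxParOf N hN c`, `pvnaEngRec N hN c nb`): `pvf7_rec_rho0 _h3 _hb _hr _hK _hD _num _rt1 _big _dir _dom _tip _muw0`
-/

set_option autoImplicit false

namespace Claimed.Agent.R289

open Set Metric Claims.C0465

section gen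

variable {τ : Type} {c : ℝ} {𝔓 : PvxPar τ c} {m : ℕ}

/-- the three sizes of the mesh of record: `0 < μ`, `1000 μ ≤ δ`, `64000 μ ≤ R` -/
theorem pvf7_mu (hL : PvegLev 𝔓 m) (h3 : 0 < 𝔓.num.rho3) : 0 < pvilMu 𝔓 m ∧ 1000 * pvilMu 𝔓 m ≤ pvlmDel c m ∧ 64000 * pvilMu 𝔓 m ≤ 𝔓.num.rho * pvlmH m := by
  obtain ⟨h1, h2, h4⟩ := pvho_mu hL h3
  exact ⟨by linarith, by linarith, by linarith⟩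

theorem pvf7_rho0 (h3 : 0 < 𝔓.num.rho3) (𝔱 : PvhfTr) (m : ℕ) (z : ℂ) (t : τ) : 0 < (pvhpX 𝔓 𝔱 m z t).ρ := pvj0_rho_pos 𝔓 h3 m

theorem pvf7_h3 (hL : PvegLev 𝔓 m) (h3 : 0 < 𝔓.num.rho3) (𝔱 : PvhfTr) (z : ℂ) (t : τ) : 3 * (pvhpX 𝔓 𝔱 m z t).ρ ≤ pvlmDel c m := by
  obtain ⟨h1, h2, -⟩ := pvf7_mu hL h3
  show 3 * (pvilMu 𝔓 m / 20) ≤ pvlmDel c m
  linarith

theorem pvf7_hb (n : PvhoNum 𝔓) (m : ℕ) (t : τ) : (𝔓.ty t).b * pvlmH m ≤ pviwRad 𝔓 m t := by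
  have := pvho_rad n m t
  have hh := pvlm_H_pos m
  unfold pviwRad
  linarith

theorem pvf7_hr (hW : 𝔓.WfB) (hL : PvegLev 𝔓 m) (h3 : 0 < 𝔓.num.rho3) (𝔱 : PvhfTr) (z : ℂ) (t : τ) : (pvhpX 𝔓 𝔱 m z t).ρ < (𝔓.ty t).b * pvlmH m :=
  pvjv_carf_hr 𝔓 hW (pvf7_h3 hL h3 𝔱 z t) t

theorem pvf7_num (n : PvhoNum 𝔓) (hL : PvegLev 𝔓 m) (h3 : 0 < 𝔓.num.rho3) (𝔱 : PvhfTr) (z : ℂ) (t : τ) :
    PvhgEndNum 𝔓.num (pvlmH m) (𝔓.ty t) (pvhpX 𝔓 𝔱 m z t).r (pvhpX 𝔓 𝔱 m z t).r₁ (pvhpX 𝔓 𝔱 m z t).ρ (pvhpX 𝔓 𝔱 m z t).rs := by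
  obtain ⟨h1, -, h4⟩ := pvf7_mu hL h3
  obtain ⟨-, -, -, s0⟩ := pvho_small n m
  refine pvho_endNum n m t (μ := pvilMu 𝔓 m / 20) (rs := pvegR 𝔓 m / 4) (by positivity) (by linarith) ?_ ?_
  · exact le_rfl
  · show 𝔓.num.rho * pvlmH m / 4 ≤ 𝔓.num.rho * pvlmH m / 2
    linarith

theorem pvf7_rt1 (hL : PvegLev 𝔓 m) (h3 : 0 < 𝔓.num.rho3) (𝔱 : PvhfTr) (z : ℂ) (t : τ) : 2 * (pvhpX 𝔓 𝔱 m z t).rt + 5 * (pvhpX 𝔓 𝔱 m z t).ρ ≤ (pvhpX 𝔓 𝔱 m z t).r₁ := by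
  obtain ⟨h1, -, h4⟩ := pvf7_mu hL h3
  show 2 * (𝔓.num.rho * pvlmH m / 10 + 4 * (pvilMu 𝔓 m / 20)) + 5 * (pvilMu 𝔓 m / 20) ≤ 𝔓.num.rho * pvlmH m / 2
  linarith

theorem pvf7_big (n : PvhoNum 𝔓) (hL : PvegLev 𝔓 m) (h3 : 0 < 𝔓.num.rho3) (𝔱 : PvhfTr) (z : ℂ) (t : τ) : (pvhpX 𝔓 𝔱 m z t).rt ≤ pviwRad 𝔓 m t := by
  obtain ⟨h1, -, h4⟩ := pvf7_mu hL h3
  obtain ⟨s1, s2, s3, s0⟩ := pvho_small n m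
  have hb : 0 ≤ (𝔓.ty t).b * pvlmH m := mul_nonneg (n.b0 t) (pvlm_H_pos m).le
  have := pvho_rad n m t
  show 𝔓.num.rho * pvlmH m / 10 + 4 * (pvilMu 𝔓 m / 20) ≤ pvwRad 𝔓.num (pvlmH m) (𝔓.ty t) (𝔓.ty t).k
  linarith

theorem pvf7_dir (hL : PvegLev 𝔓 m) (𝔱 : PvhfTr) (z : ℂ) (t : τ) : (pvhpX 𝔓 𝔱 m z t).ζ ∈ pvtzdDir := pvho_dir_o hL t

theorem pvf7_tip (hc : ∀ t, ∀ w ∈ 𝔓.cp t, ‖w - (𝔓.ty t).yp‖ ≤ 𝔓.num.rho / 10) (𝔱 : PvhfTr) (m : ℕ) (z : ℂ) (t : τ) :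
    ∀ p ∈ (pvilPin 𝔓 m z t).cp, ‖p - (𝔓.ty t).cp (pvlmH m) z‖ + 4 * (pvhpX 𝔓 𝔱 m z t).ρ ≤ (pvhpX 𝔓 𝔱 m z t).rt := by
  intro p hp
  have h1 : ‖p - (𝔓.ty t).cp (pvlmH m) z‖ ≤ 𝔓.num.rho / 10 * pvlmH m := pvho_cell (hc t) (pvlm_H_pos m) hp
  show ‖p - (𝔓.ty t).cp (pvlmH m) z‖ + 4 * pvj0Rho 𝔓 m ≤ 𝔓.num.rho * pvlmH m / 10 + 4 * pvj0Rho 𝔓 m
  linarith

theorem pvf7_muw0 (hL : PvegLev 𝔓 m) (h3 : 0 < 𝔓.num.rho3) (𝔱 : PvhfTr) (z : ℂ) (t : τ) : 0 < (pvhpX 𝔓 𝔱 m z t).μw := (pvf7_mu hL h3).1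

theorem pvf7_dom (hL : PvegLev 𝔓 m) (𝔱 : PvhfTr) (z : ℂ) (t : τ) :
    ∀ ζ' ∈ pvtzdDir, (ζ' * ((𝔓.ty t).cp (pvlmH m) z - z)).re ≤ ((pvhpX 𝔓 𝔱 m z t).ζ * ((𝔓.ty t).cp (pvlmH m) z - z)).re := by
  obtain ⟨e, u, hu, -, h2, -, h4⟩ := hL.doors.out t
  have e1 : (𝔓.ty t).cp (pvlmH m) z - z = (pvlmH m : ℂ) * (𝔓.ty t).yp := by unfold PvwTy.cp; ring
  rw [e1]
  refine pvhj_dom_of_sup (pvlm_H_pos m).le ?_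
  show ((starRingEnd ℂ) ((𝔓.Γ m).dout t) * (𝔓.ty t).yp).re = _
  rw [h2, mul_comm]
  exact h4

end gen

/-! ## 2. at the record -/

section rec

variable {c : ℝ} {N : PvxNums} (hN : N.Ok)

theorem pvf7_rec_rho0 (c : ℝ) (𝔱 : PvhfTr) (m : ℕ) (z : ℂ) (t : pvxTau N) : 0 < (pvhpX (pvxParOf N hN c) 𝔱 m z t).ρ := pvf7_rho0 hN.msk0 𝔱 m z t

theorem pvf7_rec_h3 (c0 : 0 < c) {m : ℕ} (hm : (pvxParOf N hN c).m0 ≤ m) (𝔱 : PvhfTr) (z : ℂ) (t : pvxTau N) : 3 * (pvhpX (pvxParOf N hN c) 𝔱 m z t).ρ ≤ pvlmDel c m :=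
  pvf7_h3 (pvqh_lev hN c0 hm) hN.msk0 𝔱 z t

theorem pvf7_rec_hb (c : ℝ) (m : ℕ) (t : pvxTau N) : ((pvxParOf N hN c).ty t).b * pvlmH m ≤ pviwRad (pvxParOf N hN c) m t := pvf7_hb (pvho_num_par hN c) m t

theorem pvf7_rec_hr (c0 : 0 < c) {m : ℕ} (hm : (pvxParOf N hN c).m0 ≤ m) (𝔱 : PvhfTr) (z : ℂ) (t : pvxTau N) : (pvhpX (pvxParOf N hN c) 𝔱 m z t).ρ < ((pvxParOf N hN c).ty t).b * pvlmH m :=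
  pvf7_hr (pvxo_wf N hN c).toWfB (pvqh_lev hN c0 hm) hN.msk0 𝔱 z t

theorem pvf7_rec_hK (c0 : 0 < c) (nb : PvnaNb N) {m : ℕ} (hm : (pvxParOf N hN c).m0 ≤ m) (t : pvxTau N) : Disjoint ((pvnaEngRec N hN c nb).oK m t) (pviwBox (pvxParOf N hN c) m t) := by
  obtain ⟨Cth, r, κs, hW⟩ := (pvnr_wf hN c0 nb).wf
  exact (pvjv_carf_off_o hW hm 0 (pvqh_tyOk hN c t)).1

theorem pvf7_rec_hD (c0 : 0 < c) (nb : PvnaNb N) {m : ℕ} (hm : (pvxParOf N hN c).m0 ≤ m) (ε : ℝ) (t : pvxTau N) :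
    Disjoint (pviwDo (pvxParOf N hN c) (pvnaEngRec N hN c nb) m ε t) (pviwBox (pvxParOf N hN c) m t) := by
  obtain ⟨Cth, r, κs, hW⟩ := (pvnr_wf hN c0 nb).wf
  exact (pvjv_carf_off_o hW hm ε (pvqh_tyOk hN c t)).2

theorem pvf7_rec_num (c0 : 0 < c) {m : ℕ} (hm : (pvxParOf N hN c).m0 ≤ m) (𝔱 : PvhfTr) (z : ℂ) (t : pvxTau N) :
    PvhgEndNum (pvxParOf N hN c).num (pvlmH m) ((pvxParOf N hN c).ty t) (pvhpX (pvxParOf N hN c) 𝔱 m z t).r (pvhpX (pvxParOf N hN c) 𝔱 m z t).r₁ (pvhpX (pvxParOf N hN c) 𝔱 m z t).ρ (pvhpX (pvxParOf N hN c) 𝔱 m z t).rs :=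
  pvf7_num (pvho_num_par hN c) (pvqh_lev hN c0 hm) hN.msk0 𝔱 z t

theorem pvf7_rec_rt1 (c0 : 0 < c) {m : ℕ} (hm : (pvxParOf N hN c).m0 ≤ m) (𝔱 : PvhfTr) (z : ℂ) (t : pvxTau N) :
    2 * (pvhpX (pvxParOf N hN c) 𝔱 m z t).rt + 5 * (pvhpX (pvxParOf N hN c) 𝔱 m z t).ρ ≤ (pvhpX (pvxParOf N hN c) 𝔱 m z t).r₁ := pvf7_rt1 (pvqh_lev hN c0 hm) hN.msk0 𝔱 z t

theorem pvf7_rec_big (c0 : 0 < c) {m : ℕ} (hm : (pvxParOf N hN c).m0 ≤ m) (𝔱 : PvhfTr) (z : ℂ) (t : pvxTau N) : (pvhpX (pvxParOf N hN c) 𝔱 m z t).rt ≤ pviwRad (pvxParOf N hN c) m t :=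
  pvf7_big (pvho_num_par hN c) (pvqh_lev hN c0 hm) hN.msk0 𝔱 z t

theorem pvf7_rec_dir (c0 : 0 < c) {m : ℕ} (hm : (pvxParOf N hN c).m0 ≤ m) (𝔱 : PvhfTr) (z : ℂ) (t : pvxTau N) : (pvhpX (pvxParOf N hN c) 𝔱 m z t).ζ ∈ pvtzdDir := pvf7_dir (pvqh_lev hN c0 hm) 𝔱 z t

theorem pvf7_rec_dom (c0 : 0 < c) {m : ℕ} (hm : (pvxParOf N hN c).m0 ≤ m) (𝔱 : PvhfTr) (z : ℂ) (t : pvxTau N) :
    ∀ ζ' ∈ pvtzdDir, (ζ' * (((pvxParOf N hN c).ty t).cp (pvlmH m) z - z)).re ≤ ((pvhpX (pvxParOf N hN c) 𝔱 m z t).ζ * (((pvxParOf N hN c).ty t).cp (pvlmH m) z - z)).re :=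
  pvf7_dom (pvqh_lev hN c0 hm) 𝔱 z t

theorem pvf7_rec_tip (c : ℝ) (𝔱 : PvhfTr) (m : ℕ) (z : ℂ) (t : pvxTau N) :
    ∀ p ∈ (pvilPin (pvxParOf N hN c) m z t).cp, ‖p - ((pvxParOf N hN c).ty t).cp (pvlmH m) z‖ + 4 * (pvhpX (pvxParOf N hN c) 𝔱 m z t).ρ ≤ (pvhpX (pvxParOf N hN c) 𝔱 m z t).rt :=
  pvf7_tip (pvqh_cp hN c) 𝔱 m z t

theorem pvf7_rec_muw0 (c0 : 0 < c) {m : ℕ} (hm : (pvxParOf N hN c).m0 ≤ m) (𝔱 : PvhfTr) (z : ℂ) (t : pvxTau N) : 0 < (pvhpX (pvxParOf N hN c) 𝔱 m z t).μw :=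
  pvf7_muw0 (pvqh_lev hN c0 hm) hN.msk0 𝔱 z t

end rec

end Claimed.Agent.R289
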