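-- KEEP
import Claimed.Agent.R289.Exit.FrcOXA
import Claimed.Agent.R289.Exit.ParGr

/-!
# Row 289 (S0537), THE WALL, ROAD E, E10 (b3) DET, file Exit/FrcOXR : `PvjeDet.ev` OF THE FIRST LINK AT THE PARAMETERS / ENGINE / TESTS OF RECORD      (helper199; prefix `pvhpR_`)

0 sorry.   `𝔓 = pvxParOf N hN c`, `𝔈 = pvnaEngRec N hN c nb`, `T = pvj0T 𝔓 𝔈 q₀ nb.b m z t` (`Exit/FrcODefs`), truncation `pvnaT N`.
* `pvhpR_O13` (the door square has half side `13 q / 4`),   **`pvhpR_H`** : `PvhpXH ..` (all the hypotheses of `Exit/FrcOXA` paid at the record)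
* **`pvhpR_link`** = THE EXISTENTIAL FORM OF THE RUN (211 (b)): `hU hMc hF` + (b6) `hms` ⟹ `η ∈ Lo.A`      (`pvj6_run` dies)
* **`pvhpR_ev`** : `hU hMc hF` + (b6) ⟹ `η ∈ pvilMo ..`;      **`pvhpR_ev_of_mesh`** = the statement of `exit_pvj0_ev` VERBATIM from the statement of `exit_pvj0_mesh` VERBATIM
-/

set_option autoImplicit false
set_option linter.unusedSectionVars false
set_option linter.unusedVariables false

namespace Claimed.Agent.R289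

open Set Metric MeasureTheory Filter Topology Claims.C0465
open scoped ENNReal

section rec

variable {c : ℝ}

/-- the reference region of the door plug of level `m` lies in the square of half side `13 q / 4` -/
theorem pvhpR_O13 (N : PvxNums) (hN : N.Ok) (nb : PvnaNb N) (m : ℕ) : (pvnaInRec N hN c nb).O0 m ⊆ pvccSq 0 (13 * pvge3Q c m / 4) := by
  rw [pvnr_O0]
  have e : pvkgG.O₀ = pvkgO := rfl
  rw [e, pvkgg_O_sq]
  rintro _ ⟨w, hw, rfl⟩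
  have hδ := pvlm_Del_pos c m
  have hw' : pvccN (w - 0) < 13 / 160 := hw
  rw [sub_zero] at hw'
  show pvccN (pvthSim 0 (pvlmDel c m) w - 0) < 13 * pvge3Q c m / 4
  unfold pvccN at hw' ⊢
  obtain ⟨h1, h2⟩ := max_lt_iff.1 hw'
  have e1 : (pvthSim 0 (pvlmDel c m : ℂ) w - 0).re = pvlmDel c m * w.re := by simp [pvthSim]
  have e2 : (pvthSim 0 (pvlmDel c m : ℂ) w - 0).im = pvlmDel c m * w.im := by simp [pvthSim]
  rw [e1, e2, abs_mul, abs_mul, abs_of_pos hδ]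
  unfold pvge3Q
  refine max_lt ?_ ?_ <;> nlinarith

/-- **ALL THE HYPOTHESES OF `Exit/FrcOXA` AT THE RECORD** -/
theorem pvhpR_H (c0 : 0 < c) (N : PvxNums) (hN : N.Ok) (nb : PvnaNb N) {m : ℕ} (hm : (pvxParOf N hN c).m0 ≤ m) (ε : ℝ) (t : pvxTau N) :
    PvhpXH (pvxParOf N hN c) (pvnaEngRec N hN c nb) (pvnaT N) (pvnaInRec N hN c nb).O0 m ε t where
  n := pvho_num_par hN c
  lev := pvqh_lev hN c0 hm
  ty := pvea_tyOk hN t
  cp := pvqh_cp hN c t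
  fine := pvz7_rec_fine hN c0 hm
  rho3 := hN.msk0
  hb := pvjv_carf_hb _ (pvxo_wf N hN c).toWfB (pvjv_carf_b2 N hN c) m t
  hr := pvjv_carf_hr _ (pvxo_wf N hN c).toWfB (μ := pvlmDel c m / 3) (by linarith) t
  oM := pvnr_oM N hN c nb m t
  oK := pvnr_oK N hN c nb m t
  kO := (pvnr_kit_O N hN c nb m ε).trans (pvnr_O0 N hN c nb m).symm
  O13 := pvhpR_O13 N hN nb m
  Yc := (pvnr_oY N hN c nb m t).ge
  Ya := (pvnr_oY N hN c nb m t).le.trans (pvey_oYc_sub_oYa (pvqh_lev hN c0 hm) (pvz7_rec_mu0 hN m).le t)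
  co := fun z => by
    rw [pvnr_oY]
    exact pvey_sh_oYc_co (pvqh_lev hN c0 hm) (pvz7_rec_mu0 hN m).le (pvea_tyOk hN t) z
  geo := pvna_geo hN
  side := pvge5_side_T (by norm_num) false

variable (c0 : 0 < c) (N : PvxNums) (hN : N.Ok) (nb : PvnaNb N) (q₀ : ℝ) {m : ℕ} (hm : (pvxParOf N hN c).m0 ≤ m) (z : ℂ) (t : pvxTau N) (ε : ℝ)
  {η₀ η : Conf PvPt} (hU : η₀ ∈ pvilUo (pvxParOf N hN c).num ((pvxParOf N hN c).col t) (pvilPin (pvxParOf N hN c) m z t)) (hMc : η₀ ∈ pvj0Mc (pvxParOf N hN c) m z t)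
  (hF : PvjeFin (pvjeO (pvxParOf N hN c) (pvnaEngRec N hN c nb) pvilQ m ε z t) (pvj0T (pvxParOf N hN c) (pvnaEngRec N hN c nb) q₀ nb.b m z t) η₀ η)
  (hms : η ∈ pvilMs (pvxParOf N hN c) m (pvilWno (pvxParOf N hN c) (pvnaEngRec N hN c nb) m ε z t (pvilZo (pvxParOf N hN c) m z t η₀)))

include c0 hm hU hMc hF hms in
/-- **THE PLAIN LINK AND THE HULL AT ONE FINAL CONFIGURATION, AT THE RECORD** -/
theorem pvhpR_link : η ∈ (pvilLo (pvxParOf N hN c) (pvnaEngRec N hN c nb) m z t).A (pvxParOf N hN c).num ((pvxParOf N hN c).col t) ∧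
    pvilZo (pvxParOf N hN c) m z t η = pvilZo (pvxParOf N hN c) m z t η₀ :=
  pvhpX_link (pvhpR_H c0 N hN nb hm ε t) inter_subset_left Subset.rfl hU hMc hF hms

include c0 hm hU hMc hF hms in
/-- **`PvjeDet.ev` AT ONE FINAL CONFIGURATION, AT THE RECORD** -/
theorem pvhpR_ev : η ∈ pvilMo (pvxParOf N hN c) (pvnaEngRec N hN c nb) m ε z t (pvilZo (pvxParOf N hN c) m z t η₀) :=
  ⟨pvhpR_link c0 N hN nb q₀ hm z t ε hU hMc hF hms, hms⟩

end rec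

/-- **THE STATEMENT OF `exit_pvj0_ev`** (`Exit/FrcO.lean`) VERBATIM, FROM THE STATEMENT OF `exit_pvj0_mesh` VERBATIM -/
theorem pvhpR_ev_of_mesh {c : ℝ} (c0 : 0 < c) (N : PvxNums) (hN : N.Ok) (nb : PvnaNb N) (q₀ : ℝ) {m : ℕ} (hm : (pvxParOf N hN c).m0 ≤ m) (z : ℂ) (t : pvxTau N)
    (mesh : ∀ᶠ ε in 𝓝[>] (0 : ℝ), ∀ η₀ ∈ pvilUo (pvxParOf N hN c).num ((pvxParOf N hN c).col t) (pvilPin (pvxParOf N hN c) m z t), η₀ ∈ pvj0Mc (pvxParOf N hN c) m z t → CfOK η₀ →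
      ∀ η, PvjeFin (pvjeO (pvxParOf N hN c) (pvnaEngRec N hN c nb) pvilQ m ε z t) (pvj0T (pvxParOf N hN c) (pvnaEngRec N hN c nb) q₀ nb.b m z t) η₀ η →
        η ∈ pvilMs (pvxParOf N hN c) m (pvilWno (pvxParOf N hN c) (pvnaEngRec N hN c nb) m ε z t (pvilZo (pvxParOf N hN c) m z t η₀))) :
    ∀ᶠ ε in 𝓝[>] (0 : ℝ), ∀ η₀ ∈ pvilUo (pvxParOf N hN c).num ((pvxParOf N hN c).col t) (pvilPin (pvxParOf N hN c) m z t), η₀ ∈ pvj0Mc (pvxParOf N hN c) m z t → CfOK η₀ →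
      ∀ η, PvjeFin (pvjeO (pvxParOf N hN c) (pvnaEngRec N hN c nb) pvilQ m ε z t) (pvj0T (pvxParOf N hN c) (pvnaEngRec N hN c nb) q₀ nb.b m z t) η₀ η →
        η ∈ pvilMo (pvxParOf N hN c) (pvnaEngRec N hN c nb) m ε z t (pvilZo (pvxParOf N hN c) m z t η₀) := by
  filter_upwards [mesh] with ε h η₀ hU hMc hok η hF
  exact pvhpR_ev c0 N hN nb q₀ hm z t ε hU hMc hF (h η₀ hU hMc hok η hF)

end Claimed.Agent.R289
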