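-- KEEP
import Claimed.Agent.R289.Tr.HookTM
import Claimed.Agent.R289.Tr.LinkME
import Claimed.Agent.R289.Tr.FrcDetO
import Claimed.Agent.R289.Exit.HookTE
import Claimed.Agent.R289.Exit.HookTF
import Claimed.Agent.R289.Exit.FrcTR
import Claimed.Agent.R289.Exit.FrcTM
import Claimed.Agent.R289.Exit.FrcTG

/-!
# Row 289 (S0537), THE WALL, ROAD E, E10, LINK e, (b3) DET, file Exit/FrcTD : **THE INSTANCE OF `PvetDet` (`Exit/FrcT`) AT THE ROUTES OF RECORD, EVERY FIELD A NAMED LINE**      (helper233, post of 24 14:34Z; prefix `pved_`, `pved`, `Pved`)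

`PvetDet` is defined in `Exit/FrcT` (54): this file does NOT import it.   It states the four fields `rho tip lay mem` at a GENERIC parameter `𝔓`, engine `𝔈`, scale `s`, truncation `𝔱` under ONE record of lines `PvedEng 𝔓 𝔈 m t s 𝔱`
(the lines of L2: `eY = pvvzEY` (118), `eM = pvegIM`, `eK = pvnuEK`, `rO = pvnuRO` (84), unit `Δ / 20`, scale `s / 40 = Δ / 20`), so `pvet_rtE_det := ⟨_, .., ⟨pved_rho .., pved_tip H z, pved_lay H z, pved_mem ..⟩⟩` once `Exit/FrcT` imports it.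
DATA (`R = pvegR = ρ h`, `Δ = pvehDl`, `μ = pvilMu`):  `r = ρ₂ h`, `r₁ = R / 2`, `ρ = μ / 40`, `rs = R / 4`, `rt = R / 10 + 4 ρ`, `e₀ = 21 R / 200`, `ρl = R / 1000`, `ζ = conj (I ^ pvxrB 𝔓 t)`, `eC eN tt = pvmvDC pvmvDN pvmvDT` (21), `eD xs xa xb y0 y1 = pvjiD pvjiXc pvjiXa pvjiXb pvjiY0 pvjiY1` (80),
`Sg = pvedSg`, `jN = jS = 0`, `ζd = 1`.
-/

set_option autoImplicit false
set_option linter.unusedSectionVars false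
set_option linter.unusedVariables false

namespace Claimed.Agent.R289

open Set Metric Complex

section defs

variable {τ : Type} {c : ℝ} (𝔓 : PvxPar τ c) (𝔈 : PvieEng τ)

/-- **THE LINES OF THE PARAMETER AND OF THE ENGINE (L2) WHICH THE DET SIDE OF THE LINK `e` READS** -/
structure PvedEng (m : ℕ) (t : τ) (s : ℝ) (𝔱 : PvhfTr) : Prop where
  hΓ : 𝔓.Γ m = pvxrGam 𝔓 m
  hL : PvegLev 𝔓 m
  hT : pviwTyOk 𝔓 t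
  ndg : PvxrNdg 𝔓 m t
  num : PvhoNum 𝔓
  rho3 : 0 < 𝔓.num.rho3
  nw : 0 ≤ pvxrNw 𝔓 m
  eY : 𝔈.eY m t = pvvzEY 𝔓 m t
  eM : 𝔈.eM m t = pvegIM 𝔓 m t
  eK : 𝔈.eK m t = pvnuEK 𝔓 m t
  rO : 𝔈.rO m = pvnuRO 𝔓 m
  ru : pvilRu 𝔈 m = pvehDl 𝔓 m / 20
  s0 : 0 < s
  hq : pvehDl 𝔓 m / 20 = s * (1 / 40)
  side : Pvge5Side (1 / 40) true (𝔱.Ln true) (𝔱.Dr true)
  /-- the rooms of the half lanes are those of the truncation of record (`rfl` at `pvetTn`) -/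
  ln : 𝔱.Ln true = (pvhfT pvkgG.a).Ln true
  /-- the engine satisfies the contract at the level `m` -/
  wf : ∃ (m0 : ℕ) (Cth : ℝ) (r κs : ℕ → ℝ), PvieEng.Wf 𝔓 𝔈 m0 Cth r κs ∧ m0 ≤ m
  /-- the parameter is the one of the engine -/
  par : ∃ m1 : ℕ, PveaPar 𝔓 m1 ∧ m1 ≤ m
  wfB : 𝔓.WfB

/-- mesh of the big mouth -/
noncomputable def pvedRho (m : ℕ) : ℝ := pvilMu 𝔓 m / 40
/-- radius of the tip face -/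
noncomputable def pvedRt (m : ℕ) : ℝ := pvegR 𝔓 m / 10 + 4 * pvedRho 𝔓 m
/-- side of the tip cell -/
noncomputable def pvedZe (t : τ) : ℂ := (starRingEnd ℂ) (I ^ pvxrB 𝔓 t)
/-- the closing set of the relative colour `β` -/
noncomputable def pvedSg (m : ℕ) (z : ℂ) (t : τ) (β : Bool) : Set ℂ :=
  pvge2Cl (z + pvegYm 𝔓 m t) (I ^ pvxrB 𝔓 t) (!β) (pvge2Aa (pvegR 𝔓 m) β) (23 * pvegR 𝔓 m / 200) (3 * pvegR 𝔓 m / 20) (pvehDl 𝔓 m / 512)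
/-- the window of the link -/
def pvedW (m : ℕ) (z : ℂ) (t : τ) : Set ℂ := pvieSh z (𝔈.eM m t) ∪ pvieSh z (𝔈.eK m t) ∪ pvieSh (pvieZu 𝔓 m z t) (𝔈.rO m)
/-- the fresh part -/
noncomputable def pvedFr (m : ℕ) (z : ℂ) (t : τ) : Set ℂ := (pvieSh z (𝔈.eM m t) ∪ pvieSh z (𝔈.eK m t)) \ pvwSq z (pviwRad 𝔓 m t)

theorem pved_eqns_cite : True := by
  have := @pvedRho.eq_1; have := @pvedRt.eq_1; have := @pvedZe.eq_1; have := @pvedSg.eq_1; have := @pvedW.eq_1; have := @pvedFr.eq_1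
  trivial

end defs

variable {τ : Type} {c : ℝ} {𝔓 : PvxPar τ c} {𝔈 : PvieEng τ} {m : ℕ} {t : τ} {s : ℝ} {𝔱 : PvhfTr}

/-! ## 1. numbers -/

theorem pved_cm (𝔓 : PvxPar τ c) (m : ℕ) (z : ℂ) (t : τ) : (𝔓.ty t).cm (pvlmH m) z = z + pvegYm 𝔓 m t := rfl

theorem pved_D (𝔓 : PvxPar τ c) (m : ℕ) (z : ℂ) (t : τ) : pvmvDD 𝔓 m z t = pvjiD 𝔓 m z t := by
  funext β
  simp [pvmvDD, pvjiD]

/-- all the sizes: `0 < μ ≤ δ / 1000`, `1024 δ ≤ R`, `0 < Δ`, `14 Δ ≤ R ≤ 16 Δ` -/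
theorem pved_sz (H : PvedEng 𝔓 𝔈 m t s 𝔱) : 0 < pvilMu 𝔓 m ∧ pvilMu 𝔓 m ≤ pvlmDel c m / 1000 ∧ 0 < pvlmDel c m ∧ 1024 * pvlmDel c m ≤ pvegR 𝔓 m ∧ 0 < pvehDl 𝔓 m ∧ 14 * pvehDl 𝔓 m ≤ pvegR 𝔓 m ∧ pvegR 𝔓 m ≤ 16 * pvehDl 𝔓 m := by
  have hf := pvmv_fine H.ndg
  have hd := pvlm_Del_pos c m
  obtain ⟨d1, d2⟩ := pvmv_Dl_bounds H.ndg
  refine ⟨div_pos (lt_min hd (mul_pos H.rho3 (pvlm_H_pos m))) (by norm_num), pveb_mu_le 𝔓 m, hd, hf, by linarith, by linarith, d1⟩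

theorem pved_num (H : PvedEng 𝔓 𝔈 m t s 𝔱) (β : Bool) :
    Pvge2Num (pvge2Aa (pvegR 𝔓 m) β) (pvegR 𝔓 m / 200) (23 * pvegR 𝔓 m / 200) (23 * pvegR 𝔓 m / 200) (3 * pvegR 𝔓 m / 20) (pvehDl 𝔓 m / 512) (pvegR 𝔓 m / 1000) (21 * pvegR 𝔓 m / 200) (pvedRt 𝔓 m) (2 * pvedRho 𝔓 m) (pvegR 𝔓 m / 4) := by
  obtain ⟨a1, a2, a3, a4, a5, a6, a7⟩ := pved_sz H
  unfold pvedRt pvedRho
  cases β
  · exact pvoh_num₂ (by linarith) a5 a6 (by linarith) (by linarith) (by linarith) (by linarith)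
  · exact pvoh_num₁ (by linarith) a5 a6 (by linarith) (by linarith) (by linarith) (by linarith)

/-! ## 2. the fields of `PvhuLayD` -/

theorem pved_arm (H : PvedEng 𝔓 𝔈 m t s 𝔱) (z : ℂ) {xB : ℝ} (hB : xB ≤ (pvedZe 𝔓 t * (z + pvegYm 𝔓 m t)).re + 21 * pvegR 𝔓 m / 200) (hB' : (pvedZe 𝔓 t * (z + pvegYm 𝔓 m t)).re - 21 * pvegR 𝔓 m / 200 ≤ xB) (β : Bool) :
    PvhzArmReg (pvedZe 𝔓 t) xB ((pvedZe 𝔓 t * (z + pvegYm 𝔓 m t)).im - pvedRt 𝔓 m) ((pvedZe 𝔓 t * (z + pvegYm 𝔓 m t)).im + pvedRt 𝔓 m) (2 * pvedRho 𝔓 m) (z + pvegYm 𝔓 m t) (pvegR 𝔓 m / 4) (pvegR 𝔓 m / 1000) (!β)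
      (pvmvDN 𝔓 m z t β).1 (pvmvDC 𝔓 m z t β).1 (pvedSg 𝔓 m z t β) :=
  pvge2_armReg (pvmv_norm_I _) (pved_num H β) hB hB' le_rfl le_rfl Subset.rfl Subset.rfl

theorem pved_sN (𝔓 : PvxPar τ c) (m : ℕ) (z : ℂ) (t : τ) (β : Bool) : pvhzSd (pvehDl 𝔓 m / 512) (pvkqCell (pvehDl 𝔓 m / 512) (pvmvDN 𝔓 m z t β).2.2) 0 ⊆ pvedSg 𝔓 m z t β :=
  (pvge2_sd_sub _ _ 0).trans (pvge2_Cl_cellN _)

theorem pved_sS (𝔓 : PvxPar τ c) (m : ℕ) (z : ℂ) (t : τ) (β : Bool) : pvhzSd (pvehDl 𝔓 m / 512) (pvkqCell (pvehDl 𝔓 m / 512) (pvmvDC 𝔓 m z t β).2.1) 0 ⊆ pvedSg 𝔓 m z t β :=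
  (pvge2_sd_sub _ _ 0).trans (pvge2_Cl_cellS _)

/-- the closing sets lie in the small mouth -/
theorem pved_Sg_ball (H : PvedEng 𝔓 𝔈 m t s 𝔱) (z : ℂ) (β : Bool) : pvedSg 𝔓 m z t β ⊆ closedBall (z + pvegYm 𝔓 m t) (pvegR 𝔓 m / 4) := by
  intro v hv
  rw [mem_closedBall_iff_norm]
  exact pvge2_arm_near (pvmv_norm_I _) (pved_num H β) ⟨v, Or.inr hv, by rw [sub_self, norm_zero]; have := (pved_sz H); linarith [this.2.2.1, this.2.2.2.1]⟩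

/-- (bdd) -/
theorem pved_bdd (H : PvedEng 𝔓 𝔈 m t s 𝔱) (z : ℂ) : Bornology.IsBounded (pvilLe 𝔓 𝔈 m z t).Yin := by
  show Bornology.IsBounded (pvieSh z (𝔈.eY m t))
  rw [H.eY]
  exact pvvz_eY_sh_bdd (by have := (pved_sz H).1; have e : pviwMu 𝔓 m = pvilMu 𝔓 m := rfl; rw [e]; linarith) H.hL H.hT z

/-- (co) -/
theorem pved_co (H : PvedEng 𝔓 𝔈 m t s 𝔱) (z : ℂ) : IsPreconnected (pvilLe 𝔓 𝔈 m z t).Yinᶜ := by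
  show IsPreconnected (pvieSh z (𝔈.eY m t))ᶜ
  rw [H.eY]
  exact pvvz_eY_sh_hole H.hΓ H.hL H.hT H.ndg z

/-- (collar)      LEAF -/
theorem pved_collar (H : PvedEng 𝔓 𝔈 m t s 𝔱) (z : ℂ) : ∀ v ∈ (pvilLe 𝔓 𝔈 m z t).Yin, closedBall v (3 * pvilMu 𝔓 m) ⊆ pvedW 𝔓 𝔈 m z t := by
  have hW : pveheY 𝔓 (pvegIM 𝔓) m t ∪ pvegIK 𝔓 m t ⊆ pvegIM 𝔓 m t ∪ pvnuEK 𝔓 m t ∪ pvieSh ((pvxrGam 𝔓 m).zu t) (pvnuRO 𝔓 m) := by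
    intro x hx
    by_cases hq : 13 * pvehDl 𝔓 m / 80 ≤ pvccN (x - (pvxrGam 𝔓 m).zu t)
    · exact Or.inl (pveb_old_tile H.ndg H.hΓ hx hq)
    · right
      rw [pveh_mem_sh, pvnu4_RO_sq H.ndg.rho0]
      show pvccN (x - (pvxrGam 𝔓 m).zu t - 0) < 13 * pvehDl 𝔓 m / 80
      rw [sub_zero]
      exact not_le.1 hq
  intro v hv w hw
  have hv' : v ∈ pvieSh z (𝔈.eY m t) := hv
  rw [H.eY, pveh_mem_sh] at hv'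
  have hw' : w - z ∈ closedBall (v - z) (3 * pviwMu 𝔓 m) := by
    rw [mem_closedBall_iff_norm] at hw ⊢
    have e : w - z - (v - z) = w - v := by ring
    rw [e]
    exact hw
  rcases pvvz_eY_col hW _ hv' hw' with (h | h) | h
  · refine Or.inl (Or.inl ?_)
    rw [H.eM, pveh_mem_sh]
    exact h
  · refine Or.inl (Or.inr ?_)
    rw [H.eK, pveh_mem_sh]
    exact h
  · refine Or.inr ?_
    rw [pveh_mem_sh] at h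
    rw [H.rO, pveh_mem_sh]
    unfold pvieZu
    rw [H.hΓ]
    have e : w - (z + (pvxrGam 𝔓 m).zu t) = w - z - (pvxrGam 𝔓 m).zu t := by ring
    rw [e]
    exact h

/-- (sgW)      LEAF -/
theorem pved_sgW (H : PvedEng 𝔓 𝔈 m t s 𝔱) (z : ℂ) (β : Bool) : pvedSg 𝔓 m z t β ⊆ pvtrCore (pvilMu 𝔓 m) (pvedW 𝔓 𝔈 m z t) := by
  obtain ⟨a1, a2, a3, a4, a5, a6, a7⟩ := pved_sz H
  intro v hv w hw
  have h1 := pved_Sg_ball H z β hv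
  rw [mem_closedBall_iff_norm] at h1 hw
  refine Or.inl (Or.inl ?_)
  rw [H.eM, pveh_mem_sh]
  unfold pvegIM
  rw [mem_closedBall_iff_norm]
  have e : w - z - pvegYm 𝔓 m t = (w - v) + (v - (z + pvegYm 𝔓 m t)) := by ring
  rw [e]
  have := norm_add_le (w - v) (v - (z + pvegYm 𝔓 m t))
  linarith

/-- (mouth)      LEAF -/
theorem pved_mouth (H : PvedEng 𝔓 𝔈 m t s 𝔱) (z : ℂ) : closedBall (z + pvegYm 𝔓 m t) (pvegR 𝔓 m / 4 + 4 * pvedRho 𝔓 m + pvilMu 𝔓 m) ⊆ (pvilLe 𝔓 𝔈 m z t).Yin := by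
  obtain ⟨a1, a2, a3, a4, a5, a6, a7⟩ := pved_sz H
  exact pvjiG_mouth H.hΓ H.hL H.hT H.ndg H.eY z (by unfold pvedRho; linarith)

/-- (mid) := 209 -/
theorem pved_mid (H : PvedEng 𝔓 𝔈 m t s 𝔱) (z : ℂ) : ∀ β, ∀ w ∈ pvkqRtR (pvmvDN 𝔓 m z t β :: pvmvDT 𝔓 m z t β), closedBall w (2 * pvilMu 𝔓 m) ⊆ (pvilLe 𝔓 𝔈 m z t).Yin ∧ closedBall w (pvilMu 𝔓 m) ⊆ pvedFr 𝔓 𝔈 m z t :=
  pveb_mid_eng 𝔈 H.hΓ H.hL H.hT H.ndg H.eY H.eM H.eK z false (𝔓.col t) (eC := pvmvDC 𝔓 m z t) (fun β => ⟨_, pvmv_d_mem z (𝔓.col t) β⟩)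

/-- (door) := 80 + 66 -/
theorem pved_door (H : PvedEng 𝔓 𝔈 m t s 𝔱) (z : ℂ) :
    PvhuDoorRegD 1 (pvehDl 𝔓 m / 512) (pvilMu 𝔓 m) (ball (pvilLe 𝔓 𝔈 m z t).p.z (pvkdP (pvilLe 𝔓 𝔈 m z t).p.h).b) (fun β => pvkdAt (pvieZu 𝔓 m z t) (1 * (s : ℂ)) (𝔱.Ln true β)) (fun β => pvkdAt (pvieZu 𝔓 m z t) (1 * (s : ℂ)) (𝔱.Dr true β))
      (pvjiD 𝔓 m z t) (pvjiXc 𝔓 m z t) (pvjiXa 𝔓 m z t) (pvjiXb 𝔓 m z t) (pvjiY0 𝔓 m z t) (pvjiY1 𝔓 m z t) :=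
  PvhuDoorRegD.of_ge4 norm_one (pvji_e_door H.hΓ H.rho3 H.nw H.side H.s0 H.hq z) (pvji_e_foot H.hΓ H.nw H.ru z) (pvji_e_tgt H.hΓ H.rho3 H.nw H.side H.s0 H.hq z)

/-- (room)      LEAF -/
theorem pved_room (H : PvedEng 𝔓 𝔈 m t s 𝔱) (z : ℂ) : ∀ β, ∀ w ∈ pvkdAt (pvieZu 𝔓 m z t) (1 * (s : ℂ)) (𝔱.Ln true β), closedBall w (pvilMu 𝔓 m) ⊆ (pvilLe 𝔓 𝔈 m z t).Yin := by
  have hs : s = 2 * pvehDl 𝔓 m := by have := H.hq; linarith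
  have hΔ := (pved_sz H).2.2.2.2.1
  rw [H.ln]
  exact pvjiG_room_T H.hΓ H.hL H.hT H.ndg H.eY z (by rw [hs]; linarith) (by rw [hs]; linarith)

/-- (roomF)      LEAF -/
theorem pved_roomF (H : PvedEng 𝔓 𝔈 m t s 𝔱) (z : ℂ) : ∀ β, ∀ w ∈ pvkdAt (pvieZu 𝔓 m z t) (1 * (s : ℂ)) (𝔱.Ln true β), pvjiXc 𝔓 m z t β < ((1 : ℂ) * w).re → w ∈ pvedFr 𝔓 𝔈 m z t := by
  obtain ⟨m0, Cth, r, κs, W, hm⟩ := H.wf
  obtain ⟨m1, P, hm1⟩ := H.par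
  have hs : s = pvurS 𝔓 m := by have := H.hq; unfold pvurS; linarith
  intro β
  refine pvji_e_roomF H.hΓ (by rw [H.rO]; exact pvji_u4_O H.num.rho0 m) z β ?_ (pvjiG_offK W hm H.hT)
  rw [H.rO, H.eK, H.ln, hs]
  exact pvvn_Ln_e P hm1 H.hT z β

/-- (gm)      LEAF -/
theorem pved_gm (H : PvedEng 𝔓 𝔈 m t s 𝔱) (z : ℂ) : ∀ w ∈ pvkdAt (pvilLe 𝔓 𝔈 m z t).p.z (pvilLe 𝔓 𝔈 m z t).p.fr (pvkdP (pvilLe 𝔓 𝔈 m z t).p.h).Zm, w ∉ (pvilLe 𝔓 𝔈 m z t).Yin := by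
  have hΔ := (pved_sz H).2.2.2.2.1
  exact pvjiG_gm H.hΓ H.hL H.hT H.ndg (pved_sz H).1.le H.eY z (by rw [H.ru]; linarith) (by rw [H.ru]; linarith)

/-- (offBox)      LEAF -/
theorem pved_offBox (H : PvedEng 𝔓 𝔈 m t s 𝔱) (z : ℂ) : Disjoint (ball (pvilLe 𝔓 𝔈 m z t).p.z (pvkdP (pvilLe 𝔓 𝔈 m z t).p.h).b) (pvhaBx 𝔓.num (pvilLe 𝔓 𝔈 m z t).p') := by
  obtain ⟨m0, Cth, r, κs, W, hm⟩ := H.wf
  exact pvjiG_offBox W hm H.hT z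

/-- (offTip)      LEAF -/
theorem pved_offTip (H : PvedEng 𝔓 𝔈 m t s 𝔱) (z : ℂ) : Disjoint (ball (pvilLe 𝔓 𝔈 m z t).p.z (pvkdP (pvilLe 𝔓 𝔈 m z t).p.h).b) (pvilLe 𝔓 𝔈 m z t).p'.cm := by
  obtain ⟨m0, Cth, r, κs, W, hm⟩ := H.wf
  exact pvjiG_offTip W hm H.hT H.num.rho0 z

/-- **THE FIELD `lay` OF `PvetDet`** -/
theorem pved_lay (H : PvedEng 𝔓 𝔈 m t s 𝔱) (z : ℂ) :
    PvhuLayD (pvilLe 𝔓 𝔈 m z t) 𝔓.num (pvieSh z (𝔈.eM m t) ∪ pvieSh z (𝔈.eK m t) ∪ pvieSh (pvieZu 𝔓 m z t) (𝔈.rO m)) ((pvieSh z (𝔈.eM m t) ∪ pvieSh z (𝔈.eK m t)) \ pvwSq z (pviwRad 𝔓 m t))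
      (pvilMu 𝔓 m) (pvedZe 𝔓 t) ((𝔓.ty t).cm (pvlmH m) z) (pvegR 𝔓 m / 4) (pvedRho 𝔓 m) (pvedRt 𝔓 m) (21 * pvegR 𝔓 m / 200) (pvegR 𝔓 m / 1000) (pvehDl 𝔓 m / 512)
      (pvmvDC 𝔓 m z t) (pvmvDN 𝔓 m z t) (pvjiD 𝔓 m z t) (pvmvDT 𝔓 m z t) (pvedSg 𝔓 m z t) (fun _ => 0) (fun _ => 0) 1
      (fun β => pvkdAt (pvieZu 𝔓 m z t) (1 * (s : ℂ)) (𝔱.Ln true β)) (fun β => pvkdAt (pvieZu 𝔓 m z t) (1 * (s : ℂ)) (𝔱.Dr true β)) (pvjiXc 𝔓 m z t) (pvjiXa 𝔓 m z t) (pvjiXb 𝔓 m z t) (pvjiY0 𝔓 m z t) (pvjiY1 𝔓 m z t) := by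
  obtain ⟨a1, a2, a3, a4, a5, a6, a7⟩ := pved_sz H
  rw [pved_cm]
  exact
    { mu := a1
      rho := by unfold pvedRho; linarith
      bdd := pved_bdd H z
      co := pved_co H z
      collar := pved_collar H z
      dl := by linarith
      route := pvmv_d_route H.ndg z
      e0 := by unfold pvedRt pvedRho; linarith
      arm₁ := pved_arm H z (by linarith) le_rfl
      arm₂ := pved_arm H z le_rfl (by linarith)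
      rl := by linarith
      mul := by linarith
      sgW := pved_sgW H z
      jN4 := fun _ => by norm_num
      jS4 := fun _ => by norm_num
      sN := pved_sN 𝔓 m z t
      sS := pved_sS 𝔓 m z t
      mouth := pved_mouth H z
      mid := pved_mid H z
      leg := fun β => by rw [← pved_D]; exact pvmv_d_leg z β
      door := pved_door H z
      room := pved_room H z
      roomF := pved_roomF H z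
      gm := pved_gm H z
      offBox := pved_offBox H z
      offTip := pved_offTip H z }

/-! ## 3. the fields `rho`, `mem`, `tip` -/

theorem pved_rho (𝔓 : PvxPar τ c) (m : ℕ) : pvilMu 𝔓 m / 40 ≤ pvedRho 𝔓 m := le_rfl

theorem pved_mem (𝔓 : PvxPar τ c) (m : ℕ) (z : ℂ) (t : τ) : ∀ β, (β == 𝔓.col t, pvmvDC 𝔓 m z t β :: pvmvDN 𝔓 m z t β :: pvmvDT 𝔓 m z t β) ∈ pvmvPatE 𝔓 m z t false (𝔓.col t) :=
  pvmv_d_mem z (𝔓.col t)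

/-- **THE FIELD `tip` OF `PvetDet`**      LEAF -/
theorem pved_tip (H : PvedEng 𝔓 𝔈 m t s 𝔱) (z : ℂ) :
    PvhuTipD 𝔓 𝔈 m z t (pvlmDel c m / 3) (pvilMu 𝔓 m / 40) (𝔓.num.rho2 * pvlmH m) (pvegR 𝔓 m / 2) (pvedRho 𝔓 m) (pvegR 𝔓 m / 4) (pvedRt 𝔓 m) (pvedZe 𝔓 t) := by
  obtain ⟨m0, Cth, r, κs, W, hm⟩ := H.wf
  obtain ⟨m1, P, hm1⟩ := H.par
  exact pvhu_tipD_data H.num H.wfB W hm H.hL H.hT (P.cm_small t) H.rho3 z H.eM H.hΓ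

end Claimed.Agent.R289
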