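import Claimed.Agent.R289.Tr.HookTD
import Claimed.Agent.R289.Exit.HookTE
import Claimed.Agent.R289.Exit.RefWin

/-!
# Row 289 (S0537), THE WALL, ROAD E, E10 (b3) DET OF LINK e, file Exit/FrcTDr : **THE DOOR SIDE OF `PvetDet` AT THE DATA OF 165** (`Tr/HookTD`)      (helper77, second rope of 80; prefix `pvdp_e_`)      0 sorry

THE REFERENCE PLUG AFTER U4: scale `s = 2 Δ` (`pvurS`), unit `u = Δ / 20`, region `rO = pvnuRO = ` square `13 Δ / 80`.      NO NAME OF `Exit/EngRec`: scale, truncation, unit, regions are ARGUMENTS.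
* sec. 1  model free (`cu` = centre of the plug): `pvdp_e_room_line` (beyond the cut `13 Δ / 80` the placed room of the half lane `β` of the exit side has the lateral offsets `[Δ/40, 3Δ/40]` on the side `β`),
          `pvdp_e_tgt` (targets beyond `Δ / 5`), `pvdp_e_foot` (disc of the gate before the cut)
* sec. 2  **`pvdp_e_door`** = THE FIELD `door` OF `PvhuLayD` AT THE DATA `pvhtdD pvhtdXs pvhtdXa pvhtdXb pvhtdY0 pvhtdY1`, `ζd = 1` (`pvht_e_doorReg` of 165, `PvhuDoorRegD.of_ge4` of 66)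
* sec. 3  **`pvdp_e_roomF`** = THE FIELD `roomF` (tile `⊇ pvnuEK`, off the own-level box; `pvvn_Ln_e` of 173)
-/

set_option autoImplicit false

namespace Claimed.Agent.R289

open Set Metric Complex

/-! ## 1. model free -/

section free

variable {Δ s : ℝ} {cu w : ℂ} {𝔱 : PvhfTr}

theorem pvdp_e_room_line (hΔ : 0 < Δ) (hs : s = 2 * Δ) (hL : 𝔱.Ln = (pvhfT (1 / 40)).Ln) (β : Bool) (hw : w ∈ pvkdAt cu (1 * (s : ℂ)) (𝔱.Ln true β)) (hx : cu.re + 13 * Δ / 80 < w.re) :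
    Δ / 40 ≤ pvge2Sg β * (w.im - cu.im) ∧ pvge2Sg β * (w.im - cu.im) ≤ 3 * Δ / 40 := by
  subst hs
  rw [hL] at hw
  obtain ⟨v, hv, rfl⟩ := hw
  have e1 : (pvthSim cu (1 * ((2 * Δ : ℝ) : ℂ)) v).re = cu.re + 2 * Δ * v.re := by
    unfold pvthSim; rw [one_mul, add_re, re_ofReal_mul]
  have e2 : (pvthSim cu (1 * ((2 * Δ : ℝ) : ℂ)) v).im = cu.im + 2 * Δ * v.im := by
    unfold pvthSim; rw [one_mul, add_im, im_ofReal_mul]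
  rw [e1] at hx
  rw [e2]
  cases β <;> simp only [pvhfT, pvkdRect, rswRect, if_true, if_false, Bool.false_eq_true, mem_union, mem_ofPred_eq, pvge2Sg] at hv ⊢ <;>
    rcases hv with ⟨h1, h2, h3, h4⟩ | ⟨h1, h2, h3, h4⟩
  · exfalso; nlinarith
  · constructor <;> nlinarith
  · exfalso; nlinarith
  · constructor <;> nlinarith

theorem pvdp_e_tgt (hΔ : 0 < Δ) (hs : s = 2 * Δ) (hD : 𝔱.Dr = (pvhfT (1 / 40)).Dr) (β : Bool) (hw : w ∈ pvkdAt cu (1 * (s : ℂ)) (𝔱.Dr true β)) : cu.re + Δ / 5 ≤ w.re := by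
  subst hs
  rw [hD] at hw
  obtain ⟨v, hv, rfl⟩ := hw
  have e1 : (pvthSim cu (1 * ((2 * Δ : ℝ) : ℂ)) v).re = cu.re + 2 * Δ * v.re := by
    unfold pvthSim; rw [one_mul, add_re, re_ofReal_mul]
  rw [e1]
  cases β <;> simp only [pvhfT, pvkdRect, rswRect, if_true, if_false, Bool.false_eq_true, mem_ofPred_eq] at hv <;>
    obtain ⟨h1, h2, h3, h4⟩ := hv <;> nlinarith

theorem pvdp_e_foot {ru : ℝ} (hru : ru ≤ 13 * Δ / 160) (hw : w ∈ ball cu (pvkdP ru).b) : w.re ≤ cu.re + 13 * Δ / 80 := by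
  have h1 : ‖w - cu‖ < 2 * ru := by
    rw [mem_ball, dist_eq_norm] at hw
    exact hw
  have h2 : (w - cu).re ≤ ‖w - cu‖ := re_le_norm _
  rw [sub_re] at h2
  linarith

end free

/-! ## 2. the field `door` -/

section model

variable {τ : Type} {c : ℝ} {𝔓 : PvxPar τ c} {m : ℕ} {z : ℂ} {t : τ}

theorem pvdp_e_Z_re (𝔓 : PvxPar τ c) (m : ℕ) (z : ℂ) (t : τ) : ((1 : ℂ) * pvhtdZ 𝔓 m z t).re = (z + (pvxrGam 𝔓 m).zu t).re + pvehDl 𝔓 m / 2 := by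
  unfold pvhtdZ pvehZ
  rw [one_mul, add_re, ofReal_re]

theorem pvdp_e_Z_im (𝔓 : PvxPar τ c) (m : ℕ) (z : ℂ) (t : τ) : ((1 : ℂ) * pvhtdZ 𝔓 m z t).im = (z + (pvxrGam 𝔓 m).zu t).im := by
  unfold pvhtdZ pvehZ
  rw [one_mul, add_im, ofReal_im, add_zero]

/-- the cut of 165 = the east side of the region of the reference plug after U4 -/
theorem pvdp_e_Xs (𝔓 : PvxPar τ c) (m : ℕ) (z : ℂ) (t : τ) : pvhtdXs 𝔓 m z t = (z + (pvxrGam 𝔓 m).zu t).re + 13 * pvehDl 𝔓 m / 80 := by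
  unfold pvhtdXs
  rw [pvdp_e_Z_re]
  ring

/-- **THE FIELD `door` OF `PvhuLayD` AT THE DATA OF 165** -/
theorem pvdp_e_door (hΔ : 0 < pvehDl 𝔓 m) (hμ0 : 0 < pvilMu 𝔓 m) (hμ : pvilMu 𝔓 m ≤ pvehDl 𝔓 m / 1000) {zu : ℂ} (hzu : zu = z + (pvxrGam 𝔓 m).zu t) {s : ℝ} (hs : s = 2 * pvehDl 𝔓 m)
    {ru : ℝ} (hru : ru ≤ 13 * pvehDl 𝔓 m / 160) {𝔱 : PvhfTr} (hL : 𝔱.Ln = (pvhfT (1 / 40)).Ln) (hD : 𝔱.Dr = (pvhfT (1 / 40)).Dr) :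
    PvhuDoorRegD 1 (pvehDl 𝔓 m / 512) (pvilMu 𝔓 m) (ball zu (pvkdP ru).b) (fun β => pvkdAt zu (1 * (s : ℂ)) (𝔱.Ln true β)) (fun β => pvkdAt zu (1 * (s : ℂ)) (𝔱.Dr true β)) (pvhtdD 𝔓 m z t)
      (fun _ => pvhtdXs 𝔓 m z t) (fun _ => pvhtdXa 𝔓 m z t) (fun _ => pvhtdXb 𝔓 m z t) (pvhtdY0 𝔓 m z t) (pvhtdY1 𝔓 m z t) := by
  subst hzu
  refine PvhuDoorRegD.of_ge4 (by simp) (fun β => ?_) (fun β w hw => ?_) (fun β w hw => ?_)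
  · refine pvht_e_doorReg (ζd := 1) (z := pvhtdZ 𝔓 m z t) (d := (pvehDl 𝔓 m : ℂ)) (Δ := pvehDl 𝔓 m) (one_mul _) hΔ (!(!β)) (dl := pvehDl 𝔓 m / 512) (ρd := pvilMu 𝔓 m) (xc := pvhtdXs 𝔓 m z t)
      (l0 := pvehDl 𝔓 m / 40) (l1 := 3 * pvehDl 𝔓 m / 40) (b₀ := 23 / 256) (u₀ := 21 / 256) (tb := 51 / 160) (wb := 1 / 128) (ob := 1 / 100) (pvxrLe (pvxrB 𝔓 t)) hμ0 (by norm_num) ?_ ?_ ?_ ?_
    · unfold pvhtdXs
      linarith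
    · intro w hw hx
      rw [pvdp_e_Xs, one_mul] at hx
      rw [pvdp_e_Z_im, one_mul, Bool.not_not]
      exact pvdp_e_room_line hΔ hs hL β hw hx
    · linarith
    · linarith
  · rw [one_mul, pvdp_e_Xs]
    exact pvdp_e_foot hru hw
  · have h1 := pvdp_e_tgt hΔ hs hD β hw
    rw [one_mul]
    unfold pvhtdXb
    rw [pvdp_e_Z_re]
    linarith

/-! ## 3. the field `roomF` -/

/-- **THE FIELD `roomF` OF `PvhuLayD` AT THE DATA OF 165**: beyond the cut the rooms of the half lanes lie in the tile, off the own-level box -/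
theorem pvdp_e_roomF {m0 : ℕ} (H : PveaPar 𝔓 m0) (hm : m0 ≤ m) (hT : pviwTyOk 𝔓 t) (z : ℂ) {eM eK : Set ℂ} (hK : pvnuEK 𝔓 m t ⊆ eK) {Bx : Set ℂ} (hoff : Disjoint (pvieSh z eK) Bx)
    {s : ℝ} (hs : s = 2 * pvehDl 𝔓 m) {𝔱 : PvhfTr} (hL : 𝔱.Ln = (pvhfT (1 / 40)).Ln) (β : Bool) {w : ℂ} (hw : w ∈ pvkdAt (pvieZu 𝔓 m z t) (1 * (s : ℂ)) (𝔱.Ln true β)) (hx : pvhtdXs 𝔓 m z t < ((1 : ℂ) * w).re) :
    w ∈ (pvieSh z eM ∪ pvieSh z eK) \ Bx := by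
  have hw' : w ∈ pvthSim (pvieZu 𝔓 m z t) (pvurS 𝔓 m : ℂ) '' (pvhfT pvkgG.a).Ln true β := by
    have e : (pvurS 𝔓 m : ℂ) = 1 * (s : ℂ) := by rw [one_mul, hs]; rfl
    rw [e]
    have e2 : (pvhfT pvkgG.a).Ln = 𝔱.Ln := hL.symm
    rw [e2]
    exact hw
  have hn : w ∉ pvieSh (pvieZu 𝔓 m z t) (pvnuRO 𝔓 m) := by
    rw [pvnu4_RO_sq H.rho0]
    rintro ⟨v, hv, rfl⟩
    rw [pvdp_e_Xs, one_mul, pvvn_zu H] at hx
    have hx' : (z + (pvxrGam 𝔓 m).zu t).re + 13 * pvehDl 𝔓 m / 80 < (z + (pvxrGam 𝔓 m).zu t + v).re := hx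
    rw [add_re (z + (pvxrGam 𝔓 m).zu t) v] at hx'
    have h1 : pvccN (v - 0) < 13 * pvehDl 𝔓 m / 80 := hv
    rw [sub_zero] at h1
    have h2 : |v.re| ≤ pvccN v := le_max_left _ _
    have h3 := le_abs_self v.re
    linarith
  have h1 : w ∈ pvieSh z eK := Set.image_mono hK (pvvn_Ln_e H hm hT z β ⟨hw', hn⟩)
  exact ⟨Or.inr h1, fun hb => Set.disjoint_left.1 hoff h1 hb⟩

/-- `offK` of `PvhuTipD` in the words of `hoff` -/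
theorem pvdp_e_off (hδ : 0 ≤ pvlmDel c m) {K : Set ℂ} (h : Disjoint K (pviwBox 𝔓 m t)) (z : ℂ) : Disjoint (pvieSh z K) (pvwSq z (pviwRad 𝔓 m t)) := by
  rw [Set.disjoint_left]
  rintro _ ⟨v, hv, rfl⟩ ⟨h1, h2⟩
  refine Set.disjoint_left.1 h hv ⟨?_, ?_⟩
  · have e : (z + v - z).re = (v - 0).re := by rw [add_sub_cancel_left, sub_zero]
    have h1' : |(z + v - z).re| ≤ pviwRad 𝔓 m t := h1
    rw [e] at h1'
    linarith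
  · have e : (z + v - z).im = (v - 0).im := by rw [add_sub_cancel_left, sub_zero]
    have h2' : |(z + v - z).im| ≤ pviwRad 𝔓 m t := h2
    rw [e] at h2'
    linarith

/-- **THE TWO FIELDS `door`, `roomF` OF `PvetDet.lay` IN THE WORDS OF THE RECORD**, any engine with `eK ⊇ pvnuEK`, `eK` off the own-level box (`PvhuTipD.offK`), unit `≤ 13 Δ / 160`; scale `s = 2 Δ`; any truncation with the rooms and targets of record -/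
theorem pvdp_e_fields {m0 : ℕ} (H : PveaPar 𝔓 m0) (hm : m0 ≤ m) (hT : pviwTyOk 𝔓 t) (z : ℂ) (𝔈 : PvieEng τ) (hμ0 : 0 < pvilMu 𝔓 m) (hμ : pvilMu 𝔓 m ≤ pvehDl 𝔓 m / 1000)
    (hK : pvnuEK 𝔓 m t ⊆ 𝔈.eK m t) (offK : Disjoint (𝔈.eK m t) (pviwBox 𝔓 m t)) (hru : pvilRu 𝔈 m ≤ 13 * pvehDl 𝔓 m / 160) {s : ℝ} (hs : s = 2 * pvehDl 𝔓 m)
    {𝔱 : PvhfTr} (hL : 𝔱.Ln = (pvhfT (1 / 40)).Ln) (hD : 𝔱.Dr = (pvhfT (1 / 40)).Dr) :
    PvhuDoorRegD 1 (pvehDl 𝔓 m / 512) (pvilMu 𝔓 m) (ball (pvilLe 𝔓 𝔈 m z t).p.z (pvkdP (pvilLe 𝔓 𝔈 m z t).p.h).b) (fun β => pvkdAt (pvieZu 𝔓 m z t) (1 * (s : ℂ)) (𝔱.Ln true β))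
        (fun β => pvkdAt (pvieZu 𝔓 m z t) (1 * (s : ℂ)) (𝔱.Dr true β)) (pvhtdD 𝔓 m z t) (fun _ => pvhtdXs 𝔓 m z t) (fun _ => pvhtdXa 𝔓 m z t) (fun _ => pvhtdXb 𝔓 m z t) (pvhtdY0 𝔓 m z t) (pvhtdY1 𝔓 m z t) ∧
      ∀ β, ∀ w ∈ pvkdAt (pvieZu 𝔓 m z t) (1 * (s : ℂ)) (𝔱.Ln true β), pvhtdXs 𝔓 m z t < ((1 : ℂ) * w).re →
        w ∈ (pvieSh z (𝔈.eM m t) ∪ pvieSh z (𝔈.eK m t)) \ pvwSq z (pviwRad 𝔓 m t) :=
  ⟨pvdp_e_door (pveh_Dl_pos (H.geo m hm t hT).n0) hμ0 hμ (pvvn_zu H m z t) hs hru hL hD,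
    fun β _ hw hx => pvdp_e_roomF H hm hT z hK (pvdp_e_off (pvlm_Del_pos c m).le offK z) hs hL β hw hx⟩

end model

end Claimed.Agent.R289
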