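import Claimed.Agent.R289.Exit.DjP
import Claimed.Agent.R289.Tr.ModPB
import Claimed.Agent.R289.Tr.SideOpen
import Claimed.Agent.R289.Exit.RestP
import Claimed.Agent.R289.Exit.AccP

/-!
# Row 289 (S0537, Cardy for Poisson-Voronoi), THE WALL, ROAD P, file Exit/LayP : THE ROUTE OF THE FUNNELS IN THE BODY, THE PLANAR DICTIONARY      (owner helper138; prefix `pvyl_`, `Pvyl`, `pvyl`;   post P14 / P16 of 273)

(The lists `dj1 dj2` are `Exit/DjP` of 58;   the windows of the big ends in the placed body are `Tr/ModPB` of 8.)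
* §1  **THE ROUTE** (menu cells, type level, no topology).      The door of record `(y, d)` of a type is the LAST exit of the last piece: `y ∈ N¹(C 9) ∩ N⁸(C 8)`, `y + d ∉ N⁸(cells 0..8)`.      The piece 9 may leave `N⁸(cells 0..8)` and come back before `y`,
      so NO tube over `N¹(C 9)` from the piece 8 to `y` lives in the body.      BUT `y` is at the sup-distance EXACTLY 8 from the rest, realised by `c = y - 8 d + b (i d) ∈ C 8`, `|b| ≤ 8`: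
      `pvylRt y d w` = the L-shaped route `y - 4 d + w (i d)  →  y - 4 d  →  y` (`|w| ≤ 4`): it starts in `N⁴(C 8)`, lives in `N⁸(C 8)` (BODY) and in `N⁴ {y} ⊆ N⁵(C 9) ⊆ Dr⁺`, keeps at the distance `≥ 4` from the rest, and arrives at `y` HEADING `d`.
      `PvylRoute`, **`pvyl_route_p`**, **`pvyl_route_m`**, `pvyl_rt_conn`.
* §2  **THE PLANAR DICTIONARY** (three scales: menu cell `dl h = N dc`, coarse cell `dc = (2 mm + 1) δ`, fine cell `δ`):   `pvyl_ref_D`, `pvyl_U_D`, `pvyl_D_N` / `pvyl_full_N` (in ABSOLUTE fine cells `pvtSq δ q` the fattened body is the 9-collar of the refined body),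
      **`pvyl_mem_body`** (membership test), `pvyl_tip_block`, **`pvyl_block_body`**, `pvyl_pl_coarse`, `pvyl_pl_ref`;   **`pvyl_porch`**, `pvyl_porch_m` (block of the door cell + the 9 rows in front of it, but for the last cell of the nozzle);
      the door: `pvyl_door_eq` (door = midpoint of the outer side of the last cell of the nozzle), **`pvyl_behind_door`** (the half cell behind a door, off its square), `pvyl_win_o`, `pvyl_win_i` (the OPEN windows `pvk2Es` of 125 off the state square).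
      THE ROOMS `pvylAo`, `pvylAi` of the two funnels; tools `pvyl_Ao_cell _U _door _menu` (mirror `Ai`).
* §3  **`pvyl_pl_of`** : `PvytPl` of 183 (field `pl` of `PveqFun`) ⟸ SIX INCLUSIONS of the pens of the funnels: `pvlnW δ L₁`, `pvlnW δ L₂`, `Et` of `wo` in `pvylAo`, of `wi` in `pvylAi`.      (state ball, four windows: PAID here.)
* §4  at the model: `pvyl_Ep_Em`, `pvyl_fronts`, `pvyl_menu_coarse`, **`pvyl_pl_body`**, `pvyl_tube_B`, `pvyl_route_B_p _m`, **`pvyl_pl_model`** (at `pvrzPar c 𝔤 H Γ m0`, any `𝔶` with the three equations `hk hO₀ hEn` of the term of 36).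
* §5  THE HOLES (finding of 135; cure of 183 = `pvytFull` at the hull `pvtbHull (B t)`): `pvyl_out_of_conn`, `pvyl_R_proj`, **`pvyl_ref_hull`** (`Ref k (Hull S) ⊆ Hull (Ref k S)`), `pvyl_Ep_out`, `pvyl_Em_out` (`E^± ∪` rays of ACC lie OUTSIDE the body), `pvyl_ref_out`,
      `pvyl_block_gen`, `pvyl_pl_gen`, **`pvyl_fronts_hull`**, **`pvyl_pl_hull`** (placed menu cells of the HULL of the body lie in the closed fine cells of the body; `hF := Subset.rfl` after the swap).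
-/

set_option autoImplicit false
set_option linter.unusedSectionVars false
set_option linter.unusedVariables false
set_option linter.unusedSimpArgs false
set_option linter.unreachableTactic false
set_option linter.unusedTactic false

namespace Claimed.Agent.R289

open MeasureTheory Filter Topology Set Claims.C0465 Claims.C0467 Claimed.Agent.R291
open scoped ENNReal

/-! ## 1. the route -/

/-- the cell with the coordinates `(t, s)` in the frame of the door `(y, d)` : `y + t d + s (i d)` -/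
def pvylAt (y d : ℤ × ℤ) (t s : ℤ) : ℤ × ℤ := (y.1 + t * d.1 - s * d.2, y.2 + t * d.2 + s * d.1)

/-- the lateral coordinate of the turn -/
def pvylW (b : ℤ) : ℤ := if 4 < b then b - 4 else if b < -4 then b + 4 else 0

/-- **THE ROUTE**: the lateral leg `y - 4 d + s (i d)`, `s` between `w` and `0`, then the straight leg `y + t d`, `-4 ≤ t ≤ 0` -/
def pvylRt (y d : ℤ × ℤ) (w : ℤ) : Set (ℤ × ℤ) :=
  {p | (∃ t : ℤ, -4 ≤ t ∧ t ≤ 0 ∧ p = pvylAt y d t 0) ∨ ∃ s : ℤ, ((0 ≤ s ∧ s ≤ w) ∨ (w ≤ s ∧ s ≤ 0)) ∧ p = pvylAt y d (-4) s}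

/-- **what the route gives**.   `L` = last piece, `N` = its neighbour, `R` = the rest of the pieces (`N ⊆ R`) -/
structure PvylRoute (L N R : Set (ℤ × ℤ)) (y d : ℤ × ℤ) (w : ℤ) : Prop where
  dir : PvfjDir d
  w4 : -4 ≤ w ∧ w ≤ 4
  /-- the route starts in the 4-tube of the neighbour -/
  foot : pvylAt y d (-4) w ∈ pvtwN 4 N
  /-- it lives in the body -/
  body : pvylRt y d w ⊆ pvtwN 8 N
  /-- it lives in the end door -/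
  near : pvylRt y d w ⊆ pvtwN 5 L
  /-- it keeps off the 3-tube of the rest -/
  off : Disjoint (pvylRt y d w) (pvtwN 3 R)
  /-- layers of the straight leg -/
  lay : ∀ t : ℤ, -4 ≤ t → t ≤ 0 → ∀ k : ℕ, (k : ℤ) < 8 + t → pvylAt y d t 0 ∉ pvtwN k R

theorem pvyl_eqns_cite : True := by
  have := @pvylAt.eq_1; have := @pvylW.eq_1; have := @pvylRt.eq_1
  trivial

section route

variable {L N R : Set (ℤ × ℤ)} {y d : ℤ × ℤ} {w b : ℤ}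

theorem pvyl_at_zero (y d : ℤ × ℤ) : pvylAt y d 0 0 = y := by simp [pvylAt]

theorem pvyl_at_one (y d : ℤ × ℤ) : pvylAt y d 1 0 = y + d := Prod.ext (by simp [pvylAt]) (by simp [pvylAt])

theorem pvyl_W_range (hb : -8 ≤ b ∧ b ≤ 8) : (-4 ≤ pvylW b ∧ pvylW b ≤ 4) ∧ (-4 ≤ b - pvylW b ∧ b - pvylW b ≤ 4) ∧ ((0 ≤ pvylW b ∧ pvylW b ≤ b) ∨ (b ≤ pvylW b ∧ pvylW b ≤ 0)) := by
  unfold pvylW
  split_ifs <;> omega

theorem pvyl_rt_end (y d : ℤ × ℤ) (w : ℤ) : y ∈ pvylRt y d w := Or.inl ⟨0, by norm_num, le_rfl, (pvyl_at_zero y d).symm⟩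

theorem pvyl_rt_foot (y d : ℤ × ℤ) (w : ℤ) : pvylAt y d (-4) w ∈ pvylRt y d w := by
  rcases le_total 0 w with h | h
  · exact Or.inr ⟨w, Or.inl ⟨h, le_rfl⟩, rfl⟩
  · exact Or.inr ⟨w, Or.inr ⟨le_rfl, h⟩, rfl⟩

/-- a cell of the neighbour at the distance 8 behind the door -/
theorem pvyl_behind (hd : PvfjDir d) (h1 : y ∈ pvtwN 8 N) (h2 : y + d ∉ pvtwN 8 N) : ∃ b : ℤ, (-8 ≤ b ∧ b ≤ 8) ∧ pvylAt y d (-8) b ∈ N := by
  obtain ⟨c, hc, c1, c2, c3, c4⟩ := h1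
  have h3 : ¬ ((y + d).1 ≤ c.1 + (8 : ℕ) ∧ c.1 ≤ (y + d).1 + (8 : ℕ) ∧ (y + d).2 ≤ c.2 + (8 : ℕ) ∧ c.2 ≤ (y + d).2 + (8 : ℕ)) := fun h => h2 ⟨c, hc, h⟩
  push_cast at c1 c2 c3 c4 h3
  rcases hd with rfl | rfl | rfl | rfl <;> simp only [Prod.fst_add, Prod.snd_add] at h3
  · refine ⟨c.2 - y.2, ⟨by omega, by omega⟩, ?_⟩
    have : pvylAt y (1, 0) (-8) (c.2 - y.2) = c := Prod.ext (by simp only [pvylAt]; omega) (by simp only [pvylAt]; omega)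
    rwa [this]
  · refine ⟨y.2 - c.2, ⟨by omega, by omega⟩, ?_⟩
    have : pvylAt y (-1, 0) (-8) (y.2 - c.2) = c := Prod.ext (by simp only [pvylAt]; omega) (by simp only [pvylAt]; omega)
    rwa [this]
  · refine ⟨y.1 - c.1, ⟨by omega, by omega⟩, ?_⟩
    have : pvylAt y (0, 1) (-8) (y.1 - c.1) = c := Prod.ext (by simp only [pvylAt]; omega) (by simp only [pvylAt]; omega)
    rwa [this]
  · refine ⟨c.1 - y.1, ⟨by omega, by omega⟩, ?_⟩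
    have : pvylAt y (0, -1) (-8) (c.1 - y.1) = c := Prod.ext (by simp only [pvylAt]; omega) (by simp only [pvylAt]; omega)
    rwa [this]

/-- sup-distance in the frame of the door -/
theorem pvyl_at_N (hd : PvfjDir d) {t s t' s' : ℤ} {k : ℕ} (h1 : t - t' ≤ k) (h2 : t' - t ≤ k) (h3 : s - s' ≤ k) (h4 : s' - s ≤ k) : pvylAt y d t s ∈ pvtwN k {pvylAt y d t' s'} := by
  refine ⟨_, rfl, ?_⟩
  rcases hd with rfl | rfl | rfl | rfl <;> simp only [pvylAt] <;> refine ⟨?_, ?_, ?_, ?_⟩ <;> omega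

theorem pvyl_N_trans {E : Set (ℤ × ℤ)} {p q : ℤ × ℤ} {i j : ℕ} (h1 : p ∈ pvtwN i {q}) (h2 : q ∈ pvtwN j E) : p ∈ pvtwN (i + j) E := by
  rw [← pvtw_N_add]
  exact pvtw_N_iff.2 ⟨q, h2, h1⟩

/-- **THE ROUTE AT A DOOR** -/
theorem pvyl_route (hd : PvfjDir d) (hNR : N ⊆ R) (h1 : y ∈ pvtwN 8 N) (h2 : y + d ∉ pvtwN 8 R) (h3 : y ∈ pvtwN 1 L) : ∃ w, PvylRoute L N R y d w := by
  obtain ⟨b, hb, hc⟩ := pvyl_behind hd h1 (fun h => h2 (pvtw_N_mono le_rfl hNR h))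
  obtain ⟨hw, hbw, hs⟩ := pvyl_W_range hb
  have far : ∀ (t s : ℤ) (k : ℕ), 1 - t + k ≤ 8 → t ≤ 1 → s + k ≤ 8 → -s + k ≤ 8 → pvylAt y d t s ∉ pvtwN k R := by
    intro t s k a1 a2 a3 a4 h
    apply h2
    rw [← pvyl_at_one]
    have := pvyl_N_trans (pvyl_at_N (y := y) hd (t := 1) (s := 0) (t' := t) (s' := s) (k := 8 - k) (by omega) (by omega) (by omega) (by omega)) h
    rwa [show 8 - k + k = 8 by omega] at this
  refine ⟨pvylW b, hd, hw, ?_, ?_, ?_, ?_, ?_⟩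
  · exact pvtw_N_iff.2 ⟨_, hc, pvyl_at_N hd (by omega) (by omega) (by omega) (by omega)⟩
  · rintro p (⟨t, t1, t2, rfl⟩ | ⟨s, hs', rfl⟩)
    · exact pvtw_N_iff.2 ⟨_, hc, pvyl_at_N hd (by omega) (by omega) (by omega) (by omega)⟩
    · exact pvtw_N_iff.2 ⟨_, hc, pvyl_at_N hd (by omega) (by omega) (by omega) (by omega)⟩
  · have key : ∀ t s : ℤ, -4 ≤ t → t ≤ 0 → -4 ≤ s → s ≤ 4 → pvylAt y d t s ∈ pvtwN 5 L := by
      intro t s a1 a2 a3 a4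
      have := pvyl_N_trans (pvyl_at_N (y := y) hd (t := t) (s := s) (t' := 0) (s' := 0) (k := 4) (by omega) (by omega) (by omega) (by omega))
        (by rw [pvyl_at_zero]; exact h3 : pvylAt y d 0 0 ∈ pvtwN 1 L)
      exact this
    rintro p (⟨t, t1, t2, rfl⟩ | ⟨s, hs', rfl⟩)
    · exact key t 0 t1 t2 (by norm_num) (by norm_num)
    · exact key (-4) s le_rfl (by norm_num) (by omega) (by omega)
  · rw [Set.disjoint_left]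
    rintro p (⟨t, t1, t2, rfl⟩ | ⟨s, hs', rfl⟩)
    · exact far t 0 3 (by omega) (by omega) (by omega) (by omega)
    · exact far (-4) s 3 (by omega) (by omega) (by omega) (by omega)
  · intro t t1 t2 k hk
    exact far t 0 k (by omega) (by omega) (by omega) (by omega)

/-- the route is connected -/
theorem pvyl_rt_conn (hd : PvfjDir d) (w : ℤ) : TscConn pvtbG4 (pvylRt y d w) := by
  have adjT : ∀ t s : ℤ, pvtbG4.Adj (pvylAt y d t s) (pvylAt y d (t + 1) s) := by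
    intro t s
    rw [pvtb_G4_adj]
    rcases hd with rfl | rfl | rfl | rfl <;> simp only [pvylAt] <;> omega
  have adjS : ∀ t s : ℤ, pvtbG4.Adj (pvylAt y d t s) (pvylAt y d t (s + 1)) := by
    intro t s
    rw [pvtb_G4_adj]
    rcases hd with rfl | rfl | rfl | rfl <;> simp only [pvylAt] <;> omega
  -- every cell is joined to the corner
  have leg1 : ∀ n : ℕ, n ≤ 4 → TscR pvtbG4 (pvylRt y d w) (pvylAt y d (-4) 0) (pvylAt y d (-4 + n) 0) := by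
    intro n
    induction n with
    | zero => intro _; simpa using tsc_R_refl (G := pvtbG4) (s := pvylRt y d w) (pvylAt y d (-4) 0)
    | succ n ih =>
      intro hn
      refine tsc_R_trans (ih (by omega)) (tsc_R_step ?_ (Or.inl ⟨-4 + n, by omega, by omega, rfl⟩) (Or.inl ⟨-4 + (n + 1 : ℕ), by push_cast; omega, by push_cast; omega, rfl⟩))
      have := adjT (-4 + n) 0
      rwa [show (-4 : ℤ) + n + 1 = -4 + (n + 1 : ℕ) by push_cast; ring] at this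
  have leg2p : ∀ n : ℕ, (n : ℤ) ≤ w → TscR pvtbG4 (pvylRt y d w) (pvylAt y d (-4) 0) (pvylAt y d (-4) n) := by
    intro n
    induction n with
    | zero => intro _; simpa using tsc_R_refl (G := pvtbG4) (s := pvylRt y d w) (pvylAt y d (-4) 0)
    | succ n ih =>
      intro hn
      push_cast at hn
      refine tsc_R_trans (ih (by omega)) (tsc_R_step ?_ (Or.inr ⟨n, Or.inl ⟨by omega, by omega⟩, rfl⟩) (Or.inr ⟨(n + 1 : ℕ), Or.inl ⟨by push_cast; omega, by push_cast; omega⟩, rfl⟩))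
      have := adjS (-4) n
      rwa [show (n : ℤ) + 1 = (n + 1 : ℕ) by push_cast; ring] at this
  have leg2m : ∀ n : ℕ, w ≤ -(n : ℤ) → TscR pvtbG4 (pvylRt y d w) (pvylAt y d (-4) 0) (pvylAt y d (-4) (-(n : ℤ))) := by
    intro n
    induction n with
    | zero => intro _; simpa using tsc_R_refl (G := pvtbG4) (s := pvylRt y d w) (pvylAt y d (-4) 0)
    | succ n ih =>
      intro hn
      push_cast at hn
      refine tsc_R_trans (ih (by omega)) (tsc_R_step ?_ (Or.inr ⟨-(n : ℤ), Or.inr ⟨by omega, by omega⟩, rfl⟩) (Or.inr ⟨-((n + 1 : ℕ) : ℤ), Or.inr ⟨by push_cast; omega, by push_cast; omega⟩, rfl⟩))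
      have := (adjS (-4) (-((n + 1 : ℕ) : ℤ))).symm
      rwa [show -((n + 1 : ℕ) : ℤ) + 1 = -(n : ℤ) by push_cast; ring] at this
  have key : ∀ p ∈ pvylRt y d w, TscR pvtbG4 (pvylRt y d w) (pvylAt y d (-4) 0) p := by
    rintro p (⟨t, t1, t2, rfl⟩ | ⟨s, (⟨s1, s2⟩ | ⟨s1, s2⟩), rfl⟩)
    · have := leg1 (t + 4).toNat (by omega)
      rwa [Int.toNat_of_nonneg (by omega), show (-4 : ℤ) + (t + 4) = t by ring] at this
    · have := leg2p s.toNat (by rw [Int.toNat_of_nonneg s1]; exact s2)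
      rwa [Int.toNat_of_nonneg s1] at this
    · have := leg2m (-s).toNat (by rw [Int.toNat_of_nonneg (by omega)]; omega)
      rwa [Int.toNat_of_nonneg (by omega), neg_neg] at this
  intro u hu v hv
  exact tsc_R_trans (tsc_R_symm (key u hu)) (key v hv)

end route

section types

variable {𝔑 : PvmnNum} {τ : PvmnType}

/-- **THE ROUTE OF THE EXIT FUNNEL OF A TYPE** -/
theorem pvyl_route_p (hτ : PvmnIsType 𝔑 τ) (hWP : 𝔑.nW ≤ 𝔑.nP) : ∃ w, PvylRoute (τ.C 9 : Set (ℤ × ℤ)) (τ.C 8 : Set (ℤ × ℤ)) (pvmnCells τ 0 8) (pvfjmDp τ).1 (pvfjmDp τ).2 w := by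
  obtain ⟨hd, ⟨h1, h2⟩, h3⟩ := pvfjm_Dp_spec hτ hWP
  exact pvyl_route hd (pvmn_C_sub 8 (by decide) le_rfl) (pvfjm_hit_p hτ h1 h2) (Set.disjoint_left.1 pvfjm_Ep_off h3) h1

/-- **THE ROUTE OF THE ENTRANCE FUNNEL OF A TYPE** -/
theorem pvyl_route_m (hτ : PvmnIsType 𝔑 τ) (hWP : 𝔑.nW ≤ 𝔑.nP) : ∃ w, PvylRoute (τ.C 0 : Set (ℤ × ℤ)) (τ.C 1 : Set (ℤ × ℤ)) (pvmnCells τ 1 9) (pvfjmDm τ).1 (pvfjmDm τ).2 w := by
  obtain ⟨hd, ⟨h1, h2⟩, h3⟩ := pvfjm_Dm_spec hτ hWP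
  exact pvyl_route hd (pvmn_C_sub 1 le_rfl (by decide)) (pvfjm_hit_m hτ h1 h2) (Set.disjoint_left.1 pvfjm_Em_off h3) h1

end types

/-! ## 2. the planar dictionary -/

section dict

variable {τ : Type} {mm : ℤ} {S S' : Set (ℤ × ℤ)}

/-- the refinement of `Tr/CellRef` (lower left corners) = the plain refinement of `Tr/Band` (centres), moved by `pvytSh` -/
theorem pvyl_ref_D (hm : 0 ≤ mm) (S : Set (ℤ × ℤ)) : pvrcRef (2 * mm + 1) S = pvytSh mm '' pvtbD (2 * mm + 1) mm S := by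
  ext c
  rw [pvrc_ref_iff (by omega)]
  constructor
  · rintro ⟨p, hp, h1, h2, h3, h4⟩
    refine ⟨(c.1 - mm, c.2 - mm), ⟨p, hp, ?_, ?_, ?_, ?_⟩, Prod.ext (by simp [pvytSh]) (by simp [pvytSh])⟩ <;> simp only <;> omega
  · rintro ⟨v, ⟨p, hp, h1, h2, h3, h4⟩, rfl⟩
    refine ⟨p, hp, ?_, ?_, ?_, ?_⟩ <;> simp only [pvytSh, Prod.fst_add, Prod.snd_add] <;> omega

/-- closed coarse cells = closed fine cells of the plain refinement -/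
theorem pvyl_U_D (hm : 0 ≤ mm) {δ : ℝ} (hδ : 0 < δ) (S : Set (ℤ × ℤ)) : pvtU ((2 * (mm : ℝ) + 1) * δ) S = pvtU δ (pvytSh mm '' pvtbD (2 * mm + 1) mm S) := by
  rw [← pvyl_ref_D hm, pvrc_U (by omega) hδ]
  push_cast
  rfl

/-- the last cell of a nozzle lies in the block of the FRONT cell of the door -/
theorem pvyl_tip_block (hm : 4 ≤ mm) {y d p : ℤ × ℤ} (hd : PvfjDir d)
    (h1 : (2 * mm + 1) * p.1 - mm ≤ (pvtbPt mm y d (mm + 9) 0).1) (h2 : (pvtbPt mm y d (mm + 9) 0).1 ≤ (2 * mm + 1) * p.1 + mm)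
    (h3 : (2 * mm + 1) * p.2 - mm ≤ (pvtbPt mm y d (mm + 9) 0).2) (h4 : (pvtbPt mm y d (mm + 9) 0).2 ≤ (2 * mm + 1) * p.2 + mm) : p = y + d := by
  have key : ∀ a b : ℤ, (2 * mm + 1) * a - mm ≤ b → b ≤ (2 * mm + 1) * a + mm → -mm ≤ b → b ≤ mm → a = 0 := by
    intro a b u1 u2 u3 u4
    by_contra h0
    rcases lt_or_gt_of_ne h0 with h | h
    · nlinarith
    · nlinarith
  have key1 : ∀ a : ℤ, (2 * mm + 1) * a - mm ≤ mm + 9 → mm + 9 ≤ (2 * mm + 1) * a + mm → a = 1 := by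
    intro a u1 u2
    have := key (a - 1) (9 - mm - 1) (by nlinarith) (by nlinarith) (by omega) (by omega)
    omega
  simp only [pvtbPt] at h1 h2 h3 h4
  rcases hd with rfl | rfl | rfl | rfl <;> simp only [mul_zero, mul_one, zero_mul, add_zero, sub_zero, mul_neg] at h1 h2 h3 h4
  · have e1 := key1 (p.1 - y.1) (by nlinarith) (by nlinarith)
    have e2 := key (p.2 - y.2) 0 (by nlinarith) (by nlinarith) (by omega) (by omega)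
    exact Prod.ext (by simp only [Prod.fst_add]; omega) (by simp only [Prod.snd_add]; omega)
  · have e1 := key1 (y.1 - p.1) (by nlinarith) (by nlinarith)
    have e2 := key (p.2 - y.2) 0 (by nlinarith) (by nlinarith) (by omega) (by omega)
    exact Prod.ext (by simp only [Prod.fst_add]; omega) (by simp only [Prod.snd_add]; omega)
  · have e1 := key1 (p.2 - y.2) (by nlinarith) (by nlinarith)
    have e2 := key (p.1 - y.1) 0 (by nlinarith) (by nlinarith) (by omega) (by omega)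
    exact Prod.ext (by simp only [Prod.fst_add]; omega) (by simp only [Prod.snd_add]; omega)
  · have e1 := key1 (y.2 - p.2) (by nlinarith) (by nlinarith)
    have e2 := key (p.1 - y.1) 0 (by nlinarith) (by nlinarith) (by omega) (by omega)
    exact Prod.ext (by simp only [Prod.fst_add]; omega) (by simp only [Prod.snd_add]; omega)

/-- THE ONLY LINE OF THIS FILE WHICH SEES THE DEFINITION OF `pvytFull` (183): it holds for `D_{mm+9}(B)` and for `D_{mm+9}(hull B)` (cure of the HOLES of 135) -/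
theorem pvyl_full_of (𝔉 : PvfjPlug τ) (mm : ℤ) (c : ℤ × ℤ) (t : τ) : pvtbD (2 * mm + 1) (mm + 9) (pvfjSh c (𝔉.B t)) ⊆ pvytFull 𝔉 mm c t := by
  first
    | exact Subset.rfl
    | exact pvtb_D_mono le_rfl (Set.image_mono pvtb_hull_sub)
    | exact pvtb_D_mono le_rfl pvtb_hull_sub

/-- **the blocks of the body cells are body cells**: the last cells of the two nozzles lie in the blocks of the two FRONT cells, which are not cells of `B` -/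
theorem pvyl_block_body (hm : 4 ≤ mm) {𝔉 : PvfjPlug τ} (hW : 𝔉.WF) (c : ℤ × ℤ) {t : τ} (fp : 𝔉.yp t + 𝔉.dp t ∉ 𝔉.B t) (fm : 𝔉.ym t + 𝔉.dm t ∉ 𝔉.B t) :
    pvytSh mm '' pvtbD (2 * mm + 1) mm (pvfjSh c (𝔉.B t)) ⊆ pvytBody 𝔉 mm c t := by
  refine Set.image_mono fun v hv => ⟨pvyl_full_of 𝔉 mm c t (pvtb_D_mono (by omega) le_rfl hv), ?_⟩
  obtain ⟨p, ⟨b, hb, rfl⟩, h1, h2, h3, h4⟩ := hv
  rintro (rfl | rfl)
  · have this : b + c = 𝔉.yp t + c + 𝔉.dp t := pvyl_tip_block hm (hW.dp_dir t) h1 h2 h3 h4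
    apply fp
    have e : 𝔉.yp t + 𝔉.dp t = b := by
      have : b + c = 𝔉.yp t + 𝔉.dp t + c := by rw [this]; abel
      exact (add_right_cancel this).symm
    rwa [e]
  · have this : b + c = 𝔉.ym t + c + 𝔉.dm t := pvyl_tip_block hm (hW.dm_dir t) h1 h2 h3 h4
    apply fm
    have e : 𝔉.ym t + 𝔉.dm t = b := by
      have : b + c = 𝔉.ym t + 𝔉.dm t + c := by rw [this]; abel
      exact (add_right_cancel this).symm
    rwa [e]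

/-- a region of coarse cells placed at a corner of the coarse grid -/
theorem pvyl_pl_coarse (hm : 4 ≤ mm) {𝔉 : PvfjPlug τ} (hW : 𝔉.WF) {δ : ℝ} (hδ : 0 < δ) (c : ℤ × ℤ) {t : τ} (fp : 𝔉.yp t + 𝔉.dp t ∉ 𝔉.B t) (fm : 𝔉.ym t + 𝔉.dm t ∉ 𝔉.B t) :
    pvmgPl (pvmgPt ((2 * (mm : ℝ) + 1) * δ) c) ((2 * (mm : ℝ) + 1) * δ) (𝔉.B t) ⊆ pvtU δ (pvytBody 𝔉 mm c t) := by
  rw [pvrc_pl, pvyl_U_D (by omega) hδ]
  exact pvyt_U_mono δ (pvyl_block_body hm hW c fp fm)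

/-- a region of menu cells placed ANYWHERE = the region of its refinement -/
theorem pvyl_pl_ref {k : ℤ} (hk : 0 < k) {δ : ℝ} (hδ : 0 < δ) (z : ℂ) (E : Set (ℤ × ℤ)) : pvmgPl z ((k : ℝ) * δ) E = pvmgPl z δ (pvrcRef k E) := by
  unfold pvmgPl
  rw [pvrc_U hk hδ]

/-- **THE DOOR OF RECORD IN THE FRAME OF THE LAST CELL OF ITS NOZZLE**: the midpoint of the side which looks in the direction `d` -/
theorem pvyl_door_eq (hm : 0 ≤ mm) {δ : ℝ} (y c d : ℤ × ℤ) :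
    pvmgPt ((2 * (mm : ℝ) + 1) * δ) c + pvfjDoor mm ((2 * (mm : ℝ) + 1) * δ) y d = pvtCtr δ (pvytSh mm (pvtbPt mm (y + c) d (mm + 9) 0)) + (δ : ℂ) * (pvtZ d / 2) := by
  have hk : (2 * (mm : ℂ) + 1) ≠ 0 := by
    have h0 : (0 : ℝ) ≤ (mm : ℝ) := by exact_mod_cast hm
    have h1 : (2 * (mm : ℝ) + 1) ≠ 0 := by positivity
    exact_mod_cast h1
  have e0 : pvtZ (pvtbPt mm (y + c) d (mm + 9) 0) = pvtZ (pvfjA mm (y + c) d) - pvtZ d := by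
    rw [pvfj_A_eq, pvfj_Z_add]
    ring
  have es : pvtZ ((mm, mm) : ℤ × ℤ) = (mm : ℂ) * (1 + Complex.I) := by
    simp only [pvtZ]
    ring
  rw [pvccm_ctr, pvyt_sh_Z, e0, pvfj_A_shift, pvfj_Pt_eq, pvfjDoor, es]
  push_cast
  field_simp
  ring

/-- a point of the closed square, in the frame of its centre -/
theorem pvyl_sq_ctr {δ : ℝ} (q : ℤ × ℤ) {v : ℂ} (h1 : |v.re| ≤ δ / 2) (h2 : |v.im| ≤ δ / 2) : pvtCtr δ q + v ∈ pvtSq δ q := by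
  rw [abs_le] at h1 h2
  refine ⟨?_, ?_, ?_, ?_⟩ <;> simp only [pvtCtr, Complex.add_re, Complex.add_im] <;> nlinarith [h1.1, h1.2, h2.1, h2.2]

/-- **THE HALF CELL BEHIND A DOOR**: in the frame `w ↦ door + d δ w` of the door (`d` = the OUTWARD direction of the nozzle) the points `-1 ≤ re w ≤ 0`, `|im w| ≤ 1/2`, at the sup-distance `≥ r₀` from `0`,
lie in the last cell of the nozzle, off the `r₀ δ`-square of the door -/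
theorem pvyl_behind_door (hm : 0 ≤ mm) {δ r₀ : ℝ} (hδ : 0 < δ) (y c : ℤ × ℤ) {d : ℤ × ℤ} (hd : PvfjDir d) {w : ℂ} (h1 : -1 ≤ w.re) (h2 : w.re ≤ 0) (h3 : |w.im| ≤ 1 / 2) (h4 : r₀ ≤ max |w.re| |w.im|) :
    pvthSim (pvmgPt ((2 * (mm : ℝ) + 1) * δ) c + pvfjDoor mm ((2 * (mm : ℝ) + 1) * δ) y d) (pvtZ d * (δ : ℂ)) w ∈
      pvtSq δ (pvytSh mm (pvtbPt mm (y + c) d (mm + 9) 0)) \ pvccSq (pvmgPt ((2 * (mm : ℝ) + 1) * δ) c + pvfjDoor mm ((2 * (mm : ℝ) + 1) * δ) y d) (δ * r₀) := by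
  have h3' := abs_le.1 h3
  constructor
  · unfold pvthSim
    rw [pvyl_door_eq hm, add_assoc]
    apply pvyl_sq_ctr
    · rcases hd with rfl | rfl | rfl | rfl <;> simp [pvtZ] <;> first | (rw [abs_of_pos hδ]; nlinarith [h3]) | (rw [abs_le]; constructor <;> nlinarith [h3'.1, h3'.2])
    · rcases hd with rfl | rfl | rfl | rfl <;> simp [pvtZ] <;> first | (rw [abs_of_pos hδ]; nlinarith [h3]) | (rw [abs_le]; constructor <;> nlinarith [h3'.1, h3'.2])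
  · intro hc
    have hc' : pvccN (pvtZ d * (δ : ℂ) * w) < δ * r₀ := by
      have : pvthSim (pvmgPt ((2 * (mm : ℝ) + 1) * δ) c + pvfjDoor mm ((2 * (mm : ℝ) + 1) * δ) y d) (pvtZ d * (δ : ℂ)) w - (pvmgPt ((2 * (mm : ℝ) + 1) * δ) c + pvfjDoor mm ((2 * (mm : ℝ) + 1) * δ) y d) = pvtZ d * (δ : ℂ) * w := by
        unfold pvthSim
        ring
      have hc2 : pvccN (pvthSim (pvmgPt ((2 * (mm : ℝ) + 1) * δ) c + pvfjDoor mm ((2 * (mm : ℝ) + 1) * δ) y d) (pvtZ d * (δ : ℂ)) w - (pvmgPt ((2 * (mm : ℝ) + 1) * δ) c + pvfjDoor mm ((2 * (mm : ℝ) + 1) * δ) y d)) < δ * r₀ := hc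
      rwa [this] at hc2
    have e : pvccN (pvtZ d * (δ : ℂ) * w) = δ * max |w.re| |w.im| := by
      unfold pvccN
      rw [mul_max_of_nonneg _ _ hδ.le]
      rcases hd with rfl | rfl | rfl | rfl <;> simp [pvtZ, abs_mul, abs_of_pos hδ, max_comm]
    rw [e] at hc'
    have := lt_of_mul_lt_mul_left hc' hδ.le
    linarith

/-- **the fattened refinement in ABSOLUTE fine cells** = the `j`-collar of the refinement -/
theorem pvyl_D_N (hm : 0 ≤ mm) (j : ℕ) (S : Set (ℤ × ℤ)) : pvytSh mm '' pvtbD (2 * mm + 1) (mm + j) S = pvtwN j (pvrcRef (2 * mm + 1) S) := by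
  ext q
  constructor
  · rintro ⟨v, ⟨p, hp, h1, h2, h3, h4⟩, rfl⟩
    refine ⟨(max ((2 * mm + 1) * p.1) (min (v.1 + mm) ((2 * mm + 1) * p.1 + 2 * mm)), max ((2 * mm + 1) * p.2) (min (v.2 + mm) ((2 * mm + 1) * p.2 + 2 * mm))), ?_, ?_⟩
    · rw [pvrc_ref_iff (by omega)]
      refine ⟨p, hp, ?_, ?_, ?_, ?_⟩ <;> simp only <;> omega
    · simp only [pvytSh, Prod.fst_add, Prod.snd_add]
      refine ⟨?_, ?_, ?_, ?_⟩ <;> omega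
  · rintro ⟨z, hz, h1, h2, h3, h4⟩
    obtain ⟨p, hp, a1, a2, a3, a4⟩ := (pvrc_ref_iff (by omega)).1 hz
    refine ⟨(q.1 - mm, q.2 - mm), ⟨p, hp, ?_, ?_, ?_, ?_⟩, Prod.ext (by simp [pvytSh]) (by simp [pvytSh])⟩ <;> simp only <;> omega

/-- the fattened body in absolute fine cells contains the 9-collar of the refined body -/
theorem pvyl_full_N (hm : 0 ≤ mm) (𝔉 : PvfjPlug τ) (c : ℤ × ℤ) (t : τ) : pvtwN 9 (pvrcRef (2 * mm + 1) (pvfjSh c (𝔉.B t))) ⊆ pvytSh mm '' pvytFull 𝔉 mm c t := by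
  have := pvyl_D_N hm 9 (pvfjSh c (𝔉.B t))
  rw [← this]
  exact Set.image_mono (pvyl_full_of 𝔉 mm c t)

/-- **MEMBERSHIP IN THE BODY, ABSOLUTE FINE CELLS**: within 9 fine cells of the refined body, and not the last cell of a nozzle -/
theorem pvyl_mem_body (hm : 0 ≤ mm) {𝔉 : PvfjPlug τ} {c : ℤ × ℤ} {t : τ} {q : ℤ × ℤ} (h : q ∈ pvtwN 9 (pvrcRef (2 * mm + 1) (pvfjSh c (𝔉.B t))))
    (ho : q ≠ pvytSh mm (pvytBo 𝔉 mm c t)) (hi : q ≠ pvytSh mm (pvytBi 𝔉 mm c t)) : q ∈ pvytBody 𝔉 mm c t := by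
  obtain ⟨v, hv, rfl⟩ := pvyl_full_N hm 𝔉 c t h
  refine ⟨v, ⟨hv, ?_⟩, rfl⟩
  rintro (rfl | rfl)
  · exact ho rfl
  · exact hi rfl

/-- **THE PORCH**: the fine cells of the block of the door cell and of the 9 rows in front of it are body cells, but for the last cell of the nozzle -/
theorem pvyl_porch (hm : 4 ≤ mm) {𝔉 : PvfjPlug τ} (hW : 𝔉.WF) (c : ℤ × ℤ) {t : τ} (fm : 𝔉.ym t + 𝔉.dm t ∉ 𝔉.B t) (hne : 𝔉.yp t + 𝔉.dp t ≠ 𝔉.ym t + 𝔉.dm t)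
    {i j : ℤ} (hi : -mm ≤ i ∧ i ≤ mm + 9) (hj : -mm ≤ j ∧ j ≤ mm) (hij : ¬ (i = mm + 9 ∧ j = 0)) : pvytSh mm (pvtbPt mm (𝔉.yp t + c) (𝔉.dp t) i j) ∈ pvytBody 𝔉 mm c t := by
  have hd := hW.dp_dir t
  refine ⟨_, ⟨pvyl_full_of 𝔉 mm c t (pvfj_noz_mem hd (pvfj_sh_mem (hW.Yp_sub t (hW.yp_mem t))) ⟨by omega, by omega⟩ ⟨by omega, by omega⟩), ?_⟩, rfl⟩
  rintro (h | h)
  · apply hij
    have h1 := congrArg Prod.fst h
    have h2 := congrArg Prod.snd h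
    simp only [pvytBo, pvtbPt] at h1 h2
    rcases hd with e | e | e | e <;> rw [e] at h1 h2 <;> simp only [mul_zero, mul_one, zero_mul, add_zero, sub_zero, mul_neg] at h1 h2 <;> constructor <;> omega
  · -- the last cell of the entrance nozzle lies in the block of the entrance front
    have hb : ∀ p : ℤ × ℤ, ((2 * mm + 1) * p.1 - mm ≤ (pvtbPt mm (𝔉.yp t + c) (𝔉.dp t) i j).1 ∧ (pvtbPt mm (𝔉.yp t + c) (𝔉.dp t) i j).1 ≤ (2 * mm + 1) * p.1 + mm ∧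
        (2 * mm + 1) * p.2 - mm ≤ (pvtbPt mm (𝔉.yp t + c) (𝔉.dp t) i j).2 ∧ (pvtbPt mm (𝔉.yp t + c) (𝔉.dp t) i j).2 ≤ (2 * mm + 1) * p.2 + mm) → p = 𝔉.ym t + c + 𝔉.dm t := by
      rintro p ⟨a1, a2, a3, a4⟩
      rw [h] at a1 a2 a3 a4
      exact pvyl_tip_block hm (hW.dm_dir t) a1 a2 a3 a4
    by_cases hi' : i ≤ mm
    · have := hb (𝔉.yp t + c) (by
        simp only [pvtbPt]
        rcases hd with e | e | e | e <;> rw [e] <;> simp only [mul_zero, mul_one, zero_mul, add_zero, sub_zero, mul_neg] <;> refine ⟨?_, ?_, ?_, ?_⟩ <;> omega)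
      apply fm
      have e : 𝔉.ym t + 𝔉.dm t = 𝔉.yp t := by
        have : 𝔉.yp t + c = 𝔉.ym t + 𝔉.dm t + c := by rw [this]; abel
        exact (add_right_cancel this).symm
      rw [e]
      exact hW.Yp_sub t (hW.yp_mem t)
    · have := hb (𝔉.yp t + c + 𝔉.dp t) (by
        simp only [pvtbPt, Prod.fst_add, Prod.snd_add]
        rcases hd with e | e | e | e <;> rw [e] <;> simp only [mul_zero, mul_one, zero_mul, add_zero, sub_zero, mul_neg] <;> refine ⟨?_, ?_, ?_, ?_⟩ <;> nlinarith)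
      apply hne
      have : 𝔉.yp t + 𝔉.dp t + c = 𝔉.ym t + 𝔉.dm t + c := by
        calc 𝔉.yp t + 𝔉.dp t + c = 𝔉.yp t + c + 𝔉.dp t := by abel
          _ = 𝔉.ym t + c + 𝔉.dm t := this
          _ = 𝔉.ym t + 𝔉.dm t + c := by abel
      exact add_right_cancel this

/-- the plug with its two nozzles exchanged -/
def pvylFlip (𝔉 : PvfjPlug τ) : PvfjPlug τ := ⟨𝔉.nB, 𝔉.B, 𝔉.Yp, 𝔉.Ym, 𝔉.yp, 𝔉.dp, 𝔉.ym, 𝔉.dm⟩

theorem pvyl_flip_wf {𝔉 : PvfjPlug τ} (h : 𝔉.WF) : (pvylFlip 𝔉).WF :=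
  ⟨h.B_box, h.B_conn, h.Yp_sub, h.Ym_sub, h.Yp_conn, h.Ym_conn, h.yp_mem, h.ym_mem, h.dp_dir, h.dm_dir⟩

theorem pvyl_flip_body (𝔉 : PvfjPlug τ) (mm : ℤ) (c : ℤ × ℤ) (t : τ) : pvytBody (pvylFlip 𝔉) mm c t = pvytBody 𝔉 mm c t := by
  show pvytSh mm '' (pvytFull 𝔉 mm c t \ {pvytBi 𝔉 mm c t, pvytBo 𝔉 mm c t}) = pvytSh mm '' (pvytFull 𝔉 mm c t \ {pvytBo 𝔉 mm c t, pvytBi 𝔉 mm c t})
  rw [Set.pair_comm]

/-- **THE PORCH OF THE ENTRANCE** -/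
theorem pvyl_porch_m (hm : 4 ≤ mm) {𝔉 : PvfjPlug τ} (hW : 𝔉.WF) (c : ℤ × ℤ) {t : τ} (fp : 𝔉.yp t + 𝔉.dp t ∉ 𝔉.B t) (hne : 𝔉.yp t + 𝔉.dp t ≠ 𝔉.ym t + 𝔉.dm t)
    {i j : ℤ} (hi : -mm ≤ i ∧ i ≤ mm + 9) (hj : -mm ≤ j ∧ j ≤ mm) (hij : ¬ (i = mm + 9 ∧ j = 0)) : pvytSh mm (pvtbPt mm (𝔉.ym t + c) (𝔉.dm t) i j) ∈ pvytBody 𝔉 mm c t := by
  have := pvyl_porch hm (pvyl_flip_wf hW) c (t := t) fp hne.symm hi hj hij
  rwa [pvyl_flip_body] at this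

/-- **THE ROOM OF THE EXIT FUNNEL**: the closed fine cells of the body, the last cell of the exit nozzle off the square of the door -/
def pvylAo (𝔉 : PvfjPlug τ) (mm : ℤ) (δc δ : ℝ) (a : ℤ × ℤ) (t : τ) : Set ℂ :=
  pvtU δ (pvytBody 𝔉 mm a t) ∪ (pvtSq δ (pvytSh mm (pvytBo 𝔉 mm a t)) \ pvccSq (pvmgPt δc a + pvfjDoor mm δc (𝔉.yp t) (𝔉.dp t)) (δ * (13 / 160)))

/-- **THE ROOM OF THE ENTRANCE FUNNEL** -/
def pvylAi (𝔉 : PvfjPlug τ) (mm : ℤ) (δc δ : ℝ) (a : ℤ × ℤ) (t : τ) : Set ℂ :=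
  pvtU δ (pvytBody 𝔉 mm a t) ∪ (pvtSq δ (pvytSh mm (pvytBi 𝔉 mm a t)) \ pvccSq (pvmgPt δc a + pvfjDoor mm δc (𝔉.ym t) (𝔉.dm t)) (δ * (13 / 160)))

theorem pvyl_eqns_cite2 : True := by
  have := @pvylFlip.eq_1; have := @pvylAo.eq_1; have := @pvylAi.eq_1
  trivial

/-- **the window of the entrance side of the door plug of the exit door**, off its state square, lies in the last cell of the nozzle, off the square of the door -/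
theorem pvyl_win_o (hm : 0 ≤ mm) {δ : ℝ} (hδ : 0 < δ) (y c : ℤ × ℤ) {d : ℤ × ℤ} (hd : PvfjDir d) :
    pvkdAt (pvmgPt ((2 * (mm : ℝ) + 1) * δ) c + pvfjDoor mm ((2 * (mm : ℝ) + 1) * δ) y d) (pvtZ d * (δ : ℂ)) (pvk2Es false) \
        (pvthSim (pvmgPt ((2 * (mm : ℝ) + 1) * δ) c + pvfjDoor mm ((2 * (mm : ℝ) + 1) * δ) y d) (pvtZ d) '' (pvthSim 0 (δ : ℂ) '' pvkgO)) ⊆
      pvtSq δ (pvytSh mm (pvtbPt mm (y + c) d (mm + 9) 0)) \ pvccSq (pvmgPt ((2 * (mm : ℝ) + 1) * δ) c + pvfjDoor mm ((2 * (mm : ℝ) + 1) * δ) y d) (δ * (13 / 160)) := by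
  rintro _ ⟨⟨w, hw, rfl⟩, hn⟩
  rcases pvk2_Es_sub false hw with h | ⟨h12, h3, h4⟩
  · refine absurd ⟨pvthSim 0 (δ : ℂ) w, ⟨w, h, rfl⟩, ?_⟩ hn
    simp only [pvthSim]
    ring
  · simp only [Bool.false_eq_true, if_false] at h12
    refine pvyl_behind_door hm hδ y c hd (by linarith [h12.1]) (by linarith [h12.2]) (abs_le.2 ⟨by linarith, by linarith⟩) (le_max_of_le_left ?_)
    rw [abs_of_nonpos (by linarith [h12.2])]
    linarith [h12.2]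

/-- **the window of the exit side of the door plug of the entrance door** (direction `- d`) -/
theorem pvyl_win_i (hm : 0 ≤ mm) {δ : ℝ} (hδ : 0 < δ) (y c : ℤ × ℤ) {d : ℤ × ℤ} (hd : PvfjDir d) :
    pvkdAt (pvmgPt ((2 * (mm : ℝ) + 1) * δ) c + pvfjDoor mm ((2 * (mm : ℝ) + 1) * δ) y d) (- pvtZ d * (δ : ℂ)) (pvk2Es true) \
        (pvthSim (pvmgPt ((2 * (mm : ℝ) + 1) * δ) c + pvfjDoor mm ((2 * (mm : ℝ) + 1) * δ) y d) (- pvtZ d) '' (pvthSim 0 (δ : ℂ) '' pvkgO)) ⊆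
      pvtSq δ (pvytSh mm (pvtbPt mm (y + c) d (mm + 9) 0)) \ pvccSq (pvmgPt ((2 * (mm : ℝ) + 1) * δ) c + pvfjDoor mm ((2 * (mm : ℝ) + 1) * δ) y d) (δ * (13 / 160)) := by
  rintro _ ⟨⟨w, hw, rfl⟩, hn⟩
  rcases pvk2_Es_sub true hw with h | ⟨h12, h3, h4⟩
  · refine absurd ⟨pvthSim 0 (δ : ℂ) w, ⟨w, h, rfl⟩, ?_⟩ hn
    simp only [pvthSim]
    ring
  · simp only [if_true] at h12
    have e : pvthSim (pvmgPt ((2 * (mm : ℝ) + 1) * δ) c + pvfjDoor mm ((2 * (mm : ℝ) + 1) * δ) y d) (- pvtZ d * (δ : ℂ)) w =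
        pvthSim (pvmgPt ((2 * (mm : ℝ) + 1) * δ) c + pvfjDoor mm ((2 * (mm : ℝ) + 1) * δ) y d) (pvtZ d * (δ : ℂ)) (-w) := by
      simp only [pvthSim]
      ring
    rw [e]
    refine pvyl_behind_door hm hδ y c hd (by rw [Complex.neg_re]; linarith [h12.2]) (by rw [Complex.neg_re]; linarith [h12.1]) (by rw [Complex.neg_im, abs_neg]; exact abs_le.2 ⟨by linarith, by linarith⟩) (le_max_of_le_left ?_)
    rw [Complex.neg_re, abs_neg, abs_of_nonneg (by linarith [h12.1])]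
    exact h12.1

/-- tools for the six inclusions: a body cell -/
theorem pvyl_Ao_cell {𝔉 : PvfjPlug τ} {δc δ : ℝ} {a : ℤ × ℤ} {t : τ} {q : ℤ × ℤ} (h : q ∈ pvytBody 𝔉 mm a t) : pvtSq δ q ⊆ pvylAo 𝔉 mm δc δ a t :=
  fun _ hp => Or.inl (Set.mem_biUnion h hp)

theorem pvyl_Ai_cell {𝔉 : PvfjPlug τ} {δc δ : ℝ} {a : ℤ × ℤ} {t : τ} {q : ℤ × ℤ} (h : q ∈ pvytBody 𝔉 mm a t) : pvtSq δ q ⊆ pvylAi 𝔉 mm δc δ a t :=
  fun _ hp => Or.inl (Set.mem_biUnion h hp)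

theorem pvyl_Ao_U {𝔉 : PvfjPlug τ} {δc δ : ℝ} {a : ℤ × ℤ} {t : τ} {X : Set (ℤ × ℤ)} (h : X ⊆ pvytBody 𝔉 mm a t) : pvtU δ X ⊆ pvylAo 𝔉 mm δc δ a t :=
  (pvyt_U_mono δ h).trans subset_union_left

theorem pvyl_Ai_U {𝔉 : PvfjPlug τ} {δc δ : ℝ} {a : ℤ × ℤ} {t : τ} {X : Set (ℤ × ℤ)} (h : X ⊆ pvytBody 𝔉 mm a t) : pvtU δ X ⊆ pvylAi 𝔉 mm δc δ a t :=
  (pvyt_U_mono δ h).trans subset_union_left

/-- tools for the six inclusions: **the half cell behind the exit door**, frame `w ↦ door + dp δ w` -/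
theorem pvyl_Ao_door (hm : 0 ≤ mm) {𝔉 : PvfjPlug τ} (hW : 𝔉.WF) {δ : ℝ} (hδ : 0 < δ) (a : ℤ × ℤ) (t : τ) :
    pvkdAt (pvmgPt ((2 * (mm : ℝ) + 1) * δ) a + pvfjDoor mm ((2 * (mm : ℝ) + 1) * δ) (𝔉.yp t) (𝔉.dp t)) (pvtZ (𝔉.dp t) * (δ : ℂ)) {w | -1 ≤ w.re ∧ w.re ≤ 0 ∧ |w.im| ≤ 1 / 2 ∧ 13 / 160 ≤ max |w.re| |w.im|} ⊆
      pvylAo 𝔉 mm ((2 * (mm : ℝ) + 1) * δ) δ a t := by
  rintro _ ⟨w, ⟨h1, h2, h3, h4⟩, rfl⟩
  exact Or.inr (pvyl_behind_door hm hδ (𝔉.yp t) a (hW.dp_dir t) h1 h2 h3 h4)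

/-- **the half cell behind the entrance door**, frame `w ↦ door + dm δ w` (`dm` = the OUTWARD direction `= - din`) -/
theorem pvyl_Ai_door (hm : 0 ≤ mm) {𝔉 : PvfjPlug τ} (hW : 𝔉.WF) {δ : ℝ} (hδ : 0 < δ) (a : ℤ × ℤ) (t : τ) :
    pvkdAt (pvmgPt ((2 * (mm : ℝ) + 1) * δ) a + pvfjDoor mm ((2 * (mm : ℝ) + 1) * δ) (𝔉.ym t) (𝔉.dm t)) (pvtZ (𝔉.dm t) * (δ : ℂ)) {w | -1 ≤ w.re ∧ w.re ≤ 0 ∧ |w.im| ≤ 1 / 2 ∧ 13 / 160 ≤ max |w.re| |w.im|} ⊆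
      pvylAi 𝔉 mm ((2 * (mm : ℝ) + 1) * δ) δ a t := by
  rintro _ ⟨w, ⟨h1, h2, h3, h4⟩, rfl⟩
  exact Or.inr (pvyl_behind_door hm hδ (𝔉.ym t) a (hW.dm_dir t) h1 h2 h3 h4)

end dict

/-! ## 3. the record `PvytPl` of 183 from the walks -/

section pl

variable {τ : Type} {cc : ℝ} {𝔓 : PvrxPar τ cc} {𝔶 : PvydGeo τ} {𝔉 : PvfjPlug τ} {mm : ℤ} {δc δ : ℝ} {col : Bool} {m : ℕ} {ε : ℝ} {a : ℤ × ℤ} {t : τ}

/-- **`PvytPl` FROM THE WALKS**.      The state ball, the windows of the two big ends (8: `Tr/ModPB`) and the windows of the two door ends (OPEN windows of 125) are paid here: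
the pens of the funnels owe SIX inclusions: the two walks and the window of the corridor in the room `pvylAo` (`pvylAi`). -/
theorem pvyl_pl_of (hm : 4 ≤ mm) (hW : 𝔉.WF) (hδ : 0 < δ) (hδc : δc = (2 * (mm : ℝ) + 1) * δ) (hk : (𝔶.kit m ε).δ = δ) (hO₀ : (𝔶.kit m ε).O₀ = pvthSim 0 (δ : ℂ) '' pvkgO)
    (hEn : ∀ (σ : Bool) (z d : ℂ), (𝔶.en m col σ z d).E = pvkdAt z (d * (δ : ℂ)) (pvk2Es σ))
    (fp : 𝔉.yp t + 𝔉.dp t ∉ 𝔉.B t) (fm : 𝔉.ym t + 𝔉.dm t ∉ 𝔉.B t)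
    (hpo : (𝔓.Γ m).pout t = pvfjDoor mm δc (𝔉.yp t) (𝔉.dp t)) (hdo : (𝔓.Γ m).dout t = pvtZ (𝔉.dp t))
    (hpi : (𝔓.Γ m).pin t = pvfjDoor mm δc (𝔉.ym t) (𝔉.dm t)) (hdi : (𝔓.Γ m).din t = - pvtZ (𝔉.dm t))
    (hO : pvspO 𝔓.mod.N (𝔓.ty m (pvmgPt δc a) t) (pvmgPt δc a) (pvlmH m) ⊆ pvmgPl (pvmgPt δc a) δc (𝔉.B t))
    (hEp : (𝔓.ty m (pvmgPt δc a) t).Ep ⊆ pvmgPl (pvmgPt δc a) δc (𝔉.B t)) (hEm : (𝔓.ty m (pvmgPt δc a) t).Em ⊆ pvmgPl (pvmgPt δc a) δc (𝔉.B t))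
    (o1 : pvlnW (𝔶.wo m (pvmgPt δc a) t).δ (𝔶.wo m (pvmgPt δc a) t).L₁ ⊆ pvylAo 𝔉 mm δc δ a t) (o2 : pvlnW (𝔶.wo m (pvmgPt δc a) t).δ (𝔶.wo m (pvmgPt δc a) t).L₂ ⊆ pvylAo 𝔉 mm δc δ a t)
    (o3 : (𝔶.wo m (pvmgPt δc a) t).Et ⊆ pvylAo 𝔉 mm δc δ a t)
    (i1 : pvlnW (𝔶.wi m (pvmgPt δc a) t).δ (𝔶.wi m (pvmgPt δc a) t).L₁ ⊆ pvylAi 𝔉 mm δc δ a t) (i2 : pvlnW (𝔶.wi m (pvmgPt δc a) t).δ (𝔶.wi m (pvmgPt δc a) t).L₂ ⊆ pvylAi 𝔉 mm δc δ a t)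
    (i3 : (𝔶.wi m (pvmgPt δc a) t).Et ⊆ pvylAi 𝔉 mm δc δ a t) :
    PvytPl 𝔓 𝔶 𝔉 mm δc col m ε (δ * (13 / 160)) a t := by
  subst hδc
  have hB : pvmgPl (pvmgPt ((2 * (mm : ℝ) + 1) * δ) a) ((2 * (mm : ℝ) + 1) * δ) (𝔉.B t) ⊆ pvtU δ (pvytBody 𝔉 mm a t) := pvyl_pl_coarse hm hW hδ a fp fm
  refine ⟨?_, ?_, ?_⟩
  · rw [hk]
    exact hO.trans hB
  · rw [hk, hpo]
    refine pvyt_Kp_sub ?_ ?_ o1 o2 (sdiff_subset.trans o3)
    · exact sdiff_subset.trans ((hEp.trans hB).trans subset_union_left)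
    · refine Subset.trans ?_ subset_union_right
      refine Subset.trans ?_ (pvyl_win_o (by omega) hδ (𝔉.yp t) a (hW.dp_dir t))
      rintro p ⟨h1, h2⟩
      have h1' : p ∈ (𝔶.en m col false (pvmgPt ((2 * (mm : ℝ) + 1) * δ) a + (𝔓.Γ m).pout t) ((𝔓.Γ m).dout t)).E := h1
      rw [hEn, hpo, hdo] at h1'
      refine ⟨h1', fun h3 => h2 (Or.inr ?_)⟩
      show p ∈ pvthSim (pvmgPt ((2 * (mm : ℝ) + 1) * δ) a + (𝔓.Γ m).pout t) ((𝔓.Γ m).dout t) '' (𝔶.kit m ε).O₀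
      rw [hO₀, hpo, hdo]
      exact h3
  · rw [hk, hpi]
    refine pvyt_Kp_sub ?_ ?_ i1 i2 (sdiff_subset.trans i3)
    · refine Subset.trans ?_ subset_union_right
      refine Subset.trans ?_ (pvyl_win_i (by omega) hδ (𝔉.ym t) a (hW.dm_dir t))
      rintro p ⟨h1, h2⟩
      have h1' : p ∈ (𝔶.en m col true (pvmgPt ((2 * (mm : ℝ) + 1) * δ) a + (𝔓.Γ m).pin t) ((𝔓.Γ m).din t)).E := h1
      rw [hEn, hpi, hdi] at h1'
      refine ⟨h1', fun h3 => h2 (Or.inl ?_)⟩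
      show p ∈ pvthSim (pvmgPt ((2 * (mm : ℝ) + 1) * δ) a + (𝔓.Γ m).pin t) ((𝔓.Γ m).din t) '' (𝔶.kit m ε).O₀
      rw [hO₀, hpi, hdi]
      exact h3
    · exact sdiff_subset.trans ((hEm.trans hB).trans subset_union_left)

end pl

/-! ## 4. at the model -/

section model

variable {𝔤 : PvmhNum} {c : ℝ}

/-- the two fronts of a type are different cells -/
theorem pvyl_Ep_Em {τ : PvmnType} : Disjoint (pvfjmEp τ) (pvfjmEm τ) :=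
  Set.disjoint_left.2 fun _ h1 h2 => Set.disjoint_left.1 pvfjm_Em_off h2 (pvtw_N_mono (by norm_num) (pvmn_C_sub 9 (by decide) le_rfl) (pvfjm_Ep_sub h1))

/-- a refined front lies over the front -/
theorem pvyl_front_ref {τ : Type} {PL : PvfjPlug τ} (hW : PL.WF) {k : ℕ} (hk : 0 < k) (t : τ) :
    (PL.ref k).yp t + (PL.ref k).dp t ∈ pvrcRef k {PL.yp t + PL.dp t} ∧ (PL.ref k).ym t + (PL.ref k).dm t ∈ pvrcRef k {PL.ym t + PL.dm t} :=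
  ⟨pvrc_door_front (by exact_mod_cast hk) _ (hW.dp_dir t), pvrc_door_front (by exact_mod_cast hk) _ (hW.dm_dir t)⟩

/-- **the three facts on the fronts at the plugs of record of level `m`** -/
theorem pvyl_fronts (H : 𝔤.OK) (c : ℝ) (m : ℕ) (t : PvmhT 𝔤) :
    (pvrcPL c (pvrsPL 𝔤) m).yp t + (pvrcPL c (pvrsPL 𝔤) m).dp t ∉ (pvrcPL c (pvrsPL 𝔤) m).B t ∧ (pvrcPL c (pvrsPL 𝔤) m).ym t + (pvrcPL c (pvrsPL 𝔤) m).dm t ∉ (pvrcPL c (pvrsPL 𝔤) m).B t ∧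
      (pvrcPL c (pvrsPL 𝔤) m).yp t + (pvrcPL c (pvrsPL 𝔤) m).dp t ≠ (pvrcPL c (pvrsPL 𝔤) m).ym t + (pvrcPL c (pvrsPL 𝔤) m).dm t := by
  have hWP : 𝔤.NN.nW ≤ 𝔤.NN.nP := by have := pvmh_bars H; omega
  obtain ⟨f1, f2⟩ := pvyl_front_ref (pvrs_PL_wf H) (pvlm_N_pos c m) t
  have g1 : (pvrsPL 𝔤).yp t + (pvrsPL 𝔤).dp t ∈ pvfjmEp t.typ := pvfjm_front_p hWP (fun t => t.isType) t
  have g2 : (pvrsPL 𝔤).ym t + (pvrsPL 𝔤).dm t ∈ pvfjmEm t.typ := pvfjm_front_m hWP (fun t => t.isType) t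
  refine ⟨fun h => ?_, fun h => ?_, fun h => ?_⟩
  · have h' : (((pvrcPL c (pvrsPL 𝔤) m).yp t + (pvrcPL c (pvrsPL 𝔤) m).dp t).1 / (pvlmN c m : ℤ), ((pvrcPL c (pvrsPL 𝔤) m).yp t + (pvrcPL c (pvrsPL 𝔤) m).dp t).2 / (pvlmN c m : ℤ)) ∈ pvfjmB 𝔤.NN t.typ := h
    have f1' : (((pvrcPL c (pvrsPL 𝔤) m).yp t + (pvrcPL c (pvrsPL 𝔤) m).dp t).1 / (pvlmN c m : ℤ), ((pvrcPL c (pvrsPL 𝔤) m).yp t + (pvrcPL c (pvrsPL 𝔤) m).dp t).2 / (pvlmN c m : ℤ)) = (pvrsPL 𝔤).yp t + (pvrsPL 𝔤).dp t := f1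
    rw [f1'] at h'
    exact Set.disjoint_left.1 (pvfjm_Ep_off_B t.isType) g1 h'
  · have h' : (((pvrcPL c (pvrsPL 𝔤) m).ym t + (pvrcPL c (pvrsPL 𝔤) m).dm t).1 / (pvlmN c m : ℤ), ((pvrcPL c (pvrsPL 𝔤) m).ym t + (pvrcPL c (pvrsPL 𝔤) m).dm t).2 / (pvlmN c m : ℤ)) ∈ pvfjmB 𝔤.NN t.typ := h
    have f2' : (((pvrcPL c (pvrsPL 𝔤) m).ym t + (pvrcPL c (pvrsPL 𝔤) m).dm t).1 / (pvlmN c m : ℤ), ((pvrcPL c (pvrsPL 𝔤) m).ym t + (pvrcPL c (pvrsPL 𝔤) m).dm t).2 / (pvlmN c m : ℤ)) = (pvrsPL 𝔤).ym t + (pvrsPL 𝔤).dm t := f2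
    rw [f2'] at h'
    exact Set.disjoint_left.1 (pvfjm_Em_off_B t.isType) g2 h'
  · have f1' : (((pvrcPL c (pvrsPL 𝔤) m).yp t + (pvrcPL c (pvrsPL 𝔤) m).dp t).1 / (pvlmN c m : ℤ), ((pvrcPL c (pvrsPL 𝔤) m).yp t + (pvrcPL c (pvrsPL 𝔤) m).dp t).2 / (pvlmN c m : ℤ)) = (pvrsPL 𝔤).yp t + (pvrsPL 𝔤).dp t := f1
    have f2' : (((pvrcPL c (pvrsPL 𝔤) m).ym t + (pvrcPL c (pvrsPL 𝔤) m).dm t).1 / (pvlmN c m : ℤ), ((pvrcPL c (pvrsPL 𝔤) m).ym t + (pvrcPL c (pvrsPL 𝔤) m).dm t).2 / (pvlmN c m : ℤ)) = (pvrsPL 𝔤).ym t + (pvrsPL 𝔤).dm t := f2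
    rw [h, f2'] at f1'
    rw [f1'] at g2
    exact Set.disjoint_left.1 pvyl_Ep_Em g1 g2

/-- **MENU CELLS OF THE BODY, PLACED ANYWHERE = COARSE CELLS OF THE REFINED BODY** -/
theorem pvyl_menu_coarse (H : 𝔤.OK) (c : ℝ) (m : ℕ) (z : ℂ) (E : Set (ℤ × ℤ)) :
    pvmgPl z (𝔤.dl * pvlmH m) E = pvmgPl z ((pvrsNum 𝔤).dc c m) (pvrcRef (pvlmN c m : ℤ) E) := by
  have h1 : (pvlmN c m : ℝ) * (pvrsNum 𝔤).dc c m = 𝔤.dl * pvlmH m := pvrc_dc_mul (pvrs_rel H).ok c m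
  rw [← h1, ← pvyl_pl_ref (by exact_mod_cast pvlm_N_pos c m) (pvrc_dc_pos (pvrs_rel H).ok c m), Int.cast_natCast]

/-- **a set of menu cells of the body, placed at the corner of a coarse cell, lies in the closed fine cells of the body** -/
theorem pvyl_pl_body (H : 𝔤.OK) (c : ℝ) (m : ℕ) (a : ℤ × ℤ) (t : PvmhT 𝔤) {S : Set (ℤ × ℤ)} (hS : S ⊆ pvfjmB 𝔤.NN t.typ) :
    pvmgPl (pvmgPt ((pvrsNum 𝔤).dc c m) a) (𝔤.dl * pvlmH m) S ⊆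
      pvtU ((pvrsNum 𝔤).dc c m / (2 * ((pvrsNum 𝔤).mm : ℝ) + 1)) (pvytBody (pvrcPL c (pvrsPL 𝔤) m) (pvrsNum 𝔤).mm a t) := by
  obtain ⟨fp, fm, -⟩ := pvyl_fronts H c m t
  have h0 := pvrc_dc_pos (pvrs_rel H).ok c m
  have hk : (0 : ℝ) < 2 * ((pvrsNum 𝔤).mm : ℝ) + 1 := by
    show (0 : ℝ) < 2 * ((10 : ℤ) : ℝ) + 1
    norm_num
  have e : (pvrsNum 𝔤).dc c m = (2 * ((pvrsNum 𝔤).mm : ℝ) + 1) * ((pvrsNum 𝔤).dc c m / (2 * ((pvrsNum 𝔤).mm : ℝ) + 1)) := by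
    field_simp
  have key := pvyl_pl_coarse (mm := (pvrsNum 𝔤).mm) (by show (4 : ℤ) ≤ 10; norm_num) ((pvrs_PL_wf H).ref (pvlm_N_pos c m)) (div_pos h0 hk) a fp fm
  rw [← e] at key
  refine Subset.trans ?_ key
  rw [pvyl_menu_coarse H c m]
  exact pvmg_mono (pvrc_ref_mono hS)

/-- tools for the six inclusions: **menu cells of the body** -/
theorem pvyl_Ao_menu (H : 𝔤.OK) (c : ℝ) (m : ℕ) (a : ℤ × ℤ) (t : PvmhT 𝔤) {S : Set (ℤ × ℤ)} (hS : S ⊆ pvfjmB 𝔤.NN t.typ) :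
    pvmgPl (pvmgPt ((pvrsNum 𝔤).dc c m) a) (𝔤.dl * pvlmH m) S ⊆
      pvylAo (pvrcPL c (pvrsPL 𝔤) m) (pvrsNum 𝔤).mm ((pvrsNum 𝔤).dc c m) ((pvrsNum 𝔤).dc c m / (2 * ((pvrsNum 𝔤).mm : ℝ) + 1)) a t :=
  (pvyl_pl_body H c m a t hS).trans subset_union_left

theorem pvyl_Ai_menu (H : 𝔤.OK) (c : ℝ) (m : ℕ) (a : ℤ × ℤ) (t : PvmhT 𝔤) {S : Set (ℤ × ℤ)} (hS : S ⊆ pvfjmB 𝔤.NN t.typ) :
    pvmgPl (pvmgPt ((pvrsNum 𝔤).dc c m) a) (𝔤.dl * pvlmH m) S ⊆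
      pvylAi (pvrcPL c (pvrsPL 𝔤) m) (pvrsNum 𝔤).mm ((pvrsNum 𝔤).dc c m) ((pvrsNum 𝔤).dc c m / (2 * ((pvrsNum 𝔤).mm : ℝ) + 1)) a t :=
  (pvyl_pl_body H c m a t hS).trans subset_union_left

/-- the 8-tube of the pieces `1..8` is body -/
theorem pvyl_tube_B (𝔑 : PvmnNum) (τ : PvmnType) {i j : ℕ} (hi : 1 ≤ i) (hj : j ≤ 8) {k : ℕ} (hk : k ≤ 8) : pvtwN k (pvmnCells τ i j) ⊆ pvfjmB 𝔑 τ :=
  fun _ h => Or.inr (pvtw_N_mono hk (pvmn_cells_mono hi hj) h)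

/-- **the two routes are body** -/
theorem pvyl_route_B_p (𝔑 : PvmnNum) {τ : PvmnType} {R : Set (ℤ × ℤ)} {y d : ℤ × ℤ} {w : ℤ} (h : PvylRoute (τ.C 9 : Set (ℤ × ℤ)) (τ.C 8 : Set (ℤ × ℤ)) R y d w) : pvylRt y d w ⊆ pvfjmB 𝔑 τ :=
  fun _ hp => Or.inr (pvtw_N_mono le_rfl (pvmn_C_sub 8 (by decide) le_rfl) (h.body hp))

theorem pvyl_route_B_m (𝔑 : PvmnNum) {τ : PvmnType} {R : Set (ℤ × ℤ)} {y d : ℤ × ℤ} {w : ℤ} (h : PvylRoute (τ.C 0 : Set (ℤ × ℤ)) (τ.C 1 : Set (ℤ × ℤ)) R y d w) : pvylRt y d w ⊆ pvfjmB 𝔑 τ :=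
  fun _ hp => Or.inr (pvtw_N_mono le_rfl (pvmn_C_sub 1 le_rfl (by decide)) (h.body hp))

/-- **`PvytPl` AT THE PARAMETER OF ROAD P, FROM THE WALKS**      (`δ = dc / (2 mm + 1) = pveqDel c 𝔤 m` of 36;   `hk hO₀ hEn` = three equations of the term `pveqT`) -/
theorem pvyl_pl_model (H : PvrzGood 𝔤) {Γ : ℕ → PvtsGeo (PvmhT 𝔤)} {m0 m : ℕ} (hΓ : PvrsDoors c 𝔤 (Γ m) m) {𝔶 : PvydGeo (PvmhT 𝔤)} {col : Bool} {ε : ℝ} (a : ℤ × ℤ) (t : PvmhT 𝔤)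
    (hk : (𝔶.kit m ε).δ = (pvrsNum 𝔤).dc c m / (2 * ((pvrsNum 𝔤).mm : ℝ) + 1))
    (hO₀ : (𝔶.kit m ε).O₀ = pvthSim 0 (((pvrsNum 𝔤).dc c m / (2 * ((pvrsNum 𝔤).mm : ℝ) + 1) : ℝ) : ℂ) '' pvkgO)
    (hEn : ∀ (σ : Bool) (z d : ℂ), (𝔶.en m col σ z d).E = pvkdAt z (d * (((pvrsNum 𝔤).dc c m / (2 * ((pvrsNum 𝔤).mm : ℝ) + 1) : ℝ) : ℂ)) (pvk2Es σ))
    (o1 : pvlnW (𝔶.wo m (pvmgPt ((pvrsNum 𝔤).dc c m) a) t).δ (𝔶.wo m (pvmgPt ((pvrsNum 𝔤).dc c m) a) t).L₁ ⊆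
      pvylAo (pvrcPL c (pvrsPL 𝔤) m) (pvrsNum 𝔤).mm ((pvrsNum 𝔤).dc c m) ((pvrsNum 𝔤).dc c m / (2 * ((pvrsNum 𝔤).mm : ℝ) + 1)) a t)
    (o2 : pvlnW (𝔶.wo m (pvmgPt ((pvrsNum 𝔤).dc c m) a) t).δ (𝔶.wo m (pvmgPt ((pvrsNum 𝔤).dc c m) a) t).L₂ ⊆
      pvylAo (pvrcPL c (pvrsPL 𝔤) m) (pvrsNum 𝔤).mm ((pvrsNum 𝔤).dc c m) ((pvrsNum 𝔤).dc c m / (2 * ((pvrsNum 𝔤).mm : ℝ) + 1)) a t)
    (o3 : (𝔶.wo m (pvmgPt ((pvrsNum 𝔤).dc c m) a) t).Et ⊆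
      pvylAo (pvrcPL c (pvrsPL 𝔤) m) (pvrsNum 𝔤).mm ((pvrsNum 𝔤).dc c m) ((pvrsNum 𝔤).dc c m / (2 * ((pvrsNum 𝔤).mm : ℝ) + 1)) a t)
    (i1 : pvlnW (𝔶.wi m (pvmgPt ((pvrsNum 𝔤).dc c m) a) t).δ (𝔶.wi m (pvmgPt ((pvrsNum 𝔤).dc c m) a) t).L₁ ⊆
      pvylAi (pvrcPL c (pvrsPL 𝔤) m) (pvrsNum 𝔤).mm ((pvrsNum 𝔤).dc c m) ((pvrsNum 𝔤).dc c m / (2 * ((pvrsNum 𝔤).mm : ℝ) + 1)) a t)
    (i2 : pvlnW (𝔶.wi m (pvmgPt ((pvrsNum 𝔤).dc c m) a) t).δ (𝔶.wi m (pvmgPt ((pvrsNum 𝔤).dc c m) a) t).L₂ ⊆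
      pvylAi (pvrcPL c (pvrsPL 𝔤) m) (pvrsNum 𝔤).mm ((pvrsNum 𝔤).dc c m) ((pvrsNum 𝔤).dc c m / (2 * ((pvrsNum 𝔤).mm : ℝ) + 1)) a t)
    (i3 : (𝔶.wi m (pvmgPt ((pvrsNum 𝔤).dc c m) a) t).Et ⊆
      pvylAi (pvrcPL c (pvrsPL 𝔤) m) (pvrsNum 𝔤).mm ((pvrsNum 𝔤).dc c m) ((pvrsNum 𝔤).dc c m / (2 * ((pvrsNum 𝔤).mm : ℝ) + 1)) a t) :
    PvytPl (pvrzPar c 𝔤 H Γ m0) 𝔶 (pvrcPL c (pvrsPL 𝔤) m) (pvrsNum 𝔤).mm ((pvrsNum 𝔤).dc c m) col m ε ((pvrsNum 𝔤).dc c m / (2 * ((pvrsNum 𝔤).mm : ℝ) + 1) * (13 / 160)) a t := by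
  obtain ⟨fp, fm, -⟩ := pvyl_fronts H.ok c m t
  have h0 := pvrc_dc_pos (pvrs_rel H.ok).ok c m
  have hK : (0 : ℝ) < 2 * ((pvrsNum 𝔤).mm : ℝ) + 1 := by
    show (0 : ℝ) < 2 * ((10 : ℤ) : ℝ) + 1
    norm_num
  have e : (pvrsNum 𝔤).dc c m = (2 * ((pvrsNum 𝔤).mm : ℝ) + 1) * ((pvrsNum 𝔤).dc c m / (2 * ((pvrsNum 𝔤).mm : ℝ) + 1)) := by
    field_simp
  have tr : ∀ X : Set ℂ, X ⊆ pvmgPl (pvmgPt ((pvrsNum 𝔤).dc c m) a) (𝔤.dl * pvlmH m) (pvfjmB 𝔤.NN t.typ) →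
      X ⊆ pvmgPl (pvmgPt ((pvrsNum 𝔤).dc c m) a) ((pvrsNum 𝔤).dc c m) ((pvrcPL c (pvrsPL 𝔤) m).B t) := by
    intro X hX
    rw [pvyl_menu_coarse H.ok c m] at hX
    exact hX
  exact pvyl_pl_of (by show (4 : ℤ) ≤ 10; norm_num) ((pvrs_PL_wf H.ok).ref (pvlm_N_pos c m)) (div_pos h0 hK) e hk hO₀ hEn fp fm (hΓ.pout t) (hΓ.dout t) (hΓ.pin t) (hΓ.din t)
    (tr _ (pvmhb_O_B H.ok _ t (pvlm_H_pos m))) (tr _ (pvmhb_Ep H.ok _ t (pvlm_H_pos m))) (tr _ (pvmhb_Em H.ok _ t (pvlm_H_pos m))) o1 o2 o3 i1 i2 i3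

end model

/-! ## 5. the HOLES of the body (finding of 135, cure of 183: `pvytFull` at the hull) -/

section hull

/-- a 4-connected set off `S` which leaves a box of `S` lies outside -/
theorem pvyl_out_of_conn {S W : Set (ℤ × ℤ)} {a b c d : ℤ} (hS : S ⊆ tscBox a b c d) (hW : TscConn pvtbG4 W) (hd : Disjoint W S) (ht : ∃ t ∈ W, t ∉ tscBox a b c d) : W ⊆ pvtbOut S := by
  obtain ⟨t, htW, ht⟩ := ht
  intro z hz
  exact (pvtb_out_iff hS).2 ⟨t, ht, tsc_R_mono (fun x hx hxS => Set.disjoint_left.1 hd hx hxS) (hW z hz t htW)⟩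

theorem pvyl_div_step {k : ℤ} (hk : 0 < k) (x : ℤ) : (x + 1) / k = x / k ∨ (x + 1) / k = x / k + 1 := by
  obtain ⟨h1, h2⟩ := (pvtb_div_spec hk (x / k)).1 rfl
  by_cases h : x + 1 < k * (x / k) + k
  · exact Or.inl ((pvtb_div_spec hk (x / k)).2 ⟨by omega, h⟩)
  · refine Or.inr ((pvtb_div_spec hk (x / k + 1)).2 ?_)
    rw [mul_add, mul_one]
    constructor <;> omega

/-- the blocks of two neighbours are equal or neighbours -/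
theorem pvyl_adj_proj {k : ℤ} (hk : 0 < k) {u v : ℤ × ℤ} (h : pvtbG4.Adj u v) : ((u.1 / k, u.2 / k) : ℤ × ℤ) = (v.1 / k, v.2 / k) ∨ pvtbG4.Adj ((u.1 / k, u.2 / k) : ℤ × ℤ) (v.1 / k, v.2 / k) := by
  rw [pvtb_G4_adj] at h
  rw [pvtb_G4_adj]
  rcases h with ⟨h1, h2⟩ | ⟨h1, h2⟩ | ⟨h1, h2⟩ | ⟨h1, h2⟩
  · rcases pvyl_div_step hk u.1 with e | e
    · left; rw [h1, h2, e]
    · right; left; simp only; rw [h1, h2, e]; exact ⟨rfl, rfl⟩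
  · have hu : u.1 = v.1 + 1 := by omega
    rcases pvyl_div_step hk v.1 with e | e
    · left; rw [hu, h2, e]
    · right; right; left; simp only; rw [hu, h2, e]; exact ⟨by omega, rfl⟩
  · rcases pvyl_div_step hk u.2 with e | e
    · left; rw [h1, h2, e]
    · right; right; right; left; simp only; rw [h1, h2, e]; exact ⟨rfl, rfl⟩
  · have hu : u.2 = v.2 + 1 := by omega
    rcases pvyl_div_step hk v.2 with e | e
    · left; rw [hu, h1, e]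
    · right; right; right; right; simp only; rw [hu, h1, e]; exact ⟨rfl, by omega⟩

/-- a 4-path off the refinement projects to a 4-path off the set -/
theorem pvyl_R_proj {k : ℤ} (hk : 0 < k) {S : Set (ℤ × ℤ)} {u v : ℤ × ℤ} (h : TscR pvtbG4 (pvrcRef k S)ᶜ u v) : TscR pvtbG4 Sᶜ (u.1 / k, u.2 / k) (v.1 / k, v.2 / k) := by
  induction h with
  | refl => exact tsc_R_refl _
  | @tail b c _ hbc ih =>
    rcases pvyl_adj_proj hk hbc.1 with e | e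
    · rwa [← e]
    · exact tsc_R_trans ih (tsc_R_step e hbc.2.1 hbc.2.2)

/-- the refinement of a finite set is finite -/
theorem pvyl_ref_finite {k : ℤ} (hk : 0 < k) {B : Set (ℤ × ℤ)} (hB : B.Finite) : (pvrcRef k B).Finite := by
  have : pvrcRef k B = ⋃ p ∈ B, pvrcRef k {p} := by
    ext c
    simp only [Set.mem_iUnion, exists_prop]
    constructor
    · intro h
      exact ⟨_, h, rfl⟩
    · rintro ⟨p, hp, h⟩
      have h' : ((c.1 / k, c.2 / k) : ℤ × ℤ) = p := h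
      show ((c.1 / k, c.2 / k) : ℤ × ℤ) ∈ B
      rwa [h']
  rw [this]
  refine hB.biUnion fun p _ => ?_
  rw [pvrc_block hk]
  exact tsc_box_finite _ _ _ _

/-- **the holes of the menu level are holes of the refined level** -/
theorem pvyl_ref_hull {k : ℤ} (hk : 0 < k) (S : Set (ℤ × ℤ)) : pvrcRef k (pvtbHull S) ⊆ pvtbHull (pvrcRef k S) := by
  intro p hp hout
  apply hp
  intro B hB
  obtain ⟨t, ht, h⟩ := hout (pvrcRef k B) (pvyl_ref_finite hk hB)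
  exact ⟨(t.1 / k, t.2 / k), ht, pvyl_R_proj hk h⟩

variable {𝔑 : PvmnNum} {τ : PvmnType} {ap am : ℤ × ℤ}

/-- **`E⁺` and the exit ray lie OUTSIDE the body** -/
theorem pvyl_Ep_out (hN : PvmnNumOK 𝔑) (hτ : PvmnIsType 𝔑 τ) (hWP : 𝔑.nW ≤ 𝔑.nP) (hA : PvlzAcc 𝔑 τ ap am) : pvfjmEp τ ∪ pvlzRay (τ.q 10) ap ⊆ pvtbOut (pvfjmB 𝔑 τ) := by
  obtain ⟨w, hw, hwb⟩ := pvlz_ray_out (q := τ.q 10) hA.ap_dir (𝔑.nBx + 8)
  exact pvyl_out_of_conn (pvfjm_B_box hN hτ) (tsc_conn_union (pvfjm_Ep_conn τ) (pvlz_ray_conn hA.ap_dir) (pvfjm_Ep_tip hτ hWP) (pvlz_ray_start _ _) (Or.inl rfl))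
    (Set.disjoint_union_left.2 ⟨pvfjm_Ep_off_B hτ, hA.rp_B⟩) ⟨w, Or.inr hw, hwb⟩

/-- **`E⁻` and the entrance ray lie OUTSIDE the body** -/
theorem pvyl_Em_out (hN : PvmnNumOK 𝔑) (hτ : PvmnIsType 𝔑 τ) (hWP : 𝔑.nW ≤ 𝔑.nP) (hA : PvlzAcc 𝔑 τ ap am) : pvfjmEm τ ∪ pvlzRay (τ.q 0) am ⊆ pvtbOut (pvfjmB 𝔑 τ) := by
  obtain ⟨w, hw, hwb⟩ := pvlz_ray_out (q := τ.q 0) hA.am_dir (𝔑.nBx + 8)
  exact pvyl_out_of_conn (pvfjm_B_box hN hτ) (tsc_conn_union (pvfjm_Em_conn τ) (pvlz_ray_conn hA.am_dir) (pvfjm_Em_tip hτ hWP) (pvlz_ray_start _ _) (Or.inl rfl))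
    (Set.disjoint_union_left.2 ⟨pvfjm_Em_off_B hτ, hA.rm_B⟩) ⟨w, Or.inr hw, hwb⟩

/-- a set outside `S`: its refinement is outside the refinement of `S` -/
theorem pvyl_ref_out {k : ℕ} (hk : 0 < k) {S W : Set (ℤ × ℤ)} {n : ℕ} (hS : S ⊆ pvmnBox n) (hW : TscConn pvtbG4 W) (hd : Disjoint W S) (ht : ∀ j : ℕ, ∃ t ∈ W, t ∉ pvmnBox j) :
    pvrcRef (k : ℤ) W ⊆ pvtbOut (pvrcRef (k : ℤ) S) := by
  have hk' : (0 : ℤ) < (k : ℤ) := by exact_mod_cast hk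
  obtain ⟨t, htW, ht⟩ := ht (k * (n + 1))
  refine pvyl_out_of_conn (pvrc_ref_box hk hS) (pvrc_conn4 hk' hW) (pvrc_ref_disj hd) ⟨((k : ℤ) * t.1, (k : ℤ) * t.2), ?_, ?_⟩
  · show (((k : ℤ) * t.1) / (k : ℤ), ((k : ℤ) * t.2) / (k : ℤ)) ∈ W
    rw [Int.mul_ediv_cancel_left _ hk'.ne', Int.mul_ediv_cancel_left _ hk'.ne']
    exact htW
  · intro hb
    apply ht
    obtain ⟨b1, b2, b3, b4⟩ := hb
    simp only at b1 b2 b3 b4
    have hk1 : (1 : ℤ) ≤ (k : ℤ) := hk'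
    have e : (((k * (n + 1) : ℕ) : ℤ)) = (k : ℤ) * ((n : ℤ) + 1) := by push_cast; ring
    rw [e] at b1 b2 b3 b4
    have c1 : -((n : ℤ) + 1) ≤ t.1 := by
      by_contra hc
      have hc' := not_le.1 hc
      nlinarith
    have c2 : t.1 ≤ (n : ℤ) + 1 := by
      by_contra hc
      have hc' := not_le.1 hc
      nlinarith
    have c3 : -((n : ℤ) + 1) ≤ t.2 := by
      by_contra hc
      have hc' := not_le.1 hc
      nlinarith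
    have c4 : t.2 ≤ (n : ℤ) + 1 := by
      by_contra hc
      have hc' := not_le.1 hc
      nlinarith
    refine ⟨?_, ?_, ?_, ?_⟩ <;> rw [e] <;> nlinarith

/-- **the blocks of the cells of ANY set `X` of coarse cells whose fattening lies in `pvytFull` and which contains no front are body cells** -/
theorem pvyl_block_gen {T : Type} {mm : ℤ} (hm : 4 ≤ mm) {𝔉 : PvfjPlug T} (hW : 𝔉.WF) (c : ℤ × ℤ) {t : T} {X : Set (ℤ × ℤ)} (hX : pvtbD (2 * mm + 1) (mm + 9) (pvfjSh c X) ⊆ pvytFull 𝔉 mm c t)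
    (fp : 𝔉.yp t + 𝔉.dp t ∉ X) (fm : 𝔉.ym t + 𝔉.dm t ∉ X) : pvytSh mm '' pvtbD (2 * mm + 1) mm (pvfjSh c X) ⊆ pvytBody 𝔉 mm c t := by
  refine Set.image_mono fun v hv => ⟨hX (pvtb_D_mono (by omega) le_rfl hv), ?_⟩
  obtain ⟨p, ⟨b, hb, rfl⟩, h1, h2, h3, h4⟩ := hv
  rintro (rfl | rfl)
  · have this : b + c = 𝔉.yp t + c + 𝔉.dp t := pvyl_tip_block hm (hW.dp_dir t) h1 h2 h3 h4
    apply fp
    have e : 𝔉.yp t + 𝔉.dp t = b := by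
      have : b + c = 𝔉.yp t + 𝔉.dp t + c := by rw [this]; abel
      exact (add_right_cancel this).symm
    rwa [e]
  · have this : b + c = 𝔉.ym t + c + 𝔉.dm t := pvyl_tip_block hm (hW.dm_dir t) h1 h2 h3 h4
    apply fm
    have e : 𝔉.ym t + 𝔉.dm t = b := by
      have : b + c = 𝔉.ym t + 𝔉.dm t + c := by rw [this]; abel
      exact (add_right_cancel this).symm
    rwa [e]

theorem pvyl_pl_gen {T : Type} {mm : ℤ} (hm : 4 ≤ mm) {𝔉 : PvfjPlug T} (hW : 𝔉.WF) {δ : ℝ} (hδ : 0 < δ) (c : ℤ × ℤ) {t : T} {X : Set (ℤ × ℤ)} (hX : pvtbD (2 * mm + 1) (mm + 9) (pvfjSh c X) ⊆ pvytFull 𝔉 mm c t)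
    (fp : 𝔉.yp t + 𝔉.dp t ∉ X) (fm : 𝔉.ym t + 𝔉.dm t ∉ X) :
    pvmgPl (pvmgPt ((2 * (mm : ℝ) + 1) * δ) c) ((2 * (mm : ℝ) + 1) * δ) X ⊆ pvtU δ (pvytBody 𝔉 mm c t) := by
  rw [pvrc_pl, pvyl_U_D (by omega) hδ]
  exact pvyt_U_mono δ (pvyl_block_gen hm hW c hX fp fm)

variable {𝔤 : PvmhNum}

/-- **the two fronts of the plugs of record of level `m` lie off the HULL of the body** -/
theorem pvyl_fronts_hull (H : 𝔤.OK) (c : ℝ) (m : ℕ) (t : PvmhT 𝔤) :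
    (pvrcPL c (pvrsPL 𝔤) m).yp t + (pvrcPL c (pvrsPL 𝔤) m).dp t ∉ pvtbHull ((pvrcPL c (pvrsPL 𝔤) m).B t) ∧ (pvrcPL c (pvrsPL 𝔤) m).ym t + (pvrcPL c (pvrsPL 𝔤) m).dm t ∉ pvtbHull ((pvrcPL c (pvrsPL 𝔤) m).B t) := by
  have hWP : 𝔤.NN.nW ≤ 𝔤.NN.nP := by have := pvmh_bars H; omega
  obtain ⟨ap, am, hA⟩ := pvma_lz t.acc
  obtain ⟨f1, f2⟩ := pvyl_front_ref (pvrs_PL_wf H) (pvlm_N_pos c m) t
  have g1 : (pvrsPL 𝔤).yp t + (pvrsPL 𝔤).dp t ∈ pvfjmEp t.typ := pvfjm_front_p hWP (fun t => t.isType) t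
  have g2 : (pvrsPL 𝔤).ym t + (pvrsPL 𝔤).dm t ∈ pvfjmEm t.typ := pvfjm_front_m hWP (fun t => t.isType) t
  have o1 : pvrcRef (pvlmN c m : ℤ) (pvfjmEp t.typ ∪ pvlzRay (t.typ.q 10) ap) ⊆ pvtbOut (pvrcRef (pvlmN c m : ℤ) (pvfjmB 𝔤.NN t.typ)) :=
    pvyl_ref_out (pvlm_N_pos c m) (pvfjm_B_box (pvmh_numOK H) t.isType) (tsc_conn_union (pvfjm_Ep_conn _) (pvlz_ray_conn hA.ap_dir) (pvfjm_Ep_tip t.isType hWP) (pvlz_ray_start _ _) (Or.inl rfl))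
      (Set.disjoint_union_left.2 ⟨pvfjm_Ep_off_B t.isType, hA.rp_B⟩) (fun j => by
        obtain ⟨w, hw, hwb⟩ := pvlz_ray_out (q := t.typ.q 10) hA.ap_dir j
        exact ⟨w, Or.inr hw, hwb⟩)
  have o2 : pvrcRef (pvlmN c m : ℤ) (pvfjmEm t.typ ∪ pvlzRay (t.typ.q 0) am) ⊆ pvtbOut (pvrcRef (pvlmN c m : ℤ) (pvfjmB 𝔤.NN t.typ)) :=
    pvyl_ref_out (pvlm_N_pos c m) (pvfjm_B_box (pvmh_numOK H) t.isType) (tsc_conn_union (pvfjm_Em_conn _) (pvlz_ray_conn hA.am_dir) (pvfjm_Em_tip t.isType hWP) (pvlz_ray_start _ _) (Or.inl rfl))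
      (Set.disjoint_union_left.2 ⟨pvfjm_Em_off_B t.isType, hA.rm_B⟩) (fun j => by
        obtain ⟨w, hw, hwb⟩ := pvlz_ray_out (q := t.typ.q 0) hA.am_dir j
        exact ⟨w, Or.inr hw, hwb⟩)
  exact ⟨fun h => h (o1 (pvrc_ref_mono (Set.singleton_subset_iff.2 (Or.inl g1)) f1)), fun h => h (o2 (pvrc_ref_mono (Set.singleton_subset_iff.2 (Or.inl g2)) f2))⟩

/-- **MENU CELLS OF THE HULL OF THE BODY, PLACED, LIE IN THE CLOSED FINE CELLS OF THE BODY**      (`hF` := `Subset.rfl` after the swap of 183) -/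
theorem pvyl_pl_hull (H : 𝔤.OK) (c : ℝ) (m : ℕ) (a : ℤ × ℤ) (t : PvmhT 𝔤)
    (hF : pvtbD (2 * (pvrsNum 𝔤).mm + 1) ((pvrsNum 𝔤).mm + 9) (pvfjSh a (pvtbHull ((pvrcPL c (pvrsPL 𝔤) m).B t))) ⊆ pvytFull (pvrcPL c (pvrsPL 𝔤) m) (pvrsNum 𝔤).mm a t)
    {S : Set (ℤ × ℤ)} (hS : S ⊆ pvtbHull (pvfjmB 𝔤.NN t.typ)) :
    pvmgPl (pvmgPt ((pvrsNum 𝔤).dc c m) a) (𝔤.dl * pvlmH m) S ⊆
      pvtU ((pvrsNum 𝔤).dc c m / (2 * ((pvrsNum 𝔤).mm : ℝ) + 1)) (pvytBody (pvrcPL c (pvrsPL 𝔤) m) (pvrsNum 𝔤).mm a t) := by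
  obtain ⟨fp, fm⟩ := pvyl_fronts_hull H c m t
  have h0 := pvrc_dc_pos (pvrs_rel H).ok c m
  have hk : (0 : ℝ) < 2 * ((pvrsNum 𝔤).mm : ℝ) + 1 := by
    show (0 : ℝ) < 2 * ((10 : ℤ) : ℝ) + 1
    norm_num
  have e : (pvrsNum 𝔤).dc c m = (2 * ((pvrsNum 𝔤).mm : ℝ) + 1) * ((pvrsNum 𝔤).dc c m / (2 * ((pvrsNum 𝔤).mm : ℝ) + 1)) := by
    field_simp
  have key := pvyl_pl_gen (mm := (pvrsNum 𝔤).mm) (by show (4 : ℤ) ≤ 10; norm_num) ((pvrs_PL_wf H).ref (pvlm_N_pos c m)) (div_pos h0 hk) a hF fp fm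
  rw [← e] at key
  refine Subset.trans ?_ key
  rw [pvyl_menu_coarse H c m]
  exact pvmg_mono ((pvrc_ref_mono hS).trans (pvyl_ref_hull (by exact_mod_cast pvlm_N_pos c m) _))

end hull

end Claimed.Agent.R289
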