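-- KEEP
import Claimed.Agent.R289.Exit.GeoP
import Claimed.Agent.R289.Exit.LayP
import Claimed.Agent.R289.Tr.LinkBig

/-!
# Row 289 (S0537, Cardy for Poisson-Voronoi), THE WALL, ROAD P, Exit/FunP : THE SUB-ROOF (FUNNELS `o i`) `PveqOiSt c H` OF `Exit/GeoP.lean`, THE TOP      (pen helper135, posts XII of 243, P16bis of 273; prefix `pvop_`, `pvop`, `Pvop`, `exit_pvop_`)

THE TEAM.   cells of `o` : 8 `Tr/FunC.lean`;   cells of `i` : 20 / 241 `Tr/FunCI.lean`;   big ends at any mesh : 203 `Tr/LinkBig.lean` (`pvlkg_bigP_k`, `pvlkg_bigM_k`);   door record + glue `⟹ PvlktPoly` : 203 `Tr/LinkDoor.lean` over 15 `Tr/LinkGeoU.lean`;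
H5 (`PvvwDet`, `mesh vs vt ms0 zc`) : 275 `Exit/DetEndP.lean`;   `pl` : 138 `Exit/LayP.lean`, 183, 169 `Exit/KinP.lean`;   `r` : 294 `Exit/FunRP.lean`, 114 `Tr/LinkFunR.lean`.
THREE SCALES AT THE LEVEL `m`.   menu cell `D = dl h_m`;   coarse pattern cell `dc = D / N`, `N = pvlmN c m ≥ 1` (VARIABLE);   fine cell `δ_m = dc / 21 = pveqDel c 𝔤 m`;   unit of the door plug `r = δ_m / 40`;
**MESH OF THE FUNNELS `u = δ_m / 320`** (`r = 8 u`);   `κ = D / u = 6720 N`;   `z = l9Pt h p = pvmgPt u o`, `o = nd κ p`;   `M = pvgwDiv κ o` : link cell ↦ menu cell.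
DOOR.   `(y, d) = pvfjmDp τ` (menu), `y' = pvrcDoor N y d` (middle small cell of the side `d` of `y`), DOOR VERTEX `p₀ = o + 6720 y' + (3360, 3360) + 6240 d` (link units): it lies `2880 u` beyond the face of `y`, in the menu cell `y + d`.
In the frame of the door plug (unit `u`): door square `(-26,26)²`;   black room off the square: side cells `26 .. 40`, rows `3 .. 12`, white room rows `-13 .. -4`;   hook box of 15: side cell `28`;   window: side `< 44`, `|y| < 20`.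
* sec. 1  THE SEAM AT THE TERM: the ends of `(pveqT c b q Λ).lo .li` at `pveqP c H m0` are the ends of the MODEL (`pvopEP pvopEM pvopED`: no `b q ε m0`).
* sec. 2  **`PvopCand`** = what the pens of the cells owe at a black candidate, MODEL LEVEL;   **`pvop_oi_of`** : `PvopCand` everywhere `⟹ PveqOiSt c H` (GeoP v4; the funnel `r` = `PveqRSt`, 294).
* sec. 3  the numbers of the level `m` : `pvopU`, `pvopKap`, `pvopO`, `pvopP0`;   `pvop_z_eq`, `pvop_D_eq`, `pvop_door_o`, `pvop_door_i`.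
-/

set_option autoImplicit false
set_option linter.unusedSectionVars false
set_option linter.unusedVariables false

namespace Claimed.Agent.R289

open MeasureTheory Filter Topology Set Metric Claims.C0465 Claimed.Agent.R291
open scoped ENNReal

/-! ## 1. the seam at the term -/

section seam

variable {𝔤 : PvmhNum}

/-- the EXIT end of the big plug of the candidate, at the model -/
noncomputable abbrev pvopEP (𝔤 : PvmhNum) (m : ℕ) (z : ℂ) (t : PvmhT 𝔤) : PvnkEnd := pvfvEndP 𝔤.sp (𝔤.ty (pvlmH m) z t) z (pvlmH m)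

/-- the ENTRANCE end of the big plug of the candidate, at the model -/
noncomputable abbrev pvopEM (𝔤 : PvmhNum) (m : ℕ) (z : ℂ) (t : PvmhT 𝔤) : PvnkEnd := pvfvEndM 𝔤.sp (𝔤.ty (pvlmH m) z t) z (pvlmH m)

/-- the end of side `σ` of the BLACK door plug at `(z, d)` -/
noncomputable abbrev pvopED (c : ℝ) (𝔤 : PvmhNum) (m : ℕ) (σ : Bool) (z d : ℂ) : PvnkEnd := pvyeEnd (pvyeE0 pvkgG.toPvkdPlug pvk2T pvkgG.O₀ σ) true z (d * pveqDel c 𝔤 m)

variable (c : ℝ) (H : PvrzGood 𝔤) (b q : ℝ≥0∞) (Λ : PveqLk (PvmhT 𝔤)) (m0 m : ℕ) (ε : ℝ) (z : ℂ) (t : PvmhT 𝔤)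

theorem pvop_ty : (pveqP c H m0).ty m z t = 𝔤.ty (pvlmH m) z t := rfl

theorem pvop_EP : pvydEP (pveqP c H m0) m z t = pvopEP 𝔤 m z t := rfl

theorem pvop_EM : pvydEM (pveqP c H m0) m z t = pvopEM 𝔤 m z t := rfl

/-- the door ends of the term -/
theorem pvop_eD (σ : Bool) (w d : ℂ) : (pveqT c b q Λ).eD true m ε σ w d = pvopED c 𝔤 m σ w d := by
  have hO : pvthSim w d '' ((pveqT c b q Λ).kit m ε).O₀ = (pvopED c 𝔤 m σ w d).O := by
    show pvthSim w d '' (pvthSim 0 (pveqDel c 𝔤 m) '' pvkgG.O₀) = _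
    rw [pvbe_sc_reg]
    rfl
  unfold PvydGeo.eD pvydEnd
  rw [hO, pveq_en]

end seam

/-! ## 2. what the pens of the cells owe -/

/-- the bound of the lengths may grow -/
theorem pvop_ok_mono {𝔡 : PvvwLd} {w : PvydWalk} {e e' : PvnkEnd} {Z Z' V V' : Set ℂ} {n n' : ℕ} (h : 𝔡.Ok w e e' Z Z' V V' n) (hn : n ≤ n') : 𝔡.Ok w e e' Z Z' V V' n' :=
  { h with len := ⟨h.len.1.trans hn, h.len.2.trans hn⟩ }

section top

variable {𝔤 : PvmhNum} (c : ℝ) (H : PvrzGood 𝔤)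

/-- **WHAT THE PENS OF THE CELLS OF `o i` OWE AT THE BLACK CANDIDATE `(m, z, t)`, MODEL LEVEL** (no `b q ε m0`): the two contracts of 270 at the ends of the model, the regions of 138 -/
structure PvopCand (n m : ℕ) (z : ℂ) (t : PvmhT 𝔤) (𝔬 𝔦 : PvvwLd) : Prop where
  o : 𝔬.Ok 𝔬.D.walk (pvopEP 𝔤 m z t) (pvopED c 𝔤 m false (z + (pvmaGam H.ok c m).pout t) ((pvmaGam H.ok c m).dout t))
    (pvvwZt (pveqP c H 0) m z t) (pvvwZk (pveqPd c 𝔤 m) (z + (pvmaGam H.ok c m).pout t) ((pvmaGam H.ok c m).dout t))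
    (pvvwVm (pveqP c H 0) m z t) (pvvwVk (pveqPd c 𝔤 m) (z + (pvmaGam H.ok c m).pout t) ((pvmaGam H.ok c m).dout t) false) n
  i : 𝔦.Ok 𝔦.D.walk (pvopED c 𝔤 m true (z + (pvmaGam H.ok c m).pin t) ((pvmaGam H.ok c m).din t)) (pvopEM 𝔤 m z t)
    (pvvwZk (pveqPd c 𝔤 m) (z + (pvmaGam H.ok c m).pin t) ((pvmaGam H.ok c m).din t)) (pvvwZt (pveqP c H 0) m z t)
    (pvvwVk (pveqPd c 𝔤 m) (z + (pvmaGam H.ok c m).pin t) ((pvmaGam H.ok c m).din t) true) (pvvwVp (pveqP c H 0) m z t) n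
  /-- the blocks of the lanes and the window of the corridor of `o` live in the body and in the last cell of the exit nozzle, off the square of the door -/
  pl_o : ∀ a : ℤ × ℤ, pvmgPt ((pvrsNum 𝔤).dc c m) a = z → pvtU 𝔬.D.δ (pvtwN 1 (𝔬.D.W₁ ∪ 𝔬.D.W₂)) ∪ 𝔬.D.Et ⊆
    pvylAo (pvrcPL c (pvrsPL 𝔤) m) (pvrsNum 𝔤).mm ((pvrsNum 𝔤).dc c m) ((pvrsNum 𝔤).dc c m / (2 * ((pvrsNum 𝔤).mm : ℝ) + 1)) a t
  pl_i : ∀ a : ℤ × ℤ, pvmgPt ((pvrsNum 𝔤).dc c m) a = z → pvtU 𝔦.D.δ (pvtwN 1 (𝔦.D.W₁ ∪ 𝔦.D.W₂)) ∪ 𝔦.D.Et ⊆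
    pvylAi (pvrcPL c (pvrsPL 𝔤) m) (pvrsNum 𝔤).mm ((pvrsNum 𝔤).dc c m) ((pvrsNum 𝔤).dc c m / (2 * ((pvrsNum 𝔤).mm : ℝ) + 1)) a t

/-- **(FUNNELS `o i`), AS A STATEMENT, MODEL LEVEL** -/
def PvopOISt : Prop := ∃ (m1 : ℕ) (Lo Li : ℕ → ℂ → PvmhT 𝔤 → PvvwLd) (n : ℕ → ℕ),
  ∀ m, m1 ≤ m → ∀ (p : ℤ × ℤ) (t : PvmhT 𝔤), t.typ.col = true → PvopCand c H (n m) m (l9Pt (pvlmH m) p) t (Lo m (l9Pt (pvlmH m) p) t) (Li m (l9Pt (pvlmH m) p) t)

theorem pvop_eqns_cite : True := by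
  have := @pvopEP.eq_1; have := @pvopEM.eq_1; have := @pvopED.eq_1; have := @PvopOISt.eq_1
  trivial

variable {c H}

/-- the windows of the blocks of a lane of record -/
theorem pvop_lnW₁ {𝔡 : PvvwLd} {w : PvydWalk} {e e' : PvnkEnd} {Z Z' V V' : Set ℂ} {n : ℕ} (h : 𝔡.Ok w e e' Z Z' V V' n) : pvlnW 𝔡.D.walk.δ 𝔡.D.walk.L₁ ⊆ pvtU 𝔡.D.δ (pvtwN 1 (𝔡.D.W₁ ∪ 𝔡.D.W₂)) := by
  refine (pvn2_lnW_sub h.ok.δ0 _).trans (pvt_U_mono ?_)
  show pvtwN 1 {k | k ∈ pvn2Walk 𝔡.D.W₁} ⊆ _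
  rw [h.ok.wk₁.2.2.2]
  exact pvtw_N_mono le_rfl subset_union_left

theorem pvop_lnW₂ {𝔡 : PvvwLd} {w : PvydWalk} {e e' : PvnkEnd} {Z Z' V V' : Set ℂ} {n : ℕ} (h : 𝔡.Ok w e e' Z Z' V V' n) : pvlnW 𝔡.D.walk.δ 𝔡.D.walk.L₂ ⊆ pvtU 𝔡.D.δ (pvtwN 1 (𝔡.D.W₁ ∪ 𝔡.D.W₂)) := by
  refine (pvn2_lnW_sub h.ok.δ0 _).trans (pvt_U_mono ?_)
  show pvtwN 1 {k | k ∈ pvn2Walk 𝔡.D.W₂} ⊆ _
  rw [h.ok.wk₂.2.2.2]
  exact pvtw_N_mono le_rfl subset_union_right

/-- **THE TOP**: the statement at the model gives the sub-roof (FUNNELS `o i`) `PveqOiSt` of `Exit/GeoP.lean` (v4: abstract link data `PvvwLa` of 270; the cell data enter by `PvvwLd.toLa`) -/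
theorem pvop_oi_of (hOI : PvopOISt c H) : PveqOiSt c H := by
  obtain ⟨a1, Lo, Li, n1, h1⟩ := hOI
  refine ⟨a1, fun m z t => (Lo m z t).toLa, fun m z t => (Li m z t).toLa, n1, ?_⟩
  intro b q Λ e1 e2
  have eo : ∀ m z t, Λ.Lo m z t = (Lo m z t).toLa := fun m z t => by rw [e1]
  have ei : ∀ m z t, Λ.Li m z t = (Li m z t).toLa := fun m z t => by rw [e2]
  refine ⟨?_, ?_⟩
  · intro m0 m hm p t hb
    refine ⟨rfl, rfl, Eventually.of_forall fun ε => ?_, Eventually.of_forall fun ε => ?_⟩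
    · rw [eo, hb, pvop_eD]
      exact (h1 m hm p t hb).o.toLa
    · rw [ei, hb, pvop_eD]
      exact (h1 m hm p t hb).i.toLa
  · rintro m0 m hm a t ⟨p, hp⟩ hb
    refine Eventually.of_forall fun ε => ?_
    have K := h1 m hm p t (by rw [hp] at hb; exact hb)
    rw [← hp] at K
    have wo : (pveqT c b q Λ).wo m (pvmgPt ((pvrsNum 𝔤).dc c m) a) t = (Lo m (pvmgPt ((pvrsNum 𝔤).dc c m) a) t).D.walk := by
      show (Λ.Lo m _ t).w = _
      rw [eo]; rfl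
    have wi : (pveqT c b q Λ).wi m (pvmgPt ((pvrsNum 𝔤).dc c m) a) t = (Li m (pvmgPt ((pvrsNum 𝔤).dc c m) a) t).D.walk := by
      show (Λ.Li m _ t).w = _
      rw [ei]; rfl
    refine pvyl_pl_model H (pvma_doors H.ok c m) a t (by show pveqDel c 𝔤 m * 1 = _; rw [mul_one]; rfl) rfl (fun s z d => by cases s <;> rfl) ?_ ?_ ?_ ?_ ?_ ?_
    · rw [wo]; exact (pvop_lnW₁ K.o).trans (subset_union_left.trans (K.pl_o a rfl))
    · rw [wo]; exact (pvop_lnW₂ K.o).trans (subset_union_left.trans (K.pl_o a rfl))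
    · rw [wo]; exact subset_union_right.trans (K.pl_o a rfl)
    · rw [wi]; exact (pvop_lnW₁ K.i).trans (subset_union_left.trans (K.pl_i a rfl))
    · rw [wi]; exact (pvop_lnW₂ K.i).trans (subset_union_left.trans (K.pl_i a rfl))
    · rw [wi]; exact subset_union_right.trans (K.pl_i a rfl)

end top

/-! ## 9. the exits -/

section exits

variable {𝔤 : PvmhNum} {c : ℝ}

/-- **(FUNNELS `o i`)**      [8 20 241 (cells), 203 (big ends, door record, glue), 275 (H5), 138 183 169 (regions), 135 (numbers of the level, assembly)] -/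
theorem exit_pvop_oi (c0 : 0 < c) (H : PvrzGood 𝔤) : PvopOISt c H := by
  sorry

/-- **THE SUB-ROOF (FUNNELS `o i`)** = `exit_pveq_oi` of `Exit/GeoTP.lean` -/
theorem pvop_oi (c0 : 0 < c) (H : PvrzGood 𝔤) : PveqOiSt c H := pvop_oi_of (exit_pvop_oi c0 H)

end exits

end Claimed.Agent.R289
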