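-- KEEP
import Claimed.Agent.R289.Tr.LinkGeoU
import Claimed.Agent.R289.Tr.SideOpen
import Claimed.Agent.R289.Tr.FrcLay
import Claimed.Agent.R289.Tr.ForceQ
import Claimed.Agent.R289.Tr.RegT
import Claimed.Agent.R289.Tr.LinkGam
import Claimed.Agent.R289.Exit.GeoWP
import Claimed.Agent.R289.Exit.GeoP

/-!
# Row 289 (S0537), THE WALL, ROAD P, Exit/FunRP : **THE FUNNEL `r`** = the link  door `(pin0, din0 = 1)` → WEST door of the reference plug `u`, REFERENCE FRAME      (pen helper294, post P18 of 273; prefix `pvir_`, `pvir`, `Pvir`)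

THE PICTURE.   Two kit plugs heading EAST: the door plug (unit `Rd = r δ_m`) at `(xd, yd)`, the reference plug (unit `Ru = r su_m` = one menu cell) at `0`.      NOT COAXIAL: `xd = -(8 Ru + 9 δ_m)`, `Ru/2 ≤ yd ≤ 3Ru/4`.
NO ALIGNMENT, NO INTEGRALITY: the link cells have ANY mesh `l`, `32 l ≤ Rd`; a net = the cells which lie INSIDE real rectangles (`pvirCl` = a rectangle of cells through floors and ceilings).
* black net: thin lane `[xd + 27Rd/8, -27Ru/8] × (yd + [Rd/4, 7Rd/4])` ∪ bar `[-15Ru/4, -27Ru/8] × [Ru/4, 7Ru/4]`;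
* white net: thin lane `[xd + 27Rd/8, -13Ru/2] × (yd - [Rd/4, 7Rd/4])` ∪ descent `[-7Ru, -13Ru/2] × [-7Ru/4, yd - Rd/4]` ∪ fat lane `[-7Ru, -27Ru/8] × [-7Ru/4, -Ru/4]`;
* zones of the mixed order: above / below the step function `yd` (`x < -6Ru`), `0` (`x ≥ -6Ru`);
* window of the corridor `Et = [xd, 0] × [-3Ru, 3Ru]` minus the two open door squares, guard = mesh `μ` (`16 μ ≤ Rd`);
* room of the lanes `KE = [xd + Rd/4, -Ru/4] × (yd ± 2Rd) ∪ [-29Ru/4, -Ru/4] × [-2Ru, 2Ru]` (star convex: `pvrt_star`).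
THE FOUR HOOK ZONES AND `Rooms` = H2 of 15 (`Tr/LinkGeoU`).      TRUNCATION GENERIC (`PvirTr`: rooms, targets of `pvjoT r`; windows between boxes): `pvk2T` of 125 fits (`pvir_tr_k2`).
OUTPUT (`D : PvirDat`, `H : D.Ok`, ends `D.eD`, `D.eU`): `pvir_geo` (`PvnkLink.Geo`), `pvir_rooms`, `pvir_win`, `pvir_off`, `pvir_lim`, `pvir_len`, **`pvir_lay`** (`PvnlLay` of 272 at `ms = [(Rd/16, E_d), (μ, Et), (Ru/16, E_u)]`, mask `univ`), `pvir_Kp` (the planar region read by the link).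
sec. 10-11 (15:35Z): THE ABSTRACT CONTRACT OF 270 (`Exit/GeoWP` sec. 3 bis): `pvirA`, **`pvir_la : PvvwLa.Ok`** (`pvir_KE_meas pvir_mesh pvir_dvs pvir_dvt pvir_ms0`, `zc far` by 270's `pvvw_zc_kit pvvw_zc pvvw_far`);   data of record `pvirLr 𝔑r c m`, **`PvirIs.R : PvvwR`**.
sec. 12 (15:50Z): the term of 36 (`Exit/GeoP` v4): `pvir_is_term`, `PvirIs.rK` (the rectangle of `K_r`, words of 58 / 4), **`pvir_RSt : PveqRSt c H`** = `exit_pveq_r` of `Exit/GeoTP`.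
-/

set_option autoImplicit false
set_option linter.unusedSectionVars false
set_option linter.unusedVariables false
set_option linter.unusedSimpArgs false

namespace Claimed.Agent.R289

open MeasureTheory Set Filter Topology Metric

/-! ## 1. the cells inside a real rectangle -/

/-- **the cells of mesh `l` which lie inside the closed rectangle `[x0,x1] × [y0,y1]`** -/
noncomputable def pvirCl (l x0 x1 y0 y1 : ℝ) : Set (ℤ × ℤ) := pvufR ⌈x0 / l⌉ (⌊x1 / l⌋ - 1) ⌈y0 / l⌉ (⌊y1 / l⌋ - 1)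

theorem pvir_eqns_cite : True := by
  have := @pvirCl.eq_1
  trivial

section cells

variable {l x0 x1 y0 y1 : ℝ} {k : ℤ × ℤ}

theorem pvir_cl_iff (hl : 0 < l) : k ∈ pvirCl l x0 x1 y0 y1 ↔ x0 ≤ (k.1 : ℝ) * l ∧ ((k.1 : ℝ) + 1) * l ≤ x1 ∧ y0 ≤ (k.2 : ℝ) * l ∧ ((k.2 : ℝ) + 1) * l ≤ y1 := by
  have e1 : ∀ (x : ℝ) (n : ℤ), ⌈x / l⌉ ≤ n ↔ x ≤ (n : ℝ) * l := fun x n => by rw [Int.ceil_le, div_le_iff₀ hl]
  have e2 : ∀ (x : ℝ) (n : ℤ), n ≤ ⌊x / l⌋ - 1 ↔ ((n : ℝ) + 1) * l ≤ x := fun x n => by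
    rw [show n ≤ ⌊x / l⌋ - 1 ↔ n + 1 ≤ ⌊x / l⌋ by omega, Int.le_floor, le_div_iff₀ hl]
    push_cast
    rfl
  show ⌈x0 / l⌉ ≤ k.1 ∧ k.1 ≤ ⌊x1 / l⌋ - 1 ∧ ⌈y0 / l⌉ ≤ k.2 ∧ k.2 ≤ ⌊y1 / l⌋ - 1 ↔ _
  rw [e1, e2, e1, e2]

theorem pvir_cl_sub (hl : 0 < l) (h : k ∈ pvirCl l x0 x1 y0 y1) : pvlnC l k ⊆ rswRect x0 x1 y0 y1 := by
  obtain ⟨a1, a2, a3, a4⟩ := (pvir_cl_iff hl).1 h
  rintro w ⟨b1, b2, b3, b4⟩
  exact ⟨a1.trans b1, b2.trans a2, a3.trans b3, b4.trans a4⟩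

theorem pvir_cl_of (hl : 0 < l) (h : pvlnC l k ⊆ rswRect x0 x1 y0 y1) : k ∈ pvirCl l x0 x1 y0 y1 := by
  have l1 : (k.1 : ℝ) * l ≤ ((k.1 : ℝ) + 1) * l := by nlinarith
  have l2 : (k.2 : ℝ) * l ≤ ((k.2 : ℝ) + 1) * l := by nlinarith
  obtain ⟨a1, -, a3, -⟩ := h (show (⟨(k.1 : ℝ) * l, (k.2 : ℝ) * l⟩ : ℂ) ∈ pvlnC l k from ⟨le_rfl, l1, le_rfl, l2⟩)
  obtain ⟨-, a2, -, a4⟩ := h (show (⟨((k.1 : ℝ) + 1) * l, ((k.2 : ℝ) + 1) * l⟩ : ℂ) ∈ pvlnC l k from ⟨l1, le_rfl, l2, le_rfl⟩)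
  exact (pvir_cl_iff hl).2 ⟨a1, a2, a3, a4⟩

theorem pvir_cl_ne (hl : 0 < l) (hx : x0 + 2 * l ≤ x1) (hy : y0 + 2 * l ≤ y1) : (pvirCl l x0 x1 y0 y1).Nonempty := by
  have key : ∀ x : ℝ, x ≤ (⌈x / l⌉ : ℝ) * l ∧ ((⌈x / l⌉ : ℝ) + 1) * l ≤ x + 2 * l := by
    intro x
    have h1 := Int.le_ceil (x / l)
    have h2 := (Int.ceil_lt_add_one (x / l)).le
    rw [div_le_iff₀ hl] at h1
    have h3 : (⌈x / l⌉ : ℝ) * l ≤ (x / l + 1) * l := mul_le_mul_of_nonneg_right h2 hl.le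
    rw [add_mul, div_mul_cancel₀ _ hl.ne'] at h3
    exact ⟨h1, by linarith⟩
  exact ⟨(⌈x0 / l⌉, ⌈y0 / l⌉), (pvir_cl_iff hl).2 ⟨(key x0).1, (key x0).2.trans hx, (key y0).1, (key y0).2.trans hy⟩⟩

theorem pvir_cl_fin (l x0 x1 y0 y1 : ℝ) : (pvirCl l x0 x1 y0 y1).Finite := pvuf_R_finite _ _ _ _

theorem pvir_cl_conn (l x0 x1 y0 y1 : ℝ) : PvufConn (pvirCl l x0 x1 y0 y1) := pvuf_R_conn _ _ _ _

theorem pvir_cl_mono (hl : 0 < l) {x0' x1' y0' y1' : ℝ} (h1 : x0' ≤ x0) (h2 : x1 ≤ x1') (h3 : y0' ≤ y0) (h4 : y1 ≤ y1') : pvirCl l x0 x1 y0 y1 ⊆ pvirCl l x0' x1' y0' y1' := by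
  intro k hk
  obtain ⟨a1, a2, a3, a4⟩ := (pvir_cl_iff hl).1 hk
  exact (pvir_cl_iff hl).2 ⟨h1.trans a1, a2.trans h2, h3.trans a3, a4.trans h4⟩

/-- the window of a cell inside a rectangle -/
theorem pvir_cl_win (hl : 0 < l) (h : k ∈ pvirCl l x0 x1 y0 y1) : pvmSq (pvlnCtr l k) (l / 2 + 2 * (l / 2 / 8)) ⊆ rswRect (x0 - l / 8) (x1 + l / 8) (y0 - l / 8) (y1 + l / 8) := by
  obtain ⟨a1, a2, a3, a4⟩ := (pvir_cl_iff hl).1 h
  rintro w ⟨b1, b2⟩
  simp only [pvlnCtr] at b1 b2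
  rw [abs_le] at b1 b2
  exact ⟨by linarith [b1.1], by linarith [b1.2], by linarith [b2.1], by linarith [b2.2]⟩

end cells

/-! ## 2. placed rectangles and boxes (direction `1`, scale `s`) -/

section place

variable {s : ℝ} {z : ℂ}

theorem pvir_sim_re (z : ℂ) (s : ℝ) (w : ℂ) : (pvthSim z (1 * (s : ℂ)) w).re = z.re + s * w.re := by
  simp [pvthSim]

theorem pvir_sim_im (z : ℂ) (s : ℝ) (w : ℂ) : (pvthSim z (1 * (s : ℂ)) w).im = z.im + s * w.im := by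
  simp [pvthSim]

/-- membership in a placed set, in coordinates -/
theorem pvir_at_iff (hs : 0 < s) (z : ℂ) (S : Set ℂ) (p : ℂ) : p ∈ pvkdAt z (1 * (s : ℂ)) S ↔ (⟨(p.re - z.re) / s, (p.im - z.im) / s⟩ : ℂ) ∈ S := by
  constructor
  · rintro ⟨w, hw, rfl⟩
    rw [pvir_sim_re, pvir_sim_im]
    have e1 : (z.re + s * w.re - z.re) / s = w.re := by field_simp; ring
    have e2 : (z.im + s * w.im - z.im) / s = w.im := by field_simp; ring
    rw [e1, e2]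
    exact hw
  · intro h
    refine ⟨_, h, ?_⟩
    apply Complex.ext
    · rw [pvir_sim_re]
      show z.re + s * ((p.re - z.re) / s) = p.re
      field_simp
      ring
    · rw [pvir_sim_im]
      show z.im + s * ((p.im - z.im) / s) = p.im
      field_simp
      ring

theorem pvir_at_R (hs : 0 < s) (z : ℂ) (x0 x1 y0 y1 : ℝ) : pvkdAt z (1 * (s : ℂ)) (rswRect x0 x1 y0 y1) = rswRect (z.re + s * x0) (z.re + s * x1) (z.im + s * y0) (z.im + s * y1) := by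
  ext p
  rw [pvir_at_iff hs]
  show x0 ≤ (p.re - z.re) / s ∧ (p.re - z.re) / s ≤ x1 ∧ y0 ≤ (p.im - z.im) / s ∧ (p.im - z.im) / s ≤ y1 ↔ z.re + s * x0 ≤ p.re ∧ p.re ≤ z.re + s * x1 ∧ z.im + s * y0 ≤ p.im ∧ p.im ≤ z.im + s * y1
  rw [le_div_iff₀ hs, div_le_iff₀ hs, le_div_iff₀ hs, div_le_iff₀ hs]
  constructor
  · rintro ⟨a, b, c, d⟩
    exact ⟨by linarith, by linarith, by linarith, by linarith⟩
  · rintro ⟨a, b, c, d⟩
    exact ⟨by linarith, by linarith, by linarith, by linarith⟩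

theorem pvir_at_B (hs : 0 < s) (z : ℂ) (x0 x1 y0 y1 : ℝ) : pvkdAt z (1 * (s : ℂ)) (pvkgB x0 x1 y0 y1) = pvkgB (z.re + s * x0) (z.re + s * x1) (z.im + s * y0) (z.im + s * y1) := by
  ext p
  rw [pvir_at_iff hs]
  show x0 < (p.re - z.re) / s ∧ (p.re - z.re) / s < x1 ∧ y0 < (p.im - z.im) / s ∧ (p.im - z.im) / s < y1 ↔ z.re + s * x0 < p.re ∧ p.re < z.re + s * x1 ∧ z.im + s * y0 < p.im ∧ p.im < z.im + s * y1
  rw [lt_div_iff₀ hs, div_lt_iff₀ hs, lt_div_iff₀ hs, div_lt_iff₀ hs]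
  constructor
  · rintro ⟨a, b, c, d⟩
    exact ⟨by linarith, by linarith, by linarith, by linarith⟩
  · rintro ⟨a, b, c, d⟩
    exact ⟨by linarith, by linarith, by linarith, by linarith⟩

theorem pvir_at_mono (z a : ℂ) {S S' : Set ℂ} (h : S ⊆ S') : pvkdAt z a S ⊆ pvkdAt z a S' := image_mono h

theorem pvir_at_union (z a : ℂ) (S S' : Set ℂ) : pvkdAt z a (S ∪ S') = pvkdAt z a S ∪ pvkdAt z a S' := image_union _ _ _

/-- a closed ball in coordinates -/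
theorem pvir_ball {w q : ℂ} {t : ℝ} (h : q ∈ closedBall w t) : w.re - t ≤ q.re ∧ q.re ≤ w.re + t ∧ w.im - t ≤ q.im ∧ q.im ≤ w.im + t := by
  rw [mem_closedBall, Complex.dist_eq] at h
  have h1 := (Complex.abs_re_le_norm (q - w)).trans h
  have h2 := (Complex.abs_im_le_norm (q - w)).trans h
  rw [Complex.sub_re, abs_le] at h1
  rw [Complex.sub_im, abs_le] at h2
  exact ⟨by linarith [h1.1], by linarith [h1.2], by linarith [h2.1], by linarith [h2.2]⟩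

end place

/-! ## 3. the data of the funnel -/

/-- **THE NUMBERS OF THE FUNNEL `r`**: mesh `l` of the link cells, mesh `μ` of the corridor, door plug at `(xd, yd)` of unit `Rd`, reference plug at `0` of unit `Ru` -/
structure PvirDat where
  l : ℝ
  μ : ℝ
  xd : ℝ
  yd : ℝ
  Rd : ℝ
  Ru : ℝ

namespace PvirDat

variable (D : PvirDat)

/-- what the numbers owe -/
structure Ok : Prop where
  l0 : 0 < D.l
  l32 : 32 * D.l ≤ D.Rd
  μ0 : 0 < D.μ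
  μ16 : 16 * D.μ ≤ D.Rd
  du : 64 * D.Rd ≤ D.Ru
  xd8 : D.xd + 8 * D.Rd ≤ -(8 * D.Ru)
  y0 : D.Ru / 2 ≤ D.yd
  y1 : D.yd ≤ 3 * D.Ru / 4

/-- the centre of the door plug -/
def zd : ℂ := ⟨D.xd, D.yd⟩

/-- **the cells of the net of colour `β`** -/
noncomputable def W : Bool → Set (ℤ × ℤ)
  | true => pvirCl D.l (D.xd + 27 * D.Rd / 8) (-(27 * D.Ru / 8)) (D.yd + D.Rd / 4) (D.yd + 7 * D.Rd / 4) ∪ pvirCl D.l (-(15 * D.Ru / 4)) (-(27 * D.Ru / 8)) (D.Ru / 4) (7 * D.Ru / 4)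
  | false => pvirCl D.l (D.xd + 27 * D.Rd / 8) (-(13 * D.Ru / 2)) (D.yd - 7 * D.Rd / 4) (D.yd - D.Rd / 4) ∪ pvirCl D.l (-(7 * D.Ru)) (-(13 * D.Ru / 2)) (-(7 * D.Ru / 4)) (D.yd - D.Rd / 4)
      ∪ pvirCl D.l (-(7 * D.Ru)) (-(27 * D.Ru / 8)) (-(7 * D.Ru / 4)) (-(D.Ru / 4))

/-- **THE FULL WALK** of the net of colour `β` -/
noncomputable def L (β : Bool) : List (ℤ × ℤ) :=
  Classical.epsilon fun L : List (ℤ × ℤ) => L ≠ [] ∧ L.IsChain PvlnAdj ∧ PvfpFull L ∧ {k | k ∈ L} = D.W β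

/-- the step function -/
noncomputable def f (x : ℝ) : ℝ := if x < -(6 * D.Ru) then D.yd else 0

/-- **the zone in which the colour `β` is up** -/
noncomputable def K : Bool → Set ℂ
  | true => {w | D.f w.re < w.im}
  | false => {w | w.im < D.f w.re}

/-- the two open door squares -/
def Od : Set ℂ := pvkgB (D.xd - 13 * D.Rd / 4) (D.xd + 13 * D.Rd / 4) (D.yd - 13 * D.Rd / 4) (D.yd + 13 * D.Rd / 4)
def Ou : Set ℂ := pvkgB (-(13 * D.Ru / 4)) (13 * D.Ru / 4) (-(13 * D.Ru / 4)) (13 * D.Ru / 4)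

/-- **the window of the corridor** -/
def Et : Set ℂ := rswRect D.xd 0 (-(3 * D.Ru)) (3 * D.Ru) \ (D.Od ∪ D.Ou)

/-- **THE WALKS OF RECORD OF THE FUNNEL `r`** -/
noncomputable def wk : PvydWalk := ⟨D.l, D.L true, D.L false, D.K true, D.K false, D.Et, pvjoMesh D.μ D.Et⟩

/-- **the room of the lanes** -/
def KE : Set ℂ := rswRect (D.xd + D.Rd / 4) (-(D.Ru / 4)) (D.yd - 2 * D.Rd) (D.yd + 2 * D.Rd) ∪ rswRect (-(29 * D.Ru / 4)) (-(D.Ru / 4)) (-(2 * D.Ru)) (2 * D.Ru)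

/-- the region which contains the rooms and the lanes -/
def TT : Set ℂ := rswRect (D.xd + 7 * D.Rd / 16) (-(7 * D.Ru / 16)) (D.yd - 7 * D.Rd / 4) (D.yd + 7 * D.Rd / 4) ∪ rswRect (-(7 * D.Ru)) (-(7 * D.Ru / 16)) (-(7 * D.Ru / 4)) (7 * D.Ru / 4)

/-- bound on the lengths of the walks -/
noncomputable def len : ℕ := (D.L true).length + (D.L false).length

end PvirDat

theorem pvir_eqns_cite2 : True := by
  have := @PvirDat.zd.eq_1; have := @PvirDat.W.eq_1; have := @PvirDat.L.eq_1; have := @PvirDat.f.eq_1; have := @PvirDat.K.eq_1; have := @PvirDat.Od.eq_1; have := @PvirDat.Ou.eq_1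
  have := @PvirDat.Et.eq_1; have := @PvirDat.wk.eq_1; have := @PvirDat.KE.eq_1; have := @PvirDat.TT.eq_1; have := @PvirDat.len.eq_1
  trivial

section net

variable {D : PvirDat}

theorem PvirDat.Ok.Rd0 (H : D.Ok) : 0 < D.Rd := by linarith [H.l0, H.l32]
theorem PvirDat.Ok.Ru0 (H : D.Ok) : 0 < D.Ru := by linarith [H.Rd0, H.du]

theorem pvir_W_fin (D : PvirDat) (β : Bool) : (D.W β).Finite := by
  cases β
  · exact ((pvir_cl_fin _ _ _ _ _).union (pvir_cl_fin _ _ _ _ _)).union (pvir_cl_fin _ _ _ _ _)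
  · exact (pvir_cl_fin _ _ _ _ _).union (pvir_cl_fin _ _ _ _ _)

/-- two rectangles of cells whose real rectangles share a box of side `2 l` -/
theorem pvir_cl_meet {l : ℝ} (hl : 0 < l) {x0 x1 y0 y1 x0' x1' y0' y1' a b c d : ℝ} (hx : a + 2 * l ≤ b) (hy : c + 2 * l ≤ d)
    (h1 : x0 ≤ a) (h2 : b ≤ x1) (h3 : y0 ≤ c) (h4 : d ≤ y1) (h1' : x0' ≤ a) (h2' : b ≤ x1') (h3' : y0' ≤ c) (h4' : d ≤ y1') :
    (pvirCl l x0 x1 y0 y1 ∩ pvirCl l x0' x1' y0' y1').Nonempty := by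
  obtain ⟨k, hk⟩ := pvir_cl_ne hl hx hy
  exact ⟨k, pvir_cl_mono hl h1 h2 h3 h4 hk, pvir_cl_mono hl h1' h2' h3' h4' hk⟩

theorem pvir_W_conn (H : D.Ok) (β : Bool) : PvufConn (D.W β) := by
  have hl := H.l0; have h32 := H.l32; have hdu := H.du; have hx := H.xd8; have hy0 := H.y0; have hy1 := H.y1; have hd := H.Rd0; have hu := H.Ru0
  cases β
  · refine ((pvir_cl_conn _ _ _ _ _).union (pvir_cl_conn _ _ _ _ _) ?_).union (pvir_cl_conn _ _ _ _ _) ?_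
    · exact pvir_cl_meet hl (a := -(7 * D.Ru)) (b := -(13 * D.Ru / 2)) (c := D.yd - 7 * D.Rd / 4) (d := D.yd - D.Rd / 4) (by linarith) (by linarith)
        (by linarith) (by linarith) (by linarith) (by linarith) (by linarith) (by linarith) (by linarith) (by linarith)
    · obtain ⟨k, hk, hk'⟩ := pvir_cl_meet hl (x0 := -(7 * D.Ru)) (x1 := -(13 * D.Ru / 2)) (y0 := -(7 * D.Ru / 4)) (y1 := D.yd - D.Rd / 4)
        (x0' := -(7 * D.Ru)) (x1' := -(27 * D.Ru / 8)) (y0' := -(7 * D.Ru / 4)) (y1' := -(D.Ru / 4))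
        (a := -(7 * D.Ru)) (b := -(13 * D.Ru / 2)) (c := -(7 * D.Ru / 4)) (d := -(D.Ru / 4)) (by linarith) (by linarith)
        (by linarith) (by linarith) (by linarith) (by linarith) (by linarith) (by linarith) (by linarith) (by linarith)
      exact ⟨k, Or.inr hk, hk'⟩
  · refine (pvir_cl_conn _ _ _ _ _).union (pvir_cl_conn _ _ _ _ _) ?_
    exact pvir_cl_meet hl (a := -(15 * D.Ru / 4)) (b := -(27 * D.Ru / 8)) (c := D.yd + D.Rd / 4) (d := D.yd + 7 * D.Rd / 4) (by linarith) (by linarith)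
      (by linarith) (by linarith) (by linarith) (by linarith) (by linarith) (by linarith) (by linarith) (by linarith)

theorem pvir_W_ne (H : D.Ok) (β : Bool) : (D.W β).Nonempty := by
  have hl := H.l0; have h32 := H.l32; have hdu := H.du; have hx := H.xd8; have hy0 := H.y0; have hy1 := H.y1; have hd := H.Rd0; have hu := H.Ru0
  cases β
  · obtain ⟨k, hk⟩ := pvir_cl_ne hl (x0 := -(7 * D.Ru)) (x1 := -(27 * D.Ru / 8)) (y0 := -(7 * D.Ru / 4)) (y1 := -(D.Ru / 4)) (by linarith) (by linarith)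
    exact ⟨k, Or.inr hk⟩
  · obtain ⟨k, hk⟩ := pvir_cl_ne hl (x0 := -(15 * D.Ru / 4)) (x1 := -(27 * D.Ru / 8)) (y0 := D.Ru / 4) (y1 := 7 * D.Ru / 4) (by linarith) (by linarith)
    exact ⟨k, Or.inr hk⟩

theorem pvir_walk (H : D.Ok) (β : Bool) : ∃ L : List (ℤ × ℤ), L ≠ [] ∧ L.IsChain PvlnAdj ∧ PvfpFull L ∧ {k | k ∈ L} = D.W β :=
  pvfp_walk_exists (pvir_W_fin D β) (pvir_W_ne H β) (pvir_W_conn H β)

theorem pvir_L_ne (H : D.Ok) (β : Bool) : D.L β ≠ [] := (Classical.epsilon_spec (pvir_walk H β)).1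
theorem pvir_L_ch (H : D.Ok) (β : Bool) : (D.L β).IsChain PvlnAdj := (Classical.epsilon_spec (pvir_walk H β)).2.1
theorem pvir_L_full (H : D.Ok) (β : Bool) : PvfpFull (D.L β) := (Classical.epsilon_spec (pvir_walk H β)).2.2.1
theorem pvir_L_set (H : D.Ok) (β : Bool) : {k | k ∈ D.L β} = D.W β := (Classical.epsilon_spec (pvir_walk H β)).2.2.2

theorem pvir_L_mem (H : D.Ok) (β : Bool) (k : ℤ × ℤ) : k ∈ D.L β ↔ k ∈ D.W β := by
  rw [← pvir_L_set H β]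
  rfl

theorem pvir_len (D : PvirDat) : D.wk.L₁.length ≤ D.len ∧ D.wk.L₂.length ≤ D.len := by
  constructor
  · show (D.L true).length ≤ (D.L true).length + (D.L false).length
    omega
  · show (D.L false).length ≤ (D.L true).length + (D.L false).length
    omega

theorem pvir_K_disj (D : PvirDat) : Disjoint (D.K true) (D.K false) := by
  rw [Set.disjoint_left]
  intro w (h1 : D.f w.re < w.im) (h2 : w.im < D.f w.re)
  exact lt_asymm h1 h2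

/-- a point above the step function -/
theorem pvir_K_true (H : D.Ok) {w : ℂ} (h : (w.re < -(6 * D.Ru) ∧ D.yd < w.im) ∨ (-(6 * D.Ru) ≤ w.re ∧ 0 < w.im)) : w ∈ D.K true := by
  show D.f w.re < w.im
  unfold PvirDat.f
  rcases h with ⟨h1, h2⟩ | ⟨h1, h2⟩
  · rw [if_pos h1]; exact h2
  · rw [if_neg (not_lt.2 h1)]; exact h2

theorem pvir_K_false (H : D.Ok) {w : ℂ} (h : (w.re < -(6 * D.Ru) ∧ w.im < D.yd) ∨ w.im < 0) : w ∈ D.K false := by
  show w.im < D.f w.re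
  unfold PvirDat.f
  have := H.y0; have := H.Ru0
  rcases h with ⟨h1, h2⟩ | h2
  · rw [if_pos h1]; exact h2
  · split_ifs <;> linarith

/-- the windows of the cells of a net, rectangle by rectangle -/
theorem pvir_W_cases (H : D.Ok) (β : Bool) {w : ℂ} (hw : w ∈ pvlnW D.l (D.L β)) : ∃ k ∈ D.W β, w ∈ pvmSq (pvlnCtr D.l k) (D.l / 2 + 2 * (D.l / 2 / 8)) := by
  obtain ⟨k, hk, h⟩ := mem_iUnion₂.1 hw
  exact ⟨k, (pvir_L_mem H β k).1 hk, h⟩

/-- **the windows of the walks lie in their zones**, East of the door square, West of the square of `u` -/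
theorem pvir_win_box (H : D.Ok) (β : Bool) {w : ℂ} (hw : w ∈ pvlnW D.l (D.L β)) : w ∈ D.K β ∧ D.xd + 13 * D.Rd / 4 ≤ w.re ∧ w.re ≤ -(13 * D.Ru / 4) ∧ -(2 * D.Ru) ≤ w.im ∧ w.im ≤ 2 * D.Ru := by
  have hl := H.l0; have h32 := H.l32; have hdu := H.du; have hx := H.xd8; have hy0 := H.y0; have hy1 := H.y1; have hd := H.Rd0; have hu := H.Ru0
  obtain ⟨k, hk, hwk⟩ := pvir_W_cases H β hw
  cases β
  · rcases hk with (hk | hk) | hk
    · obtain ⟨a1, a2, a3, a4⟩ := pvir_cl_win hl hk hwk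
      exact ⟨pvir_K_false H (Or.inl ⟨by linarith, by linarith⟩), by linarith, by linarith, by linarith, by linarith⟩
    · obtain ⟨a1, a2, a3, a4⟩ := pvir_cl_win hl hk hwk
      exact ⟨pvir_K_false H (Or.inl ⟨by linarith, by linarith⟩), by linarith, by linarith, by linarith, by linarith⟩
    · obtain ⟨a1, a2, a3, a4⟩ := pvir_cl_win hl hk hwk
      exact ⟨pvir_K_false H (Or.inr (by linarith)), by linarith, by linarith, by linarith, by linarith⟩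
  · rcases hk with hk | hk
    · obtain ⟨a1, a2, a3, a4⟩ := pvir_cl_win hl hk hwk
      refine ⟨pvir_K_true H ?_, by linarith, by linarith, by linarith, by linarith⟩
      rcases lt_or_ge w.re (-(6 * D.Ru)) with h | h
      · exact Or.inl ⟨h, by linarith⟩
      · exact Or.inr ⟨h, by linarith⟩
    · obtain ⟨a1, a2, a3, a4⟩ := pvir_cl_win hl hk hwk
      exact ⟨pvir_K_true H (Or.inr ⟨by linarith, by linarith⟩), by linarith, by linarith, by linarith, by linarith⟩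

/-- **the carriers of the nets lie in the region `TT`** -/
theorem pvir_U_TT (H : D.Ok) (β : Bool) : pvlnU D.l (D.L β) ⊆ D.TT := by
  have hl := H.l0; have h32 := H.l32; have hdu := H.du; have hx := H.xd8; have hy0 := H.y0; have hy1 := H.y1; have hd := H.Rd0; have hu := H.Ru0
  intro w hw
  obtain ⟨k, hk, hwk⟩ := mem_iUnion₂.1 hw
  have hk' := (pvir_L_mem H β k).1 hk
  cases β
  · rcases hk' with (hk' | hk') | hk'
    · obtain ⟨a1, a2, a3, a4⟩ := pvir_cl_sub hl hk' hwk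
      exact Or.inl ⟨by linarith, by linarith, by linarith, by linarith⟩
    · obtain ⟨a1, a2, a3, a4⟩ := pvir_cl_sub hl hk' hwk
      exact Or.inr ⟨by linarith, by linarith, by linarith, by linarith⟩
    · obtain ⟨a1, a2, a3, a4⟩ := pvir_cl_sub hl hk' hwk
      exact Or.inr ⟨by linarith, by linarith, by linarith, by linarith⟩
  · rcases hk' with hk' | hk'
    · obtain ⟨a1, a2, a3, a4⟩ := pvir_cl_sub hl hk' hwk
      exact Or.inl ⟨by linarith, by linarith, by linarith, by linarith⟩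
    · obtain ⟨a1, a2, a3, a4⟩ := pvir_cl_sub hl hk' hwk
      exact Or.inr ⟨by linarith, by linarith, by linarith, by linarith⟩

end net

/-! ## 4. the two ends -/

/-- **what the truncation owes**: rooms and targets of record, the state region = the open door square, the windows between boxes -/
structure PvirTr (r : ℝ) (𝔱 : PvhfTr) (O : Set ℂ) : Prop where
  Ln : 𝔱.Ln = (pvjoT r).Ln
  Dr : 𝔱.Dr = (pvjoT r).Dr
  O_eq : O = pvkgB (-(13 * r / 4)) (13 * r / 4) (-(13 * r / 4)) (13 * r / 4)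
  up : ∀ σ, 𝔱.Es σ ⊆ O ∪ pvkdRect σ (13 * r / 4) (11 * r / 2) (-(5 * r / 2)) (5 * r / 2)
  lo_t : pvkgB 0 (11 * r / 2) (-(5 * r / 2)) (5 * r / 2) ⊆ 𝔱.Es true
  lo_f : pvkgB (-(11 * r / 2)) 0 (-(5 * r / 2)) (5 * r / 2) ⊆ 𝔱.Es false
  lo_O : ∀ σ, O ⊆ 𝔱.Es σ

/-- **the truncation of record of 125 fits** -/
theorem pvir_tr_k2 : PvirTr (1 / 40) pvk2T pvkgO where
  Ln := rfl
  Dr := rfl
  O_eq := by
    unfold pvkgO
    congr 1 <;> norm_num
  up σ := by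
    refine (pvk2_Es_sub σ).trans (union_subset_union_right _ ?_)
    cases σ
    · rintro w ⟨⟨a, b⟩, c, d⟩
      show w ∈ rswRect (-(11 * (1 / 40) / 2)) (-(13 * (1 / 40) / 4)) (-(5 * (1 / 40) / 2)) (5 * (1 / 40) / 2)
      exact ⟨by linarith, by linarith, by linarith, by linarith⟩
    · rintro w ⟨⟨a, b⟩, c, d⟩
      show w ∈ rswRect (13 * (1 / 40) / 4) (11 * (1 / 40) / 2) (-(5 * (1 / 40) / 2)) (5 * (1 / 40) / 2)
      exact ⟨by linarith, by linarith, by linarith, by linarith⟩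
  lo_t := by
    rintro w ⟨a, b, c, d⟩
    exact Or.inr ⟨by linarith, by linarith, by linarith, by linarith⟩
  lo_f := by
    rintro w ⟨a, b, c, d⟩
    exact Or.inr ⟨by linarith, by linarith, by linarith, by linarith⟩
  lo_O := pvk2_O_sub

/-- the exit end of the door plug -/
noncomputable def pvirEd (D : PvirDat) (r s : ℝ) (𝔱 : PvhfTr) (O : Set ℂ) (c : Bool) : PvnkEnd := pvyeEnd (pvyeE0 (pvkdP r) 𝔱 O true) c D.zd (1 * (s : ℂ))

/-- the entrance end of the reference plug -/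
noncomputable def pvirEu (r s' : ℝ) (𝔱 : PvhfTr) (O : Set ℂ) (c : Bool) : PvnkEnd := pvyeEnd (pvyeE0 (pvkdP r) 𝔱 O false) c 0 (1 * (s' : ℂ))

/-- **THE LINK** -/
noncomputable def pvirLk (D : PvirDat) (r s s' : ℝ) (𝔱 : PvhfTr) (O : Set ℂ) (c : Bool) : PvnkLink := D.wk.lk (pvirEd D r s 𝔱 O c) (pvirEu r s' 𝔱 O c)

/-- **the numbers fit the two plugs** -/
structure PvirFit (D : PvirDat) (r s s' : ℝ) (𝔱 : PvhfTr) (O : Set ℂ) : Prop where
  ok : D.Ok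
  r0 : 0 < r
  s0 : 0 < s
  s0' : 0 < s'
  Rd : r * s = D.Rd
  Ru : r * s' = D.Ru
  tr : PvirTr r 𝔱 O

theorem pvir_eqns_cite3 : True := by
  have := @pvirEd.eq_1; have := @pvirEu.eq_1; have := @pvirLk.eq_1
  trivial

theorem pvir_R_mono {a b c d a' b' c' d' : ℝ} (h1 : a' ≤ a) (h2 : b ≤ b') (h3 : c' ≤ c) (h4 : d ≤ d') : rswRect a b c d ⊆ rswRect a' b' c' d' := by
  rintro w ⟨e1, e2, e3, e4⟩
  exact ⟨h1.trans e1, e2.trans h2, h3.trans e3, e4.trans h4⟩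

theorem pvir_at_T {s : ℝ} (hs : 0 < s) (z : ℂ) (x0 x1 y0 y1 : ℝ) : pvkdAt z (1 * (s : ℂ)) (pvkdRect true x0 x1 y0 y1) = rswRect (z.re + s * x0) (z.re + s * x1) (z.im + s * y0) (z.im + s * y1) :=
  pvir_at_R hs z _ _ _ _

theorem pvir_at_F {s : ℝ} (hs : 0 < s) (z : ℂ) (x0 x1 y0 y1 : ℝ) : pvkdAt z (1 * (s : ℂ)) (pvkdRect false x0 x1 y0 y1) = rswRect (z.re + s * (-x1)) (z.re + s * (-x0)) (z.im + s * y0) (z.im + s * y1) :=
  pvir_at_R hs z _ _ _ _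

section ends

variable {D : PvirDat} {r s s' : ℝ} {𝔱 : PvhfTr} {O : Set ℂ} {c : Bool}

theorem pvir_Ed_O (F : PvirFit D r s s' 𝔱 O) : (pvirEd D r s 𝔱 O c).O = D.Od := by
  show pvkdAt D.zd (1 * (s : ℂ)) O = _
  rw [F.tr.O_eq, pvir_at_B F.s0]
  show pvkgB (D.xd + _) (D.xd + _) (D.yd + _) (D.yd + _) = pvkgB _ _ _ _
  congr 1 <;> (rw [← F.Rd]; ring)

theorem pvir_Eu_O (F : PvirFit D r s s' 𝔱 O) : (pvirEu r s' 𝔱 O c).O = D.Ou := by
  show pvkdAt 0 (1 * (s' : ℂ)) O = _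
  rw [F.tr.O_eq, pvir_at_B F.s0']
  show pvkgB _ _ _ _ = pvkgB _ _ _ _
  congr 1 <;> (rw [← F.Ru]; simp only [Complex.zero_re, Complex.zero_im]; ring)

/-- the window of the door end off its state region -/
theorem pvir_Ed_E (F : PvirFit D r s s' 𝔱 O) : (pvirEd D r s 𝔱 O c).E ⊆ D.Od ∪ rswRect (D.xd + 13 * D.Rd / 4) (D.xd + 11 * D.Rd / 2) (D.yd - 5 * D.Rd / 2) (D.yd + 5 * D.Rd / 2) := by
  have h : (pvirEd D r s 𝔱 O c).E ⊆ pvkdAt D.zd (1 * (s : ℂ)) O ∪ pvkdAt D.zd (1 * (s : ℂ)) (pvkdRect true (13 * r / 4) (11 * r / 2) (-(5 * r / 2)) (5 * r / 2)) := by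
    rw [← pvir_at_union]
    exact pvir_at_mono _ _ (F.tr.up true)
  refine h.trans (union_subset_union (le_of_eq (pvir_Ed_O (c := c) F)) ?_)
  rw [pvir_at_T F.s0]
  have := F.Rd
  exact pvir_R_mono (by show _ ≤ D.xd + _; nlinarith) (by show D.xd + _ ≤ _; nlinarith) (by show _ ≤ D.yd + _; nlinarith) (by show D.yd + _ ≤ _; nlinarith)

theorem pvir_Eu_E (F : PvirFit D r s s' 𝔱 O) : (pvirEu r s' 𝔱 O c).E ⊆ D.Ou ∪ rswRect (-(11 * D.Ru / 2)) (-(13 * D.Ru / 4)) (-(5 * D.Ru / 2)) (5 * D.Ru / 2) := by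
  have h : (pvirEu r s' 𝔱 O c).E ⊆ pvkdAt 0 (1 * (s' : ℂ)) O ∪ pvkdAt 0 (1 * (s' : ℂ)) (pvkdRect false (13 * r / 4) (11 * r / 2) (-(5 * r / 2)) (5 * r / 2)) := by
    rw [← pvir_at_union]
    exact pvir_at_mono _ _ (F.tr.up false)
  refine h.trans (union_subset_union (le_of_eq (pvir_Eu_O (c := c) F)) ?_)
  rw [pvir_at_F F.s0']
  have := F.Ru
  simp only [Complex.zero_re, Complex.zero_im]
  exact pvir_R_mono (by nlinarith) (by nlinarith) (by nlinarith) (by nlinarith)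

/-- what the window of the door end contains -/
theorem pvir_Ed_lo (F : PvirFit D r s s' 𝔱 O) : D.Od ∪ pvkgB D.xd (D.xd + 11 * D.Rd / 2) (D.yd - 5 * D.Rd / 2) (D.yd + 5 * D.Rd / 2) ⊆ (pvirEd D r s 𝔱 O c).E := by
  refine union_subset ?_ ?_
  · rw [← pvir_Ed_O (c := c) F]
    exact pvir_at_mono _ _ (F.tr.lo_O true)
  · refine Subset.trans (le_of_eq ?_) (pvir_at_mono D.zd (1 * (s : ℂ)) F.tr.lo_t)
    rw [pvir_at_B F.s0]
    show pvkgB _ _ _ _ = pvkgB (D.xd + _) (D.xd + _) (D.yd + _) (D.yd + _)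
    congr 1 <;> (try rw [← F.Rd]) <;> ring

theorem pvir_Eu_lo (F : PvirFit D r s s' 𝔱 O) : D.Ou ∪ pvkgB (-(11 * D.Ru / 2)) 0 (-(5 * D.Ru / 2)) (5 * D.Ru / 2) ⊆ (pvirEu r s' 𝔱 O c).E := by
  refine union_subset ?_ ?_
  · rw [← pvir_Eu_O (c := c) F]
    exact pvir_at_mono _ _ (F.tr.lo_O false)
  · refine Subset.trans (le_of_eq ?_) (pvir_at_mono 0 (1 * (s' : ℂ)) F.tr.lo_f)
    rw [pvir_at_B F.s0']
    congr 1 <;> (try rw [← F.Ru]) <;> simp only [Complex.zero_re, Complex.zero_im] <;> ring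

/-- the rooms of the door end, in coordinates -/
theorem pvir_Ed_A (F : PvirFit D r s s' 𝔱 O) (β : Bool) : pvkdAt D.zd (1 * (s : ℂ)) (cthickening (r / 16) ((pvjoT r).Ln true β)) ⊆
    rswRect (D.xd + 7 * D.Rd / 16) (D.xd + 81 * D.Rd / 16) (D.yd - 25 * D.Rd / 16) (D.yd + 25 * D.Rd / 16) := by
  have hr := F.r0; have hs := F.s0; have hR := F.Rd
  refine (pvir_at_mono _ _ (pvli_u_room F.r0 true β)).trans ?_
  rw [pvir_at_union, pvir_at_T F.s0, pvir_at_T F.s0]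
  refine union_subset (pvir_R_mono ?_ ?_ ?_ ?_) (pvir_R_mono ?_ ?_ ?_ ?_)
  · show _ ≤ D.xd + _; nlinarith
  · show D.xd + _ ≤ _; nlinarith
  · show _ ≤ D.yd + _; nlinarith
  · show D.yd + _ ≤ _; nlinarith
  · show _ ≤ D.xd + _; nlinarith
  · show D.xd + _ ≤ _; nlinarith
  · show _ ≤ D.yd + _
    cases β <;> simp only [pvliUy0, if_true, if_false, Bool.false_eq_true] <;> nlinarith
  · show D.yd + _ ≤ _
    cases β <;> simp only [pvliUy1, if_true, if_false, Bool.false_eq_true] <;> nlinarith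

theorem pvir_Eu_A (F : PvirFit D r s s' 𝔱 O) (β : Bool) : pvkdAt 0 (1 * (s' : ℂ)) (cthickening (r / 16) ((pvjoT r).Ln false β)) ⊆
    rswRect (-(81 * D.Ru / 16)) (-(7 * D.Ru / 16)) (-(25 * D.Ru / 16)) (25 * D.Ru / 16) := by
  have hr := F.r0; have hs := F.s0'; have hR := F.Ru
  refine (pvir_at_mono _ _ (pvli_u_room F.r0 false β)).trans ?_
  rw [pvir_at_union, pvir_at_F F.s0', pvir_at_F F.s0']
  simp only [Complex.zero_re, Complex.zero_im]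
  refine union_subset (pvir_R_mono ?_ ?_ ?_ ?_) (pvir_R_mono ?_ ?_ ?_ ?_)
  · nlinarith
  · nlinarith
  · nlinarith
  · nlinarith
  · nlinarith
  · nlinarith
  · cases β <;> simp only [pvliUy0, if_true, if_false, Bool.false_eq_true] <;> nlinarith
  · cases β <;> simp only [pvliUy1, if_true, if_false, Bool.false_eq_true] <;> nlinarith

end ends

/-! ## 5. `Geo`, `Rooms`, the window and its guard -/

section geo

variable {D : PvirDat} {r s s' : ℝ} {𝔱 : PvhfTr} {O : Set ℂ} {c : Bool}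

theorem pvir_one4 : (1 : ℂ) ^ 4 = 1 := one_pow 4

/-- the hook zone of the door end -/
theorem pvir_zone_d (F : PvirFit D r s s' 𝔱 O) (β : Bool) :
    PvfpZone D.l {k | k ∈ D.L β} (pvkdAt D.zd (1 * (s : ℂ)) (cthickening (r / 16) ((pvjoT r).Ln true β))) (pvkdAt D.zd (1 * (s : ℂ)) (ball 0 (2 * r) ∩ (pvjoT r).Ln true β)) (pvkdAt D.zd (1 * (s : ℂ)) ((pvjoT r).Dr true β)) := by
  have H := F.ok
  have hl := H.l0; have h32 := H.l32; have hdu := H.du; have hx := H.xd8; have hy0 := H.y0; have hy1 := H.y1; have hd := H.Rd0; have hu := H.Ru0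
  have hr := F.r0; have hs := F.s0; have hR := F.Rd
  refine pvli_u_zone F.r0 F.s0 pvir_one4 hl (by rw [hR]; exact h32) true β D.zd ?_
  intro k hk
  refine (pvir_L_mem H β k).2 ?_
  unfold pvliUHB at hk
  rw [pvir_at_T F.s0] at hk
  cases β
  · refine Or.inl (Or.inl (pvir_cl_of hl (hk.trans (pvir_R_mono ?_ ?_ ?_ ?_))))
    · show _ ≤ D.xd + _; nlinarith
    · show D.xd + _ ≤ _; nlinarith
    · show _ ≤ D.yd + _
      simp only [pvliUy0, if_false, Bool.false_eq_true]; nlinarith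
    · show D.yd + _ ≤ _
      simp only [pvliUy1, if_false, Bool.false_eq_true]; nlinarith
  · refine Or.inl (pvir_cl_of hl (hk.trans (pvir_R_mono ?_ ?_ ?_ ?_)))
    · show _ ≤ D.xd + _; nlinarith
    · show D.xd + _ ≤ _; nlinarith
    · show _ ≤ D.yd + _
      simp only [pvliUy0, if_true]; nlinarith
    · show D.yd + _ ≤ _
      simp only [pvliUy1, if_true]; nlinarith

/-- the hook zone of the end of the reference plug -/
theorem pvir_zone_u (F : PvirFit D r s s' 𝔱 O) (β : Bool) :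
    PvfpZone D.l {k | k ∈ D.L β} (pvkdAt 0 (1 * (s' : ℂ)) (cthickening (r / 16) ((pvjoT r).Ln false β))) (pvkdAt 0 (1 * (s' : ℂ)) (ball 0 (2 * r) ∩ (pvjoT r).Ln false β)) (pvkdAt 0 (1 * (s' : ℂ)) ((pvjoT r).Dr false β)) := by
  have H := F.ok
  have hl := H.l0; have h32 := H.l32; have hdu := H.du; have hx := H.xd8; have hy0 := H.y0; have hy1 := H.y1; have hd := H.Rd0; have hu := H.Ru0
  have hr := F.r0; have hs := F.s0'; have hR := F.Ru
  refine pvli_u_zone F.r0 F.s0' pvir_one4 hl (by rw [hR]; linarith) false β 0 ?_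
  intro k hk
  refine (pvir_L_mem H β k).2 ?_
  unfold pvliUHB at hk
  rw [pvir_at_F F.s0'] at hk
  simp only [Complex.zero_re, Complex.zero_im] at hk
  cases β
  · refine Or.inr (pvir_cl_of hl (hk.trans (pvir_R_mono ?_ ?_ ?_ ?_)))
    · nlinarith
    · nlinarith
    · simp only [pvliUy0, if_false, Bool.false_eq_true]; nlinarith
    · simp only [pvliUy1, if_false, Bool.false_eq_true]; nlinarith
  · refine Or.inr (pvir_cl_of hl (hk.trans (pvir_R_mono ?_ ?_ ?_ ?_)))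
    · nlinarith
    · nlinarith
    · simp only [pvliUy0, if_true]; nlinarith
    · simp only [pvliUy1, if_true]; nlinarith

/-- the room of colour `β` of the door end lies in the door square and in the zone of `β` -/
theorem pvir_room_d (F : PvirFit D r s s' 𝔱 O) (β : Bool) : pvkdAt D.zd (1 * (s : ℂ)) (cthickening (r / 16) ((pvjoT r).Ln true β)) ⊆ pvkdAt D.zd (1 * (s : ℂ)) O ∪ D.K β := by
  have H := F.ok
  have hl := H.l0; have h32 := H.l32; have hdu := H.du; have hx := H.xd8; have hy0 := H.y0; have hy1 := H.y1; have hd := H.Rd0; have hu := H.Ru0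
  have hr := F.r0; have hs := F.s0; have hR := F.Rd
  refine (pvir_at_mono _ _ (pvli_u_rooms F.r0 true β (le_of_eq F.tr.O_eq.symm))).trans ?_
  rw [pvir_at_union]
  refine union_subset_union_right _ ?_
  unfold pvliUSt
  rw [pvir_at_T F.s0]
  rintro w ⟨a1, a2, a3, a4⟩
  have a1' : D.xd + s * (13 * r / 4) ≤ w.re := a1
  have a2' : w.re ≤ D.xd + s * (5 * r + r / 16) := a2
  cases β
  · have a4' : w.im ≤ D.zd.im + s * (-(r / 2) + r / 16) := by simpa only [pvliUy1, if_false, Bool.false_eq_true] using a4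
    have a4'' : w.im ≤ D.yd + s * (-(r / 2) + r / 16) := a4'
    exact pvir_K_false H (Or.inl ⟨by nlinarith, by nlinarith⟩)
  · have a3' : D.zd.im + s * (r / 2 - r / 16) ≤ w.im := by simpa only [pvliUy0, if_true] using a3
    have a3'' : D.yd + s * (r / 2 - r / 16) ≤ w.im := a3'
    exact pvir_K_true H (Or.inl ⟨by nlinarith, by nlinarith⟩)

theorem pvir_room_u (F : PvirFit D r s s' 𝔱 O) (β : Bool) : pvkdAt 0 (1 * (s' : ℂ)) (cthickening (r / 16) ((pvjoT r).Ln false β)) ⊆ pvkdAt 0 (1 * (s' : ℂ)) O ∪ D.K β := by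
  have H := F.ok
  have hl := H.l0; have h32 := H.l32; have hdu := H.du; have hx := H.xd8; have hy0 := H.y0; have hy1 := H.y1; have hd := H.Rd0; have hu := H.Ru0
  have hr := F.r0; have hs := F.s0'; have hR := F.Ru
  refine (pvir_at_mono _ _ (pvli_u_rooms F.r0 false β (le_of_eq F.tr.O_eq.symm))).trans ?_
  rw [pvir_at_union]
  refine union_subset_union_right _ ?_
  unfold pvliUSt
  rw [pvir_at_F F.s0']
  simp only [Complex.zero_re, Complex.zero_im]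
  rintro w ⟨a1, a2, a3, a4⟩
  cases β
  · have a4' : w.im ≤ 0 + s' * (-(r / 2) + r / 16) := by simpa only [pvliUy1, if_false, Bool.false_eq_true] using a4
    exact pvir_K_false H (Or.inr (by nlinarith))
  · have a3' : 0 + s' * (r / 2 - r / 16) ≤ w.im := by simpa only [pvliUy0, if_true] using a3
    exact pvir_K_true H (Or.inr ⟨by nlinarith, by nlinarith⟩)

/-- the windows of the walks keep off the two door squares -/
theorem pvir_off_W (H : D.Ok) (β : Bool) : Disjoint (pvlnW D.l (D.L β)) (D.Od ∪ D.Ou) := by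
  rw [Set.disjoint_left]
  intro w hw
  obtain ⟨-, a1, a2, -, -⟩ := pvir_win_box H β hw
  rintro (⟨-, b2, -, -⟩ | ⟨b1, -, -, -⟩) <;> linarith

/-- **`PvnkLink.Geo`** -/
theorem pvir_geo (F : PvirFit D r s s' 𝔱 O) (c : Bool) : (pvirLk D r s s' 𝔱 O c).Geo where
  col := rfl
  dj := by
    have H := F.ok
    have hdu := H.du; have hx := H.xd8; have hd := H.Rd0; have hu := H.Ru0
    show Disjoint ((pvirEd D r s 𝔱 O c).O ∪ (pvirEd D r s 𝔱 O c).E) ((pvirEu r s' 𝔱 O c).O ∪ (pvirEu r s' 𝔱 O c).E)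
    have h1 : (pvirEd D r s 𝔱 O c).O ∪ (pvirEd D r s 𝔱 O c).E ⊆ {w | w.re ≤ D.xd + 11 * D.Rd / 2} := by
      rw [pvir_Ed_O F]
      refine union_subset ?_ ((pvir_Ed_E F).trans (union_subset ?_ ?_))
      · rintro w ⟨-, b, -, -⟩
        show w.re ≤ _
        linarith
      · rintro w ⟨-, b, -, -⟩
        show w.re ≤ _
        linarith
      · rintro w ⟨-, b, -, -⟩
        exact b
    have h2 : (pvirEu r s' 𝔱 O c).O ∪ (pvirEu r s' 𝔱 O c).E ⊆ {w | -(11 * D.Ru / 2) ≤ w.re} := by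
      rw [pvir_Eu_O F]
      refine union_subset ?_ ((pvir_Eu_E F).trans (union_subset ?_ ?_))
      · rintro w ⟨b, -, -, -⟩
        show _ ≤ w.re
        linarith
      · rintro w ⟨b, -, -, -⟩
        show _ ≤ w.re
        linarith
      · rintro w ⟨b, -, -, -⟩
        exact b
    rw [Set.disjoint_left]
    intro w hw hw'
    have a1 : w.re ≤ D.xd + 11 * D.Rd / 2 := h1 hw
    have a2 : -(11 * D.Ru / 2) ≤ w.re := h2 hw'
    linarith
  δ_pos := F.ok.l0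
  ne₁ := pvir_L_ne F.ok true
  ne₂ := pvir_L_ne F.ok false
  ch₁ := pvir_L_ch F.ok true
  ch₂ := pvir_L_ch F.ok false
  full₁ := pvir_L_full F.ok true
  full₂ := pvir_L_full F.ok false
  djK := pvir_K_disj D
  w₁ := fun w hw => (pvir_win_box F.ok true hw).1
  w₂ := fun w hw => (pvir_win_box F.ok false hw).1
  off₁ := by
    show Disjoint (pvlnW D.l (D.L true)) ((pvirEd D r s 𝔱 O c).O ∪ (pvirEu r s' 𝔱 O c).O)
    rw [pvir_Ed_O F, pvir_Eu_O F]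
    exact pvir_off_W F.ok true
  off₂ := by
    show Disjoint (pvlnW D.l (D.L false)) ((pvirEd D r s 𝔱 O c).O ∪ (pvirEu r s' 𝔱 O c).O)
    rw [pvir_Ed_O F, pvir_Eu_O F]
    exact pvir_off_W F.ok false
  z₁ := by
    show PvfpZone D.l {k | k ∈ D.L true} (pvkdAt D.zd (1 * (s : ℂ)) (cthickening (r / 16) (𝔱.Ln true true))) (pvkdAt D.zd (1 * (s : ℂ)) (ball 0 (2 * r) ∩ 𝔱.Ln true true)) (pvkdAt D.zd (1 * (s : ℂ)) (𝔱.Dr true true))
    rw [F.tr.Ln, F.tr.Dr]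
    exact pvir_zone_d F true
  z₁' := by
    show PvfpZone D.l {k | k ∈ D.L true} (pvkdAt 0 (1 * (s' : ℂ)) (cthickening (r / 16) (𝔱.Ln false true))) (pvkdAt 0 (1 * (s' : ℂ)) (ball 0 (2 * r) ∩ 𝔱.Ln false true)) (pvkdAt 0 (1 * (s' : ℂ)) (𝔱.Dr false true))
    rw [F.tr.Ln, F.tr.Dr]
    exact pvir_zone_u F true
  z₂ := by
    show PvfpZone D.l {k | k ∈ D.L false} (pvkdAt D.zd (1 * (s : ℂ)) (cthickening (r / 16) (𝔱.Ln true false))) (pvkdAt D.zd (1 * (s : ℂ)) (ball 0 (2 * r) ∩ 𝔱.Ln true false)) (pvkdAt D.zd (1 * (s : ℂ)) (𝔱.Dr true false))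
    rw [F.tr.Ln, F.tr.Dr]
    exact pvir_zone_d F false
  z₂' := by
    show PvfpZone D.l {k | k ∈ D.L false} (pvkdAt 0 (1 * (s' : ℂ)) (cthickening (r / 16) (𝔱.Ln false false))) (pvkdAt 0 (1 * (s' : ℂ)) (ball 0 (2 * r) ∩ 𝔱.Ln false false)) (pvkdAt 0 (1 * (s' : ℂ)) (𝔱.Dr false false))
    rw [F.tr.Ln, F.tr.Dr]
    exact pvir_zone_u F false

/-- **`Rooms`** -/
theorem pvir_rooms (F : PvirFit D r s s' 𝔱 O) (c : Bool) : (pvirLk D r s s' 𝔱 O c).Rooms where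
  a₁ := by
    show pvkdAt D.zd (1 * (s : ℂ)) (cthickening (r / 16) (𝔱.Ln true true)) ⊆ pvkdAt D.zd (1 * (s : ℂ)) O ∪ D.K true
    rw [F.tr.Ln]
    exact pvir_room_d F true
  a₂ := by
    show pvkdAt D.zd (1 * (s : ℂ)) (cthickening (r / 16) (𝔱.Ln true false)) ⊆ pvkdAt D.zd (1 * (s : ℂ)) O ∪ D.K false
    rw [F.tr.Ln]
    exact pvir_room_d F false
  a₁' := by
    show pvkdAt 0 (1 * (s' : ℂ)) (cthickening (r / 16) (𝔱.Ln false true)) ⊆ pvkdAt 0 (1 * (s' : ℂ)) O ∪ D.K true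
    rw [F.tr.Ln]
    exact pvir_room_u F true
  a₂' := by
    show pvkdAt 0 (1 * (s' : ℂ)) (cthickening (r / 16) (𝔱.Ln false false)) ⊆ pvkdAt 0 (1 * (s' : ℂ)) O ∪ D.K false
    rw [F.tr.Ln]
    exact pvir_room_u F false

theorem pvir_Et_meas (D : PvirDat) : MeasurableSet D.Et :=
  (rsw_rect_closed _ _ _ _).measurableSet.diff ((pvkgg_box_open _ _ _ _).measurableSet.union (pvkgg_box_open _ _ _ _).measurableSet)

theorem pvir_Et_bdd (D : PvirDat) : Bornology.IsBounded D.Et := (pvjo_t_rect_bdd _ _ _ _).subset sdiff_subset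

/-- **`PvnhWin`** -/
theorem pvir_win (D : PvirDat) : PvnhWin D.wk.Et D.wk.M := pvnh_mesh_win D.μ (pvir_Et_meas D)

/-- **`PvnhOff`** -/
theorem pvir_off (F : PvirFit D r s s' 𝔱 O) (c : Bool) : PvnhOff (pvirLk D r s s' 𝔱 O c) D.wk.Et D.wk.M := by
  refine pvnh_mesh_off D.μ ?_
  show Disjoint D.Et ((pvirEd D r s 𝔱 O c).O ∪ (pvirEu r s' 𝔱 O c).O)
  rw [pvir_Ed_O F, pvir_Eu_O F]
  exact disjoint_sdiff_left

/-- **the guard fails with probability `o(1)`** -/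
theorem pvir_lim (H : D.Ok) : Tendsto (fun ε : ℝ => pvP ε (D.wk.M)ᶜ) (𝓝[>] 0) (𝓝 0) := pvnh_mesh_lim H.μ0 (pvir_Et_bdd D)

end geo

/-! ## 6. `PvnlLay` -/

/-- **the list of the windows with their meshes**: window of the door end, window of the corridor, window of the end of `u` -/
noncomputable def pvirMs (D : PvirDat) (r s s' : ℝ) (𝔱 : PvhfTr) (O : Set ℂ) (c : Bool) (ρd ρu : ℝ) : List (ℝ × Set ℂ) :=
  [(ρd, (pvirEd D r s 𝔱 O c).E), (D.μ, D.Et), (ρu, (pvirEu r s' 𝔱 O c).E)]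

theorem pvir_eqns_cite4 : True := by
  have := @pvirMs.eq_1
  trivial

section lay

variable {D : PvirDat} {r s s' : ℝ} {𝔱 : PvhfTr} {O : Set ℂ} {c : Bool} {ρd ρu : ℝ}

/-- deep in the window of the door end -/
theorem pvir_cov_d (F : PvirFit D r s s' 𝔱 O) {w : ℂ} (h1 : D.xd + D.Rd / 4 ≤ w.re) (h2 : w.re ≤ D.xd + 5 * D.Rd) (h3 : D.yd - 2 * D.Rd ≤ w.im) (h4 : w.im ≤ D.yd + 2 * D.Rd) :
    closedBall w (5 * (D.Rd / 16)) ⊆ (pvirEd D r s 𝔱 O c).E := by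
  have hd := F.ok.Rd0
  intro q hq
  obtain ⟨b1, b2, b3, b4⟩ := pvir_ball hq
  refine pvir_Ed_lo F ?_
  rcases le_or_gt q.re D.xd with h | h
  · exact Or.inl ⟨by linarith, by linarith, by linarith, by linarith⟩
  · exact Or.inr ⟨h, by linarith, by linarith, by linarith⟩

/-- deep in the window of the corridor -/
theorem pvir_cov_m (H : D.Ok) {w : ℂ} (h1 : D.xd + 5 * D.Rd ≤ w.re) (h2 : w.re ≤ -(5 * D.Ru)) (h3 : -(2 * D.Ru) ≤ w.im) (h4 : w.im ≤ 2 * D.Ru) : closedBall w (5 * D.μ) ⊆ D.Et := by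
  have hdu := H.du; have hd := H.Rd0; have hu := H.Ru0; have hμ := H.μ16; have hμ0 := H.μ0
  intro q hq
  obtain ⟨b1, b2, b3, b4⟩ := pvir_ball hq
  refine ⟨⟨by linarith, by linarith, by linarith, by linarith⟩, ?_⟩
  rintro (⟨-, a, -, -⟩ | ⟨a, -, -, -⟩) <;> linarith

/-- deep in the window of the end of the reference plug -/
theorem pvir_cov_u (F : PvirFit D r s s' 𝔱 O) {w : ℂ} (h1 : -(5 * D.Ru) ≤ w.re) (h2 : w.re ≤ -(D.Ru / 4)) (h3 : -(2 * D.Ru) ≤ w.im) (h4 : w.im ≤ 2 * D.Ru) :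
    closedBall w (5 * (D.Ru / 16)) ⊆ (pvirEu r s' 𝔱 O c).E := by
  have hu := F.ok.Ru0
  intro q hq
  obtain ⟨b1, b2, b3, b4⟩ := pvir_ball hq
  refine pvir_Eu_lo F ?_
  rcases lt_or_ge q.re 0 with h | h
  · exact Or.inr ⟨by linarith, h, by linarith, by linarith⟩
  · exact Or.inl ⟨by linarith, by linarith, by linarith, by linarith⟩

theorem pvir_ms_d : (ρd, (pvirEd D r s 𝔱 O c).E) ∈ pvirMs D r s s' 𝔱 O c ρd ρu := List.mem_cons_self
theorem pvir_ms_m : (D.μ, D.Et) ∈ pvirMs D r s s' 𝔱 O c ρd ρu := List.mem_cons_of_mem _ List.mem_cons_self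
theorem pvir_ms_u : (ρu, (pvirEu r s' 𝔱 O c).E) ∈ pvirMs D r s s' 𝔱 O c ρd ρu := List.mem_cons_of_mem _ (List.mem_cons_of_mem _ List.mem_cons_self)

/-- **the region of the rooms and of the lanes lies deep in the windows and in the room of the lanes** -/
theorem pvir_cov_TT (F : PvirFit D r s s' 𝔱 O) (hd : ρd = D.Rd / 16) (hu : ρu = D.Ru / 16) : PvnlCov (pvirMs D r s s' 𝔱 O c ρd ρu) D.TT D.KE := by
  have H := F.ok
  have hdu := H.du; have hx := H.xd8; have hy0 := H.y0; have hy1 := H.y1; have hd0 := H.Rd0; have hu0 := H.Ru0; have hμ := H.μ16; have hμ0 := H.μ0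
  subst hd hu
  rintro w (⟨a1, a2, a3, a4⟩ | ⟨a1, a2, a3, a4⟩)
  · rcases le_or_gt w.re (D.xd + 5 * D.Rd) with h | h
    · refine ⟨(D.Rd / 16, (pvirEd D r s 𝔱 O c).E), pvir_ms_d, pvir_cov_d (c := c) F (by linarith) h (by linarith) (by linarith), fun q hq => Or.inl ?_⟩
      obtain ⟨b1, b2, b3, b4⟩ := pvir_ball hq
      simp only at b1 b2 b3 b4
      exact ⟨by linarith, by linarith, by linarith, by linarith⟩
    rcases le_or_gt w.re (-(5 * D.Ru)) with h' | h'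
    · refine ⟨(D.μ, D.Et), pvir_ms_m, pvir_cov_m H h.le h' (by linarith) (by linarith), fun q hq => Or.inl ?_⟩
      obtain ⟨b1, b2, b3, b4⟩ := pvir_ball hq
      simp only at b1 b2 b3 b4
      exact ⟨by linarith, by linarith, by linarith, by linarith⟩
    · refine ⟨(D.Ru / 16, (pvirEu r s' 𝔱 O c).E), pvir_ms_u, pvir_cov_u (c := c) F h'.le (by linarith) (by linarith) (by linarith), fun q hq => Or.inr ?_⟩
      obtain ⟨b1, b2, b3, b4⟩ := pvir_ball hq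
      simp only at b1 b2 b3 b4
      exact ⟨by linarith, by linarith, by linarith, by linarith⟩
  · rcases le_or_gt w.re (-(5 * D.Ru)) with h' | h'
    · refine ⟨(D.μ, D.Et), pvir_ms_m, pvir_cov_m H (by linarith) h' (by linarith) (by linarith), fun q hq => Or.inr ?_⟩
      obtain ⟨b1, b2, b3, b4⟩ := pvir_ball hq
      simp only at b1 b2 b3 b4
      exact ⟨by linarith, by linarith, by linarith, by linarith⟩
    · refine ⟨(D.Ru / 16, (pvirEu r s' 𝔱 O c).E), pvir_ms_u, pvir_cov_u (c := c) F h'.le (by linarith) (by linarith) (by linarith), fun q hq => Or.inr ?_⟩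
      obtain ⟨b1, b2, b3, b4⟩ := pvir_ball hq
      simp only at b1 b2 b3 b4
      exact ⟨by linarith, by linarith, by linarith, by linarith⟩

/-- **the room of the lanes lies deep in the windows** -/
theorem pvir_cov_KE (F : PvirFit D r s s' 𝔱 O) (hd : ρd = D.Rd / 16) (hu : ρu = D.Ru / 16) : PvnlCov (pvirMs D r s s' 𝔱 O c ρd ρu) D.KE univ := by
  have H := F.ok
  have hdu := H.du; have hx := H.xd8; have hy0 := H.y0; have hy1 := H.y1; have hd0 := H.Rd0; have hu0 := H.Ru0; have hμ := H.μ16; have hμ0 := H.μ0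
  subst hd hu
  rintro w (⟨a1, a2, a3, a4⟩ | ⟨a1, a2, a3, a4⟩)
  · rcases le_or_gt w.re (D.xd + 5 * D.Rd) with h | h
    · exact ⟨(D.Rd / 16, (pvirEd D r s 𝔱 O c).E), pvir_ms_d, pvir_cov_d (c := c) F a1 h a3 a4, subset_univ _⟩
    rcases le_or_gt w.re (-(5 * D.Ru)) with h' | h'
    · exact ⟨(D.μ, D.Et), pvir_ms_m, pvir_cov_m H h.le h' (by linarith) (by linarith), subset_univ _⟩
    · exact ⟨(D.Ru / 16, (pvirEu r s' 𝔱 O c).E), pvir_ms_u, pvir_cov_u (c := c) F h'.le a2 (by linarith) (by linarith), subset_univ _⟩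
  · rcases le_or_gt w.re (-(5 * D.Ru)) with h' | h'
    · exact ⟨(D.μ, D.Et), pvir_ms_m, pvir_cov_m H (by linarith) h' a3 a4, subset_univ _⟩
    · exact ⟨(D.Ru / 16, (pvirEu r s' 𝔱 O c).E), pvir_ms_u, pvir_cov_u (c := c) F h'.le a2 a3 a4, subset_univ _⟩

theorem pvir_KE_bdd (D : PvirDat) : Bornology.IsBounded D.KE := (pvjo_t_rect_bdd _ _ _ _).union (pvjo_t_rect_bdd _ _ _ _)

theorem pvir_KE_closed (D : PvirDat) : IsClosed D.KE := (rsw_rect_closed _ _ _ _).union (rsw_rect_closed _ _ _ _)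

/-- **the complement of the room of the lanes is preconnected** (star convex round `(-Ru, yd)`) -/
theorem pvir_KE_co (H : D.Ok) : IsPreconnected D.KEᶜ := by
  have hdu := H.du; have hx := H.xd8; have hy0 := H.y0; have hy1 := H.y1; have hd0 := H.Rd0; have hu0 := H.Ru0
  refine pvrt_star (p := ⟨-D.Ru, D.yd⟩) (StarConvex.union ?_ ?_) (pvir_KE_bdd D)
  · exact (rsw_rect_convex _ _ _ _).starConvex ⟨by show _ ≤ -D.Ru; linarith, by show -D.Ru ≤ _; linarith, by show _ ≤ D.yd; linarith, by show D.yd ≤ _; linarith⟩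
  · exact (rsw_rect_convex _ _ _ _).starConvex ⟨by show _ ≤ -D.Ru; linarith, by show -D.Ru ≤ _; linarith, by show _ ≤ D.yd; linarith, by show D.yd ≤ _; linarith⟩

/-- the rooms of the two ends lie in the region `TT` -/
theorem pvir_A_TT (F : PvirFit D r s s' 𝔱 O) (β : Bool) :
    pvkdAt D.zd (1 * (s : ℂ)) (cthickening (r / 16) (𝔱.Ln true β)) ∪ pvlnU D.l (D.L β) ∪ pvkdAt 0 (1 * (s' : ℂ)) (cthickening (r / 16) (𝔱.Ln false β)) ⊆ D.TT := by
  have H := F.ok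
  have hdu := H.du; have hx := H.xd8; have hy0 := H.y0; have hy1 := H.y1; have hd0 := H.Rd0; have hu0 := H.Ru0
  rw [F.tr.Ln]
  refine union_subset (union_subset ?_ (pvir_U_TT H β)) ?_
  · exact ((pvir_Ed_A F β).trans (pvir_R_mono (by linarith) (by linarith) (by linarith) (by linarith))).trans subset_union_left
  · exact ((pvir_Eu_A F β).trans (pvir_R_mono (by linarith) (by linarith) (by linarith) (by linarith))).trans subset_union_right

/-- **`PvnlLay` OF THE FUNNEL `r`** (272), mask `univ`, any two disjoint zones of the plugs -/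
theorem pvir_lay (F : PvirFit D r s s' 𝔱 O) (c : Bool) (hd : ρd = D.Rd / 16) (hu : ρu = D.Ru / 16) {Q Q' : Set ℂ} (far : Disjoint Q Q') :
    PvnlLay (pvirLk D r s s' 𝔱 O c) (pvirMs D r s s' 𝔱 O c ρd ρu) D.KE univ Q Q' where
  bK := pvir_KE_bdd D
  co := pvir_KE_co F.ok
  far := far
  cov₁ := pvnl_cov_mono (pvir_cov_TT F hd hu) (pvir_A_TT F true) Subset.rfl
  cov₂ := pvnl_cov_mono (pvir_cov_TT F hd hu) (pvir_A_TT F false) Subset.rfl
  covK := pvir_cov_KE F hd hu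

/-- **the planar region which the link reads off its two plugs** -/
theorem pvir_Kp (F : PvirFit D r s s' 𝔱 O) (c : Bool) : pvnhKp (pvirLk D r s s' 𝔱 O c) D.wk.Et ⊆ D.Et := by
  have H := F.ok
  have hdu := H.du; have hx := H.xd8; have hy0 := H.y0; have hy1 := H.y1; have hd0 := H.Rd0; have hu0 := H.Ru0
  rintro w ⟨hw, hO⟩
  have hO' : w ∉ D.Od ∪ D.Ou := by
    have e : (pvirLk D r s s' 𝔱 O c).e.O ∪ (pvirLk D r s s' 𝔱 O c).e'.O = D.Od ∪ D.Ou := by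
      show (pvirEd D r s 𝔱 O c).O ∪ (pvirEu r s' 𝔱 O c).O = _
      rw [pvir_Ed_O F, pvir_Eu_O F]
    rwa [e] at hO
  refine ⟨?_, hO'⟩
  rcases hw with (((h | h) | h) | h) | h
  · rcases pvir_Ed_E F h with h' | ⟨a1, a2, a3, a4⟩
    · exact absurd (Or.inl h') hO'
    · exact ⟨by linarith, by linarith, by linarith, by linarith⟩
  · rcases pvir_Eu_E F h with h' | ⟨a1, a2, a3, a4⟩
    · exact absurd (Or.inr h') hO'
    · exact ⟨by linarith, by linarith, by linarith, by linarith⟩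
  · obtain ⟨-, a1, a2, a3, a4⟩ := pvir_win_box H true h
    exact ⟨by linarith, by linarith, by linarith, by linarith⟩
  · obtain ⟨-, a1, a2, a3, a4⟩ := pvir_win_box H false h
    exact ⟨by linarith, by linarith, by linarith, by linarith⟩
  · exact h.1

end lay

/-! ## 7. the link `lr` of the data of road P -/

section data

open scoped ENNReal

variable {τ : Type} {cc : ℝ} {𝔶 : PvydGeo τ} {𝔓 : PvrxPar τ cc} {𝔤 : PvkdGeo} {𝔱 : PvhfTr} {b q : ℝ≥0∞} {δ su : ℕ → ℝ} {m : ℕ} {D : PvirDat} {r : ℝ}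

/-- the door ends of record, FOR ALL `b q` -/
theorem pvir_eD (H : PvyeIs 𝔶 (pvyeV 𝔤 𝔱 b q) δ su) (c : Bool) (m : ℕ) (ε : ℝ) (σ : Bool) (z d : ℂ) :
    𝔶.eD c m ε σ z d = pvyeEnd (pvyeE0 𝔤.toPvkdPlug 𝔱 𝔤.O₀ σ) c z (d * δ m) := by
  have hO : pvthSim z d '' (𝔶.kit m ε).O₀ = (pvyeEnd (pvyeE0 𝔤.toPvkdPlug 𝔱 𝔤.O₀ σ) c z (d * δ m)).O := by
    rw [H.kit, pvye_end_O]
    show pvthSim z d '' (pvthSim 0 (δ m) '' 𝔤.O₀) = _
    rw [pvbe_sc_reg]
    rfl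
  unfold PvydGeo.eD pvydEnd
  rw [hO, H.en, pvye_V_sd]

/-- the ends of record of the reference plug, FOR ALL `b q` -/
theorem pvir_eU (H : PvyeIs 𝔶 (pvyeV 𝔤 𝔱 b q) δ su) (c : Bool) (m : ℕ) (σ : Bool) (w : ℂ) :
    𝔶.eU c m σ w = pvyeEnd (pvyeE0 𝔤.toPvkdPlug 𝔱 𝔤.O₀ σ) c w (su m) := by
  have hO : pvthSim w 1 '' 𝔶.Ou m = (pvyeEnd (pvyeE0 𝔤.toPvkdPlug 𝔱 𝔤.O₀ σ) c w (su m)).O := by
    rw [H.Ou, pvye_end_O, pvbe_sc_reg, one_mul]
    rfl
  unfold PvydGeo.eU pvydEnd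
  rw [hO, H.eu, pvye_V_sd]

/-- **THE LINK `lr` IS THE LINK OF THIS FILE** -/
theorem pvir_lr (H : PvyeIs 𝔶 (pvyeV 𝔤 𝔱 b q) δ su) (hg : 𝔤.toPvkdPlug = pvkdP r) (hp : (𝔓.Γ m).pin0 = D.zd) (hd : (𝔓.Γ m).din0 = 1) (hw : 𝔶.wr m = D.wk) (ε : ℝ) :
    𝔶.lr 𝔓 m ε = pvirLk D r (δ m) (su m) 𝔱 𝔤.O₀ true := by
  unfold PvydGeo.lr pvirLk pvirEd pvirEu
  rw [hw, hp, hd, pvir_eD H, pvir_eU H, hg, one_mul ((su m : ℝ) : ℂ)]

end data

/-! ## 8. the numbers at `Γ` of record (114 `Tr/LinkGam`) -/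

/-- **THE NUMBERS OF THE FUNNEL `r` AT THE LEVEL `m`**: unit of the kit plug `1/40`, door plugs at the scale `dc / (2 mm + 1)`, reference plug at the scale `40 dl h` -/
noncomputable def pvirD (𝔑 : PvrcNum) (c : ℝ) (m : ℕ) : PvirDat where
  l := 1 / 40 * (𝔑.dc c m / (2 * (𝔑.mm : ℝ) + 1)) / 32
  μ := 1 / 40 * (𝔑.dc c m / (2 * (𝔑.mm : ℝ) + 1)) / 16
  xd := -(8 * (𝔑.dl * pvlmH m)) - 9 * (𝔑.dc c m / (2 * (𝔑.mm : ℝ) + 1))
  yd := 𝔑.dc c m * ((((pvlmN c m : ℤ) / 2 : ℤ) : ℝ) + 1 / 2)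
  Rd := 1 / 40 * (𝔑.dc c m / (2 * (𝔑.mm : ℝ) + 1))
  Ru := 1 / 40 * (40 * 𝔑.dl * pvlmH m)

theorem pvir_eqns_cite5 : True := by
  have := @pvirD.eq_1
  trivial

section model

variable {𝔑r : PvrcNum} {𝔑 : PvmnNum} {T : Type} {ty : T → PvmnType}

theorem pvir_D_ok (H : 𝔑r.Ok) (c : ℝ) (m : ℕ) : (pvirD 𝔑r c m).Ok := by
  have hdc := pvrc_dc_pos H c m
  have hmul := pvrc_dc_mul H c m
  have hmm : (10 : ℝ) ≤ (𝔑r.mm : ℝ) := by exact_mod_cast H.mm10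
  have hk : (0 : ℝ) < 2 * (𝔑r.mm : ℝ) + 1 := by linarith
  set f : ℝ := 𝔑r.dc c m / (2 * (𝔑r.mm : ℝ) + 1) with hf
  have hf0 : 0 < f := div_pos hdc hk
  have hdf : 𝔑r.dc c m = (2 * (𝔑r.mm : ℝ) + 1) * f := by rw [hf]; field_simp
  have hN : (1 : ℝ) ≤ (pvlmN c m : ℝ) := by exact_mod_cast pvlm_N_pos c m
  have hNz : (1 : ℤ) ≤ (pvlmN c m : ℤ) := by exact_mod_cast pvlm_N_pos c m
  set j : ℤ := (pvlmN c m : ℤ) / 2 with hj
  have j1 : (pvlmN c m : ℤ) ≤ 2 * j + 1 := by omega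
  have j2 : 2 * (2 * j + 1) ≤ 3 * (pvlmN c m : ℤ) := by omega
  have j1' : (pvlmN c m : ℝ) ≤ 2 * (j : ℝ) + 1 := by exact_mod_cast j1
  have j2' : 2 * (2 * (j : ℝ) + 1) ≤ 3 * (pvlmN c m : ℝ) := by exact_mod_cast j2
  have hDm : 21 * f ≤ 𝔑r.dl * pvlmH m := by
    rw [← hmul, hdf]
    nlinarith
  refine ⟨?_, ?_, ?_, ?_, ?_, ?_, ?_, ?_⟩
  · show 0 < 1 / 40 * f / 32
    positivity
  · show 32 * (1 / 40 * f / 32) ≤ 1 / 40 * f
    linarith
  · show 0 < 1 / 40 * f / 16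
    positivity
  · show 16 * (1 / 40 * f / 16) ≤ 1 / 40 * f
    linarith
  · show 64 * (1 / 40 * f) ≤ 1 / 40 * (40 * 𝔑r.dl * pvlmH m)
    linarith
  · show -(8 * (𝔑r.dl * pvlmH m)) - 9 * f + 8 * (1 / 40 * f) ≤ -(8 * (1 / 40 * (40 * 𝔑r.dl * pvlmH m)))
    linarith
  · show 1 / 40 * (40 * 𝔑r.dl * pvlmH m) / 2 ≤ 𝔑r.dc c m * ((j : ℝ) + 1 / 2)
    have : 1 / 40 * (40 * 𝔑r.dl * pvlmH m) = (pvlmN c m : ℝ) * 𝔑r.dc c m := by rw [hmul]; ring
    rw [this]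
    nlinarith
  · show 𝔑r.dc c m * ((j : ℝ) + 1 / 2) ≤ 3 * (1 / 40 * (40 * 𝔑r.dl * pvlmH m)) / 4
    have : 1 / 40 * (40 * 𝔑r.dl * pvlmH m) = (pvlmN c m : ℝ) * 𝔑r.dc c m := by rw [hmul]; ring
    rw [this]
    nlinarith

/-- **the door of the reference plug** -/
theorem pvir_pin0 (H : PvlzHyp 𝔑r 𝔑 ty) (c : ℝ) (m : ℕ) : (pvlzGam H c m).pin0 = (pvirD 𝔑r c m).zd := by
  have hmul := pvrc_dc_mul H.ok c m
  have hmm : (10 : ℝ) ≤ (𝔑r.mm : ℝ) := by exact_mod_cast H.ok.mm10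
  have hk : (2 * (𝔑r.mm : ℝ) + 1) ≠ 0 := by linarith
  rw [pvlz_pin0]
  have hO1 : pvrcOf (pvlmN c m : ℤ) (-1) = 0 := by simp [pvrcOf]
  have hO2 : pvrcOf (pvlmN c m : ℤ) 0 = (pvlmN c m : ℤ) / 2 := by simp [pvrcOf]
  apply Complex.ext
  · show _ = -(8 * (𝔑r.dl * pvlmH m)) - 9 * (𝔑r.dc c m / (2 * (𝔑r.mm : ℝ) + 1))
    simp only [pvfjDoor, pvfjA, pvtbPt, pvrcDoor, pvtZ, hO1, hO2]
    rw [← hmul]
    simp only [Complex.mul_re, Complex.ofReal_re, Complex.ofReal_im, Complex.add_re, Complex.sub_re, Complex.add_im, Complex.sub_im, Complex.intCast_re, Complex.intCast_im, Complex.I_re, Complex.I_im,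
      Complex.one_re, Complex.one_im, Complex.div_ofNat_re, Complex.div_ofNat_im, Complex.mul_im]
    push_cast
    field_simp
    ring
  · show _ = 𝔑r.dc c m * ((((pvlmN c m : ℤ) / 2 : ℤ) : ℝ) + 1 / 2)
    simp only [pvfjDoor, pvfjA, pvtbPt, pvrcDoor, pvtZ, hO1, hO2]
    simp only [Complex.mul_re, Complex.ofReal_re, Complex.ofReal_im, Complex.add_re, Complex.sub_re, Complex.add_im, Complex.sub_im, Complex.intCast_re, Complex.intCast_im, Complex.I_re, Complex.I_im,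
      Complex.one_re, Complex.one_im, Complex.div_ofNat_re, Complex.div_ofNat_im, Complex.mul_im]
    push_cast
    field_simp
    ring

/-- **THE NUMBERS FIT THE TWO PLUGS OF RECORD** -/
theorem pvir_fit (H : 𝔑r.Ok) (c : ℝ) (m : ℕ) : PvirFit (pvirD 𝔑r c m) (1 / 40) (𝔑r.dc c m / (2 * (𝔑r.mm : ℝ) + 1)) (40 * 𝔑r.dl * pvlmH m) pvk2T pvkgG.O₀ where
  ok := pvir_D_ok H c m
  r0 := by norm_num
  s0 := by
    have hmm : (10 : ℝ) ≤ (𝔑r.mm : ℝ) := by exact_mod_cast H.mm10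
    exact div_pos (pvrc_dc_pos H c m) (by linarith)
  s0' := by
    have := H.dl0
    have := pvlm_H_pos m
    positivity
  Rd := rfl
  Ru := rfl
  tr := pvir_tr_k2

end model

/-! ## 9. THE FUNNEL `r` AT THE TERM OF RECORD, for any data with the equations of 291 -/

section term

open scoped ENNReal

variable {τ : Type} {cc : ℝ} {𝔶 : PvydGeo τ} {𝔓 : PvrxPar τ cc} {b q : ℝ≥0∞} {δ su : ℕ → ℝ} {m : ℕ} {𝔑r : PvrcNum} {c : ℝ}

/-- **WHAT THE DATA OWE AT THE LEVEL `m`**: the equations of 291 at the truncation of record, the two scales, the door of the reference plug, THE WALKS OF THIS FILE -/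
structure PvirIs (𝔶 : PvydGeo τ) (𝔓 : PvrxPar τ cc) (b q : ℝ≥0∞) (δ su : ℕ → ℝ) (𝔑r : PvrcNum) (c : ℝ) (m : ℕ) : Prop where
  is : PvyeIs 𝔶 (pvyeV pvkgG pvk2T b q) δ su
  ok : 𝔑r.Ok
  del : δ m = 𝔑r.dc c m / (2 * (𝔑r.mm : ℝ) + 1)
  su : su m = 40 * 𝔑r.dl * pvlmH m
  pin0 : (𝔓.Γ m).pin0 = (pvirD 𝔑r c m).zd
  din0 : (𝔓.Γ m).din0 = 1
  wr : 𝔶.wr m = (pvirD 𝔑r c m).wk

variable (I : PvirIs 𝔶 𝔓 b q δ su 𝔑r c m)

include I

theorem PvirIs.fit : PvirFit (pvirD 𝔑r c m) (1 / 40) (δ m) (su m) pvk2T pvkgG.O₀ := by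
  rw [I.del, I.su]
  exact pvir_fit I.ok c m

theorem PvirIs.lr (ε : ℝ) : 𝔶.lr 𝔓 m ε = pvirLk (pvirD 𝔑r c m) (1 / 40) (δ m) (su m) pvk2T pvkgG.O₀ true := pvir_lr I.is rfl I.pin0 I.din0 I.wr ε

/-- **field `r_geo`** (every `ε`) -/
theorem PvirIs.geo (ε : ℝ) : (𝔶.lr 𝔓 m ε).Geo := by
  rw [I.lr]
  exact pvir_geo I.fit true

/-- **field `r_win`** -/
theorem PvirIs.win : PvnhWin (𝔶.wr m).Et (𝔶.wr m).M := by
  rw [I.wr]
  exact pvir_win _

/-- **field `r_rooms`** -/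
theorem PvirIs.rooms (ε : ℝ) : (𝔶.lr 𝔓 m ε).Rooms := by
  rw [I.lr]
  exact pvir_rooms I.fit true

/-- **field `r_len`** -/
theorem PvirIs.len : (𝔶.wr m).L₁.length ≤ (pvirD 𝔑r c m).len ∧ (𝔶.wr m).L₂.length ≤ (pvirD 𝔑r c m).len := by
  rw [I.wr]
  exact pvir_len _

/-- **field `r_off`** -/
theorem PvirIs.off (ε : ℝ) : PvnhOff (𝔶.lr 𝔓 m ε) (𝔶.wr m).Et (𝔶.wr m).M := by
  rw [I.lr, I.wr]
  exact pvir_off I.fit true

/-- **field `r_lim`** -/
theorem PvirIs.lim : Tendsto (fun ε : ℝ => pvP ε ((𝔶.wr m).M)ᶜ) (𝓝[>] 0) (𝓝 0) := by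
  rw [I.wr]
  exact pvir_lim I.fit.ok

/-- **`PvnlLay`** at the list `[(δ_m ρ, E_d), (μ, Et), (su_m ρ, E_u)]`, room `KE`, mask `univ` -/
theorem PvirIs.lay (ε : ℝ) {Q Q' : Set ℂ} (far : Disjoint Q Q') :
    PvnlLay (𝔶.lr 𝔓 m ε) [(δ m * pvkgG.ρ, (𝔶.lr 𝔓 m ε).e.E), ((pvirD 𝔑r c m).μ, (𝔶.wr m).Et), (su m * pvkgG.ρ, (𝔶.lr 𝔓 m ε).e'.E)] (pvirD 𝔑r c m).KE univ Q Q' := by
  rw [I.lr, I.wr]
  refine pvir_lay I.fit true (ρd := δ m * pvkgG.ρ) (ρu := su m * pvkgG.ρ) ?_ ?_ far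
  · rw [← I.fit.Rd]
    show δ m * (1 / 40 / 16) = _
    ring
  · rw [← I.fit.Ru]
    show su m * (1 / 40 / 16) = _
    ring

/-- **the planar region read by the funnel off its two plugs** lies in the rectangle `[xd, 0] × [-3Ru, 3Ru]` minus the two open door squares -/
theorem PvirIs.Kp (ε : ℝ) : pvnhKp (𝔶.lr 𝔓 m ε) (𝔶.wr m).Et ⊆ (pvirD 𝔑r c m).Et := by
  rw [I.lr, I.wr]
  exact pvir_Kp I.fit true

end term

/-! ## 10. the other clauses of the contract of a link (270 `Exit/GeoWP`): `mK mesh dvs dvt ms0 zc far` -/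

section abs

variable {D : PvirDat} {r s s' : ℝ} {𝔱 : PvhfTr} {O : Set ℂ} {c : Bool} {ρd ρu : ℝ}

theorem pvir_KE_meas (D : PvirDat) : MeasurableSet D.KE := (pvir_KE_closed D).measurableSet

theorem pvir_s_ne {s : ℝ} (hs : 0 < s) : (1 : ℂ) * (s : ℂ) ≠ 0 := by
  rw [one_mul]
  exact_mod_cast hs.ne'

theorem pvir_s_norm {s : ℝ} (hs : 0 < s) : ‖(1 : ℂ) * (s : ℂ)‖ = s := by
  rw [one_mul, Complex.norm_real, Real.norm_eq_abs, abs_of_pos hs]

/-- **the meshes of the list** follow from the two side events and the guard of the corridor -/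
theorem pvir_ms (F : PvirFit D r s s' 𝔱 O) (c : Bool) (hd : ρd = D.Rd / 16) (hu : ρu = D.Ru / 16) :
    Pvn2Ms (pvirEd D r s 𝔱 O c) (pvirEu r s' 𝔱 O c) D.μ D.Et (pvirMs D r s s' 𝔱 O c ρd ρu) := by
  intro η h1 h2 h3 q hq
  simp only [pvirMs, List.mem_cons, List.not_mem_nil, or_false] at hq
  rcases hq with rfl | rfl | rfl
  · have h := pvyh_mesh_end (pvkdP r) 𝔱 O true c D.zd (pvir_s_ne F.s0) h1
    rw [pvir_s_norm F.s0] at h
    have e : s * (pvkdP r).ρ = ρd := by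
      rw [hd, ← F.Rd]
      show s * (r / 16) = _
      ring
    rw [e] at h
    exact h
  · exact h3
  · have h := pvyh_mesh_end (pvkdP r) 𝔱 O false c 0 (pvir_s_ne F.s0') h2
    rw [pvir_s_norm F.s0'] at h
    have e : s' * (pvkdP r).ρ = ρu := by
      rw [hu, ← F.Ru]
      show s' * (r / 16) = _
      ring
    rw [e] at h
    exact h

/-- the same on the bare event of the link with its guard -/
theorem pvir_mesh (F : PvirFit D r s s' 𝔱 O) (c : Bool) (hd : ρd = D.Rd / 16) (hu : ρu = D.Ru / 16) :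
    ∀ η ∈ pvnhA₀ (pvirLk D r s s' 𝔱 O c) D.wk.M, ∀ q ∈ pvirMs D r s s' 𝔱 O c ρd ρu, PvtrMesh q.1 q.2 (cfSites η) :=
  fun η hη => pvir_ms F c hd hu η hη.1.1.1 hη.1.1.2 (pvjo_mesh_of hη.2)

/-- a placed dilated set -/
theorem pvir_at_dil (z : ℂ) (s : ℝ) (S : Set ℂ) : pvkdAt z 1 (pvdilS s S) = pvkdAt z (1 * (s : ℂ)) S := by
  unfold pvkdAt pvdilS
  rw [image_image]
  refine image_congr fun u _ => ?_
  simp only [pvthSim, vorSim]
  ring

/-- **the room of the lanes misses the room of `g⁻` of the door plug** -/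
theorem pvir_dvs (F : PvirFit D r s s' 𝔱 O) : Disjoint D.KE (pvkdAt D.zd 1 (pvyhZ ((pvkdP r).sc s) true)) := by
  have H := F.ok
  have hdu := H.du; have hx := H.xd8; have hd0 := H.Rd0; have hu0 := H.Ru0
  have e : pvkdAt D.zd 1 (pvyhZ ((pvkdP r).sc s) true) = rswRect (D.xd + s * (-(2 * r))) (D.xd + s * (-(r / 2))) (D.yd + s * (-(r / 2))) (D.yd + s * (r / 2)) := by
    show pvkdAt D.zd 1 (pvdilS s (rswRect (-(2 * r)) (-(r / 2)) (-(r / 2)) (r / 2))) = _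
    rw [pvir_at_dil, pvir_at_R F.s0]
    rfl
  rw [e, disjoint_left]
  have hR := F.Rd
  rintro w (⟨a1, a2, a3, a4⟩ | ⟨a1, a2, a3, a4⟩) ⟨b1, b2, b3, b4⟩ <;> nlinarith

/-- **the room of the lanes misses the room of `g⁺` of the reference plug** -/
theorem pvir_dvt (F : PvirFit D r s s' 𝔱 O) : Disjoint D.KE (pvkdAt 0 1 (pvyhZ ((pvkdP r).sc s') false)) := by
  have H := F.ok
  have hdu := H.du; have hx := H.xd8; have hd0 := H.Rd0; have hu0 := H.Ru0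
  have e : pvkdAt 0 1 (pvyhZ ((pvkdP r).sc s') false) = rswRect (0 + s' * (r / 2)) (0 + s' * (2 * r)) (0 + s' * (-(r / 2))) (0 + s' * (r / 2)) := by
    show pvkdAt 0 1 (pvdilS s' (rswRect (r / 2) (2 * r) (-(r / 2)) (r / 2))) = _
    rw [pvir_at_dil, pvir_at_R F.s0']
    rfl
  rw [e, disjoint_left]
  have hR := F.Ru
  rintro w (⟨a1, a2, a3, a4⟩ | ⟨a1, a2, a3, a4⟩) ⟨b1, b2, b3, b4⟩ <;> nlinarith

/-- a placed measurable set -/
theorem pvir_at_meas {s : ℝ} (hs : 0 < s) (z : ℂ) {S : Set ℂ} (hS : MeasurableSet S) : MeasurableSet (pvkdAt z (1 * (s : ℂ)) S) := by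
  have e : pvkdAt z (1 * (s : ℂ)) S = (fun p : ℂ => (⟨(p.re - z.re) / s, (p.im - z.im) / s⟩ : ℂ)) ⁻¹' S := by
    ext p
    exact pvir_at_iff hs z S p
  rw [e]
  refine hS.preimage ?_
  have h1 : Measurable fun p : ℂ => (p.re - z.re) / s := (Complex.measurable_re.sub_const _).div_const _
  have h2 : Measurable fun p : ℂ => (p.im - z.im) / s := (Complex.measurable_im.sub_const _).div_const _
  have h3 : (fun p : ℂ => (⟨(p.re - z.re) / s, (p.im - z.im) / s⟩ : ℂ)) = fun p : ℂ => Complex.equivRealProd.symm ((p.re - z.re) / s, (p.im - z.im) / s) := rfl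
  rw [h3]
  exact Complex.measurableEquivRealProd.symm.measurable.comp (h1.prodMk h2)

/-- **the windows of the list** are measurable, with positive meshes, read by the link -/
theorem pvir_ms0 (F : PvirFit D r s s' 𝔱 O) (c : Bool) (hd : ρd = D.Rd / 16) (hu : ρu = D.Ru / 16) (hm : ∀ σ, MeasurableSet (𝔱.Es σ)) :
    ∀ q ∈ pvirMs D r s s' 𝔱 O c ρd ρu, 0 < q.1 ∧ MeasurableSet q.2 ∧ q.2 ⊆ (pvirEd D r s 𝔱 O c).O ∪ (pvirEu r s' 𝔱 O c).O ∪ (pvirEd D r s 𝔱 O c).E ∪ (pvirEu r s' 𝔱 O c).E ∪ D.wk.Et := by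
  have H := F.ok
  have hd0 := H.Rd0; have hu0 := H.Ru0
  intro q hq
  simp only [pvirMs, List.mem_cons, List.not_mem_nil, or_false] at hq
  rcases hq with rfl | rfl | rfl
  · exact ⟨by show 0 < ρd; rw [hd]; positivity, pvir_at_meas F.s0 _ (hm true), fun x hx => Or.inl (Or.inl (Or.inr hx))⟩
  · exact ⟨H.μ0, pvir_Et_meas D, fun x hx => Or.inr hx⟩
  · exact ⟨by show 0 < ρu; rw [hu]; positivity, pvir_at_meas F.s0' _ (hm false), fun x hx => Or.inl (Or.inr hx)⟩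

/-- **THE ABSTRACT DATA OF THE FUNNEL `r`** (270): the walks, the room of the lanes, the list -/
noncomputable def pvirA (D : PvirDat) (r s s' : ℝ) (𝔱 : PvhfTr) (O : Set ℂ) (c : Bool) (ρd ρu : ℝ) : PvvwLa := ⟨D.wk, D.KE, pvirMs D r s s' 𝔱 O c ρd ρu⟩

theorem pvir_eqns_cite6 : True := by
  have := @pvirA.eq_1
  trivial

/-- **THE ABSTRACT CONTRACT OF 270 FOR THE FUNNEL `r`**, any zones deep in the windows of the two ends -/
theorem pvir_la (F : PvirFit D r s s' 𝔱 O) (c : Bool) (hd : ρd = D.Rd / 16) (hu : ρu = D.Ru / 16) (hm : ∀ σ, MeasurableSet (𝔱.Es σ)) {Z Z' : Set ℂ}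
    (hZ : Z ⊆ pvtrCore (3 * ρd) (pvirEd D r s 𝔱 O c).E) (hZ' : Z' ⊆ pvtrCore (3 * ρu) (pvirEu r s' 𝔱 O c).E) :
    (pvirA D r s s' 𝔱 O c ρd ρu).Ok (pvirEd D r s 𝔱 O c) (pvirEu r s' 𝔱 O c) Z Z' (pvkdAt D.zd 1 (pvyhZ ((pvkdP r).sc s) true)) (pvkdAt 0 1 (pvyhZ ((pvkdP r).sc s') false)) D.len where
  geo := pvir_geo F c
  rooms := pvir_rooms F c
  win := pvir_win D
  off := pvir_off F c
  lim := pvir_lim F.ok
  len := pvir_len D
  lay := by
    have hd0 := F.ok.Rd0; have hu0 := F.ok.Ru0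
    refine pvir_lay F c hd hu (pvvw_far (pvir_geo F c).dj (hZ.trans fun x hx => hx (mem_closedBall_self ?_)) (hZ'.trans fun x hx => hx (mem_closedBall_self ?_)))
    · rw [hd]; positivity
    · rw [hu]; positivity
  mK := pvir_KE_meas D
  mesh := pvir_mesh F c hd hu
  dvs := pvir_dvs F
  dvt := pvir_dvt F
  ms0 := pvir_ms0 F c hd hu hm
  zc := pvvw_zc (p := (ρd, (pvirEd D r s 𝔱 O c).E)) (p' := (ρu, (pvirEu r s' 𝔱 O c).E)) (by simp [pvirA, pvirMs]) (by simp [pvirA, pvirMs]) hZ hZ'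

end abs

/-! ## 11. `PvvwR` of 270 at the term of record -/

/-- **THE DATA OF RECORD OF THE FUNNEL `r` AT THE LEVEL `m`** (numbers of the menu only: no `b q`, no `ε`) -/
noncomputable def pvirLr (𝔑r : PvrcNum) (c : ℝ) (m : ℕ) : PvvwLa :=
  pvirA (pvirD 𝔑r c m) (1 / 40) (𝔑r.dc c m / (2 * (𝔑r.mm : ℝ) + 1)) (40 * 𝔑r.dl * pvlmH m) pvk2T pvkgG.O₀ true (𝔑r.dc c m / (2 * (𝔑r.mm : ℝ) + 1) * pvkgG.ρ) (40 * 𝔑r.dl * pvlmH m * pvkgG.ρ)

theorem pvir_eqns_cite7 : True := by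
  have := @pvirLr.eq_1
  trivial

section termR

open scoped ENNReal

variable {τ : Type} {cc : ℝ} {𝔶 : PvydGeo τ} {𝔓 : PvrxPar τ cc} {b q : ℝ≥0∞} {δ su : ℕ → ℝ} {m : ℕ} {𝔑r : PvrcNum} {c : ℝ}

theorem pvir_Lr_w (𝔑r : PvrcNum) (c : ℝ) (m : ℕ) : (pvirLr 𝔑r c m).w = (pvirD 𝔑r c m).wk := rfl

theorem pvir_Lr_KE (𝔑r : PvrcNum) (c : ℝ) (m : ℕ) : (pvirLr 𝔑r c m).KE = (pvirD 𝔑r c m).KE := rfl

/-- **`PvvwR`: WHAT THE FUNNEL `r` OWES AT THE LEVEL `m`** -/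
theorem PvirIs.R (I : PvirIs 𝔶 𝔓 b q δ su 𝔑r c m) : PvvwR 𝔓 𝔶 (pvkgG.toPvkdPlug.sc (δ m)) (pvkgG.toPvkdPlug.sc (su m)) (pvirD 𝔑r c m).len m (pvirLr 𝔑r c m) where
  wr := I.wr
  r := Eventually.of_forall fun ε => by
    have F := pvir_fit I.ok c m
    rw [pvir_eD I.is, pvir_eU I.is, I.pin0, I.din0, I.del, I.su]
    have e : (((40 * 𝔑r.dl * pvlmH m : ℝ)) : ℂ) = 1 * (((40 * 𝔑r.dl * pvlmH m : ℝ)) : ℂ) := (one_mul _).symm
    rw [e]
    refine pvir_la F true ?_ ?_ (fun σ => (pvk2_Es_open σ).measurableSet) ?_ ?_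
    · rw [← F.Rd]
      show _ * (1 / 40 / 16) = _
      ring
    · rw [← F.Ru]
      show _ * (1 / 40 / 16) = _
      ring
    · have h := pvvw_zc_kit F.s0 (pvirD 𝔑r c m).zd (d := 1) norm_one (E := pvk2Es true) (pvk2_O_sub true)
      have e2 : 𝔑r.dc c m / (2 * (𝔑r.mm : ℝ) + 1) * pvkgG.ρ = 𝔑r.dc c m / (2 * (𝔑r.mm : ℝ) + 1) * (1 / 640) := by
        show _ * (1 / 40 / 16) = _
        ring
      rw [e2]
      exact h
    · have h := pvvw_zc_kit F.s0' 0 (d := 1) norm_one (E := pvk2Es false) (pvk2_O_sub false)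
      have e2 : 40 * 𝔑r.dl * pvlmH m * pvkgG.ρ = 40 * 𝔑r.dl * pvlmH m * (1 / 640) := by
        show _ * (1 / 40 / 16) = _
        ring
      rw [e2]
      exact h

end termR

open scoped ENNReal

/-! ## 12. THE SUB-ROOF (FUNNEL `r`) OF THE ROOF GEO (36 `Exit/GeoP`) -/

section roof

variable {𝔤 : PvmhNum} {c : ℝ}

/-- the term of record of 36 has the equations of sec. 9, at every level, for all `b q m0` -/
theorem pvir_is_term (H : PvrzGood 𝔤) (b q : ℝ≥0∞) {Λ : PveqLk (PvmhT 𝔤)} (hL : Λ.Lr = pvirLr (pvrsNum 𝔤) c) (m0 m : ℕ) :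
    PvirIs (pveqT c b q Λ) (pveqP c H m0) b q (pveqDel c 𝔤) (pveqSu 𝔤) (pvrsNum 𝔤) c m where
  is := (pveq_is b q _ _ Λ).is
  ok := (pvrs_rel H.ok).ok
  del := rfl
  su := rfl
  pin0 := pvir_pin0 (pvma_hyp H.ok) c m
  din0 := pvlz_din0 (pvma_hyp H.ok) c m
  wr := by
    show (Λ.Lr m).w = _
    rw [hL]
    rfl

/-- **the rectangle of `K_r`** in the words of 58 / 4 (`r_K`;   gives `r_sd`, `r_pl`): `d = dl h_m` -/
theorem PvirIs.rK {τ : Type} {cc : ℝ} {𝔶 : PvydGeo τ} {𝔓 : PvrxPar τ cc} {b q : ℝ≥0∞} {δ su : ℕ → ℝ} {m : ℕ} {𝔑r : PvrcNum} {c : ℝ} (I : PvirIs 𝔶 𝔓 b q δ su 𝔑r c m) (ε : ℝ) :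
    ∀ x ∈ pvnhKp (𝔶.lr 𝔓 m ε) (𝔶.wr m).Et, (𝔓.Γ m).pin0.re ≤ x.re ∧ x.re ≤ 0 ∧ -(8 * (𝔑r.dl * pvlmH m)) ≤ x.im ∧ x.im ≤ 9 * (𝔑r.dl * pvlmH m) := by
  intro x hx
  obtain ⟨⟨a1, a2, a3, a4⟩, -⟩ := I.Kp ε hx
  have hu0 := I.fit.ok.Ru0
  have e : (pvirD 𝔑r c m).Ru = 𝔑r.dl * pvlmH m := by
    show 1 / 40 * (40 * 𝔑r.dl * pvlmH m) = _
    ring
  rw [e] at a3 a4 hu0
  rw [I.pin0]
  exact ⟨a1, a2, by linarith, by linarith⟩

/-- **(FUNNEL `r`)** = `exit_pveq_r` of `Exit/GeoTP` -/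
theorem pvir_RSt (H : PvrzGood 𝔤) : PveqRSt c H :=
  ⟨0, pvirLr (pvrsNum 𝔤) c, fun m => (pvirD (pvrsNum 𝔤) c m).len, fun b q Λ hL =>
    { rr := fun m0 m _ => by
        have h := (pvir_is_term H b q hL m0 m).R
        rw [hL]
        exact h }⟩

end roof

end Claimed.Agent.R289
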