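import Claimed.Agent.R289.Tr.PinLoc

/-!
# Row 289 (S0537), THE WALL, file Exit/WinG : WINDOWS WHICH ARE NOT CLOSED      (helper162; prefix `pvyw_`)

CONSUMER: `PvznGeo.wA : ∀ τ, PvplWin (𝔤.Ea τ)` (107, `Tr/PlugW.lean`), `𝔤.Ea τ = 𝔤.O₀ ∪ 𝔤.K₀ τ ∪ pvkdAt (𝔤.zo 0 1 τ) τ.rot 𝔤.O₀` (34, `Tr/PlugK.lean`).
WHY: `PvccKitRef.O_sub` puts `O₀` inside the OPEN square `pvccSq 0 r`, `K_off` puts `K₀ τ` off that square, `PvznGeo.cA` wants the room of the run deep inside the union: so `O₀` reaches the boundary of the square without containing it,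
on BOTH sides (entrance and exit), and `Ea τ` is never closed.      The lemmas on main (`pvmg_win_closed`, `pvmh_win_closed`, `pvpl_win_ball`) do not apply.
* `pvyw_hit_meas`    `{q | ∃ x ∈ F, x ∈ closedBall q.1 q.2}` is Borel for `F` closed
* **`pvyw_win_of_compl`**   `Eᶜ = ⋃ n, F n`, `F n` closed  ⟹  `PvplWin E`
* **`pvyw_win_open`**, **`pvyw_win_open_union_closed`**, **`pvyw_win_link`** (`U ∪ F ∪ U'`: the shape of `Ea τ`), `pvyw_win_link_diff` (`U ∪ F \ (U ∪ U') ∪ U'`), `pvyw_win_open_inter_closed`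
-/

set_option autoImplicit false

namespace Claimed.Agent.R289

open Set Metric MeasureTheory

/-- a closed disc meets a closed set: a Borel condition on (centre, radius) -/
theorem pvyw_hit_meas {F : Set ℂ} (hF : IsClosed F) : MeasurableSet {q : ℂ × ℝ | ∃ x ∈ F, x ∈ closedBall q.1 q.2} := by
  rcases F.eq_empty_or_nonempty with rfl | hne
  · simp
  have e : {q : ℂ × ℝ | ∃ x ∈ F, x ∈ closedBall q.1 q.2} = {q : ℂ × ℝ | infDist q.1 F ≤ q.2} := by
    ext q
    constructor
    · rintro ⟨x, hx, hq⟩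
      exact (infDist_le_dist_of_mem hx).trans (by rw [dist_comm]; exact mem_closedBall.1 hq)
    · intro h
      obtain ⟨x, hx, e⟩ := hF.exists_infDist_eq_dist hne q.1
      exact ⟨x, hx, by rw [mem_closedBall, dist_comm, ← e]; exact h⟩
  rw [e]
  exact measurableSet_le ((continuous_infDist_pt F).measurable.comp measurable_fst) measurable_snd

/-- **a set whose complement is a countable union of closed sets is a window** -/
theorem pvyw_win_of_compl {E : Set ℂ} (F : ℕ → Set ℂ) (hF : ∀ n, IsClosed (F n)) (hE : Eᶜ = ⋃ n, F n) : PvplWin E := by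
  constructor
  · rw [← MeasurableSet.compl_iff, hE]
    exact MeasurableSet.iUnion fun n => (hF n).measurableSet
  · have e : {q : ℂ × ℝ | closedBall q.1 q.2 ⊆ E} = (⋃ n, {q : ℂ × ℝ | ∃ x ∈ F n, x ∈ closedBall q.1 q.2})ᶜ := by
      ext q
      simp only [mem_ofPred_eq, mem_compl_iff, mem_iUnion, not_exists, not_and]
      constructor
      · intro h n x hx hq
        have : x ∈ Eᶜ := by rw [hE]; exact mem_iUnion.2 ⟨n, hx⟩
        exact this (h hq)
      · intro h x hq
        by_contra hx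
        have : x ∈ ⋃ n, F n := by rw [← hE]; exact hx
        obtain ⟨n, hn⟩ := mem_iUnion.1 this
        exact h n x hn hq
    rw [e]
    exact (MeasurableSet.iUnion fun n => pvyw_hit_meas (hF n)).compl

/-- **every open set is a window** -/
theorem pvyw_win_open {U : Set ℂ} (hU : IsOpen U) : PvplWin U :=
  pvyw_win_of_compl (fun _ => Uᶜ) (fun _ => hU.isClosed_compl) (by rw [iUnion_const])

/-- **open ∪ closed is a window** -/
theorem pvyw_win_open_union_closed {U F : Set ℂ} (hU : IsOpen U) (hF : IsClosed F) : PvplWin (U ∪ F) := by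
  obtain ⟨C, hC, -, hCu, -⟩ := hF.isOpen_compl.exists_iUnion_isClosed
  refine pvyw_win_of_compl (fun n => Uᶜ ∩ C n) (fun n => hU.isClosed_compl.inter (hC n)) ?_
  rw [compl_union, ← hCu, inter_iUnion]

/-- the shape of the window of a link: `U ∪ F ∪ U'` -/
theorem pvyw_win_link {U F U' : Set ℂ} (hU : IsOpen U) (hF : IsClosed F) (hU' : IsOpen U') : PvplWin (U ∪ F ∪ U') := by
  have e : U ∪ F ∪ U' = (U ∪ U') ∪ F := by
    rw [union_assoc, union_comm F U', ← union_assoc]
  rw [e]
  exact pvyw_win_open_union_closed (hU.union hU') hF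

/-- the same when the middle piece is closed only RELATIVELY to the complement of the two open pieces: `K = F \ (U ∪ U')` -/
theorem pvyw_win_link_diff {U F U' : Set ℂ} (hU : IsOpen U) (hF : IsClosed F) (hU' : IsOpen U') : PvplWin (U ∪ F \ (U ∪ U') ∪ U') := by
  have e : U ∪ F \ (U ∪ U') ∪ U' = U ∪ F ∪ U' := by
    ext x
    simp only [mem_union, mem_sdiff, not_or]
    tauto
  rw [e]
  exact pvyw_win_link hU hF hU'

/-- open ∩ closed is a window -/
theorem pvyw_win_open_inter_closed {U F : Set ℂ} (hU : IsOpen U) (hF : IsClosed F) : PvplWin (U ∩ F) := by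
  obtain ⟨C, hC, -, hCu, -⟩ := hF.isOpen_compl.exists_iUnion_isClosed
  refine pvyw_win_of_compl (fun n => Uᶜ ∪ C n) (fun n => hU.isClosed_compl.union (hC n)) ?_
  rw [compl_inter, ← hCu, union_iUnion]

end Claimed.Agent.R289
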