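-- KEEP
import Claimed.Agent.R289.Exit.CloseTP
import Claimed.Agent.R289.Exit.GeoWP
import Claimed.Agent.R289.Exit.WinG

/-!
# Row 289 (S0537), THE WALL, ROAD P, Exit/GeoCP : THE PLACED CONNECTORS, THEIR MASKS AND ROOMS      (architect helper113; post of 95 / 273 P14; prefix `pvg5_`, `pvg5`, `Pvg5`)

CONSUMER: the fields `co .. cb`, `jo .. jb'`, `lo lr le lb le'`, `Eo Er Ee Eb`, `fg`, `sh`, `vol` of `PvucSup` (95 `Exit/CloseTP` sec. 7).      SUPPLIERS OF THE DATA: `PvvwLd` = cell data + list of meshes of a link (270 `Exit/GeoWP`, 272 `Tr/LinkPoly`).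
THE RULE OF THE MASKS.   A PORT `a : Pvg5Port` = a plug seen by ONE of its connectors: kind, regions, state region `O`, **the part `H ⊆ O` which goes to the mask of this connector**.
   `pvg5Cn col a b KD Q ms` : corridor `KD \ (I ∪ I')` (S-CORE), window `E = ⋃ ms`, cap `ρ = Σ` meshes,   **mask `M = ((E \ (O ∪ O')) ∩ Q) ∪ H ∪ H'`**,   `Q ⊇ KD` CONVEX (`univ`, or a half plane / strip at the doors).
   So: off the plugs a mask lies in the exterior region `pvnhKp` of its link (disjointness = `dj1 dj2` of 58), at a plug the two masks are the two parts of `O`.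
   PARTS OF RECORD: kit plug (door, `u`) in its frame: WEST `{re < 0}` to the incoming connector, EAST `{0 ≤ re}` to the outgoing one (the half open cells of 244);   big plug: `Sp` (exit: `o b`), `O \ Sp` (entrance: `e i`).
* sec. 1  the window of a list: `pvg5E`, `pvg5Rho`, `pvg5_win_gd` (a `G_δ` set is a window).
* sec. 2  ports, `pvg5Cn`, **`Pvg5Lk`** = what ONE link owes in regions  `⟹ PvucLk` (`Pvg5Lk.lk`), `Kc ⊆ M`, measurability, window read by the link, corridor and mask in the regions of the sectors.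
* sec. 3  criteria for the three clauses on triangles (`Pvg5Tri`): convex (`pvg5_tri_cvx`), collar (`pvg5_tri_col`), local (`pvg5_tri_loc`).
* sec. 4  frames: `pvuhAt (pvg5Cn ..) w = pvg5Cn ..` at the carried data.
* sec. 5  disjointness of two masks from the lists of 58.
* sec. 6  THE CANDIDATE: `Pvg5Cand` = the planar facts `⟹` the fields of `PvucSup`.
-/

set_option autoImplicit false
set_option linter.unusedSectionVars false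
set_option linter.unusedVariables false

namespace Claimed.Agent.R289

open MeasureTheory Filter Topology Set Metric Claims.C0465
open scoped ENNReal

/-! ## 1. the window of a list of meshes -/

/-- the union of the windows of the list -/
def pvg5E (ms : List (ℝ × Set ℂ)) : Set ℂ := {w | ∃ q ∈ ms, w ∈ q.2}

/-- a cap of the meshes of the list -/
def pvg5Rho (ms : List (ℝ × Set ℂ)) : ℝ := (ms.map Prod.fst).sum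

theorem pvg5_eqns_cite : True := by
  have := @pvg5E.eq_1; have := @pvg5Rho.eq_1
  trivial

section win

variable {ms : List (ℝ × Set ℂ)}

/-- **a `G_δ` set is a window** (162 `pvyw_win_of_compl`) -/
theorem pvg5_win_gd {E : Set ℂ} (h : IsGδ E) : PvplWin E := by
  obtain ⟨f, hf, e⟩ := isGδ_iff_eq_iInter_nat.1 h
  refine pvyw_win_of_compl (fun n => (f n)ᶜ) (fun n => (hf n).isClosed_compl) ?_
  rw [e, compl_iInter]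

theorem pvg5_E_nil : pvg5E [] = ∅ := by
  ext w
  simp [pvg5E]

theorem pvg5_E_cons (q : ℝ × Set ℂ) (ms : List (ℝ × Set ℂ)) : pvg5E (q :: ms) = q.2 ∪ pvg5E ms := by
  ext w
  simp [pvg5E]

theorem pvg5_sub_E {q : ℝ × Set ℂ} (hq : q ∈ ms) : q.2 ⊆ pvg5E ms := fun w hw => ⟨q, hq, hw⟩

theorem pvg5_E_sub {S : Set ℂ} (h : ∀ q ∈ ms, q.2 ⊆ S) : pvg5E ms ⊆ S := by
  rintro w ⟨q, hq, hw⟩
  exact h q hq hw

theorem pvg5_E_gd (h : ∀ q ∈ ms, IsGδ q.2) : IsGδ (pvg5E ms) := by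
  induction ms with
  | nil => rw [pvg5_E_nil]; exact IsGδ.empty
  | cons q l ih =>
    rw [pvg5_E_cons]
    exact (h q List.mem_cons_self).union (ih fun p hp => h p (List.mem_cons_of_mem _ hp))

theorem pvg5_E_bdd (h : ∀ q ∈ ms, Bornology.IsBounded q.2) : Bornology.IsBounded (pvg5E ms) := by
  induction ms with
  | nil => rw [pvg5_E_nil]; exact Bornology.isBounded_empty
  | cons q l ih =>
    rw [pvg5_E_cons]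
    exact (h q List.mem_cons_self).union (ih fun p hp => h p (List.mem_cons_of_mem _ hp))

theorem pvg5_le_rho (h : ∀ q ∈ ms, 0 < q.1) : ∀ q ∈ ms, q.1 ≤ pvg5Rho ms := by
  intro q hq
  unfold pvg5Rho
  refine List.single_le_sum ?_ _ (List.mem_map.2 ⟨q, hq, rfl⟩)
  intro x hx
  obtain ⟨p, hp, rfl⟩ := List.mem_map.1 hx
  exact (h p hp).le

end win

/-! ## 2. ports, the connector of a link, what one link owes -/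

/-- **A PORT** = a plug seen by ONE of its connectors: kind (`true` big, `false` kit), regions, state region `O`, the part `H` of `O` which goes to the mask of this connector -/
structure Pvg5Port where
  k : Bool
  r : PvspReg ℂ
  O : Set ℂ
  H : Set ℂ

/-- the end of 113 at a port -/
def Pvg5Port.e (a : Pvg5Port) : PvkjEnd ℂ := pvkjEnd a.k a.r

/-- what a port owes -/
structure Pvg5Port.Ok (a : Pvg5Port) : Prop where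
  nest : a.r.Nest
  uq : a.e.Uq
  mr : ∀ i, MeasurableSet (a.r i)
  mO : MeasurableSet a.O
  mH : MeasurableSet a.H
  HO : a.H ⊆ a.O
  ZO : a.e.Z ⊆ a.O

/-- the corridor: the room of (DET) CUT at the deep marks of the two plugs -/
def pvg5Kc (a b : Pvg5Port) (KD : Set ℂ) : Set ℂ := KD \ (a.e.I ∪ b.e.I)

/-- **THE MASK** -/
def pvg5M (a b : Pvg5Port) (Q : Set ℂ) (ms : List (ℝ × Set ℂ)) : Set ℂ := (pvg5E ms \ (a.O ∪ b.O)) ∩ Q ∪ a.H ∪ b.H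

/-- **THE PLACED CONNECTOR OF A LINK** `a → b` : `KD` = the room of (DET) (272 270: `𝔡.D.KE`), `Q` = a convex set which contains it, `ms` = the list of meshes (`𝔡.ms`) -/
def pvg5Cn (col : Bool) (a b : Pvg5Port) (KD Q : Set ℂ) (ms : List (ℝ × Set ℂ)) : PvkjCn :=
  ⟨col, a.k, b.k, a.r, b.r, pvg5Kc a b KD, pvg5M a b Q ms, pvg5E ms, pvg5Rho ms, ms⟩

/-- the barycentres of the short faces of the corridor `K` lie in `S` -/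
def Pvg5Tri (K : Set ℂ) (ms : List (ℝ × Set ℂ)) (S : Set ℂ) : Prop := ∀ q ∈ ms, PvkjTri (2 * q.1) (K ∩ pvtrCore (3 * q.1) q.2) K S

/-- **WHAT ONE LINK OWES IN REGIONS**.      `core ms0` : 270 `PvvwLd.Ok.core`, `.ms0`;   `gd bd` : the windows of the list are `G_δ` and bounded;   `ta tb` : a short face of the corridor whose barycentre falls in a plug falls in the part of this connector;
`U` = the room of the target: convex, contains its zone -/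
structure Pvg5Lk (a b : Pvg5Port) (KD Q : Set ℂ) (ms : List (ℝ × Set ℂ)) (U : Set ℂ) : Prop where
  pa : a.Ok
  pb : b.Ok
  mKD : MeasurableSet KD
  mQ : MeasurableSet Q
  cQ : Convex ℝ Q
  KQ : KD ⊆ Q
  ms0 : ∀ q ∈ ms, 0 < q.1
  gd : ∀ q ∈ ms, IsGδ q.2
  bd : ∀ q ∈ ms, Bornology.IsBounded q.2
  core : ∀ x ∈ a.e.Z ∪ b.e.Z ∪ KD, ∃ q ∈ ms, x ∈ pvtrCore (3 * q.1) q.2
  ta : Pvg5Tri (pvg5Kc a b KD) ms (a.Oᶜ ∪ a.H)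
  tb : Pvg5Tri (pvg5Kc a b KD) ms (b.Oᶜ ∪ b.H)
  cU : Convex ℝ U
  ZU : b.e.Z ⊆ U

theorem pvg5_eqns_cite2 : True := by
  have := @Pvg5Port.e.eq_1; have := @pvg5Kc.eq_1; have := @pvg5M.eq_1; have := @pvg5Cn.eq_1; have := @Pvg5Tri.eq_1
  trivial

section link

variable {col : Bool} {a b : Pvg5Port} {KD Q U : Set ℂ} {ms : List (ℝ × Set ℂ)}

theorem pvg5_cn_e : (pvg5Cn col a b KD Q ms).e = a.e := rfl
theorem pvg5_cn_e' : (pvg5Cn col a b KD Q ms).e' = b.e := rfl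
theorem pvg5_cn_col : (pvg5Cn col a b KD Q ms).col = col := rfl
theorem pvg5_cn_Kc : (pvg5Cn col a b KD Q ms).Kc = KD \ ((pvg5Cn col a b KD Q ms).e.I ∪ (pvg5Cn col a b KD Q ms).e'.I) := rfl
theorem pvg5_cn_ms : (pvg5Cn col a b KD Q ms).ms = ms := rfl

/-- the vertices of the inner arc are marked in the zone -/
theorem pvg5_ar {k : Bool} {r : PvspReg ℂ} (hN : r.Nest) : (pvkjEnd k r).Ar (pvkjEnd k r).Z := by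
  cases k
  · intro V D _ T mk s hT hS g hf hIs i hi
    exact Or.inr (pvkj_kit_ar (pvkjPg r) V D T mk s hT hS g hf hIs i hi)
  · intro V D _ T mk s hT hS g hf hIs i hi
    exact (pvkj_big_ar hN V D T mk s hT hS g hf hIs i hi).2

theorem Pvg5Lk.mM (H : Pvg5Lk a b KD Q ms U) : MeasurableSet (pvg5M a b Q ms) :=
  ((((pvg5_E_gd H.gd).measurableSet.diff (H.pa.mO.union H.pb.mO)).inter H.mQ).union H.pa.mH).union H.pb.mH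

/-- the deep marks of an end are Borel -/
theorem Pvg5Port.Ok.mI (h : a.Ok) : MeasurableSet a.e.I := by
  obtain ⟨k, r, O, Hh⟩ := a
  cases k
  · exact h.mr .I2
  · exact h.mr .I2

/-- **the connector is well formed** -/
theorem Pvg5Lk.wf (H : Pvg5Lk a b KD Q ms U) : (pvg5Cn col a b KD Q ms).Wf where
  ms0 q hq := ⟨H.ms0 q hq, pvg5_le_rho H.ms0 q hq, pvg5_sub_E hq⟩
  mms q hq := (H.gd q hq).measurableSet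
  nest := H.pa.nest
  nest' := H.pb.nest
  uq := H.pa.uq
  uq' := H.pb.uq
  mr := H.pa.mr
  mr' := H.pb.mr
  mK := H.mKD.diff (H.pa.mI.union H.pb.mI)
  mM := H.mM
  win := pvg5_win_gd (pvg5_E_gd H.gd)
  bdd := pvg5_E_bdd H.bd
  core := by
    rintro w ((hw | hw) | hw)
    · exact H.core w (Or.inl (Or.inl hw))
    · exact H.core w (Or.inl (Or.inr hw))
    · exact H.core w (Or.inr hw.1)

/-- the barycentre of a short triangle stays in the window -/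
theorem pvg5_tri_E : Pvg5Tri (pvg5Kc a b KD) ms (pvg5E ms) := by
  intro q hq
  refine pvkj_tri_collar fun x hx => ?_
  rcases le_or_gt 0 q.1 with h0 | h0
  · exact (closedBall_subset_closedBall (by linarith)).trans (hx.2.trans (pvg5_sub_E hq))
  · rw [closedBall_eq_empty.2 (by linarith)]
    exact empty_subset _

/-- triangles in a convex set -/
theorem pvg5_tri_cvx {K S : Set ℂ} (hS : Convex ℝ S) (hK : K ⊆ S) : Pvg5Tri K ms S :=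
  fun q _ => pvkj_tri_convex hS (inter_subset_left.trans hK) hK _

theorem Pvg5Tri.mono {K S S' : Set ℂ} (h : Pvg5Tri K ms S) (hS : S ⊆ S') : Pvg5Tri K ms S' :=
  fun q hq x y z hx hy hz h1 h2 => hS (h q hq x y z hx hy hz h1 h2)

theorem Pvg5Tri.inter {K S S' : Set ℂ} (h : Pvg5Tri K ms S) (h' : Pvg5Tri K ms S') : Pvg5Tri K ms (S ∩ S') :=
  fun q hq x y z hx hy hz h1 h2 => ⟨h q hq x y z hx hy hz h1 h2, h' q hq x y z hx hy hz h1 h2⟩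

/-- **the barycentres of the short faces of the corridor lie in the mask** -/
theorem Pvg5Lk.tM (H : Pvg5Lk a b KD Q ms U) : Pvg5Tri (pvg5Kc a b KD) ms (pvg5M a b Q ms) := by
  have h1 := ((pvg5_tri_E (a := a) (b := b) (KD := KD) (ms := ms)).inter (pvg5_tri_cvx (ms := ms) H.cQ (sdiff_subset.trans H.KQ))).inter (H.ta.inter H.tb)
  refine h1.mono ?_
  rintro w ⟨⟨hE, hQ⟩, ha, hb⟩
  by_cases hO : w ∈ a.O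
  · exact Or.inl (Or.inr (ha.resolve_left fun h => h hO))
  · by_cases hO' : w ∈ b.O
    · exact Or.inr (hb.resolve_left fun h => h hO')
    · exact Or.inl (Or.inl ⟨⟨hE, fun h => h.elim hO hO'⟩, hQ⟩)

/-- **THE RECORD OF 95** -/
theorem Pvg5Lk.lk (H : Pvg5Lk a b KD Q ms U) : PvucLk (pvg5Cn col a b KD Q ms) U where
  wf := H.wf
  tM := H.tM
  tU := ⟨b.e.Z, pvg5_ar H.pb.nest, fun q _ => pvkj_tri_convex H.cU (inter_subset_left.trans H.ZU) H.ZU _⟩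

/-- the corridor lies in the mask -/
theorem Pvg5Lk.KM (H : Pvg5Lk a b KD Q ms U) : pvg5Kc a b KD ⊆ pvg5M a b Q ms := by
  intro x hx
  obtain ⟨q, hq, hc⟩ := H.core x (Or.inr hx.1)
  have := H.tM q hq x x x ⟨hx, hc⟩ hx hx (by rw [sub_self, norm_zero]; have := H.ms0 q hq; positivity) (by rw [sub_self, norm_zero]; have := H.ms0 q hq; positivity)
  rwa [show (x + x + x) / 3 = x by ring] at this

/-- the corridor lies in the window -/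
theorem Pvg5Lk.KE (H : Pvg5Lk a b KD Q ms U) : pvg5Kc a b KD ⊆ pvg5E ms := by
  intro x hx
  obtain ⟨q, hq, hc⟩ := H.core x (Or.inr hx.1)
  exact pvg5_sub_E hq (pvtr_core_subset (by have := H.ms0 q hq; positivity) hc)

/-- the mask lies in the two plugs and the window -/
theorem pvg5_M_sub (ha : a.H ⊆ a.O) (hb : b.H ⊆ b.O) : pvg5M a b Q ms ⊆ a.O ∪ pvg5E ms \ (a.O ∪ b.O) ∪ b.O := by
  rintro w ((hw | hw) | hw)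
  · exact Or.inl (Or.inr hw.1)
  · exact Or.inl (Or.inl (ha hw))
  · exact Or.inr (hb hw)

end link

/-! ### the window is read by the link -/

/-- the windows of the list are read by the link `Λ` with the window `Et` of its corridor      (270 `PvvwLd.Ok.ms0`) -/
def Pvg5Rd (ms : List (ℝ × Set ℂ)) (Λ : PvnkLink) (Et : Set ℂ) : Prop := ∀ q ∈ ms, q.2 ⊆ Λ.e.O ∪ Λ.e'.O ∪ Λ.e.E ∪ Λ.e'.E ∪ Et

theorem pvg5_eqns_cite3 : True := by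
  have := @Pvg5Rd.eq_1
  trivial

section read

variable {ms : List (ℝ × Set ℂ)} {Λ : PvnkLink} {Et : Set ℂ}

theorem Pvg5Rd.win (h : Pvg5Rd ms Λ Et) : pvg5E ms ×ˢ (univ : Set Bool) ⊆ pvnhRd Λ Et := pvnh_win_sub (pvg5_E_sub h)

/-- off the two plugs the window lies in the exterior region of the link -/
theorem Pvg5Rd.off (h : Pvg5Rd ms Λ Et) : pvg5E ms \ (Λ.e.O ∪ Λ.e'.O) ⊆ pvnhKp Λ Et := by
  rintro w ⟨hw, hO⟩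
  refine ⟨?_, hO⟩
  rcases pvg5_E_sub h hw with (((h1 | h1) | h1) | h1) | h1
  · exact absurd (Or.inl h1) hO
  · exact absurd (Or.inr h1) hO
  · exact Or.inl (Or.inl (Or.inl (Or.inl h1)))
  · exact Or.inl (Or.inl (Or.inl (Or.inr h1)))
  · exact Or.inr h1

end read

/-! ## 3. criteria for the clauses on triangles -/

section crit

variable {ms : List (ℝ × Set ℂ)} {K S O H Q' : Set ℂ}

/-- the barycentre of a triangle with two sides `≤ r` at `x` lies within `r` of `x` -/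
theorem pvg5_bary_ball {x y z : ℂ} {r : ℝ} (h1 : ‖y - x‖ ≤ r) (h2 : ‖z - x‖ ≤ r) : (x + y + z) / 3 ∈ closedBall x r :=
  pvkj_tri_collar (A := {x}) (S := univ) (M := closedBall x r) (r := r) (fun x' hx' => by rw [mem_singleton_iff.1 hx']) x y z rfl (mem_univ _) (mem_univ _) h1 h2

/-- [T1] COLLAR: the discs `2ρ` round the points of the corridor which are deep in a window of mesh `ρ` lie in `S` -/
theorem pvg5_tri_col (h : ∀ q ∈ ms, ∀ x ∈ K, closedBall x (3 * q.1) ⊆ q.2 → closedBall x (2 * q.1) ⊆ S) : Pvg5Tri K ms S :=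
  fun q hq => pvkj_tri_collar fun x hx => h q hq x hx.1 hx.2

/-- [T2] LOCAL: wherever a disc `2ρ` of the corridor meets the plug `O`, the corridor in this disc lies in a convex set `Q'` with `O ∩ Q' ⊆ H` -/
theorem pvg5_tri_loc (cQ : Convex ℝ Q') (hQ : O ∩ Q' ⊆ H)
    (h : ∀ q ∈ ms, ∀ x ∈ K, closedBall x (3 * q.1) ⊆ q.2 → (closedBall x (2 * q.1) ∩ O).Nonempty → K ∩ closedBall x (2 * q.1) ⊆ Q') : Pvg5Tri K ms (Oᶜ ∪ H) := by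
  intro q hq x y z hx hy hz h1 h2
  by_cases hO : (x + y + z) / 3 ∈ O
  · have hr : 0 ≤ 2 * q.1 := (norm_nonneg _).trans h1
    have hsub := h q hq x hx.1 hx.2 ⟨_, pvg5_bary_ball h1 h2, hO⟩
    refine Or.inr (hQ ⟨hO, pvki_bary_convex cQ (hsub ⟨hx.1, mem_closedBall_self hr⟩) (hsub ⟨hy, ?_⟩) (hsub ⟨hz, ?_⟩)⟩)
    · rw [mem_closedBall, dist_eq_norm]; exact h1
    · rw [mem_closedBall, dist_eq_norm]; exact h2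
  · exact Or.inl hO

/-- [T3] GLOBAL: the whole corridor lies in a convex set `Q'` with `O ∩ Q' ⊆ H` -/
theorem pvg5_tri_glob (cQ : Convex ℝ Q') (hQ : O ∩ Q' ⊆ H) (hK : K ⊆ Q') : Pvg5Tri K ms (Oᶜ ∪ H) :=
  pvg5_tri_loc cQ hQ fun _ _ _ _ _ _ => inter_subset_left.trans hK

end crit

/-! ## 4. frames -/

section frame

variable (w : ℂ)

theorem pvg5_pre_eq (S : Set ℂ) : pvthInv w 1 ⁻¹' S = pvthSim w 1 '' S := by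
  ext x
  constructor
  · intro hx
    refine ⟨pvthInv w 1 x, hx, ?_⟩
    rw [pvuh_inv_apply]
    show w + 1 * (x - w) = x
    ring
  · rintro ⟨y, hy, rfl⟩
    show pvthInv w 1 (w + 1 * y) ∈ S
    rw [pvuh_inv_apply]
    rwa [show w + 1 * y - w = y by ring]

/-- triangles are carried by translations -/
theorem pvg5_tri_at {r : ℝ} {A S M : Set ℂ} (h : PvkjTri r A S M) : PvkjTri r (pvthInv w 1 ⁻¹' A) (pvthInv w 1 ⁻¹' S) (pvthInv w 1 ⁻¹' M) := by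
  intro x y z hx hy hz h1 h2
  have := h (pvthInv w 1 x) (pvthInv w 1 y) (pvthInv w 1 z) hx hy hz (by rw [pvuh_inv_apply, pvuh_inv_apply, show y - w - (x - w) = y - x by ring]; exact h1)
    (by rw [pvuh_inv_apply, pvuh_inv_apply, show z - w - (x - w) = z - x by ring]; exact h2)
  show pvthInv w 1 ((x + y + z) / 3) ∈ M
  rw [pvuh_inv_apply] at this ⊢
  rw [pvuh_inv_apply, pvuh_inv_apply] at this
  rwa [show (x + y + z) / 3 - w = (x - w + (y - w) + (z - w)) / 3 by ring]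

/-- the room of the inner arc is carried -/
theorem pvg5_ar_at {k : Bool} {r : PvspReg ℂ} {A : Set ℂ} (h : (pvkjEnd k r).Ar A) : (pvkjEnd k (r.comap (pvthInv w 1))).Ar (pvthInv w 1 ⁻¹' A) := by
  intro V D _ T mk s hT hS g hf hIs i hi
  exact h V D T (pvthInv w 1 ∘ mk) s hT hS g hf ((pvkj_end_comap k r (pvthInv w 1) T mk s g).1 hIs) i hi

/-- **THE RECORD OF 95 IS CARRIED TO EVERY FRAME**: the regions of `r` are owed in the reference frame only -/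
theorem pvg5_lk_at {C : PvkjCn} {U : Set ℂ} (H : PvucLk C U) : PvucLk (pvuhAt C w) (pvthInv w 1 ⁻¹' U) where
  wf := pvuh_wf w H.wf
  tM := by
    refine (pvuh_ms_forall (w := w) (ms := C.ms) (P := fun p => PvkjTri (2 * p.1) ((pvuhAt C w).Kc ∩ pvtrCore (3 * p.1) p.2) (pvuhAt C w).Kc (pvuhAt C w).M)).2 fun p hp => ?_
    show PvkjTri (2 * p.1) (pvthInv w 1 ⁻¹' C.Kc ∩ pvtrCore (3 * p.1) (pvthInv w 1 ⁻¹' p.2)) (pvthInv w 1 ⁻¹' C.Kc) (pvthInv w 1 ⁻¹' C.M)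
    rw [pvuh_core, ← preimage_inter]
    exact pvg5_tri_at w (H.tM p hp)
  tU := by
    obtain ⟨A', h1, h2⟩ := H.tU
    refine ⟨pvthInv w 1 ⁻¹' A', pvg5_ar_at w h1, ?_⟩
    refine (pvuh_ms_forall (w := w) (ms := C.ms) (P := fun p => PvkjTri (2 * p.1) (pvthInv w 1 ⁻¹' A' ∩ pvtrCore (3 * p.1) p.2) (pvuhAt C w).e'.Z (pvthInv w 1 ⁻¹' U))).2 fun p hp => ?_
    show PvkjTri (2 * p.1) (pvthInv w 1 ⁻¹' A' ∩ pvtrCore (3 * p.1) (pvthInv w 1 ⁻¹' p.2)) (pvkjEnd C.k' (C.r'.comap (pvthInv w 1))).Z (pvthInv w 1 ⁻¹' U)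
    rw [pvuh_core, ← preimage_inter, pvkj_end_comap_Z]
    exact pvg5_tri_at w (h2 p hp)

end frame

/-! ## 5. two masks are disjoint -/

section disj

/-- planar disjointness from the regions of the sectors -/
theorem pvg5_pl {A B : Set ℂ} {S T : Set PvPt} (hA : A ×ˢ (univ : Set Bool) ⊆ S) (hB : B ×ˢ (univ : Set Bool) ⊆ T) (h : Disjoint S T) : Disjoint A B := by
  rw [Set.disjoint_left]
  intro x h1 h2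
  exact Set.disjoint_left.1 h (hA (⟨h1, mem_univ true⟩ : ((x, true) : PvPt) ∈ A ×ˢ (univ : Set Bool))) (hB ⟨h1 |> fun _ => h2, mem_univ _⟩)

variable {a b a' b' : Pvg5Port} {Q Q' : Set ℂ} {ms ms' : List (ℝ × Set ℂ)}

/-- a mask against a set, part by part -/
theorem pvg5_M_disj {S : Set ℂ} (h1 : Disjoint ((pvg5E ms \ (a.O ∪ b.O)) ∩ Q) S) (h2 : Disjoint a.H S) (h3 : Disjoint b.H S) : Disjoint (pvg5M a b Q ms) S :=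
  (h1.union_left h2).union_left h3

/-- **TWO MASKS**: exterior parts `K K'` disjoint, exterior parts off the four plugs, the four parts pairwise disjoint -/
theorem pvg5_MM_disj {K K' : Set ℂ} (hK : pvg5E ms \ (a.O ∪ b.O) ⊆ K) (hK' : pvg5E ms' \ (a'.O ∪ b'.O) ⊆ K') (ha : a.H ⊆ a.O) (hb : b.H ⊆ b.O) (ha' : a'.H ⊆ a'.O) (hb' : b'.H ⊆ b'.O)
    (KK : Disjoint K K') (Ka : Disjoint K a'.O) (Kb : Disjoint K b'.O) (aK : Disjoint a.O K') (bK : Disjoint b.O K')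
    (aa : Disjoint a.H a'.H) (ab : Disjoint a.H b'.H) (ba : Disjoint b.H a'.H) (bb : Disjoint b.H b'.H) : Disjoint (pvg5M a b Q ms) (pvg5M a' b' Q' ms') := by
  have e1 : (pvg5E ms \ (a.O ∪ b.O)) ∩ Q ⊆ K := inter_subset_left.trans hK
  have e2 : (pvg5E ms' \ (a'.O ∪ b'.O)) ∩ Q' ⊆ K' := inter_subset_left.trans hK'
  refine pvg5_M_disj ?_ ?_ ?_
  · exact (pvg5_M_disj (KK.symm.mono e2 e1) (Ka.symm.mono ha' e1) (Kb.symm.mono hb' e1)).symm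
  · exact (pvg5_M_disj (aK.symm.mono e2 ha) aa.symm ab.symm).symm
  · exact (pvg5_M_disj (bK.symm.mono e2 hb) ba.symm bb.symm).symm

end disj

/-! ## 6. THE PORTS AND THE CONNECTORS OF RECORD -/

/-- the two halves of the frame of a kit plug: `true` = EAST `{0 ≤ re}` (to the OUTGOING connector), `false` = WEST `{re < 0}` (to the INCOMING connector)      (the half open cells of 244 / 251: the line `re = 0` goes East) -/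
def pvg5Hf (σ : Bool) : Set ℂ := if σ then {w | 0 ≤ w.re} else {w | w.re < 0}

/-- a big plug seen by a connector which owns the part `O ∩ S` -/
noncomputable def pvg5Big (N : PvspNum) (ty : PvspTy) (z : ℂ) (h : ℝ) (S : Set ℂ) : Pvg5Port := ⟨true, ty.reg N z h, pvspO N ty z h, pvspO N ty z h ∩ S⟩

/-- a kit plug `𝔭` with the state region `O₀`, placed at `(z, d)`, seen from the side `σ` -/
def pvg5Kit (𝔭 : PvkdPlug) (O₀ : Set ℂ) (z d : ℂ) (σ : Bool) : Pvg5Port := ⟨false, pvkjRegK (𝔭.pg z d), pvkdAt z d O₀, pvkdAt z d (O₀ ∩ pvg5Hf σ)⟩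

/-- what a kit plug with its state region owes, REFERENCE FRAME -/
structure Pvg5Plug (𝔭 : PvkdPlug) (O₀ : Set ℂ) : Prop where
  ab : 𝔭.a ≤ 𝔭.b
  ZZ : Disjoint 𝔭.Zm 𝔭.Zp
  mZm : MeasurableSet 𝔭.Zm
  mZp : MeasurableSet 𝔭.Zp
  mTb : MeasurableSet 𝔭.Tb
  mO : MeasurableSet O₀
  bO : Bornology.IsBounded O₀
  cO : Convex ℝ O₀
  zone : ball 0 𝔭.a ∪ ball 0 𝔭.b ∪ 𝔭.Tb ⊆ O₀

/-- **the exit funnel** `t → door (z0, d0)` -/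
noncomputable def pvg5Co (N : PvspNum) (ty : PvspTy) (z : ℂ) (h : ℝ) (Sp : Set ℂ) (𝔨 : PvkdGeo) (z0 d0 : ℂ) (KD : Set ℂ) (ms : List (ℝ × Set ℂ)) : PvkjCn :=
  pvg5Cn ty.col (pvg5Big N ty z h Sp) (pvg5Kit 𝔨.toPvkdPlug 𝔨.O₀ z0 d0 false) KD (pvkdAt z0 d0 (pvg5Hf false)) ms

/-- **the entrance funnel** `door (zi, di) → t` -/
noncomputable def pvg5Ci (N : PvspNum) (ty : PvspTy) (z : ℂ) (h : ℝ) (Sp : Set ℂ) (𝔨 : PvkdGeo) (zi di : ℂ) (KD : Set ℂ) (ms : List (ℝ × Set ℂ)) : PvkjCn :=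
  pvg5Cn ty.col (pvg5Kit 𝔨.toPvkdPlug 𝔨.O₀ zi di true) (pvg5Big N ty z h Spᶜ) KD (pvkdAt zi di (pvg5Hf true)) ms

/-- **the funnel of the reference plug** `door (p0, e0) → u`, REFERENCE FRAME, black -/
def pvg5Cr (𝔨 : PvkdGeo) (p0 e0 : ℂ) (𝔲 : PvkdPlug) (Ou : Set ℂ) (KD : Set ℂ) (ms : List (ℝ × Set ℂ)) : PvkjCn :=
  pvg5Cn true (pvg5Kit 𝔨.toPvkdPlug 𝔨.O₀ p0 e0 true) (pvg5Kit 𝔲 Ou 0 1 false) KD (pvkdAt p0 e0 (pvg5Hf true) ∩ pvg5Hf false) ms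

/-- **the thick link** `u → t` -/
noncomputable def pvg5Ce (N : PvspNum) (ty : PvspTy) (z : ℂ) (h : ℝ) (Sp : Set ℂ) (𝔲 : PvkdPlug) (Ou : Set ℂ) (wu : ℂ) (KD : Set ℂ) (ms : List (ℝ × Set ℂ)) : PvkjCn :=
  pvg5Cn ty.col (pvg5Kit 𝔲 Ou wu 1 true) (pvg5Big N ty z h Spᶜ) KD univ ms

/-- **the thick return link** `t → u` -/
noncomputable def pvg5Cb (N : PvspNum) (ty : PvspTy) (z : ℂ) (h : ℝ) (Sp : Set ℂ) (𝔲 : PvkdPlug) (Ou : Set ℂ) (wu : ℂ) (KD : Set ℂ) (ms : List (ℝ × Set ℂ)) : PvkjCn :=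
  pvg5Cn ty.col (pvg5Big N ty z h Sp) (pvg5Kit 𝔲 Ou wu 1 false) KD univ ms

/-- what the cell data of a link give (270 `PvvwLd.Ok`: `mKD` = `pvn2_K_meas`, `ms0`, `core`) + the windows of the list are `G_δ` and bounded -/
structure Pvg5Ln (Z Z' KD : Set ℂ) (ms : List (ℝ × Set ℂ)) : Prop where
  mKD : MeasurableSet KD
  ms0 : ∀ q ∈ ms, 0 < q.1
  gd : ∀ q ∈ ms, IsGδ q.2
  bd : ∀ q ∈ ms, Bornology.IsBounded q.2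
  core : ∀ x ∈ Z ∪ Z' ∪ KD, ∃ q ∈ ms, x ∈ pvtrCore (3 * q.1) q.2

theorem pvg5_eqns_cite4 : True := by
  have := @pvg5Hf.eq_1; have := @pvg5Big.eq_1; have := @pvg5Kit.eq_1; have := @pvg5Co.eq_1; have := @pvg5Ci.eq_1; have := @pvg5Cr.eq_1; have := @pvg5Ce.eq_1; have := @pvg5Cb.eq_1
  trivial

section ports

variable {N : PvspNum} {ty : PvspTy} {z : ℂ} {h : ℝ} {S : Set ℂ} {𝔭 : PvkdPlug} {O₀ : Set ℂ} {d : ℂ} {σ : Bool}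

theorem pvg5_hf_meas (σ : Bool) : MeasurableSet (pvg5Hf σ) := by
  cases σ
  · exact measurableSet_lt Complex.measurable_re measurable_const
  · exact measurableSet_le measurable_const Complex.measurable_re

theorem pvg5_hf_convex (σ : Bool) : Convex ℝ (pvg5Hf σ) := by
  cases σ
  · intro x hx y hy a b ha hb hab
    have hx' : x.re < 0 := hx
    have hy' : y.re < 0 := hy
    show (a • x + b • y).re < 0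
    simp only [Complex.add_re, Complex.real_smul, Complex.mul_re, Complex.ofReal_re, Complex.ofReal_im, zero_mul, sub_zero]
    rcases ha.eq_or_lt with rfl | ha'
    · have : b = 1 := by linarith
      subst this
      linarith
    · nlinarith
  · intro x hx y hy a b ha hb hab
    have hx' : 0 ≤ x.re := hx
    have hy' : 0 ≤ y.re := hy
    show 0 ≤ (a • x + b • y).re
    simp only [Complex.add_re, Complex.real_smul, Complex.mul_re, Complex.ofReal_re, Complex.ofReal_im, zero_mul, sub_zero]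
    positivity

theorem pvg5_hf_disj : Disjoint (pvg5Hf false) (pvg5Hf true) := by
  rw [Set.disjoint_left]
  intro w h1 h2
  have h1' : w.re < 0 := h1
  have h2' : 0 ≤ w.re := h2
  linarith

theorem pvg5_hf_union : pvg5Hf false ∪ pvg5Hf true = univ := by
  ext w
  simp only [mem_union, mem_univ, iff_true]
  rcases lt_or_ge w.re 0 with h | h
  · exact Or.inl h
  · exact Or.inr h

/-- a big port -/
theorem pvg5_big_ok (hW : ty.Wf N z h) (hS : MeasurableSet S) : (pvg5Big N ty z h S).Ok where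
  nest := hW.nest
  uq := pvkj_big_uq hW.tubes
  mr := hW.reg_meas
  mO := isClosed_closedBall.measurableSet
  mH := isClosed_closedBall.measurableSet.inter hS
  HO := inter_subset_left
  ZO := by
    show closedBall z ((ty.b N 1 + 1) * h) ⊆ closedBall z (ty.rO N * h)
    refine closedBall_subset_closedBall (mul_le_mul_of_nonneg_right ?_ hW.h0.le)
    have := hW.rO
    have := hW.mu0
    linarith

/-- a kit port -/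
theorem pvg5_kit_ok (P : Pvg5Plug 𝔭 O₀) (hd : ‖d‖ = 1) : (pvg5Kit 𝔭 O₀ z d σ).Ok where
  nest := pvkj_regK_nest (ball_subset_ball P.ab)
  uq := pvkj_kit_uq (pvkx_at_disj (pvth_ne_zero hd) P.ZZ)
  mr := by
    intro i
    cases i
    all_goals first
      | exact measurableSet_ball
      | exact MeasurableSet.empty
      | exact pvzn_at_meas (pvth_ne_zero hd) z P.mZm
      | exact pvzn_at_meas (pvth_ne_zero hd) z P.mZp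
      | exact pvzn_at_meas (pvth_ne_zero hd) z P.mTb
  mO := pvzn_at_meas (pvth_ne_zero hd) z P.mO
  mH := pvzn_at_meas (pvth_ne_zero hd) z (P.mO.inter (pvg5_hf_meas σ))
  HO := pvkx_at_mono z d inter_subset_left
  ZO := by
    have e : pvznRd (𝔭.pg z d) = pvkdAt z d (ball 0 𝔭.a ∪ ball 0 𝔭.b ∪ 𝔭.Tb) := by
      show ball z 𝔭.a ∪ ball z 𝔭.b ∪ pvkdAt z d 𝔭.Tb = _
      rw [pvjc_ball_at z hd, pvjc_ball_at z hd]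
      unfold pvkdAt
      rw [image_union, image_union]
    show pvznRd (𝔭.pg z d) ⊆ pvkdAt z d O₀
    rw [e]
    exact pvkx_at_mono z d P.zone

/-- a placed region meets a placed half plane in the placed half -/
theorem pvg5_at_inter (hd : d ≠ 0) (A B : Set ℂ) : pvkdAt z d A ∩ pvkdAt z d B = pvkdAt z d (A ∩ B) := by
  unfold pvkdAt
  rw [image_inter]
  intro x y hxy
  have : z + d * x = z + d * y := hxy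
  exact mul_left_cancel₀ hd (add_left_cancel this)

/-- the two halves of a placed kit region cover it -/
theorem pvg5_kit_cover (O₀ : Set ℂ) (z d : ℂ) : pvkdAt z d O₀ ⊆ pvkdAt z d (O₀ ∩ pvg5Hf false) ∪ pvkdAt z d (O₀ ∩ pvg5Hf true) := by
  rintro _ ⟨w, hw, rfl⟩
  have : w ∈ pvg5Hf false ∪ pvg5Hf true := by rw [pvg5_hf_union]; exact mem_univ _
  rcases this with h | h
  · exact Or.inl ⟨w, ⟨hw, h⟩, rfl⟩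
  · exact Or.inr ⟨w, ⟨hw, h⟩, rfl⟩

theorem pvg5_kit_halves (hd : d ≠ 0) (O₀ : Set ℂ) (z : ℂ) : Disjoint (pvkdAt z d (O₀ ∩ pvg5Hf false)) (pvkdAt z d (O₀ ∩ pvg5Hf true)) :=
  pvkx_at_disj hd (pvg5_hf_disj.mono inter_subset_right inter_subset_right)

/-- [T4] **a corridor in the half plane of its side pays the clause at a kit port** -/
theorem pvg5_tri_kit {K : Set ℂ} {ms : List (ℝ × Set ℂ)} (hd : d ≠ 0) (hK : K ⊆ pvkdAt z d (pvg5Hf σ)) : Pvg5Tri K ms ((pvg5Kit 𝔭 O₀ z d σ).Oᶜ ∪ (pvg5Kit 𝔭 O₀ z d σ).H) :=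
  pvg5_tri_glob (pvkx_at_convex z d (pvg5_hf_convex σ)) (le_of_eq (pvg5_at_inter hd _ _)) hK

/-- [T5] the LOCAL form at a kit port -/
theorem pvg5_tri_kit_loc {K : Set ℂ} {ms : List (ℝ × Set ℂ)} (hd : d ≠ 0)
    (h : ∀ q ∈ ms, ∀ x ∈ K, closedBall x (3 * q.1) ⊆ q.2 → (closedBall x (2 * q.1) ∩ pvkdAt z d O₀).Nonempty → K ∩ closedBall x (2 * q.1) ⊆ pvkdAt z d (pvg5Hf σ)) :
    Pvg5Tri K ms ((pvg5Kit 𝔭 O₀ z d σ).Oᶜ ∪ (pvg5Kit 𝔭 O₀ z d σ).H) :=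
  pvg5_tri_loc (pvkx_at_convex z d (pvg5_hf_convex σ)) (le_of_eq (pvg5_at_inter hd _ _)) h

end ports

/-! ## 7. THE CANDIDATE -/

section cand

variable {τ : Type} {cc : ℝ}

/-- the four connectors of CLOSE-P at the candidate `(m, z, t)` of `𝔓` -/
noncomputable abbrev pvg5CoP (𝔓 : PvrxPar τ cc) (m : ℕ) (z : ℂ) (t : τ) (Sp : Set ℂ) (𝔨 : PvkdGeo) (KD : Set ℂ) (ms : List (ℝ × Set ℂ)) : PvkjCn :=
  pvg5Co 𝔓.mod.N (𝔓.ty m z t) z (pvlmH m) Sp 𝔨 (z + (𝔓.Γ m).pout t) ((𝔓.Γ m).dout t) KD ms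
noncomputable abbrev pvg5CrP (𝔓 : PvrxPar τ cc) (𝔶 : PvydGeo τ) (m : ℕ) (𝔨 : PvkdGeo) (𝔲 : PvkdPlug) (KD : Set ℂ) (ms : List (ℝ × Set ℂ)) : PvkjCn :=
  pvg5Cr 𝔨 (𝔓.Γ m).pin0 (𝔓.Γ m).din0 𝔲 (𝔶.Ou m) KD ms
noncomputable abbrev pvg5CeP (𝔓 : PvrxPar τ cc) (𝔶 : PvydGeo τ) (m : ℕ) (z : ℂ) (t : τ) (Sp : Set ℂ) (𝔲 : PvkdPlug) (KD : Set ℂ) (ms : List (ℝ × Set ℂ)) : PvkjCn :=
  pvg5Ce 𝔓.mod.N (𝔓.ty m z t) z (pvlmH m) Sp 𝔲 (𝔶.Ou m) (pvydWu 𝔓 m z t) KD ms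
noncomputable abbrev pvg5CbP (𝔓 : PvrxPar τ cc) (𝔶 : PvydGeo τ) (m : ℕ) (z : ℂ) (t : τ) (Sp : Set ℂ) (𝔲 : PvkdPlug) (KD : Set ℂ) (ms : List (ℝ × Set ℂ)) : PvkjCn :=
  pvg5Cb 𝔓.mod.N (𝔓.ty m z t) z (pvlmH m) Sp 𝔲 (𝔶.Ou m) (pvydWu 𝔓 m z t) KD ms

/-- the state region of the big plug -/
noncomputable abbrev pvg5Ot (𝔓 : PvrxPar τ cc) (m : ℕ) (z : ℂ) (t : τ) : Set ℂ := pvspO 𝔓.mod.N (𝔓.ty m z t) z (pvlmH m)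
/-- the zone of the big plug -/
noncomputable abbrev pvg5Zt (𝔓 : PvrxPar τ cc) (m : ℕ) (z : ℂ) (t : τ) : Set ℂ := (pvkjBig ((𝔓.ty m z t).reg 𝔓.mod.N z (pvlmH m))).Z
/-- the state region of the reference plug of the candidate -/
noncomputable abbrev pvg5Ou (𝔓 : PvrxPar τ cc) (𝔶 : PvydGeo τ) (m : ℕ) (z : ℂ) (t : τ) : Set ℂ := pvkdAt (pvydWu 𝔓 m z t) 1 (𝔶.Ou m)

/-- **WHAT THE GEOMETRY OWES TO THE REGIONS OF CLOSE-P AT THE CANDIDATE `(m, z, t)`**.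
DATA: `𝔨` = cells of level `m`, `𝔲` = the reference plug at its scale, `Sp` = THE EXIT SIDE of the big plug, `KD*` = rooms of (DET) (`𝔡.D.KE`), `ms*` = lists of meshes (`𝔡.ms`), `R` = UNIFORM radius of the mask of `e` in units of `h`.
SUPPLIERS: `tyW` 185 (`𝔓.Wf.ty_wf`);   `pk pu reg` kit (203 291);   `no nr ne nb ro rr re rb` 270 (`PvvwLd.Ok`) + `G_δ`;   `qo qr` the hulls of the funnels lie on their side of the doors (8 135 275 / 294 114);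
`so sb se` THE SPLIT OF `O_t` (97 205 270 + the owners of the hulls);   `ue ub` the thick links at `u` (221 148; `pvg5_tri_kit_loc`);   `dj1 dj2` 58;   `Mok Mkr Mke` masks against the half open cells (58 183 166: zone form);   `vol` 164 122. -/
structure Pvg5Cand (𝔓 : PvrxPar τ cc) (𝔶 : PvydGeo τ) (m : ℕ) (z : ℂ) (t : τ) (𝔨 : PvkdGeo) (𝔲 : PvkdPlug) (Sp KDo KDr KDe KDb : Set ℂ) (mso msr mse msb : List (ℝ × Set ℂ)) (R : ℝ) : Prop where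
  tyW : (𝔓.ty m z t).Wf 𝔓.mod.N z (pvlmH m)
  mSp : MeasurableSet Sp
  pk : Pvg5Plug 𝔨.toPvkdPlug 𝔨.O₀
  pu : Pvg5Plug 𝔲 (𝔶.Ou m)
  reg : PvjcReg 𝔨
  /-- the East half of the region of a door lies in the mask of the next cell -/
  east : ∀ τ', 𝔨.O₀ ∩ pvg5Hf true ⊆ 𝔨.Mk τ'
  del : 𝔨.δ = (𝔓.Γ m).δ
  d4 : (𝔓.Γ m).dout t ^ 4 = 1
  hO : ∀ᶠ ε in 𝓝[>] (0 : ℝ), (𝔶.kit m ε).O₀ = 𝔨.O₀
  kdel : ∀ᶠ ε in 𝓝[>] (0 : ℝ), (𝔶.kit m ε).δ = (𝔓.Γ m).δ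
  /-- the cell data -/
  no : Pvg5Ln (pvg5Zt 𝔓 m z t) (pvkjKit (𝔨.pg (z + (𝔓.Γ m).pout t) ((𝔓.Γ m).dout t))).Z KDo mso
  nr : Pvg5Ln (pvkjKit (𝔨.pg (𝔓.Γ m).pin0 (𝔓.Γ m).din0)).Z (pvkjKit (𝔲.pg 0 1)).Z KDr msr
  ne : Pvg5Ln (pvkjKit (𝔲.pg (pvydWu 𝔓 m z t) 1)).Z (pvg5Zt 𝔓 m z t) KDe mse
  nb : Pvg5Ln (pvg5Zt 𝔓 m z t) (pvkjKit (𝔲.pg (pvydWu 𝔓 m z t) 1)).Z KDb msb
  /-- the rooms of the funnels lie on their side of the doors -/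
  qo : KDo ⊆ pvkdAt (z + (𝔓.Γ m).pout t) ((𝔓.Γ m).dout t) (pvg5Hf false)
  qr : KDr ⊆ pvkdAt (𝔓.Γ m).pin0 (𝔓.Γ m).din0 (pvg5Hf true) ∩ pvg5Hf false
  /-- THE SPLIT OF `O_t` -/
  so : Pvg5Tri (pvg5CoP 𝔓 m z t Sp 𝔨 KDo mso).Kc mso ((pvg5Ot 𝔓 m z t)ᶜ ∪ pvg5Ot 𝔓 m z t ∩ Sp)
  sb : Pvg5Tri (pvg5CbP 𝔓 𝔶 m z t Sp 𝔲 KDb msb).Kc msb ((pvg5Ot 𝔓 m z t)ᶜ ∪ pvg5Ot 𝔓 m z t ∩ Sp)
  se : Pvg5Tri (pvg5CeP 𝔓 𝔶 m z t Sp 𝔲 KDe mse).Kc mse ((pvg5Ot 𝔓 m z t)ᶜ ∪ pvg5Ot 𝔓 m z t ∩ Spᶜ)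
  /-- the thick links at `u` -/
  ue : Pvg5Tri (pvg5CeP 𝔓 𝔶 m z t Sp 𝔲 KDe mse).Kc mse ((pvg5Ou 𝔓 𝔶 m z t)ᶜ ∪ pvkdAt (pvydWu 𝔓 m z t) 1 (𝔶.Ou m ∩ pvg5Hf true))
  ub : Pvg5Tri (pvg5CbP 𝔓 𝔶 m z t Sp 𝔲 KDb msb).Kc msb ((pvg5Ou 𝔓 𝔶 m z t)ᶜ ∪ pvkdAt (pvydWu 𝔓 m z t) 1 (𝔶.Ou m ∩ pvg5Hf false))
  /-- the windows of the lists are read by the links -/
  ro : ∀ᶠ ε in 𝓝[>] (0 : ℝ), Pvg5Rd mso (𝔶.lo 𝔓 (𝔓.ty m z t).col m ε z t) (𝔶.wo m z t).Et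
  rr : ∀ᶠ ε in 𝓝[>] (0 : ℝ), Pvg5Rd msr (𝔶.lr 𝔓 m ε) (𝔶.wr m).Et
  re : Pvg5Rd mse (𝔶.le 𝔓 (𝔓.ty m z t).col m z t) (𝔶.we m z t).Et
  rb : Pvg5Rd msb (𝔶.lb 𝔓 (𝔓.ty m z t).col m z t) (𝔶.wb m z t).Et
  /-- the lists of 58 (fields of `CandOk`) -/
  dj1 : ∀ᶠ ε in 𝓝[>] (0 : ℝ), PvydDj (((𝔓.Γ m).l1 t).length + 3)
    (pvskList ((pvydDat 𝔓 𝔶 (𝔓.ty m z t).col).sOut m ε z t) ((pvydDat 𝔓 𝔶 (𝔓.ty m z t).col).kit m ε) (z + (𝔓.Γ m).pout t) ((𝔓.Γ m).dout t) ((𝔓.Γ m).l1 t)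
      ((pvydDat 𝔓 𝔶 (𝔓.ty m z t).col).Kr m ε z t) ((pvydDat 𝔓 𝔶 (𝔓.ty m z t).col).Ar m ε z t) ((pvydDat 𝔓 𝔶 (𝔓.ty m z t).col).sRef m ε z t))
  dj2 : ∀ᶠ ε in 𝓝[>] (0 : ℝ), PvydDj 2 ((pvydDat 𝔓 𝔶 (𝔓.ty m z t).col).cyc2 m ε z t)
  /-- the three foreign masks of the long cycle are off the half open cells of the word -/
  Mok : ∀ i < ((𝔓.Γ m).l1 t).length, Disjoint (pvg5CoP 𝔓 m z t Sp 𝔨 KDo mso).M (pvjcMk 𝔨 (z + (𝔓.Γ m).pout t) ((𝔓.Γ m).dout t) ((𝔓.Γ m).l1 t) i)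
  Mkr : ∀ i < ((𝔓.Γ m).l1 t).length, Disjoint (pvjcMk 𝔨 (z + (𝔓.Γ m).pout t) ((𝔓.Γ m).dout t) ((𝔓.Γ m).l1 t) i) (pvuhAt (pvg5CrP 𝔓 𝔶 m 𝔨 𝔲 KDr msr) (pvydWu 𝔓 m z t)).M
  Mke : ∀ i < ((𝔓.Γ m).l1 t).length, Disjoint (pvjcMk 𝔨 (z + (𝔓.Γ m).pout t) ((𝔓.Γ m).dout t) ((𝔓.Γ m).l1 t) i) (pvg5CeP 𝔓 𝔶 m z t Sp 𝔲 KDe mse).M
  /-- the mask of `e` lies in a disc of radius `R h` -/
  R0 : 0 ≤ R
  vol : (pvg5CeP 𝔓 𝔶 m z t Sp 𝔲 KDe mse).M ⊆ closedBall z (R * pvlmH m)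

/-- the bounded set of CLOSE-P -/
noncomputable def pvg5B (Mo Mr Me Mb : Set ℂ) (𝔨 : PvkdGeo) (z0 d0 : ℂ) (l : List PvtTurn) : Set ℂ :=
  Mo ∪ Mr ∪ Me ∪ Mb ∪ (⋃ i ∈ Finset.range (l.length + 1), (pvjcE 𝔨 z0 d0 l i).Z) ∪ ⋃ i ∈ Finset.range l.length, pvjcKE 𝔨 z0 d0 l i

/-- **THE FIELDS OF `PvucSup` (95) WHICH ARE REGIONS** -/
structure Pvg5Reg (𝔓 : PvrxPar τ cc) (𝔶 : PvydGeo τ) (m : ℕ) (z : ℂ) (t : τ) (𝔨 : PvkdGeo) (Co Cr Ce Cb : PvkjCn) (U0 Ut Uu Vt Vu : Set ℂ) (B : Set ℂ) (a₀ cM h : ℝ) : Prop where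
  bB : Bornology.IsBounded B
  a0 : 0 < a₀
  c0 : 0 ≤ cM
  co : Co.col = (𝔓.ty m z t).col
  cr : Cr.col = true
  ce : Ce.col = (𝔓.ty m z t).col
  cb : Cb.col = (𝔓.ty m z t).col
  jo : Co.e' = pvjcE 𝔨 (z + (𝔓.Γ m).pout t) ((𝔓.Γ m).dout t) ((𝔓.Γ m).l1 t) 0
  jr : (pvuhAt Cr (pvydWu 𝔓 m z t)).e = pvjcE 𝔨 (z + (𝔓.Γ m).pout t) ((𝔓.Γ m).dout t) ((𝔓.Γ m).l1 t) ((𝔓.Γ m).l1 t).length
  ju : (pvuhAt Cr (pvydWu 𝔓 m z t)).e' = Ce.e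
  jt : Ce.e' = Co.e
  jb : Cb.e = Co.e
  jb' : Cb.e' = Ce.e
  lo : PvucLk Co U0
  lr : PvucLk (pvuhAt Cr (pvydWu 𝔓 m z t)) Uu
  le : PvucLk Ce Ut
  lb : PvucLk Cb Vu
  le' : PvucLk Ce Vt
  Eo : ∀ᶠ ε in 𝓝[>] (0 : ℝ), Co.E ×ˢ (univ : Set Bool) ⊆ pvnhRd (𝔶.lo 𝔓 (𝔓.ty m z t).col m ε z t) (𝔶.wo m z t).Et
  Er : ∀ᶠ ε in 𝓝[>] (0 : ℝ), Cr.E ×ˢ (univ : Set Bool) ⊆ pvnhRd (𝔶.lr 𝔓 m ε) (𝔶.wr m).Et
  Ee : Ce.E ×ˢ (univ : Set Bool) ⊆ pvnhRd (𝔶.le 𝔓 (𝔓.ty m z t).col m z t) (𝔶.we m z t).Et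
  Eb : Cb.E ×ˢ (univ : Set Bool) ⊆ pvnhRd (𝔶.lb 𝔓 (𝔓.ty m z t).col m z t) (𝔶.wb m z t).Et
  fg : ∀ᶠ ε in 𝓝[>] (0 : ℝ), PvucFg ((𝔓.Γ m).l1 t).length ((pvydDat 𝔓 𝔶 (𝔓.ty m z t).col).sOut m ε z t) ((pvydDat 𝔓 𝔶 (𝔓.ty m z t).col).sRef m ε z t)
    (((pvydDat 𝔓 𝔶 (𝔓.ty m z t).col).kit m ε).O (pvthZ ((pvydDat 𝔓 𝔶 (𝔓.ty m z t).col).kit m ε).δ (z + (𝔓.Γ m).pout t) ((𝔓.Γ m).dout t) ((𝔓.Γ m).l1 t) 0) (pvthD ((𝔓.Γ m).dout t) ((𝔓.Γ m).l1 t) 0))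
    (((pvydDat 𝔓 𝔶 (𝔓.ty m z t).col).kit m ε).O (pvthZ ((pvydDat 𝔓 𝔶 (𝔓.ty m z t).col).kit m ε).δ (z + (𝔓.Γ m).pout t) ((𝔓.Γ m).dout t) ((𝔓.Γ m).l1 t) ((𝔓.Γ m).l1 t).length)
      (pvthD ((𝔓.Γ m).dout t) ((𝔓.Γ m).l1 t) ((𝔓.Γ m).l1 t).length))
    ((pvydDat 𝔓 𝔶 (𝔓.ty m z t).col).Kr m ε z t) Co.e Ce.e (pvjcE 𝔨 (z + (𝔓.Γ m).pout t) ((𝔓.Γ m).dout t) ((𝔓.Γ m).l1 t)) Co.Kc (pvuhAt Cr (pvydWu 𝔓 m z t)).Kc Ce.Kc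
    (pvjcKE 𝔨 (z + (𝔓.Γ m).pout t) ((𝔓.Γ m).dout t) ((𝔓.Γ m).l1 t)) Co.M (pvuhAt Cr (pvydWu 𝔓 m z t)).M Ce.M (pvjcMk 𝔨 (z + (𝔓.Γ m).pout t) ((𝔓.Γ m).dout t) ((𝔓.Γ m).l1 t)) Ut Uu
    (pvucUd U0 𝔨 (z + (𝔓.Γ m).pout t) ((𝔓.Γ m).dout t) ((𝔓.Γ m).l1 t)) B a₀
  sh : PvucSh Cb.e Ce.e Cb.Kc Ce.Kc Cb.M Ce.M Vt Vu B a₀
  vol : volume Ce.M ≤ ENNReal.ofReal (cM * h ^ 2)

theorem pvg5_eqns_cite5 : True := by
  have := @pvg5CoP.eq_1; have := @pvg5CrP.eq_1; have := @pvg5CeP.eq_1; have := @pvg5CbP.eq_1; have := @pvg5Ot.eq_1; have := @pvg5Zt.eq_1; have := @pvg5Ou.eq_1; have := @pvg5B.eq_1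
  trivial

variable {𝔓 : PvrxPar τ cc} {𝔶 : PvydGeo τ} {m : ℕ} {z : ℂ} {t : τ} {𝔨 : PvkdGeo} {𝔲 : PvkdPlug} {Sp KDo KDr KDe KDb : Set ℂ} {mso msr mse msb : List (ℝ × Set ℂ)} {R : ℝ}

theorem Pvg5Cand.nd (H : Pvg5Cand 𝔓 𝔶 m z t 𝔨 𝔲 Sp KDo KDr KDe KDb mso msr mse msb R) : ‖(𝔓.Γ m).dout t‖ = 1 := (𝔓.Γ m).dout1 t

theorem Pvg5Cand.ne0 (H : Pvg5Cand 𝔓 𝔶 m z t 𝔨 𝔲 Sp KDo KDr KDe KDb mso msr mse msb R) : ‖(𝔓.Γ m).din0‖ = 1 := pvth_norm_of_pow (pvyd_din0 H.d4)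

/-- the exit funnel -/
theorem Pvg5Cand.ko (H : Pvg5Cand 𝔓 𝔶 m z t 𝔨 𝔲 Sp KDo KDr KDe KDb mso msr mse msb R) :
    Pvg5Lk (pvg5Big 𝔓.mod.N (𝔓.ty m z t) z (pvlmH m) Sp) (pvg5Kit 𝔨.toPvkdPlug 𝔨.O₀ (z + (𝔓.Γ m).pout t) ((𝔓.Γ m).dout t) false) KDo (pvkdAt (z + (𝔓.Γ m).pout t) ((𝔓.Γ m).dout t) (pvg5Hf false)) mso
      (pvkdAt (z + (𝔓.Γ m).pout t) ((𝔓.Γ m).dout t) 𝔨.O₀) where
  pa := pvg5_big_ok H.tyW H.mSp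
  pb := pvg5_kit_ok H.pk H.nd
  mKD := H.no.mKD
  mQ := pvzn_at_meas (pvth_ne_zero H.nd) _ (pvg5_hf_meas false)
  cQ := pvkx_at_convex _ _ (pvg5_hf_convex false)
  KQ := H.qo
  ms0 := H.no.ms0
  gd := H.no.gd
  bd := H.no.bd
  core := H.no.core
  ta := H.so
  tb := pvg5_tri_kit (pvth_ne_zero H.nd) (sdiff_subset.trans H.qo)
  cU := pvkx_at_convex _ _ H.pk.cO
  ZU := (pvg5_kit_ok (σ := false) H.pk H.nd).ZO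

/-- the funnel of the reference plug, REFERENCE FRAME -/
theorem Pvg5Cand.kr (H : Pvg5Cand 𝔓 𝔶 m z t 𝔨 𝔲 Sp KDo KDr KDe KDb mso msr mse msb R) :
    Pvg5Lk (pvg5Kit 𝔨.toPvkdPlug 𝔨.O₀ (𝔓.Γ m).pin0 (𝔓.Γ m).din0 true) (pvg5Kit 𝔲 (𝔶.Ou m) 0 1 false) KDr (pvkdAt (𝔓.Γ m).pin0 (𝔓.Γ m).din0 (pvg5Hf true) ∩ pvg5Hf false) msr (pvkdAt 0 1 (𝔶.Ou m)) where
  pa := pvg5_kit_ok H.pk H.ne0
  pb := pvg5_kit_ok H.pu norm_one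
  mKD := H.nr.mKD
  mQ := (pvzn_at_meas (pvth_ne_zero H.ne0) _ (pvg5_hf_meas true)).inter (pvg5_hf_meas false)
  cQ := (pvkx_at_convex _ _ (pvg5_hf_convex true)).inter (pvg5_hf_convex false)
  KQ := H.qr
  ms0 := H.nr.ms0
  gd := H.nr.gd
  bd := H.nr.bd
  core := H.nr.core
  ta := pvg5_tri_kit (pvth_ne_zero H.ne0) (sdiff_subset.trans (H.qr.trans inter_subset_left))
  tb := by
    refine pvg5_tri_kit one_ne_zero (sdiff_subset.trans (H.qr.trans (inter_subset_right.trans ?_)))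
    rw [pvzn_at_id]
  cU := pvkx_at_convex _ _ H.pu.cO
  ZU := (pvg5_kit_ok (σ := false) H.pu norm_one).ZO

/-- the thick link `u → t` -/
theorem Pvg5Cand.ke (H : Pvg5Cand 𝔓 𝔶 m z t 𝔨 𝔲 Sp KDo KDr KDe KDb mso msr mse msb R) :
    Pvg5Lk (pvg5Kit 𝔲 (𝔶.Ou m) (pvydWu 𝔓 m z t) 1 true) (pvg5Big 𝔓.mod.N (𝔓.ty m z t) z (pvlmH m) Spᶜ) KDe univ mse (pvg5Zt 𝔓 m z t) where
  pa := pvg5_kit_ok H.pu norm_one
  pb := pvg5_big_ok H.tyW H.mSp.compl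
  mKD := H.ne.mKD
  mQ := MeasurableSet.univ
  cQ := convex_univ
  KQ := subset_univ _
  ms0 := H.ne.ms0
  gd := H.ne.gd
  bd := H.ne.bd
  core := H.ne.core
  ta := H.ue
  tb := H.se
  cU := convex_closedBall _ _
  ZU := Subset.rfl

/-- the thick return link `t → u` -/
theorem Pvg5Cand.kb (H : Pvg5Cand 𝔓 𝔶 m z t 𝔨 𝔲 Sp KDo KDr KDe KDb mso msr mse msb R) :
    Pvg5Lk (pvg5Big 𝔓.mod.N (𝔓.ty m z t) z (pvlmH m) Sp) (pvg5Kit 𝔲 (𝔶.Ou m) (pvydWu 𝔓 m z t) 1 false) KDb univ msb (pvg5Ou 𝔓 𝔶 m z t) where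
  pa := pvg5_big_ok H.tyW H.mSp
  pb := pvg5_kit_ok H.pu norm_one
  mKD := H.nb.mKD
  mQ := MeasurableSet.univ
  cQ := convex_univ
  KQ := subset_univ _
  ms0 := H.nb.ms0
  gd := H.nb.gd
  bd := H.nb.bd
  core := H.nb.core
  ta := H.sb
  tb := H.ub
  cU := pvkx_at_convex _ _ H.pu.cO
  ZU := (pvg5_kit_ok (σ := false) H.pu norm_one).ZO

/-! ### tools -/

/-- two sets in three parts -/
theorem pvg5_33 {K A B K' A' B' M M' : Set ℂ} (hM : M ⊆ K ∪ A ∪ B) (hM' : M' ⊆ K' ∪ A' ∪ B') (kk : Disjoint K K') (ka : Disjoint K A') (kb : Disjoint K B') (ak : Disjoint A K') (aa : Disjoint A A')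
    (ab : Disjoint A B') (bk : Disjoint B K') (ba : Disjoint B A') (bb : Disjoint B B') : Disjoint M M' := by
  refine Disjoint.mono hM hM' ?_
  simp only [disjoint_union_left, disjoint_union_right]
  tauto

/-- a subset of the window, in the regions of the link -/
theorem Pvg5Rd.KO {ms : List (ℝ × Set ℂ)} {Λ : PvnkLink} {Et K : Set ℂ} (h : Pvg5Rd ms Λ Et) (hK : K ⊆ pvg5E ms) : K ⊆ Λ.e.O ∪ pvnhKp Λ Et ∪ Λ.e'.O := by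
  intro x hx
  by_cases h1 : x ∈ Λ.e.O
  · exact Or.inl (Or.inl h1)
  · by_cases h2 : x ∈ Λ.e'.O
    · exact Or.inr h2
    · exact Or.inl (Or.inr (h.off ⟨hK hx, fun h3 => h3.elim h1 h2⟩))

/-- planar inclusion to coloured points -/
theorem pvg5_prod3 {K A B C : Set ℂ} (h : K ⊆ A ∪ B ∪ C) : K ×ˢ (univ : Set Bool) ⊆ A ×ˢ (univ : Set Bool) ∪ B ×ˢ (univ : Set Bool) ∪ C ×ˢ (univ : Set Bool) := by
  rintro p ⟨hp, -⟩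
  rcases h hp with (h1 | h1) | h1
  · exact Or.inl (Or.inl ⟨h1, mem_univ _⟩)
  · exact Or.inl (Or.inr ⟨h1, mem_univ _⟩)
  · exact Or.inr ⟨h1, mem_univ _⟩

/-- the mask in three parts -/
theorem pvg5_M_3 (a b : Pvg5Port) (Q : Set ℂ) (ms : List (ℝ × Set ℂ)) {K : Set ℂ} (hK : pvg5E ms \ (a.O ∪ b.O) ⊆ K) : pvg5M a b Q ms ⊆ K ∪ a.H ∪ b.H :=
  union_subset_union_left _ (union_subset_union_left _ (inter_subset_left.trans hK))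

/-- a mask is bounded -/
theorem Pvg5Lk.bM {a b : Pvg5Port} {KD Q U : Set ℂ} {ms : List (ℝ × Set ℂ)} (H : Pvg5Lk a b KD Q ms U) (ha : Bornology.IsBounded a.O) (hb : Bornology.IsBounded b.O) : Bornology.IsBounded (pvg5M a b Q ms) :=
  (((pvg5_E_bdd H.bd).subset (inter_subset_left.trans sdiff_subset)).union (ha.subset H.pa.HO)).union (hb.subset H.pb.HO)

/-- the area of a subset of a disc -/
theorem pvg5_vol {M : Set ℂ} {z : ℂ} {R h : ℝ} (hR : 0 ≤ R) (hh : 0 ≤ h) (hM : M ⊆ closedBall z (R * h)) : volume M ≤ ENNReal.ofReal (Real.pi * R ^ 2 * h ^ 2) := by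
  refine (measure_mono hM).trans (le_of_eq ?_)
  rw [Complex.volume_closedBall, ← ENNReal.ofReal_pow (by positivity), ← ENNReal.ofReal_coe_nnreal, ← ENNReal.ofReal_mul (by positivity)]
  congr 1
  rw [NNReal.coe_real_pi]
  ring

/-! ### the mask of `r`, carried -/

section maskr

variable (𝔨 : PvkdGeo) (p0 e0 : ℂ) (𝔲 : PvkdPlug) (Ou KD : Set ℂ) (ms : List (ℝ × Set ℂ)) (w : ℂ)

theorem pvg5_Mr_eq : (pvuhAt (pvg5Cr 𝔨 p0 e0 𝔲 Ou KD ms) w).M =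
    pvthInv w 1 ⁻¹' ((pvg5E ms \ (pvkdAt p0 e0 𝔨.O₀ ∪ pvkdAt 0 1 Ou)) ∩ (pvkdAt p0 e0 (pvg5Hf true) ∩ pvg5Hf false)) ∪ pvkdAt (w + p0) e0 (𝔨.O₀ ∩ pvg5Hf true) ∪ pvkdAt w 1 (Ou ∩ pvg5Hf false) := by
  show pvthInv w 1 ⁻¹' ((pvg5E ms \ (pvkdAt p0 e0 𝔨.O₀ ∪ pvkdAt 0 1 Ou)) ∩ (pvkdAt p0 e0 (pvg5Hf true) ∩ pvg5Hf false) ∪ pvkdAt p0 e0 (𝔨.O₀ ∩ pvg5Hf true) ∪ pvkdAt 0 1 (Ou ∩ pvg5Hf false)) = _
  rw [preimage_union, preimage_union, pvuh_at, pvuh_at, add_zero]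

theorem pvg5_Mr_E : pvkdAt (w + p0) e0 (𝔨.O₀ ∩ pvg5Hf true) ⊆ (pvuhAt (pvg5Cr 𝔨 p0 e0 𝔲 Ou KD ms) w).M := by
  rw [pvg5_Mr_eq]
  exact fun x hx => Or.inl (Or.inr hx)

theorem pvg5_Mr_W : pvkdAt w 1 (Ou ∩ pvg5Hf false) ⊆ (pvuhAt (pvg5Cr 𝔨 p0 e0 𝔲 Ou KD ms) w).M := by
  rw [pvg5_Mr_eq]
  exact fun x hx => Or.inr hx

theorem pvg5_Mr_3 {K : Set ℂ} (hK : pvg5E ms \ (pvkdAt p0 e0 𝔨.O₀ ∪ pvkdAt 0 1 Ou) ⊆ K) :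
    (pvuhAt (pvg5Cr 𝔨 p0 e0 𝔲 Ou KD ms) w).M ⊆ pvthSim w 1 '' K ∪ pvkdAt (w + p0) e0 (𝔨.O₀ ∩ pvg5Hf true) ∪ pvkdAt w 1 (Ou ∩ pvg5Hf false) := by
  rw [pvg5_Mr_eq, ← pvg5_pre_eq]
  exact union_subset_union_left _ (union_subset_union_left _ (preimage_mono (inter_subset_left.trans hK)))

end maskr

/-- planar form of the three clauses of `PvydDj` -/
theorem pvg5_dOO {n : ℕ} {sec : ℕ → PvsySec PvPt} (dj : PvydDj n sec) {i j : ℕ} (hi : i < n) (hj : j < n) (hij : i ≠ j) {A B : Set ℂ} (hA : (sec i).O = A ×ˢ (univ : Set Bool)) (hB : (sec j).O = B ×ˢ (univ : Set Bool)) :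
    Disjoint A B := pvg5_pl hA.ge hB.ge (dj.dOO i hi j hj hij)

theorem pvg5_dKK {n : ℕ} {sec : ℕ → PvsySec PvPt} (dj : PvydDj n sec) {i j : ℕ} (hi : i < n) (hj : j < n) (hij : i ≠ j) {A B : Set ℂ} (hA : (sec i).K = A ×ˢ (univ : Set Bool)) (hB : (sec j).K = B ×ˢ (univ : Set Bool)) :
    Disjoint A B := pvg5_pl hA.ge hB.ge (dj.dKK i hi j hj hij)

theorem pvg5_dOK {n : ℕ} {sec : ℕ → PvsySec PvPt} (dj : PvydDj n sec) {i j : ℕ} (hi : i < n) (hj : j < n) {A B : Set ℂ} (hA : (sec i).O = A ×ˢ (univ : Set Bool)) (hB : (sec j).K = B ×ˢ (univ : Set Bool)) :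
    Disjoint A B := pvg5_pl hA.ge hB.ge (dj.dOK i hi j hj)

/-! ### the fields -/

/-- the last door of the word is the door of the reference plug -/
theorem Pvg5Cand.last (H : Pvg5Cand 𝔓 𝔶 m z t 𝔨 𝔲 Sp KDo KDr KDe KDb mso msr mse msb R) :
    pvthZ 𝔨.δ (z + (𝔓.Γ m).pout t) ((𝔓.Γ m).dout t) ((𝔓.Γ m).l1 t) ((𝔓.Γ m).l1 t).length = pvydWu 𝔓 m z t + (𝔓.Γ m).pin0 ∧ pvthD ((𝔓.Γ m).dout t) ((𝔓.Γ m).l1 t) ((𝔓.Γ m).l1 t).length = (𝔓.Γ m).din0 :=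
  pvyp_door_ref (𝔓.Γ m) H.del z t

theorem Pvg5Cand.jo (H : Pvg5Cand 𝔓 𝔶 m z t 𝔨 𝔲 Sp KDo KDr KDe KDb mso msr mse msb R) :
    (pvg5CoP 𝔓 m z t Sp 𝔨 KDo mso).e' = pvjcE 𝔨 (z + (𝔓.Γ m).pout t) ((𝔓.Γ m).dout t) ((𝔓.Γ m).l1 t) 0 := by
  unfold pvjcE
  rw [pvthx_Z_zero, pvthx_D_zero]
  rfl

theorem Pvg5Cand.jr (H : Pvg5Cand 𝔓 𝔶 m z t 𝔨 𝔲 Sp KDo KDr KDe KDb mso msr mse msb R) :
    (pvuhAt (pvg5CrP 𝔓 𝔶 m 𝔨 𝔲 KDr msr) (pvydWu 𝔓 m z t)).e = pvjcE 𝔨 (z + (𝔓.Γ m).pout t) ((𝔓.Γ m).dout t) ((𝔓.Γ m).l1 t) ((𝔓.Γ m).l1 t).length := by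
  unfold pvjcE
  rw [H.last.1, H.last.2]
  exact pvuh_kit_end 𝔨.toPvkdPlug (pvydWu 𝔓 m z t) (𝔓.Γ m).pin0 (𝔓.Γ m).din0

theorem Pvg5Cand.ju (H : Pvg5Cand 𝔓 𝔶 m z t 𝔨 𝔲 Sp KDo KDr KDe KDb mso msr mse msb R) :
    (pvuhAt (pvg5CrP 𝔓 𝔶 m 𝔨 𝔲 KDr msr) (pvydWu 𝔓 m z t)).e' = (pvg5CeP 𝔓 𝔶 m z t Sp 𝔲 KDe mse).e := by
  have := pvuh_kit_end 𝔲 (pvydWu 𝔓 m z t) 0 1
  rw [add_zero] at this
  exact this

theorem Pvg5Cand.lr (H : Pvg5Cand 𝔓 𝔶 m z t 𝔨 𝔲 Sp KDo KDr KDe KDb mso msr mse msb R) : PvucLk (pvuhAt (pvg5CrP 𝔓 𝔶 m 𝔨 𝔲 KDr msr) (pvydWu 𝔓 m z t)) (pvg5Ou 𝔓 𝔶 m z t) := by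
  have := pvg5_lk_at (pvydWu 𝔓 m z t) (H.kr.lk (col := true))
  rw [pvuh_at, add_zero] at this
  exact this

/-- the state region of `t` is split between the exit mask and the entrance mask -/
theorem pvg5_t_cover (N : PvspNum) (ty : PvspTy) (z : ℂ) (h : ℝ) (Sp : Set ℂ) : pvspO N ty z h ⊆ pvspO N ty z h ∩ Spᶜ ∪ pvspO N ty z h ∩ Sp := by
  intro x hx
  by_cases h1 : x ∈ Sp
  · exact Or.inr ⟨hx, h1⟩
  · exact Or.inl ⟨hx, h1⟩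

/-- `t` and `u` are apart -/
theorem Pvg5Cand.big (H : Pvg5Cand 𝔓 𝔶 m z t 𝔨 𝔲 Sp KDo KDr KDe KDb mso msr mse msb R) (hd : Disjoint (pvg5Ot 𝔓 m z t) (pvg5Ou 𝔓 𝔶 m z t)) :
    ∀ p ∈ (pvg5CoP 𝔓 m z t Sp 𝔨 KDo mso).e.Z, ∀ p' ∈ (pvg5CeP 𝔓 𝔶 m z t Sp 𝔲 KDe mse).e.Z, ((𝔓.ty m z t).rO 𝔓.mod.N - ((𝔓.ty m z t).b 𝔓.mod.N 1 + 1)) * pvlmH m ≤ ‖p - p'‖ := by
  intro p hp p' hp'
  have h1 : p ∈ closedBall z (((𝔓.ty m z t).b 𝔓.mod.N 1 + 1) * pvlmH m) := hp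
  have h2 : p' ∉ closedBall z ((𝔓.ty m z t).rO 𝔓.mod.N * pvlmH m) := fun h => Set.disjoint_left.1 hd h (H.ke.pa.ZO hp')
  rw [mem_closedBall, dist_eq_norm] at h1 h2
  have h3 : ‖p' - z‖ ≤ ‖p - p'‖ + ‖p - z‖ := by
    have : p' - z = -(p - p') + (p - z) := by ring
    rw [this]
    exact (norm_add_le _ _).trans (by rw [norm_neg])
  nlinarith

/-- the two parts of `O_t` are disjoint -/
theorem pvg5_t_halves (O Sp : Set ℂ) : Disjoint (O ∩ Sp) (O ∩ Spᶜ) :=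
  Set.disjoint_left.2 fun _ h1 h2 => h2.2 h1.2

/-- **THE REGIONS OF THE SHORT CYCLE** -/
theorem Pvg5Cand.sh (H : Pvg5Cand 𝔓 𝔶 m z t 𝔨 𝔲 Sp KDo KDr KDe KDb mso msr mse msb R) {B : Set ℂ} (hBb : (pvg5CbP 𝔓 𝔶 m z t Sp 𝔲 KDb msb).M ⊆ B) (hBe : (pvg5CeP 𝔓 𝔶 m z t Sp 𝔲 KDe mse).M ⊆ B) :
    PvucSh (pvg5CbP 𝔓 𝔶 m z t Sp 𝔲 KDb msb).e (pvg5CeP 𝔓 𝔶 m z t Sp 𝔲 KDe mse).e (pvg5CbP 𝔓 𝔶 m z t Sp 𝔲 KDb msb).Kc (pvg5CeP 𝔓 𝔶 m z t Sp 𝔲 KDe mse).Kc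
      (pvg5CbP 𝔓 𝔶 m z t Sp 𝔲 KDb msb).M (pvg5CeP 𝔓 𝔶 m z t Sp 𝔲 KDe mse).M (pvg5Zt 𝔓 m z t) (pvg5Ou 𝔓 𝔶 m z t) B
      (((𝔓.ty m z t).rO 𝔓.mod.N - ((𝔓.ty m z t).b 𝔓.mod.N 1 + 1)) * pvlmH m) := by
  obtain ⟨ε, dj⟩ := H.dj2.exists
  have e0 : (pvydDat 𝔓 𝔶 (𝔓.ty m z t).col).cyc2 m ε z t 0 = (pvydDat 𝔓 𝔶 (𝔓.ty m z t).col).sBack m ε z t := if_pos rfl
  have e1 : (pvydDat 𝔓 𝔶 (𝔓.ty m z t).col).cyc2 m ε z t 1 = (pvydDat 𝔓 𝔶 (𝔓.ty m z t).col).sRef m ε z t := if_neg (by norm_num)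
  have tu : Disjoint (pvg5Ot 𝔓 m z t) (pvg5Ou 𝔓 𝔶 m z t) := by
    have := dj.dOO 0 (by norm_num) 1 (by norm_num) (by norm_num)
    rw [e0, e1] at this
    exact pvg5_pl Subset.rfl Subset.rfl this
  have kk : Disjoint (pvnhKp (𝔶.lb 𝔓 (𝔓.ty m z t).col m z t) (𝔶.wb m z t).Et) (pvnhKp (𝔶.le 𝔓 (𝔓.ty m z t).col m z t) (𝔶.we m z t).Et) := by
    have := dj.dKK 0 (by norm_num) 1 (by norm_num) (by norm_num)
    rw [e0, e1] at this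
    exact pvg5_pl Subset.rfl Subset.rfl this
  have tb : Disjoint (pvg5Ot 𝔓 m z t) (pvnhKp (𝔶.lb 𝔓 (𝔓.ty m z t).col m z t) (𝔶.wb m z t).Et) := by
    have := dj.dOK 0 (by norm_num) 0 (by norm_num)
    rw [e0] at this
    exact pvg5_pl Subset.rfl Subset.rfl this
  have te : Disjoint (pvg5Ot 𝔓 m z t) (pvnhKp (𝔶.le 𝔓 (𝔓.ty m z t).col m z t) (𝔶.we m z t).Et) := by
    have := dj.dOK 0 (by norm_num) 1 (by norm_num)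
    rw [e0, e1] at this
    exact pvg5_pl Subset.rfl Subset.rfl this
  have ub : Disjoint (pvg5Ou 𝔓 𝔶 m z t) (pvnhKp (𝔶.lb 𝔓 (𝔓.ty m z t).col m z t) (𝔶.wb m z t).Et) := by
    have := dj.dOK 1 (by norm_num) 0 (by norm_num)
    rw [e0, e1] at this
    exact pvg5_pl Subset.rfl Subset.rfl this
  have ue : Disjoint (pvg5Ou 𝔓 𝔶 m z t) (pvnhKp (𝔶.le 𝔓 (𝔓.ty m z t).col m z t) (𝔶.we m z t).Et) := by
    have := dj.dOK 1 (by norm_num) 1 (by norm_num)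
    rw [e1] at this
    exact pvg5_pl Subset.rfl Subset.rfl this
  have hb3 := pvg5_M_3 (pvg5Big 𝔓.mod.N (𝔓.ty m z t) z (pvlmH m) Sp) (pvg5Kit 𝔲 (𝔶.Ou m) (pvydWu 𝔓 m z t) 1 false) univ msb H.rb.off
  have he3 := pvg5_M_3 (pvg5Kit 𝔲 (𝔶.Ou m) (pvydWu 𝔓 m z t) 1 true) (pvg5Big 𝔓.mod.N (𝔓.ty m z t) z (pvlmH m) Spᶜ) univ mse H.re.off
  have hW : pvkdAt (pvydWu 𝔓 m z t) 1 (𝔶.Ou m ∩ pvg5Hf false) ⊆ pvg5Ou 𝔓 𝔶 m z t := pvkx_at_mono _ _ inter_subset_left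
  have hE : pvkdAt (pvydWu 𝔓 m z t) 1 (𝔶.Ou m ∩ pvg5Hf true) ⊆ pvg5Ou 𝔓 𝔶 m z t := pvkx_at_mono _ _ inter_subset_left
  exact
    { okt := (H.kb.wf (col := (𝔓.ty m z t).col)).ok
      oku := (H.ke.wf (col := (𝔓.ty m z t).col)).ok
      uqt := H.kb.pa.uq
      uqu := H.ke.pa.uq
      Ztu := tu.mono H.kb.pa.ZO H.ke.pa.ZO
      Mbe := pvg5_33 hb3 he3 kk (ub.symm.mono_right hE) (tb.symm.mono_right inter_subset_left) (te.mono_left inter_subset_left) (tu.mono inter_subset_left hE) (pvg5_t_halves _ _)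
        (ue.mono_left hW) (pvg5_kit_halves one_ne_zero _ _) (tu.symm.mono hW inter_subset_left)
      Kb := H.kb.KM
      Ke := H.ke.KM
      Zt := by
        refine (union_subset H.kb.pa.ZO H.kb.pa.ZO).trans ((pvg5_t_cover _ _ _ _ Sp).trans (union_subset_union ?_ ?_))
        · exact fun x hx => Or.inr hx
        · exact fun x hx => Or.inl (Or.inr hx)
      Zu := by
        refine (union_subset H.ke.pa.ZO Subset.rfl).trans ((pvg5_kit_cover _ _ _).trans (union_subset_union ?_ ?_))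
        · exact fun x hx => Or.inr hx
        · exact fun x hx => Or.inl (Or.inr hx)
      Bb := hBb
      Be := hBe
      big := H.big tu }

/-- the room of the first door is covered -/
theorem Pvg5Cand.U0 (H : Pvg5Cand 𝔓 𝔶 m z t 𝔨 𝔲 Sp KDo KDr KDe KDb mso msr mse msb R) :
    pvkdAt (z + (𝔓.Γ m).pout t) ((𝔓.Γ m).dout t) 𝔨.O₀ ⊆ (pvg5CoP 𝔓 m z t Sp 𝔨 KDo mso).M ∪
      pvucCn (pvg5CoP 𝔓 m z t Sp 𝔨 KDo mso).M (pvjcMk 𝔨 (z + (𝔓.Γ m).pout t) ((𝔓.Γ m).dout t) ((𝔓.Γ m).l1 t)) (pvuhAt (pvg5CrP 𝔓 𝔶 m 𝔨 𝔲 KDr msr) (pvydWu 𝔓 m z t)).M (pvg5CeP 𝔓 𝔶 m z t Sp 𝔲 KDe mse).M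
        ((𝔓.Γ m).l1 t).length 1 := by
  refine (pvg5_kit_cover _ _ _).trans (union_subset_union (fun x hx => Or.inr hx) ?_)
  rcases Nat.eq_zero_or_pos ((𝔓.Γ m).l1 t).length with h0 | h0
  · have e := H.last
    rw [h0, pvthx_Z_zero, pvthx_D_zero] at e
    have := pvuc_cn_r (pvg5CoP 𝔓 m z t Sp 𝔨 KDo mso).M (pvuhAt (pvg5CrP 𝔓 𝔶 m 𝔨 𝔲 KDr msr) (pvydWu 𝔓 m z t)).M (pvg5CeP 𝔓 𝔶 m z t Sp 𝔲 KDe mse).M
      (pvjcMk 𝔨 (z + (𝔓.Γ m).pout t) ((𝔓.Γ m).dout t) ((𝔓.Γ m).l1 t)) ((𝔓.Γ m).l1 t).length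
    rw [h0] at this ⊢
    rw [this, e.1, e.2]
    exact pvg5_Mr_E _ _ _ _ _ _ _ _
  · have := pvuc_cn_cell (pvg5CoP 𝔓 m z t Sp 𝔨 KDo mso).M (pvuhAt (pvg5CrP 𝔓 𝔶 m 𝔨 𝔲 KDr msr) (pvydWu 𝔓 m z t)).M (pvg5CeP 𝔓 𝔶 m z t Sp 𝔲 KDe mse).M
      (pvjcMk 𝔨 (z + (𝔓.Γ m).pout t) ((𝔓.Γ m).dout t) ((𝔓.Γ m).l1 t)) ((𝔓.Γ m).l1 t).length h0
    rw [show 1 + 0 = 1 from rfl] at this
    rw [this]
    unfold pvjcMk
    rw [pvthx_Z_zero, pvthx_D_zero]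
    exact pvkx_at_mono _ _ (H.east _)

/-- the room of the last door is covered -/
theorem Pvg5Cand.UL (H : Pvg5Cand 𝔓 𝔶 m z t 𝔨 𝔲 Sp KDo KDr KDe KDb mso msr mse msb R) :
    pvucUd (pvkdAt (z + (𝔓.Γ m).pout t) ((𝔓.Γ m).dout t) 𝔨.O₀) 𝔨 (z + (𝔓.Γ m).pout t) ((𝔓.Γ m).dout t) ((𝔓.Γ m).l1 t) ((𝔓.Γ m).l1 t).length ⊆
      pvucCn (pvg5CoP 𝔓 m z t Sp 𝔨 KDo mso).M (pvjcMk 𝔨 (z + (𝔓.Γ m).pout t) ((𝔓.Γ m).dout t) ((𝔓.Γ m).l1 t)) (pvuhAt (pvg5CrP 𝔓 𝔶 m 𝔨 𝔲 KDr msr) (pvydWu 𝔓 m z t)).M (pvg5CeP 𝔓 𝔶 m z t Sp 𝔲 KDe mse).M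
        ((𝔓.Γ m).l1 t).length ((𝔓.Γ m).l1 t).length ∪ (pvuhAt (pvg5CrP 𝔓 𝔶 m 𝔨 𝔲 KDr msr) (pvydWu 𝔓 m z t)).M := by
  rcases Nat.eq_zero_or_pos ((𝔓.Γ m).l1 t).length with h0 | h0
  · have e := H.last
    rw [h0, pvthx_Z_zero, pvthx_D_zero] at e
    rw [h0, pvuc_Ud_zero, pvuc_cn_zero]
    refine (pvg5_kit_cover _ _ _).trans (union_subset_union (fun x hx => Or.inr hx) ?_)
    rw [e.1, e.2]
    exact pvg5_Mr_E _ _ _ _ _ _ _ _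
  · obtain ⟨k, hk⟩ : ∃ k, ((𝔓.Γ m).l1 t).length = k + 1 := ⟨((𝔓.Γ m).l1 t).length - 1, by omega⟩
    have hkL : k < ((𝔓.Γ m).l1 t).length := by omega
    have e := H.last
    rw [hk] at e
    have hcov := pvjc_U_cover H.reg.ref (z + (𝔓.Γ m).pout t) H.d4 ((𝔓.Γ m).l1 t) hkL
    rw [hk, pvuc_Ud_succ, pvuc_cn_cell' _ _ _ _ _ (Nat.lt_succ_self k)]
    intro x hx
    rcases hcov hx with h | h
    · exact Or.inl h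
    · refine Or.inr (pvg5_Mr_E _ _ _ _ _ _ _ _ ?_)
      have hx' : x ∈ ball (pvthZ 𝔨.δ (z + (𝔓.Γ m).pout t) ((𝔓.Γ m).dout t) ((𝔓.Γ m).l1 t) (k + 1)) 𝔨.b := hx
      have h' : x ∈ pvkdAt (pvthZ 𝔨.δ (z + (𝔓.Γ m).pout t) ((𝔓.Γ m).dout t) ((𝔓.Γ m).l1 t) (k + 1)) (pvthD ((𝔓.Γ m).dout t) ((𝔓.Γ m).l1 t) (k + 1)) (𝔨.Mk (pvthL ((𝔓.Γ m).l1 t) (k + 1))) := h
      rw [e.1] at hx' h'
      rw [e.2] at h'
      rw [← pvg5_at_inter (pvth_ne_zero H.ne0)]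
      refine ⟨pvjc_zone_at H.reg _ H.ne0 (Or.inl (Or.inr hx')), pvkx_at_mono _ _ ?_ h'⟩
      rw [H.reg.ref.Mk]
      exact fun w hw => hw.1

/-- the bounded set of CLOSE-P at the candidate -/
noncomputable abbrev pvg5BP (𝔓 : PvrxPar τ cc) (𝔶 : PvydGeo τ) (m : ℕ) (z : ℂ) (t : τ) (𝔨 : PvkdGeo) (𝔲 : PvkdPlug) (Sp KDo KDr KDe KDb : Set ℂ) (mso msr mse msb : List (ℝ × Set ℂ)) : Set ℂ :=
  pvg5B (pvg5CoP 𝔓 m z t Sp 𝔨 KDo mso).M (pvuhAt (pvg5CrP 𝔓 𝔶 m 𝔨 𝔲 KDr msr) (pvydWu 𝔓 m z t)).M (pvg5CeP 𝔓 𝔶 m z t Sp 𝔲 KDe mse).M (pvg5CbP 𝔓 𝔶 m z t Sp 𝔲 KDb msb).M 𝔨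
    (z + (𝔓.Γ m).pout t) ((𝔓.Γ m).dout t) ((𝔓.Γ m).l1 t)

theorem pvg5_eqns_cite6 : True := by
  have := @pvg5BP.eq_1
  trivial

/-- **THE FOREIGN PIECES OF THE LONG CYCLE, BY KINDS** -/
theorem Pvg5Cand.fg (H : Pvg5Cand 𝔓 𝔶 m z t 𝔨 𝔲 Sp KDo KDr KDe KDb mso msr mse msb R) :
    ∀ᶠ ε in 𝓝[>] (0 : ℝ), PvucFg ((𝔓.Γ m).l1 t).length ((pvydDat 𝔓 𝔶 (𝔓.ty m z t).col).sOut m ε z t) ((pvydDat 𝔓 𝔶 (𝔓.ty m z t).col).sRef m ε z t)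
    (((pvydDat 𝔓 𝔶 (𝔓.ty m z t).col).kit m ε).O (pvthZ ((pvydDat 𝔓 𝔶 (𝔓.ty m z t).col).kit m ε).δ (z + (𝔓.Γ m).pout t) ((𝔓.Γ m).dout t) ((𝔓.Γ m).l1 t) 0) (pvthD ((𝔓.Γ m).dout t) ((𝔓.Γ m).l1 t) 0))
    (((pvydDat 𝔓 𝔶 (𝔓.ty m z t).col).kit m ε).O (pvthZ ((pvydDat 𝔓 𝔶 (𝔓.ty m z t).col).kit m ε).δ (z + (𝔓.Γ m).pout t) ((𝔓.Γ m).dout t) ((𝔓.Γ m).l1 t) ((𝔓.Γ m).l1 t).length)
      (pvthD ((𝔓.Γ m).dout t) ((𝔓.Γ m).l1 t) ((𝔓.Γ m).l1 t).length))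
    ((pvydDat 𝔓 𝔶 (𝔓.ty m z t).col).Kr m ε z t) (pvg5CoP 𝔓 m z t Sp 𝔨 KDo mso).e (pvg5CeP 𝔓 𝔶 m z t Sp 𝔲 KDe mse).e (pvjcE 𝔨 (z + (𝔓.Γ m).pout t) ((𝔓.Γ m).dout t) ((𝔓.Γ m).l1 t))
    (pvg5CoP 𝔓 m z t Sp 𝔨 KDo mso).Kc (pvuhAt (pvg5CrP 𝔓 𝔶 m 𝔨 𝔲 KDr msr) (pvydWu 𝔓 m z t)).Kc (pvg5CeP 𝔓 𝔶 m z t Sp 𝔲 KDe mse).Kc
    (pvjcKE 𝔨 (z + (𝔓.Γ m).pout t) ((𝔓.Γ m).dout t) ((𝔓.Γ m).l1 t)) (pvg5CoP 𝔓 m z t Sp 𝔨 KDo mso).M (pvuhAt (pvg5CrP 𝔓 𝔶 m 𝔨 𝔲 KDr msr) (pvydWu 𝔓 m z t)).M (pvg5CeP 𝔓 𝔶 m z t Sp 𝔲 KDe mse).M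
    (pvjcMk 𝔨 (z + (𝔓.Γ m).pout t) ((𝔓.Γ m).dout t) ((𝔓.Γ m).l1 t)) (pvg5Zt 𝔓 m z t) (pvg5Ou 𝔓 𝔶 m z t)
    (pvucUd (pvkdAt (z + (𝔓.Γ m).pout t) ((𝔓.Γ m).dout t) 𝔨.O₀) 𝔨 (z + (𝔓.Γ m).pout t) ((𝔓.Γ m).dout t) ((𝔓.Γ m).l1 t)) (pvg5BP 𝔓 𝔶 m z t 𝔨 𝔲 Sp KDo KDr KDe KDb mso msr mse msb)
    (((𝔓.ty m z t).rO 𝔓.mod.N - ((𝔓.ty m z t).b 𝔓.mod.N 1 + 1)) * pvlmH m) := by
  filter_upwards [H.ro, H.rr, H.hO, H.kdel, H.dj1] with ε h1 h2 h3 h4 dj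
  have hO0 : ((pvydDat 𝔓 𝔶 (𝔓.ty m z t).col).kit m ε).O (pvthZ ((pvydDat 𝔓 𝔶 (𝔓.ty m z t).col).kit m ε).δ (z + (𝔓.Γ m).pout t) ((𝔓.Γ m).dout t) ((𝔓.Γ m).l1 t) 0) (pvthD ((𝔓.Γ m).dout t) ((𝔓.Γ m).l1 t) 0) =
      pvkdAt (z + (𝔓.Γ m).pout t) ((𝔓.Γ m).dout t) 𝔨.O₀ ×ˢ (univ : Set Bool) := by
    rw [pvthx_Z_zero, pvthx_D_zero]
    show (pvthSim _ _ '' (𝔶.kit m ε).O₀) ×ˢ (univ : Set Bool) = _
    rw [h3]
    rfl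
  have hOL : ((pvydDat 𝔓 𝔶 (𝔓.ty m z t).col).kit m ε).O (pvthZ ((pvydDat 𝔓 𝔶 (𝔓.ty m z t).col).kit m ε).δ (z + (𝔓.Γ m).pout t) ((𝔓.Γ m).dout t) ((𝔓.Γ m).l1 t) ((𝔓.Γ m).l1 t).length)
      (pvthD ((𝔓.Γ m).dout t) ((𝔓.Γ m).l1 t) ((𝔓.Γ m).l1 t).length) = pvkdAt (pvydWu 𝔓 m z t + (𝔓.Γ m).pin0) (𝔓.Γ m).din0 𝔨.O₀ ×ˢ (univ : Set Bool) := by
    rw [(pvyd_last h4 (𝔓.ty m z t).col z t).1, (pvyd_last h4 (𝔓.ty m z t).col z t).2]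
    show (pvthSim _ _ '' (𝔶.kit m ε).O₀) ×ˢ (univ : Set Bool) = _
    rw [h3]
    rfl
  -- the regions of the four foreign sectors
  have o0 := congrArg PvsySec.O (pvsk_list_zero (a := (pvydDat 𝔓 𝔶 (𝔓.ty m z t).col).sOut m ε z t) (kit := (pvydDat 𝔓 𝔶 (𝔓.ty m z t).col).kit m ε) (z := z + (𝔓.Γ m).pout t) (d := (𝔓.Γ m).dout t) (l := (𝔓.Γ m).l1 t)
    (Kf := (pvydDat 𝔓 𝔶 (𝔓.ty m z t).col).Kr m ε z t) (Af := (pvydDat 𝔓 𝔶 (𝔓.ty m z t).col).Ar m ε z t) (c := (pvydDat 𝔓 𝔶 (𝔓.ty m z t).col).sRef m ε z t))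
  have k0 := congrArg PvsySec.K (pvsk_list_zero (a := (pvydDat 𝔓 𝔶 (𝔓.ty m z t).col).sOut m ε z t) (kit := (pvydDat 𝔓 𝔶 (𝔓.ty m z t).col).kit m ε) (z := z + (𝔓.Γ m).pout t) (d := (𝔓.Γ m).dout t) (l := (𝔓.Γ m).l1 t)
    (Kf := (pvydDat 𝔓 𝔶 (𝔓.ty m z t).col).Kr m ε z t) (Af := (pvydDat 𝔓 𝔶 (𝔓.ty m z t).col).Ar m ε z t) (c := (pvydDat 𝔓 𝔶 (𝔓.ty m z t).col).sRef m ε z t))
  have o1 := pvsk_list_O (a := (pvydDat 𝔓 𝔶 (𝔓.ty m z t).col).sOut m ε z t) (kit := (pvydDat 𝔓 𝔶 (𝔓.ty m z t).col).kit m ε) (z := z + (𝔓.Γ m).pout t) (d := (𝔓.Γ m).dout t) (l := (𝔓.Γ m).l1 t)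
    (Kf := (pvydDat 𝔓 𝔶 (𝔓.ty m z t).col).Kr m ε z t) (Af := (pvydDat 𝔓 𝔶 (𝔓.ty m z t).col).Ar m ε z t) (c := (pvydDat 𝔓 𝔶 (𝔓.ty m z t).col).sRef m ε z t) (Nat.zero_le ((𝔓.Γ m).l1 t).length)
  have oL := congrArg PvsySec.O (pvsk_list_door (a := (pvydDat 𝔓 𝔶 (𝔓.ty m z t).col).sOut m ε z t) (kit := (pvydDat 𝔓 𝔶 (𝔓.ty m z t).col).kit m ε) (z := z + (𝔓.Γ m).pout t) (d := (𝔓.Γ m).dout t) (l := (𝔓.Γ m).l1 t)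
    (Kf := (pvydDat 𝔓 𝔶 (𝔓.ty m z t).col).Kr m ε z t) (Af := (pvydDat 𝔓 𝔶 (𝔓.ty m z t).col).Ar m ε z t) (c := (pvydDat 𝔓 𝔶 (𝔓.ty m z t).col).sRef m ε z t))
  have kL := congrArg PvsySec.K (pvsk_list_door (a := (pvydDat 𝔓 𝔶 (𝔓.ty m z t).col).sOut m ε z t) (kit := (pvydDat 𝔓 𝔶 (𝔓.ty m z t).col).kit m ε) (z := z + (𝔓.Γ m).pout t) (d := (𝔓.Γ m).dout t) (l := (𝔓.Γ m).l1 t)
    (Kf := (pvydDat 𝔓 𝔶 (𝔓.ty m z t).col).Kr m ε z t) (Af := (pvydDat 𝔓 𝔶 (𝔓.ty m z t).col).Ar m ε z t) (c := (pvydDat 𝔓 𝔶 (𝔓.ty m z t).col).sRef m ε z t))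
  have oU := congrArg PvsySec.O (pvsk_list_last (a := (pvydDat 𝔓 𝔶 (𝔓.ty m z t).col).sOut m ε z t) (kit := (pvydDat 𝔓 𝔶 (𝔓.ty m z t).col).kit m ε) (z := z + (𝔓.Γ m).pout t) (d := (𝔓.Γ m).dout t) (l := (𝔓.Γ m).l1 t)
    (Kf := (pvydDat 𝔓 𝔶 (𝔓.ty m z t).col).Kr m ε z t) (Af := (pvydDat 𝔓 𝔶 (𝔓.ty m z t).col).Ar m ε z t) (c := (pvydDat 𝔓 𝔶 (𝔓.ty m z t).col).sRef m ε z t))
  have kU := congrArg PvsySec.K (pvsk_list_last (a := (pvydDat 𝔓 𝔶 (𝔓.ty m z t).col).sOut m ε z t) (kit := (pvydDat 𝔓 𝔶 (𝔓.ty m z t).col).kit m ε) (z := z + (𝔓.Γ m).pout t) (d := (𝔓.Γ m).dout t) (l := (𝔓.Γ m).l1 t)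
    (Kf := (pvydDat 𝔓 𝔶 (𝔓.ty m z t).col).Kr m ε z t) (Af := (pvydDat 𝔓 𝔶 (𝔓.ty m z t).col).Ar m ε z t) (c := (pvydDat 𝔓 𝔶 (𝔓.ty m z t).col).sRef m ε z t))
  rw [hO0] at o1
  have oL' := oL.trans hOL
  rw [hO0, hOL]
  have hL0 : (0 : ℕ) < ((𝔓.Γ m).l1 t).length + 3 := by omega
  have hL1 : 1 + 0 < ((𝔓.Γ m).l1 t).length + 3 := by omega
  have hL2 : ((𝔓.Γ m).l1 t).length + 1 < ((𝔓.Γ m).l1 t).length + 3 := by omega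
  have hL3 : ((𝔓.Γ m).l1 t).length + 2 < ((𝔓.Γ m).l1 t).length + 3 := by omega
  -- plugs against plugs
  have tD0 : Disjoint (pvg5Ot 𝔓 m z t) (pvkdAt (z + (𝔓.Γ m).pout t) ((𝔓.Γ m).dout t) 𝔨.O₀) := pvg5_dOO dj hL0 hL1 (by omega) o0 o1
  have tDL : Disjoint (pvg5Ot 𝔓 m z t) (pvkdAt (pvydWu 𝔓 m z t + (𝔓.Γ m).pin0) (𝔓.Γ m).din0 𝔨.O₀) := pvg5_dOO dj hL0 hL2 (by omega) o0 oL'
  have tU : Disjoint (pvg5Ot 𝔓 m z t) (pvg5Ou 𝔓 𝔶 m z t) := pvg5_dOO dj hL0 hL3 (by omega) o0 oU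
  have D0U : Disjoint (pvkdAt (z + (𝔓.Γ m).pout t) ((𝔓.Γ m).dout t) 𝔨.O₀) (pvg5Ou 𝔓 𝔶 m z t) := pvg5_dOO dj hL1 hL3 (by omega) o1 oU
  have DLU : Disjoint (pvkdAt (pvydWu 𝔓 m z t + (𝔓.Γ m).pin0) (𝔓.Γ m).din0 𝔨.O₀) (pvg5Ou 𝔓 𝔶 m z t) := pvg5_dOO dj hL2 hL3 (by omega) oL' oU
  have D0L : Disjoint (pvkdAt (z + (𝔓.Γ m).pout t) ((𝔓.Γ m).dout t) (𝔨.O₀ ∩ pvg5Hf false)) (pvkdAt (pvydWu 𝔓 m z t + (𝔓.Γ m).pin0) (𝔓.Γ m).din0 (𝔨.O₀ ∩ pvg5Hf true)) := by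
    rcases Nat.eq_zero_or_pos ((𝔓.Γ m).l1 t).length with h0 | h0
    · have e := H.last
      rw [h0, pvthx_Z_zero, pvthx_D_zero] at e
      rw [← e.1, ← e.2]
      exact pvg5_kit_halves (pvth_ne_zero H.nd) _ _
    · exact (pvg5_dOO dj hL1 hL2 (by omega) o1 oL').mono (pvkx_at_mono _ _ inter_subset_left) (pvkx_at_mono _ _ inter_subset_left)
  -- corridors against corridors
  have oR : Disjoint (pvnhKp (𝔶.lo 𝔓 (𝔓.ty m z t).col m ε z t) (𝔶.wo m z t).Et) (pvthSim (pvydWu 𝔓 m z t) 1 '' pvnhKp (𝔶.lr 𝔓 m ε) (𝔶.wr m).Et) := pvg5_dKK dj hL0 hL2 (by omega) k0 kL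
  have oE : Disjoint (pvnhKp (𝔶.lo 𝔓 (𝔓.ty m z t).col m ε z t) (𝔶.wo m z t).Et) (pvnhKp (𝔶.le 𝔓 (𝔓.ty m z t).col m z t) (𝔶.we m z t).Et) := pvg5_dKK dj hL0 hL3 (by omega) k0 kU
  have rE : Disjoint (pvthSim (pvydWu 𝔓 m z t) 1 '' pvnhKp (𝔶.lr 𝔓 m ε) (𝔶.wr m).Et) (pvnhKp (𝔶.le 𝔓 (𝔓.ty m z t).col m z t) (𝔶.we m z t).Et) := pvg5_dKK dj hL2 hL3 (by omega) kL kU
  -- plugs against corridors
  have to' : Disjoint (pvg5Ot 𝔓 m z t) (pvnhKp (𝔶.lo 𝔓 (𝔓.ty m z t).col m ε z t) (𝔶.wo m z t).Et) := pvg5_dOK dj hL0 hL0 o0 k0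
  have tr' : Disjoint (pvg5Ot 𝔓 m z t) (pvthSim (pvydWu 𝔓 m z t) 1 '' pvnhKp (𝔶.lr 𝔓 m ε) (𝔶.wr m).Et) := pvg5_dOK dj hL0 hL2 o0 kL
  have te' : Disjoint (pvg5Ot 𝔓 m z t) (pvnhKp (𝔶.le 𝔓 (𝔓.ty m z t).col m z t) (𝔶.we m z t).Et) := pvg5_dOK dj hL0 hL3 o0 kU
  have d0r : Disjoint (pvkdAt (z + (𝔓.Γ m).pout t) ((𝔓.Γ m).dout t) 𝔨.O₀) (pvthSim (pvydWu 𝔓 m z t) 1 '' pvnhKp (𝔶.lr 𝔓 m ε) (𝔶.wr m).Et) := pvg5_dOK dj hL1 hL2 o1 kL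
  have d0e : Disjoint (pvkdAt (z + (𝔓.Γ m).pout t) ((𝔓.Γ m).dout t) 𝔨.O₀) (pvnhKp (𝔶.le 𝔓 (𝔓.ty m z t).col m z t) (𝔶.we m z t).Et) := pvg5_dOK dj hL1 hL3 o1 kU
  have dLo : Disjoint (pvkdAt (pvydWu 𝔓 m z t + (𝔓.Γ m).pin0) (𝔓.Γ m).din0 𝔨.O₀) (pvnhKp (𝔶.lo 𝔓 (𝔓.ty m z t).col m ε z t) (𝔶.wo m z t).Et) := pvg5_dOK dj hL2 hL0 oL' k0
  have dLe : Disjoint (pvkdAt (pvydWu 𝔓 m z t + (𝔓.Γ m).pin0) (𝔓.Γ m).din0 𝔨.O₀) (pvnhKp (𝔶.le 𝔓 (𝔓.ty m z t).col m z t) (𝔶.we m z t).Et) := pvg5_dOK dj hL2 hL3 oL' kU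
  have uo' : Disjoint (pvg5Ou 𝔓 𝔶 m z t) (pvnhKp (𝔶.lo 𝔓 (𝔓.ty m z t).col m ε z t) (𝔶.wo m z t).Et) := pvg5_dOK dj hL3 hL0 oU k0
  have ur' : Disjoint (pvg5Ou 𝔓 𝔶 m z t) (pvthSim (pvydWu 𝔓 m z t) 1 '' pvnhKp (𝔶.lr 𝔓 m ε) (𝔶.wr m).Et) := pvg5_dOK dj hL3 hL2 oU kL
  have ue' : Disjoint (pvg5Ou 𝔓 𝔶 m z t) (pvnhKp (𝔶.le 𝔓 (𝔓.ty m z t).col m z t) (𝔶.we m z t).Et) := pvg5_dOK dj hL3 hL3 oU kU
  -- the regions of the ends of the links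
  have eo' : (𝔶.lo 𝔓 (𝔓.ty m z t).col m ε z t).e'.O = pvkdAt (z + (𝔓.Γ m).pout t) ((𝔓.Γ m).dout t) 𝔨.O₀ := by
    show pvthSim _ _ '' (𝔶.kit m ε).O₀ = _
    rw [h3]
    rfl
  have er' : (𝔶.lr 𝔓 m ε).e.O = pvkdAt (𝔓.Γ m).pin0 (𝔓.Γ m).din0 𝔨.O₀ := by
    show pvthSim _ _ '' (𝔶.kit m ε).O₀ = _
    rw [h3]
    rfl
  have offo : pvg5E mso \ (pvg5Ot 𝔓 m z t ∪ pvkdAt (z + (𝔓.Γ m).pout t) ((𝔓.Γ m).dout t) 𝔨.O₀) ⊆ pvnhKp (𝔶.lo 𝔓 (𝔓.ty m z t).col m ε z t) (𝔶.wo m z t).Et := by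
    have := h1.off
    rw [eo'] at this
    exact this
  have offr : pvg5E msr \ (pvkdAt (𝔓.Γ m).pin0 (𝔓.Γ m).din0 𝔨.O₀ ∪ pvkdAt 0 1 (𝔶.Ou m)) ⊆ pvnhKp (𝔶.lr 𝔓 m ε) (𝔶.wr m).Et := by
    have := h2.off
    rw [er'] at this
    exact this
  have ho3 := pvg5_M_3 (pvg5Big 𝔓.mod.N (𝔓.ty m z t) z (pvlmH m) Sp) (pvg5Kit 𝔨.toPvkdPlug 𝔨.O₀ (z + (𝔓.Γ m).pout t) ((𝔓.Γ m).dout t) false) (pvkdAt (z + (𝔓.Γ m).pout t) ((𝔓.Γ m).dout t) (pvg5Hf false)) mso offo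
  have hr3 := pvg5_Mr_3 𝔨 (𝔓.Γ m).pin0 (𝔓.Γ m).din0 𝔲 (𝔶.Ou m) KDr msr (pvydWu 𝔓 m z t) offr
  have he3 := pvg5_M_3 (pvg5Kit 𝔲 (𝔶.Ou m) (pvydWu 𝔓 m z t) 1 true) (pvg5Big 𝔓.mod.N (𝔓.ty m z t) z (pvlmH m) Spᶜ) univ mse H.re.off
  have hW : pvkdAt (pvydWu 𝔓 m z t) 1 (𝔶.Ou m ∩ pvg5Hf false) ⊆ pvg5Ou 𝔓 𝔶 m z t := pvkx_at_mono _ _ inter_subset_left
  have hE : pvkdAt (pvydWu 𝔓 m z t) 1 (𝔶.Ou m ∩ pvg5Hf true) ⊆ pvg5Ou 𝔓 𝔶 m z t := pvkx_at_mono _ _ inter_subset_left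
  have h0W : pvkdAt (z + (𝔓.Γ m).pout t) ((𝔓.Γ m).dout t) (𝔨.O₀ ∩ pvg5Hf false) ⊆ pvkdAt (z + (𝔓.Γ m).pout t) ((𝔓.Γ m).dout t) 𝔨.O₀ := pvkx_at_mono _ _ inter_subset_left
  have hLE : pvkdAt (pvydWu 𝔓 m z t + (𝔓.Γ m).pin0) (𝔓.Γ m).din0 (𝔨.O₀ ∩ pvg5Hf true) ⊆ pvkdAt (pvydWu 𝔓 m z t + (𝔓.Γ m).pin0) (𝔓.Γ m).din0 𝔨.O₀ := pvkx_at_mono _ _ inter_subset_left
  have cUt : pvg5Ot 𝔓 m z t ⊆ (pvg5CeP 𝔓 𝔶 m z t Sp 𝔲 KDe mse).M ∪ (pvg5CoP 𝔓 m z t Sp 𝔨 KDo mso).M :=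
    (pvg5_t_cover _ _ _ _ Sp).trans (union_subset_union (fun x hx => Or.inr hx) (fun x hx => Or.inl (Or.inr hx)))
  have cUu : pvg5Ou 𝔓 𝔶 m z t ⊆ (pvuhAt (pvg5CrP 𝔓 𝔶 m 𝔨 𝔲 KDr msr) (pvydWu 𝔓 m z t)).M ∪ (pvg5CeP 𝔓 𝔶 m z t Sp 𝔲 KDe mse).M :=
    (pvg5_kit_cover _ _ _).trans (union_subset_union (pvg5_Mr_W _ _ _ _ _ _ _ _) (fun x hx => Or.inl (Or.inr hx)))
  have Bo : (pvg5CoP 𝔓 m z t Sp 𝔨 KDo mso).M ⊆ pvg5BP 𝔓 𝔶 m z t 𝔨 𝔲 Sp KDo KDr KDe KDb mso msr mse msb := fun x hx => Or.inl (Or.inl (Or.inl (Or.inl (Or.inl hx))))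
  have Br : (pvuhAt (pvg5CrP 𝔓 𝔶 m 𝔨 𝔲 KDr msr) (pvydWu 𝔓 m z t)).M ⊆ pvg5BP 𝔓 𝔶 m z t 𝔨 𝔲 Sp KDo KDr KDe KDb mso msr mse msb := fun x hx => Or.inl (Or.inl (Or.inl (Or.inl (Or.inr hx))))
  have Be : (pvg5CeP 𝔓 𝔶 m z t Sp 𝔲 KDe mse).M ⊆ pvg5BP 𝔓 𝔶 m z t 𝔨 𝔲 Sp KDo KDr KDe KDb mso msr mse msb := fun x hx => Or.inl (Or.inl (Or.inl (Or.inr hx)))
  exact
    { okt := (H.ko.wf (col := (𝔓.ty m z t).col)).ok
      oku := (H.ke.wf (col := (𝔓.ty m z t).col)).ok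
      uqt := H.ko.pa.uq
      uqu := H.ke.pa.uq
      ZOt := Set.prod_mono H.ko.pa.ZO Subset.rfl
      ZOu := Set.prod_mono H.ke.pa.ZO Subset.rfl
      KOo := by
        have := h1.KO H.ko.KE
        rw [eo'] at this
        exact pvg5_prod3 this
      KOr := by
        have := h2.KO H.kr.KE
        rw [er'] at this
        have h5 := preimage_mono (f := pvthInv (pvydWu 𝔓 m z t) 1) this
        rw [preimage_union, preimage_union, pvuh_at, pvg5_pre_eq _ (pvnhKp (𝔶.lr 𝔓 m ε) (𝔶.wr m).Et)] at h5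
        have h6 : pvthInv (pvydWu 𝔓 m z t) 1 ⁻¹' (𝔶.lr 𝔓 m ε).e'.O = pvg5Ou 𝔓 𝔶 m z t := by
          have := pvuh_at (pvydWu 𝔓 m z t) 0 1 (𝔶.Ou m)
          rw [add_zero] at this
          exact this
        rw [h6] at h5
        exact pvg5_prod3 h5
      KOe := pvg5_prod3 (H.re.KO H.ke.KE)
      Ko := H.ko.KM
      Kr := preimage_mono H.kr.KM
      Ke := H.ke.KM
      mMo := H.ko.mM
      mMr := (pvuh_wf (pvydWu 𝔓 m z t) (H.kr.wf (col := true))).mM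
      mMe := H.ke.mM
      Mok := H.Mok
      Mor := pvg5_33 ho3 hr3 oR (dLo.symm.mono_right hLE) (uo'.symm.mono_right hW) (tr'.mono_left inter_subset_left) (tDL.mono inter_subset_left hLE) (tU.mono inter_subset_left hW)
        (d0r.mono_left h0W) D0L (D0U.mono h0W hW)
      Moe := pvg5_33 ho3 he3 oE (uo'.symm.mono_right hE) (to'.symm.mono_right inter_subset_left) (te'.mono_left inter_subset_left) (tU.mono inter_subset_left hE) (pvg5_t_halves _ _)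
        (d0e.mono_left h0W) (D0U.mono h0W hE) (tD0.symm.mono h0W inter_subset_left)
      Mkr := H.Mkr
      Mke := H.Mke
      Mre := pvg5_33 hr3 he3 rE (ur'.symm.mono_right hE) (tr'.symm.mono_right inter_subset_left) (dLe.mono_left hLE) (DLU.mono hLE hE) (tDL.symm.mono hLE inter_subset_left)
        (ue'.mono_left hW) (pvg5_kit_halves one_ne_zero _ _) (tU.symm.mono hW inter_subset_left)
      U0 := by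
        rw [pvuc_Ud_zero]
        exact H.U0
      UL := H.UL
      Uu := cUu
      Ut := H.ko.pa.ZO.trans cUt
      ZBt := H.ko.pa.ZO.trans (cUt.trans (union_subset Be Bo))
      ZBu := H.ke.pa.ZO.trans (cUu.trans (union_subset Br Be))
      Bo := Bo
      Br := Br
      Be := Be
      dB := fun i hi x hx => Or.inl (Or.inr (mem_iUnion₂.2 ⟨i, Finset.mem_range.2 (by omega), hx⟩))
      cB := fun i hi x hx => Or.inr (mem_iUnion₂.2 ⟨i, Finset.mem_range.2 hi, hx⟩)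
      big := H.big tU }

/-- the set `B` is bounded -/
theorem Pvg5Cand.bB (H : Pvg5Cand 𝔓 𝔶 m z t 𝔨 𝔲 Sp KDo KDr KDe KDb mso msr mse msb R) : Bornology.IsBounded (pvg5BP 𝔓 𝔶 m z t 𝔨 𝔲 Sp KDo KDr KDe KDb mso msr mse msb) := by
  have bt : Bornology.IsBounded (pvg5Ot 𝔓 m z t) := isBounded_closedBall
  have bu : ∀ w d : ℂ, Bornology.IsBounded (pvkdAt w d (𝔶.Ou m)) := fun w d => pvjc_at_bdd _ _ H.pu.bO
  have bk : ∀ w d : ℂ, Bornology.IsBounded (pvkdAt w d 𝔨.O₀) := fun w d => pvjc_at_bdd _ _ H.pk.bO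
  have br : Bornology.IsBounded (pvuhAt (pvg5CrP 𝔓 𝔶 m 𝔨 𝔲 KDr msr) (pvydWu 𝔓 m z t)).M := by
    show Bornology.IsBounded (pvthInv (pvydWu 𝔓 m z t) 1 ⁻¹' _)
    rw [pvg5_pre_eq]
    exact pvjc_at_bdd _ _ (H.kr.bM (bk _ _) (bu _ _))
  refine (((((H.ko.bM bt (bk _ _)).union br).union (H.ke.bM (bu _ _) bt)).union (H.kb.bM bt (bu _ _))).union ?_).union ?_
  · refine (Bornology.isBounded_biUnion_finset _).2 fun i _ => ?_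
    exact (bk _ _).subset (pvg5_kit_ok (σ := false) H.pk (pvthx_D_norm H.d4 _ i)).ZO
  · refine (Bornology.isBounded_biUnion_finset _).2 fun i _ => ?_
    exact (pvjc_Mk_bdd H.reg.ref _ _ _ i).subset (pvjc_KE_Mk H.reg.geo _ _ _ i)

/-- **THE CANDIDATE PAYS ALL THE REGION FIELDS OF `PvucSup`** -/
theorem Pvg5Cand.toReg (H : Pvg5Cand 𝔓 𝔶 m z t 𝔨 𝔲 Sp KDo KDr KDe KDb mso msr mse msb R) :
    Pvg5Reg 𝔓 𝔶 m z t 𝔨 (pvg5CoP 𝔓 m z t Sp 𝔨 KDo mso) (pvg5CrP 𝔓 𝔶 m 𝔨 𝔲 KDr msr) (pvg5CeP 𝔓 𝔶 m z t Sp 𝔲 KDe mse) (pvg5CbP 𝔓 𝔶 m z t Sp 𝔲 KDb msb)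
      (pvkdAt (z + (𝔓.Γ m).pout t) ((𝔓.Γ m).dout t) 𝔨.O₀) (pvg5Zt 𝔓 m z t) (pvg5Ou 𝔓 𝔶 m z t) (pvg5Zt 𝔓 m z t) (pvg5Ou 𝔓 𝔶 m z t) (pvg5BP 𝔓 𝔶 m z t 𝔨 𝔲 Sp KDo KDr KDe KDb mso msr mse msb)
      (((𝔓.ty m z t).rO 𝔓.mod.N - ((𝔓.ty m z t).b 𝔓.mod.N 1 + 1)) * pvlmH m) (Real.pi * R ^ 2) (pvlmH m) where
  bB := H.bB
  a0 := by
    have h1 := H.tyW.rO
    have h2 := H.tyW.mu0
    exact mul_pos (by linarith) H.tyW.h0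
  c0 := by positivity
  co := rfl
  cr := rfl
  ce := rfl
  cb := rfl
  jo := H.jo
  jr := H.jr
  ju := H.ju
  jt := rfl
  jb := rfl
  jb' := rfl
  lo := H.ko.lk
  lr := H.lr
  le := H.ke.lk
  lb := H.kb.lk
  le' := H.ke.lk
  Eo := H.ro.mono fun ε h => h.win
  Er := H.rr.mono fun ε h => h.win
  Ee := H.re.win
  Eb := H.rb.win
  fg := H.fg
  sh := H.sh (fun x hx => Or.inl (Or.inl (Or.inr hx))) (fun x hx => Or.inl (Or.inl (Or.inl (Or.inr hx))))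
  vol := pvg5_vol H.R0 H.tyW.h0.le H.vol

end cand

end Claimed.Agent.R289
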