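-- KEEP
import Claimed.Agent.R289.Exit.GeoP
import Claimed.Agent.R289.Exit.CloseGP
import Claimed.Agent.R289.Exit.FunRP
import Claimed.Agent.R289.Exit.ThkP
import Claimed.Agent.R289.Exit.FunP

/-!
# Row 289 (S0537), THE WALL, ROAD P, Exit/GeoTP : THE SUB-ROOFS OF THE ROOF GEO MEET HERE      (pen helper36; prefix `pveq_`, `exit_pveq_`)

`Exit/GeoP.lean` = the term `(Γ, m0, 𝔶)`, the records, the glue `pveq_geo_of` from the four sub-roofs AS STATEMENTS.      THIS FILE imports the files of the pens and ends in **`pveq_geo : PvrsGeoSt c 𝔤 H`** (`= exit_pvrs_geo` of `Exit/TopP.lean`).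
OPEN (sorried HERE; a proof goes in a file of its pen which imports `Exit/GeoP.lean`; here: one import + one citation):
* `exit_pveq_r     : PveqRSt c H`        (FUNNEL r)  data `Lr : ℕ → PvvwLa`, lengths `n m`, contract `PveqRC` = the record `PvvwR` of 270 at the term      [294 `Exit/FunRP.lean`; 114]
* `exit_pveq_oi    : PveqOiSt c H`       (FUNNELS o i) data `Lo Li`, lengths `n m`, contract `PveqOiC` = the record `PvvwF` of 270 at the black candidates + `pl`      [8 135; 272 164 270 205 15 147 138]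
* `exit_pveq_thick : PveqThkSt c H`      (THICK)     data `Le Lb`, length `nu`, contract `PveqThkC` = the record `PvvwT` of 270      [164 190 15 205 203 89]
* `exit_pveq_dj    : PveqDjSt c H`       (DJ)        `dj1 dj2` from the two records      [58 138]
* `exit_pvg0_sup`  : `Pvg0SupSt c H b q W` (263 `Exit/CloseGP.lean`: THE ONE SUB-EXIT OF CLOSE = `PvucSup` of 95 + `PvndCand` + the funnel `r` + the six region lines of `V`)      [113 `Exit/GeoCP.lean`, 95, 270, 277, 291, 76]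
      ASSEMBLER 291 (`Exit/SupP.lean`).      NB `PvndCand`, `Pvg0Kit` are PAID by `pveq_candUp`, `pveq_kitUp` of `Exit/GeoP.lean` at `𝔇.n := W.n`, `𝔇.nu := W.nu`;   rooms of (DET): `𝔇.KDo m z t := (W.Lo m z t).KE` ..
CLOSED: `exit_pveq_close := pvg0_close` (263), `exit_pveq_cutV` (263, in `Exit/GeoP.lean`).
-/

set_option autoImplicit false
set_option linter.unusedSectionVars false
set_option linter.unusedVariables false

namespace Claimed.Agent.R289

open MeasureTheory Filter Topology Set Metric Claims.C0465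
open scoped ENNReal

variable {𝔤 : PvmhNum} {c : ℝ}

/-- **(FUNNEL `r`)** -/
theorem exit_pveq_r (c0 : 0 < c) (H : PvrzGood 𝔤) : PveqRSt c H := pvir_RSt H

/-- **(FUNNELS `o i`)** -/
theorem exit_pveq_oi (c0 : 0 < c) (H : PvrzGood 𝔤) : PveqOiSt c H := pvop_oi c0 H

/-- **(FUNNELS)** -/
theorem exit_pveq_fun (c0 : 0 < c) (H : PvrzGood 𝔤) : PveqFunSt c H := pveq_fun_of (exit_pveq_r c0 H) (exit_pveq_oi c0 H)

/-- **(THICK)**   (190 `Exit/ThkP.lean` `pvq0_thick`, over its two leaves `exit_pvq0_hull_e`, `exit_pvq0_hull_b`) -/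
theorem exit_pveq_thick (c0 : 0 < c) (H : PvrzGood 𝔤) : PveqThkSt c H :=
  pvq0_thick c H

/-- **(DJ)** -/
theorem exit_pveq_dj (c0 : 0 < c) (H : PvrzGood 𝔤) : PveqDjSt c H := by
  sorry

/-- **THE ONE SUB-EXIT OF CLOSE** (263): connectors, rooms, masks exist, with the contract of the suppliers, at every `Λ` with the link data of `W` and the masses of the data -/
theorem exit_pvg0_sup (c0 : 0 < c) (H : PvrzGood 𝔤) (hβ : 0 < 𝔤.β) {b q β' : ℝ≥0∞} {CB : ℝ} (hN : PvkuOk (pvkgG.glob (pvhfH pvkgG.toPvkdPlug pvk2T)) b q β' CB (13 / 160))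
    {m1 : ℕ} {W : PveqLk (PvmhT 𝔤)} (hF : ∀ Λ, W.Same Λ → PveqFun c H b q m1 Λ) (hT : ∀ Λ, W.Same Λ → PveqThk c H b q m1 Λ) (hD : ∀ Λ, W.Same Λ → PveqDj c H b q m1 Λ) :
    Pvg0SupSt c H b q W := by
  sorry

/-- **(CLOSE)** (263 `pvg0_close`) -/
theorem exit_pveq_close (c0 : 0 < c) (H : PvrzGood 𝔤) (hβ : 0 < 𝔤.β) : PveqCloseSt c H :=
  fun _ _ _ _ hN _ _ hF hT hD => pvg0_close c0 hβ hN hF hT hD (exit_pvg0_sup c0 H hβ hN hF hT hD)

/-- **THE ROOF GEO OF ROAD P** = `exit_pvrs_geo` of 79, VERBATIM -/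
theorem pveq_geo (c0 : 0 < c) (H : PvrzGood 𝔤) (hβ : 0 < 𝔤.β) : PvrsGeoSt c 𝔤 H :=
  pveq_geo_of c0 H hβ (exit_pveq_fun c0 H) (exit_pveq_thick c0 H) (exit_pveq_dj c0 H) (exit_pveq_close c0 H hβ)

end Claimed.Agent.R289
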