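-- KEEP
import Claimed.Agent.R289.Exit.GoodEH
import Claimed.Agent.R289.Exit.ParEngY
import Claimed.Agent.R289.Tr.HookI

/-!
# Row 289 (S0537), THE WALL, ROAD E, E10 / (b3) DET AT THE MODEL, file Exit/GoodEL : THE REGION RECORD OF THE LAST LINK (`PvhlLay` of 106) AT THE REGIONS OF RECORD      (helper298; prefix `pvge7_`)

* sec. 1  ONE DOOR OF 124 / 245 (frame `(Y, u)`, door `p`), SHARP MARGINS: `pvge7_lane_box`, `pvge7_lane_Re` (a point within `ρ' ≤ q/4` of a lane of record), `pvge7_lane_win`, `pvge7_lane_Yc`;   rooms of the half lanes: `pvge7_room_box`, `pvge7_room_win`, `pvge7_room_Yc`;   `pvge7_disc`, `pvge7_Ya_S`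
* sec. 2  AT THE PARAMETERS: **`pvge7_lay_i`** : `PvhlLay (pvilLi 𝔓 𝔈 m z t) ..` for EVERY engine with `iM = pvegIM`, `iK = pvegIKa 𝔓 O₀`, door region `= O₀ m ⊆ pvccSq 0 (13 q / 4)`, `pvegIYc ⊆ iY ⊆ pvegIYa`, hole of `iY`;   `pvge7_mouth_i`
-/

set_option autoImplicit false
set_option linter.unusedSectionVars false
set_option linter.unusedVariables false

namespace Claimed.Agent.R289

open Set Metric Complex Filter Topology Claims.C0465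
open scoped ENNReal

/-! ## 1. one door, sharp margins -/

section door

variable {Y u p : ℂ} {up : Bool} {r δ q dl ρ b μ Sp lam : ℝ}

/-- **the bounding box of a lane of record** -/
theorem pvge7_lane_box (R : Pvge2Rec r δ q dl ρ b μ Sp lam) (β : Bool) {w : ℂ}
    (hw : w ∈ pvge4Lane Y u (if β then up else !up) r q Sp (pvge2Aa r β) (pvge2Lm lam β)) :
    11 * r / 100 ≤ pvge2S Y u w ∧ pvge2S Y u w ≤ Sp - 7 * q / 2 ∧ |pvge2T Y u up w| ≤ 33 * r / 200 := by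
  have h1 := R.δ0; have h3 := R.fine; have h8 := R.s_lo; have h8' := R.s_hi; have h9 := abs_le.1 R.lat; have h10 := R.qδ; have h11 := R.q0
  cases β
  · simp only [Bool.false_eq_true, if_false, pvge2Aa, pvge2Lm, pvge4Lane, pvge2RN, pvge2RH, pvge2RV, pvge2_R_flip] at hw
    rcases hw with (⟨x1, x2, x3, x4⟩ | ⟨x1, x2, x3, x4⟩) | ⟨x1, x2, x3, x4⟩
    · exact ⟨by linarith, by linarith, by rw [abs_le]; constructor <;> linarith⟩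
    · exact ⟨by linarith, by linarith, by rw [abs_le]; constructor <;> linarith⟩
    · exact ⟨by linarith, by linarith, by rw [abs_le]; constructor <;> linarith [h9.1, h9.2]⟩
  · simp only [if_true, pvge2Aa, pvge2Lm, pvge4Lane, pvge2RN, pvge2RH, pvge2RV] at hw
    rcases hw with (⟨x1, x2, x3, x4⟩ | ⟨x1, x2, x3, x4⟩) | ⟨x1, x2, x3, x4⟩
    · exact ⟨by linarith, by linarith, by rw [abs_le]; constructor <;> linarith⟩
    · exact ⟨by linarith, by linarith, by rw [abs_le]; constructor <;> linarith⟩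
    · exact ⟨by linarith, by linarith, by rw [abs_le]; constructor <;> linarith [h9.1, h9.2]⟩

/-- **a point within `ρ' ≤ q/4` of a lane of record**: in the funnel cored by `κ ≤ δ`, before the plane `S(p) - 13q/4` -/
theorem pvge7_lane_Re (hu : ‖u‖ = 1) (R : Pvge2Rec r δ q dl ρ b μ (pvegS Y u p) (pvge2Sg up * pvegL Y u p)) (β : Bool) {ρ' κ : ℝ} (hρ' : ρ' ≤ q / 4) (hκ : κ ≤ δ) {v w : ℂ}
    (hw : w ∈ pvge4Lane Y u (if β then up else !up) r q (pvegS Y u p) (pvge2Aa r β) (pvge2Lm (pvge2Sg up * pvegL Y u p) β)) (hv : ‖v - w‖ ≤ ρ') :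
    v ∈ pveyRe Y u (r / 10 + 2 * δ + κ) (pvegS Y u p - 13 * q / 4) (pvegL Y u p) (r / 5 - κ) := by
  have h1 := R.δ0; have h3 := R.fine; have h9 := abs_le.1 R.lat; have h10 := R.qδ; have h11 := R.q0
  obtain ⟨b1, b2, b3⟩ := pvge7_lane_box R β hw
  have hS := abs_le.1 ((pvge2_S_lip hu Y v w).trans hv)
  have hT := abs_le.1 ((pvge2_T_lip hu Y up v w).trans hv)
  have b3' := abs_le.1 b3
  have e2 : pvge2S Y u v = pvegS Y u v := rfl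
  refine ⟨by rw [← e2]; linarith [hS.1], by rw [← e2]; linarith [hS.2], ?_⟩
  rw [pvge6_L_abs Y u p v up, abs_le]
  constructor <;> linarith [hT.1, hT.2, b3'.1, b3'.2, h9.1, h9.2]

/-- … hence in (mouth) ∪ (tile) -/
theorem pvge7_lane_win (hu : ‖u‖ = 1) (R : Pvge2Rec r δ q dl ρ b μ (pvegS Y u p) (pvge2Sg up * pvegL Y u p)) {a : ℝ} (ha : a ≤ 13 * q / 4) {O : Set ℂ} (hO : ∀ x ∈ O, pvegS Y u p - 13 * q / 4 < pvegS Y u x)
    (β : Bool) {ρ' : ℝ} (hρ' : ρ' ≤ q / 4) {v w : ℂ}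
    (hw : w ∈ pvge4Lane Y u (if β then up else !up) r q (pvegS Y u p) (pvge2Aa r β) (pvge2Lm (pvge2Sg up * pvegL Y u p) β)) (hv : ‖v - w‖ ≤ ρ') :
    v ∈ pvegRa Y u p (r / 10) δ (r / 5) a ∧ v ∈ closedBall Y (5 * r / 16) ∪ pvegKa Y u p (r / 10) δ (r / 5) (5 * r / 16) a O := by
  obtain ⟨h1, h2, h3⟩ := pvge7_lane_Re hu R β hρ' (κ := 0) R.δ0.le hw hv
  have hRa : v ∈ pvegRa Y u p (r / 10) δ (r / 5) a := ⟨by linarith, by linarith, by linarith⟩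
  refine ⟨hRa, ?_⟩
  by_cases hb : v ∈ closedBall Y (5 * r / 16)
  · exact Or.inl hb
  · exact Or.inr ⟨⟨hRa, hb⟩, fun hvO => absurd (hO v hvO) (not_lt.2 h2)⟩

/-- … and in the room with its collar `κ ≤ δ` of 245 -/
theorem pvge7_lane_Yc (hu : ‖u‖ = 1) (R : Pvge2Rec r δ q dl ρ b μ (pvegS Y u p) (pvge2Sg up * pvegL Y u p)) {a κ s : ℝ} (ha : a + κ ≤ 13 * q / 4) (hκ : κ ≤ δ)
    (β : Bool) {ρ' : ℝ} (hρ' : ρ' ≤ q / 4) {v w : ℂ}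
    (hw : w ∈ pvge4Lane Y u (if β then up else !up) r q (pvegS Y u p) (pvge2Aa r β) (pvge2Lm (pvge2Sg up * pvegL Y u p) β)) (hv : ‖v - w‖ ≤ ρ') :
    v ∈ pvegYc Y u p (r / 10) δ (r / 5) (5 * r / 16) a s κ := by
  obtain ⟨h1, h2, h3⟩ := pvge7_lane_Re hu R β hρ' hκ hw hv
  exact pvey_mem_fun h1 (by linarith) h3

/-! ### the rooms of the half lanes -/

variable {d : ℂ} {s r₀ : ℝ} {σ : Bool} {Ln Dr : Bool → Set ℂ}

/-- **a point within `μ'` of a room of a half lane** -/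
theorem pvge7_room_box (hu : ‖u‖ = 1) (G : Pvge5Side r₀ σ Ln Dr) (hs : 0 < s) (hk : d * (starRingEnd ℂ) u = ((-pvge5E σ : ℝ) : ℂ)) (hq : q = s * r₀)
    (β : Bool) {μ' : ℝ} {v w : ℂ} (hw : w ∈ pvkdAt p (d * s) (Ln β)) (hv : ‖v - w‖ ≤ μ') :
    pvegS Y u p - 7 * q - μ' ≤ pvegS Y u v ∧ pvegS Y u v ≤ pvegS Y u p - q / 2 + μ' ∧ |pvegL Y u v - pvegL Y u p| ≤ 3 * q / 2 + μ' := by
  obtain ⟨b1, b2, b3⟩ := pvge5_box (Yc := Y) G hs hk true β w hw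
  rw [← hq] at b1 b2 b3
  have hS := abs_le.1 ((pvge2_S_lip hu Y v w).trans hv)
  have hT := abs_le.1 ((pvge2_T_lip hu Y true v w).trans hv)
  have b3' := abs_le.1 b3
  have e1 : pvge2S Y u p = pvegS Y u p := rfl
  have e2 : pvge2S Y u v = pvegS Y u v := rfl
  refine ⟨by rw [← e2]; linarith [hS.1], by rw [← e2]; linarith [hS.2], ?_⟩
  rw [pvge6_L_abs Y u p v true, ← pvge3_T, abs_le]
  constructor <;> linarith [hT.1, hT.2, b3'.1, b3'.2]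

/-- … lies in the funnel -/
theorem pvge7_room_Ra (hu : ‖u‖ = 1) (R : Pvge2Rec r δ q dl ρ b μ (pvegS Y u p) (pvge2Sg up * pvegL Y u p)) (G : Pvge5Side r₀ σ Ln Dr) (hs : 0 < s) (hk : d * (starRingEnd ℂ) u = ((-pvge5E σ : ℝ) : ℂ)) (hq : q = s * r₀)
    {a : ℝ} (β : Bool) {μ' : ℝ} (ha : a + μ' ≤ q / 2) (hμ' : μ' ≤ q) {v w : ℂ} (hw : w ∈ pvkdAt p (d * s) (Ln β)) (hv : ‖v - w‖ ≤ μ') : v ∈ pvegRa Y u p (r / 10) δ (r / 5) a := by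
  have h1 := R.δ0; have h3 := R.fine; have h8 := R.s_lo; have h10 := R.qδ; have h11 := R.q0
  obtain ⟨b1, b2, b3⟩ := pvge7_room_box (Y := Y) hu G hs hk hq β hw hv
  exact ⟨by linarith, by linarith, by linarith⟩

/-- … hence in (mouth) ∪ (tile) ∪ (door region) -/
theorem pvge7_room_win (hu : ‖u‖ = 1) (R : Pvge2Rec r δ q dl ρ b μ (pvegS Y u p) (pvge2Sg up * pvegL Y u p)) (G : Pvge5Side r₀ σ Ln Dr) (hs : 0 < s) (hk : d * (starRingEnd ℂ) u = ((-pvge5E σ : ℝ) : ℂ)) (hq : q = s * r₀)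
    {a : ℝ} (O : Set ℂ) (β : Bool) {μ' : ℝ} (ha : a + μ' ≤ q / 2) (hμ' : μ' ≤ q) {v w : ℂ} (hw : w ∈ pvkdAt p (d * s) (Ln β)) (hv : ‖v - w‖ ≤ μ') :
    v ∈ closedBall Y (5 * r / 16) ∪ pvegKa Y u p (r / 10) δ (r / 5) (5 * r / 16) a O ∪ O := by
  have hRa := pvge7_room_Ra hu R G hs hk hq β ha hμ' hw hv
  by_cases hO : v ∈ O
  · exact Or.inr hO
  by_cases hb : v ∈ closedBall Y (5 * r / 16)
  · exact Or.inl (Or.inl hb)
  · exact Or.inl (Or.inr ⟨⟨hRa, hb⟩, hO⟩)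

/-- … and in the NECK of the room with its collar of 245 (half width `s' - κ`) -/
theorem pvge7_room_Yc (hu : ‖u‖ = 1) (R : Pvge2Rec r δ q dl ρ b μ (pvegS Y u p) (pvge2Sg up * pvegL Y u p)) (G : Pvge5Side r₀ σ Ln Dr) (hs : 0 < s) (hk : d * (starRingEnd ℂ) u = ((-pvge5E σ : ℝ) : ℂ)) (hq : q = s * r₀)
    {a κ s' : ℝ} (β : Bool) {μ' : ℝ} (ha : a + μ' ≤ q / 2) (hμ' : μ' ≤ q) (hκ : κ ≤ δ) (hs' : 3 * q / 2 + μ' + κ ≤ s') {v w : ℂ} (hw : w ∈ pvkdAt p (d * s) (Ln β)) (hv : ‖v - w‖ ≤ μ') :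
    v ∈ pvegYc Y u p (r / 10) δ (r / 5) (5 * r / 16) a s' κ := by
  have h1 := R.δ0; have h3 := R.fine; have h8 := R.s_lo; have h10 := R.qδ; have h11 := R.q0
  obtain ⟨b1, b2, b3⟩ := pvge7_room_box (Y := Y) hu G hs hk hq β hw hv
  exact pvey_mem_neck (by linarith) (by linarith) (by linarith)

/-- the disc of the gate of the door in the frame -/
theorem pvge7_disc (hu : ‖u‖ = 1) {ϱ : ℝ} {w : ℂ} (hw : w ∈ ball p ϱ) : pvegS Y u p - ϱ < pvegS Y u w ∧ pvegS Y u w < pvegS Y u p + ϱ := by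
  rw [mem_ball_iff_norm] at hw
  have hS := abs_le.1 (pvge2_S_lip hu Y w p)
  have e1 : pvge2S Y u p = pvegS Y u p := rfl
  have e2 : pvge2S Y u w = pvegS Y u w := rfl
  rw [e1, e2] at hS
  constructor <;> linarith [hS.1, hS.2]

/-- the room of record ends at the plane `S(p) - a` -/
theorem pvge7_Ya_S (hu : ‖u‖ = 1) (R : Pvge2Rec r δ q dl ρ b μ (pvegS Y u p) (pvge2Sg up * pvegL Y u p)) {a : ℝ} (ha : a ≤ δ) {v : ℂ} (hv : v ∈ pvegYa Y u p (r / 10) δ (r / 5) (5 * r / 16) a) : pvegS Y u v ≤ pvegS Y u p - a := by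
  have h1 := R.δ0; have h3 := R.fine; have h8 := R.s_lo
  rcases hv with hv | hv
  · rw [mem_closedBall_iff_norm] at hv
    have hS := abs_le.1 (pvge2_S_lip hu Y v Y)
    have e0 : pvge2S Y u Y = 0 := by simp [pvge2S]
    have e2 : pvge2S Y u v = pvegS Y u v := rfl
    rw [e0, e2] at hS
    linarith [hS.2]
  · exact hv.2.1

end door

/-! ## 2. at the parameters, placed at `z` -/

theorem pvge7_Re_sh (z Y u p : ℂ) (s₀ a r : ℝ) :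
    pveyRe (z + Y) u s₀ (pvegS (z + Y) u (z + p) - a) (pvegL (z + Y) u (z + p)) r ⊆ pvieSh z (pveyRe Y u s₀ (pvegS Y u p - a) (pvegL Y u p) r) := by
  intro v hv
  rw [pvge3_mem_sh]
  obtain ⟨h1, h2, h3⟩ := hv
  have eS : pvegS (z + Y) u v = pvegS Y u (v - z) := by
    have := pvge3_S_sh z Y u (v - z)
    rwa [add_sub_cancel] at this
  have eL : pvegL (z + Y) u v = pvegL Y u (v - z) := by
    have := pvge3_L_sh z Y u (v - z)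
    rwa [add_sub_cancel] at this
  rw [eS, pvge3_S_sh] at h2
  rw [eS] at h1
  rw [eL, pvge3_L_sh] at h3
  exact ⟨h1, h2, h3⟩

theorem pvge7_Yc_sh (z Y u p : ℂ) (e δ w rM a s μ : ℝ) : pvegYc (z + Y) u (z + p) e δ w rM a s μ ⊆ pvieSh z (pvegYc Y u p e δ w rM a s μ) := by
  rintro v ((hv | hv) | hv)
  · exact image_mono (subset_union_left.trans subset_union_left) (pvge3_ball_sh _ _ _ hv)
  · refine image_mono ((subset_union_right (s := closedBall Y (rM - μ))).trans subset_union_left) ?_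
    have := pvge7_Re_sh z Y u p (e + 2 * δ + μ) (a + μ) (w - μ)
    rw [← sub_sub, ← sub_sub] at this
    exact this hv
  · exact image_mono subset_union_right (pvge7_Re_sh z Y u p _ _ _ hv)

/-- a point in front of the side of the own-level box is off the box with its collar -/
theorem pvge7_off_box {Y u p : ℂ} {e δ w rM κ rI rk : ℝ} (H : PvegDoor Y u p e δ w rM κ rI rk) {v : ℂ} (hS : e + δ < pvegS Y u v) : v ∉ pvwSq 0 (rk + δ) := by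
  intro hb
  have h1 := pveg_sq_zero H.u4 hb
  rw [pveg_S_zero Y u v] at h1
  have := H.out
  linarith

theorem pvge7_sq_sh {z v : ℂ} {r : ℝ} : v ∈ pvwSq z r ↔ v - z ∈ pvwSq 0 r := by
  simp only [pvwSq, sub_zero, mem_ofPred_eq]

theorem pvge7_sq_mono {z : ℂ} {r r' : ℝ} (h : r ≤ r') : pvwSq z r ⊆ pvwSq z r' := fun v hv => ⟨hv.1.trans h, hv.2.trans h⟩

section par

variable {τ : Type} {c : ℝ} {𝔓 : PvxPar τ c} {𝔈 : PvieEng τ} {m : ℕ} {t : τ} {ε : ℝ} {Ln Dr : Bool → Set ℂ}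

theorem pvge7_S_sub (z Y u v : ℂ) : pvegS (z + Y) u v = pvegS Y u (v - z) := by
  have := pvge3_S_sh z Y u (v - z)
  rwa [add_sub_cancel] at this

/-- **(i) off the own-level box** -/
theorem pvge7_off_i (hL : PvegLev 𝔓 m) (hT : pviwTyOk 𝔓 t) {z v : ℂ} (hS : pvegR 𝔓 m / 10 + pvlmDel c m < pvegS (z + pvegYm 𝔓 m t) (-(𝔓.Γ m).din t) v) : v ∉ pvwSq z (pviwRad 𝔓 m t) := by
  intro hv
  rw [pvge7_S_sub] at hS
  exact pvge7_off_box (pveg_door_i hL hT) hS (pvge7_sq_mono (by have := pvlm_Del_pos c m; linarith) (pvge7_sq_sh.1 hv))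

/-- **(o)** -/
theorem pvge7_off_o (hL : PvegLev 𝔓 m) (hT : pviwTyOk 𝔓 t) {z v : ℂ} (hS : pvegR 𝔓 m / 10 + pvlmDel c m < pvegS (z + pvegYp 𝔓 m t) ((𝔓.Γ m).dout t) v) : v ∉ pvwSq z (pviwRad 𝔓 m t) := by
  intro hv
  rw [pvge7_S_sub] at hS
  exact pvge7_off_box (pveg_door_o hL hT) hS (pvge7_sq_mono (by have := pvlm_Del_pos c m; linarith) (pvge7_sq_sh.1 hv))

theorem pvge7_mu (h3 : 0 < 𝔓.num.rho3) (m : ℕ) : 0 < pvilMu 𝔓 m ∧ 25 * pvilMu 𝔓 m ≤ pvge3Q c m ∧ 1000 * pvilMu 𝔓 m ≤ pvlmDel c m := by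
  have h1 := pvlm_Del_pos c m
  have h2 : 0 < 𝔓.num.rho3 * pvlmH m := mul_pos h3 (pvlm_H_pos m)
  have h4 := lt_min h1 h2
  have h5 := min_le_left (pvlmDel c m) (𝔓.num.rho3 * pvlmH m)
  unfold pvilMu pvge3Q
  refine ⟨by positivity, by linarith, by linarith⟩

theorem pvge7_A_eq (c : ℝ) (m : ℕ) : pvegA c m = pvge3Q c m / 4 := by
  unfold pvegA pvge3Q; ring

/-- the window of the last link contains (mouth) ∪ (tile) ∪ (door region), frame form -/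
theorem pvge7_W_i {O₀ : ℕ → Set ℂ} (hM : 𝔈.iM m t = pvegIM 𝔓 m t) (hK : 𝔈.iK m t = pvegIKa 𝔓 O₀ m t) (hD : (𝔈.kit m ε).O₀ = O₀ m) (z : ℂ) :
    closedBall (z + pvegYm 𝔓 m t) (5 * pvegR 𝔓 m / 16) ∪ pvegKa (z + pvegYm 𝔓 m t) (-(𝔓.Γ m).din t) (z + (𝔓.Γ m).pin t) (pvegR 𝔓 m / 10) (pvlmDel c m) (pvegR 𝔓 m / 5) (5 * pvegR 𝔓 m / 16) (pvegA c m)
        (pvieSh z (pvthSim ((𝔓.Γ m).pin t) ((𝔓.Γ m).din t) '' O₀ m)) ∪ pvieSh z (pvthSim ((𝔓.Γ m).pin t) ((𝔓.Γ m).din t) '' O₀ m) ⊆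
      pvieSh z (𝔈.iM m t) ∪ pvieSh z (𝔈.iK m t) ∪ pvieDoor 𝔈 m ε (pvieZi 𝔓 m z t) ((𝔓.Γ m).din t) := by
  rw [hM, hK]
  refine union_subset_union (union_subset_union (pvge3_ball_sh _ _ _) (pvge3_Ka_sh _ _ _ _ _ _ _ _ _ _)) ?_
  rw [pvge3_sh_sim]
  unfold pvieDoor pvieZi
  rw [hD]

/-- **THE REGION RECORD OF THE LAST LINK AT THE REGIONS OF RECORD** (`PvhlLay` v2 of 106): every engine with the mouth, the tile and the door region of record and a room between the room with collar of 245 and the room of 124 -/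
theorem pvge7_lay_i (hL : PvegLev 𝔓 m) (hT : pviwTyOk 𝔓 t) (hf : 10000 * pvlmDel c m ≤ pvegR 𝔓 m) (h3 : 0 < 𝔓.num.rho3) (hc : ∀ x ∈ 𝔓.cm t, ‖x - (𝔓.ty t).ym‖ ≤ 𝔓.num.rho / 10)
    {O₀ : ℕ → Set ℂ} (hO : O₀ m ⊆ pvccSq 0 (13 * pvge3Q c m / 4)) (hM : 𝔈.iM m t = pvegIM 𝔓 m t) (hK : 𝔈.iK m t = pvegIKa 𝔓 O₀ m t) (hD : (𝔈.kit m ε).O₀ = O₀ m)
    (hY1 : pvegIYc 𝔓 m t ⊆ 𝔈.iY m t) (hY2 : 𝔈.iY m t ⊆ pvegIYa 𝔓 m t) (hco : IsPreconnected (𝔈.iY m t)ᶜ) (G : Pvge5Side (1 / 40) true Ln Dr) (z : ℂ) :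
    PvhlLay (pvilLi 𝔓 𝔈 m z t) 𝔓.num (pvieSh z (𝔈.iM m t) ∪ pvieSh z (𝔈.iK m t) ∪ pvieDoor 𝔈 m ε (pvieZi 𝔓 m z t) ((𝔓.Γ m).din t)) ((pvieSh z (𝔈.iM m t) ∪ pvieSh z (𝔈.iK m t)) \ pvwSq z (pviwRad 𝔓 m t))
      (pvilMu 𝔓 m) (z + pvegYm 𝔓 m t) (-(𝔓.Γ m).din t) (pvegR 𝔓 m) (pvge3Q c m) (pvge3Dl c m) (pvegS (pvegYm 𝔓 m t) (-(𝔓.Γ m).din t) ((𝔓.Γ m).pin t)) (pvge2Sg false * pvegL (pvegYm 𝔓 m t) (-(𝔓.Γ m).din t) ((𝔓.Γ m).pin t))
      (fun β => pvkdAt (pvieZi 𝔓 m z t) ((𝔓.Γ m).din t * (pvlmDel c m : ℝ)) (Ln β)) (fun β => pvkdAt (pvieZi 𝔓 m z t) ((𝔓.Γ m).din t * (pvlmDel c m : ℝ)) (Dr β)) := by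
  obtain ⟨μ0, μq, μδ⟩ := pvge7_mu (c := c) (𝔓 := 𝔓) h3 m
  have hδ := pvlm_Del_pos c m
  have hq := pvge3_q_pos c m
  have hu := pvge3_u_i hL hT
  have R := pvge6_rec_i hL hT hf z (ρ := pvlmDel c m) hδ.le le_rfl
  have hk := pvge5_k_i (pvge3_dd_i hL hT)
  have hqe := pvge6_q_eq c m
  have hA := pvge7_A_eq c m
  have hR0 := pveg_R_pos hL
  have hOf : ∀ x ∈ pvieSh z (pvthSim ((𝔓.Γ m).pin t) ((𝔓.Γ m).din t) '' O₀ m), pvegS (z + pvegYm 𝔓 m t) (-(𝔓.Γ m).din t) (z + (𝔓.Γ m).pin t) - 13 * pvge3Q c m / 4 < pvegS (z + pvegYm 𝔓 m t) (-(𝔓.Γ m).din t) x := by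
    rw [pvge3_sh_sim]; exact pvge3_O_front (Or.inr (pvge3_dd_i hL hT)) hO
  have hW := pvge7_W_i (𝔓 := 𝔓) (𝔈 := 𝔈) (m := m) (t := t) (ε := ε) hM hK hD z
  have hMK : closedBall (z + pvegYm 𝔓 m t) (5 * pvegR 𝔓 m / 16) ∪ pvegKa (z + pvegYm 𝔓 m t) (-(𝔓.Γ m).din t) (z + (𝔓.Γ m).pin t) (pvegR 𝔓 m / 10) (pvlmDel c m) (pvegR 𝔓 m / 5) (5 * pvegR 𝔓 m / 16) (pvegA c m)
        (pvieSh z (pvthSim ((𝔓.Γ m).pin t) ((𝔓.Γ m).din t) '' O₀ m)) ⊆ pvieSh z (𝔈.iM m t) ∪ pvieSh z (𝔈.iK m t) := by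
    rw [hM, hK]
    exact union_subset_union (pvge3_ball_sh _ _ _) (pvge3_Ka_sh _ _ _ _ _ _ _ _ _ _)
  have hYc : pvegYc (z + pvegYm 𝔓 m t) (-(𝔓.Γ m).din t) (z + (𝔓.Γ m).pin t) (pvegR 𝔓 m / 10) (pvlmDel c m) (pvegR 𝔓 m / 5) (5 * pvegR 𝔓 m / 16) (pvegA c m) (3 * (pvlmDel c m / 40)) (3 * pvilMu 𝔓 m) ⊆ pvieSh z (𝔈.iY m t) :=
    (pvge7_Yc_sh _ _ _ _ _ _ _ _ _ _ _).trans (image_mono hY1)
  have hYa : ∀ v ∈ pvieSh z (𝔈.iY m t), pvegS (z + pvegYm 𝔓 m t) (-(𝔓.Γ m).din t) v ≤ pvegS (z + pvegYm 𝔓 m t) (-(𝔓.Γ m).din t) (z + (𝔓.Γ m).pin t) - pvegA c m := by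
    intro v hv
    rw [pvge3_mem_sh] at hv
    rw [pvge7_S_sub, pvge3_S_sh]
    have R' := pvge3_rec_i hL hT hf (ρ := pvlmDel c m) (b := 0) (μ := 0) hδ.le le_rfl (by norm_num) (by linarith)
    exact pvge7_Ya_S hu R' (by rw [hA]; unfold pvge3Q; linarith) (hY2 hv)
  have eSp : pvegS (z + pvegYm 𝔓 m t) (-(𝔓.Γ m).din t) (z + (𝔓.Γ m).pin t) = pvegS (pvegYm 𝔓 m t) (-(𝔓.Γ m).din t) ((𝔓.Γ m).pin t) := pvge3_S_sh _ _ _ _
  have s_lo := R.s_lo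
  refine
    { mu := μ0
      bdd := ?_
      co := pvho_sh_co z hco
      laneW := fun β w hw v hv => ?_
      laneY := ?_
      laneF := ?_
      clW := fun β w hw v hv => ?_
      roomY := ?_
      roomF := fun β w hw hx => ?_
      roomT := fun β w hw hx => ?_
      tgt := fun β w hw => ?_
      ftS := fun w hw => ?_
      gm := ?_
      offBox := ?_
      offTip := ?_ }
  · -- bdd
    refine (isBounded_closedBall (x := z + pvegYm 𝔓 m t) (r := pvegR 𝔓 m / 2)).subset fun v hv => ?_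
    have hv' : v ∈ pvieSh z (𝔈.iY m t) := hv
    rw [pvge3_mem_sh] at hv'
    have := pveg_Ya_ball (pveg_door_i hL hT) (pveg_A_pos c m).le (hY2 hv')
    rw [mem_closedBall_iff_norm] at this ⊢
    rwa [← sub_sub]
  · -- laneW
    rw [mem_closedBall, dist_eq_norm] at hv
    exact hW (Or.inl (pvge7_lane_win hu R (a := pvegA c m) (by rw [hA]; linarith) hOf β (ρ' := 4 * pvilMu 𝔓 m) (by linarith) (pvge6_laneI_mem hw) hv).2)
  · -- laneY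
    rintro β v ⟨w, hw, hv⟩
    exact hYc (pvge7_lane_Yc hu R (by rw [hA]; linarith) (by linarith) β (ρ' := 2 * pvilMu 𝔓 m) (by linarith) (pvge6_laneI_mem hw) hv)
  · -- laneF
    rintro β v ⟨w, hw, hv⟩
    obtain ⟨a1, a2⟩ := pvge7_lane_win hu R (a := pvegA c m) (by rw [hA]; linarith) hOf β (ρ' := pvilMu 𝔓 m) (by linarith) (pvge6_laneI_mem hw) hv
    exact ⟨hMK a2, pvge7_off_i hL hT (by have := a1.1; linarith)⟩
  · -- clW
    rw [mem_closedBall, dist_eq_norm] at hv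
    have := pvge6_cl_i hL hT hf z (!β) β μ0.le (by linarith : pvilMu 𝔓 m ≤ pvlmDel c m) ⟨w, hw, hv⟩
    exact hW (Or.inl (Or.inl (closedBall_subset_closedBall (by linarith) this)))
  · -- roomY
    rintro β v ⟨w, hw, hv⟩
    exact hYc (pvge7_room_Yc hu R G hδ hk hqe β (μ' := pvge3Q c m / 16) (by rw [hA]; linarith) (by linarith) (by linarith) (by unfold pvge3Q at μq ⊢; linarith) hw hv)
  · -- roomF
    have hx' : pvegS (z + pvegYm 𝔓 m t) (-(𝔓.Γ m).din t) w < pvegS (z + pvegYm 𝔓 m t) (-(𝔓.Γ m).din t) (z + (𝔓.Γ m).pin t) - 13 * pvge3Q c m / 4 := by rw [eSp]; exact hx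
    refine ⟨hMK (Or.inr (pvge6_room_Ka hu R G hδ hk hqe (pvge6_A_le c m) (fun x hx => (hOf x hx).le) β hw hx')), pvge7_off_i hL hT ?_⟩
    obtain ⟨b1, -, -⟩ := pvge7_room_box (Y := z + pvegYm 𝔓 m t) hu G hδ hk hqe β (μ' := 0) (v := w) hw (by simp)
    have e1 : pvegS (z + pvegYm 𝔓 m t) (-(𝔓.Γ m).din t) (pvieZi 𝔓 m z t) = pvegS (z + pvegYm 𝔓 m t) (-(𝔓.Γ m).din t) (z + (𝔓.Γ m).pin t) := rfl
    rw [e1] at b1
    unfold pvge3Q at b1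
    linarith
  · -- roomT
    have hx' : pvge2S (z + pvegYm 𝔓 m t) (-(𝔓.Γ m).din t) w < pvge2S (z + pvegYm 𝔓 m t) (-(𝔓.Γ m).din t) (z + (𝔓.Γ m).pin t) - 13 * (pvlmDel c m * (1 / 40)) / 4 := by
      rw [← hqe]; show pvegS _ _ w < pvegS _ _ _ - _; rw [eSp]; exact hx
    have := pvge5_room (Yc := z + pvegYm 𝔓 m t) (p := z + (𝔓.Γ m).pin t) G hδ hk (sd := fun β => !β) (fun β => by rw [pvge2_sg_not]; simp [pvge5E]) β w hw hx'
    rw [← hqe, pvge5_Lm_i, pvge3_T, pvge3_L_sh] at this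
    exact this
  · -- tgt
    have := pvge5_tgt (Yc := z + pvegYm 𝔓 m t) G hδ hk β w hw
    rw [← hqe] at this
    have e1 : pvge2S (z + pvegYm 𝔓 m t) (-(𝔓.Γ m).din t) (pvieZi 𝔓 m z t) = pvegS (pvegYm 𝔓 m t) (-(𝔓.Γ m).din t) ((𝔓.Γ m).pin t) := eSp
    rw [e1] at this
    linarith
  · -- ftS
    have hw' : w ∈ ball (z + (𝔓.Γ m).pin t) (2 * pvge3Q c m) := by
      have e : (pvkdP (pvilLi 𝔓 𝔈 m z t).p.h).b = 2 * pvge3Q c m := rfl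
      rw [e] at hw; exact hw
    have := (pvge7_disc (Y := z + pvegYm 𝔓 m t) hu hw').1
    rw [eSp] at this
    show _ ≤ pvegS _ _ w
    linarith
  · -- gm
    rintro _ ⟨x, hx, rfl⟩ hY
    have h1 := hYa _ hY
    have hx' : x ∈ rswRect (-(2 * pvge3Q c m)) (-(pvge3Q c m / 2)) (-(pvge3Q c m / 2)) (pvge3Q c m / 2) := hx
    have e : pvegS (z + pvegYm 𝔓 m t) (-(𝔓.Γ m).din t) (pvthSim (z + (𝔓.Γ m).pin t) ((𝔓.Γ m).din t) x) = pvegS (z + pvegYm 𝔓 m t) (-(𝔓.Γ m).din t) (z + (𝔓.Γ m).pin t) + ((𝔓.Γ m).din t * (starRingEnd ℂ) (-(𝔓.Γ m).din t) * x).re :=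
      pvge5_S_at _ _ _ _ _
    have h1' : pvegS (z + pvegYm 𝔓 m t) (-(𝔓.Γ m).din t) (pvthSim (z + (𝔓.Γ m).pin t) ((𝔓.Γ m).din t) x) ≤ pvegS (z + pvegYm 𝔓 m t) (-(𝔓.Γ m).din t) (z + (𝔓.Γ m).pin t) - pvegA c m := h1
    rw [e, pvge3_dd_i hL hT] at h1'
    have e2 : ((-1 : ℂ) * x).re = -x.re := by simp
    rw [e2] at h1'
    have := hx'.2.1
    have := pveg_A_pos c m
    linarith
  · -- offBox
    rw [Set.disjoint_left]
    intro w hw hb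
    have hw' : w ∈ ball (z + (𝔓.Γ m).pin t) (2 * pvge3Q c m) := hw
    have h1 := (pvge7_disc (Y := z + pvegYm 𝔓 m t) hu hw').1
    have hb' : (starRingEnd ℂ) (1 : ℂ) * w ∈ pvwSq ((starRingEnd ℂ) (1 : ℂ) * z) (pviwRad 𝔓 m t) := hb
    rw [map_one, one_mul, one_mul] at hb'
    refine pvge7_off_i hL hT ?_ hb'
    unfold pvge3Q at h1
    linarith
  · -- offTip
    rw [Set.disjoint_left]
    intro w hw hb
    have hw' : w ∈ ball (z + (𝔓.Γ m).pin t) (2 * pvge3Q c m) := hw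
    have h1 := (pvge7_disc (Y := z + pvegYm 𝔓 m t) hu hw').1
    have hb' : w ∈ pvxPl z (pvlmH m) (𝔓.cm t) := hb
    have h2 := pvho_cell hc (pvlm_H_pos m) hb'
    have hS := abs_le.1 (pvge2_S_lip hu (z + pvegYm 𝔓 m t) w (z + pvegYm 𝔓 m t))
    have e0 : pvge2S (z + pvegYm 𝔓 m t) (-(𝔓.Γ m).din t) (z + pvegYm 𝔓 m t) = 0 := by simp [pvge2S]
    have e2 : pvge2S (z + pvegYm 𝔓 m t) (-(𝔓.Γ m).din t) w = pvegS (z + pvegYm 𝔓 m t) (-(𝔓.Γ m).din t) w := rfl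
    rw [e0, e2] at hS
    have h2' : ‖w - (z + pvegYm 𝔓 m t)‖ ≤ pvegR 𝔓 m / 10 := by
      have e3 : 𝔓.num.rho / 10 * pvlmH m = pvegR 𝔓 m / 10 := by unfold pvegR; ring
      rw [← e3]; exact h2
    unfold pvge3Q at h1
    linarith [hS.2]

/-- **`mouth` of `pvhl_ev_i`**: the small mouth with a collar `a ≤ R/16 - 3 μ₀` lies in the room -/
theorem pvge7_mouth_i (hY1 : pvegIYc 𝔓 m t ⊆ 𝔈.iY m t) (z : ℂ) {a : ℝ} (ha : a ≤ 5 * pvegR 𝔓 m / 16 - 3 * pvilMu 𝔓 m) : closedBall (z + pvegYm 𝔓 m t) a ⊆ pvieSh z (𝔈.iY m t) := by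
  intro v hv
  rw [mem_closedBall_iff_norm] at hv
  rw [pvge3_mem_sh]
  refine hY1 (pvey_mem_ball ?_)
  rw [sub_sub]
  linarith

theorem pvge7_mouth_o (hY1 : pvegOYc 𝔓 m t ⊆ 𝔈.oY m t) (z : ℂ) {a : ℝ} (ha : a ≤ 5 * pvegR 𝔓 m / 16 - 3 * pvilMu 𝔓 m) : closedBall (z + pvegYp 𝔓 m t) a ⊆ pvieSh z (𝔈.oY m t) := by
  intro v hv
  rw [mem_closedBall_iff_norm] at hv
  rw [pvge3_mem_sh]
  refine hY1 (pvey_mem_ball ?_)
  rw [sub_sub]
  linarith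

end par

end Claimed.Agent.R289
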