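-- KEEP
import Claimed.Agent.R289.Exit.GoodEL
import Claimed.Agent.R289.Tr.HookYM
import Claimed.Agent.R289.Tr.FrcDetOY
import Claimed.Agent.R289.Tr.FrcDetA
import Claimed.Agent.R289.Exit.FrcOE

/-!
# Row 289 (S0537), THE WALL, ROAD E, E10 / (b3) DET AT THE MODEL, file Exit/GoodEO : THE FIRST LINK AT THE RECORD      (helper298; prefix `pvge8_`)

* sec. 1  **`pvge8_room_o`** : the contract `PvhjRoomO` of 23 (`Tr/HookYM` v2) at the room of record `pvegOYc` of 245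
* sec. 2  **`pvge8_link_o`** : `pvhj_A_o` of 23 at the engine of record, tests `pvj0T`, certificate `pvj0Mc` = THE STATEMENT OF `exit_pvj0_link` VERBATIM
-/

set_option autoImplicit false
set_option linter.unusedSectionVars false
set_option linter.unusedVariables false

namespace Claimed.Agent.R289

open Set Metric Complex Filter Topology Claims.C0465
open scoped ENNReal

section par

variable {τ : Type} {c : ℝ} {𝔓 : PvxPar τ c} {m : ℕ} {t : τ}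

/-- **THE ROOM OF RECORD OF THE FIRST LINK PAYS THE CONTRACT OF THE RUN** -/
theorem pvge8_room_o (n : PvhoNum 𝔓) (hL : PvegLev 𝔓 m) (hT : pviwTyOk 𝔓 t) (hf : 10000 * pvlmDel c m ≤ pvegR 𝔓 m) (h3 : 0 < 𝔓.num.rho3) (z : ℂ) : PvhjRoomO 𝔓 m z t (pvieSh z (pvegOYc 𝔓 m t)) := by
  obtain ⟨μ0, μq, μδ⟩ := pvge7_mu (c := c) (𝔓 := 𝔓) h3 m
  have hδ := pvlm_Del_pos c m
  have hq := pvge3_q_pos c m
  have hR0 := pveg_R_pos hL
  refine ⟨pvey_sh_oYc_bdd hL μ0.le hT z, pvey_sh_oYc_co hL μ0.le hT z, pvey_sh_oYc_ball 𝔓 m t z ?_, fun v h1 h2 h3' => ?_, pvey_sh_oYc_core n hL μ0.le hT z⟩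
  · have e : pvegR 𝔓 m = 𝔓.num.rho * pvlmH m := rfl
    rw [← e]
    linarith
  · have eS : pvge2S ((𝔓.ty t).cp (pvlmH m) z) ((𝔓.Γ m).dout t) v = pvegS (pvegYp 𝔓 m t) ((𝔓.Γ m).dout t) (v - z) := pvge7_S_sub z _ _ v
    have eT : |pvge2T ((𝔓.ty t).cp (pvlmH m) z) ((𝔓.Γ m).dout t) true v - pvhjLam 𝔓 m t| = |pvegL (pvegYp 𝔓 m t) ((𝔓.Γ m).dout t) (v - z) - pvegL (pvegYp 𝔓 m t) ((𝔓.Γ m).dout t) ((𝔓.Γ m).pout t)| := by
      have h := pvge6_L_abs (z + pvegYp 𝔓 m t) ((𝔓.Γ m).dout t) (z + (𝔓.Γ m).pout t) v true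
      rw [pvge3_L_sh] at h
      have eL : pvegL (z + pvegYp 𝔓 m t) ((𝔓.Γ m).dout t) v = pvegL (pvegYp 𝔓 m t) ((𝔓.Γ m).dout t) (v - z) := by
        have := pvge3_L_sh z (pvegYp 𝔓 m t) ((𝔓.Γ m).dout t) (v - z)
        rwa [add_sub_cancel] at this
      rw [eL] at h
      exact h.symm
    rw [eS] at h1 h2
    rw [eT] at h3'
    have hA := pvge7_A_eq c m
    refine pvey_sh_oYc_mem_fun 𝔓 m t z (by linarith) ?_ (by linarith)
    have : pvhjSp 𝔓 m t = pvegS (pvegYp 𝔓 m t) ((𝔓.Γ m).dout t) ((𝔓.Γ m).pout t) := rfl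
    rw [this] at h2
    rw [hA]
    linarith

end par

/-! ## 2. at the engine of record -/

section rec

variable {c : ℝ}

/-- the reference region of the door plug of record is the open square of half side `13 q / 4` -/
theorem pvge8_O0 (N : PvxNums) (hN : N.Ok) (nb : PvnaNb N) (m : ℕ) : (pvnaInRec N hN c nb).O0 m ⊆ pvccSq 0 (13 * pvge3Q c m / 4) := by
  rw [pvnr_O0]
  have e : pvkgG.O₀ = pvkgO := rfl
  rw [e, pvkgg_O_sq]
  rintro _ ⟨w, hw, rfl⟩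
  have hδ := pvlm_Del_pos c m
  have hw' : pvccN (w - 0) < 13 / 160 := hw
  rw [sub_zero] at hw'
  show pvccN (pvthSim 0 (pvlmDel c m) w - 0) < 13 * pvge3Q c m / 4
  unfold pvccN at hw' ⊢
  obtain ⟨h1, h2⟩ := max_lt_iff.1 hw'
  have e1 : (pvthSim 0 (pvlmDel c m : ℂ) w - 0).re = pvlmDel c m * w.re := by simp [pvthSim]
  have e2 : (pvthSim 0 (pvlmDel c m : ℂ) w - 0).im = pvlmDel c m * w.im := by simp [pvthSim]
  rw [e1, e2, abs_mul, abs_mul, abs_of_pos hδ]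
  unfold pvge3Q
  refine max_lt ?_ ?_ <;> nlinarith

theorem pvge8_plug : pvkgG.toPvkdPlug = pvkdP (1 / 40) := rfl

theorem pvge8_Hf2 (N : PvxNums) : pvnaHf N 2 = pvhfS (pvkdP (1 / 40)) (pvnaT N) false := by
  rw [pvna_Hf_S, pvge8_plug]
  rfl

/-- the side event of the tests of record is the placed `S⁻` at the truncation of record -/
theorem pvge8_H (N : PvxNums) (hN : N.Ok) (nb : PvnaNb N) (q₀ : ℝ) (m : ℕ) (z : ℂ) (t : pvxTau N) :
    (pvj0T (pvxParOf N hN c) (pvnaEngRec N hN c nb) q₀ nb.b m z t).ℋ ⊆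
      pvdpPl (pvieZo (pvxParOf N hN c) m z t) (((pvxParOf N hN c).Γ m).dout t * pvlmDel c m) ((pvxParOf N hN c).col t) (pvhfS (pvkdP (1 / 40)) (pvnaT N) false) := by
  rw [← pvge8_Hf2]
  show pvdpPl _ _ _ (pvnaHfP (pvxParOf N hN c) 2) ⊆ _
  rw [pvna_HfP N hN c]

/-- **THE FIRST LINK AT ONE FINAL CONFIGURATION, ENGINE, TESTS AND CERTIFICATE OF RECORD**: plain success and hull -/
theorem pvge8_A_o (c0 : 0 < c) (N : PvxNums) (hN : N.Ok) (nb : PvnaNb N) (q₀ : ℝ) {m : ℕ} (hm : (pvxParOf N hN c).m0 ≤ m) (z : ℂ) (t : pvxTau N) (ε : ℝ) {η₀ η : Conf PvPt}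
    (hU : η₀ ∈ pvilUo (pvxParOf N hN c).num ((pvxParOf N hN c).col t) (pvilPin (pvxParOf N hN c) m z t)) (hMc : η₀ ∈ pvj0Mc (pvxParOf N hN c) m z t)
    (hF : PvjeFin (pvjeO (pvxParOf N hN c) (pvnaEngRec N hN c nb) pvilQ m ε z t) (pvj0T (pvxParOf N hN c) (pvnaEngRec N hN c nb) q₀ nb.b m z t) η₀ η) :
    η ∈ (pvilLo (pvxParOf N hN c) (pvnaEngRec N hN c nb) m z t).A (pvxParOf N hN c).num ((pvxParOf N hN c).col t) ∧ pvilZo (pvxParOf N hN c) m z t η = pvilZo (pvxParOf N hN c) m z t η₀ := by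
  have n := pvho_num_par hN c
  have hL := (pvea_par hN c0).lev hm
  have hT := pvea_tyOk (c := c) hN t
  have hf : 10000 * pvlmDel c m ≤ pvegR (pvxParOf N hN c) m := by
    have h1 := pvxo_fine hN c0 hm
    have h2 := pvlm_Del_pos c m
    show 10000 * pvlmDel c m ≤ N.rho * pvlmH m
    linarith
  have h3 : 0 < (pvxParOf N hN c).num.rho3 := hN.msk0
  obtain ⟨μ0, μq, μδ⟩ := pvge7_mu (c := c) (𝔓 := pvxParOf N hN c) h3 m
  have hδ := pvlm_Del_pos c m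
  have hρ : pvj0Rho (pvxParOf N hN c) m = pvilMu (pvxParOf N hN c) m / 20 := rfl
  have h3' : 3 * pvj0Rho (pvxParOf N hN c) m ≤ pvlmDel c m := by rw [hρ]; linarith
  have h80 : 80 * pvj0Rho (pvxParOf N hN c) m ≤ (pvxParOf N hN c).num.rho * pvlmH m := by
    have e : pvegR (pvxParOf N hN c) m = (pvxParOf N hN c).num.rho * pvlmH m := rfl
    rw [← e, hρ]; linarith
  have hc : ∀ w ∈ (pvxParOf N hN c).cp t, ‖w - ((pvxParOf N hN c).ty t).yp‖ ≤ (pvxParOf N hN c).num.rho / 10 := (pvea_par hN c0).cp_small t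
  have eM : (pvnaEngRec N hN c nb).oM m t = pvegOM (pvxParOf N hN c) m t := pvnr_oM N hN c nb m t
  have eK : (pvnaEngRec N hN c nb).oK m t = pvegOKa (pvxParOf N hN c) (pvnaInRec N hN c nb).O0 m t := pvnr_oK N hN c nb m t
  have eO : ((pvnaEngRec N hN c nb).kit m ε).O₀ = (pvnaInRec N hN c nb).O0 m := (pvnr_kit_O N hN c nb m ε).trans (pvnr_O0 N hN c nb m).symm
  have hY : PvhjRoomO (pvxParOf N hN c) m z t (pvieSh z ((pvnaEngRec N hN c nb).oY m t)) := by rw [pvnr_oY]; exact pvge8_room_o n hL hT hf h3 z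
  have hr : pvj0Rho (pvxParOf N hN c) m < ((pvxParOf N hN c).ty t).b * pvlmH m := pvjv_carf_hr _ (pvxo_wf N hN c).toWfB h3' t
  have hm' : η₀ ∈ pvrgMesh (pvj0Rho (pvxParOf N hN c) m) (pvieSh z (pviwBox (pvxParOf N hN c) m t)) := pvrg_mesh_mono (pvj6_box_sub _ m t z) hMc
  have hmM : η₀ ∈ pvrgMesh (pvj0Rho (pvxParOf N hN c) m) (pvieSh z ((pvnaEngRec N hN c nb).oM m t)) := by rw [pvnr_oM]; exact pvho_cert_oM n hT z hMc
  have mesh : VorDense (pvieY η₀) (closedBall (((pvxParOf N hN c).ty t).cp (pvlmH m) z) ((pvxParOf N hN c).num.rho2 * pvlmH m + 3 * pvj0Rho (pvxParOf N hN c) m)) (pvj0Rho (pvxParOf N hN c) m) := pvho_cert_o n hT z h80 hMc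
  have hTK : (pvj0T (pvxParOf N hN c) (pvnaEngRec N hN c nb) q₀ nb.b m z t).𝒦 ⊆ pvkqPat (pvge3Dl c m) (pvge3PatO (pvxParOf N hN c) m z t) := inter_subset_left
  have hTM : ∀ ξ ∈ (pvj0T (pvxParOf N hN c) (pvnaEngRec N hN c nb) q₀ nb.b m z t).𝒦, PvtrMesh (pvj0Rho (pvxParOf N hN c) m) (pvieSh z ((pvnaEngRec N hN c nb).oM m t) ∪ pvieSh z ((pvnaEngRec N hN c nb).oK m t)) (cfSites ξ) :=
    fun ξ h => pvjo_mesh_of (Set.mem_of_mem_inter_right h)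
  have hG : PvhfGeo (pvkdP (1 / 40)) (pvnaT N) := pvna_geo hN
  have hLn : (pvnaT N).Ln = (pvhfT (1 / 40)).Ln := rfl
  have hDr : (pvnaT N).Dr = (pvhfT (1 / 40)).Dr := rfl
  have p1 : 0 < pvj0Rho (pvxParOf N hN c) m := by rw [hρ]; linarith
  have p2 : 32 * pvj0Rho (pvxParOf N hN c) m ≤ pvge3Q c m := by rw [hρ]; linarith
  exact pvhj_A_o n hL hT hf hc eM eK eO (pvge8_O0 N hN nb m) hY p1 h3' hr p1 p2 hm' hmM mesh hTK hTM hG hLn hDr (pvge8_H N hN nb q₀ m z t) hU hF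

/-- **THE STATEMENT OF `exit_pvj0_link`** (`Exit/FrcO`), VERBATIM, NO LEAF -/
theorem pvge8_link_o (c0 : 0 < c) (N : PvxNums) (hN : N.Ok) (nb : PvnaNb N) (q₀ : ℝ) {m : ℕ} (hm : (pvxParOf N hN c).m0 ≤ m) (z : ℂ) (t : pvxTau N) :
    ∀ᶠ ε in 𝓝[>] (0 : ℝ), ∀ η₀ ∈ pvilUo (pvxParOf N hN c).num ((pvxParOf N hN c).col t) (pvilPin (pvxParOf N hN c) m z t), η₀ ∈ pvj0Mc (pvxParOf N hN c) m z t → CfOK η₀ →
      ∀ η, PvjeFin (pvjeO (pvxParOf N hN c) (pvnaEngRec N hN c nb) pvilQ m ε z t) (pvj0T (pvxParOf N hN c) (pvnaEngRec N hN c nb) q₀ nb.b m z t) η₀ η →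
        η ∈ (pvilLo (pvxParOf N hN c) (pvnaEngRec N hN c nb) m z t).A (pvxParOf N hN c).num ((pvxParOf N hN c).col t) :=
  Eventually.of_forall fun ε _ hU hMc _ _ hF => (pvge8_A_o c0 N hN nb q₀ hm z t ε hU hMc hF).1

end rec

end Claimed.Agent.R289
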