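-- KEEP
import Claimed.Agent.R289.Exit.GoodFU

/-!
# Row 289 (S0537), THE WALL, ROAD E, E10 = LINK BOUND, file Exit/GoodFD : THE DATA OF RECORD OF THE ROUTES OF THE THICK RETURN `f`, FOR THE RECORDS OF DET (`PvvaLay` of 281, `Pvj8Lay` / `Pvj8LayD` of 284)      (helper296; prefix `pvyr_`, continuation of `Exit/GoodFM`, `Exit/GoodFU`)

`β` = RELATIVE colour (`true` = colour of the strand), side of the exit mouth `up := β`;   the pattern is `pvyrPatG 𝔓 tb c₀ m z t true cl` (`cl` = absolute colour of the strand);   frame `Y = z + pvegYp`, `u = I ^ pvxrA`.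
* DATA: `pvyrA 𝔓 m β` (radius of the arm), `pvyrEC`, `pvyrEN` (the two legs of the arm of 298, FROM THE TIP), `pvyrTT` (the four mid legs), `pvyrED` (the bar in front of the plug);
* **`pvyr_mem`** : `(β == cl, EC β :: EN β :: TT β) ∈ pvyrPatG ..`,   **`pvyr_hpat`** : the pattern event gives the two route events,   **`pvyr_d_route`** (field `route`),   **`pvyr_d_leg`** (field `leg`),   `pvyr_d_sub`;
* `pvyr_rec_mid` (model free: where `EN :: TT` is), `pvyr_d_body` : `EN :: TT` lies in the body of `f` (funnel, blocks, west half of the block of `u`), off the open square `(1/2 - c₀) Δ` of the plug;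
* **`pvyr_d_fresh`** : the `s`-ball (`s ≤ δ / 2`) of a point of `EN :: TT` lies in `(z + fM ∪ z + fK') \ pvwSq z Rad` (`fK' = pvnuFK` of 84, after (U4); `c₀ ≤ 21/64`);   **`pvyr_d_mid`** = field `mid`, both halves (`μ ≤ δ / 8`).
-/

set_option autoImplicit false
set_option linter.unusedSectionVars false
set_option linter.unusedVariables false
set_option linter.unusedSimpArgs false

namespace Claimed.Agent.R289

open Set Metric Complex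

/-! ## 1. model free: where the arm of the lane and the mid legs are -/

section recmid

variable {Y u : ℂ} {sd : Bool} {z d : ℂ} {l : List PvtTurn} {r Δ ρ b μ Sc lam tb c₀ a : ℝ}

theorem pvyr_rec_mid (G : PvyrGeo Y u sd z d l Δ (Sc - Δ / 2) lam c₀ (3 * r / 16)) (R : PvyrRec r Δ ρ b μ Sc lam) (h1 : 1 / 128 + tb ≤ c₀) (h3 : 1 / 128 ≤ tb) (ha1 : 27 * r / 200 ≤ a) (ha2 : a ≤ 4 * r / 25) :
    pvge2RN Y u sd a (r / 200) (23 * r / 200) (3 * r / 20) ∪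
      pvkqRtR (pvyrMid Y u sd a (r / 200) (3 * r / 20) (Sc - Δ / 2 - Δ * (1 / 2)) (Δ / 100) (lam + Δ * (21 / 256)) (19 / 256) (23 / 256) (21 / 256) tb (1 / 128) (1 / 100) c₀ (51 / 100) z d l) ⊆
      pvge2R Y u sd (11 * r / 100) (Sc - Δ / 2) (-(33 * r / 200)) (33 * r / 200) ∪
        (pvfeLanes (-(23 / 256)) (23 / 256) z d l ∪ pvccPl (pvccZ z d l l.length) (pvccD d l l.length) (pvljRect 0 c₀ (-(23 / 256)) (23 / 256))) := by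
  have g1 := R.r0; have g2 := R.Δ0; have g3 := R.Δhi; have g4 := R.Δlo; have g8 := R.s_lo; have g9 := abs_le.1 R.lat
  have lo : ∀ (g : ℝ), 0 ≤ g → -(23 / 256) ≤ pvmvLo sd g (23 / 256) := fun g hg => by cases sd <;> simp only [pvmvLo, if_true, Bool.false_eq_true, if_false] <;> linarith
  have hi : ∀ (g : ℝ), 0 ≤ g → pvmvHi sd g (23 / 256) ≤ 23 / 256 := fun g hg => by cases sd <;> simp only [pvmvHi, if_true, Bool.false_eq_true, if_false] <;> linarith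
  rw [pvyr_mid_R]
  rintro v (hv | (((hv | hv) | ((hv | hv) | hv)) | hv))
  · exact Or.inl (pvge2_R_mono (by linarith) (by linarith) (by linarith) (by linarith) hv)
  · exact Or.inl (pvge2_R_mono (by linarith) (by linarith) (by linarith) (by linarith) hv)
  · exact Or.inl (pvge2_R_mono (by linarith) (by linarith) (by linarith [g9.1]) (by linarith) hv)
  · obtain ⟨q1, q2, q3, q4⟩ := G.cap hv
    exact Or.inl ⟨by linarith, by linarith, by linarith [g9.1], by linarith [g9.2]⟩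
  · exact Or.inr (Or.inl (pvlj_lanes_mono (lo _ (by norm_num)) (hi _ (by norm_num)) _ _ _ hv))
  · exact Or.inr (Or.inr (pvccPl_mono _ _ (pvlj_rect_mono le_rfl le_rfl (lo _ (by norm_num)) (hi _ (by norm_num))) hv))
  · exact Or.inr (Or.inr (pvccPl_mono _ _ (pvlj_rect_mono (by linarith) (by linarith) (lo _ (by norm_num)) (hi _ (by norm_num))) hv))

end recmid

/-! ## 2. the data of record -/

section data

variable {τ : Type} {c : ℝ} (𝔓 : PvxPar τ c)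

/-- radius of the arm of the relative colour `β`: inner arm for the colour of the strand -/
noncomputable def pvyrA (m : ℕ) (β : Bool) : ℝ := cond β (27 * pvegR 𝔓 m / 200) (4 * pvegR 𝔓 m / 25)

/-- the far arm (`C` shape round the tip cell) -/
noncomputable def pvyrEC (m : ℕ) (z : ℂ) (t : τ) (β : Bool) : Set ℂ × ℂ × ℂ :=
  (pvge2RC (z + pvegYp 𝔓 m t) (I ^ pvxrA 𝔓 t) β (pvyrA 𝔓 m β) (pvegR 𝔓 m / 200) (23 * pvegR 𝔓 m / 200) (23 * pvegR 𝔓 m / 200),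
    pvge2P (z + pvegYp 𝔓 m t) (I ^ pvxrA 𝔓 t) β (23 * pvegR 𝔓 m / 200) (-pvyrA 𝔓 m β), pvge2P (z + pvegYp 𝔓 m t) (I ^ pvxrA 𝔓 t) β (23 * pvegR 𝔓 m / 200) (pvyrA 𝔓 m β))

/-- the arm of the lane -/
noncomputable def pvyrEN (m : ℕ) (z : ℂ) (t : τ) (β : Bool) : Set ℂ × ℂ × ℂ :=
  (pvge2RN (z + pvegYp 𝔓 m t) (I ^ pvxrA 𝔓 t) β (pvyrA 𝔓 m β) (pvegR 𝔓 m / 200) (23 * pvegR 𝔓 m / 200) (3 * pvegR 𝔓 m / 20),
    pvge2P (z + pvegYp 𝔓 m t) (I ^ pvxrA 𝔓 t) β (23 * pvegR 𝔓 m / 200) (pvyrA 𝔓 m β), pvge2P (z + pvegYp 𝔓 m t) (I ^ pvxrA 𝔓 t) β (3 * pvegR 𝔓 m / 20) (pvyrA 𝔓 m β))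

/-- the four mid legs: lane and bar of the mouth, corridor leg, bar in front of the plug -/
noncomputable def pvyrTT (tb c₀ : ℝ) (m : ℕ) (z : ℂ) (t : τ) (β : Bool) : List (Set ℂ × ℂ × ℂ) :=
  pvyrMid (z + pvegYp 𝔓 m t) (I ^ pvxrA 𝔓 t) β (pvyrA 𝔓 m β) (pvegR 𝔓 m / 200) (3 * pvegR 𝔓 m / 20) (pvyrSc 𝔓 m t - pvehDl 𝔓 m / 2 - pvehDl 𝔓 m * (1 / 2)) (pvehDl 𝔓 m / 100)
    (pvyrLam 𝔓 m t β + pvehDl 𝔓 m * (21 / 256)) (19 / 256) (23 / 256) (21 / 256) tb (1 / 128) (1 / 100) c₀ (51 / 100) (z + pvefZ 𝔓 m t) (pvefD 𝔓 m t) (pvefW 𝔓 m t)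

/-- the bar in front of the plug -/
noncomputable def pvyrED (tb : ℝ) (m : ℕ) (z : ℂ) (t : τ) (β : Bool) : Set ℂ × ℂ × ℂ :=
  (pvyrBar β (23 / 256) tb (1 / 128) (1 / 100) (z + pvefZ 𝔓 m t) (pvefD 𝔓 m t) (pvefW 𝔓 m t),
    pvljPt (z + pvefZ 𝔓 m t) (pvefD 𝔓 m t) (pvefW 𝔓 m t) (pvefW 𝔓 m t).length tb (pvge2Sg β * (21 / 256)), pvljPt (z + pvefZ 𝔓 m t) (pvefD 𝔓 m t) (pvefW 𝔓 m t) (pvefW 𝔓 m t).length tb (pvge2Sg β * (1 / 100)))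

theorem pvyr_eqns_cite8 : True := by
  have := @pvyrA.eq_1; have := @pvyrEC.eq_1; have := @pvyrEN.eq_1; have := @pvyrTT.eq_1; have := @pvyrED.eq_1
  trivial

variable {𝔓} {m : ℕ} {t : τ} {tb c₀ : ℝ}

theorem pvyr_lam_false (𝔓 : PvxPar τ c) (m : ℕ) (t : τ) : pvyrLam 𝔓 m t false = -pvyrLam 𝔓 m t true := pvge2_T_flip _ _ true _

theorem pvyr_A_bounds (hr : 0 < pvegR 𝔓 m) (β : Bool) : 27 * pvegR 𝔓 m / 200 ≤ pvyrA 𝔓 m β ∧ pvyrA 𝔓 m β ≤ 4 * pvegR 𝔓 m / 25 := by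
  cases β
  · exact ⟨by show _ ≤ 4 * pvegR 𝔓 m / 25; linarith, le_rfl⟩
  · exact ⟨le_rfl, by show 27 * pvegR 𝔓 m / 200 ≤ _; linarith⟩

/-- **(mem)** the routes of record are the routes of the pattern, colours RELATIVE to `cl` -/
theorem pvyr_mem (𝔓 : PvxPar τ c) (tb c₀ : ℝ) (m : ℕ) (z : ℂ) (t : τ) (cl β : Bool) :
    (β == cl, pvyrEC 𝔓 m z t β :: pvyrEN 𝔓 m z t β :: pvyrTT 𝔓 tb c₀ m z t β) ∈ pvyrPatG 𝔓 tb c₀ m z t true cl := by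
  cases β
  · refine List.mem_cons_of_mem _ ?_
    have e : (false == cl) = !cl := by cases cl <;> rfl
    rw [e]
    unfold pvyrTT
    rw [pvyr_lam_false]
    exact List.mem_cons_self
  · have e : (true == cl) = cl := by cases cl <;> rfl
    rw [e]
    exact List.mem_cons_self

/-- **(hpat)** the pattern event gives the two route events -/
theorem pvyr_hpat {dl : ℝ} {z : ℂ} {cl : Bool} {ω : Conf PvPt} (hω : ω ∈ pvkqPat dl (pvyrPatG 𝔓 tb c₀ m z t true cl)) (β : Bool) :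
    ω ∈ pvkqRtEv dl (β == cl) (pvyrEC 𝔓 m z t β :: pvyrEN 𝔓 m z t β :: pvyrTT 𝔓 tb c₀ m z t β) := by
  have h1 : ∀ x ∈ pvyrPatG 𝔓 tb c₀ m z t true cl, ω ∈ pvkqRtEv dl x.1 x.2 := hω
  exact h1 (β == cl, pvyrEC 𝔓 m z t β :: pvyrEN 𝔓 m z t β :: pvyrTT 𝔓 tb c₀ m z t β) (pvyr_mem 𝔓 tb c₀ m z t cl β)

/-- the region of a route lies in the window of the pattern -/
theorem pvyr_d_sub (𝔓 : PvxPar τ c) (tb c₀ : ℝ) (m : ℕ) (z : ℂ) (t : τ) (cl β : Bool) :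
    pvkqRtR (pvyrEC 𝔓 m z t β :: pvyrEN 𝔓 m z t β :: pvyrTT 𝔓 tb c₀ m z t β) ⊆ pvkqPatR (pvyrPatG 𝔓 tb c₀ m z t true cl) :=
  fun v hv => mem_iUnion₂.2 ⟨_, pvyr_mem 𝔓 tb c₀ m z t cl β, hv⟩

theorem pvyr_d_sub' (𝔓 : PvxPar τ c) (tb c₀ : ℝ) (m : ℕ) (z : ℂ) (t : τ) (cl β : Bool) :
    pvkqRtR (pvyrEN 𝔓 m z t β :: pvyrTT 𝔓 tb c₀ m z t β) ⊆ pvkqPatR (pvyrPatG 𝔓 tb c₀ m z t true cl) := by
  refine Subset.trans (fun v hv => ?_) (pvyr_d_sub 𝔓 tb c₀ m z t cl β)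
  obtain ⟨e, he, hv⟩ := mem_iUnion₂.1 hv
  exact mem_iUnion₂.2 ⟨e, List.mem_cons_of_mem _ he, hv⟩

/-- **(route)** -/
theorem pvyr_d_route (h : PvefNdg 𝔓 m t) (h1 : 1 / 128 + tb ≤ c₀) (h2 : c₀ ≤ 1) (h3 : 1 / 128 ≤ tb) (z : ℂ) (β : Bool) :
    PvkqRoute (pvehDl 𝔓 m / 512) (pvyrEC 𝔓 m z t β :: pvyrEN 𝔓 m z t β :: pvyrTT 𝔓 tb c₀ m z t β) :=
  (pvyr_fit_g h h1 h2 h3 le_rfl z true true).route _ (pvyr_mem 𝔓 tb c₀ m z t true β)

/-- **(leg)** -/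
theorem pvyr_d_leg (𝔓 : PvxPar τ c) (tb c₀ : ℝ) (m : ℕ) (z : ℂ) (t : τ) (β : Bool) : pvyrED 𝔓 tb m z t β ∈ pvyrEN 𝔓 m z t β :: pvyrTT 𝔓 tb c₀ m z t β := by
  simp [pvyrTT, pvyrMid, pvyrED]

end data

/-! ## 3. the arm of the lane and the mid legs: in the body of `f`, fresh, deep in the room -/

section fresh

variable {τ : Type} {c : ℝ} {𝔓 : PvxPar τ c} {m : ℕ} {t : τ} {tb c₀ : ℝ}

/-- a rectangle of the mouth in front of `11 r / 100` lies in the funnel -/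
theorem pvyr_R_F (h : PvefNdg 𝔓 m t) (z : ℂ) (sd : Bool) {w : ℂ}
    (hw : w ∈ pvge2R (z + pvegYp 𝔓 m t) (I ^ pvxrA 𝔓 t) sd (11 * pvegR 𝔓 m / 100) (pvyrSc 𝔓 m t - pvehDl 𝔓 m / 2) (-(33 * pvegR 𝔓 m / 200)) (33 * pvegR 𝔓 m / 200)) : w - z ∈ pvefF 𝔓 m t := by
  have hf := pvmv_fine h
  have hr := pvmv_R_pos h
  have hd := pvlm_Del_pos c m
  obtain ⟨d1, d2⟩ := pvmv_Dl_bounds h
  obtain ⟨f1, f2, f3⟩ := pvef_C0_frame h
  have f3' := abs_le.1 f3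
  obtain ⟨q1, q2, q3, q4⟩ := hw
  rw [pvmv_S_sh] at q1 q2
  rw [pvmv_T_sh] at q3 q4
  have lv : |pvegL (pvegYp 𝔓 m t) (I ^ pvxrA 𝔓 t) (w - z)| ≤ 33 * pvegR 𝔓 m / 200 := by
    have : |pvge2T (pvegYp 𝔓 m t) (I ^ pvxrA 𝔓 t) sd (w - z)| = |pvegL (pvegYp 𝔓 m t) (I ^ pvxrA 𝔓 t) (w - z)| := by
      unfold pvge2T pvegL
      rw [abs_mul, pvge2_sg_abs, one_mul]
    rw [← this, abs_le]
    exact ⟨q3, q4⟩
  have lv' := abs_le.1 lv
  refine ⟨?_, ?_, ?_⟩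
  · show pvegR 𝔓 m / 10 + 2 * pvlmDel c m ≤ pvge2S (pvegYp 𝔓 m t) (I ^ pvxrA 𝔓 t) (w - z)
    linarith
  · show pvge2S (pvegYp 𝔓 m t) (I ^ pvxrA 𝔓 t) (w - z) ≤ pvyrSc 𝔓 m t - pvlmDel c m / 4
    linarith
  · rw [abs_le]
    constructor <;> linarith [lv'.1, lv'.2, f3'.1, f3'.2]

/-- the body of `f` is off the own-level box with its collar -/
theorem pvyr_body_box (h : PvefNdg 𝔓 m t) {w : ℂ} (hw : w ∈ pvefBody (pvehDl 𝔓 m) ((pvxrGam 𝔓 m).zu t) (pvefZ 𝔓 m t) (pvefD 𝔓 m t) (pvefW 𝔓 m t) (pvefF 𝔓 m t)) : w ∉ pviwBox 𝔓 m t := by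
  intro hb
  rcases hw with (hw | hw) | hw
  · exact Set.disjoint_left.1 (pvef_F_box h) hw hb
  · exact Set.disjoint_left.1 (pvef_blocks_box h) (Or.inl hw) hb
  · exact Set.disjoint_left.1 (pvef_blocks_box h) (Or.inr hw) hb

/-- **the arm of the lane and the mid legs lie in the body of `f`**, off the open square of half side `(1/2 - c₀) Δ` of the plug -/
theorem pvyr_d_body (h : PvefNdg 𝔓 m t) (h1 : 1 / 128 + tb ≤ c₀) (h2 : c₀ ≤ 2 / 5) (h3 : 1 / 128 ≤ tb) (z : ℂ) (β : Bool) :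
    ∀ w ∈ pvkqRtR (pvyrEN 𝔓 m z t β :: pvyrTT 𝔓 tb c₀ m z t β), w - z ∈ pvefBody (pvehDl 𝔓 m) ((pvxrGam 𝔓 m).zu t) (pvefZ 𝔓 m t) (pvefD 𝔓 m t) (pvefW 𝔓 m t) (pvefF 𝔓 m t) ∧
      (1 / 2 - c₀) * pvehDl 𝔓 m ≤ pvccN (w - z - (pvxrGam 𝔓 m).zu t) := by
  have hr := pvmv_R_pos h
  have hΔ := pveh_Dl_pos (𝔓 := 𝔓) (pvef_n0 h)
  have R := pvyr_rec_f h β (ρ := 0) (b := 0) (μ := 0) le_rfl (by linarith) (by norm_num) (by linarith)
  obtain ⟨a1, a2⟩ := pvyr_A_bounds (𝔓 := 𝔓) (m := m) hr β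
  intro w hw
  have hw' : w ∈ pvge2RN (z + pvegYp 𝔓 m t) (I ^ pvxrA 𝔓 t) β (pvyrA 𝔓 m β) (pvegR 𝔓 m / 200) (23 * pvegR 𝔓 m / 200) (3 * pvegR 𝔓 m / 20) ∪ pvkqRtR (pvyrTT 𝔓 tb c₀ m z t β) := by
    obtain ⟨e, he, hv⟩ := mem_iUnion₂.1 hw
    rcases List.mem_cons.1 he with rfl | he
    · exact Or.inl hv
    · exact Or.inr (mem_iUnion₂.2 ⟨e, he, hv⟩)
  -- off the square, from the body
  have off : w - z ∈ pvefBody (pvehDl 𝔓 m) ((pvxrGam 𝔓 m).zu t) (pvefZ 𝔓 m t) (pvefD 𝔓 m t) (pvefW 𝔓 m t) (pvefF 𝔓 m t) → (w - z ∈ pvefWest (pvehDl 𝔓 m) ((pvxrGam 𝔓 m).zu t) → (1 / 2 - c₀) * pvehDl 𝔓 m ≤ pvccN (w - z - (pvxrGam 𝔓 m).zu t)) →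
      (1 / 2 - c₀) * pvehDl 𝔓 m ≤ pvccN (w - z - (pvxrGam 𝔓 m).zu t) := by
    intro hB hWs
    by_cases hq : w - z ∈ pvccSq ((pvxrGam 𝔓 m).zu t) (pvehDl 𝔓 m / 2)
    · exact hWs (pvyr_body_west h hB hq)
    · have : pvehDl 𝔓 m / 2 ≤ pvccN (w - z - (pvxrGam 𝔓 m).zu t) := not_lt.1 hq
      nlinarith
  rcases pvyr_rec_mid (pvyr_geo_f h z β (by linarith)) R h1 h3 a1 a2 hw' with hv | hv | hv
  · have hF := pvyr_R_F h z β hv
    refine ⟨Or.inl (Or.inl hF), off (Or.inl (Or.inl hF)) fun hWs => ?_⟩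
    exfalso
    have k1 := pvef_e_far h (Or.inl hWs.1)
    have k2 := pvef_F_ball h hF
    rw [mem_closedBall_iff_norm] at k2
    linarith
  · have hB : w - z ∈ pvefBlocks (pvehDl 𝔓 m) (pvefZ 𝔓 m t) (pvefD 𝔓 m t) (pvefW 𝔓 m t) :=
      pvmu_rv_lanes_blocks (pvef_n0 h) t (pvlj_lanes_mono (by norm_num) (by norm_num) _ _ _ (pvmv_lanes_sh hv))
    refine ⟨Or.inl (Or.inr hB), ?_⟩
    rcases pvef_q296_block_u h hB with k | k
    · have := k ((pvxrGam 𝔓 m).zu t) (by rw [pveh_mem_sq]; refine ⟨⟨?_, ?_⟩, ?_, ?_⟩ <;> linarith)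
      nlinarith
    · have h5 : |(w - z - (pvxrGam 𝔓 m).zu t).re| ≤ pvccN (w - z - (pvxrGam 𝔓 m).zu t) := le_max_left _ _
      rw [sub_re] at h5
      have h6 := neg_abs_le ((w - z).re - ((pvxrGam 𝔓 m).zu t).re)
      nlinarith
  · have e : pvccZ (z + pvefZ 𝔓 m t) (pvefD 𝔓 m t) (pvefW 𝔓 m t) (pvefW 𝔓 m t).length = z + pvccZ (pvefZ 𝔓 m t) (pvefD 𝔓 m t) (pvefW 𝔓 m t) (pvefW 𝔓 m t).length := by
      unfold pvccZ
      ring
    rw [e] at hv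
    have hv' := pvmv_pl_sh hv
    have hWs := pvef_cap_west h (pvccPl_mono _ _ (pvlj_rect_mono le_rfl h2 (by norm_num) (by norm_num)) hv')
    refine ⟨Or.inr hWs, ?_⟩
    rw [pvef_last_door h, pvef_last_dir h] at hv'
    obtain ⟨x, ⟨w1, w2, w3, w4⟩, hx⟩ := hv'
    have e1 : (w - z - (pvxrGam 𝔓 m).zu t).re = -(pvehDl 𝔓 m / 2) + pvehDl 𝔓 m * x.re := by
      rw [← hx]
      show ((pvxrGam 𝔓 m).zu t - (pvehDl 𝔓 m : ℂ) / 2 + (pvehDl 𝔓 m : ℂ) * x - (pvxrGam 𝔓 m).zu t).re = _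
      simp [Complex.re_ofReal_mul]
      ring
    have h5 : |(w - z - (pvxrGam 𝔓 m).zu t).re| ≤ pvccN (w - z - (pvxrGam 𝔓 m).zu t) := le_max_left _ _
    rw [e1] at h5
    have h6 := neg_abs_le (-(pvehDl 𝔓 m / 2) + pvehDl 𝔓 m * x.re)
    nlinarith

/-- **(FRESH), after (U4)**: the `s`-ball of a point of the arm of the lane or of a mid leg lies in (mouth `∪` tile `fK' = pvnuFK`), off the own-level box -/
theorem pvyr_d_fresh (h : PvefNdg 𝔓 m t) (hΓ : 𝔓.Γ m = pvxrGam 𝔓 m) (h1 : 1 / 128 + tb ≤ c₀) (h2 : c₀ ≤ 21 / 64) (h3 : 1 / 128 ≤ tb) (z : ℂ) (β : Bool) {s : ℝ} (hs : s ≤ pvlmDel c m / 2) :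
    ∀ w ∈ pvkqRtR (pvyrEN 𝔓 m z t β :: pvyrTT 𝔓 tb c₀ m z t β), closedBall w s ⊆ (pvieSh z (pvegOM 𝔓 m t) ∪ pvieSh z (pvnuFK 𝔓 m t)) \ pvwSq z (pviwRad 𝔓 m t) := by
  have hf := pvmv_fine h
  have hd := pvlm_Del_pos c m
  obtain ⟨d1, d2⟩ := pvmv_Dl_bounds h
  have hΔ := pveh_Dl_pos (𝔓 := 𝔓) (pvef_n0 h)
  intro w hw q hq
  obtain ⟨hB, hN⟩ := pvyr_d_body h h1 (by linarith) h3 z β w hw
  have hq' : ‖q - w‖ ≤ s := mem_closedBall_iff_norm.1 hq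
  have hY := pvyr_mid_g h h1 (by linarith) h3 z true true w (pvyr_d_sub' 𝔓 tb c₀ m z t true β hw) (closedBall_subset_closedBall (by linarith) hq)
  rw [pveh_mem_sh] at hY
  refine ⟨?_, ?_⟩
  · rcases pvef_fY0_sub (pvef_n0 h) t hY with (k | k) | k
    · exact Or.inl (pveh_mem_sh.2 k)
    · exact Or.inr (pveh_mem_sh.2 (Or.inl k))
    · refine Or.inr (pveh_mem_sh.2 (Or.inr ?_))
      have kb := pvef_fY0_back h _ hY k
      rw [hΓ, pveh_mem_sh]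
      refine ⟨⟨pveh_mem_sh.1 k, ?_⟩, ?_⟩
      · rw [pvnu4_RO_sq h.rho0]
        intro hn
        have hn' : pvccN (q - z - (pvxrGam 𝔓 m).zu t - 0) < 13 * pvehDl 𝔓 m / 80 := hn
        rw [sub_zero] at hn'
        have k1 := pvccN_add_le (q - z - (pvxrGam 𝔓 m).zu t) (w - q)
        rw [show q - z - (pvxrGam 𝔓 m).zu t + (w - q) = w - z - (pvxrGam 𝔓 m).zu t by ring] at k1
        have k2 := pvef_q296_N_le (w - q)
        rw [norm_sub_rev] at k2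
        nlinarith
      · show (q - z - (pvxrGam 𝔓 m).zu t).re < 0
        linarith
  · rintro ⟨b1, b2⟩
    refine pvyr_body_box h hB ⟨?_, ?_⟩
    · have k := Complex.abs_re_le_norm (q - w)
      rw [sub_zero]
      have e : (w - z).re = (q - z).re - (q - w).re := by simp
      rw [e]
      have := abs_sub (q - z).re (q - w).re
      linarith
    · have k := Complex.abs_im_le_norm (q - w)
      rw [sub_zero]
      have e : (w - z).im = (q - z).im - (q - w).im := by simp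
      rw [e]
      have := abs_sub (q - z).im (q - w).im
      linarith

/-- **(mid), BOTH HALVES** (field `mid` of `PvvaLay`, `Pvj8Lay`, `Pvj8LayD`), room `fY = pveffY`, fresh part `(z + fM ∪ z + fK') \ own-level box` -/
theorem pvyr_d_mid (h : PvefNdg 𝔓 m t) (hΓ : 𝔓.Γ m = pvxrGam 𝔓 m) (h1 : 1 / 128 + tb ≤ c₀) (h2 : c₀ ≤ 21 / 64) (h3 : 1 / 128 ≤ tb) (z : ℂ) {μ : ℝ} (hμ : μ ≤ pvlmDel c m / 8) (β : Bool) :
    ∀ w ∈ pvkqRtR (pvyrEN 𝔓 m z t β :: pvyrTT 𝔓 tb c₀ m z t β), closedBall w (2 * μ) ⊆ pvieSh z (pveffY 𝔓 m t) ∧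
      closedBall w μ ⊆ (pvieSh z (pvegOM 𝔓 m t) ∪ pvieSh z (pvnuFK 𝔓 m t)) \ pvwSq z (pviwRad 𝔓 m t) := by
  have hf := pvmv_fine h
  have hd := pvlm_Del_pos c m
  obtain ⟨d1, d2⟩ := pvmv_Dl_bounds h
  intro w hw
  refine ⟨pvyr_mid_core h h1 (by linarith) h3 z true true ?_ w (pvyr_d_sub' 𝔓 tb c₀ m z t true β hw), pvyr_d_fresh h hΓ h1 h2 h3 z β (by linarith) w hw⟩
  unfold pvefKa
  linarith

end fresh

end Claimed.Agent.R289
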