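-- KEEP
import Claimed.Agent.R289.Exit.GoodFY
import Claimed.Agent.R289.Exit.GoodFD
import Claimed.Agent.R289.Exit.LayF
import Claimed.Agent.R289.Exit.ParEngH

/-!
# Row 289 (S0537), THE WALL, ROAD E, E10, (b3) DET OF THE THICK RETURN `f`, file Exit/HookTG : THE LAYOUT RECORD OF `f` AT THE REGIONS OF RECORD AFTER (U4), ASSEMBLED      (helper276; prefix `pvoh_`)

ALL THE FIELDS of `Pvj8LayD` of 284 (`Tr/HookFA` sec. 5) and `PvhoTip` of 266 at the pattern of record `pvyrPatU` of 296: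
tip side = `Exit/HookTF` (276), room side = `Exit/GoodFY` (47) + the hole `pvrh_fY0` (39 `Exit/ParEngH`), door side = `Exit/LayF` (215).
REGIONS: mouth `z + pvegOM`, tile `z + pvnuFK` (182 + West half of the ring, 84), plug `zu + pvnuRO` (open square `13 Δ / 80`), room `z + pveffY`, unit of the plug `pvurRu = Δ / 20`: the names of `Exit/EngU4`, `rfl` at the engine of record after L2.
* `pvoh_bC pvoh_bN pvoh_bT pvoh_bD pvoh_bL` : the legs of 276 = the legs of 296 = the last leg of 215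
* `pvoh_rm` : `PvohRm`;   `pvoh_dr` : `PvohDr`;   **`pvoh_lay_u`** : `Pvj8LayD` at the record;   `pvoh_mem_u` : the two routes are the routes of `pvyrPatU`
0 SORRY.
-/

set_option autoImplicit false
set_option linter.unusedSectionVars false
set_option linter.unusedVariables false

namespace Claimed.Agent.R289

open Set Metric Complex

section asm

variable {τ : Type} {c : ℝ} {𝔓 : PvxPar τ c} {m : ℕ} {t : τ}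

/-- the last leg of 215 is the last leg of 276 -/
theorem pvoh_bL (𝔓 : PvxPar τ c) (tb : ℝ) (m : ℕ) (z : ℂ) (t : τ) : pvmuLfD 𝔓 tb m z t = pvohD 𝔓 tb m z t := rfl

/-- **field `mem`**: the two routes are the routes of the pattern -/
theorem pvoh_mem (𝔓 : PvxPar τ c) (tb c₀ : ℝ) (m : ℕ) (z : ℂ) (t : τ) (cl β : Bool) :
    (β == cl, pvohC 𝔓 m z t β :: pvohN 𝔓 m z t β :: pvohT 𝔓 tb c₀ m z t β) ∈ pvyrPatG 𝔓 tb c₀ m z t true cl := by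
  rw [pvoh_pat]
  cases β <;> cases cl <;> simp

theorem pvoh_mem_u (𝔓 : PvxPar τ c) (m : ℕ) (z : ℂ) (t : τ) (cl β : Bool) :
    (β == cl, pvohC 𝔓 m z t β :: pvohN 𝔓 m z t β :: pvohT 𝔓 (51 / 160) (21 / 64) m z t β) ∈ pvyrPatU 𝔓 m z t true cl := pvoh_mem 𝔓 _ _ m z t cl β

/-- the mesh of record against the collar of the rooms of 182 -/
theorem pvoh_mu_le (𝔓 : PvxPar τ c) (m : ℕ) : pvilMu 𝔓 m ≤ pvlmDel c m / 1000 := by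
  have h1 : min (pvlmDel c m) (𝔓.num.rho3 * pvlmH m) ≤ pvlmDel c m := min_le_left _ _
  unfold pvilMu
  linarith

/-- **THE ROOM FIELDS AT THE RECORD** -/
theorem pvoh_rm (h : PvefNdg 𝔓 m t) (hΓ : 𝔓.Γ m = pvxrGam 𝔓 m) (n : PvhoNum 𝔓) (hL : PvegLev 𝔓 m) (hT : pviwTyOk 𝔓 t) (h3 : 0 < 𝔓.num.rho3) (hρ : 0 < 𝔓.num.rho) (z : ℂ) (p' : PvilPl) (Mk : Set ℂ) (d d' : Bool) :
    PvohRm ⟨pvilPin 𝔓 m z t, p', pvieSh z (pveffY 𝔓 m t), Mk, d, d'⟩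
      (pvieSh z (pvegOM 𝔓 m t) ∪ pvieSh z (pvnuFK 𝔓 m t) ∪ pvieSh (pvieZu 𝔓 m z t) (pvnuRO 𝔓 m))
      ((pvieSh z (pvegOM 𝔓 m t) ∪ pvieSh z (pvnuFK 𝔓 m t)) \ pvwSq z (pviwRad 𝔓 m t))
      (pvilMu 𝔓 m) (pvilMu 𝔓 m / 8) (pvegR 𝔓 m / 4) (z + pvegYp 𝔓 m t) (pvohN 𝔓 m z t) (pvohT 𝔓 (51 / 160) (21 / 64) m z t) := by
  obtain ⟨a1, a2, a3⟩ := pvho_mu hL h3
  have hμ := pvoh_mu_le 𝔓 m
  have hKa : pvefKa c m = 3 * pvlmDel c m / 1000 := rfl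
  have eR : pvegR 𝔓 m = 𝔓.num.rho * pvlmH m := rfl
  have hK : pvieSh z (pveffK 𝔓 m t ∪ pvieSh ((pvxrGam 𝔓 m).zu t) (pvnuAW (pvehrO 𝔓 m) (pvnuRO 𝔓 m))) ⊆ pvieSh z (pvnuFK 𝔓 m t) := by
    unfold pvnuFK
    rw [hΓ]
  have hD : pvieSh z (pvieSh ((pvxrGam 𝔓 m).zu t) (pvnuRO 𝔓 m)) ⊆ pvieSh (pvieZu 𝔓 m z t) (pvnuRO 𝔓 m) := by
    rw [pvjh_sh_sh, pvieZu, hΓ]
  have hf := hL.fine
  exact
    { bdd := pvei_bdd h z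
      co := pvei_co (pvrh_fY0 h) z
      collar := pvei_collar h z (by rw [hKa]; linarith) Subset.rfl hK hD
      core := pvei_core n hL hT h z
      mouth := pvei_mouth 𝔓 m t z (by rw [hKa, eR]; linarith)
      mid := pvei_mid h z (σ := 13 / 80) (by norm_num) (by norm_num) (by linarith) hμ (by norm_num) (by norm_num)
        (by rw [pvnu4_RO_sq hρ m]; exact (by rw [show (13 : ℝ) / 80 * pvehDl 𝔓 m = 13 * pvehDl 𝔓 m / 80 by ring])) Subset.rfl hK }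

/-- **THE DOOR FIELDS AT THE RECORD** -/
theorem pvoh_dr (h : PvefNdg 𝔓 m t) (hΓ : 𝔓.Γ m = pvxrGam 𝔓 m) (hμ : 0 < pvilMu 𝔓 m) (z : ℂ) (Mk : Set ℂ)
    {𝔱 : PvhfTr} {a s : ℝ} (hs : 0 < s) (hr : s * a = pvurRu 𝔓 m) (hLn : 𝔱.Ln = (pvhfT a).Ln) (hDr : 𝔱.Dr = (pvhfT a).Dr) :
    PvohDr ⟨pvilPin 𝔓 m z t, pvilPlug (pvurRu 𝔓 m) (pvieZu 𝔓 m z t) 1, pvieSh z (pveffY 𝔓 m t), Mk, false, true⟩ 𝔓.num
      ((pvieSh z (pvegOM 𝔓 m t) ∪ pvieSh z (pvnuFK 𝔓 m t)) \ pvwSq z (pviwRad 𝔓 m t)) (pvilMu 𝔓 m) (pvehDl 𝔓 m / 512) (pvohD 𝔓 (51 / 160) m z t) (-1)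
      (fun β => pvkdAt (pvieZu 𝔓 m z t) (1 * (s : ℂ)) (𝔱.Ln false β)) (fun β => pvkdAt (pvieZu 𝔓 m z t) (1 * (s : ℂ)) (𝔱.Dr false β))
      (pvmuLfXc 𝔓 m z t) (pvmuLfXa 𝔓 (51 / 160) m z t) (pvmuLfXb 𝔓 (51 / 160) m z t) (pvmuLfY0 𝔓 m z t) (pvmuLfY1 𝔓 m z t) := by
  have D := pvmu_lf_door h hΓ hμ (tb := 51 / 160) (by norm_num) (by norm_num) z Mk hs hr hLn hDr
  exact ⟨D.nz, D.door, D.foot, D.tgt, D.room, D.roomF, D.offBox⟩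

/-- **`Pvj8LayD` OF 284 AT THE RECORD AFTER (U4)**: pattern `pvyrPatU`, regions of `Exit/EngU4`, numbers of `pvoh_tip` -/
theorem pvoh_lay_u (h : PvefNdg 𝔓 m t) (hΓ : 𝔓.Γ m = pvxrGam 𝔓 m) (n : PvhoNum 𝔓) (hL : PvegLev 𝔓 m) (hT : pviwTyOk 𝔓 t) (h3 : 0 < 𝔓.num.rho3) (hρ : 0 < 𝔓.num.rho) (z : ℂ) (Mk : Set ℂ)
    {𝔱 : PvhfTr} {a s : ℝ} (hs : 0 < s) (hr : s * a = pvurRu 𝔓 m) (hLn : 𝔱.Ln = (pvhfT a).Ln) (hDr : 𝔱.Dr = (pvhfT a).Dr) :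
    Pvj8LayD ⟨pvilPin 𝔓 m z t, pvilPlug (pvurRu 𝔓 m) (pvieZu 𝔓 m z t) 1, pvieSh z (pveffY 𝔓 m t), Mk, false, true⟩ 𝔓.num
      (pvieSh z (pvegOM 𝔓 m t) ∪ pvieSh z (pvnuFK 𝔓 m t) ∪ pvieSh (pvieZu 𝔓 m z t) (pvnuRO 𝔓 m))
      ((pvieSh z (pvegOM 𝔓 m t) ∪ pvieSh z (pvnuFK 𝔓 m t)) \ pvwSq z (pviwRad 𝔓 m t))
      (pvilMu 𝔓 m) ((starRingEnd ℂ) ((𝔓.Γ m).dout t)) ((𝔓.ty t).cp (pvlmH m) z) (pvegR 𝔓 m / 4) (pvilMu 𝔓 m / 8) (pvegR 𝔓 m / 10 + pvilMu 𝔓 m / 2) (21 * pvegR 𝔓 m / 200) (pvegR 𝔓 m / 1000) (pvehDl 𝔓 m / 512)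
      (pvohC 𝔓 m z t) (pvohN 𝔓 m z t) (pvohD 𝔓 (51 / 160) m z t) (pvohT 𝔓 (51 / 160) (21 / 64) m z t) (pvohSg 𝔓 m z t) (fun _ => 0) (fun _ => 0) (-1)
      (fun β => pvkdAt (pvieZu 𝔓 m z t) (1 * (s : ℂ)) (𝔱.Ln false β)) (fun β => pvkdAt (pvieZu 𝔓 m z t) (1 * (s : ℂ)) (𝔱.Dr false β))
      (pvmuLfXc 𝔓 m z t) (pvmuLfXa 𝔓 (51 / 160) m z t) (pvmuLfXb 𝔓 (51 / 160) m z t) (pvmuLfY0 𝔓 m z t) (pvmuLfY1 𝔓 m z t) := by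
  obtain ⟨b1, b2, b3, b4⟩ := pvoh_tip_lay (𝔓 := 𝔓) (m := m) hL h3
  have hd : (𝔓.Γ m).dout t = I ^ pvxrA 𝔓 t := by rw [hΓ]; rfl
  refine pvoh_layD h hd (by norm_num) (by norm_num) (by norm_num) b1 b2 (by linarith) b3 b4 ?_ (pvoh_rm h hΓ n hL hT h3 hρ z _ Mk false true) (pvoh_dr h hΓ b1 z Mk hs hr hLn hDr)
  refine (pvei_ball 𝔓 m t z ?_).trans fun v hv => Or.inl (Or.inl hv)
  linarith

end asm

end Claimed.Agent.R289
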