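-- KEEP
import Claimed.Agent.R289.Exit.ThickLI
import Claimed.Agent.R289.Exit.EngYc
import Claimed.Agent.R289.Exit.EngYe
import Claimed.Agent.R289.Exit.ParL2
import Claimed.Agent.R289.Tr.HookTM
import Claimed.Agent.R289.Tr.LinkLocE

/-!
# Row 289 (S0537, Cardy for Poisson-Voronoi), THE WALL, ROAD E, field `thick`, (K4) `recog`, file Exit/ThickCR : THE TWO CORE LINES `ce cf` OF `PvuyRg` / `pvuy_cl` (290)      (helper118; prefix `pvvz_`, second file of the prefix after `Exit/EngYc`)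

`ce` : tube and exit room of the reference plug, room of the thick link `⊆ pvtrCore (3 μ₀) (pvuyWe ..)`;      `cf` : room of the thick return, entrance room of the reference plug `⊆ pvtrCore (3 μ₀) (pvuyWf ..)`.
* sec. 1  `pvvz_tube` (the placed tube `Tb` of `pvkdP r` has its `s`-collar, `s ≤ r`, in the placed window `pvwSq 0 (3 r)`), `pvvz_Zp_Tb pvvz_Zm_Tb`, `pvvz_sh_core`, `pvvz_sh_Ro`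
* sec. 2  **`pvvz_ce`, `pvvz_cf`** : ANY engine, ANY return, every centre, from (Rc) in the relative form of 22 + `rp_win` + `3 μ₀ ≤ r_u`
* sec. 3  **`pvvz_ce_eng`, `pvvz_cf_eng`** : at `pvvzEng 𝔓 𝔈` (open cores of the rooms) from `PvieEng.Wf 𝔓 𝔈`;   single field form `pvvz_ce_co`, `pvvz_cf_co` (rooms `= pvvzCo (3 μ₀) (old room)`, old room `⊆ M ∪ K ∪ Ro`)
* sec. 4  **THE ROOM FIELDS OF `PvhuLayD` (66, `Tr/HookTM`) AT THE THICK LINK, ROOM `pvvzEY`** (engine v3), IN THE WORDS OF THE FIELDS, ANY engine `𝔈` whose fields contain / lie in the regions of record: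
  `pvvz_lay_bdd _co _collar` (after U4) `_mouth` (any radius `a + Δ/100 ≤ 5R/16`) `_room` (any `S ⊆ [r/2, 5r] × [-3r/2, 3r/2]`, unit `s r ∈ [3Δ/64, 59Δ/960]`; `pvvz_hfT_Ln`) `_pt` `_gm` `_offBox` `_offTip` (`pvvz_lay_off` : both from `PvhuTipD`)
-/

set_option autoImplicit false
set_option linter.unusedSectionVars false
set_option linter.unusedVariables false

namespace Claimed.Agent.R289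

open Set Metric

/-! ## 1. tools -/

theorem pvvz_Zp_Tb {r : ℝ} (hr : 0 ≤ r) : (pvkdP r).Zp ⊆ (pvkdP r).Tb := by
  rintro w ⟨h1, h2, h3, h4⟩
  exact ⟨by linarith, h2, h3, h4⟩

theorem pvvz_Zm_Tb {r : ℝ} (hr : 0 ≤ r) : (pvkdP r).Zm ⊆ (pvkdP r).Tb := by
  rintro w ⟨h1, h2, h3, h4⟩
  exact ⟨h1, by linarith, h3, h4⟩

/-- the placed tube of the plug of record has its collar in the placed window -/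
theorem pvvz_tube {r s : ℝ} (hr : 0 ≤ r) (hs : s ≤ r) {O : Set ℂ} (hwin : pvwSq 0 (3 * r) ⊆ O) (u : ℂ) : pvkdAt u 1 (pvkdP r).Tb ⊆ pvtrCore s (pvieSh u O) := by
  rintro _ ⟨w, ⟨h1, h2, h3, h4⟩, rfl⟩ y hy
  rw [mem_closedBall, dist_eq_norm] at hy
  have e : y - u = w + (y - pvthSim u 1 w) := by
    unfold pvthSim
    ring
  have hre := (Complex.abs_re_le_norm (y - pvthSim u 1 w)).trans hy
  have him := (Complex.abs_im_le_norm (y - pvthSim u 1 w)).trans hy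
  rw [abs_le] at hre him
  refine ⟨y - u, hwin ⟨?_, ?_⟩, by ring⟩
  · rw [sub_zero, e, Complex.add_re, abs_le]
    constructor <;> linarith
  · rw [sub_zero, e, Complex.add_im, abs_le]
    constructor <;> linarith

theorem pvvz_sh_core {r : ℝ} {Y W : Set ℂ} (h : ∀ v ∈ Y, closedBall v r ⊆ W) (z : ℂ) : pvieSh z Y ⊆ pvtrCore r (pvieSh z W) := by
  rintro _ ⟨v, hv, rfl⟩ y hy
  refine ⟨y - z, h v hv ?_, by ring⟩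
  rw [mem_closedBall, dist_eq_norm] at hy ⊢
  have e : y - z - v = y - (z + v) := by ring
  rw [e]
  exact hy

section model

variable {τ : Type} {c : ℝ} {𝔓 : PvxPar τ c} {𝔈 : PvieEng τ} {𝔯 : PvjtRet τ} {m : ℕ} {t : τ}

theorem pvvz_sh_Ro (𝔓 : PvxPar τ c) (𝔈 : PvieEng τ) (m : ℕ) (t : τ) (z : ℂ) : pvieSh z (pviwRo 𝔓 𝔈 m t) = pvieSh (pvieZu 𝔓 m z t) (𝔈.rO m) := by
  unfold pviwRo pvieSh pvieZu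
  rw [image_image]
  exact image_congr fun a _ => by ring

/-! ## 2. `ce cf`, any engine -/

/-- **`ce`** -/
theorem pvvz_ce (hrc : ∀ v ∈ 𝔈.eY m t, closedBall v (3 * pvilMu 𝔓 m) ⊆ 𝔈.eM m t ∪ 𝔈.eK m t ∪ pviwRo 𝔓 𝔈 m t) (hwin : pvwSq 0 (3 * pvilRu 𝔈 m) ⊆ 𝔈.rO m) (hu : 0 ≤ pvilRu 𝔈 m)
    (hμ : 3 * pvilMu 𝔓 m ≤ pvilRu 𝔈 m) (z : ℂ) :
    pvuyTb (pvilLe 𝔓 𝔈 m z t) ∪ (pvuyZp (pvilLe 𝔓 𝔈 m z t) ∪ pvieSh z (𝔈.eY m t)) ⊆ pvtrCore (3 * pvilMu 𝔓 m) (pvuyWe 𝔓 𝔈 m z t) := by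
  have hT : pvkdAt (pvieZu 𝔓 m z t) 1 (pvkdP (pvilRu 𝔈 m)).Tb ⊆ pvtrCore (3 * pvilMu 𝔓 m) (pvuyWe 𝔓 𝔈 m z t) :=
    (pvvz_tube hu hμ hwin _).trans (pvtr_core_mono subset_union_right)
  refine union_subset hT (union_subset ((image_mono (pvvz_Zp_Tb hu)).trans hT) ?_)
  refine (pvvz_sh_core hrc z).trans (pvtr_core_mono ?_)
  unfold pvuyWe
  rw [← pvvz_sh_Ro]
  unfold pvieSh
  rw [image_union, image_union]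

/-- **`cf`** -/
theorem pvvz_cf (hrc : ∀ v ∈ 𝔯.fY m t, closedBall v (3 * pvilMu 𝔓 m) ⊆ 𝔯.fM m t ∪ 𝔯.fK m t ∪ pviwRo 𝔓 𝔈 m t) (hwin : pvwSq 0 (3 * pvilRu 𝔈 m) ⊆ 𝔈.rO m) (hu : 0 ≤ pvilRu 𝔈 m)
    (hμ : 3 * pvilMu 𝔓 m ≤ pvilRu 𝔈 m) (z : ℂ) :
    pvieSh z (𝔯.fY m t) ∪ pvuyZm (pvilLe 𝔓 𝔈 m z t) ⊆ pvtrCore (3 * pvilMu 𝔓 m) (pvuyWf 𝔓 𝔈 𝔯 m t z) := by
  have hT : pvkdAt (pvieZu 𝔓 m z t) 1 (pvkdP (pvilRu 𝔈 m)).Tb ⊆ pvtrCore (3 * pvilMu 𝔓 m) (pvuyWf 𝔓 𝔈 𝔯 m t z) :=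
    (pvvz_tube hu hμ hwin _).trans (pvtr_core_mono subset_union_right)
  refine union_subset ?_ ((image_mono (pvvz_Zm_Tb hu)).trans hT)
  refine (pvvz_sh_core hrc z).trans (pvtr_core_mono ?_)
  unfold pvuyWf
  rw [← pvvz_sh_Ro]
  unfold pvieSh
  rw [image_union, image_union]

/-! ## 3. at the open cores of the rooms -/

/-- `ce`, single field form: the room of the thick link is the open core of a region `Y ⊆ M ∪ K ∪ Ro` -/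
theorem pvvz_ce_co {Y : Set ℂ} (hY : 𝔈.eY m t = pvvzCo (3 * pviwMu 𝔓 m) Y) (hs : Y ⊆ 𝔈.eM m t ∪ 𝔈.eK m t ∪ pviwRo 𝔓 𝔈 m t) (hwin : pvwSq 0 (3 * pvilRu 𝔈 m) ⊆ 𝔈.rO m) (hu : 0 ≤ pvilRu 𝔈 m)
    (hμ : 3 * pvilMu 𝔓 m ≤ pvilRu 𝔈 m) (z : ℂ) :
    pvuyTb (pvilLe 𝔓 𝔈 m z t) ∪ (pvuyZp (pvilLe 𝔓 𝔈 m z t) ∪ pvieSh z (𝔈.eY m t)) ⊆ pvtrCore (3 * pvilMu 𝔓 m) (pvuyWe 𝔓 𝔈 m z t) :=
  pvvz_ce (by rw [hY]; exact pvvz_collar hs) hwin hu hμ z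

/-- `cf`, single field form -/
theorem pvvz_cf_co {Y : Set ℂ} (hY : 𝔯.fY m t = pvvzCo (3 * pviwMu 𝔓 m) Y) (hs : Y ⊆ 𝔯.fM m t ∪ 𝔯.fK m t ∪ pviwRo 𝔓 𝔈 m t) (hwin : pvwSq 0 (3 * pvilRu 𝔈 m) ⊆ 𝔈.rO m) (hu : 0 ≤ pvilRu 𝔈 m)
    (hμ : 3 * pvilMu 𝔓 m ≤ pvilRu 𝔈 m) (z : ℂ) :
    pvieSh z (𝔯.fY m t) ∪ pvuyZm (pvilLe 𝔓 𝔈 m z t) ⊆ pvtrCore (3 * pvilMu 𝔓 m) (pvuyWf 𝔓 𝔈 𝔯 m t z) :=
  pvvz_cf (by rw [hY]; exact pvvz_collar hs) hwin hu hμ z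

variable {m0 : ℕ} {Cth : ℝ} {r κs : ℕ → ℝ}

/-- **`ce` AT THE ENGINE WITH THE CORES OF THE ROOMS** -/
theorem pvvz_ce_eng (H : PvieEng.Wf 𝔓 𝔈 m0 Cth r κs) (hm : m0 ≤ m) (ht : pviwTyOk 𝔓 t) (hμ : 3 * pvilMu 𝔓 m ≤ pvilRu 𝔈 m) (z : ℂ) :
    pvuyTb (pvilLe 𝔓 (pvvzEng 𝔓 𝔈) m z t) ∪ (pvuyZp (pvilLe 𝔓 (pvvzEng 𝔓 𝔈) m z t) ∪ pvieSh z ((pvvzEng 𝔓 𝔈).eY m t)) ⊆ pvtrCore (3 * pvilMu 𝔓 m) (pvuyWe 𝔓 (pvvzEng 𝔓 𝔈) m z t) :=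
  pvvz_ce (pvvz_rc_e H hm ht) (H.rp_win m hm) (H.rp_h m hm).le hμ z

/-- **`cf` AT THE ENGINE WITH THE CORES OF THE ROOMS**, return of record, any mask -/
theorem pvvz_cf_eng (H : PvieEng.Wf 𝔓 𝔈 m0 Cth r κs) (hm : m0 ≤ m) (ht : pviwTyOk 𝔓 t) (hμ : 3 * pvilMu 𝔓 m ≤ pvilRu 𝔈 m) (Mk : ℕ → τ → Set ℂ) (z : ℂ) :
    pvieSh z ((pvjtRetE (pvvzEng 𝔓 𝔈) Mk).fY m t) ∪ pvuyZm (pvilLe 𝔓 (pvvzEng 𝔓 𝔈) m z t) ⊆ pvtrCore (3 * pvilMu 𝔓 m) (pvuyWf 𝔓 (pvvzEng 𝔓 𝔈) (pvjtRetE (pvvzEng 𝔓 𝔈) Mk) m t z) :=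
  pvvz_cf (𝔯 := pvjtRetE (pvvzEng 𝔓 𝔈) Mk) (pvvz_rc_f H hm ht) (H.rp_win m hm) (H.rp_h m hm).le hμ z

end model

/-! ## 4. the room fields of `PvhuLayD` at the thick link -/

section fields

open Complex ComplexConjugate

variable {τ : Type} {c : ℝ} {𝔓 : PvxPar τ c} {𝔈 : PvieEng τ} {m : ℕ} {t : τ}

theorem pvvz_Dl_pos (h : PvxrNdg 𝔓 m t) : 0 < pvehDl 𝔓 m ∧ pviwMu 𝔓 m ≤ pvehDl 𝔓 m / 1000 := by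
  obtain ⟨D1, D2, D3⟩ := pvef_Dl_bounds h
  have hd := pvlm_Del_pos c m
  have h1 : pviwMu 𝔓 m ≤ pvlmDel c m / 1000 := by
    unfold pviwMu
    exact div_le_div_of_nonneg_right (min_le_left _ _) (by norm_num)
  constructor <;> linarith

/-- **field `mouth` of `PvhuLayD` at the thick link** -/
theorem pvvz_lay_mouth (hΓ : 𝔓.Γ m = pvxrGam 𝔓 m) (hL : PvegLev 𝔓 m) (hT : pviwTyOk 𝔓 t) (h : PvxrNdg 𝔓 m t) (hY : pvvzEY 𝔓 m t ⊆ 𝔈.eY m t) (z : ℂ) {a : ℝ}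
    (ha : a + pvehDl 𝔓 m / 100 ≤ 5 * pvegR 𝔓 m / 16) : closedBall ((𝔓.ty t).cm (pvlmH m) z) a ⊆ (pvilLe 𝔓 𝔈 m z t).Yin := by
  obtain ⟨hΔ, hμ⟩ := pvvz_Dl_pos h
  intro w hw
  have h1 : w - z ∈ pvvzIe 𝔓 (1 / 100) m t := by
    refine pvvz_Ie_ball (ρ' := a) (by linarith) t ?_
    rw [mem_closedBall, dist_eq_norm] at hw ⊢
    rwa [show w - z - pvegYm 𝔓 m t = w - (𝔓.ty t).cm (pvlmH m) z by unfold PvwTy.cm pvegYm; ring]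
  have h2 := pvvz_Ie_eY_sh hΓ hL hT h (s := 1 / 100) (r := 0) (by norm_num) (by norm_num) (by linarith) z h1 (mem_closedBall_self le_rfl)
  exact Set.image_mono hY h2

/-- a point of the first piece of the room, in the coordinates of the reference plug -/
theorem pvvz_lay_pt (hΓ : 𝔓.Γ m = pvxrGam 𝔓 m) (hL : PvegLev 𝔓 m) (hT : pviwTyOk 𝔓 t) (h : PvxrNdg 𝔓 m t) (hY : pvvzEY 𝔓 m t ⊆ 𝔈.eY m t) (z : ℂ) {w : ℂ} {r : ℝ} (hr : r ≤ pvehDl 𝔓 m / 250)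
    (h0 : 3 * pvehDl 𝔓 m / 128 ≤ (w - pvieZu 𝔓 m z t).re) (h1 : (w - pvieZu 𝔓 m z t).re ≤ pvehDl 𝔓 m / 2)
    (h2 : -(59 * pvehDl 𝔓 m / 640) ≤ (w - pvieZu 𝔓 m z t).im) (h3 : (w - pvieZu 𝔓 m z t).im ≤ 251 * pvehDl 𝔓 m / 640) :
    closedBall w r ⊆ (pvilLe 𝔓 𝔈 m z t).Yin := by
  obtain ⟨hΔ, hμ⟩ := pvvz_Dl_pos h
  have e : w - z - (pvxrGam 𝔓 m).zu t = w - pvieZu 𝔓 m z t := by unfold pvieZu; rw [hΓ]; ring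
  have h4 : w - z ∈ pvvzIe 𝔓 (1 / 128) m t := pvvz_Ie_plug hΔ (by rw [e]; linarith) (by rw [e]; linarith) (by rw [e]; linarith) (by rw [e]; linarith)
  exact (pvvz_Ie_eY_sh hΓ hL hT h (s := 1 / 128) (r := r) (by norm_num) (by norm_num) (by linarith) z h4).trans (Set.image_mono hY)

theorem pvvz_hfT_Ln {r : ℝ} (hr : 0 ≤ r) (β : Bool) : (pvhfT r).Ln true β ⊆ rswRect (r / 2) (5 * r) (-(3 * r / 2)) (3 * r / 2) := by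
  intro w hw
  cases β
  · rcases hw with ⟨a1, a2, a3, a4⟩ | ⟨a1, a2, a3, a4⟩
    · exact ⟨a1, by linarith, a3, by linarith⟩
    · exact ⟨by linarith, a2, a3, by linarith⟩
  · rcases hw with ⟨a1, a2, a3, a4⟩ | ⟨a1, a2, a3, a4⟩
    · exact ⟨a1, by linarith, by linarith, a4⟩
    · exact ⟨by linarith, a2, by linarith, a4⟩

/-- **field `room` of `PvhuLayD` at the thick link**: unit `u = s r` of the reference plug in `[3Δ/64, 59Δ/960]` (`Δ / 20` after U4) -/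
theorem pvvz_lay_room (hΓ : 𝔓.Γ m = pvxrGam 𝔓 m) (hL : PvegLev 𝔓 m) (hT : pviwTyOk 𝔓 t) (h : PvxrNdg 𝔓 m t) (hY : pvvzEY 𝔓 m t ⊆ 𝔈.eY m t) (z : ℂ) {S : Set ℂ} {s r ρ' : ℝ}
    (hS : S ⊆ rswRect (r / 2) (5 * r) (-(3 * r / 2)) (3 * r / 2)) (hs : 0 ≤ s) (hu : 3 * pvehDl 𝔓 m / 64 ≤ s * r) (hu' : s * r ≤ 59 * pvehDl 𝔓 m / 960) (hr : ρ' ≤ pvehDl 𝔓 m / 250) :
    ∀ w ∈ pvkdAt (pvieZu 𝔓 m z t) (1 * ((s : ℝ) : ℂ)) S, closedBall w ρ' ⊆ (pvilLe 𝔓 𝔈 m z t).Yin := by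
  obtain ⟨hΔ, hμ⟩ := pvvz_Dl_pos h
  rintro w ⟨v, hv, rfl⟩
  obtain ⟨a1, a2, a3, a4⟩ := hS hv
  have e1 : (pvthSim (pvieZu 𝔓 m z t) (1 * ((s : ℝ) : ℂ)) v - pvieZu 𝔓 m z t).re = s * v.re := by unfold pvthSim; simp
  have e2 : (pvthSim (pvieZu 𝔓 m z t) (1 * ((s : ℝ) : ℂ)) v - pvieZu 𝔓 m z t).im = s * v.im := by unfold pvthSim; simp
  have b1 := mul_le_mul_of_nonneg_left a1 hs
  have b2 := mul_le_mul_of_nonneg_left a2 hs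
  have b3 := mul_le_mul_of_nonneg_left a3 hs
  have b4 := mul_le_mul_of_nonneg_left a4 hs
  refine pvvz_lay_pt hΓ hL hT h hY z hr ?_ ?_ ?_ ?_
  · rw [e1]; linarith
  · rw [e1]; linarith
  · rw [e2]; linarith
  · rw [e2]; linarith

/-- **field `gm` of `PvhuLayD` at the thick link** -/
theorem pvvz_lay_gm (hΓ : 𝔓.Γ m = pvxrGam 𝔓 m) (h0 : 0 ≤ 3 * pviwMu 𝔓 m) (hL : PvegLev 𝔓 m) (hf : 1000 * pvlmDel c m ≤ 𝔓.num.rho * pvlmH m) (hT : pviwTyOk 𝔓 t) (h : PvxrNdg 𝔓 m t)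
    (hY : 𝔈.eY m t ⊆ pvvzEY 𝔓 m t) (hu0 : 0 ≤ pvilRu 𝔈 m) (hu : 2 * pvilRu 𝔈 m < pvehDl 𝔓 m / 4) (z : ℂ) :
    ∀ w ∈ pvkdAt (pvilLe 𝔓 𝔈 m z t).p.z (pvilLe 𝔓 𝔈 m z t).p.fr (pvkdP (pvilLe 𝔓 𝔈 m z t).p.h).Zm, w ∉ (pvilLe 𝔓 𝔈 m z t).Yin := by
  obtain ⟨hΔ, hμ⟩ := pvvz_Dl_pos h
  rintro w ⟨v, ⟨a1, a2, a3, a4⟩, rfl⟩ ⟨y, hy, e⟩
  have a1 : -(2 * pvilRu 𝔈 m) ≤ v.re := a1
  have a2 : v.re ≤ -(pvilRu 𝔈 m / 2) := a2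
  have a3 : -(pvilRu 𝔈 m / 2) ≤ v.im := a3
  have a4 : v.im ≤ pvilRu 𝔈 m / 2 := a4
  have e' : y = (pvxrGam 𝔓 m).zu t + v := by
    have : z + y = z + (𝔓.Γ m).zu t + 1 * v := e
    rw [hΓ] at this
    linear_combination this
  have hO : y ∈ pvieSh ((pvxrGam 𝔓 m).zu t) (pvehrO 𝔓 m) := by
    refine ⟨v, ?_, e'.symm⟩
    show max |(v - 0).re| |(v - 0).im| < pvehDl 𝔓 m / 4
    rw [sub_zero]
    exact max_lt (abs_lt.2 ⟨by linarith, by linarith⟩) (abs_lt.2 ⟨by linarith, by linarith⟩)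
  have := pvvz_eY_front h0 hL hf hT (pvxr_geo h) (hY hy) hO
  rw [e', add_sub_cancel_left] at this
  linarith

/-- **field `offBox` of `PvhuLayD` at the thick link** -/
theorem pvvz_lay_offBox (offD : Disjoint (pviwRo 𝔓 𝔈 m t) (pviwBox 𝔓 m t)) (hb : ball (0 : ℂ) (2 * pvilRu 𝔈 m) ⊆ 𝔈.rO m) (z : ℂ) :
    Disjoint (ball (pvilLe 𝔓 𝔈 m z t).p.z (pvkdP (pvilLe 𝔓 𝔈 m z t).p.h).b) (pvhaBx 𝔓.num (pvilLe 𝔓 𝔈 m z t).p') := by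
  have hd := pvlm_Del_pos c m
  rw [Set.disjoint_left]
  intro w hw hx
  have hw : w ∈ ball (z + (𝔓.Γ m).zu t) (2 * pvilRu 𝔈 m) := hw
  have hx : conj (1 : ℂ) * w ∈ pvwSq (conj (1 : ℂ) * z) (pviwRad 𝔓 m t) := hx
  rw [map_one, one_mul, one_mul] at hx
  have k1 : w - z ∈ pviwRo 𝔓 𝔈 m t := by
    refine ⟨w - z - (𝔓.Γ m).zu t, hb ?_, by ring⟩
    rw [mem_ball, dist_eq_norm] at hw ⊢
    rwa [sub_zero, show w - z - (𝔓.Γ m).zu t = w - (z + (𝔓.Γ m).zu t) by ring]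
  refine Set.disjoint_left.1 offD k1 ?_
  show |(w - z - 0).re| ≤ _ ∧ |(w - z - 0).im| ≤ _
  rw [sub_zero]
  exact ⟨hx.1.trans (by linarith), hx.2.trans (by linarith)⟩

/-- **field `offTip` of `PvhuLayD` at the thick link** -/
theorem pvvz_lay_offTip {z : ℂ} (MD : Disjoint (pvieSh z (𝔈.eM m t)) (pvieSh (pvieZu 𝔓 m z t) (𝔈.rO m))) (hc : (pvilPin 𝔓 m z t).cm ⊆ pvieSh z (𝔈.eM m t)) (hb : ball (0 : ℂ) (2 * pvilRu 𝔈 m) ⊆ 𝔈.rO m) :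
    Disjoint (ball (pvilLe 𝔓 𝔈 m z t).p.z (pvkdP (pvilLe 𝔓 𝔈 m z t).p.h).b) (pvilLe 𝔓 𝔈 m z t).p'.cm := by
  rw [Set.disjoint_left]
  intro w hw hx
  have hw : w ∈ ball (pvieZu 𝔓 m z t) (2 * pvilRu 𝔈 m) := hw
  refine Set.disjoint_left.1 MD (hc hx) ⟨w - pvieZu 𝔓 m z t, hb ?_, by ring⟩
  rw [mem_ball, dist_eq_norm] at hw ⊢
  rwa [sub_zero]

/-- the two, from the record of the tip -/
theorem pvvz_lay_off {z : ℂ} {μ₀ μ' r r₁ ρ rs rt : ℝ} {ζ : ℂ} (Θ : PvhuTipD 𝔓 𝔈 m z t μ₀ μ' r r₁ ρ rs rt ζ) (hrt : rt ≤ rs + 8 * ρ + 3 * μ') (hb : ball (0 : ℂ) (2 * pvilRu 𝔈 m) ⊆ 𝔈.rO m) :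
    Disjoint (ball (pvilLe 𝔓 𝔈 m z t).p.z (pvkdP (pvilLe 𝔓 𝔈 m z t).p.h).b) (pvhaBx 𝔓.num (pvilLe 𝔓 𝔈 m z t).p') ∧
      Disjoint (ball (pvilLe 𝔓 𝔈 m z t).p.z (pvkdP (pvilLe 𝔓 𝔈 m z t).p.h).b) (pvilLe 𝔓 𝔈 m z t).p'.cm :=
  ⟨pvvz_lay_offBox Θ.offD hb z, pvvz_lay_offTip Θ.MD (fun w hw => Θ.ball (by
    rw [mem_closedBall, dist_eq_norm]
    linarith [Θ.rt0 w hw])) hb⟩

/-- **field `bdd`** -/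
theorem pvvz_lay_bdd (h0 : 0 ≤ 3 * pviwMu 𝔓 m) (hL : PvegLev 𝔓 m) (hT : pviwTyOk 𝔓 t) (hY : 𝔈.eY m t ⊆ pvvzEY 𝔓 m t) (z : ℂ) : Bornology.IsBounded (pvilLe 𝔓 𝔈 m z t).Yin :=
  (pvvz_eY_sh_bdd h0 hL hT z).subset (Set.image_mono hY)

/-- **field `co`** -/
theorem pvvz_lay_co (hΓ : 𝔓.Γ m = pvxrGam 𝔓 m) (hL : PvegLev 𝔓 m) (hT : pviwTyOk 𝔓 t) (h : PvxrNdg 𝔓 m t) (hY : 𝔈.eY m t = pvvzEY 𝔓 m t) (z : ℂ) : IsPreconnected (pvilLe 𝔓 𝔈 m z t).Yinᶜ := by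
  show IsPreconnected (pvieSh z (𝔈.eY m t))ᶜ
  rw [hY]
  exact pvvz_eY_sh_hole hΓ hL hT h z

/-- **field `collar`** at the regions after U4 (84; inclusion of 285 `pvzhl_eY_new`) -/
theorem pvvz_lay_collar (hΓ : 𝔓.Γ m = pvxrGam 𝔓 m) (hL : PvegLev 𝔓 m) (hf : 1000 * pvlmDel c m ≤ 𝔓.num.rho * pvlmH m) (hT : pviwTyOk 𝔓 t) (h : PvxrNdg 𝔓 m t)
    (hY : 𝔈.eY m t ⊆ pvvzEY 𝔓 m t) (hM : pvegIM 𝔓 m t ⊆ 𝔈.eM m t) (hK : pvnuEK 𝔓 m t ⊆ 𝔈.eK m t) (hO : pvnuRO 𝔓 m ⊆ 𝔈.rO m) (z : ℂ) :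
    ∀ v ∈ (pvilLe 𝔓 𝔈 m z t).Yin, closedBall v (3 * pvilMu 𝔓 m) ⊆ pvieSh z (𝔈.eM m t) ∪ pvieSh z (𝔈.eK m t) ∪ pvieSh (pvieZu 𝔓 m z t) (𝔈.rO m) := by
  have h1 : ∀ v ∈ 𝔈.eY m t, closedBall v (3 * pvilMu 𝔓 m) ⊆ 𝔈.eM m t ∪ 𝔈.eK m t ∪ pvieSh ((𝔓.Γ m).zu t) (𝔈.rO m) := fun v hv =>
    (pvzhl_e_col hΓ hL hf hT (pvxr_geo h) (3 * pvilMu 𝔓 m) v (hY hv)).trans (union_subset_union (union_subset_union hM hK) (Set.image_mono hO))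
  exact fun v hv => pvll_col_e h1 z hv

end fields

end Claimed.Agent.R289
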