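-- KEEP
import Claimed.Agent.R289.Exit.HookTE
import Claimed.Agent.R289.Exit.FrcTG
import Claimed.Agent.R289.Exit.FrcTM
import Claimed.Agent.R289.Exit.FrcTR
import Claimed.Agent.R289.Exit.ThickCR

/-!
# Row 289 (S0537), THE WALL, ROAD E, E10 (b3) DET OF THE THICK LINK `e`, file Exit/HookTZ : **THE WHOLE DET RECORD OF `e` ASSEMBLED AT THE DATA OF 165, GENERIC ENGINE**      (helper66, pen of `PvetDet`; prefix `pvhu_z_`)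

INTEGRATION OF THE PAYMENTS OF `pvet_rtE_det` (`Exit/FrcT`, 54).      NO NEW MATHEMATICS.      This file does NOT import `Exit/FrcT` (which may import it).
ENGINE: any `𝔈` with `PvieEng.Wf` and the FIVE LINES OF L2 `hM hK hY hO hu` (`eM = pvegIM`, `eK = pvnuEK`, `eY = pvvzEY`, `rO = pvnuRO`, `pvilRu = pvurRu`): all `rfl` at `pvnaEngRec` after L2 (`pvnr_eM pvnr_eK pvnr_eY pvnr_rO pvnr_rp_ru`).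
SCALE: `pvurS 𝔓 m = 2 Δ_m`.      TRUNCATION: any `𝔱` with the rooms and targets of `pvhfT pvkgG.a` (`pvetTn 𝔓 = pvk2T.fine ..` : `rfl rfl`).
PAYERS: pattern fields + `door` 165 (`Tr/HookTD`), `bdd co` 118 (`Exit/ThickCR`), `collar mouth room gm offBox offTip` 1 (`Exit/FrcTG`), `mid` 209 (`Exit/FrcTM`), `door roomF` 80 (`Exit/FrcTR`), `tip` 66 (`Exit/HookTE`).
* **`pvhu_z_lay`** : the field `lay` of `PvetDet` VERBATIM (with `pvurS` for `pvetSc`, `𝔱` for `pvetTn 𝔓`, `pvehDl 𝔓 m / 512` for `R.dl`)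
* **`pvhu_z_tip`** : the field `tip`;   `pvhu_z_rho` : the field `rho`;   `pvhu_z_mem` : the field `mem`
0 SORRY.
-/

set_option autoImplicit false

namespace Claimed.Agent.R289

open Set Metric Complex

section asm

variable {τ : Type} {c : ℝ} {𝔓 : PvxPar τ c} {𝔈 : PvieEng τ} {m m0 : ℕ} {t : τ} {Cth : ℝ} {r κs : ℕ → ℝ} {𝔱 : PvhfTr}

/-- **THE FIELD `lay` OF `PvetDet` AT THE DATA OF 165** -/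
theorem pvhu_z_lay (P : PveaPar 𝔓 m0) (H : PvieEng.Wf 𝔓 𝔈 m0 Cth r κs) (hm : m0 ≤ m) (hT : pviwTyOk 𝔓 t) (h : PvxrNdg 𝔓 m t) (h3 : 0 < 𝔓.num.rho3)
    (hM : 𝔈.eM m t = pvegIM 𝔓 m t) (hK : 𝔈.eK m t = pvnuEK 𝔓 m t) (hY : 𝔈.eY m t = pvvzEY 𝔓 m t) (hO : 𝔈.rO m = pvnuRO 𝔓 m) (hu : pvilRu 𝔈 m = pvurRu 𝔓 m)
    (hLn : 𝔱.Ln = (pvhfT pvkgG.a).Ln) (hDr : 𝔱.Dr = (pvhfT pvkgG.a).Dr) (z : ℂ) :
    PvhuLayD (pvilLe 𝔓 𝔈 m z t) 𝔓.num (pvieSh z (𝔈.eM m t) ∪ pvieSh z (𝔈.eK m t) ∪ pvieSh (pvieZu 𝔓 m z t) (𝔈.rO m)) ((pvieSh z (𝔈.eM m t) ∪ pvieSh z (𝔈.eK m t)) \ pvwSq z (pviwRad 𝔓 m t))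
      (pvilMu 𝔓 m) (pvhtdZe 𝔓 t) ((𝔓.ty t).cm (pvlmH m) z) (pvhtdRs 𝔓 m) (pvhtdRho 𝔓 m) (pvhtdRt 𝔓 m) (pvhtdE0 𝔓 m) (pvhtdRl 𝔓 m) (pvehDl 𝔓 m / 512)
      (pvhtdC 𝔓 m z t) (pvhtdN 𝔓 m z t) (pvhtdD 𝔓 m z t) (pvhtdT 𝔓 m z t) (pvhtdSg 𝔓 m z t) (fun _ => 0) (fun _ => 0) 1
      (fun β => pvkdAt (pvieZu 𝔓 m z t) (1 * (pvurS 𝔓 m : ℝ)) (𝔱.Ln true β)) (fun β => pvkdAt (pvieZu 𝔓 m z t) (1 * (pvurS 𝔓 m : ℝ)) (𝔱.Dr true β))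
      (fun _ => pvhtdXs 𝔓 m z t) (fun _ => pvhtdXa 𝔓 m z t) (fun _ => pvhtdXb 𝔓 m z t) (pvhtdY0 𝔓 m z t) (pvhtdY1 𝔓 m z t) := by
  have hΓ : 𝔓.Γ m = pvxrGam 𝔓 m := P.gam m
  have hL : PvegLev 𝔓 m := P.lev hm
  obtain ⟨u1, u2, u3⟩ := pvho_mu hL h3
  have hμ : 0 < pvilMu 𝔓 m := by linarith
  have hΔ : 0 < pvehDl 𝔓 m := pveh_Dl_pos (𝔓 := 𝔓) (pvxr_geo h).n0
  have hμΔ : pviwMu 𝔓 m ≤ pvehDl 𝔓 m / 1000 := pvjiG_mu_Dl h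
  have eμ : pvilMu 𝔓 m = pviwMu 𝔓 m := rfl
  obtain ⟨D1, D2, D3⟩ := pvef_Dl_bounds h
  have mouth : closedBall ((𝔓.ty t).cm (pvlmH m) z) (pvhtdRs 𝔓 m + 4 * pvhtdRho 𝔓 m + pvilMu 𝔓 m) ⊆ (pvilLe 𝔓 𝔈 m z t).Yin :=
    pvjiG_mouth hΓ hL hT h hY z (by unfold pvhtdRs pvhtdRho; linarith)
  refine pvhtd_lay h hμ z (pvvz_lay_bdd (by linarith) hL hT hY.le z) (pvvz_lay_co hΓ hL hT h hY z) (pvjiG_collar hΓ hL hT h hM hK hY hO z) ?_ mouth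
    (pveb_mid_td 𝔈 hΓ hL hT h hY hM hK z) (pvji_u4_door P hm hT h3 hu hLn hDr z) ?_ (pvji_u4_roomF P hm hT hO hK (pvjiG_offK H hm hT) hLn z)
    (pvjiG_gm hΓ hL hT h (by linarith) hY z (by rw [hu]; unfold pvurRu; linarith) (by rw [hu]; unfold pvurRu; linarith)) (pvjiG_offBox H hm hT z) (pvjiG_offTip H hm hT P.rho0 z)
  · refine (pvjiG_ball hM z (by unfold pvhtdRs; linarith)).trans ?_
    exact fun w hw => Or.inl (Or.inl hw)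
  · rw [hLn]
    exact pvjiG_room_T hΓ hL hT h hY z (by unfold pvurS; linarith) (by unfold pvurS; linarith)

/-- **THE FIELD `tip` OF `PvetDet` AT THE DATA OF 165** -/
theorem pvhu_z_tip (P : PveaPar 𝔓 m0) (n : PvhoNum 𝔓) (hW : 𝔓.WfB) (H : PvieEng.Wf 𝔓 𝔈 m0 Cth r κs) (hm : m0 ≤ m) (hT : pviwTyOk 𝔓 t)
    (hc : ∀ x ∈ 𝔓.cm t, ‖x - (𝔓.ty t).ym‖ ≤ 𝔓.num.rho / 10) (h3 : 0 < 𝔓.num.rho3) (hM : 𝔈.eM m t = pvegIM 𝔓 m t) (z : ℂ) :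
    PvhuTipD 𝔓 𝔈 m z t (pvlmDel c m / 3) (pvilMu 𝔓 m / 40) (pvhtdR 𝔓 m) (pvhtdR1 𝔓 m) (pvhtdRho 𝔓 m) (pvhtdRs 𝔓 m) (pvhtdRt 𝔓 m) (pvhtdZe 𝔓 t) :=
  pvhu_tipD_data n hW H hm (P.lev hm) hT hc h3 z hM (P.gam m)

/-- the field `rho` -/
theorem pvhu_z_rho (𝔓 : PvxPar τ c) (m : ℕ) : pvilMu 𝔓 m / 40 ≤ pvhtdRho 𝔓 m := le_rfl

/-- the field `mem` -/
theorem pvhu_z_mem (𝔓 : PvxPar τ c) (m : ℕ) (z : ℂ) (t : τ) : ∀ β, (β == 𝔓.col t, pvhtdC 𝔓 m z t β :: pvhtdN 𝔓 m z t β :: pvhtdT 𝔓 m z t β) ∈ pvmvPatE 𝔓 m z t false (𝔓.col t) :=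
  pvhtd_mem 𝔓 m z t

end asm

end Claimed.Agent.R289
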