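-- KEEP
import Claimed.Agent.R289.Obs.Ev

/-!
# Row 289 (S0537, Cardy for Poisson-Voronoi), unit OBS, file Exit/InstBd (= Obs/SysBd of 182, re-landed under Exit/ by 243 after the revert of the small-file brake) : J-BD (SIDE LINES) AND THE ASSEMBLY OF `pvoj_bd`      (helper182, ruling H2 of helper111; prefix `pvojb_`)

The contract `pvoj_bd` of `Obs/Sys.lean` = J-BD (here) + J-EV (`Obs/Ev.lean` of helper156, closed).
* `pvojb_arc_mem`      a boundary point `z ≠ d` lies on the closed arc number `pvoArcIx ψ z`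
* `pvojb_F_norm`       `‖𝔇.F Y e‖ ≤ 1` at EVERY geometry and dart
* `pvojb_om*`          the three directions: `(ω - 1) e^{2πi/3} = ω² - ω`, `(ω - 1) e^{πi/3} = ω² - 1`
* `pvojb_side0/1/2`    the quenched side values of Prop. 8.2 at a dart whose head is the apex `s₀ / s₁ / s₂` (`pv82_F_fan`, `pv82_F_nxt` of helper91)
* `pvojb_bd`           `PvoBd` for the system of Sec. 8 (`pvok_bd` of helper174)
* **`pvojb_main`**     the statement of `pvoj_bd`, 0 sorry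
-/

set_option autoImplicit false

namespace Claimed.Agent.R289

open MeasureTheory ProbabilityTheory Set Filter Topology Claims.C0465

/-! ## 1. arcs, bounds -/

theorem pvojb_arc_mem {D : Set ℂ} {d : ℂ} {ψ : ℂ → ℂ} {z : ℂ} (hz : z ∈ frontier D) (hzd : z ≠ d) : z ∈ pvoArc D d ψ (pvoArcIx ψ z) := by
  refine Or.inr ⟨hz, hzd, ?_⟩
  unfold pvoArcIx
  by_cases h1 : (ψ z).re < 0
  · rw [if_pos h1]
    exact Or.inr (Or.inr ⟨rfl, h1.le⟩)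
  · rw [if_neg h1]
    by_cases h2 : (ψ z).re ≤ 1
    · rw [if_pos h2]
      exact Or.inl ⟨rfl, not_lt.1 h1, h2⟩
    · rw [if_neg h2]
      exact Or.inr (Or.inl ⟨rfl, (not_le.1 h2).le⟩)

theorem pvojb_not_mem {D : Set ℂ} (hD : IsOpen D) {z : ℂ} (hz : z ∈ frontier D) : z ∉ D := fun h => by
  have := hz.2
  rw [hD.interior_eq] at this
  exact this h

theorem pvojb_F_norm (𝔇 : PvoFam) (Y : Set ℂ) (e : (𝔇 Y).D) : ‖𝔇.F Y e‖ ≤ 1 := by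
  classical
  let _ := (𝔇 Y).fV
  have := (𝔇 Y).fD
  unfold PvoFam.F
  split_ifs with h
  · have hs : (𝔇 Y).T.IsSph := h.sph
    exact pv82_norm_le hs _ _
  · simp

/-! ## 2. the cube root of unity -/

theorem pvojb_om3 : pvOm ^ 3 = 1 := by
  unfold pvOm
  rw [← Complex.exp_nat_mul]
  have : ((3 : ℕ) : ℂ) * (2 * Real.pi * Complex.I / 3) = 2 * Real.pi * Complex.I := by push_cast; ring
  rw [this, Complex.exp_two_pi_mul_I]

theorem pvojb_om_ne : pvOm ≠ 1 := fun h => pvoj_om_ne h.symm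

theorem pvojb_om_sum : 1 + pvOm + pvOm ^ 2 = 0 := by
  have h : (pvOm - 1) * (1 + pvOm + pvOm ^ 2) = 0 := by
    have := pvojb_om3
    linear_combination this
  rcases mul_eq_zero.1 h with h | h
  · exact absurd (sub_eq_zero.1 h) pvojb_om_ne
  · exact h

/-- `e^{πi/3} = -ω²` -/
theorem pvojb_exp6 : Complex.exp (Real.pi * Complex.I / 3) = -pvOm ^ 2 := by
  unfold pvOm
  rw [← Complex.exp_nat_mul]
  have e : ((2 : ℕ) : ℂ) * (2 * Real.pi * Complex.I / 3) = Real.pi * Complex.I / 3 + Real.pi * Complex.I := by push_cast; ring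
  rw [e, Complex.exp_add, Complex.exp_pi_mul_I]
  ring

/-! ## 3. the quenched side values (ANY finite sphere, ANY closing dart) -/

section side

variable {V D : Type} {T : PvMap V D} [Fintype V] [Finite D]

theorem pvojb_side0 (hT : T.IsSph) {q e : D} (he : T.tgt e = T.src q) :
    T.obsF q e = 1 + ((T.obsP (T.nxt (T.nxt q)) e : ℝ) : ℂ) * (pvOm - 1) := pv82_F_fan hT (Or.inr he)

theorem pvojb_side1 (hT : T.IsSph) {q e : D} (he : T.tgt e = T.apex q) :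
    T.obsF q e = pvOm + ((T.obsP (T.nxt q) e : ℝ) : ℂ) * ((pvOm - 1) * Complex.exp (2 * Real.pi * Complex.I / 3)) := by
  have h1 := pv82_F_fan hT (q := T.nxt (T.nxt q)) (e := e) (Or.inr he)
  rw [pv82_F_nxt, pv82_F_nxt, T.nxt3] at h1
  have h3 := pvojb_om3
  have e1 : Complex.exp (2 * Real.pi * Complex.I / 3) = pvOm := rfl
  rw [e1]
  linear_combination pvOm * h1 - T.obsF q e * h3

theorem pvojb_side2 (hT : T.IsSph) {q e : D} (he : T.tgt e = T.tgt q) :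
    T.obsF q e = 1 + ((1 - T.obsP q e : ℝ) : ℂ) * ((pvOm - 1) * Complex.exp (Real.pi * Complex.I / 3)) := by
  have h1 := pv82_F_fan hT (q := T.nxt q) (e := e) (Or.inr he)
  rw [pv82_F_nxt, T.nxt3] at h1
  have h3 := pvojb_om3
  rw [pvojb_exp6]
  push_cast
  linear_combination pvOm ^ 2 * h1 - (T.obsF q e - (T.obsP q e : ℂ)) * h3 + (1 - (T.obsP q e : ℂ)) * h3

end side

theorem pvojb_abs {t : ℝ} (h0 : 0 ≤ t) (h1 : t ≤ 1) : |t| ≤ 1 := by rw [abs_of_nonneg h0]; exact h1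

theorem pvojb_abs' {t : ℝ} (h0 : 0 ≤ t) (h1 : t ≤ 1) : |1 - t| ≤ 1 := by rw [abs_le]; constructor <;> linarith

/-! ## 4. the bad sets of the guard -/

/-- the bad geometries at the step `k`: off the guard, or not good at the level `(s, 1)` -/
def pvojbBad (𝔇 : PvoFam) (D : Set ℂ) (d : ℂ) (ψ : ℂ → ℂ) (x : ℝ) (𝒯 : ℕ → Set PvGeoT) (s : ℝ) (k : ℕ) : Set PvGeoT :=
  {g | ¬ (g ∈ 𝒯 k ∧ 𝔇.Good D d ψ x (pvgSites g) s 1)}

theorem pvojb_eqns_cite : True := by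
  have := @pvojbBad.eq_1
  trivial

theorem pvojb_bad_tendsto {𝔇 : PvoFam} {D : Set ℂ} {d : ℂ} {ψ : ℂ → ℂ} {x : ℝ} {εs : ℕ → ℝ} {𝒯 : ℕ → Set PvGeoT} (hG : PvoGuard 𝔇 D d ψ x εs 𝒯) {s : ℝ}
    (hs : ∀ᶠ k in atTop, ∀ g ∈ 𝒯 k, 𝔇.Good D d ψ x (pvgSites g) s 1) :
    Tendsto (fun k => pvGeo (εs k) (pvojbBad 𝔇 D d ψ x 𝒯 s k)) atTop (𝓝 0) := by
  refine tendsto_of_tendsto_of_tendsto_of_le_of_le' tendsto_const_nhds hG.prob (Eventually.of_forall fun k => bot_le) ?_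
  filter_upwards [hs] with k hk
  refine measure_mono fun g hg hgT => hg ⟨hgT, hk g hgT⟩

/-- the value of the observable at the probe of a boundary point, off the bad set -/
theorem pvojb_val {𝔇 : PvoFam} {D : Set ℂ} {d : ℂ} {ψ : ℂ → ℂ} {x : ℝ} {εs : ℕ → ℝ} {𝒯 : ℕ → Set PvGeoT} (hG : PvoGuard 𝔇 D d ψ x εs 𝒯) (hD : IsOpen D)
    {s : ℝ} {k : ℕ} {g : PvGeoT} (hg : g ∉ pvojbBad 𝔇 D d ψ x 𝒯 s k) {z : ℂ} (hz : z ∈ frontier D) (hzd : z ≠ d) :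
    (𝔇 (pvgSites g)).T.IsSph ∧
    𝔇.F (pvgSites g) (𝔇.probe D ψ (pvgSites g) z) = @PvMap.obsF _ _ (𝔇 (pvgSites g)).T (𝔇 (pvgSites g)).fV (𝔇 (pvgSites g)).q (𝔇.probe D ψ (pvgSites g) z) ∧
    (pvoArcIx ψ z = 0 → (𝔇 (pvgSites g)).T.tgt (𝔇.probe D ψ (pvgSites g) z) = (𝔇 (pvgSites g)).T.src (𝔇 (pvgSites g)).q) ∧
    (pvoArcIx ψ z = 1 → (𝔇 (pvgSites g)).T.tgt (𝔇.probe D ψ (pvgSites g) z) = (𝔇 (pvgSites g)).T.apex (𝔇 (pvgSites g)).q) ∧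
    (pvoArcIx ψ z = 2 → (𝔇 (pvgSites g)).T.tgt (𝔇.probe D ψ (pvgSites g) z) = (𝔇 (pvgSites g)).T.tgt (𝔇 (pvgSites g)).q) := by
  obtain ⟨hgT, hgood⟩ := not_not.1 hg
  have hok := (hG.ok k g hgT).2
  obtain ⟨a, -, h2, -⟩ := pvev_probe_bd hgood (pvojb_not_mem hD hz) (pvojb_arc_mem hz hzd)
  have hinj : Function.Injective (𝔇 (pvgSites g)).lab := hok.inj
  refine ⟨hok.sph, ?_, fun h => hinj ?_, fun h => hinj ?_, fun h => hinj ?_⟩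
  · unfold PvoFam.F
    rw [if_pos hok]
  · rw [h2, h, hgood.cl0]
  · rw [h2, h, hgood.cl1]
  · rw [h2, h, hgood.cl2]

/-! ## 5. `PvoBd` -/

/-- **J-BD**: the boundary values of the system of Sec. 8 -/
theorem pvojb_bd {D : Set ℂ} {d : ℂ} {ψ : ℂ → ℂ} (hD : IsOpen D) {x : ℝ} (hx0 : 0 < x) (hx1 : x < 1) {b : ℂ} (hb : b ∈ frontier D) (hbd : b ≠ d) (hψb : ψ b = x)
    {𝔇 : PvoFam} {εs : ℕ → ℝ} {𝒯 : ℕ → Set PvGeoT} (hG : PvoGuard 𝔇 D d ψ x εs 𝒯) :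
    PvoBd (𝔇.sys D ψ εs 𝒯) D d ψ 1 pvOm b fun k => pvomR (pvGeo (εs k)) fun g => 𝔇.Pc (pvgSites g) (𝔇.probe D ψ (pvgSites g) b) := by
  obtain ⟨s, -, hs⟩ := hG.good 1 one_pos
  have hB := pvojb_bad_tendsto hG hs
  have ix0 : ∀ z : ℂ, 0 < (ψ z).re → (ψ z).re < 1 → pvoArcIx ψ z = 0 := fun z h0 h1 => by
    unfold pvoArcIx
    rw [if_neg (not_lt.2 h0.le), if_pos h1.le]
  have ix1 : ∀ z : ℂ, 1 < (ψ z).re → pvoArcIx ψ z = 1 := fun z h1 => by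
    unfold pvoArcIx
    rw [if_neg (not_lt.2 (zero_le_one.trans h1.le)), if_neg (not_le.2 h1)]
  have ix2 : ∀ z : ℂ, (ψ z).re < 0 → pvoArcIx ψ z = 2 := fun z h0 => by
    unfold pvoArcIx
    rw [if_pos h0]
  have key0 : ∀ z ∈ frontier D, z ≠ d → 0 < (ψ z).re → (ψ z).re < 1 → ∀ k g, g ∉ pvojbBad 𝔇 D d ψ x 𝒯 s k →
      𝔇.F (pvgSites g) (𝔇.probe D ψ (pvgSites g) z) = 1 + ((𝔇.Pc (pvgSites g) (𝔇.probe D ψ (pvgSites g) z) : ℝ) : ℂ) * (pvOm - 1) := by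
    intro z hz hzd a1 a2 k g hg
    obtain ⟨hS, hF, h0, -, -⟩ := pvojb_val hG hD hg hz hzd
    let _ := (𝔇 (pvgSites g)).fV
    have := (𝔇 (pvgSites g)).fD
    rw [hF]
    exact pvojb_side0 hS (h0 (ix0 z a1 a2))
  refine pvok_bd (S := 𝔇.sys D ψ εs 𝒯) (fun k => pvquGeoProb (εs k)) (fun k p g => pvojb_F_norm 𝔇 _ _) ?_ ?_ ?_
    (tb := fun _ g => 𝔇.Pc (pvgSites g) (𝔇.probe D ψ (pvgSites g) b)) (Bb := pvojbBad 𝔇 D d ψ x 𝒯 s) (fun k g => pvev_Pc_abs 𝔇 _ _) ?_ hB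
  · intro z hz hzd a1 a2
    exact ⟨fun _ g => 𝔇.Pc (pvgSites g) (𝔇.probe D ψ (pvgSites g) z), pvojbBad 𝔇 D d ψ x 𝒯 s, fun k g => pvev_Pc_abs 𝔇 _ _,
      fun k g hg => key0 z hz hzd a1 a2 k g hg, hB⟩
  · intro z hz hzd a1
    refine ⟨fun _ g => @PvMap.obsP _ _ (𝔇 (pvgSites g)).T (𝔇 (pvgSites g)).fV ((𝔇 (pvgSites g)).T.nxt (𝔇 (pvgSites g)).q) (𝔇.probe D ψ (pvgSites g) z),
      pvojbBad 𝔇 D d ψ x 𝒯 s, fun k g => ?_, fun k g hg => ?_, hB⟩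
    · let _ := (𝔇 (pvgSites g)).fV
      exact pvojb_abs (pv82_P_nonneg _ _) (pvev_obsP_le_one _ _ _)
    · obtain ⟨hS, hF, -, h1, -⟩ := pvojb_val hG hD hg hz hzd
      let _ := (𝔇 (pvgSites g)).fV
      have := (𝔇 (pvgSites g)).fD
      show 𝔇.F (pvgSites g) (𝔇.probe D ψ (pvgSites g) z) = _
      rw [hF]
      exact pvojb_side1 hS (h1 (ix1 z a1))
  · intro z hz hzd a1
    refine ⟨fun _ g => 1 - @PvMap.obsP _ _ (𝔇 (pvgSites g)).T (𝔇 (pvgSites g)).fV (𝔇 (pvgSites g)).q (𝔇.probe D ψ (pvgSites g) z),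
      pvojbBad 𝔇 D d ψ x 𝒯 s, fun k g => ?_, fun k g hg => ?_, hB⟩
    · let _ := (𝔇 (pvgSites g)).fV
      exact pvojb_abs' (pv82_P_nonneg _ _) (pvev_obsP_le_one _ _ _)
    · obtain ⟨hS, hF, -, -, h2⟩ := pvojb_val hG hD hg hz hzd
      let _ := (𝔇 (pvgSites g)).fV
      have := (𝔇 (pvgSites g)).fD
      show 𝔇.F (pvgSites g) (𝔇.probe D ψ (pvgSites g) z) = _
      rw [hF]
      exact pvojb_side2 hS (h2 (ix2 z a1))
  · intro k g hg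
    exact key0 b hb hbd (by rw [hψb]; simpa using hx0) (by rw [hψb]; simpa using hx1) k g hg

/-! ## 6. the contract -/

/-- **the statement of `pvoj_bd`** (`Obs/Sys.lean`): J-BD (here) + J-EV (`pvev_exit` of helper156) -/
theorem pvojb_main {D : Set ℂ} {d : ℂ} {ψ : ℂ → ℂ} (h : PvChart D d ψ) {x : ℝ} (hx0 : 0 < x) (hx1 : x < 1) {b : ℂ} (hb : b ∈ frontier D) (hbd : b ≠ d) (hψb : ψ b = x)
    {𝔇 : PvoFam} {εs : ℕ → ℝ} {𝒯 : ℕ → Set PvGeoT} (hG : PvoGuard 𝔇 D d ψ x εs 𝒯) {ρ : ℝ} (hρ : 0 < ρ) :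
    ∃ pc : ℕ → ℝ, PvoBd (𝔇.sys D ψ εs 𝒯) D d ψ 1 pvOm b pc ∧ ∃ E : ℕ → Set PVSample, (∀ k, MeasurableSet (E k)) ∧
      (∀ k, E k ⊆ {o | PvVC (pvConf o) (Metric.thickening ρ D) (Metric.thickening ρ (pvArcL D d ψ x)) (Metric.thickening ρ (pvArcR D d ψ))}) ∧
      ∃ r : ℕ → ℝ, Tendsto r atTop (𝓝 0) ∧ ∀ k, pc k ≤ (pvLaw (εs k) (E k)).toReal + r k := by
  obtain ⟨r, E, h1, h2, h3, h4⟩ := pvev_exit h hx0 hx1 hb hbd hψb hG hρ
  exact ⟨_, pvojb_bd h.isOpen hx0 hx1 hb hbd hψb hG, E, h1, h2, r, h3, h4⟩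

end Claimed.Agent.R289
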