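import Claimed.Agent.R289.Obs.Sys
import Claimed.Agent.R289.Obs.SysArm
import Claimed.Agent.R289.Obs.SysGeo
import Claimed.Agent.R289.Exit.InstBd
import Claimed.Agent.R289.Exit.Disc

/-!
# Row 289 (S0537), Exit/Inst : THE CONTRACTS OF SEC. 8 AND THE COMPILED GLUE `pvoj_inst : PvTransport → PvonInst`      (text of helper111, moved VERBATIM from `Obs/Sys.lean` by helper243, 09:40Z)

WHY: the owners of the contracts prove them in files which IMPORT `Obs/Sys.lean` (defs `PvoDat PvoFam Good Whp PvoGuard`, kit), so the contracts + glue must sit ABOVE those files.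
RULE: an owner who is done adds ONE import here and replaces the `sorry` of his contract by the call.      `pvoj_cr`, `pvoj_guard`, `Good.mono` stay in `Obs/Sys.lean` (proved in place).
-/

set_option autoImplicit false

namespace Claimed.Agent.R289

open MeasureTheory ProbabilityTheory Set Filter Topology Claims.C0465
open scoped ContDiff ENNReal

/-- **N1 = DISC** (BRIDGE 188, DISC-GEO 90 + 253 + 19 148 135, BULK-DISC 271, FAN 92 [closed], FIT 31).      The discrete disc of an analytic quad with the mark `b = ψ⁻¹(x)`: ONE family, function of the site set, good whp at all tolerances.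
Chain of record: cycle `c` of `delMap` with COLLAR + DEEP + ORD (ruling D1 of 111) ⟹ `PvFan.ofMarks` ⟹ `PvoDat`;   best level `2^-m`, `m ≤ #(Y ∩ ball 0 1)`, by choice;   junk elsewhere. -/
theorem exit_pv_disc {D : Set ℂ} {d : ℂ} {ψ : ℂ → ℂ} (h : PvAn D d ψ) {x : ℝ} (hx0 : 0 < x) (hx1 : x < 1) : ∃ 𝔇 : PvoFam, 𝔇.Whp D d ψ x :=
  pvdx_disc h hx0 hx1

/-- **J-ARM** (66 ArmTop, 184 ArmD [closed], 119 count, 54 / 262 annealed one arm, 258 Col).      `p ∈ X`, `η`:  `2 ρ₀` = distance from `p` to the OTHER closed arcs (to `Dᶜ` if `p ∈ D`);  `t` with one-arm probability from `ball p (2t)` to distance `ρ₀` `≤ η/16`;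
`s` from `Good s t`, `s'` from `Good s' (s/4)`;  answer `s/4`;   `q = min 2 (4 (Q_black + Q_white) + 2 · 1_hull(bad))`, `Q` = quenched probability of the measurable hull of the arm event. -/
theorem pvoj_arm {D : Set ℂ} {d : ℂ} {ψ : ℂ → ℂ} (h : PvChart D d ψ) {x : ℝ} (hx0 : 0 < x) (hx1 : x < 1) {a c : ℂ} (ha : a ∈ frontier D) (hc : c ∈ frontier D)
    (had : a ≠ d) (hcd : c ≠ d) (hψa : ψ a = 0) (hψc : ψ c = 1) {𝔇 : PvoFam} {εs : ℕ → ℝ} {𝒯 : ℕ → Set PvGeoT} (hG : PvoGuard 𝔇 D d ψ x εs 𝒯) :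
    PvoArm (𝔇.sys D ψ εs 𝒯) (closure D \ {a, c, d}) :=
  pvaj_arm h hx0 hx1 ha hc had hcd hψa hψc hG

/-- **J-BD + J-EV** (182, 289, 61 Ev, 258 Col, 173 Cross [closed], 92 Dict).      Side lines: `pv82_F_fan`, `pv82_F_nxt` at the fan probes;   `pc k` = mean of `𝔇.Pc Y (probe b)`;   `pv82_cross_le` at `opp (probe b)` + `Good.sec .arc .inD .adj`:
the quenched coefficient is at most the quenched probability of the measurable event `E k` = black vertex crossing, plus the indicator of the bad geometries. -/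
theorem pvoj_bd {D : Set ℂ} {d : ℂ} {ψ : ℂ → ℂ} (h : PvChart D d ψ) {x : ℝ} (hx0 : 0 < x) (hx1 : x < 1) {b : ℂ} (hb : b ∈ frontier D) (hbd : b ≠ d) (hψb : ψ b = x)
    {𝔇 : PvoFam} {εs : ℕ → ℝ} {𝒯 : ℕ → Set PvGeoT} (hG : PvoGuard 𝔇 D d ψ x εs 𝒯) {ρ : ℝ} (hρ : 0 < ρ) :
    ∃ pc : ℕ → ℝ, PvoBd (𝔇.sys D ψ εs 𝒯) D d ψ 1 pvOm b pc ∧ ∃ E : ℕ → Set PVSample, (∀ k, MeasurableSet (E k)) ∧
      (∀ k, E k ⊆ {o | PvVC (pvConf o) (Metric.thickening ρ D) (Metric.thickening ρ (pvArcL D d ψ x)) (Metric.thickening ρ (pvArcR D d ψ))}) ∧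
      ∃ r : ℕ → ℝ, Tendsto r atTop (𝓝 0) ∧ ∀ k, pc k ≤ (pvLaw (εs k) (E k)).toReal + r k :=
  pvojb_main h hx0 hx1 hb hbd hψb hG hρ

/-- **J-GEO** (199 Quad [closed] + QuadBase, 184 InstCr [closed], 127 223 MESH).      `var`, `out`, `lim` with `κ = 2 i`;   `𝒜 ε` = the tame geometries of 199 (full measure). -/
theorem pvoj_geo : ∃ 𝒜 : ℝ → Set PvGeoT, (∀ ε : ℝ, 0 < ε → pvGeo ε (𝒜 ε)ᶜ = 0) ∧
    ∀ {D : Set ℂ} {d : ℂ} {ψ : ℂ → ℂ}, PvChart D d ψ → ∀ {x : ℝ} {𝔇 : PvoFam} {εs : ℕ → ℝ} {𝒯 : ℕ → Set PvGeoT}, PvoGuard 𝔇 D d ψ x εs 𝒯 → (∀ k, 𝒯 k ⊆ 𝒜 (εs k)) →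
      ∀ f : ℂ → ℝ, PvoTest D f → (PvoCrLim (𝔇.sys D ψ εs 𝒯) f → PvoCR (𝔇.sys D ψ εs 𝒯) (2 * Complex.I) f) ∧
        (PvoCrLim (𝔇.sys D ψ εs 𝒯).conj f → PvoCR (𝔇.sys D ψ εs 𝒯).conj (2 * Complex.I) f) :=
  pvoy_geo

/-! ## 3. the compiled glue -/

/-- **THE INSTANCE**: compiled glue over N1 (DISC), J0 (GUARD), J-ARM, J-BD, J-GEO, J-CR -/
theorem pvoj_inst (hT : PvTransport) : PvonInst := by
  intro D d ψ h x hx0 hx1 ρ hρ εs h0 h1 a b c ha hb hc had hbd hcd hψa hψb hψc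
  obtain ⟨𝔇, hW⟩ := exit_pv_disc h hx0 hx1
  obtain ⟨𝒜, hA, hgeo⟩ := pvoj_geo
  obtain ⟨𝒯, hG, hTA⟩ := pvoj_guard hW h0 h1 𝒜 hA
  obtain ⟨pc, hB, E, hEm, hEs, r, hr, hEp⟩ := pvoj_bd h.toPvChart hx0 hx1 hb hbd hψb hG hρ
  refine ⟨𝔇.sys D ψ εs 𝒯, 2 * Complex.I, 1, pvOm, pc, r, E, fun _ => rfl, mul_ne_zero two_ne_zero Complex.I_ne_zero, pvoj_om_ne,
    pvoj_arm h.toPvChart hx0 hx1 ha hc had hcd hψa hψc hG, ?_, hB, hEm, hEs, hr, hEp⟩
  intro ns hns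
  have hG1 := hG.sub hns
  obtain ⟨ms, hms, halt⟩ := pvoj_cr (pvcr_main hT) h.toPvChart hG1
  have hG2 := hG1.sub hms.tendsto_atTop
  refine ⟨ms, hms, ?_⟩
  rcases halt with hl | hl
  · left
    intro x0 R hR hx f hf hfc hfs
    exact (hgeo h.toPvChart hG2 (fun k => hTA _) f ⟨hf, hfc, x0, R, hR, hx, hfs⟩).1 (hl f ⟨hf, hfc, x0, R, hR, hx, hfs⟩)
  · right
    intro x0 R hR hx f hf hfc hfs
    exact (hgeo h.toPvChart hG2 (fun k => hTA _) f ⟨hf, hfc, x0, R, hR, hx, hfs⟩).2 (hl f ⟨hf, hfc, x0, R, hR, hx, hfs⟩)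

end Claimed.Agent.R289
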