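import Claimed.Agent.R289.Exit.LaneRP

/-!
# Row 289 (S0537, Cardy for Poisson-Voronoi), THE WALL, ROAD P, file Exit/LaneFP : **THE LANE OF CLOSE FROM FOOT TO FOOT, NO DISC**      (helper59; supplier of the cure of 186 of the MISFIT of 212; prefix `pvnj_`)

Since THE FOOT (185 68, `Tr/StateP` v3, `pvqw_W_linkF` of `Tr/ForceWI`) the white side paths start at the two feet `tgt g2(s).aOut`, `tgt g2(t).aIn`.      So the white lane joins THE FEET through sites of the thickened lane region `T_w` ALONE: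
the two right arcs (marked anywhere in the discs `S2`) are not used.      The zone `Zn` of CLOSE needs `thickening ρ T_w ⊆ Zn` only: `hZs hZt` of `pvul_lane` (147) are dropped.

* `pvnj_joinFF`   generic `PvqwDat`, twin of `pvqw_W_joinF` (147)
* `pvnj_joinFT`   at a black pair, in the words `pvkiT pvkiS pvlfFl`, twin of `pvul_joinT`
* **`pvnj_lane_feet`**   at the term `pvnjAt`, twin of `pvul_lane`
-/

set_option autoImplicit false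
set_option linter.unusedSectionVars false
set_option linter.unusedVariables false

namespace Claimed.Agent.R289

open MeasureTheory Filter Topology Set Metric Claims.C0465
open scoped ENNReal

section gen

variable {𝔇 : PvqwDat}

/-- **LINK, `Join` form, FROM FOOT TO FOOT** -/
theorem pvnj_joinFF (hD : 𝔇.Wf) (hH : 𝔇.Hook) {η : Conf PvPt} (hη : η ∈ 𝔇.W) (hn : CfOK η) {ρ : ℝ} (h1 : 𝔇.N.mu * 𝔇.h < ρ) (h2 : 𝔇.δ / 2 / 8 ≤ ρ)
    {𝔖s : PvspSt (delbPlane.T (cfSites η)) (pvspS 𝔇.ts.col (delbPlane.col η Empty.elim))} (hs : 𝔖s.At (delbPlane.pos (cfSites η)) (𝔇.ts.reg 𝔇.N 𝔇.zs 𝔇.h))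
    {𝔖t : PvspSt (delbPlane.T (cfSites η)) (pvspS 𝔇.tt.col (delbPlane.col η Empty.elim))} (ht : 𝔖t.At (delbPlane.pos (cfSites η)) (𝔇.tt.reg 𝔇.N 𝔇.zt 𝔇.h)) :
    (delbPlane.T (cfSites η)).Join univ
      {v | pvspS 𝔇.ts.col (delbPlane.col η Empty.elim) v = false ∧ delbPlane.pos (cfSites η) v ∈ thickening ρ 𝔇.Tc}
      ((delbPlane.T (cfSites η)).tgt 𝔖t.g2.aIn) ((delbPlane.T (cfSites η)).tgt 𝔖s.g2.aOut) := by
  obtain ⟨x, ⟨𝔖, hA, ex⟩, x', ⟨𝔖', hA', ex'⟩, hj⟩ := pvqw_W_linkF hD hH hη hn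
  have hT : (delbPlane.T (cfSites η)).IsSph := delb_plane_isSph hn.del
  have e1 : 𝔖.g2.aOut = 𝔖s.g2.aOut := (pvsp_at_feet hT (fun v hp hm => hD.ws.tubes ⟨hp, hm⟩) hA hs).1
  have e2 : 𝔖'.g2.aIn = 𝔖t.g2.aIn := (pvsp_at_feet hT (fun v hp hm => hD.wt.tubes ⟨hp, hm⟩) hA' ht).2
  rw [e1] at ex
  rw [e2] at ex'
  have hx : x ∈ cfSites η := by rw [ex]; exact ((delbPlane.T (cfSites η)).tgt 𝔖s.g2.aOut).2
  have hx' : x' ∈ cfSites η := by rw [ex']; exact ((delbPlane.T (cfSites η)).tgt 𝔖t.g2.aIn).2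
  have key := pvnk_join_sites hn _ (pvqw_W_net hD hη h1 h2) (fun z hz w hw => mem_thickening_iff.2 ⟨z, hz, by rw [dist_eq_norm]; exact hw⟩) hx hx' hj
  have ea : (⟨x, hx⟩ : ↥(cfSites η)) = (delbPlane.T (cfSites η)).tgt 𝔖s.g2.aOut := Subtype.ext ex
  have eb : (⟨x', hx'⟩ : ↥(cfSites η)) = (delbPlane.T (cfSites η)).tgt 𝔖t.g2.aIn := Subtype.ext ex'
  rw [ea, eb] at key
  refine pl_hx_join_symm (pvta_join_mono ?_ (pvqw_join_pl hn.del key))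
  intro w hw
  exact ⟨pvqw_S_false.2 hw.1, hw.2⟩

/-- the same at a BLACK pair, in the words of `Tr/KitI` (`pvkiT pvkiS`), `Tr/LocalF` (`pvlfFl`) -/
theorem pvnj_joinFT {𝔇 : PvqwDat} (hD : 𝔇.Wf) (hH : 𝔇.Hook) (hcs : 𝔇.ts.col = true) (hct : 𝔇.tt.col = true) {η : Conf PvPt} (hη : η ∈ 𝔇.W) (hn : CfOK η)
    {ρ : ℝ} (h1 : 𝔇.N.mu * 𝔇.h < ρ) (h2 : 𝔇.δ / 2 / 8 ≤ ρ) {Ss St : PvspSt (pvkiT η) (pvlfFl true (pvkiS η))}
    (hs : Ss.At Subtype.val (𝔇.ts.reg 𝔇.N 𝔇.zs 𝔇.h)) (ht : St.At Subtype.val (𝔇.tt.reg 𝔇.N 𝔇.zt 𝔇.h)) :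
    (pvkiT η).Join univ {v | pvlfFl true (pvkiS η) v = false ∧ (v : ℂ) ∈ thickening ρ 𝔇.Tc} ((pvkiT η).tgt St.g2.aIn) ((pvkiT η).tgt Ss.g2.aOut) := by
  obtain ⟨N, h, ts, zs, tt, zt, δ, L⟩ := 𝔇
  cases ts
  cases tt
  simp only at hcs hct
  subst hcs hct
  exact pvnj_joinFF hD hH hη hn h1 h2 hs ht

end gen

section lane

variable {τ : Type} {c : ℝ} {𝔓 : PvrxPar τ c} {D : PvypDat τ} {W : PvtW} {q : ℕ → ℝ≥0∞} {m : ℕ} {ε : ℝ} {π : PvtsPat τ} {G : PvusReg} {q3 : ℝ}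

/-- **THE LANE OF CLOSE AT THE TERM, FROM FOOT TO FOOT**: the zone owes `thickening ρ T_w ⊆ Zn` only -/
theorem pvnj_lane_feet (hδ : 0 < G.δ) (hL : G.L.IsChain PvlnAdj) (hH : (G.qw 𝔓 m π).Hook) (hR : (pvnjAt 𝔓 D W q m ε π (G.reg q3) G.Lam G.Kr).Rg)
    (hcs : (𝔓.ty m π.zs π.ts).col = true) {η : Conf PvPt} (hn : CfOK η) (hη : η ∈ (pvnjAt 𝔓 D W q m ε π (G.reg q3) G.Lam G.Kr).geo.W)
    {ρ : ℝ} (h1 : 𝔓.mod.N.mu * pvlmH m < ρ) (h2 : G.δ / 2 / 8 ≤ ρ) {Zn : Set ℂ} (hZ : thickening ρ (G.qw 𝔓 m π).Tc ⊆ Zn)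
    {Ss St : PvspSt (pvkiT η) (pvlfFl true (pvkiS η))}
    (ats : Ss.At Subtype.val ((𝔓.ty m π.zs π.ts).reg 𝔓.mod.N π.zs (pvlmH m))) (att : St.At Subtype.val ((𝔓.ty m π.zt π.tt).reg 𝔓.mod.N π.zt (pvlmH m))) :
    (pvkiT η).Join Set.univ {v | pvlfFl true (pvkiS η) v = false ∧ (v : ℂ) ∈ Zn} ((pvkiT η).tgt St.g2.aIn) ((pvkiT η).tgt Ss.g2.aOut) := by
  have hD := pvul_wf hδ hL hR
  have hct : (𝔓.ty m π.zt π.tt).col = true := by rw [← hcs]; exact hR.col.symm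
  rw [pvul_W_eq hcs] at hη
  refine pvta_join_mono ?_ (pvnj_joinFT hD hH hcs hct hη hn h1 h2 ats att)
  intro v hv
  exact ⟨hv.1, hZ hv.2⟩

end lane

end Claimed.Agent.R289
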