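-- KEEP
import Claimed.Agent.R289.Exit.ArcRP
import Claimed.Agent.R289.Tr.CloseNQ
import Claimed.Agent.R289.Tr.ForceWI
import Claimed.Agent.R289.Tr.ColM

/-!
# Row 289 (S0537), THE WALL, ROAD P, Exit/LaneRP : THE LANE HYPOTHESES OF CLOSE AT THE TERM OF RECORD      (helper147; prefix `pvul_`)

`pvcu_cl` (260, `Tr/CloseNQ.lean`) closes a pattern at one configuration.   Four of its hypotheses speak of the white lane:   `hX hr hr' hlane`.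
THIS FILE produces them VERBATIM at the term `pvnjAt 𝔓 D W q m ε π (G.reg q3) G.Lam G.Kr` of `Exit/ArcRP.lean` (286), from
* `η ∈ (pvnjAt ..).geo.W`   (second half of `PvnjPar.Pr η g`),
* the fields `δ0 Lch hook rg` of `PvusReg.Ok`,
* the two states on the plane map (fields `stars start ats att` of `PvcuArc`),
* ONE inclusion of regions: the open `ρ`-neighbourhood of `T_w` (`PvqwDat.Tc`) and the two star zones lie in the zone `Zn`.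
      sec. 1  `pvul_joinT` (any black pair), `pvul_wf`, `pvul_W_eq`, **`pvul_lane`**.
      sec. 2  **REGION** (hypothesis `hLam` of `pvnc_main` / `pvnc_total`), PATH FORM: a path of the plane map which starts off the zone `UN \ Lam` and ends in it has a vertex `q.v l`, `0 < l`, joined off the zone to EVERY site of the layer:
              `l` = the first index in the zone; `q.v (l - 1)` lies in the layer (`pvul_edge_lam`: an edge at a vertex of the `3ρ`-core has length `≤ 2ρ` + field `lam` of `PvzzPar.WfA`); the sites of the layer are joined off the zone: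
              `pvul_layer_conn` / **`pvul_hreg`** from the record `PvulLay` (closed connected contour `Lc`, `pvwm_thick_conn` of 194);   `pvul_conn_J` / **`pvul_hreg_J`** from (F6) of 260 (`JoinedIn Uc`, `Uc` in the `ρ`-core, zone more than `ρ` away).
      sec. 3  **`pvul_lane2`** = THE LANE FROM FOOT TO FOOT (`tgt g2(t).aIn → tgt g2(s).aOut`), all its sites marked in a THIN zone `Zn` (no rib, no disc `S2 ⊆ Zn`), TWO RADII (plug lanes `ρ₁ > μ h`, ring part `ρ₂ ≥ δ/16`);   `pvul_join_own` = owner form of `pvkq_join_of_path`.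
              NO MESH IS ASKED OUTSIDE THE WINDOW `Ew` (the form "every site of the zone of the plug `n - 1` is joined to the layer" cannot be paid: nothing is known between that plug and the window).
-/

set_option autoImplicit false
set_option linter.unusedSectionVars false
set_option linter.unusedVariables false

namespace Claimed.Agent.R289

open Set Metric Relation Claims.C0465
open scoped ENNReal

section gen

/-- `pvqw_W_joinF` at a BLACK pair, in the words of `Tr/KitI` (`pvkiT pvkiS`), `Tr/LocalF` (`pvlfFl`) -/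
theorem pvul_joinT {𝔇 : PvqwDat} (hD : 𝔇.Wf) (hH : 𝔇.Hook) (hcs : 𝔇.ts.col = true) (hct : 𝔇.tt.col = true) {η : Conf PvPt} (hη : η ∈ 𝔇.W) (hn : CfOK η)
    {ρ : ℝ} (h1 : 𝔇.N.mu * 𝔇.h < ρ) (h2 : 𝔇.δ / 2 / 8 ≤ ρ) {Ss St : PvspSt (pvkiT η) (pvlfFl true (pvkiS η))}
    (hs : Ss.At Subtype.val (𝔇.ts.reg 𝔇.N 𝔇.zs 𝔇.h)) (ht : St.At Subtype.val (𝔇.tt.reg 𝔇.N 𝔇.zt 𝔇.h)) :
    (pvkiT η).Join univ ({v | pvlfFl true (pvkiS η) v = false ∧ (v : ℂ) ∈ thickening ρ 𝔇.Tc} ∪ Ss.g2.R ∪ St.g2.R) ((pvkiT η).tgt St.g2.aIn) ((pvkiT η).tgt Ss.g2.aOut) := by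
  obtain ⟨N, h, ts, zs, tt, zt, δ, L⟩ := 𝔇
  cases ts
  cases tt
  simp only at hcs hct
  subst hcs hct
  exact pvqw_W_joinF hD hH hη hn h1 h2 hs ht

end gen

section lane

variable {τ : Type} {c : ℝ} {𝔓 : PvrxPar τ c} {D : PvypDat τ} {W : PvtW} {q : ℕ → ℝ≥0∞} {m : ℕ} {ε : ℝ} {π : PvtsPat τ} {G : PvusReg} {q3 : ℝ}

/-- the data of the lane are in order as soon as the regions are -/
theorem pvul_wf (hδ : 0 < G.δ) (hL : G.L.IsChain PvlnAdj) (h : (pvnjAt 𝔓 D W q m ε π (G.reg q3) G.Lam G.Kr).Rg) : (G.qw 𝔓 m π).Wf where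
  ws := h.ws
  wt := h.wt
  col := h.col
  δ0 := hδ
  ch := hL

/-- at a black pattern the lane event of the term is the lane event of record of `Tr/ForceWI` -/
theorem pvul_W_eq (hcs : (𝔓.ty m π.zs π.ts).col = true) : (pvnjAt 𝔓 D W q m ε π (G.reg q3) G.Lam G.Kr).geo.W = (G.qw 𝔓 m π).W := by
  show pvspEvt 𝔓.mod.N (𝔓.ty m π.zs π.ts) π.zs (pvlmH m) .pw ∩ pvspEvt 𝔓.mod.N (𝔓.ty m π.zt π.tt) π.zt (pvlmH m) .mw ∩ pvlnLaneEv G.δ false G.L =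
    pvspEvt 𝔓.mod.N (𝔓.ty m π.zs π.ts) π.zs (pvlmH m) .pw ∩ pvspEvt 𝔓.mod.N (𝔓.ty m π.zt π.tt) π.zt (pvlmH m) .mw ∩ pvlnLaneEv G.δ (!(𝔓.ty m π.zs π.ts).col) G.L
  rw [hcs]
  rfl

/-- **THE LANE OF CLOSE AT THE TERM**: hypotheses `hX hr hr' hlane` of `pvcu_cl` -/
theorem pvul_lane (hδ : 0 < G.δ) (hL : G.L.IsChain PvlnAdj) (hH : (G.qw 𝔓 m π).Hook) (hR : (pvnjAt 𝔓 D W q m ε π (G.reg q3) G.Lam G.Kr).Rg)
    (hcs : (𝔓.ty m π.zs π.ts).col = true) {η : Conf PvPt} (hn : CfOK η) (hη : η ∈ (pvnjAt 𝔓 D W q m ε π (G.reg q3) G.Lam G.Kr).geo.W)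
    {ρ : ℝ} (h1 : 𝔓.mod.N.mu * pvlmH m < ρ) (h2 : G.δ / 2 / 8 ≤ ρ) {Zn : Set ℂ} (hZ : thickening ρ (G.qw 𝔓 m π).Tc ⊆ Zn)
    (hZs : (𝔓.ty m π.zs π.ts).reg 𝔓.mod.N π.zs (pvlmH m) .S2 ⊆ Zn) (hZt : (𝔓.ty m π.zt π.tt).reg 𝔓.mod.N π.zt (pvlmH m) .S2 ⊆ Zn)
    {Ss St : PvspSt (pvkiT η) (pvlfFl true (pvkiS η))}
    (stars : PvplStar (pvkiT η) Subtype.val (fun w => w ∈ (𝔓.ty m π.zs π.ts).reg 𝔓.mod.N π.zs (pvlmH m) .O2) ((𝔓.ty m π.zs π.ts).reg 𝔓.mod.N π.zs (pvlmH m) .S2))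
    (start : PvplStar (pvkiT η) Subtype.val (fun w => w ∈ (𝔓.ty m π.zt π.tt).reg 𝔓.mod.N π.zt (pvlmH m) .O2) ((𝔓.ty m π.zt π.tt).reg 𝔓.mod.N π.zt (pvlmH m) .S2))
    (ats : Ss.At Subtype.val ((𝔓.ty m π.zs π.ts).reg 𝔓.mod.N π.zs (pvlmH m))) (att : St.At Subtype.val ((𝔓.ty m π.zt π.tt).reg 𝔓.mod.N π.zt (pvlmH m))) :
    ∃ (Xl : Set ↥(cfSites η)) (r r' : ↥(cfSites η)), (∀ v ∈ Xl, pvlfFl true (pvkiS η) v = false ∧ (v : ℂ) ∈ Zn) ∧ r ∈ Ss.g2.R ∧ r' ∈ St.g2.R ∧ (pvkiT η).Join Set.univ Xl r' r := by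
  have hD := pvul_wf hδ hL hR
  have hct : (𝔓.ty m π.zt π.tt).col = true := by rw [← hcs]; exact hR.col.symm
  rw [pvul_W_eq hcs] at hη
  have key := pvul_joinT hD hH hcs hct hη hn h1 h2 ats att
  refine ⟨_, _, _, ?_, pvtg_aOut_tgt_R Ss.g2, pvtg_aIn_tgt_R St.g2, key⟩
  rintro v ((hv | hv) | hv)
  · exact ⟨hv.1, hZ hv.2⟩
  · refine ⟨pvtg_R_white Ss.g2 hv, hZs ?_⟩
    obtain ⟨k, -, -, rfl⟩ := hv
    exact pvfv_gate_S2 hR.ws.nest stars ats k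
  · refine ⟨pvtg_R_white St.g2 hv, hZt ?_⟩
    obtain ⟨k, -, -, rfl⟩ := hv
    exact pvfv_gate_S2 hR.wt.nest start att k

end lane

/-! ## 2. REGION: the layer is joined off the zone -/

section region

variable {η : Conf PvPt} {ρ r : ℝ} {Ew UN Lam Lc : Set ℂ}

/-- **what the layer owes to CLOSE** (regions only).   `Lc` = a closed connected set which runs round the zone `UN \ Lam` (the outer contour of the window, the outer layer of cells of a hull ..):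
every point of the layer is within `r` of it, no point of the zone is, and the mesh of the window is felt on it at the scale `r` -/
structure PvulLay (Ew UN Lam : Set ℂ) (ρ : ℝ) (Lc : Set ℂ) (r : ℝ) : Prop where
  r0 : 0 ≤ r
  cl : IsClosed Lc
  conn : IsPreconnected Lc
  lam : Lam ⊆ cthickening r Lc
  zone : Disjoint (UN \ Lam) (cthickening r Lc)
  mesh : ∀ w ∈ Lc, ∃ z ∈ pvtrCore ρ Ew, ‖w - z‖ ≤ r - ρ

/-- the mesh of the window is felt on the contour -/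
theorem PvulLay.dense (H : PvulLay Ew UN Lam ρ Lc r) {Y : Set ℂ} (hm : PvtrMesh ρ Ew Y) : VorDense Y Lc r := by
  intro w hw
  obtain ⟨z, hz, hwz⟩ := H.mesh w hw
  obtain ⟨u, hu, hzu⟩ := hm z hz
  refine ⟨u, hu, ?_⟩
  calc ‖w - u‖ = ‖(w - z) + (z - u)‖ := by rw [sub_add_sub_cancel]
    _ ≤ ‖w - z‖ + ‖z - u‖ := norm_add_le _ _
    _ ≤ (r - ρ) + ρ := add_le_add hwz hzu
    _ = r := by ring

/-- an edge of the plane map which enters the zone starts in the layer -/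
theorem pvul_edge_lam (hρ : 0 < ρ) (hm : PvtrMesh ρ Ew (cfSites η)) (hK : UN ⊆ pvtrCore (3 * ρ) Ew) (hlam : ∀ a ∈ UN, a ∉ Lam → closedBall a (2 * ρ) ⊆ UN)
    {u v : ↥(cfSites η)} (hA : (pvkiT η).Adj u v) (hv : (v : ℂ) ∈ UN \ Lam) (hu : (u : ℂ) ∉ UN \ Lam) : (u : ℂ) ∈ Lam := by
  obtain ⟨d, rfl, rfl⟩ := hA
  have hf := delb_plane_face ((pvkiT η).opp d)
  rw [(pvkiT η).src_opp', (pvkiT η).tgt_opp] at hf
  have hs := (pvtr_of_mesh_vertex hρ hm (hK hv.1) hf).side_le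
  have hU : (((pvkiT η).src d : ↥(cfSites η)) : ℂ) ∈ UN := by
    refine hlam _ hv.1 hv.2 ?_
    rw [mem_closedBall, dist_eq_norm, norm_sub_rev]
    exact hs
  by_contra hc
  exact hu ⟨hU, hc⟩

/-- two sites of the layer are joined off the zone -/
theorem pvul_layer_conn (hη : DelGood (cfSites η)) (H : PvulLay Ew UN Lam ρ Lc r) (hm : PvtrMesh ρ Ew (cfSites η)) {u a : ↥(cfSites η)} (hu : (u : ℂ) ∈ Lam) (ha : (a : ℂ) ∈ Lam) :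
    ReflTransGen (fun u v : ↥(cfSites η) => (pvkiT η).Adj u v ∧ (v : ℂ) ∉ UN \ Lam) u a := by
  have h1 := pvwm_thick_conn hη.lf H.r0 H.cl H.conn (H.dense hm) u.2 (H.lam hu) a.2 (H.lam ha)
  obtain ⟨hb, h2⟩ := pvc2_plane_chain hη h1
  exact ReflTransGen.mono (fun x y hxy => ⟨hxy.1, fun hy => Set.disjoint_left.1 H.zone hy hxy.2.2⟩) _ _ h2

/-- **REGION, PATH FORM**: a path of the plane map which starts off the zone and ends in the zone has a vertex (not the first one) which is joined off the zone to every site of the layer -/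
theorem pvul_hreg (hη : DelGood (cfSites η)) (hρ : 0 < ρ) (hm : PvtrMesh ρ Ew (cfSites η)) (hK : UN ⊆ pvtrCore (3 * ρ) Ew) (hlam : ∀ a ∈ UN, a ∉ Lam → closedBall a (2 * ρ) ⊆ UN)
    (H : PvulLay Ew UN Lam ρ Lc r) (q : (pvkiT η).Pth) (h0 : (q.v 0 : ℂ) ∉ UN \ Lam) (h1 : (q.v q.n : ℂ) ∈ UN \ Lam) :
    ∃ l, 0 < l ∧ l ≤ q.n ∧ ∀ a : ↥(cfSites η), (a : ℂ) ∈ Lam → ReflTransGen (fun u v : ↥(cfSites η) => (pvkiT η).Adj u v ∧ (v : ℂ) ∉ UN \ Lam) (q.v l) a := by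
  classical
  have hex : ∃ l, (q.v l : ℂ) ∈ UN \ Lam := ⟨q.n, h1⟩
  have hl := Nat.find_spec hex
  have hmin : ∀ k, k < Nat.find hex → (q.v k : ℂ) ∉ UN \ Lam := fun k hk => Nat.find_min hex hk
  have hle : Nat.find hex ≤ q.n := Nat.find_min' hex h1
  have hpos : 0 < Nat.find hex := by
    rcases Nat.eq_zero_or_pos (Nat.find hex) with e | e
    · rw [e] at hl
      exact absurd hl h0
    · exact e
  obtain ⟨l, hl'⟩ : ∃ l, Nat.find hex = l + 1 := ⟨Nat.find hex - 1, by omega⟩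
  rw [hl'] at hl hle hmin
  refine ⟨l + 1, Nat.succ_pos l, hle, fun a ha => ?_⟩
  have hn := hmin l (Nat.lt_succ_self l)
  have hA : (pvkiT η).Adj (q.v l) (q.v (l + 1)) := ⟨q.e l, q.src_e l (by omega), q.tgt_e l (by omega)⟩
  have hL := pvul_edge_lam hρ hm hK hlam hA hl hn
  refine ReflTransGen.head ⟨⟨(pvkiT η).opp (q.e l), ?_, ?_⟩, hn⟩ (pvul_layer_conn hη H hm hL ha)
  · rw [(pvkiT η).src_opp', q.tgt_e l (by omega)]
  · rw [(pvkiT η).tgt_opp, q.src_e l (by omega)]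

/-! ### the same in the form (F6) of 260: the layer is path connected inside a set `Uc` of the `ρ`-core of the window, the zone is more than `ρ` away from `Uc` -/

/-- two sites joined inside `Uc` are joined off the zone -/
theorem pvul_conn_J (hη : DelGood (cfSites η)) (hm : PvtrMesh ρ Ew (cfSites η)) {Uc Zn : Set ℂ} (hU : Uc ⊆ pvtrCore ρ Ew) (hZ : ∀ z ∈ Zn, ∀ w ∈ Uc, ρ < ‖z - w‖)
    {u a : ↥(cfSites η)} (hj : JoinedIn Uc (u : ℂ) (a : ℂ)) : ReflTransGen (fun u v : ↥(cfSites η) => (pvkiT η).Adj u v ∧ (v : ℂ) ∉ Zn) u a := by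
  obtain ⟨γ, hγ⟩ := hj
  have hS : IsPreconnected (range γ) := isPreconnected_range γ.continuous
  have h1 := pvge_conn hη.lf hS (pvge_site_meet u.2 ⟨0, γ.source⟩) (pvge_site_meet a.2 ⟨1, γ.target⟩)
  obtain ⟨hb, h2⟩ := pvc2_plane_chain hη h1
  refine ReflTransGen.mono (fun x y hxy => ⟨hxy.1, fun hy => ?_⟩) _ _ h2
  obtain ⟨-, c, hc, t, rfl⟩ := hxy.2
  obtain ⟨w, hw, hcw⟩ := hm _ (hU (hγ t))
  have h3 : ‖γ t - (y : ℂ)‖ ≤ ρ := (hc w hw).trans hcw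
  have h4 := hZ _ hy _ (hγ t)
  rw [norm_sub_rev] at h4
  linarith

/-- **REGION, PATH FORM, from (F6)** -/
theorem pvul_hreg_J (hη : DelGood (cfSites η)) (hρ : 0 < ρ) (hm : PvtrMesh ρ Ew (cfSites η)) (hK : UN ⊆ pvtrCore (3 * ρ) Ew) (hlam : ∀ a ∈ UN, a ∉ Lam → closedBall a (2 * ρ) ⊆ UN)
    {Uc : Set ℂ} (hU : Uc ⊆ pvtrCore ρ Ew) (hJ : ∀ a ∈ Lam, ∀ a' ∈ Lam, JoinedIn Uc a a') (hZ : ∀ z ∈ UN \ Lam, ∀ w ∈ Uc, ρ < ‖z - w‖)
    (q : (pvkiT η).Pth) (h0 : (q.v 0 : ℂ) ∉ UN \ Lam) (h1 : (q.v q.n : ℂ) ∈ UN \ Lam) :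
    ∃ l, 0 < l ∧ l ≤ q.n ∧ ∀ a : ↥(cfSites η), (a : ℂ) ∈ Lam → ReflTransGen (fun u v : ↥(cfSites η) => (pvkiT η).Adj u v ∧ (v : ℂ) ∉ UN \ Lam) (q.v l) a := by
  classical
  have hex : ∃ l, (q.v l : ℂ) ∈ UN \ Lam := ⟨q.n, h1⟩
  have hl := Nat.find_spec hex
  have hmin : ∀ k, k < Nat.find hex → (q.v k : ℂ) ∉ UN \ Lam := fun k hk => Nat.find_min hex hk
  have hle : Nat.find hex ≤ q.n := Nat.find_min' hex h1
  have hpos : 0 < Nat.find hex := by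
    rcases Nat.eq_zero_or_pos (Nat.find hex) with e | e
    · rw [e] at hl
      exact absurd hl h0
    · exact e
  obtain ⟨l, hl'⟩ : ∃ l, Nat.find hex = l + 1 := ⟨Nat.find hex - 1, by omega⟩
  rw [hl'] at hl hle hmin
  refine ⟨l + 1, Nat.succ_pos l, hle, fun a ha => ?_⟩
  have hn := hmin l (Nat.lt_succ_self l)
  have hA : (pvkiT η).Adj (q.v l) (q.v (l + 1)) := ⟨q.e l, q.src_e l (by omega), q.tgt_e l (by omega)⟩
  have hL := pvul_edge_lam hρ hm hK hlam hA hl hn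
  refine ReflTransGen.head ⟨⟨(pvkiT η).opp (q.e l), ?_, ?_⟩, hn⟩ (pvul_conn_J hη hm hU hZ (hJ _ hL _ ha))
  · rw [(pvkiT η).src_opp', q.tgt_e l (by omega)]
  · rw [(pvkiT η).tgt_opp, q.src_e l (by omega)]

end region

/-! ## 3. THE LANE FROM FOOT TO FOOT, TWO RADII (cure of 186 / 222: no disc in the zone; MISFIT 2 of 212: the ring part of the lane has its own, small, radius) -/

section own

/-- **FROM A PATH IN THE REGION OF THE COLOUR `c` TO A JOIN OF THE DELAUNAY MAP, OWNER FORM**: the owners of the points of `U` lie in `W` -/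
theorem pvul_join_own {Y : Set ℂ} (h : DelGood Y) (κ : ℂ → Bool) (c : Bool) {U W : Set ℂ} (hown : ∀ z ∈ U, ∀ v ∈ Y, z ∈ vorCell Y v → v ∈ W)
    {x y : ℂ} (hxy : JoinedIn (pvlnReg c (cfOf Y κ) ∩ U) x y) :
    ∃ a b : Y, x ∈ vorCell Y a ∧ y ∈ vorCell Y b ∧ (delMap h).Join univ (pvkqV Y κ c W) a b := by
  obtain ⟨γ, hγ⟩ := hxy
  set A : Set ℂ := {v | v ∈ Y ∧ κ v = c} with hA
  have hAY : A ⊆ Y := fun v hv => hv.1
  have hsub : range γ ⊆ vorUn Y A ∩ U := by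
    rintro _ ⟨t, rfl⟩
    rw [← pvkq_reg_eq h.lf κ c]
    exact hγ t
  obtain ⟨a, ha, b, hb, hxa, hyb, hch⟩ := vorch_chain_of_preconnected h.lf hAY (isPreconnected_range γ.continuous) hsub
    (x := x) (y := y) ⟨0, γ.source⟩ ⟨1, γ.target⟩
  have key : ∀ b' : ℂ, Relation.ReflTransGen (VorchR Y A U) a b' →
      ∃ hb' : b' ∈ Y, Relation.ReflTransGen (fun u v => (delMap h).EdgeIn univ u v ∧ v ∈ pvkqV Y κ c W) (⟨a, ha.1⟩ : Y) ⟨b', hb'⟩ := by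
    intro b' hb'
    induction hb' with
    | refl => exact ⟨ha.1, Relation.ReflTransGen.refl⟩
    | @tail v w _ hvw ih =>
      obtain ⟨hv, hch'⟩ := ih
      obtain ⟨hvA, hwA, z, ⟨hzv, hzw⟩, hzU⟩ := hvw
      refine ⟨hwA.1, ?_⟩
      by_cases e : v = w
      · subst e; exact hch'
      · exact hch'.tail ⟨(dls_edgeIn_univ h _ _).2 ⟨hv, hwA.1, e, ⟨z, hzv, hzw⟩⟩, hwA.2, hown z hzU w hwA.1 hzw⟩
  obtain ⟨hbY, hch'⟩ := key b hch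
  exact ⟨⟨a, ha.1⟩, ⟨b, hbY⟩, hxa.1, hyb.1, ⟨ha.2, hown x hxa.2 a ha.1 hxa.1⟩, hch'⟩

/-- the same at a configuration, between two sites -/
theorem pvul_join_sites {η : Conf PvPt} (hn : CfOK η) (c : Bool) {U W : Set ℂ} (hown : ∀ z ∈ U, ∀ v ∈ cfSites η, z ∈ vorCell (cfSites η) v → v ∈ W)
    {x y : ℂ} (hx : x ∈ cfSites η) (hy : y ∈ cfSites η) (hxy : JoinedIn (pvlnReg c η ∩ U) x y) :
    (delMap hn.del).Join univ (pvkqV (cfSites η) (cfCol η) c W) ⟨x, hx⟩ ⟨y, hy⟩ := by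
  have hreg : pvlnReg c η = pvlnReg c (cfOf (cfSites η) (cfCol η)) := congrArg _ (pvnk_cfOf hn)
  rw [hreg] at hxy
  obtain ⟨a, b, hxa, hyb, hj⟩ := pvul_join_own hn.del (cfCol η) c hown hxy
  have hown' : ∀ (s : ℂ) (v : cfSites η), s ∈ cfSites η → s ∈ vorCell (cfSites η) v → (v : ℂ) = s := by
    intro s v hs hsv
    have h0 := hsv s hs
    rw [sub_self, norm_zero] at h0
    exact (sub_eq_zero.1 (norm_le_zero_iff.1 h0)).symm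
  have ea : a = ⟨x, hx⟩ := Subtype.ext (hown' x a hx hxa)
  have eb : b = ⟨y, hy⟩ := Subtype.ext (hown' y b hy hyb)
  rw [ea, eb] at hj
  exact hj

/-- the owner of a point is at least as near as any site -/
theorem pvul_owner_lt {Y : Set ℂ} {z v : ℂ} {ρ : ℝ} (hv : z ∈ vorCell Y v) (hnet : ∃ s ∈ Y, ‖s - z‖ < ρ) : dist v z < ρ := by
  obtain ⟨s, hs, hsz⟩ := hnet
  calc dist v z = ‖z - v‖ := by rw [dist_eq_norm, norm_sub_rev]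
    _ ≤ ‖z - s‖ := hv s hs
    _ = ‖s - z‖ := norm_sub_rev _ _
    _ < ρ := hsz

end own

section two

variable {𝔇 : PvqwDat}

/-- on `W` the owners of the points of `T_w` lie in the TWO-RADII neighbourhood of the three pieces -/
theorem pvul_W_own (hD : 𝔇.Wf) {η : Conf PvPt} (hη : η ∈ 𝔇.W) {ρ₁ ρ₂ : ℝ} (h1 : 𝔇.N.mu * 𝔇.h < ρ₁) (h2 : 𝔇.δ / 2 / 8 ≤ ρ₂) {Zn : Set ℂ}
    (hZs : thickening ρ₁ (cthickening (𝔇.N.mu * 𝔇.h) (𝔇.ts.reg 𝔇.N 𝔇.zs 𝔇.h .Mp)) ⊆ Zn) (hZ3 : thickening ρ₂ (pvlnU 𝔇.δ 𝔇.L) ⊆ Zn)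
    (hZt : thickening ρ₁ (cthickening (𝔇.N.mu * 𝔇.h) (𝔇.tt.reg 𝔇.N 𝔇.zt 𝔇.h .Mm)) ⊆ Zn) :
    ∀ z ∈ 𝔇.Tc, ∀ v ∈ cfSites η, z ∈ vorCell (cfSites η) v → v ∈ Zn := by
  obtain ⟨⟨⟨-, hm, -⟩, ⟨-, hm', -⟩⟩, h3⟩ := hη
  rintro z ((hz | hz) | hz) v hv hzv
  · obtain ⟨s, hs, hsz⟩ := pvqw_net_cth hD.ws.rho0 hm (subset_union_right.trans (hD.ws.K_core .pw)) hz
    exact hZs (mem_thickening_iff.2 ⟨z, hz, pvul_owner_lt hzv ⟨s, hs, lt_of_le_of_lt hsz h1⟩⟩)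
  · obtain ⟨s, hs, hsz⟩ := pvln_lane_net hD.δ0 hD.ch h3 rfl hz
    exact hZ3 (mem_thickening_iff.2 ⟨z, hz, pvul_owner_lt hzv ⟨s, hs, lt_of_lt_of_le hsz h2⟩⟩)
  · obtain ⟨s, hs, hsz⟩ := pvqw_net_cth hD.wt.rho0 hm' (subset_union_right.trans (hD.wt.K_core .mw)) hz
    exact hZt (mem_thickening_iff.2 ⟨z, hz, pvul_owner_lt hzv ⟨s, hs, lt_of_le_of_lt hsz h1⟩⟩)

/-- **THE LANE FROM FOOT TO FOOT**, plane map of record, GIVEN states of `s` and `t`, two radii -/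
theorem pvul_joinF2 (hD : 𝔇.Wf) (hH : 𝔇.Hook) {η : Conf PvPt} (hη : η ∈ 𝔇.W) (hn : CfOK η) {ρ₁ ρ₂ : ℝ} (h1 : 𝔇.N.mu * 𝔇.h < ρ₁) (h2 : 𝔇.δ / 2 / 8 ≤ ρ₂) {Zn : Set ℂ}
    (hZs : thickening ρ₁ (cthickening (𝔇.N.mu * 𝔇.h) (𝔇.ts.reg 𝔇.N 𝔇.zs 𝔇.h .Mp)) ⊆ Zn) (hZ3 : thickening ρ₂ (pvlnU 𝔇.δ 𝔇.L) ⊆ Zn)
    (hZt : thickening ρ₁ (cthickening (𝔇.N.mu * 𝔇.h) (𝔇.tt.reg 𝔇.N 𝔇.zt 𝔇.h .Mm)) ⊆ Zn)
    {𝔖s : PvspSt (delbPlane.T (cfSites η)) (pvspS 𝔇.ts.col (delbPlane.col η Empty.elim))} (hs : 𝔖s.At (delbPlane.pos (cfSites η)) (𝔇.ts.reg 𝔇.N 𝔇.zs 𝔇.h))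
    {𝔖t : PvspSt (delbPlane.T (cfSites η)) (pvspS 𝔇.tt.col (delbPlane.col η Empty.elim))} (ht : 𝔖t.At (delbPlane.pos (cfSites η)) (𝔇.tt.reg 𝔇.N 𝔇.zt 𝔇.h)) :
    (delbPlane.T (cfSites η)).Join univ {v | pvspS 𝔇.ts.col (delbPlane.col η Empty.elim) v = false ∧ delbPlane.pos (cfSites η) v ∈ Zn}
      ((delbPlane.T (cfSites η)).tgt 𝔖t.g2.aIn) ((delbPlane.T (cfSites η)).tgt 𝔖s.g2.aOut) := by
  obtain ⟨x, ⟨𝔖, hA, rfl⟩, x', ⟨𝔖', hA', rfl⟩, hj⟩ := pvqw_W_linkF hD hH hη hn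
  have hT : (delbPlane.T (cfSites η)).IsSph := delb_plane_isSph hn.del
  have e1 := (pvsp_at_feet hT (fun v hp hm => hD.ws.tubes ⟨hp, hm⟩) hA hs).1
  have e2 := (pvsp_at_feet hT (fun v hp hm => hD.wt.tubes ⟨hp, hm⟩) hA' ht).2
  rw [e1, e2] at hj
  have key := pvul_join_sites hn 𝔇.b (pvul_W_own hD hη h1 h2 hZs hZ3 hZt) ((delbPlane.T (cfSites η)).tgt 𝔖s.g2.aOut).2 ((delbPlane.T (cfSites η)).tgt 𝔖t.g2.aIn).2 hj
  refine pl_hx_join_symm (pvta_join_mono ?_ (pvqw_join_pl hn.del key))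
  intro w hw
  exact ⟨pvqw_S_false.2 hw.1, hw.2⟩

/-- `pvul_joinF2` at a BLACK pair, in the words of `Tr/KitI` (`pvkiT pvkiS`), `Tr/LocalF` (`pvlfFl`) -/
theorem pvul_joinT2 (hD : 𝔇.Wf) (hH : 𝔇.Hook) (hcs : 𝔇.ts.col = true) (hct : 𝔇.tt.col = true) {η : Conf PvPt} (hη : η ∈ 𝔇.W) (hn : CfOK η)
    {ρ₁ ρ₂ : ℝ} (h1 : 𝔇.N.mu * 𝔇.h < ρ₁) (h2 : 𝔇.δ / 2 / 8 ≤ ρ₂) {Zn : Set ℂ}
    (hZs : thickening ρ₁ (cthickening (𝔇.N.mu * 𝔇.h) (𝔇.ts.reg 𝔇.N 𝔇.zs 𝔇.h .Mp)) ⊆ Zn) (hZ3 : thickening ρ₂ (pvlnU 𝔇.δ 𝔇.L) ⊆ Zn)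
    (hZt : thickening ρ₁ (cthickening (𝔇.N.mu * 𝔇.h) (𝔇.tt.reg 𝔇.N 𝔇.zt 𝔇.h .Mm)) ⊆ Zn) {Ss St : PvspSt (pvkiT η) (pvlfFl true (pvkiS η))}
    (hs : Ss.At Subtype.val (𝔇.ts.reg 𝔇.N 𝔇.zs 𝔇.h)) (ht : St.At Subtype.val (𝔇.tt.reg 𝔇.N 𝔇.zt 𝔇.h)) :
    (pvkiT η).Join univ {v | pvlfFl true (pvkiS η) v = false ∧ (v : ℂ) ∈ Zn} ((pvkiT η).tgt St.g2.aIn) ((pvkiT η).tgt Ss.g2.aOut) := by
  obtain ⟨N, h, ts, zs, tt, zt, δ, L⟩ := 𝔇
  cases ts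
  cases tt
  simp only at hcs hct
  subst hcs hct
  exact pvul_joinF2 hD hH hη hn h1 h2 hZs hZ3 hZt hs ht

end two

section lane2

variable {τ : Type} {c : ℝ} {𝔓 : PvrxPar τ c} {D : PvypDat τ} {W : PvtW} {q : ℕ → ℝ≥0∞} {m : ℕ} {ε : ℝ} {π : PvtsPat τ} {G : PvusReg} {q3 : ℝ}

/-- **THE LANE OF CLOSE AT THE TERM, FROM FOOT TO FOOT, INSIDE A THIN ZONE** (field `lane` of `PvnjPar.Cc` after the cure of 186 / 222: no rib, no disc, no star zone);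
`ρ₁ > μ h` = radius of the two lanes of the plugs (rooms `reg .Mp (s)`, `reg .Mm (t)`: lane + foot strip), `ρ₂ ≥ δ / 16` = radius of the ring part -/
theorem pvul_lane2 (hδ : 0 < G.δ) (hL : G.L.IsChain PvlnAdj) (hH : (G.qw 𝔓 m π).Hook) (hR : (pvnjAt 𝔓 D W q m ε π (G.reg q3) G.Lam G.Kr).Rg)
    (hcs : (𝔓.ty m π.zs π.ts).col = true) {η : Conf PvPt} (hn : CfOK η) (hη : η ∈ (pvnjAt 𝔓 D W q m ε π (G.reg q3) G.Lam G.Kr).geo.W)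
    {ρ₁ ρ₂ : ℝ} (h1 : 𝔓.mod.N.mu * pvlmH m < ρ₁) (h2 : G.δ / 2 / 8 ≤ ρ₂) {Zn : Set ℂ}
    (hZs : thickening ρ₁ (cthickening (𝔓.mod.N.mu * pvlmH m) ((𝔓.ty m π.zs π.ts).reg 𝔓.mod.N π.zs (pvlmH m) .Mp)) ⊆ Zn) (hZ3 : thickening ρ₂ (pvlnU G.δ G.L) ⊆ Zn)
    (hZt : thickening ρ₁ (cthickening (𝔓.mod.N.mu * pvlmH m) ((𝔓.ty m π.zt π.tt).reg 𝔓.mod.N π.zt (pvlmH m) .Mm)) ⊆ Zn)
    {Ss St : PvspSt (pvkiT η) (pvlfFl true (pvkiS η))}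
    (ats : Ss.At Subtype.val ((𝔓.ty m π.zs π.ts).reg 𝔓.mod.N π.zs (pvlmH m))) (att : St.At Subtype.val ((𝔓.ty m π.zt π.tt).reg 𝔓.mod.N π.zt (pvlmH m))) :
    (pvkiT η).Join Set.univ {v | pvlfFl true (pvkiS η) v = false ∧ (v : ℂ) ∈ Zn} ((pvkiT η).tgt St.g2.aIn) ((pvkiT η).tgt Ss.g2.aOut) := by
  have hD := pvul_wf hδ hL hR
  have hct : (𝔓.ty m π.zt π.tt).col = true := by rw [← hcs]; exact hR.col.symm
  rw [pvul_W_eq hcs] at hη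
  exact pvul_joinT2 hD hH hcs hct hη hn h1 h2 hZs hZ3 hZt ats att

end lane2

end Claimed.Agent.R289
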