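import Claimed.Agent.R289.Defs.Top
import Claimed.Agent.R289.Defs.Bulk
import Claimed.Agent.R289.Defs.Nice
import Claimed.Agent.R289.Exit.Inst

/-!
# Row 289 (S0537), Exit/Nice : NICE = Cardy's lower bound on analytic quads = Sec. 8 (8.1-8.5) of the paper      (typed by helper163; units OBS (111, 174, 258), P82 (91), FAN (92), CX (61, 45, 174); prefix `pvo_`)

v2 (258, order of 111 08:42Z, order M1 of 243): COMPILED GLUE      `exit_pv_nice hT := pvon_nice (exit_pvo_inst hT)`
 * `pvon_nice : PvonInst → PvNice` (`Defs/Nice.lean`, 0 sorry) = model-free half of Sec. 8 (`pvo_exit` of `Obs/Abs.lean`: compactness, holomorphy, Weyl, boundary uniqueness, mirror case) + extraction of a sequence of bad `ε`;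
 * `exit_pvo_inst : PvTransport → PvonInst` = THE INSTANCE (owners 111 + 174, `Obs/Inst.lean`; when it is on main: import it here and replace the node below by a call):
 (N1) DISC   geometry-measurable triangulated disc `Ω` of the Delaunay triangulation for an analytic quad ((D1)-(D5) of audit254), its completion by 3 fans + the closing triangle (a finite `PvMap` with `IsSph`);
 (N2) OBC    P8.2 exact: `F_m^η` in the closed triangle, side values at the fan probes, coefficient of `w₁` = quenched probability of the black vertex crossing;
 (N3) CR     `E ∑_t f(z_t) ∑_j d_tj F^η_{m_j(t)} → 0` along the universal subsequence  [= orthogonality (S1) and its conjugate + BULK TRANSPORT at the label `λ_*`; `(1-a) ∫ F ∂̄f = 0` and `a ∫ conj F ∂̄f = 0`: X1-X4 of 161];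
 (N4) ARM    annealed one-arm decay (RSW);   (N5) MESH   moments of `∑ diam²`, max mesh → 0.
-/

set_option autoImplicit false

namespace Claimed.Agent.R289

/-- **THE INSTANCE of Sec. 8** (111: `Obs/Sys.lean` = the concrete `PvoSys`, the record `Good` consumed from DISC, compiled glue over `exit_pv_disc pvoj_guard pvoj_arm pvoj_bd pvoj_geo pvoj_cr`) -/
theorem exit_pvo_inst (hT : PvTransport) : PvonInst := pvoj_inst hT

theorem exit_pv_nice (hT : PvTransport) : PvNice := pvon_nice (exit_pvo_inst hT)

end Claimed.Agent.R289
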