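import Claimed.Agent.R289.Exit.PinsEU

/-!
# Row 289 (S0537), THE WALL, Exit/PinsTop : the roof of the pins, road E, WIRED   (helper243, 11:45Z)

`Exit/Pins.lean` : `pvxp_mainE_of` (roof, given `PvxpRoadE c`)   +   `Exit/PinsEU.lean` : `pvpj_roadE` (121, the cut of road E; open below it: `exit_pinsDI_m` of 199).
No mathematics here.
-/

namespace Claimed.Agent.R289

/-- the statement of road E, delivered by the cut of 121 -/
theorem pvxp_roadE_holds {c : ℝ} (c0 : 0 < c) : PvxpRoadE c :=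
  fun 𝔑 h𝔑 ζ hζ => pvpj_roadE c0 𝔑 h𝔑 ζ hζ

/-- **THE ROOF OF THE PINS, ROAD E** = `exit_pvx_pins0` of ruling T2 (24) -/
theorem pvxp_mainE (c : ℝ) (c0 : 0 < c) :
    ∃ (N : PvxNums) (hN : N.Ok), ∀ (x : ℂ) (R : ℝ), 0 < R → PvxPinsOK (pvxParOf N hN c) x R :=
  pvxp_mainE_of c c0 (pvxp_roadE_holds c0)

end Claimed.Agent.R289
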