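import Claimed.Agent.R289.Defs.TrModel
import Claimed.Agent.R289.Exit.Cover
import Claimed.Agent.R289.Exit.PinsTop
import Claimed.Agent.R289.Exit.Par
import Claimed.Agent.R289.Exit.Ana

/-!
# Row 289 (S0537), Exit/Tr : THE INSTANCE OF THE WALL, ROAD E = COMPILED GLUE  `L9ExitTR c`  ⟸  `pvhb_exit_up` (73)  ⟸  `PvhbNum` + `PvhbLocU` at the data of record (`Defs/TrModel.lean`)      (pen helper187; prefix `pvx`, `exit_pvx_`)

LEVELS.   0 `L9ExitTR c` (161)  ⟸  1 Spine (129)  ⟸  2 Hub (73: `pvhb_exit_up`, 0 sorry; two-level upper expectation `pvhbUp ε`, no measurability)  ⟸  3 THIS FILE  ⟸  the ROOFS.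
THE SUB-EXITS (each = one roof with its own pen and file; here sorried until the roof lands, then replaced by a citation):
v4 (243, 10:45Z, T2bis of 24): THE TOP SPEAKS OF `pvxParOf N hN c` (73, `Exit/Par.lean`) ONLY.   A roof may state its own sub-exits at `pvxParOf N hN c` or for all `𝔓.Wf`; a new inequality between the numbers = a new field of `PvxNums.Ok` (one line to 73 + 12).
* `exit_pvx_pins0`   (S1)  `∃ N hN, ∀ x R, PvxPinsOK (pvxParOf N hN c) x R`      roof 12  (`Exit/Pins.lean`)      THE ONLY ROOF WHICH CHOOSES: NUMBERS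
* `exit_pvx_par`     (S0)  `𝔓₀.WfB → ∃ Γ reg, (𝔓₀.upd Γ reg).Wf`             roof helper1 (`Exit/TrPar.lean`; RULING T2 of 24): doors, reference words, regions of the corridors (defs of 209 62)
* `exit_pvx_cover`   (S2)  `𝔓.Wf → PvxCover 𝔓 x R`                         roof 143 (`Exit/Cover.lean`) + 209 (deterministic fit)
* `exit_pvx_ana`     (S3)  `𝔓.Wf → Nonempty (PvxAna 𝔓)`                    161 193 (defs of `kout kin ke W kin0`, `Tr/InstE.lean`), 34 259 52 (numbers), 170 274 (`n1`), 129 58 103 223 (`cyc1 thick`)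
PROVED HERE: `pvx_pat_fin` (finitely many patterns), `fit_s fit_t fit_U pat_ok`, the assembly `PvxAna.toNum`, `PvxAna.toLoc`, `pvx_exit`.
-/

set_option autoImplicit false

namespace Claimed.Agent.R289

open MeasureTheory Filter Topology Set Claims.C0465
open scoped ENNReal

/-! ## 1. finitely many patterns -/

/-- the grid points of a ball -/
theorem pvx_grid_fin {h : ℝ} (h0 : 0 < h) (x : ℂ) (R : ℝ) : {z : ℂ | (∃ p : ℤ × ℤ, z = l9Pt h p) ∧ ‖z - x‖ ≤ 3 * R}.Finite := by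
  refine (l9Gr h x (3 * R / 2)).finite_toSet.subset ?_
  rintro z ⟨⟨p, rfl⟩, hz⟩
  exact l9_mem_Gr h0 p (by linarith)

/-- the finite sets of cells of a box -/
theorem pvx_hull_fin (n : ℕ) : {F : Finset (ℤ × ℤ) | ∀ q ∈ F, q.1.natAbs ≤ n ∧ q.2.natAbs ≤ n}.Finite := by
  refine ((Finset.Icc (-(n : ℤ)) n ×ˢ Finset.Icc (-(n : ℤ)) n).powerset).finite_toSet.subset ?_
  intro F hF
  simp only [Finset.coe_powerset, Set.mem_preimage, Set.mem_powerset_iff, Finset.coe_subset]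
  intro q hq
  obtain ⟨h1, h2⟩ := hF q hq
  simp only [Finset.mem_product, Finset.mem_Icc]
  omega

theorem pvx_pat_fin {τ : Type} [Finite τ] {c : ℝ} (𝔓 : PvxPar τ c) (x : ℂ) (R : ℝ) (m : ℕ) : (pvxPatSet 𝔓 x R m).Finite := by
  classical
  have : Fintype PvtTurn := ⟨{PvtTurn.S, PvtTurn.L, PvtTurn.R}, fun t => by cases t <;> simp⟩
  set G : Set ℂ := {z : ℂ | (∃ p : ℤ × ℤ, z = l9Pt (pvlmH m) p) ∧ ‖z - x‖ ≤ 3 * R} with hG
  have hGf : G.Finite := pvx_grid_fin (pvlm_H_pos m) x R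
  set Ls : Set (List PvtTurn) := {l | l.length ≤ pvxLen c R m} with hLs
  have hLf : Ls.Finite := List.finite_length_le PvtTurn _
  set Fs : Set (Finset (ℤ × ℤ)) := {F | ∀ q ∈ F, q.1.natAbs ≤ pvxBnd c x R m ∧ q.2.natAbs ≤ pvxBnd c x R m} with hFs
  have hFf : Fs.Finite := pvx_hull_fin _
  let f : PvxIx τ → (ℂ × τ) × (ℂ × τ) × List PvtTurn × Finset (ℤ × ℤ) × Finset (ℤ × ℤ) := fun π => ((π.p.zs, π.p.ts), (π.p.zt, π.p.tt), π.p.l, π.Zs, π.Zt)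
  have hf : Function.Injective f := by
    rintro ⟨⟨a1, a2, a3, a4, a5⟩, a6, a7⟩ ⟨⟨b1, b2, b3, b4, b5⟩, b6, b7⟩ h
    simp only [f, Prod.mk.injEq] at h
    obtain ⟨⟨rfl, rfl⟩, ⟨rfl, rfl⟩, rfl, rfl, rfl⟩ := h
    rfl
  have hfin : ((G ×ˢ (univ : Set τ)) ×ˢ (G ×ˢ (univ : Set τ)) ×ˢ Ls ×ˢ Fs ×ˢ Fs).Finite :=
    (hGf.prod finite_univ).prod ((hGf.prod finite_univ).prod (hLf.prod (hFf.prod hFf)))
  refine Set.Finite.of_finite_image (hfin.subset ?_) hf.injOn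
  rintro _ ⟨π, ⟨⟨-, h1, h2, h3, h4, -, h5, h6, h7⟩, -⟩, rfl⟩
  exact ⟨⟨⟨h1, h3⟩, mem_univ _⟩, ⟨⟨h2, h4⟩, mem_univ _⟩, h5, h6, h7⟩

/-! ## 2. the assembly -/

section asm

variable {τ : Type} {c : ℝ} {𝔓 : PvxPar τ c}

/-- the numbers of the wall -/
noncomputable def PvxAna.toNum (𝔄 : PvxAna 𝔓) (c0 : 0 < c) : PvhbNum τ c where
  𝔐 := 𝔓.𝔐
  h := pvlmH
  r := pvlmR c
  h0 := pvlm_H_pos
  h_lim := pvlm_H_lim
  r_lim := (pvlm_R_spec c0 𝔓.𝔐.L).1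
  Lh_r := (pvlm_R_spec c0 𝔓.𝔐.L).2.1
  lim2 := (pvlm_R_spec c0 𝔓.𝔐.L).2.2
  Γ := 𝔓.Γ
  W := 𝔄.W
  kin0 := 𝔄.kin0
  A := 𝔄.A
  CA := 𝔄.CA
  A_bdd := 𝔄.A_bdd
  cell_a := 𝔄.cell_a
  rel_lim := 𝔄.rel_lim

/-- **THE INSTANCE OF `PvhbLocU`** on the plain two-level space, for the rims of all completions -/
noncomputable def PvxAna.toLoc [Finite τ] (𝔄 : PvxAna 𝔓) (c0 : 0 < c) (x : ℂ) (R : ℝ) (hR : 0 < R) (hP : PvxPinsOK 𝔓 x R) (hC : PvxCover 𝔓 x R) :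
    PvhbLocU (𝔄.toNum c0) pvhbUp (fun q => pvhbAll x R (pvMerge q)) x R where
  pins := fun m _ q => pvxPins 𝔓 x R m (pvMerge q)
  U := fun m _ z t => pvMerge ⁻¹' pvxU 𝔓 m z t
  kout := fun m ε a z t q => 𝔄.kout m ε a z t (pvMerge q)
  kin := fun m ε a z t q => 𝔄.kin m ε a z t (pvMerge q)
  ke := fun m ε a z t q => 𝔄.ke m ε a z t (pvMerge q)
  Pat := fun m => ↥(pvxPatSet 𝔓 x R m)
  Pat_fin := fun m => (pvx_pat_fin 𝔓 x R m).to_subtype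
  pat := fun _ π => π.1.p
  pat_ok := fun _ π => π.2.1.1
  Fit := fun m _ q P s t π => pvxFit 𝔓 x R m (pvMerge q) P s t π.1
  fit_s := fun _ _ _ _ _ _ _ h => h.1
  fit_t := fun _ _ _ _ _ _ _ h => h.2.1
  fit_U := fun _ _ _ _ _ _ _ h => h.2.2.2.1
  pinsOK := hP
  cover := by
    refine PvhbOrd.mono hC fun m ε => ?_
    refine ENNReal.toReal_mono (PvUp.P_ne_top _ _) (PvUp.P_mono _ fun q hq => ?_)
    intro hall
    refine hq fun P hP s hs t ht hst hin hfar => ?_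
    obtain ⟨π, hπ, hfit⟩ := hall P hP s hs t ht hst hin hfar
    exact ⟨⟨π, hπ⟩, hfit⟩
  n1 := fun a m π u hu => 𝔄.n1 x R hR a m π.1 π.2 u hu
  cyc1 := fun a m p t _ => 𝔄.cyc1 a m p t
  Ce := 𝔄.Ce
  thick := fun a ha m p t _ => 𝔄.thick a ha m p t

end asm

/-! ## 3. the sub-exits = the roofs -/

/-- **(S1) PINS**      [roof 12, `Exit/Pins.lean`;  A6 of 281, TRAP of 212, flags E12 E14 E16 of W1_208 v3, Peierls 101, locality 278 22]      T2bis (24): THE ONLY ROOF WHICH CHOOSES, and it chooses NUMBERS only; menu and parameters = `pvxParOf N hN c` (73, `Exit/Par.lean`) -/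
theorem exit_pvx_pins0 (c : ℝ) (c0 : 0 < c) :
    ∃ (N : PvxNums) (hN : N.Ok), ∀ (x : ℂ) (R : ℝ), 0 < R → PvxPinsOK (pvxParOf N hN c) x R :=
  pvxp_mainE c c0

/-- **(S0) PAR**      [roof helper1, `Exit/TrPar.lean`;  RULING T2 of 24]      the doors, the reference words and the regions of the corridors, constructed from the base data -/
theorem exit_pvx_par {τ : Type} [Fintype τ] {c : ℝ} (c0 : 0 < c) (𝔓₀ : PvxPar τ c) (h : 𝔓₀.WfB) :
    ∃ (Γ : ℕ → PvtsGeo τ) (reg : ℕ → PvxIx τ → PvwPat), (𝔓₀.upd Γ reg).Wf :=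
  pvxr_par 𝔓₀ h

/-- the state of a candidate reads the base data only -/
theorem pvx_at_upd {τ : Type} {c : ℝ} (𝔓₀ : PvxPar τ c) (Γ : ℕ → PvtsGeo τ) (reg : ℕ → PvxIx τ → PvwPat) (m : ℕ) (ω : PVSample) (z : ℂ) (t : τ) (𝔖 : PvwSt (pvxT ω)) :
    PvxAt (𝔓₀.upd Γ reg) m ω z t 𝔖 ↔ PvxAt 𝔓₀ m ω z t 𝔖 :=
  ⟨fun h => ⟨h.good, h.st, h.tip_p, h.tip_m, h.mask_p, h.mask_m, h.inn_p, h.inn_m, h.lev0⟩, fun h => ⟨h.good, h.st, h.tip_p, h.tip_m, h.mask_p, h.mask_m, h.inn_p, h.inn_m, h.lev0⟩⟩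

/-- the pins read the base data only -/
theorem pvx_pins_upd {τ : Type} {c : ℝ} (𝔓₀ : PvxPar τ c) (Γ : ℕ → PvtsGeo τ) (reg : ℕ → PvxIx τ → PvwPat) : pvxPins (𝔓₀.upd Γ reg) = pvxPins 𝔓₀ := by
  funext x R m ω P
  ext s
  unfold pvxPins
  simp only [mem_setOf_eq, pvx_at_upd]
  rfl

theorem pvx_pinsOK_upd {τ : Type} {c : ℝ} {𝔓₀ : PvxPar τ c} (Γ : ℕ → PvtsGeo τ) (reg : ℕ → PvxIx τ → PvwPat) {x : ℂ} {R : ℝ} (h : PvxPinsOK 𝔓₀ x R) : PvxPinsOK (𝔓₀.upd Γ reg) x R := by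
  unfold PvxPinsOK at h ⊢
  rw [pvx_pins_upd]
  exact h

/-- **(S2) COVER AT THE PARAMETERS OF RECORD**      [roof 143, `Exit/Cover.lean`: `pvtv_cover_ord` of 236 + scales of 247 + near return / CONFIG6 of ARM;  deterministic fit (RULING 9): 209] -/
theorem exit_pvx_cover {c : ℝ} (c0 : 0 < c) (N : PvxNums) (hN : N.Ok) (x : ℂ) (R : ℝ) (hR : 0 < R) : PvxCover (pvxParOf N hN c) x R :=
  pvxv_cover c0 (pvxParOf N hN c) (pvxo_wf N hN c) (pvxv_fit_wf N hN c) x R hR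

/-- **(S3) THE ANALYTIC DATA AT THE PARAMETERS OF RECORD**      [integration pen 271 `Exit/Ana.lean`;  defs 161 193;  numbers 34 259 52;  `n1` 170 274;  `cyc1 thick` 129 58 103 223] -/
theorem exit_pvx_ana {c : ℝ} (c0 : 0 < c) (N : PvxNums) (hN : N.Ok) : Nonempty (PvxAna (pvxParOf N hN c)) :=
  pvna_ana_at c0 N hN

/-! ## 4. the exit -/

/-- **THE WALL, ROAD E** -/
theorem pvx_exit (c : ℝ) (c0 : 0 < c) : L9ExitTR c := by
  obtain ⟨N, hN, hP⟩ := exit_pvx_pins0 c c0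
  obtain ⟨𝔄⟩ := exit_pvx_ana c0 N hN
  haveI := pvxo_nonempty hN
  exact pvhb_exit_up c0 (pvxTau N) (𝔄.toNum c0) fun x R hR => ⟨𝔄.toLoc c0 x R hR (hP x R hR) (exit_pvx_cover c0 N hN x R hR)⟩

end Claimed.Agent.R289
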