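import Claimed.Agent.R289.Cr.Inst
import Claimed.Agent.R289.Arm.TopGlue
import Claimed.Agent.R289.S1P.Bes
import Claimed.Agent.R289.Exit.Tr

/-!
# Row 289 (S0537), Exit/Transport : BULK TRANSPORT = Theorem 3.1      (typed by helper163; glue `l9_transport` of 161, `Cr/Inst.lean`; consumer: Sec. 8 (111, 258, 174))

`PvTransport` (`Defs/Bulk.lean`): from every sequence `ε_n ↓ 0` a subsequence and a scalar `a : ℂ` (arbitrary) such that for EVERY bulk family (disc + 3 fans), every ball `B(x,6R)` of agreement and every smooth test `f` supported in `B(x,R)`: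
      `max over the labels not inside B(x,4R) of |Q_λ(f) - a V_λ(f)| → 0` in probability (quenched form: colour probability at fixed geometry dominated by a measurable function of the geometry with mean `→ 0`).
v1: COMPILED GLUE over THREE typed exits (records in `Cr/Inst.lean`, 161):
  `exit_l9_bes`  E1 Bessel + barycentre intensity            := `pvqb2_exit` (`S1P/Bes.lean`, 274 + 185): CLOSED, 0 sorry
  `exit_l9_arm`  E2 one arm, E3 near return × one arm        := `exit_pv_arm` (`Exit/Arm.lean`, 33) ⟸ `armt_near` (`Arm/Top.lean`, 186):  ARM CHOOSES the exponent `c > 0`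
  `exit_l9_tr`   E4 dense pins, E5 real arc + potentials     producer THE WALL (208, 295, 273, 125):  for EVERY exponent `c > 0`
S7 is OFF the route (161, 211).      All of E2-E5 are LOCAL statements on the restriction of the sample to `B(x,6R)`, where every bulk family has the law of the full plane.
DONE (ruling of 163, 08:39Z; refactor of 56): the records `L9Bes L9Arm L9Loc` and `PvbIn` run over the upper expectation `PvUp Ω` of `Defs/Up.lean` (`Ω = L9Om X = PvGeoT × (PvColT × (X → Bool))`, `l9Up X ε = PvUp.iter ..`):
a bulk family is an arbitrary function of the site set, so the Bessel majorant `W` is measurable in the colours at fixed geometry only;  no measurability on `Ω` is asked any more.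
-/

set_option autoImplicit false

namespace Claimed.Agent.R289

/-- **E1** (S1P 244 + MESH 127): CLOSED, 0 sorry below (`S1P/Bes.lean` of 274 + `S1P/BesD.lean` of 185) -/
theorem exit_l9_bes : L9ExitBes := pvqb2_exit

/-- **E2, E3** (ARM / S2): WIRED (146, 09:42Z) to `armt_near` (`Arm/TopGlue.lean`, 186: near return × one arm) through `exit_pv_arm` (`Exit/Arm.lean`, 33: `arm1` proved).      The debt of ARM = the open leaves of `Arm/Top.lean`. -/
theorem exit_l9_arm : ∃ c : ℝ, 0 < c ∧ L9ExitArm c := by
  obtain ⟨c₀, hc₀, ⟨N⟩⟩ := armt_near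
  obtain ⟨c, c0, h⟩ := exit_pv_arm hc₀ N
  exact ⟨c, c0, h c c0 le_rfl⟩

/-- **E4, E5** (THE WALL): WIRED to `pvx_exit` (`Exit/Tr.lean`, pen 187 = ROAD E: compiled glue over the master theorem `pvhb_exit_plain` of 73 (`Tr/Hub.lean`), the spine of 129 and the data of record `Defs/TrModel.lean`).
THE WHOLE DEBT OF THE WALL = the roofs of `Exit/Tr.lean`: `exit_pvx_pins` (12), `exit_pvx_cover` (143 209), `exit_pvx_ana` (129 161 193 34 259 170 58), `exit_pvx_U_meas` (dies with the `PvUp` form of 73).
ROAD P (`Exit/TrP.lean`, pen 79) ends at the same type `L9ExitTR c`: first green wins, ONE line to change here. -/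
theorem exit_l9_tr (c : ℝ) (c0 : 0 < c) : L9ExitTR c := pvx_exit c c0

theorem exit_pv_transport : PvTransport := by
  obtain ⟨c, c0, hA⟩ := exit_l9_arm
  exact l9_transport c0 exit_l9_bes hA (exit_l9_tr c c0)

end Claimed.Agent.R289
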