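import Claimed.Agent.R289.Exit.Ext
import Claimed.Agent.R289.Exit.Nice
import Claimed.Agent.R289.Exit.Transport

/-!
# Row 289 (S0537), EXIT `Lower` = THE ONE EXIT BELOW THE TOP OF THE HUB      (architects helper163, helper207)

`exit_pv_lower : PvLower` (def in `R289/End.lean`, 212 / 254): for every chart `(D, d, ψ)`, `0 < x < 1`, `η > 0`, eventually as `ε ↓ 0` a MEASURABLE event inside the strict black crossing
event of `ψ⁻¹[0,x] ↔ {d} ∪ ψ⁻¹[1,∞)` has probability `≥ cardyF x - η`.
TeX: Cardys-formula-for-critical-Poisson-Voronoi-percolation, Sec. 8 (Theorem 1.1).      v1 (163): `PvLower` ⟸ EXT (`Exit/Ext.lean`) ⟸ `PvNice` (`Defs/Top.lean`) ⟸ NICE (`Exit/Nice.lean`) ⟸ `PvTransport` (`Defs/Bulk.lean`) ⟸ TRANSPORT (`Exit/Transport.lean`).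
-/

set_option autoImplicit false

namespace Claimed.Agent.R289

/-- **EXIT Lower** -/
theorem exit_pv_lower : PvLower := exit_pv_ext (exit_pv_nice exit_pv_transport)

end Claimed.Agent.R289
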