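-- KEEP
import Claimed.Agent.R289.Tr.MeasL
import Claimed.Agent.R289.Tr.LinkMeas
import Claimed.Agent.R289.Tr.InvE
import Claimed.Agent.R289.Exit.Cyc1C
import Claimed.Agent.R289.Exit.ThickLR
import Claimed.Agent.R289.Exit.FrcDefs

/-!
# Row 289 (S0537), THE WALL, ROAD E, file Exit/MeasM : **[MEAS] WIRED INTO ITS CONSUMERS, VERBATIM**      (helper146, second of 289 on [MEAS]; prefix `pvyx_`)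

`Tr/MeasL` v2 of 289 (0 sorry) proves [MEAS] at the names of `Tr/InstL`.      `Tr/LinkMeas` of 282 proves that the windows are Borel.      HERE: the fields / hypotheses of the consumers, WORD FOR WORD, so that a pen cites ONE name.
Hypotheses everywhere: `h𝔓 : 𝔓.WfB`, `H : PvieEng.Wf 𝔓 𝔈 m0 Cth r κs`, `0 < ε`, `hO : MeasurableSet (𝔈.kit m ε).O₀` (only where a door is in the window), weight `PvmlWm w` (`pvml_wm_Q`, `pvml_wm_V`).      ALL levels, types, centres, hulls.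
* sec. 1  `cyc1`   : **`pvyx_cyc1c : Pvcy1cMeas 𝔓 𝔈 m ε z t`** (188, `Exit/Cyc1C`)
* sec. 2  `thick`  : **`pvyx_nE`** (field `nE` of `PvjkRc`, 132 `Exit/ThickLR`; hypothesis `nE` of `pvuy_recog`, 290 `Tr/ThickI`), `pvyx_Lf_B`, **`pvyx_nF`** (field `nF`: the plain return `pvjtMf`, room `fY` Borel), `pvyx_nF_E` (the return of record `pvjtRetE 𝔈 Mk`)
* sec. 3  `gd`     : **`pvyx_mX_o pvyx_mX_i pvyx_mX_e`** (field `mX` of `PvjeEnd.Wf` at `pvjeO pvjeI pvjeE`, 35 `Exit/FrcDefs`), **`pvyx_mX_r`** (field `mX` of `Pvr2Ok`, `Exit/FrcR`), `pvyx_mW_r` (field `mW`)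
* sec. 4  `Tr/InvE`: **`pvyx_nM`** (hypothesis `nM` of `pviq_Ar_soft`), **`pvyx_Ar_soft`, `pvyx_Ar_softQ`** = the two theorems of 150 WITHOUT `hW nM`
* sec. 5  a.s. `soft success ⟹ plain success ∧ plain value = soft value`, ALL base data `(Z, F)` at once, at the ends of record `pvilEo pvilEi pvilEe`, `pvilAr`, `pvjtAf`: **`pvyx_sa_o pvyx_sa_i pvyx_sa_e pvyx_sa_r pvyx_sa_f`**
* sec. 6  from `hE : PvnaWf 𝔓 𝔈` (the hypothesis of the sub-exits of `Exit/Ana`): **`pvyx_kit_mO`** (`(𝔈.kit m ε).O₀` Borel at EVERY mesh), `pvyx_cyc1c_na`, `pvyx_rc_na` (`PvjkRc` from its field `cl` alone, return of record)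
-/

set_option autoImplicit false

namespace Claimed.Agent.R289

open Set MeasureTheory Filter Topology Claims.C0465
open scoped ENNReal

section wiring

variable {τ : Type} {c : ℝ} {𝔓 : PvxPar τ c} {𝔈 : PvieEng τ} {m0 : ℕ} {Cth : ℝ} {r κs : ℕ → ℝ} {ε : ℝ} {w : ∀ η : Conf PvPt, (delbPl (pvieY η)).Dart → ℂ}

/-! ## 1. `cyc1` -/

/-- **the leaf [MEAS] of `Exit/Cyc1C`** -/
theorem pvyx_cyc1c (h𝔓 : 𝔓.WfB) (H : PvieEng.Wf 𝔓 𝔈 m0 Cth r κs) (hε : 0 < ε) {m : ℕ} (hO : MeasurableSet (𝔈.kit m ε).O₀) (z : ℂ) (t : τ) : Pvcy1cMeas 𝔓 𝔈 m ε z t where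
  wo := fun Z => pvzi2_mWno H hO z t Z
  we := fun Z => pvzi2_mWne H z t Z
  wr := pvzi2_mWnr H hO
  no := fun Z _ => pvml_SAo_null h𝔓 (pvml_engB H) hε pvml_wm_Q m z t Z (pvzi2_mWno H hO z t Z)
  ne := fun Z _ => pvml_SAe_null h𝔓 (pvml_engB H) hε pvml_wm_Q m z t Z (pvzi2_mWne H z t Z)
  nr := pvml_SAr_null 𝔓 (pvml_engB H) hε pvml_wm_Q m (pvzi2_mWnr H hO)

/-! ## 2. `thick` -/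

/-- **the field `nE` of `PvjkRc`** (= the hypothesis `nE` of `pvuy_recog`) -/
theorem pvyx_nE (h𝔓 : 𝔓.WfB) (H : PvieEng.Wf 𝔓 𝔈 m0 Cth r κs) (hε : 0 < ε) (hw : PvmlWm w) (m : ℕ) (z : ℂ) (t : τ) :
    ∀ Z : Set (ℤ × ℤ), Z.Finite → NullMeasurableSet (pvilMe 𝔓 𝔈 m z t Z ∩
      {η | (pvilLe 𝔓 𝔈 m z t).X 𝔓.num (𝔓.col t) w η = pvilLoc ε (pvilWne 𝔓 𝔈 m z t Z) (pvilMe 𝔓 𝔈 m z t Z) ((pvilLe 𝔓 𝔈 m z t).X 𝔓.num (𝔓.col t) w) η}) (pvP ε) :=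
  fun Z _ => pvml_SAe_null h𝔓 (pvml_engB H) hε hw m z t Z (pvzi2_mWne H z t Z)

/-- Borel data of the thick return -/
theorem pvyx_Lf_B (h𝔓 : 𝔓.WfB) (𝔈 : PvieEng τ) {𝔯 : PvjtRet τ} {m : ℕ} {t : τ} (mY : MeasurableSet (𝔯.fY m t)) (z : ℂ) : PvmlLkB (pvjtLf 𝔓 𝔈 𝔯 m z t) :=
  ⟨fun _ => norm_one, fun h => absurd h (by simp [pvjtLf]), pvml_pin_meas h𝔓 m z t, pvzj_plug_meas _ _ _, pvml_sh_meas z mY, MeasurableSet.univ⟩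

/-- **the field `nF` of `PvjkRc`**: the plain return -/
theorem pvyx_nF (h𝔓 : 𝔓.WfB) (𝔈 : PvieEng τ) {𝔯 : PvjtRet τ} (hε : 0 < ε) {m : ℕ} {t : τ} (mY : MeasurableSet (𝔯.fY m t)) (z : ℂ) :
    ∀ Z : Set (ℤ × ℤ), Z.Finite → NullMeasurableSet (pvjtMf 𝔓 𝔈 𝔯 m z t Z) (pvP ε) :=
  fun Z _ => (((pvyx_Lf_B h𝔓 𝔈 mY z).A_null _ _ hε).inter (pvml_Zo_null h𝔓 hε m z t Z)).inter (pvml_Ms_null 𝔓 m _ ε)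

/-- the same at the return of record -/
theorem pvyx_nF_E (h𝔓 : 𝔓.WfB) (H : PvieEng.Wf 𝔓 𝔈 m0 Cth r κs) (hε : 0 < ε) (Mk : ℕ → τ → Set ℂ) (m : ℕ) (z : ℂ) (t : τ) :
    ∀ Z : Set (ℤ × ℤ), Z.Finite → NullMeasurableSet (pvjtMf 𝔓 𝔈 (pvjtRetE 𝔈 Mk) m z t Z) (pvP ε) :=
  pvyx_nF h𝔓 𝔈 hε (𝔯 := pvjtRetE 𝔈 Mk) (H.m_fY m t) z

/-! ## 3. `gd` -/

/-- **the field `mX` of `PvjeEnd.Wf` at the first link** -/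
theorem pvyx_mX_o (h𝔓 : 𝔓.WfB) (H : PvieEng.Wf 𝔓 𝔈 m0 Cth r κs) (hε : 0 < ε) (hw : PvmlWm w) (m : ℕ) (z : ℂ) (t : τ) :
    ∀ Z : Set (ℤ × ℤ), Z.Finite → AEMeasurable (((pvjeO 𝔓 𝔈 w m ε z t).Pl Z).indicator (pvjeO 𝔓 𝔈 w m ε z t).X) (pvP ε) :=
  fun Z _ => pvml_IXo_aem h𝔓 (pvml_engB H) hε hw m z t Z

/-- **the field `mX` of `PvjeEnd.Wf` at the last link** -/
theorem pvyx_mX_i (h𝔓 : 𝔓.WfB) (H : PvieEng.Wf 𝔓 𝔈 m0 Cth r κs) (hε : 0 < ε) (hw : PvmlWm w) (m : ℕ) (z : ℂ) (t : τ) :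
    ∀ Z : Set (ℤ × ℤ), Z.Finite → AEMeasurable (((pvjeI 𝔓 𝔈 w m ε z t).Pl Z).indicator (pvjeI 𝔓 𝔈 w m ε z t).X) (pvP ε) :=
  fun Z _ => pvml_IXi_aem h𝔓 (pvml_engB H) hε hw m z t Z

/-- **the field `mX` of `PvjeEnd.Wf` at the thick link** -/
theorem pvyx_mX_e (h𝔓 : 𝔓.WfB) (H : PvieEng.Wf 𝔓 𝔈 m0 Cth r κs) (hε : 0 < ε) (hw : PvmlWm w) (m : ℕ) (z : ℂ) (t : τ) :
    ∀ Z : Set (ℤ × ℤ), Z.Finite → AEMeasurable (((pvjeE 𝔓 𝔈 w m ε z t).Pl Z).indicator (pvjeE 𝔓 𝔈 w m ε z t).X) (pvP ε) :=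
  fun Z _ => pvml_IXe_aem h𝔓 (pvml_engB H) hε hw m z t Z

/-- **the field `mX` of `Pvr2Ok`** (the link into the reference plug) -/
theorem pvyx_mX_r (H : PvieEng.Wf 𝔓 𝔈 m0 Cth r κs) (hw : PvmlWm w) (m : ℕ) :
    ∀ᶠ ε in 𝓝[>] (0 : ℝ), AEMeasurable ((pvilMr 𝔓 𝔈 m ε).indicator ((pvilLr 𝔓 𝔈 m).X 𝔓.num true w)) (pvP ε) := by
  filter_upwards [self_mem_nhdsWithin] with ε hε
  exact pvml_IXr_aem 𝔓 (pvml_engB H) hε hw m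

/-- **the field `mW` of `Pvr2Ok`** -/
theorem pvyx_mW_r (H : PvieEng.Wf 𝔓 𝔈 m0 Cth r κs) {m : ℕ} (hO : ∀ ε, MeasurableSet (𝔈.kit m ε).O₀) : ∀ᶠ ε in 𝓝[>] (0 : ℝ), MeasurableSet (pvilWnr 𝔓 𝔈 m ε) :=
  Filter.Eventually.of_forall fun ε => pvzi2_mWnr H (hO ε)

/-! ## 4. `Tr/InvE` -/

/-- **the hypothesis `nM` of `pviq_Ar_soft`** -/
theorem pvyx_nM (H : PvieEng.Wf 𝔓 𝔈 m0 Cth r κs) (hε : 0 < ε) (hw : PvmlWm w) {m : ℕ} (hO : MeasurableSet (𝔈.kit m ε).O₀) :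
    NullMeasurableSet (pvilMr 𝔓 𝔈 m ε ∩ {η | (pvilLr 𝔓 𝔈 m).X 𝔓.num true w η = pvilXr 𝔓 𝔈 m ε w η}) (pvP ε) :=
  pvml_SAr_null 𝔓 (pvml_engB H) hε hw m (pvzi2_mWnr H hO)

/-- **`pviq_Ar_soft` of 150 WITHOUT `hW nM`** -/
theorem pvyx_Ar_soft (H : PvieEng.Wf 𝔓 𝔈 m0 Cth r κs) (hε : 0 < ε) (hw : PvmlWm w) {m : ℕ} (hO : MeasurableSet (𝔈.kit m ε).O₀) (z : ℂ) (t : τ) (HL : PviqLkOk (pvilLr 𝔓 𝔈 m))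
    (hwm : ∀ (η : Conf PvPt) (h : PviqOne η) (d), w η ((pviq_ref_mor' 𝔓 m z t h).iso.fD d) = 1 * w (pvilRef 𝔓 m z t η) d) :
    ∀ᵐ η ∂(pvP ε), pvilRef 𝔓 m z t η ∈ pvilAr 𝔓 𝔈 m ε w → η ∈ (pviqLr 𝔓 𝔈 m z t).A 𝔓.num (𝔓.col t) ∧ pvilXr 𝔓 𝔈 m ε w (pvilRef 𝔓 m z t η) = (pviqLr 𝔓 𝔈 m z t).X 𝔓.num (𝔓.col t) w η ∧
      η ∈ pvilMs 𝔓 m (pvieSh (pvieZu 𝔓 m z t) (pvilWnr 𝔓 𝔈 m ε)) :=
  pviq_Ar_soft 𝔓 𝔈 m ε z t HL hwm (pvzi2_mWnr H hO) (pvyx_nM H hε hw hO)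

/-- **`pviq_Ar_softQ` of 150 WITHOUT `hW nM`** -/
theorem pvyx_Ar_softQ (H : PvieEng.Wf 𝔓 𝔈 m0 Cth r κs) (hε : 0 < ε) {m : ℕ} (hO : MeasurableSet (𝔈.kit m ε).O₀) (z : ℂ) (t : τ) (HL : PviqLkOk (pvilLr 𝔓 𝔈 m)) :
    ∀ᵐ η ∂(pvP ε), pvilRef 𝔓 m z t η ∈ pvilAr 𝔓 𝔈 m ε pvilQ → η ∈ (pviqLr 𝔓 𝔈 m z t).A 𝔓.num (𝔓.col t) ∧ pvilXr 𝔓 𝔈 m ε pvilQ (pvilRef 𝔓 m z t η) = (pviqLr 𝔓 𝔈 m z t).X 𝔓.num (𝔓.col t) pvilQ η ∧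
      η ∈ pvilMs 𝔓 m (pvieSh (pvieZu 𝔓 m z t) (pvilWnr 𝔓 𝔈 m ε)) :=
  pviq_Ar_softQ 𝔓 𝔈 m ε z t HL (pvzi2_mWnr H hO) (pvyx_nM H hε pvml_wm_Q hO)

/-! ## 5. a.s. soft success ⟹ plain success, plain value = soft value -/

/-- **first link**: a.s., for ALL base data `(Z, F)` at once -/
theorem pvyx_sa_o (h𝔓 : 𝔓.WfB) (H : PvieEng.Wf 𝔓 𝔈 m0 Cth r κs) (hε : 0 < ε) (hw : PvmlWm w) {m : ℕ} (hO : MeasurableSet (𝔈.kit m ε).O₀) (z : ℂ) (t : τ) :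
    ∀ᵐ η ∂pvP ε, ∀ (Z : Set (ℤ × ℤ)) (F : Set ℂ), η ∈ (pvilEo 𝔓 𝔈 m ε w z t Z F).A → η ∈ pvilMo 𝔓 𝔈 m ε z t Z ∧ (pvilLo 𝔓 𝔈 m z t).X 𝔓.num (𝔓.col t) w η = (pvilEo 𝔓 𝔈 m ε w z t Z F).X η := by
  filter_upwards [pvcy1c_sa_fin ε (Wn := pvilWno 𝔓 𝔈 m ε z t) (M := pvilMo 𝔓 𝔈 m ε z t) (F := (pvilLo 𝔓 𝔈 m z t).X 𝔓.num (𝔓.col t) w) (fun Z => pvzi2_mWno H hO z t Z)
    (fun Z _ => pvml_SAo_null h𝔓 (pvml_engB H) hε hw m z t Z (pvzi2_mWno H hO z t Z))] with η h Z F hA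
  exact h Z hA

/-- **last link** -/
theorem pvyx_sa_i (h𝔓 : 𝔓.WfB) (H : PvieEng.Wf 𝔓 𝔈 m0 Cth r κs) (hε : 0 < ε) (hw : PvmlWm w) {m : ℕ} (hO : MeasurableSet (𝔈.kit m ε).O₀) (z : ℂ) (t : τ) :
    ∀ᵐ η ∂pvP ε, ∀ (Z : Set (ℤ × ℤ)) (F : Set ℂ), η ∈ (pvilEi 𝔓 𝔈 m ε w z t Z F).A → η ∈ pvilMi 𝔓 𝔈 m ε z t Z ∧ (pvilLi 𝔓 𝔈 m z t).X 𝔓.num (𝔓.col t) w η = (pvilEi 𝔓 𝔈 m ε w z t Z F).X η := by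
  filter_upwards [pvcy1c_sa_fin ε (Wn := pvilWni 𝔓 𝔈 m ε z t) (M := pvilMi 𝔓 𝔈 m ε z t) (F := (pvilLi 𝔓 𝔈 m z t).X 𝔓.num (𝔓.col t) w) (fun Z => pvzi2_mWni H hO z t Z)
    (fun Z _ => pvml_SAi_null h𝔓 (pvml_engB H) hε hw m z t Z (pvzi2_mWni H hO z t Z))] with η h Z F hA
  exact h Z hA

/-- **thick link** -/
theorem pvyx_sa_e (h𝔓 : 𝔓.WfB) (H : PvieEng.Wf 𝔓 𝔈 m0 Cth r κs) (hε : 0 < ε) (hw : PvmlWm w) (m : ℕ) (z : ℂ) (t : τ) :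
    ∀ᵐ η ∂pvP ε, ∀ (Z : Set (ℤ × ℤ)) (F : Set ℂ), η ∈ (pvilEe 𝔓 𝔈 m ε w z t Z F).A → η ∈ pvilMe 𝔓 𝔈 m z t Z ∧ (pvilLe 𝔓 𝔈 m z t).X 𝔓.num (𝔓.col t) w η = (pvilEe 𝔓 𝔈 m ε w z t Z F).X η := by
  filter_upwards [pvcy1c_sa_fin ε (Wn := pvilWne 𝔓 𝔈 m z t) (M := pvilMe 𝔓 𝔈 m z t) (F := (pvilLe 𝔓 𝔈 m z t).X 𝔓.num (𝔓.col t) w) (fun Z => pvzi2_mWne H z t Z)
    (fun Z _ => pvml_SAe_null h𝔓 (pvml_engB H) hε hw m z t Z (pvzi2_mWne H z t Z))] with η h Z F hA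
  exact h Z hA

/-- **link into the reference plug** (centre `0`, black form) -/
theorem pvyx_sa_r (H : PvieEng.Wf 𝔓 𝔈 m0 Cth r κs) (hε : 0 < ε) (hw : PvmlWm w) {m : ℕ} (hO : MeasurableSet (𝔈.kit m ε).O₀) :
    ∀ᵐ η ∂pvP ε, η ∈ pvilAr 𝔓 𝔈 m ε w → η ∈ pvilMr 𝔓 𝔈 m ε ∧ (pvilLr 𝔓 𝔈 m).X 𝔓.num true w η = pvilXr 𝔓 𝔈 m ε w η :=
  pvcy1c_sa ε (pvzi2_mWnr H hO) (pvyx_nM H hε hw hO)

/-- **thick return**: a.s., for all hulls at once, soft success ⟹ plain success -/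
theorem pvyx_sa_f (h𝔓 : 𝔓.WfB) (𝔈 : PvieEng τ) {𝔯 : PvjtRet τ} (hε : 0 < ε) {m : ℕ} {t : τ} (mY : MeasurableSet (𝔯.fY m t)) (z : ℂ) (mW : ∀ Z, MeasurableSet (pvjtWnf 𝔓 𝔈 𝔯 m z t Z)) :
    ∀ᵐ η ∂pvP ε, ∀ Z : Set (ℤ × ℤ), η ∈ pvjtAf 𝔓 𝔈 𝔯 m ε z t Z → η ∈ pvjtMf 𝔓 𝔈 𝔯 m z t Z := by
  have hc : {Z : Set (ℤ × ℤ) | Z.Finite}.Countable := Set.Countable.ofPred_finite
  have h1 : ∀ᵐ η ∂pvP ε, ∀ Z ∈ {Z : Set (ℤ × ℤ) | Z.Finite}, η ∈ pvilSure ε (pvjtWnf 𝔓 𝔈 𝔯 m z t Z) (pvjtMf 𝔓 𝔈 𝔯 m z t Z) → η ∈ pvjtMf 𝔓 𝔈 𝔯 m z t Z :=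
    (ae_ball_iff hc).2 fun Z hZ => pvsu_sure_sub (pv_isPpp ε) ((mW Z).prod MeasurableSet.univ) (pvyx_nF h𝔓 𝔈 hε mY z Z hZ)
  filter_upwards [h1] with η h Z hη
  unfold pvjtAf pvilFin at hη
  by_cases hZ : Z.Finite
  · rw [if_pos hZ] at hη
    exact h Z hZ hη
  · rw [if_neg hZ] at hη
    exact absurd hη (notMem_empty _)

/-! ## 6. the same from the contract `PvnaWf` of `Exit/AnaDefs` (the hypothesis `hE` of the sub-exits of `Exit/Ana`) -/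

/-- the door region of the kit is Borel, at EVERY mesh (`PvcnOk.wf.mO` eventually + `kit_O`) -/
theorem pvyx_kit_mO (hE : PvnaWf 𝔓 𝔈) (m : ℕ) (ε : ℝ) : MeasurableSet (𝔈.kit m ε).O₀ := by
  obtain ⟨⟨Cth, r, κs, H⟩, U, hU⟩ := hE
  have h1 : ∀ᶠ ε' in 𝓝[>] (0 : ℝ), MeasurableSet (𝔈.kit m ε').O₀ := by
    filter_upwards [(U.fam (pvlm_Del_pos c)).ok m] with ε' H'
    rw [hU.kit]
    exact H'.wf.mO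
  obtain ⟨ε', h⟩ := h1.exists
  rw [H.kit_O m ε ε']
  exact h

/-- **`Pvcy1cMeas` from `PvnaWf`** -/
theorem pvyx_cyc1c_na (h𝔓 : 𝔓.WfB) (hE : PvnaWf 𝔓 𝔈) (hε : 0 < ε) (m : ℕ) (z : ℂ) (t : τ) : Pvcy1cMeas 𝔓 𝔈 m ε z t := by
  obtain ⟨Cth, r, κs, H⟩ := hE.wf
  exact pvyx_cyc1c h𝔓 H hε (pvyx_kit_mO hE m ε) z t

/-- **`PvjkRc` from its field `cl` alone**, at the return of record -/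
theorem pvyx_rc_na (h𝔓 : 𝔓.WfB) (hE : PvnaWf 𝔓 𝔈) (hε : 0 < ε) (hw : PvmlWm w) (Mk : ℕ → τ → Set ℂ) {M : Set ℂ} {G : Set (ℤ × ℤ) → Set (ℤ × ℤ) → Prop} {m : ℕ} {z : ℂ} {t : τ}
    (cl : ∀ Z Z' : Set (ℤ × ℤ), Z.Finite → Z'.Finite → G Z Z' → ∀ᵐ η ∂pvP ε, η ∈ pvilMe 𝔓 𝔈 m z t Z → η ∈ pvjtMf 𝔓 𝔈 (pvjtRetE 𝔈 Mk) m z t Z' →
      PvjkCl (pvilLe 𝔓 𝔈 m z t) (pvjtLf 𝔓 𝔈 (pvjtRetE 𝔈 Mk) m z t) 𝔓.num (𝔓.col t) M η) : PvjkRc 𝔓 𝔈 (pvjtRetE 𝔈 Mk) w M G m ε z t := by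
  obtain ⟨Cth, r, κs, H⟩ := hE.wf
  exact ⟨cl, pvyx_nE h𝔓 H hε hw m z t, pvyx_nF_E h𝔓 H hε Mk m z t⟩

end wiring

end Claimed.Agent.R289
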