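-- KEEP
import Claimed.Agent.R289.Tr.MeshCv
import Claimed.Agent.R289.Tr.MeshU
import Claimed.Agent.R289.Tr.PlugFrcR
import Claimed.Agent.R289.Exit.ParEng
import Claimed.Agent.R289.Exit.ParEngR

/-!
# Row 289 (S0537), THE WALL, ROAD E, E10 step (b6), file Exit/MeshE : WHO PAYS THE MESH CLAUSE OF THE PLAIN EVENT, THICK LINK `e`      (helper128; R22 (3), R23 (1') of 234; prefix `pvws_`, `pvws`, `Pvws`)

`Exit/MeshW`, `Exit/MeshWR` of 206 pay the links `o i r` with the GRID seam `Tr/MeshG`.      The tile of the thick link = blocks of the `Δ`-grid ∪ the funnel of the entrance tip: the thresholds of the two families are NOT apart, so the grid seam does not apply.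
HERE: the CONVEX seam of 256 (`Tr/MeshCv`, `pvrg_mesh_fin3`): the tile is a Boolean combination of `n ≤ 24` convex sets, meshes of the tile and of the base at the scale `μ / 3 / 4 ^ 24`, mesh of the plug region `μ / 3`.
* sec. 1  `PvwsCv C` (convex, open or closed): squares, half planes, balls, funnels, shifts
* sec. 2  `PvrgComb`: shifts (`pvws_comb_sh`), finite unions (`pvws_comb_iUnion`)
* sec. 3  the tile of record: `pvwsCe` (list of `5 + |lb|` convex sets), **`pvws_comb_e`**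
* sec. 4  **`pvws_fin`** : `pvrg_mesh_fin3` with ONE numeral `n` (any list of length `≤ n`), window in the `μ`-core of the room of the certificate;   `pvws_tile` (the mesh clause `pvjoMesh` of a pattern)
0 sorry
-/

set_option autoImplicit false

namespace Claimed.Agent.R289

open Set Metric MeasureTheory Claims.C0465

/-! ## 1. convex pieces -/

/-- convex, open or closed -/
def PvwsCv (C : Set ℂ) : Prop := Convex ℝ C ∧ (IsOpen C ∨ IsClosed C)

theorem pvws_eqns_cite : True := by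
  have := @PvwsCv.eq_1
  trivial

theorem pvws_cv_ball (c : ℂ) (r : ℝ) : PvwsCv (closedBall c r) := ⟨convex_closedBall _ _, Or.inr isClosed_closedBall⟩

theorem pvws_cv_re_ge (a : ℝ) : PvwsCv {w : ℂ | a ≤ w.re} := by
  refine ⟨fun x hx y hy s t hs ht hst => ?_, Or.inr (isClosed_le continuous_const Complex.continuous_re)⟩
  have hx' : a ≤ x.re := hx
  have hy' : a ≤ y.re := hy
  show a ≤ (s • x + t • y).re
  simp only [Complex.add_re, Complex.real_smul, Complex.re_ofReal_mul]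
  have k : s * a + t * a = a := by rw [← add_mul, hst, one_mul]
  linarith [mul_le_mul_of_nonneg_left hx' hs, mul_le_mul_of_nonneg_left hy' ht]

theorem pvws_cv_re_lt (a : ℝ) : PvwsCv {w : ℂ | w.re < a} := by
  refine ⟨fun x hx y hy s t hs ht hst => ?_, Or.inl (isOpen_lt Complex.continuous_re continuous_const)⟩
  have hx' : x.re < a := hx
  have hy' : y.re < a := hy
  show (s • x + t • y).re < a
  simp only [Complex.add_re, Complex.real_smul, Complex.re_ofReal_mul]
  have k : s * a + t * a = a := by rw [← add_mul, hst, one_mul]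
  rcases hs.eq_or_lt with h0 | h0
  · subst h0
    have : t = 1 := by linarith
    subst this
    linarith
  · linarith [mul_lt_mul_of_pos_left hx' h0, mul_le_mul_of_nonneg_left hy'.le ht]

theorem pvws_cv_sqc (c : ℂ) (r : ℝ) : PvwsCv (pvehSq c r) := by
  refine ⟨fun x hx y hy s t hs ht hst => ?_, Or.inr (pveh_sq_closed c r)⟩
  rw [pveh_mem_sq] at hx hy ⊢
  obtain ⟨⟨x1, x2⟩, x3, x4⟩ := hx
  obtain ⟨⟨y1, y2⟩, y3, y4⟩ := hy
  simp only [Complex.add_re, Complex.add_im, Complex.real_smul, Complex.re_ofReal_mul, Complex.im_ofReal_mul]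
  have k : ∀ A : ℝ, s * A + t * A = A := fun A => by rw [← add_mul, hst, one_mul]
  refine ⟨⟨?_, ?_⟩, ?_, ?_⟩
  · linarith [mul_le_mul_of_nonneg_left x1 hs, mul_le_mul_of_nonneg_left y1 ht, k (c.re - r)]
  · linarith [mul_le_mul_of_nonneg_left x2 hs, mul_le_mul_of_nonneg_left y2 ht, k (c.re + r)]
  · linarith [mul_le_mul_of_nonneg_left x3 hs, mul_le_mul_of_nonneg_left y3 ht, k (c.im - r)]
  · linarith [mul_le_mul_of_nonneg_left x4 hs, mul_le_mul_of_nonneg_left y4 ht, k (c.im + r)]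

theorem pvws_N_comb (x y : ℂ) {s t : ℝ} (hs : 0 ≤ s) (ht : 0 ≤ t) : pvccN (s • x + t • y) ≤ s * pvccN x + t * pvccN y := by
  have a1 : |x.re| ≤ pvccN x := le_max_left _ _
  have a2 : |x.im| ≤ pvccN x := le_max_right _ _
  have b1 : |y.re| ≤ pvccN y := le_max_left _ _
  have b2 : |y.im| ≤ pvccN y := le_max_right _ _
  unfold pvccN at *
  simp only [Complex.add_re, Complex.add_im, Complex.real_smul, Complex.re_ofReal_mul, Complex.im_ofReal_mul]
  refine max_le ?_ ?_
  · calc |s * x.re + t * y.re| ≤ |s * x.re| + |t * y.re| := abs_add_le _ _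
      _ = s * |x.re| + t * |y.re| := by rw [abs_mul, abs_mul, abs_of_nonneg hs, abs_of_nonneg ht]
      _ ≤ _ := add_le_add (mul_le_mul_of_nonneg_left a1 hs) (mul_le_mul_of_nonneg_left b1 ht)
  · calc |s * x.im + t * y.im| ≤ |s * x.im| + |t * y.im| := abs_add_le _ _
      _ = s * |x.im| + t * |y.im| := by rw [abs_mul, abs_mul, abs_of_nonneg hs, abs_of_nonneg ht]
      _ ≤ _ := add_le_add (mul_le_mul_of_nonneg_left a2 hs) (mul_le_mul_of_nonneg_left b2 ht)

theorem pvws_cv_sqo (c : ℂ) (r : ℝ) : PvwsCv (pvccSq c r) := by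
  refine ⟨fun x hx y hy s t hs ht hst => ?_, Or.inl (pvccm_sq_open c r)⟩
  have hx' : pvccN (x - c) < r := hx
  have hy' : pvccN (y - c) < r := hy
  show pvccN (s • x + t • y - c) < r
  have e : s • x + t • y - c = s • (x - c) + t • (y - c) := by
    have : (s : ℂ) + (t : ℂ) = 1 := by exact_mod_cast hst
    simp only [Complex.real_smul]
    linear_combination c * this
  rw [e]
  refine (pvws_N_comb _ _ hs ht).trans_lt ?_
  have k : s * r + t * r = r := by rw [← add_mul, hst, one_mul]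
  rcases hs.eq_or_lt with h0 | h0
  · subst h0
    have : t = 1 := by linarith
    subst this
    linarith
  · linarith [mul_lt_mul_of_pos_left hx' h0, mul_le_mul_of_nonneg_left hy'.le ht]

theorem pvws_S_comb (Y u x y : ℂ) {a b : ℝ} (hab : a + b = 1) : pvegS Y u (a • x + b • y) = a * pvegS Y u x + b * pvegS Y u y := by
  unfold pvegS
  have hab' : (a : ℂ) + (b : ℂ) = 1 := by exact_mod_cast hab
  have e : (a • x + b • y - Y) * (starRingEnd ℂ) u = (a : ℂ) * ((x - Y) * (starRingEnd ℂ) u) + (b : ℂ) * ((y - Y) * (starRingEnd ℂ) u) := by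
    simp only [Complex.real_smul]
    linear_combination (Y * (starRingEnd ℂ) u) * hab'
  rw [e, Complex.add_re, Complex.re_ofReal_mul, Complex.re_ofReal_mul]

theorem pvws_L_comb (Y u x y : ℂ) {a b : ℝ} (hab : a + b = 1) : pvegL Y u (a • x + b • y) = a * pvegL Y u x + b * pvegL Y u y := by
  unfold pvegL
  have hab' : (a : ℂ) + (b : ℂ) = 1 := by exact_mod_cast hab
  have e : (a • x + b • y - Y) * (starRingEnd ℂ) u = (a : ℂ) * ((x - Y) * (starRingEnd ℂ) u) + (b : ℂ) * ((y - Y) * (starRingEnd ℂ) u) := by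
    simp only [Complex.real_smul]
    linear_combination (Y * (starRingEnd ℂ) u) * hab'
  rw [e, Complex.add_im, Complex.im_ofReal_mul, Complex.im_ofReal_mul]

/-- the rectangle of a funnel -/
theorem pvws_cv_Ra (Y u p : ℂ) (e δ w a : ℝ) : PvwsCv (pvegRa Y u p e δ w a) := by
  refine ⟨fun x hx y hy s t hs ht hst => ?_, Or.inr (pveg_Ra_closed Y u p e δ w a)⟩
  obtain ⟨x1, x2, x3⟩ := hx
  obtain ⟨y1, y2, y3⟩ := hy
  rw [abs_le] at x3 y3
  have k : ∀ A : ℝ, s * A + t * A = A := fun A => by rw [← add_mul, hst, one_mul]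
  refine ⟨?_, ?_, ?_⟩
  · rw [pvws_S_comb Y u x y hst]
    linarith [mul_le_mul_of_nonneg_left x1 hs, mul_le_mul_of_nonneg_left y1 ht, k (e + 2 * δ)]
  · rw [pvws_S_comb Y u x y hst]
    linarith [mul_le_mul_of_nonneg_left x2 hs, mul_le_mul_of_nonneg_left y2 ht, k (pvegS Y u p - a)]
  · rw [pvws_L_comb Y u x y hst, abs_le]
    constructor
    · linarith [mul_le_mul_of_nonneg_left x3.1 hs, mul_le_mul_of_nonneg_left y3.1 ht, k (-w), k (pvegL Y u p)]
    · linarith [mul_le_mul_of_nonneg_left x3.2 hs, mul_le_mul_of_nonneg_left y3.2 ht, k w, k (pvegL Y u p)]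

theorem pvws_cv_Rc (Y u p : ℂ) (e δ w : ℝ) : PvwsCv (pvegRc Y u p e δ w) := pvws_cv_Ra Y u p e δ w (δ / 4)

theorem pvws_cv_sh {C : Set ℂ} (h : PvwsCv C) (z : ℂ) : PvwsCv (pvieSh z C) := by
  refine ⟨?_, ?_⟩
  · have := h.1.translate z
    exact this
  · rcases h.2 with h2 | h2
    · exact Or.inl ((Homeomorph.addLeft z).isOpenMap _ h2)
    · exact Or.inr ((Homeomorph.addLeft z).isClosedMap _ h2)

/-! ## 2. Boolean combinations -/

theorem pvws_comb_sh {𝒞 : List (Set ℂ)} {K : Set ℂ} (h : PvrgComb 𝒞 K) (z : ℂ) : PvrgComb (𝒞.map (pvieSh z)) (pvieSh z K) := by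
  intro b hb
  have hp : PvrgPure 𝒞 ((fun w : ℂ => z + w) ⁻¹' b) := fun C hC => by
    rcases hb _ (List.mem_map.2 ⟨C, hC, rfl⟩) with h1 | h1
    · left
      intro w hw
      obtain ⟨v, hv, e⟩ := h1 hw
      have e' : v = w := add_left_cancel e
      exact e' ▸ hv
    · right
      exact Set.disjoint_left.2 fun w hw hC' => Set.disjoint_left.1 h1 hw ⟨w, hC', rfl⟩
  rcases h _ hp with h1 | h1
  · left
    intro v hv
    exact ⟨v - z, h1 (by show z + (v - z) ∈ b; rw [add_sub_cancel]; exact hv), by simp⟩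
  · right
    refine Set.disjoint_left.2 ?_
    rintro _ hv ⟨w, hw, rfl⟩
    exact Set.disjoint_left.1 h1 hv hw

theorem pvws_comb_iUnion {𝒞 : List (Set ℂ)} {n : ℕ} {B : ℕ → Set ℂ} (h : ∀ j < n, PvrgComb 𝒞 (B j)) : PvrgComb 𝒞 (⋃ j ∈ Finset.range n, B j) := by
  intro b hb
  by_cases hex : ∃ j < n, b ⊆ B j
  · obtain ⟨j, hj, hbj⟩ := hex
    exact Or.inl (hbj.trans (Set.subset_biUnion_of_mem (u := B) (Finset.mem_coe.2 (Finset.mem_range.2 hj))))
  · push Not at hex
    right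
    refine Set.disjoint_left.2 fun v hv hu => ?_
    simp only [Set.mem_iUnion, Finset.mem_range] at hu
    obtain ⟨j, hj, hvj⟩ := hu
    exact Set.disjoint_left.1 ((h j hj b hb).resolve_left (hex j hj)) hv hvj

/-! ## 3. the tile of the thick link -/

/-- the convex sets of the tile of the thick link: block of the plug, its east half plane, region of the plug, mouth ball, rectangle of the funnel, blocks of the link -/
noncomputable def pvwsCe (Δ : ℝ) (cu : ℂ) (lb : List PvtTurn) (Y : ℂ) (rM : ℝ) (Rc : Set ℂ) : List (Set ℂ) :=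
  [pvehSq cu (Δ / 2), {w : ℂ | cu.re ≤ w.re}, pvccSq cu (Δ / 4), closedBall Y rM, Rc] ++ (List.range lb.length).map (pvehB Δ cu lb)

theorem pvws_eqns_cite2 : True := by
  have := @pvwsCe.eq_1
  trivial

theorem pvws_Ce_len (Δ : ℝ) (cu : ℂ) (lb : List PvtTurn) (Y : ℂ) (rM : ℝ) (Rc : Set ℂ) : (pvwsCe Δ cu lb Y rM Rc).length = 5 + lb.length := by
  simp [pvwsCe]; omega

theorem pvws_Ce_cv (Δ : ℝ) (cu : ℂ) (lb : List PvtTurn) (Y : ℂ) (rM : ℝ) {Rc : Set ℂ} (hR : PvwsCv Rc) : ∀ C ∈ pvwsCe Δ cu lb Y rM Rc, PvwsCv C := by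
  intro C hC
  simp only [pvwsCe, List.cons_append, List.nil_append, List.mem_cons, List.mem_map, List.mem_range] at hC
  rcases hC with rfl | rfl | rfl | rfl | rfl | ⟨j, -, rfl⟩
  · exact pvws_cv_sqc _ _
  · exact pvws_cv_re_ge _
  · exact pvws_cv_sqo _ _
  · exact pvws_cv_ball _ _
  · exact hR
  · exact pvws_cv_sqc _ _

/-- **THE TILE OF RECORD OF THE THICK LINK IS A BOOLEAN COMBINATION OF ITS CONVEX SETS** -/
theorem pvws_comb_e (Δ : ℝ) (cu : ℂ) (lb : List PvtTurn) (Y : ℂ) (rM : ℝ) (Rc : Set ℂ) :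
    PvrgComb (pvwsCe Δ cu lb Y rM Rc) (pvehEK Δ cu lb (closedBall Y rM) ∪ Rc \ closedBall Y rM) := by
  have m : ∀ C ∈ pvwsCe Δ cu lb Y rM Rc, PvrgComb (pvwsCe Δ cu lb Y rM Rc) C := fun C hC => pvrg_cv_comb_mem hC
  have m1 := m (pvehSq cu (Δ / 2)) (by simp [pvwsCe])
  have m2 := m {w : ℂ | cu.re ≤ w.re} (by simp [pvwsCe])
  have m3 := m (pvccSq cu (Δ / 4)) (by simp [pvwsCe])
  have m4 := m (closedBall Y rM) (by simp [pvwsCe])
  have m5 := m Rc (by simp [pvwsCe])
  have m6 : ∀ j < lb.length, PvrgComb (pvwsCe Δ cu lb Y rM Rc) (pvehB Δ cu lb j) := fun j hj =>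
    m _ (by simp only [pvwsCe, List.mem_append, List.mem_map, List.mem_range]; exact Or.inr ⟨j, hj, rfl⟩)
  have hE : PvrgComb (pvwsCe Δ cu lb Y rM Rc) (pvehEast Δ cu) := m1.inter m2
  exact ((hE.union (pvws_comb_iUnion m6)).diff (m3.union m4)).union (m5.diff m4)

/-! ## 4. the seam -/

/-- the mesh clause `pvjoMesh` of a pattern -/
theorem pvws_tile {P : Set (Conf PvPt)} {ρ : ℝ} {K : Set ℂ} : P ∩ pvjoMesh ρ K ⊆ pvrgMesh ρ K := fun _ h => pvjo_mesh_of h.2

/-- **(b6) AT A FINAL CONFIGURATION, ONE NUMERAL**: the tile is a Boolean combination of at most `n` convex sets;   tile and base at the scale `μ / 3 / 4 ^ n`, plug region at `μ / 3`;   the window in the `μ`-core of the room `E₀` of the certificate -/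
theorem pvws_fin {E : PvjeEnd} {T : PvjeTest} {η₀ η : Conf PvPt} (h : PvjeFin E T η₀ η) {μ : ℝ} (hμ : 0 < μ) (n : ℕ) (cD : PvwsCv E.D) {𝒞 : List (Set ℂ)} (h𝒞 : ∀ C ∈ 𝒞, PvwsCv C) (hn : 𝒞.length ≤ n)
    (hK : PvrgComb 𝒞 E.K) (mD : η ∈ pvrgMesh (μ / 3) E.D) (mK : T.𝒦 ⊆ pvrgMesh (μ / 3 / 4 ^ n) E.K) {E₀ : Set ℂ} (m0 : η₀ ∈ pvrgMesh (μ / 3 / 4 ^ n) E₀) (hW : E.Wn (E.Hu η₀) ⊆ pvtrCore μ E₀) :
    PvtrMesh μ (E.Wn (E.Hu η₀)) (cfSites η) := by
  have h1 : μ / 3 / 4 ^ n ≤ μ / 3 / 4 ^ 𝒞.length :=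
    div_le_div_of_nonneg_left (by positivity) (by positivity) (pow_le_pow_right₀ (by norm_num) hn)
  have h2 : μ / 3 / 4 ^ 𝒞.length ≤ μ := by
    have : (1 : ℝ) ≤ 4 ^ 𝒞.length := one_le_pow₀ (by norm_num)
    calc μ / 3 / 4 ^ 𝒞.length ≤ μ / 3 := div_le_self (by positivity) this
      _ ≤ μ := by linarith
  exact pvrg_mesh_fin3 h hμ.le (ED := E.D) (E₀ := E₀) cD.1 cD.2 subset_rfl h𝒞 hK le_rfl mD (fun ξ hξ => pvmq_mono (mK hξ) h1 subset_rfl) (pvmq_mono m0 h1 subset_rfl)
    (hW.trans (pvtr_core_anti h2))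

end Claimed.Agent.R289
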