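import Claimed.Agent.R289.Exit.MeshW
import Claimed.Agent.R289.Exit.ParEngR

/-!
# Row 289 (S0537), THE WALL, ROAD E, E10 step (b6), file Exit/MeshWR : THE SEAM OF THE LINK `r` (door plug `→` reference plug)      (helper206; RULING 22 (3), 23 (1') of 234; prefix `pvwu_`, `pvwu`, `Pvwu`)

The window of the link `r` is `pvilWnr = rK ∪ rO ∪ door`: NO kept part, three sources (tile: pattern / mesh event of the tile; `rO`: usable states of the reference plug; door: usable states of the last door plug).      All pieces are Boolean combinations of half planes of the STANDARD frame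
with thresholds in two short lists `pvwuTx pvwuTy`, so the field `seam` of `Pvr2Lay.Ok` (233, `Exit/FrcR` sec. 3) is ONE call of `pvmj_seam`.      NUMERAL FREE in the half sides: `σ` (door square), `s` (region of the reference plug), `a` (one more square: `Δ/4` after U4, a dummy before).
* sec. 1  `pvwuTx pvwuTy`, `PvwuNumR μ Δ σ s a` (the four inequalities), `PvwuGr` (grid set for these lists) + squares, half planes: `pvwu_gr_s _a _door _blk _west _east`, `pvwu_gr_RK` (`pvehRK` of 166, half side of the hole `= s` or `= a`)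
* sec. 2  **`pvwu_seam_r`** : ANY grid tile `K`, any window `W ⊆ K ∪ sq 0 s ∪ sq (-Δ/2) σ`: the field `seam` VERBATIM
* sec. 3  **`pvwu_r_gen`** = the second conjunct of `pvilMr` VERBATIM, numeral free (`rO = sq 0 s`, `rK` any grid set);   **`pvwu_r`** = at the regions of 166 (`pvehrK pvehrO pvehDr`, half side `Δ/4`);   `pvwu_gr_U4` (tile after U4);   `pvwu_Dr` (the last door region is the square `sq (-Δ/2) σ`), `pvwu_pin0`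
-/

set_option autoImplicit false

namespace Claimed.Agent.R289

open Set Metric MeasureTheory Claims.C0465

/-! ## 1. thresholds -/

/-- thresholds of the first coordinate -/
noncomputable def pvwuTx (Δ σ s a : ℝ) : List ℝ := [-(Δ / 2) - σ, -(Δ / 2), -(Δ / 2) + σ, -a, -s, 0, s, a, Δ / 2]
/-- thresholds of the second coordinate -/
noncomputable def pvwuTy (Δ σ s a : ℝ) : List ℝ := [-(Δ / 2), -a, -s, -σ, σ, s, a, Δ / 2]

/-- the inequalities between the numbers of the block of the reference plug and the mesh -/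
structure PvwuNumR (μ Δ σ s a : ℝ) : Prop where
  μ0 : 0 < μ
  σ0 : 4 * μ / 5 ≤ σ
  σs : σ + 4 * μ / 5 ≤ s
  sa : s + 4 * μ / 5 ≤ a
  aΔ : a + σ + 4 * μ / 5 ≤ Δ / 2

/-- a grid set of the block -/
def PvwuGr (Δ σ s a : ℝ) (F : Set ℂ) : Prop := PvmjGrid 0 1 {x | x ∈ pvwuTx Δ σ s a} {x | x ∈ pvwuTy Δ σ s a} F

theorem pvwu_eqns_cite3 : True := by
  have := @pvwuTx.eq_1; have := @pvwuTy.eq_1; have := @PvwuGr.eq_1
  trivial

section gr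

variable {μ Δ σ s a : ℝ}

theorem pvwu_gapx (H : PvwuNumR μ Δ σ s a) : (pvwuTx Δ σ s a).Pairwise fun x y => x + 4 * μ / 5 ≤ y := by
  obtain ⟨h0, h1, h2, h3, h4⟩ := H
  simp only [pvwuTx, List.pairwise_cons, List.mem_cons, List.not_mem_nil, or_false, forall_eq_or_imp, forall_eq, IsEmpty.forall_iff, implies_true, List.Pairwise.nil, and_true]
  refine ⟨⟨?_, ?_, ?_, ?_, ?_, ?_, ?_, ?_⟩, ⟨?_, ?_, ?_, ?_, ?_, ?_, ?_⟩, ⟨?_, ?_, ?_, ?_, ?_, ?_⟩, ⟨?_, ?_, ?_, ?_, ?_⟩, ⟨?_, ?_, ?_, ?_⟩, ⟨?_, ?_, ?_⟩, ⟨?_, ?_⟩, ?_⟩ <;> linarith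

theorem pvwu_gapy (H : PvwuNumR μ Δ σ s a) : (pvwuTy Δ σ s a).Pairwise fun x y => x + 4 * μ / 5 ≤ y := by
  obtain ⟨h0, h1, h2, h3, h4⟩ := H
  simp only [pvwuTy, List.pairwise_cons, List.mem_cons, List.not_mem_nil, or_false, forall_eq_or_imp, forall_eq, IsEmpty.forall_iff, implies_true, List.Pairwise.nil, and_true]
  refine ⟨⟨?_, ?_, ?_, ?_, ?_, ?_, ?_⟩, ⟨?_, ?_, ?_, ?_, ?_, ?_⟩, ⟨?_, ?_, ?_, ?_, ?_⟩, ⟨?_, ?_, ?_, ?_⟩, ⟨?_, ?_, ?_⟩, ⟨?_, ?_⟩, ?_⟩ <;> linarith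

theorem PvwuGr.compl {F : Set ℂ} (h : PvwuGr Δ σ s a F) : PvwuGr Δ σ s a Fᶜ := PvmjGrid.compl h
theorem PvwuGr.union {F G : Set ℂ} (h : PvwuGr Δ σ s a F) (h' : PvwuGr Δ σ s a G) : PvwuGr Δ σ s a (F ∪ G) := PvmjGrid.union h h'
theorem PvwuGr.inter {F G : Set ℂ} (h : PvwuGr Δ σ s a F) (h' : PvwuGr Δ σ s a G) : PvwuGr Δ σ s a (F ∩ G) := PvmjGrid.inter h h'
theorem PvwuGr.diff {F G : Set ℂ} (h : PvwuGr Δ σ s a F) (h' : PvwuGr Δ σ s a G) : PvwuGr Δ σ s a (F \ G) := PvmjGrid.diff h h'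

variable (Δ σ s a)

/-- the region of the reference plug -/
theorem pvwu_gr_s : PvwuGr Δ σ s a (pvccSq 0 s) :=
  pvwu_grid_sqo (by norm_num) 0 0 (by simp [pvwu_S_std, pvwuTx]) (by simp [pvwu_S_std, pvwuTx]) (by simp [pvwu_L_std, pvwuTy]) (by simp [pvwu_L_std, pvwuTy])

theorem pvwu_gr_a : PvwuGr Δ σ s a (pvccSq 0 a) :=
  pvwu_grid_sqo (by norm_num) 0 0 (by simp [pvwu_S_std, pvwuTx]) (by simp [pvwu_S_std, pvwuTx]) (by simp [pvwu_L_std, pvwuTy]) (by simp [pvwu_L_std, pvwuTy])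

/-- the region of the last door plug -/
theorem pvwu_gr_door : PvwuGr Δ σ s a (pvccSq (-((Δ / 2 : ℝ) : ℂ)) σ) :=
  pvwu_grid_sqo (by norm_num) 0 _ (by simp [pvwu_S_std, pvwuTx]) (by simp [pvwu_S_std, pvwuTx]) (by simp [pvwu_L_std, pvwuTy]) (by simp [pvwu_L_std, pvwuTy])

/-- the closed block -/
theorem pvwu_gr_blk : PvwuGr Δ σ s a (pvehSq 0 (Δ / 2)) :=
  pvwu_grid_sqc (by norm_num) 0 0 (by simp [pvwu_S_std, pvwuTx]) (by simp [pvwu_S_std, pvwuTx]) (by simp [pvwu_L_std, pvwuTy]) (by simp [pvwu_L_std, pvwuTy])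

/-- the west half plane -/
theorem pvwu_gr_west : PvwuGr Δ σ s a {w : ℂ | w.re < 0} := by
  have := pvmj_grid_S_lt (Tx := {x | x ∈ pvwuTx Δ σ s a}) 0 1 {x | x ∈ pvwuTy Δ σ s a} (θ := 0) (by simp [pvwuTx])
  simp only [pvwu_S_std] at this
  exact this

/-- the east half plane -/
theorem pvwu_gr_east : PvwuGr Δ σ s a {w : ℂ | 0 ≤ w.re} := by
  have := pvmj_grid_S_ge (Tx := {x | x ∈ pvwuTx Δ σ s a}) 0 1 {x | x ∈ pvwuTy Δ σ s a} (θ := 0) (by simp [pvwuTx])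
  simp only [pvwu_S_std] at this
  exact this

variable {Δ σ s a}

/-- the tile of 166 -/
theorem pvwu_gr_RK {Dr : Set ℂ} (hD : PvwuGr Δ σ s a Dr) (h4 : PvwuGr Δ σ s a (pvehO Δ)) : PvwuGr Δ σ s a (pvehRK Dr Δ) := by
  have e : pvehRK Dr Δ = ((pvehSq 0 (Δ / 2) ∩ {w : ℂ | w.re < 0}) \ pvehO Δ) \ Dr := by
    ext w
    simp only [pvehRK, mem_ofPred_eq, Set.mem_sdiff, mem_inter_iff]
    tauto
  rw [e]
  exact (((pvwu_gr_blk Δ σ s a).inter (pvwu_gr_west Δ σ s a)).diff h4).diff hD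

end gr

/-! ## 2. the seam -/

/-- **THE FIELD `seam` OF `Pvr2Lay.Ok`** (`O :=` door square, `O' :=` region of the reference plug, `Et := K`) -/
theorem pvwu_seam_r {μ Δ σ s a : ℝ} (H : PvwuNumR μ Δ σ s a) {K W : Set ℂ} (hK : PvwuGr Δ σ s a K) (hW : W ⊆ K ∪ pvccSq 0 s ∪ pvccSq (-((Δ / 2 : ℝ) : ℂ)) σ) :
    ∀ Y : Set ℂ, PvtrMesh (μ / 3) (pvccSq (-((Δ / 2 : ℝ) : ℂ)) σ) Y → PvtrMesh (μ / 3) (pvccSq 0 s) Y → PvtrMesh (μ / 3) K Y → PvtrMesh μ W Y := by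
  intro Y h1 h2 h3
  refine pvmj_seam (c := 0) (u := 1) (ι := Fin 3) (F := ![K, pvccSq 0 s, pvccSq (-((Δ / 2 : ℝ) : ℂ)) σ]) (by simp) H.μ0 (pvwu_gaps (pvwu_gapx H)) (pvwu_gaps (pvwu_gapy H)) ?_ ?_ ?_
  · intro i
    fin_cases i
    · exact hK
    · exact pvwu_gr_s Δ σ s a
    · exact pvwu_gr_door Δ σ s a
  · intro w hw
    rcases hW hw with (h | h) | h
    · exact mem_iUnion.2 ⟨0, h⟩
    · exact mem_iUnion.2 ⟨1, h⟩
    · exact mem_iUnion.2 ⟨2, h⟩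
  · intro i
    fin_cases i
    · exact h3
    · exact h2
    · exact h1

/-! ## 3. at the regions of 166 -/

section eng

variable {τ : Type} {c : ℝ} {𝔓 : PvxPar τ c} {𝔈 : PvieEng τ} {m : ℕ} {ε σ : ℝ} {O₀ : ℕ → Set ℂ}

/-- the door of the last door plug -/
theorem pvwu_pin0 (𝔓 : PvxPar τ c) (m : ℕ) : (pvxrGam 𝔓 m).pin0 = -((pvehDl 𝔓 m / 2 : ℝ) : ℂ) := by
  rw [pvxr_gam_pin0, pvehDl]
  push_cast
  ring

/-- the last door region is a square -/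
theorem pvwu_Dr (hO : O₀ m = pvccSq 0 σ) : pvehDr 𝔓 O₀ m = pvccSq (-((pvehDl 𝔓 m / 2 : ℝ) : ℂ)) σ := by
  unfold pvehDr
  rw [hO, pvxr_gam_din0, pvwu_sim_sq _ (by norm_num), pvwu_pin0]

/-- **(b6), LINK `r`: THE SECOND CONJUNCT OF `pvilMr`, VERBATIM**, NUMERAL FREE (survives U4): `rO` = ANY square `sq 0 s`, `rK` = ANY grid set of the block -/
theorem pvwu_r_gen {s a : ℝ} (hΓ : 𝔓.Γ m = pvxrGam 𝔓 m) (H : PvwuNumR (pvilMu 𝔓 m) (pvehDl 𝔓 m) σ s a) (gK : PvwuGr (pvehDl 𝔓 m) σ s a (𝔈.rK m)) (hR : 𝔈.rO m = pvccSq 0 s)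
    (hO : (𝔈.kit m ε).O₀ = pvccSq 0 σ) {η : Conf PvPt} (hmK : PvtrMesh (pvilMu 𝔓 m / 3) (𝔈.rK m) (cfSites η)) (hmR : PvtrMesh (pvilMu 𝔓 m / 3) (𝔈.rO m) (cfSites η))
    (hmD : PvtrMesh (pvilMu 𝔓 m / 3) (pvieDoor 𝔈 m ε (𝔓.Γ m).pin0 (𝔓.Γ m).din0) (cfSites η)) : η ∈ pvilMs 𝔓 m (pvilWnr 𝔓 𝔈 m ε) := by
  have eD : pvieDoor 𝔈 m ε (𝔓.Γ m).pin0 (𝔓.Γ m).din0 = pvccSq (-((pvehDl 𝔓 m / 2 : ℝ) : ℂ)) σ := by
    unfold pvieDoor
    rw [hO, hΓ, pvxr_gam_din0, pvwu_sim_sq _ (by norm_num), pvwu_pin0]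
  rw [eD] at hmD
  rw [hR] at hmR
  refine pvwu_seam_r H gK ?_ _ hmD hmR hmK
  unfold pvilWnr
  rw [eD, hR]

/-- the same at the regions of 166 (hole of half side `Δ/4`) -/
theorem pvwu_r (hΓ : 𝔓.Γ m = pvxrGam 𝔓 m) (hμ0 : 0 < pvilMu 𝔓 m) (hσ : 4 * pvilMu 𝔓 m / 5 ≤ σ) (hσ' : 16 * σ ≤ pvehDl 𝔓 m)
    (hK : 𝔈.rK m = pvehrK 𝔓 O₀ m) (hR : 𝔈.rO m = pvehrO 𝔓 m) (hO' : O₀ m = pvccSq 0 σ) (hO : (𝔈.kit m ε).O₀ = pvccSq 0 σ) {η : Conf PvPt}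
    (hmK : PvtrMesh (pvilMu 𝔓 m / 3) (𝔈.rK m) (cfSites η)) (hmR : PvtrMesh (pvilMu 𝔓 m / 3) (𝔈.rO m) (cfSites η))
    (hmD : PvtrMesh (pvilMu 𝔓 m / 3) (pvieDoor 𝔈 m ε (𝔓.Γ m).pin0 (𝔓.Γ m).din0) (cfSites η)) : η ∈ pvilMs 𝔓 m (pvilWnr 𝔓 𝔈 m ε) := by
  refine pvwu_r_gen (s := pvehDl 𝔓 m / 4) (a := 3 * pvehDl 𝔓 m / 8) hΓ ⟨hμ0, hσ, by linarith, by linarith, by linarith⟩ ?_ (by rw [hR]; rfl) hO hmK hmR hmD
  rw [hK]
  unfold pvehrK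
  rw [pvwu_Dr hO']
  exact pvwu_gr_RK (pvwu_gr_door _ _ _ _) (pvwu_gr_s _ _ _ _)

/-- after U4 (R23 (2)): hole of half side `s < Δ/4`, tile `= pvehrK ∪` (west half of the ring between the squares `s` and `Δ/4`), in ANY Boolean form: `pvwu_gr_RK` at `a := Δ/4` + `pvwu_gr_a _s _west` -/
theorem pvwu_gr_U4 {Δ s : ℝ} {Dr : Set ℂ} (hD : PvwuGr Δ σ s (Δ / 4) Dr) : PvwuGr Δ σ s (Δ / 4) (pvehRK Dr Δ ∪ (pvccSq 0 (Δ / 4) \ pvccSq 0 s) ∩ {w : ℂ | w.re < 0}) :=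
  (pvwu_gr_RK hD (pvwu_gr_a _ _ _ _)).union (((pvwu_gr_a _ _ _ _).diff (pvwu_gr_s _ _ _ _)).inter (pvwu_gr_west _ _ _ _))

end eng

end Claimed.Agent.R289
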