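import Claimed.Agent.R289.Exit.AnaDefs
import Claimed.Agent.R289.Exit.N1Guard
import Claimed.Agent.R289.Exit.N1K
import Claimed.Agent.R289.Exit.N1Stab
import Claimed.Agent.R289.Tr.KitN1
import Claimed.Agent.R289.Defs.GdReg
import Claimed.Agent.R289.Defs.FitRec
import Claimed.Agent.R289.Defs.InstWf

/-!
# Row 289 (S0537), THE WALL, ROAD E, file Exit/N1AllD : **THE OBJECTS OF RECORD OF `n1`, v5**      DEFS ONLY      (helper170, pen of `exit_pvie_in`, RULING N1-B; names of 159 136: `pvn1a`, `Pvn1a`)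

BELOW `Exit/N1All`.      EVERY PRODUCER OF A SUB-EXIT IMPORTS THIS FILE AND STATES HIS TOP THEOREM IN THESE WORDS.      For one pattern `π ∈ pvxPatSet 𝔓 x R m`, `𝔓.m0 ≤ m`, field `Q` (`a := 0`):
* `C ε := pvieCc 𝔓 𝔈 m ε π.p` (all the tiles and doors of the chain),   `B := closedBall x (6R)`,   **`μ := pvn1aMu c m = δ_m / 4`** (122 29: `h / 4` was too coarse for the apexes),   **`r := pvn1aR c m = δ_m / 30`** (292)
* **`pvn1aRg x R C r`**      LAYER 1 of the guard (deterministic, type of `PvxnKit.E`) `= g5 ∧ mesh`:   `g₀ ⊆ closedBall x (5R)` (130)   ∧   `Pvn1kMesh x R C r` (`Exit/N1K`: the mesh `r` of the patch `7R` off the `r`-neighbourhood of `C`; blind to `C`)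
* **`pvn1aKs .. r q ε`**     `:= (pvknKit 𝔓 x R m π (C ε) r B _ q).guardE (pvn1aRg x R (C ε) r)`      KIT v2 of 29
* **`pvn1aGn .. ε Y`**       THE SLOT OF THE COLOUR BLIND CLAUSES of layer 2 (136), properties of the SET of sites, blind to `C`, of high probability:   `pvn1zGn` (107: generic geometry of 141 at the two windows of the pattern, mesh `δ/3` in `Wz(Zt)`, `Wz(Zs)`, (D))   ∧   `pvn1aSqO`   ∧   `pvn1aSqI`
                             (second moments of the two end links AT THE HULLS OF THE PATTERN in their own experiments, for ALL the colours and ALL the frozen sets: 193 `pvsv_rg_o`, `pvsv_rg_i`; asked by 214 218: TR2 is an identity between Bochner integrals)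
* **`pvn1aS0 .. qf ε`**      the four clauses of layer 2 which read colours: first link forced, last link forced, the two hulls are those of the index
* **`pvn1aS .. qf ε`**       LAYER 2 `:= pvn1aS0 ∩ {ζ | pvn1aGn ε (cfSites ζ)}`
* **`pvn1aGam .. x R r ε ω`**  the free good event: `DelGood` of a.e. splice, [usable ⟹ good] at the two candidates, `pvn1aGn`, the mesh clause of layer 1
* `Pvn1aFrc`                 the line owed by the good part (143 `pvn1w_frc`)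
* **`Pvn1aLv`, `Pvn1aLvY`**   THE LEAVES for one pattern = the hypotheses of `pvn1a_pat` (`Exit/N1All`, 0 sorry);   paid at the record in `Exit/N1Lv`
-/

set_option autoImplicit false

namespace Claimed.Agent.R289

open MeasureTheory Filter Topology Set Claims.C0465
open scoped ENNReal

/-- **THE MESH OF RECORD** of the good samples -/
noncomputable def pvn1aMu (c : ℝ) (m : ℕ) : ℝ := pvlmDel c m / 4

/-- **THE COLLAR RADIUS OF RECORD** (292: `30 r ≤ δ_m`) -/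
noncomputable def pvn1aR (c : ℝ) (m : ℕ) : ℝ := pvlmDel c m / 30

/-- **LAYER 1 OF THE GUARD** (deterministic, reads the datum and the sites off `C`): `g₀` lies in `closedBall x (5R)`, the patch has the mesh `r` off `C` -/
def pvn1aRg (x : ℂ) (R : ℝ) (C : Set ℂ) (r : ℝ) : ∀ Y : Set ℂ, PvwDat (delbPl Y).toMap → (↥Y → Bool) → Prop :=
  fun Y 𝔇 σ => (∀ k, k ≤ 𝔇.g.n → ‖((𝔇.g.v k : ↥Y) : ℂ) - x‖ ≤ 5 * R) ∧ Pvn1kMesh x R C r Y 𝔇 σ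

section defs

variable {τ : Type} {c : ℝ} (𝔓 : PvxPar τ c) (𝔈 : PvieEng τ) (𝔊 : PvnaGd τ) (x : ℂ) (R : ℝ) (m : ℕ) (π : PvxIx τ)

/-- **THE KITS OF RECORD** (layers 0 and 1) -/
noncomputable def pvn1aKs (r : ℝ) (q : ℝ≥0∞) (ε : ℝ) : PvxnKit :=
  (pvknKit 𝔓 x R m π (pvieCc 𝔓 𝔈 m ε π.p) r (Metric.closedBall x (6 * R)) measurableSet_closedBall q).guardE (pvn1aRg x R (pvieCc 𝔓 𝔈 m ε π.p) r)

/-- (SQ, first link) finite second moment in the own experiment, at the hull of the pattern, all the colours, all the frozen sets -/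
def pvn1aSqO (ε : ℝ) (Y : Set ℂ) : Prop :=
  ∀ (σ : ℂ → Bool) (F : Set ℂ), cfOf Y σ ∈ pvueSq (𝔈.kit m ε) ε (pvilEo 𝔓 𝔈 m ε pvilQ π.p.zt π.p.tt ↑π.Zt F) (pvieZo 𝔓 m π.p.zt π.p.tt) ((𝔓.Γ m).dout π.p.tt)

/-- (SQ, last link) -/
def pvn1aSqI (ε : ℝ) (Y : Set ℂ) : Prop :=
  ∀ (σ : ℂ → Bool) (F : Set ℂ), cfOf Y σ ∈ pvueSq (𝔈.kit m ε) ε (pvilEi 𝔓 𝔈 m ε pvilQ π.p.zs π.p.ts ↑π.Zs F) (pvieZi 𝔓 m π.p.zs π.p.ts) ((𝔓.Γ m).din π.p.ts)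

/-- **THE SLOT OF THE COLOUR BLIND CLAUSES OF THE GUARD** (properties of the SET of sites).      A clause owes `pvn1a_gn_Yc` (blind to `C`) and the field `gen` of `Pvn1aLv` (high probability) -/
def pvn1aGn (ε : ℝ) (Y : Set ℂ) : Prop := pvn1zGn 𝔓 𝔈 m π ε Y ∧ pvn1aSqO 𝔓 𝔈 m π ε Y ∧ pvn1aSqI 𝔓 𝔈 m π ε Y

/-- **THE FREE GOOD EVENT** -/
def pvn1aGam (r : ℝ) (ε : ℝ) (ω : PVSample) : Prop :=
  (∀ᵐ ω₂ ∂pvP ε, DelGood (pvxY ω \ pvieCc 𝔓 𝔈 m ε π.p ∪ cfSites ω₂ ∩ pvieCc 𝔓 𝔈 m ε π.p)) ∧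
  (ω ∈ pvxU 𝔓 m π.p.zt π.p.tt → ω ∈ 𝔊.all m ε π.p.zt π.p.tt) ∧ (ω ∈ pvxU 𝔓 m π.p.zs π.p.ts → ω ∈ 𝔊.all m ε π.p.zs π.p.ts) ∧ pvn1aGn 𝔓 𝔈 m π ε (pvxY ω) ∧
  VorDense (pvxY ω) (pvn1kOff x R (pvieCc 𝔓 𝔈 m ε π.p) r) r

/-- the four clauses of the guard which read colours (layer 2; `ζ` in the black vocabulary, `pvxnFl b ζ` = the actual configuration) -/
def pvn1aS0 (qf : ℝ≥0∞) (ε : ℝ) : Set (Conf PvPt) :=
  {ζ | pvxnFl (𝔓.col π.p.ts) ζ ∈ pvrgFo 𝔓 𝔈 qf m ε π.p.zt π.p.tt ∧ pvxnFl (𝔓.col π.p.ts) ζ ∈ pvrgFi 𝔓 𝔈 qf m ε π.p.zs π.p.ts ∧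
    pvilZo 𝔓 m π.p.zt π.p.tt (pvxnFl (𝔓.col π.p.ts) ζ) = (π.Zt : Set (ℤ × ℤ)) ∧ pvilZi 𝔓 m π.p.zs π.p.ts (pvxnFl (𝔓.col π.p.ts) ζ) = (π.Zs : Set (ℤ × ℤ))}

/-- **THE GUARD** = the four clauses + the colour blind clauses on the set of sites -/
def pvn1aS (qf : ℝ≥0∞) (ε : ℝ) : Set (Conf PvPt) := {ζ | ζ ∈ pvn1aS0 𝔓 𝔈 m π qf ε ∧ pvn1aGn 𝔓 𝔈 m π ε (cfSites ζ)}

/-- **THE LINE OWED BY `PvnaGd.Wf`**: the two halves of the good part lie in the named sets of 256 -/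
def Pvn1aFrc : Prop :=
  ∃ qf : ℕ → ℝ≥0∞, (∀ m, qf m ≠ 0) ∧ ∀ m, 𝔓.m0 ≤ m → ∀ (ε : ℝ) (z : ℂ) (t : τ), 𝔊.O m ε z t ⊆ pvrgFo 𝔓 𝔈 (qf m) m ε z t ∧ 𝔊.I m ε z t ⊆ pvrgFi 𝔓 𝔈 (qf m) m ε z t

/-- **THE LEAVES OF `n1` FOR ONE PATTERN, `X` AND `S` SIDES** (numbers of the parameter, regions of the engine, colour blind clauses): OWED AT THE RECORD (`Exit/N1Lv`) -/
structure Pvn1aLv : Prop where
  hF : PvfhWf 𝔓
  fine : 1000 * pvlmDel c m ≤ 𝔓.num.rho * pvlmH m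
  h8 : 8 * 𝔓.num.rho ≤ 𝔓.num.rho1
  LR : 𝔓.𝔐.L * pvlmH m + pvlmH m ≤ R
  dH : pvlmDel c m ≤ pvlmH m
  /-- the resampled region: not empty, inside `Yin`, off the fattened hulls in the two own boxes (148 `pvzu_clear_pat`) -/
  reg : ∀ᶠ ε in 𝓝[>] (0 : ℝ), (pvieCc 𝔓 𝔈 m ε π.p).Nonempty ∧ pvieCc 𝔓 𝔈 m ε π.p ⊆ (𝔓.reg m π).Yin ∧
    ∀ S ∈ pvieTiles 𝔓 𝔈 m ε π.p, Disjoint S (pvieSh π.p.zt (pviwBox 𝔓 m π.p.tt) ∩ pvtU (pvlmDel c m) (pvtN8 (↑π.Zs ∪ ↑π.Zt))) ∧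
      Disjoint S (pvieSh π.p.zs (pviwBox 𝔓 m π.p.ts) ∩ pvtU (pvlmDel c m) (pvtN8 (↑π.Zs ∪ ↑π.Zt)))
  /-- the tiles of the chain are pairwise disjoint .. (148 `pvzu_simple_pat`) -/
  simple : ∀ᶠ ε in 𝓝[>] (0 : ℝ), PvieSimple 𝔓 𝔈 m ε π.p
  /-- the deterministic debts of (S1') of 107 -/
  zgeo : ∀ᶠ ε in 𝓝[>] (0 : ℝ), Pvn1zGeo 𝔓 𝔈 m π ε
  /-- the colour blind clauses have high probability (121 193 107; (D) of 107 = a property of the index: junk split) -/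
  gen : Tendsto (fun ε => (pvhbUp ε).P {p | ¬ pvn1aGn 𝔓 𝔈 m π ε (pvxY (pvMerge p))}) (𝓝[>] (0 : ℝ)) (𝓝 0)

/-- **THE LEAF (Y) FOR ONE PATTERN**: the `Y` side at the guarded kits of record, for every `q ≠ 0`, `0 < qf ≤ 1` -/
def Pvn1aLvY : Prop :=
  ∀ q qf : ℝ≥0∞, q ≠ 0 → qf ≠ 0 → qf ≤ 1 → ∃ 𝔜 : PvxnYd, Pvn1aY 𝔓 x R m π 0 𝔜 (pvn1aKs 𝔓 𝔈 x R m π (pvn1aR c m) q) (pvn1aGam 𝔓 𝔈 𝔊 x R m π (pvn1aR c m)) (pvn1aMu c m) (pvn1aS 𝔓 𝔈 m π qf)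
    (pvnaK 𝔓 (pvnaDatE 𝔓 𝔈) m π.p)

end defs

theorem pvn1a_eqns_cite3 : True := by
  have := @pvn1aMu.eq_1; have := @pvn1aR.eq_1; have := @pvn1aRg.eq_1; have := @pvn1aKs.eq_1; have := @pvn1aSqO.eq_1; have := @pvn1aSqI.eq_1; have := @pvn1aGn.eq_1; have := @pvn1aGam.eq_1; have := @pvn1aS0.eq_1; have := @pvn1aS.eq_1
  have := @Pvn1aFrc.eq_1; have := @Pvn1aLvY.eq_1
  trivial

end Claimed.Agent.R289
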