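import Claimed.Agent.R289.Exit.N1
import Claimed.Agent.R289.Tr.InstE

/-!
# Row 289 (S0537), THE WALL, Exit/N1G : THE SEAM `Exit/N1` (170) ⟷ `Tr/InstE` (161) FOR THE FIELD `n1`, COMPILED      (helper188, second of n1, post of 24; prefix `pvn1_`, `Pvn1`)

WHY.   `Tr/InstE` cuts `PvieN1` in `PvieChainEq + PvieDom + PvieFitSimple`, where `PvieDom` is a SECOND MOMENT of a supremum over ALL samples.      The roof of 170 (`pvxn_pat`) delivers a PROBABILITY, because the bad geometry `G ε`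
(mesh, QBX-bad, not `DelGood`) is removed BEFORE the domination: on `G ε` nothing bounds `‖I + ŷ_c‖²`, so the second moment form is NOT producible from `PvxnIn`.      The form which both sides can sign is `Pvn1Dom` below (probability).
* `Pvn1Dom 𝔓 𝔈`      (N1.b) in PROBABILITY form
* `pvn1_dom_of_in`    `PvxnIn` (170) at `K ε ω := pvieHat 𝔓 𝔈 m ε a π.p ω` for every pattern  ⟹  `Pvn1Dom`
* `pvn1_dom_of_sq`    `PvieDom` (second moment)  ⟹  `Pvn1Dom`      (nothing is lost if somebody does prove `PvieDom`)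
* **`pvn1_main`**      `PvieChainEq + Pvn1Dom + PvieFitSimple ⟹ PvieN1`
* **`pvn1_of_in`**     `PvieChainEq + (∀ pattern, PvxnIn at pvieHat) + PvieFitSimple ⟹ PvieN1`      = THE ROUTE OF RECORD OF `n1`.      0 sorry.
-/

set_option autoImplicit false

namespace Claimed.Agent.R289

open MeasureTheory Filter Topology Set Claims.C0465
open scoped ENNReal

section seam

variable {τ : Type} {c : ℝ} (𝔓 : PvxPar τ c) (𝔈 : PvieEng τ)

/-- **(N1.b) IN PROBABILITY FORM**: over the arcs which fit a fixed pattern, `I + ŷ_c → 0` in (upper) probability -/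
def Pvn1Dom : Prop :=
  ∀ (x : ℂ) (R : ℝ), 0 < R → ∀ (a : ℂ) (m : ℕ), ∀ π ∈ pvxPatSet 𝔓 x R m, ∀ u : ℝ, 0 < u →
    Tendsto (fun ε => ((pvhbUp ε).P {q | ∃ P ∈ pvhbAll x R (pvMerge q), ∃ s ∈ pvxPins 𝔓 x R m (pvMerge q) P, ∃ t ∈ pvxPins 𝔓 x R m (pvMerge q) P, pvxFit 𝔓 x R m (pvMerge q) P s t π ∧
      u < ‖pvbArcI 𝔓.𝔐 (pvlmH m) P (fun k => P.xQ k - a * P.xV k) s t + pvieHat 𝔓 𝔈 m ε a π.p (pvMerge q)‖}).toReal) (𝓝[>] (0 : ℝ)) (𝓝 0)

theorem pvn1_eqns_cite : True := by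
  have := @Pvn1Dom.eq_1
  trivial

variable {𝔓 𝔈}

/-- the contract of 170 at `K := ŷ_c` gives (N1.b) -/
theorem pvn1_dom_of_in
    (H : ∀ (x : ℂ) (R : ℝ), 0 < R → ∀ (a : ℂ) (m : ℕ), ∀ π ∈ pvxPatSet 𝔓 x R m, Nonempty (PvxnIn 𝔓 x R m π a fun ε ω => pvieHat 𝔓 𝔈 m ε a π.p ω)) :
    Pvn1Dom 𝔓 𝔈 := by
  intro x R hR a m π hπ u hu
  obtain ⟨I⟩ := H x R hR a m π hπ
  exact pvxn_pat I hu

/-- the second moment form gives the probability form (Markov for `PvUp`) -/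
theorem pvn1_dom_of_sq (h2 : PvieDom 𝔓 𝔈) : Pvn1Dom 𝔓 𝔈 := by
  intro x R hR a m π hπ u hu
  have hD := h2 x R hR a m π hπ
  have ht0 : ENNReal.ofReal u ^ 2 ≠ 0 := pow_ne_zero _ (by simpa using hu)
  have htt : ENNReal.ofReal u ^ 2 ≠ ⊤ := ENNReal.pow_ne_top ENNReal.ofReal_ne_top
  have hlim := ENNReal.Tendsto.div_const hD (b := ENNReal.ofReal u ^ 2) (Or.inr ht0)
  rw [ENNReal.zero_div] at hlim
  have hP : Tendsto (fun ε => (pvhbUp ε).P {q | ∃ P ∈ pvhbAll x R (pvMerge q), ∃ s ∈ pvxPins 𝔓 x R m (pvMerge q) P, ∃ t ∈ pvxPins 𝔓 x R m (pvMerge q) P, pvxFit 𝔓 x R m (pvMerge q) P s t π ∧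
      u < ‖pvbArcI 𝔓.𝔐 (pvlmH m) P (fun k => P.xQ k - a * P.xV k) s t + pvieHat 𝔓 𝔈 m ε a π.p (pvMerge q)‖}) (𝓝[>] (0 : ℝ)) (𝓝 0) := by
    refine tendsto_of_tendsto_of_tendsto_of_le_of_le tendsto_const_nhds hlim (fun _ => zero_le) fun ε => ?_
    refine ((pvhbUp ε).P_mono ?_).trans ((pvhbUp ε).markov _ ht0 htt)
    rintro q ⟨P, hP, s, hs, t, ht, hfit, hu'⟩
    show ENNReal.ofReal u ^ 2 ≤ _
    refine le_trans ?_ (le_iSup₂_of_le P hP (le_iSup₂_of_le s hs (le_iSup₂_of_le t ht (le_iSup_of_le hfit le_rfl))))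
    gcongr
    rw [← ofReal_norm]
    exact ENNReal.ofReal_le_ofReal hu'.le
  have := (ENNReal.tendsto_toReal ENNReal.zero_ne_top).comp hP
  rw [ENNReal.toReal_zero] at this
  exact this

/-- **`n1` FROM ITS THREE HALVES, PROBABILITY FORM** -/
theorem pvn1_main (h1 : PvieChainEq 𝔓 𝔈) (h2 : Pvn1Dom 𝔓 𝔈) (h3 : PvieFitSimple 𝔓 𝔈) : PvieN1 𝔓 𝔈 := by
  intro x R hR a m π hπ u hu
  refine tendsto_of_tendsto_of_tendsto_of_le_of_le' tendsto_const_nhds (h2 x R hR a m π hπ u hu) (Eventually.of_forall fun _ => ENNReal.toReal_nonneg) ?_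
  filter_upwards [h1 m] with ε hε
  refine ENNReal.toReal_mono (PvUp.P_ne_top _ _) ((pvhbUp ε).P_mono ?_)
  rintro q ⟨P, hP, s, hs, t, ht, hfit, hu'⟩
  refine ⟨P, hP, s, hs, t, ht, hfit, ?_⟩
  have hfit' := hfit
  obtain ⟨⟨es1, es2⟩, ⟨et1, et2⟩, hUs, hUt, -⟩ := hfit'
  have hch := hε a π.p hπ.1.1 hπ.1.2.2.2.2.2.1 (h3 x R m ε (pvMerge q) P s t π hfit) (pvMerge q) ⟨by rw [← et1, ← et2]; exact hUt, by rw [← es1, ← es2]; exact hUs⟩
  rw [es1, es2, et1, et2, ← hch] at hu'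
  exact hu'

/-- **THE ROUTE OF RECORD OF `n1`**: TR2-E (218) + the contract of 170 at `ŷ_c` for every pattern (191: `Tr/N1Sys`) + simple chains (PAR) -/
theorem pvn1_of_in (h1 : PvieChainEq 𝔓 𝔈) (h3 : PvieFitSimple 𝔓 𝔈)
    (H : ∀ (x : ℂ) (R : ℝ), 0 < R → ∀ (a : ℂ) (m : ℕ), ∀ π ∈ pvxPatSet 𝔓 x R m, Nonempty (PvxnIn 𝔓 x R m π a fun ε ω => pvieHat 𝔓 𝔈 m ε a π.p ω)) :
    PvieN1 𝔓 𝔈 :=
  pvn1_main h1 (pvn1_dom_of_in H) h3

end seam

end Claimed.Agent.R289
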