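import Claimed.Agent.R289.Exit.N1BK
import Claimed.Agent.R289.Exit.N1RK

/-!
# Row 289 (S0537), THE WALL, ROAD E, file Exit/N1KitG : (X2) OF `Exit/N1All` = THE CONTRACT `Pvn1bKit` OF 60 AT THE KIT OF RECORD `pvknKit` OF 29      (helper83; race node `exit_pvn1a_kit`; prefix `pvmk_`)      0 sorry
* `pvmk_verts` : two data with the same label `g` have the same vertices of `g₀`
* `pvmk_uni` : the field `uni` at `pvknKit` (half states: `pvhq_same` of 27; the circuit reads `g₀` and `dp` of `s` only)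
* **`pvmk_kit`** = the statement of `exit_pvn1a_kit` VERBATIM, kit v2 of 29 (patch of 29, 13:15Z: hypothesis `hfa`)  (`mu := pvnbk_mu`, `c1 := pvnbk_c1` of 60, `sub := pvkn_subF`, `fin := pvkn_finF`, `far := pvkn_farF` of 29, `uni := pvmk_uni`)
-/

set_option autoImplicit false
set_option linter.unusedVariables false
set_option linter.unusedSectionVars false

namespace Claimed.Agent.R289

open MeasureTheory Filter Topology Set Claims.C0465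
open scoped ENNReal

section kit

variable {τ : Type} {c : ℝ} {𝔓 : PvxPar τ c} {x : ℂ} {R : ℝ} {m : ℕ} {π : PvxIx τ}

/-- two data with the same label `g` have the same vertices of `g₀` -/
theorem pvmk_verts {Y : Set ℂ} {𝔇 𝔇' : PvwDat (delbPl Y).toMap}
    (e : (List.ofFn fun k : Fin (𝔇.g.n + 1) => ((𝔇.g.v k : ↥Y) : ℂ)) = List.ofFn fun k : Fin (𝔇'.g.n + 1) => ((𝔇'.g.v k : ↥Y) : ℂ)) :
    𝔇.g.verts ⊆ 𝔇'.g.verts := by
  have hn : 𝔇.g.n + 1 = 𝔇'.g.n + 1 := by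
    have := congrArg List.length e
    simpa using this
  rintro _ ⟨k, hk, rfl⟩
  refine ⟨k, by omega, ?_⟩
  have h1 : (List.ofFn fun k : Fin (𝔇.g.n + 1) => ((𝔇.g.v k : ↥Y) : ℂ))[k]? = (List.ofFn fun k : Fin (𝔇'.g.n + 1) => ((𝔇'.g.v k : ↥Y) : ℂ))[k]? := by rw [e]
  rw [List.getElem?_ofFn, List.getElem?_ofFn, dif_pos (by omega), dif_pos (by omega)] at h1
  exact (Subtype.val_injective (Option.some.inj h1)).symm

/-- **the field `uni` of `Pvn1bKit` at the kit of record** -/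
theorem pvmk_uni (a : ℂ) (C : Set ℂ) (r : ℝ) (B : Set ℂ) (mB : MeasurableSet B) (q : ℝ≥0∞) :
    ∀ (Y : Set ℂ) (i : PvxnIx) (σ : ↥Y → Bool) (𝔇 𝔇' : PvwDat (delbPl Y).toMap), DelGood Y → PvxnWit 𝔓 m π a (pvknKit 𝔓 x R m π C r B mB q) Y i σ 𝔇 →
    PvxnWit 𝔓 m π a (pvknKit 𝔓 x R m π C r B mB q) Y i σ 𝔇' → ∀ τ' : ↥Y → Bool, (pvknKit 𝔓 x R m π C r B mB q).W Y 𝔇' τ' → (pvknKit 𝔓 x R m π C r B mB q).W Y 𝔇 τ' := by
  intro Y i σ 𝔇 𝔇' hY h h' τ' hW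
  have hs := pvhq_same (pvmo_sph hY) (pvmo_simple Y) Subtype.val_injective h.ok h'.ok h.cyl h'.cyl
  have hfz : 𝔇.fz = 𝔇'.fz := Subtype.val_injective.image_injective (h.labF.trans h'.labF.symm)
  obtain ⟨hwo, w, hw, hg, hd⟩ := hW
  refine ⟨(hs.WO hfz).2 hwo, w, hw, fun v hv => hg v (pvmk_verts (h.labg.trans h'.labg.symm) hv), ?_⟩
  rw [hs.sg.dp]
  exact hd

/-- **(X2) THE CONTRACT OF 60 AT THE KIT OF 29** = `exit_pvn1a_kit` of `Exit/N1All`, VERBATIM -/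
theorem pvmk_kit (hW : 𝔓.Wf) (hLR : 𝔓.𝔐.L * pvlmH m + pvlmH m ≤ R) (hR : 0 < R) (hm : 𝔓.m0 ≤ m) (hπ : π ∈ pvxPatSet 𝔓 x R m) {r : ℝ} (q : ℝ≥0∞) {C : Set ℂ}
    (G : PvknGeo 𝔓.num (pvlmH m) (𝔓.reg m π) x (5 * R) (6 * R) C r) (Γ : PVSample → Prop)
    (hfa : ∀ ω : PVSample, PvqfGood (pvConf ω) → L9Fine (pvxY ω) (Metric.closedBall x (6 * R)) (pvlmH m / 4) → ∀ 𝔇 : PvwDat (pvxT ω), Pvn1bAct 𝔓 x R m π ω 𝔇 →
      (∀ v ∈ 𝔇.fz, (v : ℂ) ∈ pvgeFar C r) ∧ ∀ v ∈ 𝔇.apx, (v : ℂ) ∉ (𝔓.reg m π).Yin) :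
    Pvn1bKit 𝔓 x R m π 0 (pvknKit 𝔓 x R m π C r (Metric.closedBall x (6 * R)) measurableSet_closedBall q) Γ (pvlmH m / 4) where
  mu := (pvnbk_mu hW hπ hLR).1
  c1 := fun ω hg _ _ _ 𝔇 hA => pvc4_nbon_mono 𝔇 (M := 𝔇.MF Subtype.val (𝔓.reg m π) (pvgeFar C r) x (6 * R)) (M' := 𝔇.MU Subtype.val (𝔓.reg m π) x (6 * R)) (fun v hv => ⟨pvkn_nf_nu hv.1, hv.2⟩)
    (pvnbk_c1 hW hR hπ (pvnbk_mu hW hπ hLR).1 hg.del 𝔇 hA).1
  sub := fun ω hg hf _ _ 𝔇 hA => pvkn_subF (hfa ω hg hf 𝔇 hA).2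
  fin := fun ω hg _ _ _ 𝔇 hA => pvkn_finF hg.del.lf hA.1
  far := fun ω hg hf _ _ 𝔇 hA v hv => pvkn_farF (hfa ω hg hf 𝔇 hA).1 hv
  uni := pvmk_uni 0 C r _ _ q

end kit

end Claimed.Agent.R289
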