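-- KEEP
import Claimed.Agent.R289.Tr.LinkDet
import Claimed.Agent.R289.Tr.Rd

/-!
# Row 289 (S0537), THE WALL, ROAD E, N1', (POCKET-DET), file Exit/N1PkR : THE ROOMS OF THE END LINKS ARE FAR FROM THE COMPLEMENT OF THEIR WINDOWS      (helper78; prefix `pvc7_`)

(Rc) of RULING 22 (rooms with collar `3 μ₀`: `exit_pvly_col_o _i` of 22, `pvey_oYc_collar _iYc_collar` of 245) kills the SHELL problem of 158:
* sec. 1  model free: `pvc7_room_far` (room in the `3ρ`-core of `W`, `ρ ≤ r` ⟹ `Rm ∩ Far C r ⊆ Far (C ∪ Wᶜ) ρ`), `pvc7_collar_core` (the collar of `C ∪ Wᶜ` lies in the `ρ`-core of `W`), `pvc7_sit` (`PvrdSit` from the mesh of the window)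
* sec. 2  generic engine + the line (Rc): `pvc7_far_o _i`;   at the engine of record: `pvc7_far_o_rec _i_rec`, `pvc7_sit_o _i` (`PvrdSit (cfSites ζ) Y (C ∪ Wnᶜ) μ₀` from `ζ ∈ pvilMs`)
-/

set_option autoImplicit false

namespace Claimed.Agent.R289

open Set Metric Claims.C0465

/-! ## 1. model free -/

/-- a room in the `3ρ`-core of `W`: its points far from `C` are far from `C ∪ Wᶜ` -/
theorem pvc7_room_far {Rm C W : Set ℂ} {ρ r : ℝ} (hcol : Rm ⊆ pvtrCore (3 * ρ) W) (hρr : ρ ≤ r) (hr : 0 < r) : Rm ∩ pvgeFar C r ⊆ pvgeFar (C ∪ Wᶜ) ρ := by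
  rintro v ⟨hv, hf⟩
  have hf : 3 * r ≤ infDist v C := hf
  have hne : C.Nonempty := by
    by_contra h
    rw [not_nonempty_iff_eq_empty] at h
    rw [h, infDist_empty] at hf
    linarith
  show 3 * ρ ≤ infDist v (C ∪ Wᶜ)
  rw [le_infDist (hne.mono subset_union_left)]
  rintro y (hy | hy)
  · have := infDist_le_dist_of_mem (x := v) hy
    linarith
  · by_contra h
    rw [not_le] at h
    exact hy (hcol hv (by rw [mem_closedBall, dist_comm]; exact h.le))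

/-- the collar of `C ∪ Wᶜ` lies in the `ρ`-core of `W` -/
theorem pvc7_collar_core (C W : Set ℂ) (ρ : ℝ) : pvgeCollar (C ∪ Wᶜ) ρ ⊆ pvtrCore ρ W := by
  rintro y ⟨h1, -⟩ w hw
  by_contra h
  have := infDist_le_dist_of_mem (x := y) (show w ∈ C ∪ Wᶜ from Or.inr h)
  rw [mem_closedBall, dist_comm] at hw
  linarith

/-- **THE SITUATION OF 29** between a completion and its base, from the mesh of the window -/
theorem pvc7_sit {Y Y' C W : Set ℂ} {ρ : ℝ} (hρ : 0 < ρ) (he : Y ∩ (W \ C) = Y' ∩ (W \ C)) (hm : PvtrMesh ρ W Y) (hg : DelGood Y) (hg' : DelGood Y') : PvrdSit Y Y' (C ∪ Wᶜ) ρ where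
  rho := hρ
  eq := by
    have e : ∀ S : Set ℂ, S \ (C ∪ Wᶜ) = S ∩ (W \ C) := fun S => by
      ext v
      simp only [mem_sdiff, mem_union, mem_compl_iff, mem_inter_iff, not_or, not_not]
      tauto
    rw [e, e, he]
  mesh := fun y hy => hm y (pvc7_collar_core C W ρ hy)
  good := hg
  good' := hg'

/-! ## 2. the end links -/

section eng

variable {τ : Type} {c : ℝ} {𝔓 : PvxPar τ c} {𝔈 : PvieEng τ} {m : ℕ} {ε : ℝ} {t : τ}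

theorem pvc7_far_o (h : ∀ v ∈ 𝔈.oY m t, closedBall v (3 * pvilMu 𝔓 m) ⊆ 𝔈.oM m t ∪ 𝔈.oK m t ∪ pvieDoor 𝔈 m ε ((𝔓.Γ m).pout t) ((𝔓.Γ m).dout t)) (z : ℂ) (Z : Set (ℤ × ℤ))
    (C : Set ℂ) {r : ℝ} (hr : pvilMu 𝔓 m ≤ r) (hr0 : 0 < r) : pvieSh z (𝔈.oY m t) ∩ pvgeFar C r ⊆ pvgeFar (C ∪ (pvilWno 𝔓 𝔈 m ε z t Z)ᶜ) (pvilMu 𝔓 m) := by
  refine pvc7_room_far (fun v hv => ?_) hr hr0
  have h1 : closedBall v (3 * pvilMu 𝔓 m) ⊆ _ := pvll_col_o h z hv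
  show closedBall v (3 * pvilMu 𝔓 m) ⊆ _
  unfold pvilWno
  intro w hw
  rcases h1 hw with (hw | hw) | hw
  · exact Or.inl (Or.inl (Or.inr hw))
  · exact Or.inl (Or.inr hw)
  · exact Or.inr hw

theorem pvc7_far_i (h : ∀ v ∈ 𝔈.iY m t, closedBall v (3 * pvilMu 𝔓 m) ⊆ 𝔈.iM m t ∪ 𝔈.iK m t ∪ pvieDoor 𝔈 m ε ((𝔓.Γ m).pin t) ((𝔓.Γ m).din t)) (z : ℂ) (Z : Set (ℤ × ℤ))
    (C : Set ℂ) {r : ℝ} (hr : pvilMu 𝔓 m ≤ r) (hr0 : 0 < r) : pvieSh z (𝔈.iY m t) ∩ pvgeFar C r ⊆ pvgeFar (C ∪ (pvilWni 𝔓 𝔈 m ε z t Z)ᶜ) (pvilMu 𝔓 m) := by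
  refine pvc7_room_far (fun v hv => ?_) hr hr0
  have h1 : closedBall v (3 * pvilMu 𝔓 m) ⊆ _ := pvll_col_i h z hv
  show closedBall v (3 * pvilMu 𝔓 m) ⊆ _
  unfold pvilWni
  intro w hw
  rcases h1 hw with (hw | hw) | hw
  · exact Or.inl (Or.inl (Or.inr hw))
  · exact Or.inl (Or.inr hw)
  · exact Or.inr hw

/-- `PvrdSit` between the sites of a configuration with the mesh of a window and a base which agrees with it on the window off `C` -/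
theorem pvc7_sit_ms {ζ : Conf PvPt} {Y C W : Set ℂ} (hμ : 0 < pvilMu 𝔓 m) (hζ : ζ ∈ pvilMs 𝔓 m W) (he : cfSites ζ ∩ (W \ C) = Y ∩ (W \ C)) (hg : DelGood (cfSites ζ)) (hg' : DelGood Y) :
    PvrdSit (cfSites ζ) Y (C ∪ Wᶜ) (pvilMu 𝔓 m) := pvc7_sit hμ he hζ hg hg'

end eng

section rec

variable {c : ℝ} (N : PvxNums) (hN : N.Ok) (nb : PvnaNb N) {m : ℕ}

/-- **AT THE ENGINE OF RECORD, FIRST LINK** -/
theorem pvc7_far_o_rec (c0 : 0 < c) (hm : (pvxParOf N hN c).m0 ≤ m) (ε : ℝ) (z : ℂ) (t : pvxTau N) (Z : Set (ℤ × ℤ)) (C : Set ℂ) {r : ℝ} (hr : pvilMu (pvxParOf N hN c) m ≤ r) (hr0 : 0 < r) :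
    pvieSh z ((pvnaEngRec N hN c nb).oY m t) ∩ pvgeFar C r ⊆ pvgeFar (C ∪ (pvilWno (pvxParOf N hN c) (pvnaEngRec N hN c nb) m ε z t Z)ᶜ) (pvilMu (pvxParOf N hN c) m) :=
  pvc7_far_o (exit_pvly_col_o N hN nb c0 hm ε t) z Z C hr hr0

/-- **AT THE ENGINE OF RECORD, LAST LINK** -/
theorem pvc7_far_i_rec (c0 : 0 < c) (hm : (pvxParOf N hN c).m0 ≤ m) (ε : ℝ) (z : ℂ) (t : pvxTau N) (Z : Set (ℤ × ℤ)) (C : Set ℂ) {r : ℝ} (hr : pvilMu (pvxParOf N hN c) m ≤ r) (hr0 : 0 < r) :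
    pvieSh z ((pvnaEngRec N hN c nb).iY m t) ∩ pvgeFar C r ⊆ pvgeFar (C ∪ (pvilWni (pvxParOf N hN c) (pvnaEngRec N hN c nb) m ε z t Z)ᶜ) (pvilMu (pvxParOf N hN c) m) :=
  pvc7_far_i (exit_pvly_col_i N hN nb c0 hm ε t) z Z C hr hr0

end rec

end Claimed.Agent.R289
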