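-- KEEP
import Claimed.Agent.R289.Tr.PocketD
import Claimed.Agent.R289.Exit.Par

/-!
# Row 289 (S0537, Cardy for Poisson-Voronoi), THE WALL, ROAD E, N1', (POCKET-DET), file Exit/N1PkX : THE OTHER STUB IS OFF THE MOUTH (`hxs`, `hxt` of `pvpd_pl_o_top`, `pvpd_pl_i_top` of 120)      (helper49; prefix `pvfw_x_`)

Leaf given by 120 (id 100551).   (b1) of the pattern set (`pvxPatSet`: the largest boxes of the two pins are disjoint) + `pvpd_cross_s`, `pvpd_cross_t` of 120.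
* sec. 1  generic parameters (`𝔓.Wf`): `pvfw_x_apart`, **`pvfw_x_s`** (`= hxs`), **`pvfw_x_t`** (`= hxt`) at `π' := 𝔓.reg m π`;   numbers left: `b h ≤ r_k` at the two pins (`hb` of 197), `ρ h ≤ r_K` at the two pins
* sec. 2  at `pvxParOf N hN c`: **`pvfw_x_s_rec`**, **`pvfw_x_t_rec`** : nothing left but `π ∈ pvxPatSet`, `𝔇.Ok`;   `pvfw_x_b_rec` (`hb`), `pvfw_x_rho_rec` (`hρ`)
-/

set_option autoImplicit false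
set_option linter.unusedSectionVars false

namespace Claimed.Agent.R289

open Set Metric Claims.C0465

/-! ## 1. generic parameters -/

section gen

variable {τ : Type} {c : ℝ} {𝔓 : PvxPar τ c} {x : ℂ} {R : ℝ} {m : ℕ} {π : PvxIx τ} {V D : Type} {T : PvMap V D} {𝔇 : PvwDat T} {pos : V → ℂ}

theorem pvfw_x_rad_mono (hW : 𝔓.Wf) (t : PvwTy) {k : ℕ} (hk : k ≤ 𝔓.num.K) : pvwRad 𝔓.num (pvlmH m) t k ≤ pvwRad 𝔓.num (pvlmH m) t 𝔓.num.K := by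
  have hh := pvlm_H_pos m
  have hr1 : 0 ≤ 𝔓.num.rho1 := (hW.rho0.trans hW.rho1).le
  unfold pvwRad
  have : (k : ℝ) ≤ 𝔓.num.K := by exact_mod_cast hk
  gcongr

/-- the two pins of a pattern are far apart -/
theorem pvfw_x_apart (hW : 𝔓.Wf) (hπ : π ∈ pvxPatSet 𝔓 x R m) (h1 : 𝔓.num.rho * pvlmH m ≤ pvwRad 𝔓.num (pvlmH m) (𝔓.ty π.p.ts) 𝔓.num.K)
    (h2 : 𝔓.num.rho * pvlmH m ≤ pvwRad 𝔓.num (pvlmH m) (𝔓.ty π.p.tt) 𝔓.num.K) :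
    3 / 2 * pvwRad 𝔓.num (pvlmH m) (𝔓.reg m π).tt (𝔓.reg m π).tt.k + 3 / 2 * pvwRad 𝔓.num (pvlmH m) (𝔓.reg m π).ts (𝔓.reg m π).ts.k + 𝔓.num.rho * pvlmH m / 4 + 𝔓.num.rho * pvlmH m / 2 <
      ‖(𝔓.reg m π).zt - (𝔓.reg m π).zs‖ := by
  obtain ⟨-, hb1, -⟩ := hπ
  rw [hW.reg_tt, hW.reg_ts, hW.reg_zt, hW.reg_zs, norm_sub_rev]
  have a1 := pvfw_x_rad_mono (m := m) hW (𝔓.ty π.p.ts) (hW.lev π.p.ts)
  have a2 := pvfw_x_rad_mono (m := m) hW (𝔓.ty π.p.tt) (hW.lev π.p.tt)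
  have a3 : 0 ≤ 𝔓.num.rho * pvlmH m := mul_nonneg hW.rho0.le (pvlm_H_pos m).le
  linarith

/-- **`hxs`**: the frozen sites of `Σ_in(s)` miss the disc `ρ h / 2` round `y⁺(t)` -/
theorem pvfw_x_s (hW : 𝔓.Wf) (hπ : π ∈ pvxPatSet 𝔓 x R m) (hok : 𝔇.Ok pos 𝔓.num (pvlmH m) (𝔓.reg m π))
    (hbs : (𝔓.ty π.p.ts).b * pvlmH m ≤ pviwRad 𝔓 m π.p.ts) (hbt : (𝔓.ty π.p.tt).b * pvlmH m ≤ pviwRad 𝔓 m π.p.tt)
    (h1 : 𝔓.num.rho * pvlmH m ≤ pvwRad 𝔓.num (pvlmH m) (𝔓.ty π.p.ts) 𝔓.num.K) (h2 : 𝔓.num.rho * pvlmH m ≤ pvwRad 𝔓.num (pvlmH m) (𝔓.ty π.p.tt) 𝔓.num.K) :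
    ∀ v ∈ 𝔇.s.fzIn, 𝔓.num.rho * pvlmH m / 2 < ‖pos v - (𝔓.reg m π).tt.cp (pvlmH m) (𝔓.reg m π).zt‖ := by
  have hh := pvlm_H_pos m
  have b0 : ∀ t, 0 ≤ (𝔓.ty t).b * pvlmH m := fun t => mul_nonneg ((hW.a0 t).trans (hW.ab t)).le hh.le
  refine pvpd_cross_s hok ?_ ?_ (pvfw_x_apart hW hπ h1 h2)
  · rw [hW.reg_tt]
    have : (𝔓.ty π.p.tt).b * pvlmH m ≤ pvwRad 𝔓.num (pvlmH m) (𝔓.ty π.p.tt) (𝔓.ty π.p.tt).k := hbt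
    linarith [b0 π.p.tt]
  · rw [hW.reg_ts]
    have : (𝔓.ty π.p.ts).b * pvlmH m ≤ pvwRad 𝔓.num (pvlmH m) (𝔓.ty π.p.ts) (𝔓.ty π.p.ts).k := hbs
    linarith [b0 π.p.ts]

/-- **`hxt`**: the frozen sites of `Σ_out(t)` miss the disc `ρ h / 2` round `y⁻(s)` -/
theorem pvfw_x_t (hW : 𝔓.Wf) (hπ : π ∈ pvxPatSet 𝔓 x R m) (hok : 𝔇.Ok pos 𝔓.num (pvlmH m) (𝔓.reg m π))
    (hbs : (𝔓.ty π.p.ts).b * pvlmH m ≤ pviwRad 𝔓 m π.p.ts) (hbt : (𝔓.ty π.p.tt).b * pvlmH m ≤ pviwRad 𝔓 m π.p.tt)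
    (h1 : 𝔓.num.rho * pvlmH m ≤ pvwRad 𝔓.num (pvlmH m) (𝔓.ty π.p.ts) 𝔓.num.K) (h2 : 𝔓.num.rho * pvlmH m ≤ pvwRad 𝔓.num (pvlmH m) (𝔓.ty π.p.tt) 𝔓.num.K) :
    ∀ v ∈ 𝔇.t.fzOut, 𝔓.num.rho * pvlmH m / 2 < ‖pos v - (𝔓.reg m π).ts.cm (pvlmH m) (𝔓.reg m π).zs‖ := by
  have hh := pvlm_H_pos m
  have b0 : ∀ t, 0 ≤ (𝔓.ty t).b * pvlmH m := fun t => mul_nonneg ((hW.a0 t).trans (hW.ab t)).le hh.le
  refine pvpd_cross_t hok ?_ ?_ (pvfw_x_apart hW hπ h1 h2)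
  · rw [hW.reg_tt]
    have : (𝔓.ty π.p.tt).b * pvlmH m ≤ pvwRad 𝔓.num (pvlmH m) (𝔓.ty π.p.tt) (𝔓.ty π.p.tt).k := hbt
    linarith [b0 π.p.tt]
  · rw [hW.reg_ts]
    have : (𝔓.ty π.p.ts).b * pvlmH m ≤ pvwRad 𝔓.num (pvlmH m) (𝔓.ty π.p.ts) (𝔓.ty π.p.ts).k := hbs
    linarith [b0 π.p.ts]

/-- `hρ` -/
theorem pvfw_x_rho (hW : 𝔓.Wf) (m : ℕ) : 𝔓.num.rho * pvlmH m ≤ 𝔓.num.rho1 * pvlmH m := mul_le_mul_of_nonneg_right hW.rho1.le (pvlm_H_pos m).le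

end gen

/-! ## 2. at the parameters of record -/

section rec

variable (N : PvxNums) (hN : N.Ok) (c : ℝ) {x : ℂ} {R : ℝ} {m : ℕ} {π : PvxIx (pvxTau N)} {V D : Type} {T : PvMap V D} {𝔇 : PvwDat T} {pos : V → ℂ}

/-- the boxes of every level contain the gate disc, with room -/
theorem pvfw_x_box_rec (m : ℕ) (t : pvxTau N) (k : ℕ) : ((pvxParOf N hN c).ty t).b * pvlmH m + pvlmH m ≤ pvwRad (pvxParOf N hN c).num (pvlmH m) ((pvxParOf N hN c).ty t) k := by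
  have hh := pvlm_H_pos m
  show N.b1 * pvlmH m + pvlmH m ≤ (2 * N.b2 + k * N.rho1) * pvlmH m
  have b1 : 0 ≤ (k : ℝ) * N.rho1 * pvlmH m := by have := hN.rho1_pos; positivity
  have b2 : (N.b1 + 2) * pvlmH m ≤ N.b2 * pvlmH m := by nlinarith [hN.gap, hN.ab2]
  have b3 : 0 < N.b2 * pvlmH m := mul_pos hN.b2_pos hh
  nlinarith

/-- `hb` of 197 at the record -/
theorem pvfw_x_b_rec (m : ℕ) (t : pvxTau N) : ((pvxParOf N hN c).ty t).b * pvlmH m ≤ pviwRad (pvxParOf N hN c) m t := by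
  have := pvfw_x_box_rec N hN c m t ((pvxParOf N hN c).ty t).k
  have hh := pvlm_H_pos m
  unfold pviwRad
  linarith

theorem pvfw_x_K_rec (m : ℕ) (t : pvxTau N) : (pvxParOf N hN c).num.rho * pvlmH m ≤ pvwRad (pvxParOf N hN c).num (pvlmH m) ((pvxParOf N hN c).ty t) (pvxParOf N hN c).num.K := by
  have hW := pvxo_wf N hN c
  have := pvfw_x_box_rec N hN c m t (pvxParOf N hN c).num.K
  have hh := pvlm_H_pos m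
  have b0 : 0 ≤ ((pvxParOf N hN c).ty t).b * pvlmH m := mul_nonneg ((hW.a0 t).trans (hW.ab t)).le hh.le
  have r1 : (pvxParOf N hN c).num.rho * pvlmH m ≤ 1 * pvlmH m := mul_le_mul_of_nonneg_right ((hW.rho1.trans hW.rho2).trans hW.rho3).le hh.le
  linarith

/-- **`hxs` AT THE RECORD** -/
theorem pvfw_x_s_rec (hπ : π ∈ pvxPatSet (pvxParOf N hN c) x R m) (hok : 𝔇.Ok pos (pvxParOf N hN c).num (pvlmH m) ((pvxParOf N hN c).reg m π)) :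
    ∀ v ∈ 𝔇.s.fzIn, (pvxParOf N hN c).num.rho * pvlmH m / 2 < ‖pos v - ((pvxParOf N hN c).reg m π).tt.cp (pvlmH m) ((pvxParOf N hN c).reg m π).zt‖ :=
  pvfw_x_s (pvxo_wf N hN c) hπ hok (pvfw_x_b_rec N hN c m _) (pvfw_x_b_rec N hN c m _) (pvfw_x_K_rec N hN c m _) (pvfw_x_K_rec N hN c m _)

/-- **`hxt` AT THE RECORD** -/
theorem pvfw_x_t_rec (hπ : π ∈ pvxPatSet (pvxParOf N hN c) x R m) (hok : 𝔇.Ok pos (pvxParOf N hN c).num (pvlmH m) ((pvxParOf N hN c).reg m π)) :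
    ∀ v ∈ 𝔇.t.fzOut, (pvxParOf N hN c).num.rho * pvlmH m / 2 < ‖pos v - ((pvxParOf N hN c).reg m π).ts.cm (pvlmH m) ((pvxParOf N hN c).reg m π).zs‖ :=
  pvfw_x_t (pvxo_wf N hN c) hπ hok (pvfw_x_b_rec N hN c m _) (pvfw_x_b_rec N hN c m _) (pvfw_x_K_rec N hN c m _) (pvfw_x_K_rec N hN c m _)

end rec

end Claimed.Agent.R289
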