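import Claimed.Agent.R289.Exit.N1BK
import Claimed.Agent.R289.Tr.LinkQ
import Claimed.Agent.R289.Tr.HookWM
import Claimed.Agent.R289.Exit.ParGeo

/-!
# Row 289 (S0537), THE WALL, ROAD E, Exit/N1Q : THE `WO` HALF OF E4 AT THE MODEL (`PvnbkWO` of 60, `Exit/N1BK`) AT THE KIT OF RECORD `pvhqKit` (27)      (helper5; prefix `pvwh_`, `Pvwh`)

`Pvn1bQbx` ⟸ (`pvnbk_qbx` of 60: frame + Harris of 130) ⟸ `PvnbkWO 𝔓 m π a (fun ε => pvhqKit ..) q₁`  ⟸  (HERE)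
* `PvwhDet 𝔓 x R m π μ 𝒜`   THE DETERMINISTIC CONTRACT (HOOK-DET for `WO`; producers 155 `Tr/HookWM`, 53 `Tr/HookW`, `Tr/HookWC`, 131 `Tr/HookWR`): at a good site set with mesh `μ` on `closedBall x (7R)`, for EVERY datum `Ok` with the hulls of the index
                            and `g₀ ⊆ closedBall x (5R)`, the pattern `𝒜` for the FRESH colours `κ` gives `WO(D)` for every colouring which is `κ` off the frozen sites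
* `hlim`                    `P{pvkqP 𝒜 (sites) < q₁} → 0`   (`pvkq_region_up` of 21 when `𝒜 = pvkqEv δ false RW xa xb`)
sec. 1  `PvwhDet`, **`pvwh_wo`** (PROVED), **`pvwh_wo_ev`** (the pattern of record of a region: `PvkqCore` + bounded + DET ⟹ `∃ q₁ > 0, PvnbkWO`), `pvwh_qbx` (down to `Pvn1bQbx`)
sec. 2  **`pvwh_geo`** : the index geometry `PvhvGeo` of 155 (`Tr/HookWM`) from `PvfeDoors` + `Γ.Ok` + `PvfeIx` of 209
sec. 3  AT `pvxParOf N hN c`, `N.m0 ≤ m`, `π ∈ pvxPatSet`: **`pvwh_geo_model`**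
-/

set_option autoImplicit false
set_option linter.unusedVariables false
set_option linter.unusedSectionVars false

namespace Claimed.Agent.R289

open MeasureTheory Filter Topology Set Claims.C0465
open scoped ENNReal

/-! ## 1. the roof -/

section roof

variable {τ : Type} {c : ℝ} (𝔓 : PvxPar τ c) (x : ℂ) (R : ℝ) (m : ℕ) (π : PvxIx τ) (a : ℂ)

/-- **THE DETERMINISTIC CONTRACT**: HOOK-DET for `WO` at the pattern `π`, mesh `μ`, event `𝒜` of the FRESH colours -/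
def PvwhDet (μ : ℝ) (𝒜 : Set (Conf PvPt)) : Prop :=
  ∀ Y : Set ℂ, DelGood Y → VorDense Y (Metric.closedBall x (7 * R)) μ → ∀ 𝔇 : PvwDat (delbPl Y).toMap,
    𝔇.Ok Subtype.val 𝔓.num (pvlmH m) (𝔓.reg m π) →
    (π.Zs : Set (ℤ × ℤ)) = pvtCells (pvlmDel c m) (Subtype.val '' 𝔇.s.fzIn ∪ Metric.closedBall (pvxYs 𝔓 m π.p) (𝔓.num.rho * pvlmH m)) →
    (π.Zt : Set (ℤ × ℤ)) = pvtCells (pvlmDel c m) (Subtype.val '' 𝔇.t.fzOut ∪ Metric.closedBall (pvxYt 𝔓 m π.p) (𝔓.num.rho * pvlmH m)) →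
    (∀ v ∈ 𝔇.g.verts, ‖(v : ℂ) - x‖ ≤ 5 * R) →
    ∀ (κ : ℂ → Bool) (σ : ↥Y → Bool), cfOf Y κ ∈ 𝒜 → (∀ v, v ∉ 𝔇.fz → σ v = κ v) → 𝔇.WO Subtype.val (𝔓.reg m π) σ

theorem pvwh_eqns_cite1 : True := by
  have := @PvwhDet.eq_1
  trivial

variable {𝔓 x R m π}

/-- **ONE GOOD SAMPLE**: `q₁ ≤ P(WO | D)` for every present datum with `g₀` in the patch -/
theorem pvwh_one {μ : ℝ} {𝒜 : Set (Conf PvPt)} (hdet : PvwhDet 𝔓 x R m π μ 𝒜) {q₁ : ℝ≥0∞} {𝔎 : PvxnKit} {Y : Set ℂ} (hY : DelGood Y)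
    (hd : VorDense Y (Metric.closedBall x (7 * R)) μ) (hq : q₁ ≤ pvkqP 𝒜 Y) (σ₀ : ℂ → Bool) (i : PvxnIx) (𝔇 : PvwDat (delbPl Y).toMap)
    (hW : PvxnWit 𝔓 m π a 𝔎 Y i (fun v => σ₀ v) 𝔇) (hg : ∀ v ∈ 𝔇.g.verts, ‖(v : ℂ) - x‖ ≤ 5 * R) :
    q₁ ≤ colLaw ℂ {κ | 𝔇.WO Subtype.val (𝔓.reg m π) (fun v : ↥Y => pvdmOv i.Fᶜ κ σ₀ v)} := by
  have hfree : ∀ v : ↥Y, v ∉ 𝔇.fz → (v : ℂ) ∈ i.Fᶜ := by
    intro v hv hvF
    rw [← hW.labF] at hvF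
    obtain ⟨w, hw, e⟩ := hvF
    exact hv (Subtype.val_injective e ▸ hw)
  refine hq.trans (measure_mono fun κ hκ => ?_)
  exact hdet Y hY hd 𝔇 hW.ok hW.hull_s hW.hull_t hg κ _ hκ fun v hv => pvdm_ov_mem (hfree v hv) κ σ₀

/-- **THE `WO` HALF OF E4** from the deterministic contract and the quenched bound of the pattern -/
theorem pvwh_wo (hR : 0 < R) {μ : ℝ} (hμ : 0 < μ) {𝒜 : Set (Conf PvPt)} (hdet : PvwhDet 𝔓 x R m π μ 𝒜) {q₁ : ℝ≥0∞}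
    (hlim : Tendsto (fun ε : ℝ => (pvhbUp ε).P {p | pvkqP 𝒜 (cfSites (pvConf (pvMerge p))) < q₁}) (𝓝[>] (0 : ℝ)) (𝓝 0))
    (Cs : ℝ → Set ℂ) (rs : ℝ → ℝ) (q : ℝ≥0∞) : PvnbkWO 𝔓 m π a (fun ε => pvhqKit x R (𝔓.reg m π) (Cs ε) (rs ε) q) q₁ := by
  have h3 := ((pvn1b_fine_lim x R hR hμ).add (pvn1b_dense_lim (B := Metric.closedBall x (7 * R)) Metric.isBounded_closedBall hμ)).add hlim
  simp only [add_zero] at h3
  refine tendsto_of_tendsto_of_tendsto_of_le_of_le tendsto_const_nhds h3 (fun _ => zero_le) fun ε => ?_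
  refine le_trans ((pvhbUp ε).P_mono ?_) (((pvhbUp ε).P_union_le _ _).trans (add_le_add ((pvhbUp ε).P_union_le _ _) le_rfl))
  intro p hp
  by_contra hn
  simp only [mem_union, mem_ofPred_eq, not_or, not_not, not_lt] at hn
  obtain ⟨⟨⟨hg, -⟩, hd⟩, hq⟩ := hn
  exact hp fun i 𝔇 hW hE => pvwh_one a hdet hg.del hd hq (pvn1bSg 𝔓 π (pvMerge p)) i 𝔇 hW hE.2

/-- **THE PATTERN OF RECORD OF A REGION**: a white pattern in a bounded region `RW` with a `4 δ'`-core joining `xa` to `xb` -/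
theorem pvwh_wo_ev (hR : 0 < R) {μ : ℝ} (hμ : 0 < μ) {δ' : ℝ} {RW : Set ℂ} {xa xb : ℂ} (hcore : PvkqCore δ' RW xa xb) (hb : Bornology.IsBounded RW)
    (hdet : PvwhDet 𝔓 x R m π μ (pvkqEv δ' false RW xa xb)) :
    ∃ q₁ : ℝ≥0∞, q₁ ≠ 0 ∧ ∀ (Cs : ℝ → Set ℂ) (rs : ℝ → ℝ) (q : ℝ≥0∞), PvnbkWO 𝔓 m π a (fun ε => pvhqKit x R (𝔓.reg m π) (Cs ε) (rs ε) q) q₁ := by
  obtain ⟨q0, h0, -, H⟩ := pvkq_region_up
  obtain ⟨r, hr⟩ := hb.subset_closedBall (0 : ℂ)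
  obtain ⟨M, hM⟩ := exists_nat_ge (r / δ')
  have hsub : RW ⊆ Metric.closedBall (0 : ℂ) (M * δ') := hr.trans (Metric.closedBall_subset_closedBall ((div_le_iff₀ hcore.1).1 hM))
  refine ⟨ENNReal.ofReal (q0 ^ (15 * (2 * M + 1) ^ 2) / 2), by simpa using (by positivity : 0 < q0 ^ (15 * (2 * M + 1) ^ 2) / 2), fun Cs rs q => ?_⟩
  exact pvwh_wo a hR hμ hdet ((H M δ').1 false RW 0 xa xb hsub hcore) Cs rs q

/-- **DOWN TO `Pvn1bQbx`** (roof of 60 + frame and Harris of 130): ONE `q ≠ 0` for all the families `(C ε, r ε)` -/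
theorem pvwh_qbx (hW : 𝔓.Wf) (hR : 0 < R) (hπ : π ∈ pvxPatSet 𝔓 x R m) {μ : ℝ} (hμ : Pvn1bMu 𝔓 R m π μ) (hμ4 : μ ≤ R / 4) (hYo : (𝔓.reg m π).Yout ⊆ Metric.closedBall x (6 * R))
    {μ' δ' : ℝ} (hμ' : 0 < μ') {RW : Set ℂ} {xa xb : ℂ} (hcore : PvkqCore δ' RW xa xb) (hb : Bornology.IsBounded RW) (hdet : PvwhDet 𝔓 x R m π μ' (pvkqEv δ' false RW xa xb)) :
    ∃ q : ℝ≥0∞, q ≠ 0 ∧ ∀ (Cs : ℝ → Set ℂ) (rs : ℝ → ℝ) (B₀ : Set ℂ), Bornology.IsBounded B₀ → ∀ r₀ r₁ : ℝ, 0 < r₀ → (∀ᶠ ε in 𝓝[>] (0 : ℝ), Cs ε ⊆ B₀ ∧ r₀ ≤ rs ε ∧ rs ε ≤ r₁) →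
      Pvn1bQbx 𝔓 m π a fun ε => pvhqKit x R (𝔓.reg m π) (Cs ε) (rs ε) q := by
  obtain ⟨q₁, h1, H⟩ := pvwh_wo_ev (𝔓 := 𝔓) (m := m) (π := π) a hR hμ' hcore hb hdet
  obtain ⟨qf, hqf, hfr⟩ := pvnbk_frame (x := x) hR
  refine ⟨q₁ * ENNReal.ofReal qf, mul_ne_zero h1 (by simpa using hqf), fun Cs rs B₀ hB r₀ r₁ h0 hC => ?_⟩
  exact pvnbk_qbx hW hR hπ hμ hμ4 Cs rs hfr hYo hB h0 hC (H Cs rs _)

end roof

/-! ## 2. the index geometry `PvhvGeo` of 155 from the records of 209 -/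

section geo

variable {τ : Type}

theorem pvwh_dir_norm {u : ℤ × ℤ} (hu : PvfeDir u) : ‖pvtZ u‖ = 1 := by
  rcases hu with rfl | rfl | rfl | rfl <;> simp [pvtZ]

theorem pvwh_ctr_sub (δ : ℝ) (e u : ℤ × ℤ) : pvtCtr δ (e - u) = pvtCtr δ e - (δ : ℂ) * pvtZ u := by
  apply Complex.ext <;> simp [pvtCtr, pvtZ] <;> ring

theorem pvwh_norm_le_N (w : ℂ) : ‖w‖ ≤ 2 * pvccN w := by
  have h1 := Complex.norm_le_abs_re_add_abs_im w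
  have h2 : |w.re| ≤ pvccN w := le_max_left _ _
  have h3 : |w.im| ≤ pvccN w := le_max_right _ _
  linarith

/-- the grid centre of a tip cell is within `2 r_K + ρ h / 2` of the centre of the pin -/
theorem pvwh_tip_le {N : PvwNum} {h : ℝ} (hh : 0 < h) (h1 : 0 ≤ N.rho1) (t : PvwTy) (hk : t.k ≤ N.K) {y : ℂ} (hy : |pvccN y - (2 * t.b2 + t.k * N.rho1)| ≤ N.rho / 4) :
    ‖(h : ℂ) * y‖ ≤ 2 * pvwRad N h t N.K + N.rho * h / 2 := by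
  rw [norm_mul, Complex.norm_real, Real.norm_eq_abs, abs_of_pos hh]
  have e1 := pvwh_norm_le_N y
  have e2 := (abs_le.1 hy).2
  have e3 : (t.k : ℝ) * N.rho1 ≤ N.K * N.rho1 := mul_le_mul_of_nonneg_right (by exact_mod_cast hk) h1
  unfold pvwRad
  have e4 : ‖y‖ ≤ 2 * (2 * t.b2 + N.K * N.rho1) + N.rho / 2 := by linarith
  calc h * ‖y‖ ≤ h * (2 * (2 * t.b2 + N.K * N.rho1) + N.rho / 2) := mul_le_mul_of_nonneg_left e4 hh.le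
    _ = _ := by ring

/-- **`PvhvGeo` (155) FROM `PvfeDoors`, `Γ.Ok`, `PvfeIx` (209)** -/
theorem pvwh_geo {Γ : PvtsGeo τ} {ty : τ → PvwTy} {N : PvwNum} {h : ℝ} {p : PvtsPat τ} {Z : Set (ℤ × ℤ)} (hD : PvfeDoors Γ ty N h) (hp : Γ.Ok p) (hIx : PvfeIx Γ ty N h p Z)
    (hδ : 0 < Γ.δ) (hfine : 1000 * Γ.δ ≤ N.rho * h) (hh : 0 < h) (hρ : N.rho ≤ 1) (h1 : 0 ≤ N.rho1) (hkt : (ty p.tt).k ≤ N.K) (hks : (ty p.ts).k ≤ N.K) :
    ∃ (ut us : ℂ) (nt ns : ℕ), ut ∈ pvtzdDir ∧ us ∈ pvtzdDir ∧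
      PvhvGeo (N.rho * h) Γ.δ ((ty p.tt).cp h p.zt) ((ty p.ts).cm h p.zs) ut us (pvfeZ Γ p) (pvfeD Γ p) p.l nt ns := by
  obtain ⟨e, u, hu, o1, o2, o3, -⟩ := hD.out p.tt
  obtain ⟨e', u', hu', i1, i2, i3, -⟩ := hD.inn p.ts
  obtain ⟨nt, ns, l1, -, -, l2, l3, l4, l5, -⟩ := hIx.lk
  have hdir : ∀ {v : ℤ × ℤ}, PvfeDir v → pvtZ v ∈ pvtzdDir := by
    intro v hv
    rcases hv with rfl | rfl | rfl | rfl <;> simp [pvtZ, pvtzdDir]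
  have hd : pvfeD Γ p = (Γ.δ : ℂ) * pvtZ u := by unfold pvfeD; rw [o2]
  refine ⟨pvtZ u, pvtZ u', nt, ns, hdir hu, hdir hu', ?_⟩
  refine
    { δ0 := hδ
      fine := hfine
      ut1 := pvwh_dir_norm hu
      us1 := pvwh_dir_norm hu'
      d_eq := hd
      dl_eq := ?_
      door_t := ?_
      door_s := ?_
      le := l1
      st := l2
      ss := l3
      far_t := l4
      far_s := l5
      simple := hIx.simple
      nr := hIx.nr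
      sep := ?_ }
  · rw [pvccD_length]
    unfold pvfeD
    rw [pvtDir_eq_mul_one, mul_assoc, ← pvtDir_eq_mul_one, hp.2, i2]
    ring
  · have e1 : pvfeZ Γ p + pvfeD Γ p / 2 - ((ty p.tt).cp h p.zt + ((3 * (N.rho * h) / 8 : ℝ) : ℂ) * pvtZ u) =
        pvtCtr Γ.δ e - (h : ℂ) * ((ty p.tt).yp + ((3 * N.rho / 8 : ℝ) : ℂ) * pvtZ u) := by
      rw [hd]
      unfold pvfeZ PvwTy.cp
      rw [o1, pvwh_ctr_sub]
      push_cast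
      ring
    rw [e1]
    exact o3
  · have e1 : pvccZ (pvfeZ Γ p) (pvfeD Γ p) p.l p.l.length + (Γ.δ : ℂ) * pvtZ u' / 2 - ((ty p.ts).cm h p.zs + ((3 * (N.rho * h) / 8 : ℝ) : ℂ) * pvtZ u') =
        pvtCtr Γ.δ e' - (h : ℂ) * ((ty p.ts).ym + ((3 * N.rho / 8 : ℝ) : ℂ) * pvtZ u') := by
      rw [pvfe_last_door Γ hp]
      unfold PvwTy.cm
      rw [i1, pvwh_ctr_sub]
      push_cast
      ring
    rw [e1]
    exact i3
  · have t1 := pvwh_tip_le hh h1 (ty p.tt) hkt (hD.nd_p p.tt)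
    have t2 := pvwh_tip_le hh h1 (ty p.ts) hks (hD.nd_m p.ts)
    have t3 := hIx.sep
    have e1 : p.zs - p.zt = ((h : ℂ) * (ty p.tt).yp - (h : ℂ) * (ty p.ts).ym) - ((ty p.tt).cp h p.zt - (ty p.ts).cm h p.zs) := by
      unfold PvwTy.cp PvwTy.cm
      ring
    have t4 : ‖p.zs - p.zt‖ ≤ (‖(h : ℂ) * (ty p.tt).yp‖ + ‖(h : ℂ) * (ty p.ts).ym‖) + ‖(ty p.tt).cp h p.zt - (ty p.ts).cm h p.zs‖ := by
      rw [e1]
      exact (norm_sub_le _ _).trans (add_le_add (norm_sub_le _ _) le_rfl)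
    have t5 : N.rho * h ≤ h := by nlinarith
    linarith

end geo

/-! ## 3. at the parameters of record -/

section model

variable {N : PvxNums} (hN : N.Ok) {c : ℝ} (c0 : 0 < c) {x : ℂ} {R : ℝ} {m : ℕ} {π : PvxIx (pvxTau N)}

include c0 in
/-- **`PvhvGeo` AT THE MODEL**: every pattern of a level `m0 ≤ m` -/
theorem pvwh_geo_model (hm : N.m0 ≤ m) (hπ : π ∈ pvxPatSet (pvxParOf N hN c) x R m) :
    ∃ (ut us : ℂ) (nt ns : ℕ), ut ∈ pvtzdDir ∧ us ∈ pvtzdDir ∧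
      PvhvGeo (N.rho * pvlmH m) (pvlmDel c m) (pvxYt (pvxParOf N hN c) m π.p) (pvxYs (pvxParOf N hN c) m π.p) ut us
        (pvfeZ ((pvxParOf N hN c).Γ m) π.p) (pvfeD ((pvxParOf N hN c).Γ m) π.p) π.p.l nt ns := by
  have hd := pvlm_Del_pos c m
  have h1 := pvxo_fine hN c0 hm
  exact pvwh_geo (Γ := (pvxParOf N hN c).Γ m) (ty := (pvxParOf N hN c).ty) (N := (pvxParOf N hN c).num) (h := pvlmH m) (pvxr_doors_par hN m) hπ.1.1 hπ.2.2.2.2.1 hd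
    (by show 1000 * pvlmDel c m ≤ N.rho * pvlmH m; linarith) (pvlm_H_pos m) hN.rho_lt_one.le hN.rho1_pos.le (pvxo_K_le hN _) (pvxo_K_le hN _)

end model

end Claimed.Agent.R289
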