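import Claimed.Agent.R289.Exit.N1Lv
import Claimed.Agent.R289.Exit.GdRec
import Claimed.Agent.R289.Exit.Par
import Claimed.Agent.R289.Exit.EngAll
import Claimed.Agent.R289.Exit.N1XE

/-!
# Row 289 (S0537), THE WALL, ROAD E, file Exit/N1Qbx : THE TWO LINES OF THE TOP OF `exit_pvie_in` AT THE MODEL      (helper237; prefix `pvn1q_`)

* **`pvn1q_frc`** : `PvguRec 𝔓 𝔈 𝔊 ⟹ Pvn1aFrc 𝔓 𝔈 𝔊`      (PRODUCER of the record `Pvn1aFrc` of 159: at the good part of record of 238 the two inclusions are accessors)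
* **`pvn1q_in`**  : `exit_pvie_in` with the binder `hGR : PvguRec ..` of RULING T14 := `pvn1l_in` of 170 (`Exit/N1Lv`, v5) at `frc := pvn1q_frc`
-/

set_option autoImplicit false

namespace Claimed.Agent.R289

open Set MeasureTheory Filter Topology Claims.C0465
open scoped ENNReal

/-- **THE LINE OWED BY THE GOOD PART**, at the good part of record -/
theorem pvn1q_frc {τ : Type} {c : ℝ} {𝔓 : PvxPar τ c} {𝔈 : PvieEng τ} {𝔊 : PvnaGd τ} (h : PvguRec 𝔓 𝔈 𝔊) : Pvn1aFrc 𝔓 𝔈 𝔊 := by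
  obtain ⟨q, qe, qf, hq, -, -, rfl⟩ := h
  exact ⟨q, hq, fun m _ ε z t => ⟨fun η hη => pvgu_O_Fo hη, fun η hη => pvgu_I_Fi hη⟩⟩

/-- **(4) N1 AT THE MODEL** over the sub-exits of `Exit/N1All` -/
theorem pvn1q_in {c : ℝ} (c0 : 0 < c) (N : PvxNums) (hN : N.Ok) (𝔈 : PvieEng (pvxTau N)) (hE : PvnaWf (pvxParOf N hN c) 𝔈) (hR : PvnaRec N hN c 𝔈) (𝔊 : PvnaGd (pvxTau N)) (hG : 𝔊.Wf (pvxParOf N hN c) 𝔈)
    (hGR : PvguRec (pvxParOf N hN c) 𝔈 𝔊) : PvnaIn (pvxParOf N hN c) (pvnaDatE (pvxParOf N hN c) 𝔈) (pvxParOf N hN c).m0 :=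
  pvn1l_in c0 N hN 𝔈 hE hR 𝔊 hG.bad (pvn1q_frc hGR)

end Claimed.Agent.R289
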