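-- KEEP
import Claimed.Agent.R289.Exit.N1Q
import Claimed.Agent.R289.Exit.N1Guard
import Claimed.Agent.R289.Tr.KitN1

/-!
# Row 289 (S0537), THE WALL, ROAD E, Exit/N1QbxR : (X3) QBX AT THE KIT OF RECORD OF `Exit/N1All` = THE PORT `pvhqKit` (27) `→ (pvknKit ..).guardE` (29 + 159)      (helper252, race node `exit_pvn1a_qbx`; prefix `pvkrq_`, `Pvkrq`, `pvkrq`)

VERDICT ON THE NODE AS TYPED (any `𝔓` with `𝔓.Wf`, `PvnaWf 𝔓 𝔈`, `PvknGeo`): NOT PROVABLE.   Nothing pins `(𝔓.reg m π).Yout`: the empty outer lane passes `PvwPat.Wf`, `PvknReg`, `PvknGeo`, and then `WO(D)` asks the two white banks to touch.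
WHAT IS PROVED HERE (no open leaf): the node FROM THE CONTRACT OF 5 (`Exit/N1Q`): a white pattern `pvkqEv δ' false RW xa xb` with a core (`PvkqCore`), bounded, `PvwhDet 𝔓 x R m π μ' (pattern)`, and the number `L h + h ≤ R` (`pvxo_LR` of 73).
* sec. 1  `PvkrqB 𝔇 x R σ` = the circuit half of `PvwDat.WK` (29): `∃ w, PvknCirc .. w ∧ g₀ ⊆ Int w.Left ∧ s.dp ∈ w.Left`;   `pvkrq_circ` (a white circuit of E6 (130) round `closedBall x (5R)` is one, as soon as `g₀ ⊆ closedBall x (5R)`),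
          `pvkrq_B_anti` (decreasing in black, reads `closedBall x (6R)`), `pvkrq_circ_col`, **`pvkrq_harris`**, **`pvkrq_W_col`** : frame + `q₁ ≤ P(WO | D)` ⟹ `q₁ q_frame ≤ P(WK | D)`
* sec. 2  `pvkrqKit 𝔓 x R m π C r q` = the kit of record with a FREE region `C`   (`pvn1aKs 𝔓 𝔈 x R m π r q ε = pvkrqKit 𝔓 x R m π (pvieCc 𝔓 𝔈 m ε π.p) r q` by `rfl`),   `pvkrq_one` (one sample)
* sec. 3  `pvkrq_wo` (`PvnbkWO` of 60 at ANY family of kits whose `E` places `g₀`), `pvkrq_qbx`, **`pvkrq_exit`** = the node from the contract of 5, `pvkrq_exit_geo` (regions in the form `PvknGeo` of 29)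
-/

set_option autoImplicit false
set_option linter.unusedVariables false
set_option linter.unusedSectionVars false

namespace Claimed.Agent.R289

open MeasureTheory Filter Topology Set Claims.C0465
open scoped ENNReal

/-! ## 1. the circuit half of `WK` -/

section circ

variable {Y : Set ℂ} {x : ℂ} {R q : ℝ}

/-- **the circuit half of `PvwDat.WK`** at the Delaunay plane of `Y` -/
def PvkrqB (𝔇 : PvwDat (delbPl Y).toMap) (x : ℂ) (R : ℝ) (σ : ↥Y → Bool) : Prop :=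
  ∃ w : (delbPl Y).toMap.Cyc, PvknCirc (delbPl Y).toMap Subtype.val x (5 * R) (6 * R) σ w ∧ (∀ v ∈ 𝔇.g.verts, v ∈ (delbPl Y).toMap.Int w.Left) ∧ 𝔇.s.dp ∈ w.Left

theorem pvkrq_eqns_cite1 : True := by
  have := @PvkrqB.eq_1
  trivial

theorem pvkrq_WK_iff (𝔇 : PvwDat (delbPl Y).toMap) (π : PvwPat) (σ : ↥Y → Bool) :
    𝔇.WK Subtype.val π x (5 * R) (6 * R) σ ↔ 𝔇.WO Subtype.val π σ ∧ PvkrqB 𝔇 x R σ := Iff.rfl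

/-- a white circuit of E6 round `closedBall x (5R)` is a circuit of the kit of 29, with the two clauses on the datum -/
theorem pvkrq_circ (hd : DelGood Y) {r r' : ℝ} (hr : 5 * R ≤ r) (hr' : r' ≤ 6 * R) {σ : ↥Y → Bool} (h : Pve6qCirc Y x r r' σ) {𝔇 : PvwDat (delbPl Y).toMap}
    (hg : ∀ v ∈ 𝔇.g.verts, ‖(v : ℂ) - x‖ ≤ 5 * R) (hg0 : 𝔇.g.v 0 = 𝔇.s.gp) : PvkrqB 𝔇 x R σ := by
  have hT : (delbPl Y).toMap.IsSph := delb_plane_isSph hd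
  obtain ⟨w, hw, hwc⟩ := h
  refine ⟨w, ⟨hw.fin, hwc, fun v hv => ⟨?_, ?_⟩, fun v hv => ?_, fun v hv => (hw.out v hv).le.trans hr'⟩, fun v hv => hw.inn v ((hg v hv).trans hr), ?_⟩
  · by_contra h2
    exact Set.disjoint_left.1 (pl_jordan_vert_disj hT w).1 hv (hw.inn v ((not_le.1 h2).le.trans hr))
  · exact ((hw.out v (by rw [pl_VOf_left hT w]; exact Or.inl hv)).le).trans hr'
  · obtain ⟨d, hd'⟩ := pl_cyc_dart_at hT w v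
    exact ⟨d, hw.inn v (hv.le.trans hr) d hd', hd'⟩
  · exact hw.inn (𝔇.g.v 0) ((hg _ ⟨0, Nat.zero_le _, rfl⟩).trans hr) 𝔇.s.dp hg0.symm

/-- the circuit half is DECREASING in black and reads `closedBall x (6R)` only -/
theorem pvkrq_B_anti {𝔇 : PvwDat (delbPl Y).toMap} {σ σ' : ↥Y → Bool} (h : ∀ v : ↥Y, ‖(v : ℂ) - x‖ ≤ 6 * R → σ' v ≤ σ v) (hB : PvkrqB 𝔇 x R σ) : PvkrqB 𝔇 x R σ' := by
  obtain ⟨w, hw, h1, h2⟩ := hB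
  exact ⟨w, ⟨hw.fin, fun v hv => pvhq_le_false (h v (hw.ann v hv).2) (hw.white v hv), hw.ann, hw.round, hw.inside⟩, h1, h2⟩

/-- **THE CONDITIONAL PROBABILITY OF THE CIRCUIT HALF** -/
theorem pvkrq_circ_col (hR : 0 < R) (hF : Pve6qFrame q x R Y) (F : Set ℂ) (hFin : ∀ z ∈ F, ‖z - x‖ ≤ 21 / 4 * R) (σ : ℂ → Bool) {𝔇 : PvwDat (delbPl Y).toMap}
    (hg : ∀ v ∈ 𝔇.g.verts, ‖(v : ℂ) - x‖ ≤ 5 * R) (hg0 : 𝔇.g.v 0 = 𝔇.s.gp) :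
    ENNReal.ofReal q ≤ colLaw ℂ {κ | PvkrqB 𝔇 x R (fun v : ↥Y => pvdmOv Fᶜ κ σ v)} :=
  (pve6q_circ_col (μ := 0) hR (by positivity) hF F hFin σ).trans (measure_mono fun _ hκ => pvkrq_circ hF.1 (by linarith) (by linarith) hκ hg hg0)

/-- **HARRIS GIVEN THE FROZEN COLOURS**, at the events of the kit of 29 -/
theorem pvkrq_harris (hd : DelGood Y) (𝔇 : PvwDat (delbPl Y).toMap) {π : PvwPat} (hYout : π.Yout ⊆ Metric.closedBall x (6 * R)) (F : Set ℂ) (σ : ℂ → Bool) :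
    colLaw ℂ {κ | 𝔇.WO Subtype.val π (fun v : ↥Y => pvdmOv Fᶜ κ σ v)} * colLaw ℂ {κ | PvkrqB 𝔇 x R (fun v : ↥Y => pvdmOv Fᶜ κ σ v)} ≤
      colLaw ℂ {κ | 𝔇.WK Subtype.val π x (5 * R) (6 * R) (fun v : ↥Y => pvdmOv Fᶜ κ σ v)} := by
  classical
  have hfin : (Subtype.val '' pve6qK Y x (6 * R)).Finite := (pve6q_K_fin hd x (6 * R)).image _
  set T : Finset ℂ := hfin.toFinset with hTdef
  have hT : ∀ v : ↥Y, ‖(v : ℂ) - x‖ ≤ 6 * R → (v : ℂ) ∈ (T : Set ℂ) := by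
    intro v hv
    rw [hTdef, Set.Finite.coe_toFinset]
    exact ⟨v, hv, rfl⟩
  let A : Set (ℂ → Bool) := {s | 𝔇.WO Subtype.val π (fun v : ↥Y => s v)}
  let B : Set (ℂ → Bool) := {s | PvkrqB 𝔇 x R (fun v : ↥Y => s v)}
  have aA : ∀ s s' : ℂ → Bool, (∀ v : ↥Y, ‖(v : ℂ) - x‖ ≤ 6 * R → s' v ≤ s v) → s ∈ A → s' ∈ A := fun s s' h hs =>
    pvhq_WO_anti (fun v hv => h v (mem_closedBall_iff_norm.1 (hYout hv))) hs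
  have aB : ∀ s s' : ℂ → Bool, (∀ v : ↥Y, ‖(v : ℂ) - x‖ ≤ 6 * R → s' v ≤ s v) → s ∈ B → s' ∈ B := fun s s' h hs =>
    pvkrq_B_anti (fun v hv => h v hv) hs
  have rd : ∀ {E : Set (ℂ → Bool)}, (∀ s s' : ℂ → Bool, (∀ v : ↥Y, ‖(v : ℂ) - x‖ ≤ 6 * R → s' v ≤ s v) → s ∈ E → s' ∈ E) → PvfwReads (F ∪ T) E :=
    fun hE s s' e hs => hE s s' (fun v hv => (e v (Or.inr (hT v hv))).ge) hs
  have up : ∀ {E : Set (ℂ → Bool)}, (∀ s s' : ℂ → Bool, (∀ v : ↥Y, ‖(v : ℂ) - x‖ ≤ 6 * R → s' v ≤ s v) → s ∈ E → s' ∈ E) → PvfwUp false F σ E := by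
    intro E hE s s' _ _ e hs
    refine hE s s' (fun v _ => ?_) hs
    have := e v
    revert this
    cases s v <;> cases s' v <;> simp
  have key := pvfw_harris false F σ T (rd aA) (rd aB) (up aA) (up aB)
  have e : ∀ κ : ℂ → Bool, pvdmOv Fᶜ κ σ = pvfqMix F (σ, κ) := fun κ => by rw [pvfw_ov_eq, compl_compl]
  simp only [e]
  exact key

/-- **`P(WK | D) ≥ q₁ q`** -/
theorem pvkrq_W_col (hR : 0 < R) (hF : Pve6qFrame q x R Y) (𝔇 : PvwDat (delbPl Y).toMap) {π : PvwPat} (hYout : π.Yout ⊆ Metric.closedBall x (6 * R)) (F : Set ℂ)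
    (hFin : ∀ z ∈ F, ‖z - x‖ ≤ 21 / 4 * R) (σ : ℂ → Bool) (hg : ∀ v ∈ 𝔇.g.verts, ‖(v : ℂ) - x‖ ≤ 5 * R) (hg0 : 𝔇.g.v 0 = 𝔇.s.gp)
    {q₁ : ℝ≥0∞} (h₁ : q₁ ≤ colLaw ℂ {κ | 𝔇.WO Subtype.val π (fun v : ↥Y => pvdmOv Fᶜ κ σ v)}) :
    q₁ * ENNReal.ofReal q ≤ colLaw ℂ {κ | 𝔇.WK Subtype.val π x (5 * R) (6 * R) (fun v : ↥Y => pvdmOv Fᶜ κ σ v)} :=
  (mul_le_mul' h₁ (pvkrq_circ_col hR hF F hFin σ hg hg0)).trans (pvkrq_harris hF.1 𝔇 hYout F σ)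

end circ

/-! ## 2. the kit of record with a free region, one sample -/

section kit

variable {τ : Type} {c : ℝ} (𝔓 : PvxPar τ c) (x : ℂ) (R : ℝ) (m : ℕ) (π : PvxIx τ) (a : ℂ)

/-- **THE KIT OF RECORD OF `Exit/N1All`** (kit of 29 + the deterministic clause `g₀ ⊆ closedBall x (5R)`), the resampled region `C` free -/
noncomputable def pvkrqKit (C : Set ℂ) (r : ℝ) (q : ℝ≥0∞) : PvxnKit :=
  (pvknKit 𝔓 x R m π C r (Metric.closedBall x (6 * R)) measurableSet_closedBall q).guardE fun Y 𝔇 _ => ∀ k, k ≤ 𝔇.g.n → ‖((𝔇.g.v k : ↥Y) : ℂ) - x‖ ≤ 5 * R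

theorem pvkrq_eqns_cite2 : True := by
  have := @pvkrqKit.eq_1
  trivial

variable {𝔓 x R m π a}

/-- `E` of the kit places `g₀` -/
theorem pvkrq_E_g {C : Set ℂ} {r : ℝ} {q : ℝ≥0∞} {Y : Set ℂ} {𝔇 : PvwDat (delbPl Y).toMap} {σ : ↥Y → Bool} (hE : (pvkrqKit 𝔓 x R m π C r q).E Y 𝔇 σ) :
    ∀ v ∈ 𝔇.g.verts, ‖(v : ℂ) - x‖ ≤ 5 * R := by
  rintro v ⟨k, hk, rfl⟩
  exact hE.1 k hk

/-- ONE SAMPLE: the clause `qbx` of `Pvn1bGood` from the frame, the meshes and the `WO` bound -/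
theorem pvkrq_one (hW : 𝔓.Wf) (hR : 0 < R) (hπ : π ∈ pvxPatSet 𝔓 x R m) {μ : ℝ} (hμ : Pvn1bMu 𝔓 R m π μ) (hμ4 : μ ≤ R / 4) (C : Set ℂ) (r : ℝ) {q₁ : ℝ≥0∞} {qf : ℝ}
    (hYo : (𝔓.reg m π).Yout ⊆ Metric.closedBall x (6 * R)) {Y : Set ℂ} (σ : ℂ → Bool) (hF : Pve6qFrame qf x R Y) (hf : L9Fine Y (Metric.closedBall x (6 * R)) μ)
    (hc : VorDense Y (pvgeCollar C r) r) {i : PvxnIx} {𝔇 : PvwDat (delbPl Y).toMap}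
    (hwit : PvxnWit 𝔓 m π a (pvkrqKit 𝔓 x R m π C r (q₁ * ENNReal.ofReal qf)) Y i (fun v => σ v) 𝔇)
    (hg : ∀ v ∈ 𝔇.g.verts, ‖(v : ℂ) - x‖ ≤ 5 * R)
    (h₁ : q₁ ≤ colLaw ℂ {κ | 𝔇.WO Subtype.val (𝔓.reg m π) (fun v : ↥Y => pvdmOv i.Fᶜ κ σ v)}) :
    q₁ * ENNReal.ofReal qf ≤ colLaw ℂ {κ | PvxnPW 𝔓 m π a (pvkrqKit 𝔓 x R m π C r (q₁ * ENNReal.ofReal qf)) i Y (pvdmOv i.Fᶜ κ σ)} := by
  obtain ⟨⟨-, -, -, hzs, hzt, -⟩, -, hbs, hbt, -⟩ := hπ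
  have hh := pvlm_H_pos m
  have hr1 : 0 ≤ 𝔓.num.rho1 := (hW.rho0.trans hW.rho1).le
  have hrad : ∀ (t : τ) (k : ℕ), k ≤ 𝔓.num.K → pvwRad 𝔓.num (pvlmH m) (𝔓.ty t) k ≤ pvwRad 𝔓.num (pvlmH m) (𝔓.ty t) 𝔓.num.K := by
    intro t k hk
    unfold pvwRad
    have : (k : ℝ) ≤ 𝔓.num.K := by exact_mod_cast hk
    gcongr
  have hmu := hμ.mu0
  have hFin : ∀ z ∈ i.F, ‖z - x‖ ≤ 21 / 4 * R := by
    rw [← hwit.labF]
    refine pve6h_fz_in hR hμ4 hf hwit.ok (by rw [hW.reg_zs]; exact hzs) (by rw [hW.reg_zt]; exact hzt) ?_ ?_ ?_ ?_ hg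
    · rw [hW.reg_ts]; linarith [hμ.gate π.p.ts]
    · rw [hW.reg_tt]; linarith [hμ.gate π.p.tt]
    · have h1 := hwit.ok.st_s.lev
      rw [hW.reg_ts] at h1 ⊢
      linarith [hrad π.p.ts _ h1]
    · have h1 := hwit.ok.st_t.lev
      rw [hW.reg_tt] at h1 ⊢
      linarith [hrad π.p.tt _ h1]
  refine (pvkrq_W_col hR hF 𝔇 hYo i.F hFin σ hg hwit.ok.g0 h₁).trans (measure_mono fun κ hκ => ?_)
  refine ⟨hc, 𝔇, hwit.move fun v hv => ?_, hκ⟩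
  exact pvdm_ov_notMem (U := i.Fᶜ) (z := (v : ℂ)) (fun h => h hv) κ σ

end kit

/-! ## 3. the roofs -/

section roof

variable {τ : Type} {c : ℝ} {𝔓 : PvxPar τ c} {x : ℂ} {R : ℝ} {m : ℕ} {π : PvxIx τ} (a : ℂ)

/-- **THE `WO` HALF OF E4 AT ANY FAMILY OF KITS WHOSE `E` PLACES `g₀`** (the proof of `pvwh_wo` of 5) -/
theorem pvkrq_wo (hR : 0 < R) {μ : ℝ} (hμ : 0 < μ) {𝒜 : Set (Conf PvPt)} (hdet : PvwhDet 𝔓 x R m π μ 𝒜) {q₁ : ℝ≥0∞}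
    (hlim : Tendsto (fun ε : ℝ => (pvhbUp ε).P {p | pvkqP 𝒜 (cfSites (pvConf (pvMerge p))) < q₁}) (𝓝[>] (0 : ℝ)) (𝓝 0))
    (𝔎s : ℝ → PvxnKit) (hgs : ∀ (ε : ℝ) (Y : Set ℂ) (𝔇 : PvwDat (delbPl Y).toMap) (σ : ↥Y → Bool), (𝔎s ε).E Y 𝔇 σ → ∀ v ∈ 𝔇.g.verts, ‖(v : ℂ) - x‖ ≤ 5 * R) :
    PvnbkWO 𝔓 m π a 𝔎s q₁ := by
  have h3 := ((pvn1b_fine_lim x R hR hμ).add (pvn1b_dense_lim (B := Metric.closedBall x (7 * R)) Metric.isBounded_closedBall hμ)).add hlim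
  simp only [add_zero] at h3
  refine tendsto_of_tendsto_of_tendsto_of_le_of_le tendsto_const_nhds h3 (fun _ => zero_le) fun ε => ?_
  refine le_trans ((pvhbUp ε).P_mono ?_) (((pvhbUp ε).P_union_le _ _).trans (add_le_add ((pvhbUp ε).P_union_le _ _) le_rfl))
  intro p hp
  by_contra hn
  simp only [mem_union, mem_ofPred_eq, not_or, not_not, not_lt] at hn
  obtain ⟨⟨⟨hg, -⟩, hd⟩, hq⟩ := hn
  exact hp fun i 𝔇 hW hE => pvwh_one a hdet hg.del hd hq (pvn1bSg 𝔓 π (pvMerge p)) i 𝔇 hW (hgs ε _ 𝔇 _ hE)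

/-- **THE CONTRACT `Pvn1bQbx` AT THE KIT OF RECORD** from the `WO` half -/
theorem pvkrq_qbx (hW : 𝔓.Wf) (hR : 0 < R) (hπ : π ∈ pvxPatSet 𝔓 x R m) {μ : ℝ} (hμ : Pvn1bMu 𝔓 R m π μ) (hμ4 : μ ≤ R / 4) (Cs : ℝ → Set ℂ) {r : ℝ} (hr : 0 < r) {q₁ : ℝ≥0∞} {qf : ℝ}
    (hfr : Tendsto (fun ε : ℝ => (pvhbUp ε).P {p | ¬ Pve6qFrame qf x R (pvxY (pvMerge p))}) (𝓝[>] (0 : ℝ)) (𝓝 0))
    (hYo : (𝔓.reg m π).Yout ⊆ Metric.closedBall x (6 * R)) {B₀ : Set ℂ} (hB : Bornology.IsBounded B₀) (hC : ∀ᶠ ε in 𝓝[>] (0 : ℝ), Cs ε ⊆ B₀)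
    (hWO : PvnbkWO 𝔓 m π a (fun ε => pvkrqKit 𝔓 x R m π (Cs ε) r (q₁ * ENNReal.ofReal qf)) q₁) :
    Pvn1bQbx 𝔓 m π a fun ε => pvkrqKit 𝔓 x R m π (Cs ε) r (q₁ * ENNReal.ofReal qf) := by
  have hC' : ∀ᶠ ε in 𝓝[>] (0 : ℝ), Cs ε ⊆ B₀ ∧ r ≤ (fun _ : ℝ => r) ε ∧ (fun _ : ℝ => r) ε ≤ r := hC.mono fun ε h => ⟨h, le_rfl, le_rfl⟩
  have h3 := (((pvn1b_fine_lim x R hR hμ.mu0).add (pvn1b_collar_fam hB hr hC')).add hfr).add hWO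
  simp only [add_zero] at h3
  refine tendsto_of_tendsto_of_tendsto_of_le_of_le tendsto_const_nhds h3 (fun _ => zero_le) fun ε => ?_
  refine le_trans ((pvhbUp ε).P_mono ?_) (((pvhbUp ε).P_union_le _ _).trans (add_le_add (((pvhbUp ε).P_union_le _ _).trans (add_le_add ((pvhbUp ε).P_union_le _ _) le_rfl)) le_rfl))
  intro p hp
  by_contra hn
  simp only [mem_union, mem_ofPred_eq, not_or, not_not] at hn
  obtain ⟨⟨⟨⟨-, hf⟩, hc⟩, hF⟩, hwo⟩ := hn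
  exact hp fun i 𝔇 hwit hE => pvkrq_one hW hR hπ hμ hμ4 (Cs ε) r hYo (pvn1bSg 𝔓 π (pvMerge p)) hF hf hc hwit (pvkrq_E_g hE) (hwo i 𝔇 hwit hE)

/-- **(X3) FROM THE CONTRACT OF 5**: ONE `q ≠ 0` for all the families of regions `Cs ε` inside a bounded set and all the collar radii `r > 0` -/
theorem pvkrq_exit (hW : 𝔓.Wf) (hLR : 𝔓.𝔐.L * pvlmH m + pvlmH m ≤ R) (hR : 0 < R) (hπ : π ∈ pvxPatSet 𝔓 x R m) (hYo : (𝔓.reg m π).Yout ⊆ Metric.closedBall x (6 * R))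
    {δ' : ℝ} {RW : Set ℂ} {xa xb : ℂ} (hcore : PvkqCore δ' RW xa xb) (hb : Bornology.IsBounded RW) {μ' : ℝ} (hμ' : 0 < μ') (hdet : PvwhDet 𝔓 x R m π μ' (pvkqEv δ' false RW xa xb)) :
    ∃ q : ℝ≥0∞, q ≠ 0 ∧ ∀ (Cs : ℝ → Set ℂ) (r : ℝ) (B₀ : Set ℂ), 0 < r → Bornology.IsBounded B₀ → (∀ᶠ ε in 𝓝[>] (0 : ℝ), Cs ε ⊆ B₀) →
      Pvn1bQbx 𝔓 m π a fun ε => pvkrqKit 𝔓 x R m π (Cs ε) r q := by
  obtain ⟨q0, h0, -, H⟩ := pvkq_region_up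
  obtain ⟨ρ, hρ⟩ := hb.subset_closedBall (0 : ℂ)
  obtain ⟨M, hM⟩ := exists_nat_ge (ρ / δ')
  have hsub : RW ⊆ Metric.closedBall (0 : ℂ) (M * δ') := hρ.trans (Metric.closedBall_subset_closedBall ((div_le_iff₀ hcore.1).1 hM))
  obtain ⟨qf, hqf, hfr⟩ := pvnbk_frame (x := x) hR
  obtain ⟨hμ, hμ4⟩ := pvnbk_mu hW hπ hLR
  refine ⟨ENNReal.ofReal (q0 ^ (15 * (2 * M + 1) ^ 2) / 2) * ENNReal.ofReal qf,
    mul_ne_zero (by simpa using (by positivity : 0 < q0 ^ (15 * (2 * M + 1) ^ 2) / 2)) (by simpa using hqf), fun Cs r B₀ hr hB hC => ?_⟩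
  exact pvkrq_qbx a hW hR hπ hμ hμ4 Cs hr hfr hYo hB hC (pvkrq_wo a hR hμ' hdet ((H M δ').1 false RW 0 xa xb hsub hcore) _ fun ε Y 𝔇 σ hE => pvkrq_E_g hE)

/-- the resampled region lies in the patch -/
theorem pvkrq_C_sub {N : PvwNum} {h : ℝ} {ρ : PvwPat} {r₁ r₂ : ℝ} {C : Set ℂ} {r : ℝ} (G : PvknGeo N h ρ x r₁ r₂ C r) : C ⊆ Metric.closedBall x r₁ := by
  intro z hz
  rw [mem_closedBall_iff_norm]
  exact (pvkn_C_sub G z hz).le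

/-- **(X3) IN THE FORM OF `exit_pvn1a_qbx`** (regions in the form `PvknGeo` of 29);   at `Cs ε := pvieCc 𝔓 𝔈 m ε π.p`, `a := 0` the conclusion is `∃ q, q ≠ 0 ∧ Pvn1bQbx 𝔓 m π 0 (pvn1aKs 𝔓 𝔈 x R m π r q)` by `rfl` -/
theorem pvkrq_exit_geo (hW : 𝔓.Wf) (hLR : 𝔓.𝔐.L * pvlmH m + pvlmH m ≤ R) (hR : 0 < R) (hπ : π ∈ pvxPatSet 𝔓 x R m)
    {δ' : ℝ} {RW : Set ℂ} {xa xb : ℂ} (hcore : PvkqCore δ' RW xa xb) (hb : Bornology.IsBounded RW) {μ' : ℝ} (hμ' : 0 < μ') (hdet : PvwhDet 𝔓 x R m π μ' (pvkqEv δ' false RW xa xb))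
    {r : ℝ} (hr : 0 < r) {Cs : ℝ → Set ℂ} (G : ∀ᶠ ε in 𝓝[>] (0 : ℝ), PvknGeo 𝔓.num (pvlmH m) (𝔓.reg m π) x (5 * R) (6 * R) (Cs ε) r) :
    ∃ q : ℝ≥0∞, q ≠ 0 ∧ Pvn1bQbx 𝔓 m π a fun ε => pvkrqKit 𝔓 x R m π (Cs ε) r q := by
  obtain ⟨ε₀, hε₀⟩ := G.exists
  have hYo : (𝔓.reg m π).Yout ⊆ Metric.closedBall x (6 * R) := fun z hz => mem_closedBall_iff_norm.2 (hε₀.reg.yout z hz)
  obtain ⟨q, hq, H⟩ := pvkrq_exit a hW hLR hR hπ hYo hcore hb hμ' hdet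
  exact ⟨q, hq, H Cs r (Metric.closedBall x (5 * R)) hr Metric.isBounded_closedBall (G.mono fun ε h => pvkrq_C_sub h)⟩

end roof

end Claimed.Agent.R289
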