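import Claimed.Agent.R289.Exit.N1R
import Claimed.Agent.R289.Tr.KitN1
import Claimed.Agent.R289.Tr.StabE

/-!
# Row 289 (S0537), wall TR, file Exit/N1RW : THE FIELD `W` OF `PvrdKit` AT THE KIT OF RECORD `pvhqKit`      (owner helper191; ruling 19 (5) of 234; prefix `pvn1rw_`, `Pvn1rw`)      0 sorry
`PvrdKit` (29, `Exit/N1R`) = what a kit owes to the field `rd` of `PvxnOk`.      Here: `W(D) = PvhqW = WO(D) ∩ {white circuit in A(x; 5R, 6R)}` (27, `Tr/StabE`) is carried over by the twins of the far instance.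
* §1 any two positioned maps: **`pvn1rw_circ`** (`PvhqCirc` is carried over as soon as `{5R < |z - x|}` is shared: transfer of the RIGHT side, `pvkn_right` / `pvkn_left` of 29, in the `Int` / strict form of 27);
     **`pvn1rw_WO`** (`WO(D)` is carried over: the path runs over `Yout`, which is shared; `x ∉ YCL` is free over `Yout`)
* §2 the two planes: `pvn1rw_dart_fin`;   `Pvn1rwPat` (what the pattern owes: no colour, no site);   **`pvn1rw_W`** = the field `W` of `PvrdKit` at `pvhqKit`, VERBATIM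
-/

set_option autoImplicit false

namespace Claimed.Agent.R289

open Set Metric Relation Claimed.Agent.R291
open scoped ENNReal

/-! ## 1. any two positioned maps -/

section gen

variable {V D V' D' : Type} {T : PvMap V D} {T' : PvMap V' D'} {Rl : D → D' → Prop} {pos : V → ℂ} {pos' : V' → ℂ} {Kr : Set ℂ} {x : ℂ} {R : ℝ} {σ : V → Bool} {σ' : V' → Bool}

/-- **THE WHITE CIRCUIT OF RECORD IS CARRIED OVER**: everything outside the closed ball `closedBall x (5R)` is shared; the inside of the circuit is NOT shared -/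
theorem pvn1rw_circ (L : PvLocP T T' Rl pos pos' Kr) (hT : T.IsSph) (hT' : T'.IsSph) (hσ : ∀ d d', Rl d d' → σ (T.src d) = σ' (T'.src d')) (hK : ∀ z, 5 * R < ‖z - x‖ → z ∈ Kr)
    (hfin : {d' : D' | ‖pos' (T'.src d') - x‖ ≤ 6 * R ∧ ‖pos' (T'.tgt d') - x‖ ≤ 6 * R}.Finite) (hC : PvhqCirc T pos x R σ) : PvhqCirc T' pos' x R σ' := by
  obtain ⟨w, -, hv, hr, hi⟩ := hC
  have hR0 : 5 * R < 6 * R := lt_of_lt_of_le (hv _ ⟨0, rfl⟩).2.1 (hv _ ⟨0, rfl⟩).2.2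
  obtain ⟨w', P⟩ := pvloc_cyc_exists L.loc w fun k => pvlw_dart_src L (hK _ (hv _ ⟨k, rfl⟩).2.1)
  have hJ := (pl_jordan hT w).1
  have hJ' := (pl_jordan hT' w').1
  have hRt : ∀ d ∈ w.Right, 5 * R < ‖pos (T.src d) - x‖ := by
    intro d hd
    by_contra hle
    rw [not_lt] at hle
    have h1 := hr _ hle d rfl
    rw [hJ] at hd
    exact hd h1
  have hR : w.Right ⊆ plDom Rl := fun d hd => pvlw_dart_src L (hK _ (hRt d hd))
  have hL : ∀ d d', Rl d d' → (d ∈ w.Left ↔ d' ∈ w'.Left) := fun d d' h => pvkn_left L.loc hT hT' P hR h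
  have hv' : ∀ v' ∈ w'.verts, σ' v' = false ∧ 5 * R < ‖pos' v' - x‖ ∧ ‖pos' v' - x‖ ≤ 6 * R := by
    rintro _ ⟨i, rfl⟩
    rw [← hσ _ _ (P.e_rel i), ← L.pos_eq _ _ (P.e_rel i)]
    exact hv _ ⟨i, rfl⟩
  have hi' : ∀ v' ∈ T'.Int w'.Left, ‖pos' v' - x‖ ≤ 6 * R := by
    intro v' hI
    by_contra hlt
    rw [not_le] at hlt
    have hKv : pos' v' ∈ Kr := hK _ (hR0.trans hlt)
    obtain ⟨h1, d', hd'⟩ := L.full' v' hKv
    obtain ⟨d, hd⟩ := h1 d' hd'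
    have hp : pos (T.src d) = pos' v' := by rw [L.pos_eq d d' hd, hd']
    have hI2 : T.src d ∈ T.Int w.Left := by
      intro e he
      obtain ⟨e', hee⟩ := pvlw_dart_src L (d := e) (by rw [he, hp]; exact hKv)
      have h2 : T'.src e' = v' := (L.loc.vfn hee hd he).trans hd'
      exact (hL e e' hee).2 (hI e' h2)
    have h3 := hi _ hI2
    rw [hp] at h3
    exact absurd h3 (not_le.2 hlt)
  have hVO : ∀ d' ∈ w'.Left, ‖pos' (T'.src d') - x‖ ≤ 6 * R := by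
    intro d' hd'
    rcases pl_jordan_vert hT' w' (T'.src d') with h | h | h
    · exact (hv' _ h).2.2
    · exact hi' _ h
    · have h1 := h d' rfl
      rw [hJ'] at h1
      exact absurd hd' h1
  refine ⟨w', hfin.subset fun d' hd' => ⟨hVO d' hd', hVO _ ((pl_left_face w' d').2 hd')⟩, hv', ?_, hi'⟩
  intro v' hv5 d' hd'
  by_contra hc
  have h1 : d' ∈ w'.Right := by
    rw [hJ']
    exact hc
  obtain ⟨d, hd, hdR⟩ := pvkn_right_bwd L.loc P hR h1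
  have h2 := hRt d hdR
  rw [L.pos_eq d d' hd, hd'] at h2
  exact absurd hv5 (not_le.2 h2)

/-- a path of length `0` at a vertex which carries a dart -/
def pvn1rwPt (T : PvMap V D) (d : D) : T.Pth where
  n := 0
  v _ := T.src d
  e _ := d
  src_e k hk := absurd hk (Nat.not_lt_zero k)
  tgt_e k hk := absurd hk (Nat.not_lt_zero k)
  inj i j hi hj _ := by omega

theorem pvn1rw_eqns_cite : True := by
  have := @pvn1rwPt.eq_1
  trivial

variable {𝔇 : PvwDat T} {𝔇' : PvwDat T'} {π : PvwPat}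

/-- **`WO(D)` IS CARRIED OVER**: `Yout` is shared, the frozen sites are shared -/
theorem pvn1rw_WO (L : PvLocP T T' Rl pos pos' Kr) (G : PvLocDat Rl 𝔇 𝔇') (hσ : ∀ d d', Rl d d' → σ (T.src d) = σ' (T'.src d')) (hd : Disjoint π.Yin π.Yout) (hY : π.Yout ⊆ Kr)
    (hf : ∀ v ∈ 𝔇.fz, pos v ∈ Kr) (hW : 𝔇.WO pos π σ) : 𝔇'.WO pos' π σ' := by
  obtain ⟨q, h0, h1, hq⟩ := hW
  have h2 : ∀ k, k ≤ 𝔇.g.n → pos (𝔇.g.v k) ∈ Kr := fun k hk => hf _ (Or.inl (Or.inr ⟨k, hk, rfl⟩))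
  have hfz : PvLocSet T T' Rl 𝔇.fz 𝔇'.fz := ((pvlw_fzY L.loc G).union (pvlw_pth_verts G.g)).union (pvlw_apx L G h2)
  have hP := pvlw_whP L.loc G.t
  have hM := pvlw_whM L.loc G.s
  have k0 : pos (q.v 0) ∈ Kr := hf _ (Or.inl (Or.inl (Or.inl (Or.inr h0))))
  rcases Nat.eq_zero_or_pos q.n with hn | hn
  · -- the degenerate path
    obtain ⟨v', hv, hv'⟩ := hP.1 _ h0
    obtain ⟨d, d', hdd, e1, e2⟩ := id hv
    refine ⟨pvn1rwPt T' d', ?_, ?_, ?_⟩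
    · show T'.src d' ∈ _
      rw [e2]; exact hv'
    · show T'.src d' ∈ _
      rw [e2]
      rw [hn] at h1
      exact (hM.iff L.loc hv).1 h1
    · rintro y ⟨k, hk1, hk2, -⟩
      exact absurd (lt_trans hk1 hk2) (Nat.lt_irrefl 0)
  · have hv : ∀ k, k < q.n → pos (q.v k) ∈ Kr := by
      intro k hk
      rcases Nat.eq_zero_or_pos k with rfl | hk0
      · exact k0
      · exact hY (hq _ ⟨k, hk0, hk, rfl⟩).2.1
    obtain ⟨q', P⟩ := pvloc_pth_exists L.loc q hn fun k hk => pvlw_dart_src L (by rw [q.src_e k hk]; exact hv k hk)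
    refine ⟨q', (hP.iff L.loc (P.v_rel 0 (Nat.zero_le _))).1 h0, ?_, ?_⟩
    · rw [P.n_eq]
      exact (hM.iff L.loc (P.v_rel q.n le_rfl)).1 h1
    · rintro _ ⟨k, hk1, hk2, rfl⟩
      rw [P.n_eq] at hk2
      have hr := P.v_rel k hk2.le
      obtain ⟨a1, a2, a3⟩ := hq _ ⟨k, hk1, hk2, rfl⟩
      have hp : pos' (q'.v k) ∈ π.Yout := by rw [← pvlw_pos L hr]; exact a2
      refine ⟨by rw [← pvloc_v_col hσ hr]; exact a1, hp, fun hc => a3.1 ((hfz.iff L.loc hr).2 hc), fun hc => ?_⟩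
      have h5 : pos' (q'.v k) ∈ π.Yin := by
        rcases hc with ⟨p, -, e, hp'⟩ | ⟨p, -, e, hp'⟩
        · exact e ▸ (hp' _ ⟨p.n, le_rfl, rfl⟩).2
        · exact e ▸ (hp' _ ⟨p.n, le_rfl, rfl⟩).2
      exact disjoint_left.1 hd h5 hp

end gen

/-! ## 2. the two planes; the field `W` -/

section planes

variable {Y Y' C : Set ℂ} {ρ : ℝ}

/-- the darts of a plane with both ends in a ball are finitely many -/
theorem pvn1rw_dart_fin (lf : VorLF Y) (x : ℂ) (r : ℝ) :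
    {d : (delbPl Y).Dart | ‖(((delbPl Y).toMap.src d : ↥Y) : ℂ) - x‖ ≤ r ∧ ‖(((delbPl Y).toMap.tgt d : ↥Y) : ℂ) - x‖ ≤ r}.Finite := by
  have hb := pvkn_ball_finite lf x r
  refine Set.Finite.of_finite_image (f := fun d => ((delbPl Y).toMap.src d, (delbPl Y).toMap.tgt d)) ((hb.prod hb).subset ?_) ?_
  · rintro _ ⟨d, hd, rfl⟩
    exact ⟨hd.1, hd.2⟩
  · intro d _ d' _ e
    exact (delbPl Y).toMap_simple d d' (congrArg Prod.fst e) (congrArg Prod.snd e)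

/-- **what the pattern owes to `C` for `W`** (no colour, no site): `Yin`, `Yout` are disjoint, `Yout` and the outside of `closedBall x (5R)` are far from `C` -/
structure Pvn1rwPat (π₀ : PvwPat) (x : ℂ) (R : ℝ) (C : Set ℂ) (ρ : ℝ) : Prop where
  disj : Disjoint π₀.Yin π₀.Yout
  yout : π₀.Yout ⊆ pvgeFar C ρ
  ann : ∀ z, 5 * R < ‖z - x‖ → z ∈ pvgeFar C ρ

/-- the producer of record: the `3ρ`-neighbourhood of `C` lies in the collared lanes, which lie in `closedBall x (5R)` (= the hypotheses `hW hcol hann` of `pvhq_N_far` of 27) -/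
theorem pvn1rw_pat_of {π₀ : PvwPat} {x : ℂ} {R : ℝ} (hW : π₀.Wf) (hcol : ∀ z, z ∉ π₀.Ycol → z ∈ pvgeFar C ρ) (hann : ∀ z ∈ π₀.Ycol, ‖z - x‖ ≤ 5 * R) : Pvn1rwPat π₀ x R C ρ :=
  ⟨hW.disj, fun z hz => hcol z fun hc => disjoint_left.1 hW.col hc hz, fun z hz => hcol z fun hc => absurd (hann z hc) (not_le.2 hz)⟩

variable {π₀ : PvwPat} {x : ℂ} {R : ℝ} {𝔇 : PvwDat (delbPl Y).toMap} {𝔇' : PvwDat (delbPl Y').toMap} {σ : ↥Y → Bool} {σ' : ↥Y' → Bool}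

/-- the white circuit, the two planes -/
theorem pvn1rw_circ_pl (H : PvrdSit Y Y' C ρ) (hann : ∀ z, 5 * R < ‖z - x‖ → z ∈ pvgeFar C ρ) (hσ : PvrdCol C σ σ') (h : PvhqCirc (delbPl Y).toMap Subtype.val x R σ) :
    PvhqCirc (delbPl Y').toMap Subtype.val x R σ' :=
  pvn1rw_circ H.locP (pvmo_sph H.good) (pvmo_sph H.good') (pvrd_col_rel H hσ) hann (pvn1rw_dart_fin H.good'.lf x (6 * R)) h

/-- `WO(D)`, the two planes -/
theorem pvn1rw_WO_pl (H : PvrdSit Y Y' C ρ) (hd : Disjoint π₀.Yin π₀.Yout) (hY : π₀.Yout ⊆ pvgeFar C ρ) (hσ : PvrdCol C σ σ') (G : PvLocDat (pvrdR Y Y' C ρ) 𝔇 𝔇')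
    (hf : ∀ v ∈ 𝔇.fz, (v : ℂ) ∈ pvgeFar C ρ) (h : 𝔇.WO Subtype.val π₀ σ) : 𝔇'.WO Subtype.val π₀ σ' :=
  pvn1rw_WO H.locP G (pvrd_col_rel H hσ) hd hY hf h

/-- **`W(D)` OF RECORD IS CARRIED OVER** -/
theorem pvn1rw_W_pl (H : PvrdSit Y Y' C ρ) (P : Pvn1rwPat π₀ x R C ρ) (hσ : PvrdCol C σ σ') (G : PvLocDat (pvrdR Y Y' C ρ) 𝔇 𝔇') (hf : ∀ v ∈ 𝔇.fz, (v : ℂ) ∈ pvgeFar C ρ)
    (h : PvhqW 𝔇 Subtype.val π₀ x R σ) : PvhqW 𝔇' Subtype.val π₀ x R σ' :=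
  ⟨pvn1rw_WO_pl H P.disj P.yout hσ G hf h.1, pvn1rw_circ_pl H P.ann hσ h.2⟩

end planes

section field

variable {τ : Type} {c : ℝ} (𝔓 : PvxPar τ c) (m : ℕ) (π : PvxIx τ) {x : ℂ} {R : ℝ} {π₀ : PvwPat} {C : Set ℂ} {r : ℝ} (q : ℝ≥0∞)

/-- **THE FIELD `W` OF `PvrdKit` AT `pvhqKit`, VERBATIM** -/
theorem pvn1rw_W (P : Pvn1rwPat π₀ x R C r) : ∀ Y Y', PvrdSit Y Y' (pvhqKit x R π₀ C r q).C (pvhqKit x R π₀ C r q).r → ∀ (σ : ↥Y → Bool) (σ' : ↥Y' → Bool), PvrdCol (pvhqKit x R π₀ C r q).C σ σ' →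
    ∀ 𝔇 𝔇', PvrdT 𝔓 m π (pvhqKit x R π₀ C r q) Y Y' 𝔇 𝔇' → (pvhqKit x R π₀ C r q).W Y 𝔇 σ → (pvhqKit x R π₀ C r q).W Y' 𝔇' σ' :=
  fun _ _ H _ _ hσ _ _ hT h => pvn1rw_W_pl H P hσ hT.1 hT.2.2 h

end field

end Claimed.Agent.R289
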