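import Claimed.Agent.R289.Exit.N1RK

/-!
# Row 289 (S0537), THE WALL, ROAD E, file Exit/N1S : **TWO TOOLS FOR THE TOP OF `n1`: THE VOID CONTRACT, THE SWAP OF THE REGIONS**      (helper170, pen of `exit_pvie_in`; prefix `pvn1s_`, `pvn1s`, `Pvn1s`)      0 sorry

* sec. 3  **THE VOID CONTRACT** `pvn1s_void_ok : PvxnOk .. pvn1sYd0 (fun _ => pvn1sVoid) G₀ K` from [`P(G₀ ε) → 0`] + [off `G₀` the pattern `π` is not fitted].
  WHY: `PvnaIn` is owed for EVERY `π ∈ pvxPatSet`, and the hulls `π.Zs π.Zt` of an index are ARBITRARY finite sets of cells with `PvfeIx`: nothing says that they cover the gate discs.   So the DETERMINISTIC records of the `X` side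
  (`PvknGeo.ks kt`: gate discs far from `C`; cores not under the lanes ..) are FALSE at degenerate indices (corridor through a gate disc).   Such an index is fitted only if the mesh fails (hull equalities of `pvxFit` + `PvfeIx.lk adm`).
  USE: `by_cases` on the deterministic record;   record true: the kit of record;   record false: `(pvn1s_void_ok ..).toIn`.
* sec. 1, 2  **THE SWAP** `PvxnIn.pvn1sSwap`: all the files of `n1` (`Exit/N1 N1B N1R N1RK N1Guard`, `Tr/KitN1 DomE* JenE ..`) are GENERIC in `𝔓 : PvxPar τ c`; `PvxnIn 𝔓` mentions `𝔓.reg` through `pvxFit` only.   So the WHOLE machine may be run at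
  `pvn1sPar 𝔓 Yi Yc Yo := 𝔓.upd 𝔓.Γ (regions Yin Ycol Yout replaced)`, NO DEF AND NO LEMMA MOVES, and the contract comes back to `𝔓` for the price `Pvn1sGood` (off a bad event: `g₀`, its right apexes not over `Yi ∪ Yc`, the cores not over `Yi`: fine mesh + `Ok.off`).
  (SPARE ROUTE for `col : Ycolᶜ ⊆ pvgeFar C r`, false at `𝔓.reg`: `Yc := Ycol ∪ (pvgeFar C r)ᶜ`;   and for any misfit between the rooms of the cell kit and the lanes of `Defs/FitReg`.)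
-/

set_option autoImplicit false

namespace Claimed.Agent.R289

open MeasureTheory Filter Topology Set Metric Claims.C0465
open scoped ENNReal

/-! ## 1. the pattern of the kit -/

/-- **THE PATTERN OF THE KIT**: the pattern of record `π₀` with other regions `Yin Ycol Yout` (same pins, same tip cells, same `Yreg`) -/
def pvn1sReg (π₀ : PvwPat) (Yi Yc Yo : Set ℂ) : PvwPat := { π₀ with Yin := Yi, Ycol := Yc, Yout := Yo }

theorem pvn1s_wf {π₀ : PvwPat} {Yi Yc Yo : Set ℂ} (h1 : Disjoint Yi Yo) (h2 : Disjoint Yc Yo) (h3 : Yi ⊆ π₀.Yreg) (h4 : Yo ⊆ π₀.Yreg) : (pvn1sReg π₀ Yi Yc Yo).Wf := ⟨h1, h2, h3, h4⟩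

section dat

variable {V D : Type} {T : PvMap V D} {𝔇 : PvwDat T} {pos : V → ℂ} {N : PvwNum} {h : ℝ} {π₀ : PvwPat} {Yi Yc Yo : Set ℂ}

/-- **a datum well formed for the regions of record is well formed for the pattern of the kit** -/
theorem pvn1s_ok (hok : 𝔇.Ok pos N h π₀) (h1 : ∀ v ∈ 𝔇.g.verts ∪ 𝔇.apx, pos v ∉ Yi ∧ pos v ∉ Yc) (h2 : ∀ v ∈ 𝔇.s.core ∪ 𝔇.t.core, pos v ∉ Yi) :
    𝔇.Ok pos N h (pvn1sReg π₀ Yi Yc Yo) where
  st_s := hok.st_s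
  st_t := hok.st_t
  tip_s := hok.tip_s
  tip_t := hok.tip_t
  g0 := hok.g0
  g1 := hok.g1
  pos_n := hok.pos_n
  out := hok.out
  off := hok.off
  disj := hok.disj
  off_y := fun v hv => pvkn_nu_of 𝔇 (h1 v hv).1 (h1 v hv).2
  tip_f := hok.tip_f
  cons_b := hok.cons_b
  cons_w := hok.cons_w
  cons_a := hok.cons_a
  core_off := h2

end dat

/-! ## 2. the parameters of the kit -/

section par

variable {τ : Type} {c : ℝ} (𝔓 : PvxPar τ c) (Yi Yc Yo : ℕ → PvxIx τ → Set ℂ)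

/-- **THE PARAMETERS OF THE KIT**: the same base data, the same doors, the pattern of the kit -/
def pvn1sPar : PvxPar τ c := 𝔓.upd 𝔓.Γ fun m π => pvn1sReg (𝔓.reg m π) (Yi m π) (Yc m π) (Yo m π)

/-- what the swap asks of the sample -/
def Pvn1sGood (𝔓 : PvxPar τ c) (Yi Yc : ℕ → PvxIx τ → Set ℂ) (m : ℕ) (π : PvxIx τ) (ω : PVSample) : Prop :=
  ∀ 𝔇 : PvwDat (pvxT ω), 𝔇.Ok (pvxPos ω) 𝔓.num (pvlmH m) (𝔓.reg m π) →
    (∀ v ∈ 𝔇.g.verts ∪ 𝔇.apx, pvxPos ω v ∉ Yi m π ∧ pvxPos ω v ∉ Yc m π) ∧ ∀ v ∈ 𝔇.s.core ∪ 𝔇.t.core, pvxPos ω v ∉ Yi m π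

variable {𝔓 Yi Yc Yo}

theorem pvn1s_at {m : ℕ} {ω : PVSample} {z : ℂ} {t : τ} {𝔖 : PvwSt (pvxT ω)} : PvxAt (pvn1sPar 𝔓 Yi Yc Yo) m ω z t 𝔖 ↔ PvxAt 𝔓 m ω z t 𝔖 :=
  ⟨fun h => ⟨h.good, h.st, h.tip_p, h.tip_m, h.mask_p, h.mask_m, h.inn_p, h.inn_m, h.lev0⟩, fun h => ⟨h.good, h.st, h.tip_p, h.tip_m, h.mask_p, h.mask_m, h.inn_p, h.inn_m, h.lev0⟩⟩

theorem pvn1s_U (m : ℕ) (z : ℂ) (t : τ) : pvxU (pvn1sPar 𝔓 Yi Yc Yo) m z t = pvxU 𝔓 m z t := by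
  ext ω
  exact ⟨fun ⟨𝔖, h⟩ => ⟨𝔖, pvn1s_at.1 h⟩, fun ⟨𝔖, h⟩ => ⟨𝔖, pvn1s_at.2 h⟩⟩

theorem pvn1s_pins (x : ℂ) (R : ℝ) (m : ℕ) (ω : PVSample) (P : PvbRim) : pvxPins (pvn1sPar 𝔓 Yi Yc Yo) x R m ω P = pvxPins 𝔓 x R m ω P := by
  ext s
  exact ⟨fun ⟨h1, h2, 𝔖, j, h3, h4⟩ => ⟨h1, h2, 𝔖, j, pvn1s_at.1 h3, h4⟩, fun ⟨h1, h2, 𝔖, j, h3, h4⟩ => ⟨h1, h2, 𝔖, j, pvn1s_at.2 h3, h4⟩⟩

theorem pvn1s_fit {x : ℂ} {R : ℝ} {m : ℕ} {ω : PVSample} {P : PvbRim} {s t : PvbPin τ} {π : PvxIx τ} (hg : Pvn1sGood 𝔓 Yi Yc m π ω) (h : pvxFit 𝔓 x R m ω P s t π) :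
    pvxFit (pvn1sPar 𝔓 Yi Yc Yo) x R m ω P s t π := by
  obtain ⟨h1, h2, h3, h4, 𝔇, j, hok, hA, a1, a2, r⟩ := h
  exact ⟨h1, h2, by rw [pvn1s_U]; exact h3, by rw [pvn1s_U]; exact h4, 𝔇, j, pvn1s_ok hok (hg 𝔇 hok).1 (hg 𝔇 hok).2, ⟨hA.cyl, hA.pin_s, hA.arc, hA.pin_t⟩, pvn1s_at.2 a1, pvn1s_at.2 a2, r⟩

/-- **THE SWAP**: the contract of N1' at the parameters of the kit gives the contract at the parameters of record -/
def PvxnIn.pvn1sSwap {x : ℂ} {R : ℝ} {m : ℕ} {π : PvxIx τ} {a : ℂ} {K : ℝ → PVSample → ℂ} (I : PvxnIn (pvn1sPar 𝔓 Yi Yc Yo) x R m π a K) (G₀ : ℝ → Set (PvGeoT × PvColT))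
    (hG₀ : Tendsto (fun ε => (pvhbUp ε).P (G₀ ε)) (𝓝[>] (0 : ℝ)) (𝓝 0)) (hg : ∀ᶠ ε in 𝓝[>] (0 : ℝ), ∀ p, p ∉ G₀ ε → Pvn1sGood 𝔓 Yi Yc m π (pvMerge p)) : PvxnIn 𝔓 x R m π a K where
  ι := I.ι
  S := I.S
  q := I.q
  q0 := I.q0
  hyp := I.hyp
  tail := I.tail
  G := fun ε => I.G ε ∪ G₀ ε
  geo := by
    have h := I.geo.add hG₀
    rw [add_zero] at h
    exact tendsto_of_tendsto_of_tendsto_of_le_of_le tendsto_const_nhds h (fun _ => zero_le) fun ε => (pvhbUp ε).P_union_le _ _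
  act := by
    filter_upwards [I.act, hg] with ε h1 h2 p hp P hP s hs t ht hfit
    exact h1 p (fun hc => hp (Or.inl hc)) P hP s (by rw [pvn1s_pins]; exact hs) t (by rw [pvn1s_pins]; exact ht) (pvn1s_fit (h2 p fun hc => hp (Or.inr hc)) hfit)

end par

theorem pvn1s_eqns_cite : True := by
  have := @pvn1sReg.eq_1; have := @pvn1sPar.eq_1; have := @Pvn1sGood.eq_1
  trivial

/-! ## 3. the void contract -/

section void

variable {τ : Type} {c : ℝ} (𝔓 : PvxPar τ c) (x : ℂ) (R : ℝ) (m : ℕ) (π : PvxIx τ) (a : ℂ)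

/-- the void kit: no datum is present -/
def pvn1sVoid : PvxnKit where
  C := ∅
  r := 1
  E _ _ _ := False
  W _ _ _ := False
  N _ _ := ∅
  B := ∅
  mB := MeasurableSet.empty
  q := 1

/-- the void `Y` side -/
def pvn1sYd0 : PvxnYd := ⟨fun _ _ => 0, fun _ _ => 0, fun _ _ _ => 0, 0⟩

theorem pvn1s_eqns_cite2 : True := by
  have := @pvn1sVoid.eq_1; have := @pvn1sYd0.eq_1
  trivial

theorem pvn1s_void_PA (i : PvxnIx) (Y : Set ℂ) (σ : ℂ → Bool) : ¬ PvxnPA 𝔓 m π a pvn1sVoid i Y σ := fun ⟨_, ⟨_, _, h, _⟩, _⟩ => h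

theorem pvn1s_void_PW (i : PvxnIx) (Y : Set ℂ) (σ : ℂ → Bool) : ¬ PvxnPW 𝔓 m π a pvn1sVoid i Y σ := fun ⟨_, _, _, h⟩ => h

/-- **A PATTERN WHICH IS FITTED WITH VANISHING PROBABILITY HAS THE VOID CONTRACT** (for the patterns of `pvxPatSet` whose DETERMINISTIC geometry is degenerate: corridor through a gate disc ..: such a pattern is fitted only if the mesh fails) -/
theorem pvn1s_void_ok (K : ℝ → PVSample → ℂ) (G₀ : ℝ → Set (PvGeoT × PvColT)) (hG₀ : Tendsto (fun ε => (pvhbUp ε).P (G₀ ε)) (𝓝[>] (0 : ℝ)) (𝓝 0))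
    (h : ∀ᶠ ε in 𝓝[>] (0 : ℝ), ∀ p, p ∉ G₀ ε → ∀ P ∈ pvhbAll x R (pvMerge p), ∀ s ∈ pvxPins 𝔓 x R m (pvMerge p) P, ∀ t ∈ pvxPins 𝔓 x R m (pvMerge p) P, ¬ pvxFit 𝔓 x R m (pvMerge p) P s t π) :
    PvxnOk 𝔓 x R m π a pvn1sYd0 (fun _ => pvn1sVoid) G₀ K where
  mC := Eventually.of_forall fun _ => MeasurableSet.empty
  bB := ⟨∅, Bornology.isBounded_empty, Eventually.of_forall fun _ => Subset.rfl⟩
  q0 := ⟨1, one_ne_zero, Eventually.of_forall fun _ => le_rfl⟩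
  D1 := ENNReal.zero_ne_top
  E_mono := Eventually.of_forall fun _ _ _ _ _ _ _ _ _ _ hE => hE
  W_mono := Eventually.of_forall fun _ _ _ _ _ _ _ _ _ _ hE => hE
  yh_stab := Eventually.of_forall fun _ _ _ _ _ _ _ _ _ => rfl
  mw := Eventually.of_forall fun _ _ _ _ _ _ _ => measurable_const
  mY := Eventually.of_forall fun _ _ _ _ _ _ _ => measurable_const
  rd := Eventually.of_forall fun _ _ _ _ => Eventually.of_forall fun _ i =>
    ⟨⟨fun hc => absurd hc (pvn1s_void_PA 𝔓 m π a i _ _), fun hc => absurd hc (pvn1s_void_PA 𝔓 m π a i _ _)⟩,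
      ⟨fun hc => absurd hc (pvn1s_void_PW 𝔓 m π a i _ _), fun hc => absurd hc (pvn1s_void_PW 𝔓 m π a i _ _)⟩⟩
  jen := Eventually.of_forall fun _ _ _ i _ hA _ => absurd hA (pvn1s_void_PA 𝔓 m π a i _ _)
  dom := Eventually.of_forall fun ε => Eventually.of_forall fun ω => by
    have h0 : ∀ i : PvxnIx, ((pvxnSys 𝔓 m π a pvn1sVoid pvn1sYd0 ε).A i ∩ (pvxnSys 𝔓 m π a pvn1sVoid pvn1sYd0 ε).WO i).indicator (fun ω => pvn1sYd0.w ε ω * ‖i.X + pvn1sYd0.Y ε ω‖ₑ ^ 2) ω = 0 :=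
      fun i => indicator_of_notMem (fun hc => pvn1s_void_PA 𝔓 m π a i _ _ hc.1) _
    simp only [h0, tsum_zero]
    exact zero_le
  geo := hG₀
  act := by
    filter_upwards [h] with ε h1 p hp P hP s hs t ht hfit
    exact absurd hfit (h1 p hp P hP s hs t ht)

end void

end Claimed.Agent.R289
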