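-- KEEP
import Claimed.Agent.R289.Exit.N1Rd
import Claimed.Agent.R289.Exit.N1YD
import Claimed.Agent.R289.Tr.SqFin
import Claimed.Agent.R289.Exit.ParBd
import Claimed.Agent.R289.Tr.PatWinR
import Claimed.Agent.R289.Tr.LinkMeas

/-!
# Row 289 (S0537), THE WALL, ROAD E, file Exit/N1Sq : THE SECOND MOMENT CLAUSE OF THE GUARD OF N1' AS A COLOUR BLIND CLAUSE ON THE SITES OFF `C_c`      (helper161, flag (SQ) of 180, post of 24 13:44Z; prefix `pvnq9_`, `pvnq9`)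

WHY.   `pvyk1SqO pvyk1SqI` (214, `Exit/N1YD`) are asked by the `Y` side at EVERY base of the guard, they hold at a.e. configuration only, and they are DIAGONAL sets (base data of the configuration): as clauses of the guard they owe (S1) (S2) (S3).
HERE: ONE property `pvnq9Sq 𝔓 𝔈 m ε π Y` OF THE SET OF SITES, a function of `Y \ C_c` ONLY (all the splices in `C_c`, all the colours, all the frozen sets `F`, hulls of the INDEX `π.Zt π.Zs`).      It fits THE SLOT `pvn1aGn` of `Exit/N1All`: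
* (S1) FREE: colour blind (a property of `cfSites ζ`)
* (S2) **`pvnq9_Yc`** : `pvnq9Sq .. (Y \ C_c ∪ Y₂ ∩ C_c) ↔ pvnq9Sq .. Y`, NO hypothesis
* (S3) **`pvnq9_ae`**, **`pvnq9_up`** : almost sure, `(pvhbUp ε).P {¬ ..} = 0`      [second moments from the regions: `pvsv_rg_o pvsv_rg_i` of 193;   windows against `C_c`: `pvn1y_win_o pvn1y_win_i` of 101]
* (USE) **`pvnq9_use_o`**, **`pvnq9_use_i`**, `pvnq9_use` : with the hull clauses of the guard it GIVES `pvyk1SqO`, `pvyk1SqI` at every colouring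
* sec. 1  MODEL FREE **`pvnq9_sq`** : `pvueSq` of an end link with a constant choice does not see what happens in `C` off its tile and its door (twin of `pvn1y_end` of 101 for the second moment);   `pvnq9_SqO_rd`, `pvnq9_SqI_rd` = (S2) for the DIAGONAL clauses of 214 (same base data), if the guard keeps them
-/

set_option autoImplicit false

namespace Claimed.Agent.R289

open MeasureTheory Filter Topology Set Claims.C0465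
open scoped ENNReal

/-! ## 1. model free -/

/-- **MODEL FREE**: the second moment of an end link in its own experiment at two configurations which differ inside `C` only -/
theorem pvnq9_sq {kit : PvthKit} {ε : ℝ} {e : PvkyEnd} {z d : ℂ} {Wn C : Set ℂ} {η η' : Conf PvPt} (hy : ∀ ξ ξ', e.y ξ = e.y ξ')
    (rA : Conf.ReadsSet (Wn ×ˢ (univ : Set Bool)) e.A) (rX : Conf.Reads (Wn ×ˢ (univ : Set Bool)) e.X) (hW : C ∩ Wn ⊆ e.K ∪ pvkyDoor kit z d) (h : Pvn1yAg C η η') :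
    η' ∈ pvueSq kit ε e z d ↔ η ∈ pvueSq kit ε e z d := by
  have dW : Disjoint Wn (C \ (e.K ∪ pvkyDoor kit z d)) := disjoint_left.2 fun w hw hc => hc.2 (hW ⟨hc.1, hw⟩)
  have key : (fun p => ‖e.X (pvdyR (e.K ∪ pvkyDoor kit z d) e.y η' p)‖ₑ ^ 2 * e.A.indicator (1 : Conf PvPt → ℝ≥0∞) (pvdyR (e.K ∪ pvkyDoor kit z d) e.y η' p)) =
      fun p => ‖e.X (pvdyR (e.K ∪ pvkyDoor kit z d) e.y η p)‖ₑ ^ 2 * e.A.indicator (1 : Conf PvPt → ℝ≥0∞) (pvdyR (e.K ∪ pvkyDoor kit z d) e.y η p) := by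
    funext p
    have h1 := h.R (e.K ∪ pvkyDoor kit z d) (hy η' η) p
    rw [rX.congr (h1.restr dW)]
    congr 1
    by_cases hA : pvdyR (e.K ∪ pvkyDoor kit z d) e.y η p ∈ e.A
    · rw [indicator_of_mem hA, indicator_of_mem ((h1.reads dW rA).2 hA)]
      rfl
    · rw [indicator_of_notMem hA, indicator_of_notMem fun h' => hA ((h1.reads dW rA).1 h')]
  unfold pvueSq
  simp only [mem_ofPred_eq]
  rw [key]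

/-- two configurations with the same colouring, sites which differ inside `C` only -/
theorem pvnq9_ag (C Y Y₂ : Set ℂ) (σ : ℂ → Bool) : Pvn1yAg C (cfOf Y σ) (cfOf (Y \ C ∪ Y₂ ∩ C) σ) := by
  intro x hx
  show (x.1 ∈ Y \ C ∪ Y₂ ∩ C ∧ x.2 = σ x.1) ↔ (x.1 ∈ Y ∧ x.2 = σ x.1)
  refine and_congr_left fun _ => ?_
  constructor
  · rintro (h | h)
    · exact h.1
    · exact absurd h.2 hx
  · exact fun h => Or.inl ⟨h, hx⟩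

theorem pvnq9_spl_spl (C Y Y₂ Y₃ : Set ℂ) : (Y \ C ∪ Y₂ ∩ C) \ C ∪ Y₃ ∩ C = Y \ C ∪ Y₃ ∩ C := by
  ext w
  simp only [mem_union, Set.mem_sdiff, mem_inter_iff]
  tauto

section defs

variable {τ : Type} {c : ℝ} (𝔓 : PvxPar τ c) (𝔈 : PvieEng τ) (m : ℕ) (ε : ℝ) (π : PvxIx τ)

/-- **(SQ, first link), COLOUR BLIND, OFF `C_c`**: hull of the index, every frozen set, every colouring, every splice in `C_c` -/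
def pvnq9SqO (Y : Set ℂ) : Prop :=
  ∀ (Y₂ : Set ℂ) (σ : ℂ → Bool) (F : Set ℂ), cfOf (Y \ pvieCc 𝔓 𝔈 m ε π.p ∪ Y₂ ∩ pvieCc 𝔓 𝔈 m ε π.p) σ ∈
    pvueSq (𝔈.kit m ε) ε (pvilEo 𝔓 𝔈 m ε pvilQ π.p.zt π.p.tt (π.Zt : Set (ℤ × ℤ)) F) (pvieZo 𝔓 m π.p.zt π.p.tt) ((𝔓.Γ m).dout π.p.tt)

/-- **(SQ, last link), COLOUR BLIND, OFF `C_c`** -/
def pvnq9SqI (Y : Set ℂ) : Prop :=
  ∀ (Y₂ : Set ℂ) (σ : ℂ → Bool) (F : Set ℂ), cfOf (Y \ pvieCc 𝔓 𝔈 m ε π.p ∪ Y₂ ∩ pvieCc 𝔓 𝔈 m ε π.p) σ ∈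
    pvueSq (𝔈.kit m ε) ε (pvilEi 𝔓 𝔈 m ε pvilQ π.p.zs π.p.ts (π.Zs : Set (ℤ × ℤ)) F) (pvieZi 𝔓 m π.p.zs π.p.ts) ((𝔓.Γ m).din π.p.ts)

/-- **THE CLAUSE** -/
def pvnq9Sq (Y : Set ℂ) : Prop := pvnq9SqO 𝔓 𝔈 m ε π Y ∧ pvnq9SqI 𝔓 𝔈 m ε π Y

end defs

theorem pvnq9_eqns_cite : True := by
  have := @pvnq9SqO.eq_1; have := @pvnq9SqI.eq_1; have := @pvnq9Sq.eq_1
  trivial

section lines

variable {τ : Type} {c : ℝ} {𝔓 : PvxPar τ c} {𝔈 : PvieEng τ} {m : ℕ} {ε : ℝ} {π : PvxIx τ}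

/-! ## 2. (S2) -/

/-- **(S2) THE CLAUSE DOES NOT READ THE RESAMPLED REGION** -/
theorem pvnq9_Yc (𝔓 : PvxPar τ c) (𝔈 : PvieEng τ) (m : ℕ) (ε : ℝ) (π : PvxIx τ) (Y Y₂ : Set ℂ) :
    pvnq9Sq 𝔓 𝔈 m ε π (Y \ pvieCc 𝔓 𝔈 m ε π.p ∪ Y₂ ∩ pvieCc 𝔓 𝔈 m ε π.p) ↔ pvnq9Sq 𝔓 𝔈 m ε π Y := by
  unfold pvnq9Sq pvnq9SqO pvnq9SqI
  simp only [pvnq9_spl_spl]

/-! ## 3. (USE) -/

theorem pvnq9_self (C Y : Set ℂ) : Y \ C ∪ Y ∩ C = Y := sdiff_union_inter Y C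

/-- **(USE, first link)** with the hull clause of the guard -/
theorem pvnq9_use_o {Y : Set ℂ} (h : pvnq9SqO 𝔓 𝔈 m ε π Y) {σ : ℂ → Bool} (hZ : pvilZo 𝔓 m π.p.zt π.p.tt (cfOf Y σ) = (π.Zt : Set (ℤ × ℤ))) :
    cfOf Y σ ∈ pvyk1SqO 𝔓 𝔈 m ε π.p.zt π.p.tt := by
  have h1 := h Y σ (pvilFo 𝔓 m π.p.zt π.p.tt (cfOf Y σ))
  rw [pvnq9_self] at h1
  unfold pvyk1SqO
  rw [mem_ofPred_eq, pvilEoAt, hZ]
  exact h1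

/-- **(USE, last link)** -/
theorem pvnq9_use_i {Y : Set ℂ} (h : pvnq9SqI 𝔓 𝔈 m ε π Y) {σ : ℂ → Bool} (hZ : pvilZi 𝔓 m π.p.zs π.p.ts (cfOf Y σ) = (π.Zs : Set (ℤ × ℤ))) :
    cfOf Y σ ∈ pvyk1SqI 𝔓 𝔈 m ε π.p.zs π.p.ts := by
  have h1 := h Y σ (pvilFi 𝔓 m π.p.zs π.p.ts (cfOf Y σ))
  rw [pvnq9_self] at h1
  unfold pvyk1SqI
  rw [mem_ofPred_eq, pvilEiAt, hZ]
  exact h1

/-- (USE) at a configuration with one colour per site -/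
theorem pvnq9_use {η : Conf PvPt} (hs : PvheSimple η) (h : pvnq9Sq 𝔓 𝔈 m ε π (cfSites η)) (hZo : pvilZo 𝔓 m π.p.zt π.p.tt η = (π.Zt : Set (ℤ × ℤ)))
    (hZi : pvilZi 𝔓 m π.p.zs π.p.ts η = (π.Zs : Set (ℤ × ℤ))) : η ∈ pvyk1SqO 𝔓 𝔈 m ε π.p.zt π.p.tt ∧ η ∈ pvyk1SqI 𝔓 𝔈 m ε π.p.zs π.p.ts := by
  have e := pvsv_conf_of hs
  rw [e] at hZo hZi
  have h1 := pvnq9_use_o h.1 hZo
  have h2 := pvnq9_use_i h.2 hZi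
  rw [← e] at h1 h2
  exact ⟨h1, h2⟩

/-! ## 4. (S3) -/

theorem pvnq9_Eo_X_reads (z : ℂ) (t : τ) (Z : Set (ℤ × ℤ)) (F : Set ℂ) : Conf.Reads (pvilWno 𝔓 𝔈 m ε z t Z ×ˢ univ) (pvilEo 𝔓 𝔈 m ε pvilQ z t Z F).X :=
  pvsu_loc_reads (pvP ε) (pvilWno 𝔓 𝔈 m ε z t Z ×ˢ univ) _

theorem pvnq9_Ei_X_reads (z : ℂ) (t : τ) (Z : Set (ℤ × ℤ)) (F : Set ℂ) : Conf.Reads (pvilWni 𝔓 𝔈 m ε z t Z ×ˢ univ) (pvilEi 𝔓 𝔈 m ε pvilQ z t Z F).X :=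
  pvsu_loc_reads (pvP ε) (pvilWni 𝔓 𝔈 m ε z t Z ×ˢ univ) _

/-- the first link at fixed base data: `pvueSq` at two configurations which differ inside `C` only -/
theorem pvnq9_Eo (z : ℂ) (t : τ) (Z : Set (ℤ × ℤ)) (F : Set ℂ) {C : Set ℂ} {η η' : Conf PvPt}
    (hW : C ∩ pvilWno 𝔓 𝔈 m ε z t Z ⊆ pvieSh z (𝔈.oK m t) ∪ pvieDoor 𝔈 m ε (pvieZo 𝔓 m z t) ((𝔓.Γ m).dout t)) (h : Pvn1yAg C η η') :
    η' ∈ pvueSq (𝔈.kit m ε) ε (pvilEo 𝔓 𝔈 m ε pvilQ z t Z F) (pvieZo 𝔓 m z t) ((𝔓.Γ m).dout t) ↔ η ∈ pvueSq (𝔈.kit m ε) ε (pvilEo 𝔓 𝔈 m ε pvilQ z t Z F) (pvieZo 𝔓 m z t) ((𝔓.Γ m).dout t) :=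
  pvnq9_sq (Wn := pvilWno 𝔓 𝔈 m ε z t Z) (fun _ _ => rfl) (pvks_Eo_A_reads 𝔓 𝔈 m ε pvilQ _ _ _ _) (pvnq9_Eo_X_reads z t Z F) hW h

/-- the last link at fixed base data -/
theorem pvnq9_Ei (z : ℂ) (t : τ) (Z : Set (ℤ × ℤ)) (F : Set ℂ) {C : Set ℂ} {η η' : Conf PvPt}
    (hW : C ∩ pvilWni 𝔓 𝔈 m ε z t Z ⊆ pvieSh z (𝔈.iK m t) ∪ pvieDoor 𝔈 m ε (pvieZi 𝔓 m z t) ((𝔓.Γ m).din t)) (h : Pvn1yAg C η η') :
    η' ∈ pvueSq (𝔈.kit m ε) ε (pvilEi 𝔓 𝔈 m ε pvilQ z t Z F) (pvieZi 𝔓 m z t) ((𝔓.Γ m).din t) ↔ η ∈ pvueSq (𝔈.kit m ε) ε (pvilEi 𝔓 𝔈 m ε pvilQ z t Z F) (pvieZi 𝔓 m z t) ((𝔓.Γ m).din t) :=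
  pvnq9_sq (Wn := pvilWni 𝔓 𝔈 m ε z t Z) (fun _ _ => rfl) (pvks_Ei_A_reads 𝔓 𝔈 m ε pvilQ _ _ _ _) (pvnq9_Ei_X_reads z t Z F) hW h

/-- (S2) for the DIAGONAL clause of 214 (first link): two configurations which differ inside `C_c` only, same base data, hull of the index      (twin of `pvn1y_Fo` of 101) -/
theorem pvnq9_SqO_rd {η η' : Conf PvPt} (hs : PvieSimple 𝔓 𝔈 m ε π.p)
    (hc : ∀ S ∈ pvieTiles 𝔓 𝔈 m ε π.p, Disjoint S (pvieSh π.p.zt (pviwBox 𝔓 m π.p.tt) ∩ pvtU (pvlmDel c m) (pvtN8 (↑π.Zs ∪ ↑π.Zt))))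
    (h : Pvn1yAg (pvieCc 𝔓 𝔈 m ε π.p) η η') (eF : pvilFo 𝔓 m π.p.zt π.p.tt η' = pvilFo 𝔓 m π.p.zt π.p.tt η) (eZ : pvilZo 𝔓 m π.p.zt π.p.tt η' = pvilZo 𝔓 m π.p.zt π.p.tt η)
    (hZ : pvilZo 𝔓 m π.p.zt π.p.tt η = (π.Zt : Set (ℤ × ℤ))) : η' ∈ pvyk1SqO 𝔓 𝔈 m ε π.p.zt π.p.tt ↔ η ∈ pvyk1SqO 𝔓 𝔈 m ε π.p.zt π.p.tt := by
  rw [pvyk1SqO, mem_ofPred_eq, mem_ofPred_eq, pvilEoAt, pvilEoAt, eF, eZ, hZ]
  exact pvnq9_Eo _ _ _ _ (pvn1y_win_o hs hc) h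

/-- (S2) for the DIAGONAL clause of 214 (last link)      (twin of `pvn1y_Fi` of 101) -/
theorem pvnq9_SqI_rd {η η' : Conf PvPt} (hs : PvieSimple 𝔓 𝔈 m ε π.p)
    (hc : ∀ S ∈ pvieTiles 𝔓 𝔈 m ε π.p, Disjoint S (pvieSh π.p.zs (pviwBox 𝔓 m π.p.ts) ∩ pvtU (pvlmDel c m) (pvtN8 (↑π.Zs ∪ ↑π.Zt))))
    (h : Pvn1yAg (pvieCc 𝔓 𝔈 m ε π.p) η η') (eF : pvilFi 𝔓 m π.p.zs π.p.ts η' = pvilFi 𝔓 m π.p.zs π.p.ts η) (eZ : pvilZi 𝔓 m π.p.zs π.p.ts η' = pvilZi 𝔓 m π.p.zs π.p.ts η)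
    (hZ : pvilZi 𝔓 m π.p.zs π.p.ts η = (π.Zs : Set (ℤ × ℤ))) : η' ∈ pvyk1SqI 𝔓 𝔈 m ε π.p.zs π.p.ts ↔ η ∈ pvyk1SqI 𝔓 𝔈 m ε π.p.zs π.p.ts := by
  rw [pvyk1SqI, mem_ofPred_eq, mem_ofPred_eq, pvilEiAt, pvilEiAt, eF, eZ, hZ]
  exact pvnq9_Ei _ _ _ _ (pvn1y_win_i hs hc) h

/-- **(S3) THE CLAUSE IS ALMOST SURE**, from the regions: bounded, Borel, the windows of the two end links meet `C_c` in their tile and their door only -/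
theorem pvnq9_ae (B : PvbdEng 𝔈) (moM : MeasurableSet (𝔈.oM m π.p.tt)) (moK : MeasurableSet (𝔈.oK m π.p.tt)) (miM : MeasurableSet (𝔈.iM m π.p.ts)) (miK : MeasurableSet (𝔈.iK m π.p.ts))
    (mO : MeasurableSet (𝔈.kit m ε).O₀) (hdo : (𝔓.Γ m).dout π.p.tt ≠ 0) (hdi : (𝔓.Γ m).din π.p.ts ≠ 0)
    (wo : pvieCc 𝔓 𝔈 m ε π.p ∩ pvilWno 𝔓 𝔈 m ε π.p.zt π.p.tt ↑π.Zt ⊆ pvieSh π.p.zt (𝔈.oK m π.p.tt) ∪ pvieDoor 𝔈 m ε (pvieZo 𝔓 m π.p.zt π.p.tt) ((𝔓.Γ m).dout π.p.tt))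
    (wi : pvieCc 𝔓 𝔈 m ε π.p ∩ pvilWni 𝔓 𝔈 m ε π.p.zs π.p.ts ↑π.Zs ⊆ pvieSh π.p.zs (𝔈.iK m π.p.ts) ∪ pvieDoor 𝔈 m ε (pvieZi 𝔓 m π.p.zs π.p.ts) ((𝔓.Γ m).din π.p.ts)) :
    ∀ᵐ ω ∂pvP ε, pvnq9Sq 𝔓 𝔈 m ε π (cfSites ω) := by
  filter_upwards [pvsv_rg_o 𝔓 𝔈 (m := m) (ε := ε) (z := π.p.zt) (t := π.p.tt) (w := pvilQ) (Or.inl rfl) (B.oY _ _) (B.oM _ _) (B.oK _ _) (B.O₀ _ _) moM moK mO hdo,
    pvsv_rg_i 𝔓 𝔈 (m := m) (ε := ε) (z := π.p.zs) (t := π.p.ts) (w := pvilQ) (Or.inl rfl) (B.iY _ _) (B.iM _ _) (B.iK _ _) (B.O₀ _ _) miM miK mO hdi] with ω h1 h2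
  exact ⟨fun Y₂ σ F => (pvnq9_Eo _ _ _ F wo (pvnq9_ag _ (cfSites ω) Y₂ σ)).2 (h1 σ _ F), fun Y₂ σ F => (pvnq9_Ei _ _ _ F wi (pvnq9_ag _ (cfSites ω) Y₂ σ)).2 (h2 σ _ F)⟩

/-- (S3) in the words of the upper probability of the hub -/
theorem pvnq9_up (h : ∀ᵐ ω ∂pvP ε, pvnq9Sq 𝔓 𝔈 m ε π (cfSites ω)) : (pvhbUp ε).P {p | ¬ pvnq9Sq 𝔓 𝔈 m ε π (pvxY (pvMerge p))} = 0 :=
  le_antisymm ((pvhb_up_P_conf ε {η | ¬ pvnq9Sq 𝔓 𝔈 m ε π (cfSites η)}).trans (le_of_eq (ae_iff.1 h))) zero_le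

end lines

/-! ## 5. at the binders of record -/

section rec

variable {c : ℝ} {N : PvxNums} {hN : N.Ok} {𝔈 : PvieEng (pvxTau N)} {m : ℕ} {x : ℂ} {R₀ : ℝ} {π : PvxIx (pvxTau N)}

/-- **(S3) AT THE BINDERS OF RECORD**, EVERY mesh -/
theorem pvnq9_ae_rec (c0 : 0 < c) (hE : PvnaWf (pvxParOf N hN c) 𝔈) (hR : PvnaRec N hN c 𝔈) (hm : (pvxParOf N hN c).m0 ≤ m) (hπ : π ∈ pvxPatSet (pvxParOf N hN c) x R₀ m) (ε : ℝ) :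
    ∀ᵐ ω ∂pvP ε, pvnq9Sq (pvxParOf N hN c) 𝔈 m ε π (cfSites ω) := by
  have hs := pvjh_pr_simple c0 hE hR hm hπ ε
  have hc := pvjh_pr_clear c0 hE hR hm hπ ε
  obtain ⟨Cth, r, κs, H⟩ := hE.wf
  have hdo : ((pvxParOf N hN c).Γ m).dout π.p.tt ≠ 0 := fun h => by
    have := ((pvxParOf N hN c).Γ m).dout1 π.p.tt
    rw [h, norm_zero] at this
    exact zero_ne_one this
  have hdi : ((pvxParOf N hN c).Γ m).din π.p.ts ≠ 0 := fun h => by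
    have h1 := pvt_norm_dir (((pvxParOf N hN c).Γ m).dout π.p.tt) π.p.l
    rw [hπ.1.1.2, h, norm_zero, ((pvxParOf N hN c).Γ m).dout1] at h1
    exact zero_ne_one h1
  obtain ⟨nb, rfl⟩ := hR
  have mO : MeasurableSet ((pvnaEngRec N hN c nb).kit m ε).O₀ := by
    rw [pvnr_kit_O]
    exact pvzi2_sim _ _ pvkgg_ze.mO
  exact pvnq9_ae (pvbd_rec N hN c nb) (H.m_oM _ _) (H.m_oK _ _) (H.m_iM _ _) (H.m_iK _ _) mO hdo hdi (pvn1y_win_o hs fun S hS => (hc S hS).1) (pvn1y_win_i hs fun S hS => (hc S hS).2)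

/-- **(S3) AT THE BINDERS OF RECORD**, upper probability, EVERY mesh      (= the second line owed by a clause of the slot `pvn1aGn`) -/
theorem pvnq9_up_rec (c0 : 0 < c) (hE : PvnaWf (pvxParOf N hN c) 𝔈) (hR : PvnaRec N hN c 𝔈) (hm : (pvxParOf N hN c).m0 ≤ m) (hπ : π ∈ pvxPatSet (pvxParOf N hN c) x R₀ m) (ε : ℝ) :
    (pvhbUp ε).P {p | ¬ pvnq9Sq (pvxParOf N hN c) 𝔈 m ε π (pvxY (pvMerge p))} = 0 :=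
  pvnq9_up (pvnq9_ae_rec c0 hE hR hm hπ ε)

end rec

end Claimed.Agent.R289
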