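-- KEEP
import Claimed.Agent.R289.Exit.N1StabC
import Claimed.Agent.R289.Exit.N1GenA
import Claimed.Agent.R289.Exit.N1XE
import Claimed.Agent.R289.Tr.FrcDoor

/-!
# Row 289 (S0537), THE WALL, ROAD E, file Exit/N1StabG : THE DETERMINISTIC DEBTS `Pvn1zGc` OF (S1) ARE PAID      (helper107; prefix `pvn1z_` continued)

* `pvn1z_gc`       one `ε`: `Pvn1zGc 𝔓 𝔈 m π ε` from [`𝔓.Wf`, `PvnaWf`, `𝔓.m0 ≤ m`, `π ∈ pvxPatSet`, types, `b h ≤ pviwRad`, `0 < ρ₃`, `kit.WF`, `PvieSimple`, clearance of 148].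
* **`pvn1z_gc_rec`**   AT THE OBJECTS OF RECORD `pvxParOf N hN c`, `pvnaEngRec N hN c nb`, `0 < c`, `N.m0 ≤ m`, `π ∈ pvxPatSet`: `∀ᶠ ε in 𝓝[>] 0, Pvn1zGc ..`      (184 `Exit/N1XE`: `pvnxe_simple`, `pvnxe_clear`; 121 `Exit/N1GenA`: win; 101: `pvn1y_kit_wf`).
* **`pvn1z_stab_rec`** = (S1) AT THE GUARD (c), AT THE OBJECTS OF RECORD, NO HYPOTHESIS LEFT.
-/

set_option autoImplicit false
set_option linter.unusedVariables false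
set_option linter.unusedSectionVars false

namespace Claimed.Agent.R289

open MeasureTheory Filter Topology Set Claims.C0465
open scoped ENNReal ComplexConjugate

section abs

variable {τ : Type} {c : ℝ} {𝔓 : PvxPar τ c} {𝔈 : PvieEng τ} {m : ℕ} {ε : ℝ} {π : PvxIx τ} {x : ℂ} {R : ℝ}

/-- the clearance of 148, tile by tile, in the words of `pvilWz` -/
theorem pvn1z_clr {z : ℂ} {t : τ} {Z Z' : Set (ℤ × ℤ)} {p : PvtsPat τ} (hZ : Z ⊆ Z')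
    (hc : ∀ S ∈ pvieTiles 𝔓 𝔈 m ε p, Disjoint S (pvieSh z (pviwBox 𝔓 m t) ∩ pvtU (pvlmDel c m) (pvtN8 Z'))) : Disjoint (pvieCc 𝔓 𝔈 m ε p) (pvilWz 𝔓 m z t Z) := by
  rw [Set.disjoint_left]
  rintro w ⟨S, hS, hw⟩ ⟨h1, h2⟩
  refine Set.disjoint_left.1 (hc S hS) hw ⟨?_, pvt_U_mono (pvt_N8_mono hZ) h1⟩
  rw [← pvza_Bx_eq]
  exact h2

/-- **THE DETERMINISTIC DEBTS OF (S1)**, one `ε` -/
theorem pvn1z_gc (hW : 𝔓.Wf) (hE : PvnaWf 𝔓 𝔈) (hm : 𝔓.m0 ≤ m) (hπ : π ∈ pvxPatSet 𝔓 x R m) (hTt : pviwTyOk 𝔓 π.p.tt) (hTs : pviwTyOk 𝔓 π.p.ts)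
    (bt : (𝔓.ty π.p.tt).b * pvlmH m ≤ pviwRad 𝔓 m π.p.tt) (bs : (𝔓.ty π.p.ts).b * pvlmH m ≤ pviwRad 𝔓 m π.p.ts) (hρ : 0 < 𝔓.num.rho3) (hk : (𝔈.kit m ε).WF)
    (hs : PvieSimple 𝔓 𝔈 m ε π.p)
    (hc : ∀ S ∈ pvieTiles 𝔓 𝔈 m ε π.p, Disjoint S (pvieSh π.p.zt (pviwBox 𝔓 m π.p.tt) ∩ pvtU (pvlmDel c m) (pvtN8 (↑π.Zs ∪ ↑π.Zt))) ∧
      Disjoint S (pvieSh π.p.zs (pviwBox 𝔓 m π.p.ts) ∩ pvtU (pvlmDel c m) (pvtN8 (↑π.Zs ∪ ↑π.Zt)))) : Pvn1zGc 𝔓 𝔈 m π ε := by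
  obtain ⟨Cth, r', κs, H⟩ := hE.wf
  have hok : (𝔓.Γ m).Ok π.p := hπ.1.1
  have do1 : ‖(𝔓.Γ m).dout π.p.tt‖ = 1 := (𝔓.Γ m).dout1 _
  have di1 : ‖(𝔓.Γ m).din π.p.ts‖ = 1 := by rw [← hok.2, pvt_norm_dir, (𝔓.Γ m).dout1]
  have do0 : (𝔓.Γ m).dout π.p.tt ≠ 0 := fun h => by rw [h, norm_zero] at do1; exact zero_ne_one do1
  have di0 : (𝔓.Γ m).din π.p.ts ≠ 0 := fun h => by rw [h, norm_zero] at di1; exact zero_ne_one di1
  have od := H.o_disj m hm ε π.p.tt hTt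
  have id := H.i_disj m hm ε π.p.ts hTs
  simp only [List.pairwise_cons, List.mem_cons, List.not_mem_nil, or_false, forall_eq_or_imp, forall_eq, IsEmpty.forall_iff, implies_true, List.Pairwise.nil, and_true] at od id
  exact
    { wf := ⟨Cth, r', κs, H⟩
      lev := hm
      kit := hk
      do1 := do1
      di1 := di1
      tyt := hTt
      tys := hTs
      bt := bt
      bs := bs
      rho := hρ
      mWo := pvzi2_mWno H hk.mO _ _ _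
      mWi := pvzi2_mWni H hk.mO _ _ _
      mKo := pvzi2_sh _ (H.m_oK _ _)
      mKi := pvzi2_sh _ (H.m_iK _ _)
      mDo := pvzi2_door 𝔈 hk.mO _ _
      mDi := pvzi2_door 𝔈 hk.mO _ _
      subo := union_subset pvn1h_oK_sub (pvn1h_Do_sub hok)
      subi := union_subset pvn1h_iK_sub pvn1h_Di_sub
      clro := pvn1z_clr subset_union_right fun S hS => (hc S hS).1
      clri := pvn1z_clr subset_union_left fun S hS => (hc S hS).2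
      wino := pvn1h_win_o hok hs fun S hS => (hc S hS).1
      wini := pvn1h_win_i hs fun S hS => (hc S hS).2
      yo := by
        rw [pvdp_Do_sh]
        exact (pvza_sh_disj od.1.1 _).union_right (pvza_sh_disj od.1.2 _)
      yi := by
        rw [pvdp_Di_sh]
        exact (pvza_sh_disj id.1.1 _).union_right (pvza_sh_disj id.1.2 _) }

end abs

/-! ## AT THE OBJECTS OF RECORD -/

section rec

variable {N : PvxNums} (hN : N.Ok) {c : ℝ} (nb : PvnaNb N)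

theorem pvn1z_rec_hb (c : ℝ) (m : ℕ) (t : pvxTau N) : ((pvxParOf N hN c).ty t).b * pvlmH m ≤ pviwRad (pvxParOf N hN c) m t := by
  have hh := pvlm_H_pos m
  have h1 : ((pvxParOf N hN c).ty t).b ≤ 2 * ((pvxParOf N hN c).ty t).b2 := by
    show N.b1 ≤ 2 * N.b2
    linarith [hN.gap, hN.ab2, hN.rho_lt_one, hN.b2_pos, hN.rho0]
  have hk : 0 ≤ (((pvxParOf N hN c).ty t).k : ℝ) * (pvxParOf N hN c).num.rho1 := mul_nonneg (Nat.cast_nonneg _) hN.rho1_pos.le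
  unfold pviwRad pvwRad
  nlinarith

/-- **`Pvn1zGc` AT THE OBJECTS OF RECORD**, small `ε` -/
theorem pvn1z_gc_rec (c0 : 0 < c) {m : ℕ} (hm : N.m0 ≤ m) {x : ℂ} {R₀ : ℝ} {π : PvxIx (pvxTau N)} (hπ : π ∈ pvxPatSet (pvxParOf N hN c) x R₀ m) :
    ∀ᶠ ε in 𝓝[>] (0 : ℝ), Pvn1zGc (pvxParOf N hN c) (pvnaEngRec N hN c nb) m π ε := by
  filter_upwards [pvn1y_kit_wf (pvnr_wf hN c0 nb) m] with ε hk
  exact pvn1z_gc (pvxo_wf N hN c) (pvnr_wf hN c0 nb) hm hπ (pvnxe_ty hN c _) (pvnxe_ty hN c _) (pvn1z_rec_hb hN c m _) (pvn1z_rec_hb hN c m _) hN.msk0 hk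
    (pvnxe_simple hN nb c0 hm ε hπ) (pvnxe_clear hN nb c0 hm ε hπ)

/-- **(S1) AT THE GUARD (c), AT THE OBJECTS OF RECORD** -/
theorem pvn1z_stab_rec (c0 : 0 < c) {m : ℕ} (hm : N.m0 ≤ m) {x : ℂ} {R₀ : ℝ} {π : PvxIx (pvxTau N)} (hπ : π ∈ pvxPatSet (pvxParOf N hN c) x R₀ m) (qf : ℝ≥0∞) :
    ∀ᶠ ε in 𝓝[>] (0 : ℝ), ∀ (Y : Set ℂ) (𝔇 : PvwDat (delbPl Y).toMap) (σ σ' : ↥Y → Bool), DelGood Y →
      𝔇.Ok Subtype.val (pvxParOf N hN c).num (pvlmH m) ((pvxParOf N hN c).reg m π) → σ ∈ 𝔇.Cyl → (∀ v ∈ 𝔇.fzY, σ' v = σ v) →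
      pvn1aCf Y σ ∈ pvn1zSc (pvxParOf N hN c) (pvnaEngRec N hN c nb) m π ε qf → pvn1aCf Y σ' ∈ pvn1zSc (pvxParOf N hN c) (pvnaEngRec N hN c nb) m π ε qf := by
  filter_upwards [pvn1z_gc_rec hN nb c0 hm hπ] with ε hg Y 𝔇 σ σ' hY hOk hc hs hS
  exact pvn1z_stab_c (pvxo_wf N hN c) hπ.1.2.2.2.2.2.1 hg qf hY hOk hc hs hS

end rec

end Claimed.Agent.R289
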