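import Claimed.Agent.R289.Tr.KitN1
import Claimed.Agent.R289.Tr.Rd
import Claimed.Agent.R289.Exit.N1K

/-!
# Row 289 (S0537), THE WALL, ROAD E, file Exit/N1TP : (POCKET-DET) AT THE KIT v2: THE CLASS `YF` BY THE GEOMETRY OF `Y` ALONE      (helper29; prefix `pvn1u_`)

(the two-map induction along the run = `Tr/PocketD` of 120.)      HERE: the shell hypothesis `hSh` of 158 (a kept site of the room near the boundary of the window has no shared star), model free half.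
* `pvn1u_yf_tail`, `pvn1u_yf_touch`, `pvn1u_yf_ap`, `pvn1u_yf_am` : the three seeds of `YF`, closure under adjacency inside `YK`
* `pvn1u_far_pt` : a point of the Voronoi cell of a site which is FAR from `C` is more than `r` away from `C` (collar mesh; `pvge_no_bridge`);   `pvn1u_far_near` : with the mesh off `C` (`Pvn1kMesh` of 170) it is within `r` of its site
* **`pvn1u_line`** : `S` preconnected in the patch, its `r`-neighbourhood over `Yin` and off the frozen sites of `D_Y`, one point of `S` within `r` of `C`   ⟹   every site of `Y` whose cell meets `S` (in particular every site ON `S`) is over `Ycol`, or not far from `C`, or in `YF`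
* `pvn1u_line_col` : the same when `S` ends at a point of the `r`-core of `Ycol` instead.      0 sorry.
-/

set_option autoImplicit false
set_option linter.unusedVariables false
set_option linter.unusedSectionVars false

namespace Claimed.Agent.R289

open Relation Set Metric

section free

variable {V D : Type} {T : PvMap V D} {pos : V → ℂ} {K : Set ℂ} {𝔇 : PvwDat T} {π : PvwPat}

/-- `YF` is closed under adjacency inside `YK` -/
theorem pvn1u_yf_tail {u v : V} (hu : u ∈ 𝔇.YF pos π K) (huv : T.Adj u v) (hv : v ∈ 𝔇.YK pos π K) : v ∈ 𝔇.YF pos π K := by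
  obtain ⟨a, ha, hc⟩ := hu
  obtain ⟨d, -, -⟩ := id huv
  exact ⟨a, ha, pvkn_comp_tail d hc huv hv⟩

/-- a site of `YK` which touches the collar is in `YF` -/
theorem pvn1u_yf_touch {v w : V} (hv : v ∈ 𝔇.YK pos π K) (hw : pos w ∈ π.Ycol ∨ pos w ∉ K) (hvw : T.Adj v w) : v ∈ 𝔇.YF pos π K := by
  obtain ⟨d, -, -⟩ := id hvw
  exact ⟨v, Or.inr (Or.inr ⟨w, hw, hvw⟩), pvkn_comp_self d hv⟩

/-- the tip apex of `Σ⁺(t)`, if it is in `YK`, is in `YF` -/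
theorem pvn1u_yf_ap (hv : 𝔇.t.ap ∈ 𝔇.YK pos π K) : 𝔇.t.ap ∈ 𝔇.YF pos π K := ⟨_, Or.inl rfl, pvkn_comp_self 𝔇.t.dp hv⟩

/-- the tip apex of `Σ⁻(s)` -/
theorem pvn1u_yf_am (hv : 𝔇.s.am ∈ 𝔇.YK pos π K) : 𝔇.s.am ∈ 𝔇.YF pos π K := ⟨_, Or.inr (Or.inl rfl), pvkn_comp_self 𝔇.t.dp hv⟩

end free

section geo

variable {Y C S : Set ℂ} {r R : ℝ} {x : ℂ}

/-- a point of the cell of a far site is more than `r` away from `C` -/
theorem pvn1u_far_pt (hr : 0 < r) (hd : VorDense Y (pvgeCollar C r) r) {a z : ℂ} (ha : a ∈ pvgeFar C r) (hz : z ∈ vorCell Y a) : r < infDist z C := by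
  have ha' : 3 * r ≤ infDist a C := ha
  rcases C.eq_empty_or_nonempty with rfl | hne
  · rw [infDist_empty] at ha'
    linarith
  have hdis := pvge_no_bridge hr hd ha hz
  have h1 : ‖z - a‖ ≤ infDist z C := by
    refine (le_infDist hne).2 fun c hc => ?_
    by_contra hlt
    exact disjoint_left.1 hdis (mem_closedBall.2 (by rw [dist_comm]; exact (not_le.1 hlt).le)) hc
  have h2 : infDist a C ≤ infDist z C + dist a z := infDist_le_infDist_add_dist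
  rw [dist_eq_norm, norm_sub_rev] at h2
  linarith

/-- with the mesh off `C`, it is within `r` of its site -/
theorem pvn1u_far_near (hr : 0 < r) (hd : VorDense Y (pvgeCollar C r) r) (hm : VorDense Y (pvn1kOff x R C r) r) {a z : ℂ} (ha : a ∈ pvgeFar C r) (hz : z ∈ vorCell Y a) (hx : ‖z - x‖ ≤ 7 * R) :
    ‖z - a‖ ≤ r := by
  obtain ⟨w, hw, hle⟩ := hm z ⟨hx, pvn1u_far_pt hr hd ha hz⟩
  exact (hz w hw).trans hle

variable {𝔇 : PvwDat (delbPl Y).toMap} {π : PvwPat}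

/-- the invariant of the chain -/
theorem pvn1u_chain (hY : DelGood Y) (hr : 0 < r) (hd : VorDense Y (pvgeCollar C r) r) (hm : VorDense Y (pvn1kOff x R C r) r) (h7 : ∀ z ∈ S, ‖z - x‖ ≤ 7 * R)
    (hS : ∀ z ∈ S, ∀ w : ↥Y, ‖(w : ℂ) - z‖ ≤ r → (w : ℂ) ∈ π.Yin ∧ w ∉ 𝔇.fzY) {b v : ℂ} (hb : b ∈ π.Ycol ∨ b ∉ pvgeFar C r) (hch : PvgeCh Y (vorMeet Y S) b v) :
    v ∈ π.Ycol ∨ v ∉ pvgeFar C r ∨ ∃ hv : v ∈ Y, (⟨v, hv⟩ : ↥Y) ∈ 𝔇.YF Subtype.val π (pvgeFar C r) := by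
  induction hch with
  | refl => exact hb.elim Or.inl fun h => Or.inr (Or.inl h)
  | @tail u u' _ hstep ih =>
    obtain ⟨hadj, hu'Y, z, hz, hzS⟩ := hstep
    by_cases c1 : u' ∈ π.Ycol
    · exact Or.inl c1
    by_cases c2 : u' ∈ pvgeFar C r
    swap
    · exact Or.inr (Or.inl c2)
    refine Or.inr (Or.inr ⟨hu'Y, ?_⟩)
    have hn : ‖u' - z‖ ≤ r := by rw [norm_sub_rev]; exact pvn1u_far_near hr hd hm c2 hz (h7 z hzS)
    obtain ⟨k1, k2⟩ := hS z hzS ⟨u', hu'Y⟩ hn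
    have hYK : (⟨u', hu'Y⟩ : ↥Y) ∈ 𝔇.YK Subtype.val π (pvgeFar C r) := ⟨⟨⟨k2, k1⟩, c1⟩, c2⟩
    have hA : (delbPl Y).toMap.Adj (⟨u, hadj.1⟩ : ↥Y) ⟨u', hu'Y⟩ := (pvrd_adj hY).2 hadj
    rcases ih with h | h | ⟨hu, h⟩
    · exact pvn1u_yf_touch hYK (w := ⟨u, hadj.1⟩) (Or.inl h) ((delbPl Y).toMap.adj_symm hA)
    · exact pvn1u_yf_touch hYK (w := ⟨u, hadj.1⟩) (Or.inr h) ((delbPl Y).toMap.adj_symm hA)
    · exact pvn1u_yf_tail h hA hYK

/-- **`YF` BY THE GEOMETRY OF `Y` ALONE**: a preconnected set `S` of the patch, its `r`-neighbourhood over `Yin` and off the frozen sites of `D_Y`, one point of `S` within `r` of `C` -/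
theorem pvn1u_line (hY : DelGood Y) (hne : Y.Nonempty) (hr : 0 < r) (hd : VorDense Y (pvgeCollar C r) r) (hm : VorDense Y (pvn1kOff x R C r) r) (hSc : IsPreconnected S) (h7 : ∀ z ∈ S, ‖z - x‖ ≤ 7 * R)
    (hS : ∀ z ∈ S, ∀ w : ↥Y, ‖(w : ℂ) - z‖ ≤ r → (w : ℂ) ∈ π.Yin ∧ w ∉ 𝔇.fzY) {p : ℂ} (hp : p ∈ S) (hpC : infDist p C ≤ r) {v : ℂ} (hv : v ∈ vorMeet Y S) :
    v ∈ π.Ycol ∨ v ∉ pvgeFar C r ∨ ∃ hv : v ∈ Y, (⟨v, hv⟩ : ↥Y) ∈ 𝔇.YF Subtype.val π (pvgeFar C r) := by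
  obtain ⟨b, hbY, hb⟩ := vor_cover hY.lf hne p
  have hbf : b ∉ pvgeFar C r := fun hf => absurd (pvn1u_far_pt hr hd hf hb) (not_lt.2 hpC)
  exact pvn1u_chain hY hr hd hm h7 hS (Or.inr hbf) (pvge_conn hY.lf hSc ⟨hbY, p, hb, hp⟩ hv)

/-- the same for a site ON `S` -/
theorem pvn1u_line_site (hY : DelGood Y) (hr : 0 < r) (hd : VorDense Y (pvgeCollar C r) r) (hm : VorDense Y (pvn1kOff x R C r) r) (hSc : IsPreconnected S) (h7 : ∀ z ∈ S, ‖z - x‖ ≤ 7 * R)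
    (hS : ∀ z ∈ S, ∀ w : ↥Y, ‖(w : ℂ) - z‖ ≤ r → (w : ℂ) ∈ π.Yin ∧ w ∉ 𝔇.fzY) {p : ℂ} (hp : p ∈ S) (hpC : infDist p C ≤ r) (v : ↥Y) (hv : (v : ℂ) ∈ S) :
    (v : ℂ) ∈ π.Ycol ∨ (v : ℂ) ∉ pvgeFar C r ∨ v ∈ 𝔇.YF Subtype.val π (pvgeFar C r) := by
  rcases pvn1u_line hY ⟨v, v.2⟩ hr hd hm hSc h7 hS hp hpC (pvge_site_meet v.2 hv) with h | h | ⟨_, h⟩
  · exact Or.inl h
  · exact Or.inr (Or.inl h)
  · exact Or.inr (Or.inr h)

/-- the same when `S` ends at a point of the `r`-core of `Ycol` -/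
theorem pvn1u_line_col (hY : DelGood Y) (hr : 0 < r) (hd : VorDense Y (pvgeCollar C r) r) (hm : VorDense Y (pvn1kOff x R C r) r) (hSc : IsPreconnected S) (h7 : ∀ z ∈ S, ‖z - x‖ ≤ 7 * R)
    (hS : ∀ z ∈ S, ∀ w : ↥Y, ‖(w : ℂ) - z‖ ≤ r → (w : ℂ) ∈ π.Yin ∧ w ∉ 𝔇.fzY) {p : ℂ} (hp : p ∈ S) (hpC : ∀ w, ‖p - w‖ ≤ r → w ∈ π.Ycol) (v : ↥Y) (hv : (v : ℂ) ∈ S) :
    (v : ℂ) ∈ π.Ycol ∨ (v : ℂ) ∉ pvgeFar C r ∨ v ∈ 𝔇.YF Subtype.val π (pvgeFar C r) := by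
  obtain ⟨b, hbY, hb⟩ := vor_cover hY.lf ⟨v, v.2⟩ p
  have hbc : b ∈ π.Ycol ∨ b ∉ pvgeFar C r := by
    by_cases hf : b ∈ pvgeFar C r
    · exact Or.inl (hpC b (pvn1u_far_near hr hd hm hf hb (h7 p hp)))
    · exact Or.inr hf
  rcases pvn1u_chain hY hr hd hm h7 hS hbc (pvge_conn hY.lf hSc ⟨hbY, p, hb, hp⟩ (pvge_site_meet v.2 hv)) with h | h | ⟨_, h⟩
  · exact Or.inl h
  · exact Or.inr (Or.inl h)
  · exact Or.inr (Or.inr h)

end geo

end Claimed.Agent.R289
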