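-- KEEP
import Claimed.Agent.R289.Exit.N1Guard
import Claimed.Agent.R289.Exit.N1StabC
import Claimed.Agent.R289.Exit.N1Gc
import Claimed.Agent.R289.Exit.N1RdC
import Claimed.Agent.R289.Exit.N1Sq
import Claimed.Agent.R289.Exit.N1GenA
import Claimed.Agent.R289.Exit.N1XA
import Claimed.Agent.R289.Exit.N1YZ
import Claimed.Agent.R289.Exit.N1Junk
import Claimed.Agent.R289.Exit.N1XD
import Claimed.Agent.R289.Exit.GdRec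
import Claimed.Agent.R289.Tr.PatWinR
import Claimed.Agent.R289.Tr.AtUniq

/-!
# Row 289 (S0537), THE WALL, ROAD E, file Exit/N1Top : `exit_pvie_in` = THE TOP GLUE OF `in` AT THE GUARD (c), FROM THE PIECES AT THE RECORD      (helper37, post T25 of 24; prefix `pvn1o_`, `pvn1o`)

DOES NOT IMPORT `Exit/N1All`, `Exit/N1AllD`, `Exit/N1Lv` (one editor = 170): anybody may cite this file from there.
`pvn1o_in` = the statement of `exit_pvie_in` (`Exit/Ana.lean` (4)) VERBATIM.      NOTHING IS SORRIED HERE: the only debts are the two sub-exits `exit_pvyy_in`, `exit_pvyy_chain` of 12 (`Exit/N1YZ`).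
THE OBJECTS, for one pattern `π ∈ pvxPatSet 𝔓 x R m`, `𝔓 := pvxParOf N hN c`:
* junk splits FIRST: `pvnxd_dich` (60: `PvnxdReal .. (δ_m / 3)`), `pvjx_split_at` (209: `PvjxGood`)
* kits (layers 0, 1) `pvnxaKsT 𝔓 𝔈 x R m π q` of 60 (`r = δ_m / 60`; layer 1 = `g5`, mesh off `C`, NO TUNNEL of 27);   mesh `μ := δ_m / 4`
* guard (layer 2) `pvn1zSc 𝔓 𝔈 m π ε qf` of 107 = body of `pvyyS` of 12 = guard (c) of 170 (`pvrgFo`, `pvrgFi`, the two hulls, `pvyk1Gd` of 214)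
* free good event `pvn1oGam` := usable ⟹ good at the two candidates (159)  ∧  `pvn1zGen` at the sites (107 121)  ∧  `pvnq9Sq` of 161 (second moments, a property of the sites)  ∧  `pvnxaGm` of 60 (mesh `r` of `closedBall x (7R)`)
(X) := `pvnxa_X_T` (60)   (S1) := `pvn1z_stab_c` (107) + `pvn1gc_rec` (87)   (S2) := `pvn1v_rd_kit` (237 101) + `pvjh_pr_simple _clear` (180)   (S3) := `pvn1o_fit` (hulls of 242, `pvnq9_use` of 161)   (Y) := `pvyz_exit_recT` (12)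
**`pvn1o_S_of`** = the (S) side for an ABSTRACT free good event `Γs` (three accessors);   **`pvn1o_S`** = the same at `pvn1oGam`.
-/

set_option autoImplicit false

namespace Claimed.Agent.R289

open MeasureTheory Filter Topology Set Claims.C0465
open scoped ENNReal

section defs

variable {τ : Type} {c : ℝ} (𝔓 : PvxPar τ c) (𝔈 : PvieEng τ) (𝔊 : PvnaGd τ) (x : ℂ) (R : ℝ) (m : ℕ) (π : PvxIx τ)

/-- what (S3) reads in a free good event -/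
def pvn1oAc (ε : ℝ) (ω : PVSample) : Prop :=
  (ω ∈ pvxU 𝔓 m π.p.zt π.p.tt → ω ∈ 𝔊.all m ε π.p.zt π.p.tt) ∧ (ω ∈ pvxU 𝔓 m π.p.zs π.p.ts → ω ∈ 𝔊.all m ε π.p.zs π.p.ts) ∧
  pvn1zGen 𝔓 𝔈 m ε π (pvxY ω) ∧ pvnq9Sq 𝔓 𝔈 m ε π (pvxY ω)

/-- **THE FREE GOOD EVENT AT THE GUARD (c)** -/
def pvn1oGam (ε : ℝ) (ω : PVSample) : Prop := pvn1oAc 𝔓 𝔈 𝔊 m π ε ω ∧ pvnxaGm x R (pvnxaR c m) ω

end defs

theorem pvn1o_eqns_cite : True := by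
  have := @pvn1oAc.eq_1; have := @pvn1oGam.eq_1
  trivial

section gen

variable {τ : Type} {c : ℝ} {𝔓 : PvxPar τ c} {𝔈 : PvieEng τ} {𝔊 : PvnaGd τ} {x : ℂ} {R : ℝ} {m : ℕ} {π : PvxIx τ}

/-! ## 1. the hulls of a fit (242 150, copied from `Exit/N1All` so that this file stays below it) -/

theorem pvn1o_pin_pos (𝔓 : PvxPar τ c) (m : ℕ) (z : ℂ) (t : τ) (η : Conf PvPt) : (pvilPin 𝔓 m z t).pos η = Subtype.val := by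
  funext v
  simp [PvilPl.pos, pvilPin, PviePl.std, pviePos]

theorem pvn1o_pin_zf (𝔓 : PvxPar τ c) (m : ℕ) (z : ℂ) (t : τ) : (pvilPin 𝔓 m z t).zf = z := by
  simp [PvilPl.zf, pvilPin, PviePl.std, PvxPar.pl]

theorem pvn1o_out_of_at {ω : PVSample} {z : ℂ} {t : τ} {𝔖 : PvwSt (pvxT ω)} (h : PvxAt 𝔓 m ω z t 𝔖) :
    PvilOut 𝔓.num (𝔓.col t) (pvilPin 𝔓 m z t) (pvConf ω) 𝔖 where
  good := h.good
  st := by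
    rw [pvn1o_pin_pos, pvn1o_pin_zf]
    exact h.st.out
  tip := h.tip_p
  mask := h.mask_p
  mask_i := h.inn_p
  lev0 := h.lev0

theorem pvn1o_in_of_at {ω : PVSample} {z : ℂ} {t : τ} {𝔖 : PvwSt (pvxT ω)} (h : PvxAt 𝔓 m ω z t 𝔖) :
    PvilIn 𝔓.num (𝔓.col t) (pvilPin 𝔓 m z t) (pvConf ω) 𝔖 where
  good := h.good
  st := by
    rw [pvn1o_pin_pos, pvn1o_pin_zf]
    exact h.st.inn
  tip := h.tip_m
  mask := h.mask_m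
  mask_i := h.inn_m
  lev0 := h.lev0

theorem pvn1o_Zo_eq {ω : PVSample} {z : ℂ} {t : τ} {𝔖 : PvwSt (pvxT ω)} (h : PvxAt 𝔓 m ω z t 𝔖) :
    pvilZo 𝔓 m z t (pvConf ω) = pvxHull (pvlmDel c m) 𝔖.fzOut ((𝔓.ty t).cp (pvlmH m) z) (𝔓.num.rho * pvlmH m) := by
  ext q
  constructor
  · rintro ⟨𝔖', h', hq⟩
    have h1 := h'.st
    rw [pvn1o_pin_pos, pvn1o_pin_zf] at h1
    obtain ⟨e1, e2⟩ := pvuq_del_out h.good h1 h.st.out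
    have e : 𝔖'.fzOut = 𝔖.fzOut := e1.fzOut e2
    rw [e] at hq
    exact hq
  · intro hq
    exact ⟨𝔖, pvn1o_out_of_at h, hq⟩

theorem pvn1o_Zi_eq {ω : PVSample} {z : ℂ} {t : τ} {𝔖 : PvwSt (pvxT ω)} (h : PvxAt 𝔓 m ω z t 𝔖) :
    pvilZi 𝔓 m z t (pvConf ω) = pvxHull (pvlmDel c m) 𝔖.fzIn ((𝔓.ty t).cm (pvlmH m) z) (𝔓.num.rho * pvlmH m) := by
  ext q
  constructor
  · rintro ⟨𝔖', h', hq⟩
    have h1 := h'.st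
    rw [pvn1o_pin_pos, pvn1o_pin_zf] at h1
    obtain ⟨e1, e2⟩ := pvuq_del_in h.good h1 h.st.inn
    have e : 𝔖'.fzIn = 𝔖.fzIn := e1.fzIn e2
    rw [e] at hq
    exact hq
  · intro hq
    exact ⟨𝔖, pvn1o_in_of_at h, hq⟩

/-- on a fit the hulls of the two half states are those of the index -/
theorem pvn1o_hull {ω : PVSample} {P : PvbRim} {s t : PvbPin τ} (hfit : pvxFit 𝔓 x R m ω P s t π) :
    pvilZo 𝔓 m π.p.zt π.p.tt (pvConf ω) = (π.Zt : Set (ℤ × ℤ)) ∧ pvilZi 𝔓 m π.p.zs π.p.ts (pvConf ω) = (π.Zs : Set (ℤ × ℤ)) := by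
  obtain ⟨-, -, -, -, 𝔇, j, -, -, hs, ht, -, -, -, eZs, eZt⟩ := hfit
  exact ⟨(pvn1o_Zo_eq ht).trans eZt.symm, (pvn1o_Zi_eq hs).trans eZs.symm⟩

/-! ## 2. (S3), the good part, the bad event -/

theorem pvn1o_fl_fl (b : Bool) (ζ : Conf PvPt) : pvxnFl b (pvxnFl b ζ) = ζ := pvky_fl_fl b ζ

/-- **(S3)** on a good sample a fit puts the configuration into the guard (c) -/
theorem pvn1o_fit (hm : 𝔓.m0 ≤ m) {qf : ℕ → ℝ≥0∞}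
    (hf : ∀ m, 𝔓.m0 ≤ m → ∀ (ε : ℝ) (z : ℂ) (t : τ), 𝔊.O m ε z t ⊆ pvrgFo 𝔓 𝔈 (qf m) m ε z t ∧ 𝔊.I m ε z t ⊆ pvrgFi 𝔓 𝔈 (qf m) m ε z t) {ε : ℝ} {ω : PVSample}
    (hg : PvqfGood (pvConf ω)) (hΓ : pvn1oAc 𝔓 𝔈 𝔊 m π ε ω) {P : PvbRim} {s t : PvbPin τ} (hfit : pvxFit 𝔓 x R m ω P s t π) :
    pvxnFl (𝔓.col π.p.ts) (pvConf ω) ∈ pvn1zSc 𝔓 𝔈 m π ε (qf m) := by
  obtain ⟨h1, h2⟩ := pvn1o_hull hfit
  have hs : ω ∈ 𝔊.all m ε π.p.zs π.p.ts := hΓ.2.1 (by have := hfit.2.2.1; rwa [hfit.1.1, hfit.1.2] at this)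
  have ht : ω ∈ 𝔊.all m ε π.p.zt π.p.tt := hΓ.1 (by have := hfit.2.2.2.1; rwa [hfit.2.1.1, hfit.2.1.2] at this)
  obtain ⟨b1, b2⟩ := pvnq9_use hg.one hΓ.2.2.2 h1 h2
  show _ ∧ _ ∧ _ ∧ _ ∧ _
  rw [pvn1o_fl_fl]
  exact ⟨(hf m hm ε _ _).1 ht.1.1, (hf m hm ε _ _).2 hs.1.2, h1, h2, ⟨b1, b2⟩, (pvn1z_gen_iff 𝔓 𝔈 m π ε (pvConf ω)).2 hΓ.2.2.1⟩

/-- the line of 159 on the good part, at the good part of record -/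
theorem pvn1o_frc (hGR : PvguRec 𝔓 𝔈 𝔊) :
    ∃ qf : ℕ → ℝ≥0∞, (∀ m, qf m ≠ 0) ∧ ∀ m, 𝔓.m0 ≤ m → ∀ (ε : ℝ) (z : ℂ) (t : τ), 𝔊.O m ε z t ⊆ pvrgFo 𝔓 𝔈 (qf m) m ε z t ∧ 𝔊.I m ε z t ⊆ pvrgFi 𝔓 𝔈 (qf m) m ε z t := by
  obtain ⟨q, qe, qf, hq, -, -, rfl⟩ := hGR
  exact ⟨q, hq, fun m _ ε z t => ⟨fun _ h => pvgu_O_Fo h, fun _ h => pvgu_I_Fi h⟩⟩

/-- the free good event has high probability -/
theorem pvn1o_bad (hB : PvnaBad 𝔓 𝔊 𝔓.m0) (hm : 𝔓.m0 ≤ m) (hπ : π ∈ pvxPatSet 𝔓 x R m)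
    (h1 : ∀ᶠ ε in 𝓝[>] (0 : ℝ), (pvhbUp ε).P {p | ¬ pvn1zGen 𝔓 𝔈 m ε π (pvxY (pvMerge p))} = 0)
    (h2 : ∀ ε, (pvhbUp ε).P {p | ¬ pvnq9Sq 𝔓 𝔈 m ε π (pvxY (pvMerge p))} = 0) :
    Tendsto (fun ε => (pvhbUp ε).P {p | ¬ pvn1oGam 𝔓 𝔈 𝔊 x R m π ε (pvMerge p)}) (𝓝[>] (0 : ℝ)) (𝓝 0) := by
  have h3 := pvnxa_Gm_lim x R (pvnxa_R_pos c m)
  have h4 := (pvna_bad_pat hB hm hπ).add h3
  rw [add_zero] at h4
  refine tendsto_of_tendsto_of_tendsto_of_le_of_le' tendsto_const_nhds h4 (Eventually.of_forall fun _ => zero_le) ?_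
  filter_upwards [h1] with ε h1
  have hsub : {p | ¬ pvn1oGam 𝔓 𝔈 𝔊 x R m π ε (pvMerge p)} ⊆ {p | ¬ pvn1zGen 𝔓 𝔈 m ε π (pvxY (pvMerge p))} ∪ ({p | ¬ pvnq9Sq 𝔓 𝔈 m ε π (pvxY (pvMerge p))} ∪
      ((pvMerge ⁻¹' (pvxU 𝔓 m π.p.zt π.p.tt \ 𝔊.all m ε π.p.zt π.p.tt) ∪ pvMerge ⁻¹' (pvxU 𝔓 m π.p.zs π.p.ts \ 𝔊.all m ε π.p.zs π.p.ts)) ∪ {p | ¬ pvnxaGm x R (pvnxaR c m) (pvMerge p)})) := by
    intro p hp
    by_cases a1 : pvn1zGen 𝔓 𝔈 m ε π (pvxY (pvMerge p))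
    swap
    · exact Or.inl a1
    by_cases a2 : pvnq9Sq 𝔓 𝔈 m ε π (pvxY (pvMerge p))
    swap
    · exact Or.inr (Or.inl a2)
    by_cases a3 : pvnxaGm x R (pvnxaR c m) (pvMerge p)
    swap
    · exact Or.inr (Or.inr (Or.inr a3))
    by_cases a4 : pvMerge p ∈ pvxU 𝔓 m π.p.zt π.p.tt → pvMerge p ∈ 𝔊.all m ε π.p.zt π.p.tt
    swap
    · exact Or.inr (Or.inr (Or.inl (Or.inl (Classical.not_imp.1 a4))))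
    by_cases a5 : pvMerge p ∈ pvxU 𝔓 m π.p.zs π.p.ts → pvMerge p ∈ 𝔊.all m ε π.p.zs π.p.ts
    swap
    · exact Or.inr (Or.inr (Or.inl (Or.inr (Classical.not_imp.1 a5))))
    exact absurd ⟨⟨a4, a5, a1, a2⟩, a3⟩ hp
  refine ((pvhbUp ε).P_mono hsub).trans (((pvhbUp ε).P_union_le _ _).trans ?_)
  rw [h1, zero_add]
  refine ((pvhbUp ε).P_union_le _ _).trans ?_
  rw [h2 ε, zero_add]
  exact (pvhbUp ε).P_union_le _ _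

end gen

section rec

variable {c : ℝ}

/-- **THE GUARD (c) PAYS ITS THREE LINES AT THE RECORD**: ANY free good event `Γs` with the accessor `hΓ`, any `𝔜`, any mesh `μ`, any `q` -/
theorem pvn1o_S_of (c0 : 0 < c) (N : PvxNums) (hN : N.Ok) (𝔈 : PvieEng (pvxTau N)) (hE : PvnaWf (pvxParOf N hN c) 𝔈) (hR : PvnaRec N hN c 𝔈) (𝔊 : PvnaGd (pvxTau N))
    {x : ℂ} {R : ℝ} {m : ℕ} {π : PvxIx (pvxTau N)} (hR0 : 0 < R) (hm : (pvxParOf N hN c).m0 ≤ m) (hπ : π ∈ pvxPatSet (pvxParOf N hN c) x R m) (hgood : PvjxGood (pvxParOf N hN c) m π)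
    {qf : ℕ → ℝ≥0∞} (hf : ∀ m, (pvxParOf N hN c).m0 ≤ m → ∀ (ε : ℝ) (z : ℂ) (t : pvxTau N), 𝔊.O m ε z t ⊆ pvrgFo (pvxParOf N hN c) 𝔈 (qf m) m ε z t ∧ 𝔊.I m ε z t ⊆ pvrgFi (pvxParOf N hN c) 𝔈 (qf m) m ε z t)
    {Γs : ℝ → PVSample → Prop} (hΓ : ∀ᶠ ε in 𝓝[>] (0 : ℝ), ∀ ω, Γs ε ω → pvn1oAc (pvxParOf N hN c) 𝔈 𝔊 m π ε ω) (q : ℝ≥0∞) (𝔜 : PvxnYd) (μ : ℝ) :
    Pvn1aS (pvxParOf N hN c) x R m π 0 𝔜 (pvnxaKsT (pvxParOf N hN c) 𝔈 x R m π q) Γs μ (fun ε => pvn1zSc (pvxParOf N hN c) 𝔈 m π ε (qf m)) where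
  stab := by
    filter_upwards [pvn1gc_rec c0 hE hR hm hπ] with ε hg Y 𝔇 σ σ' hY hOk hc hs _ _ hS
    exact pvn1z_stab_c (pvxo_wf N hN c) hπ.1.2.2.2.2.2.1 hg (qf m) hY hOk hc (fun v hv => hs v (Or.inl (Or.inl hv))) hS
  rd := pvn1v_rd_kit (pvxo_wf N hN c) hE hπ (Eventually.of_forall fun ε => pvnxa_geo_rec c0 hN hR hR0 hm hπ hgood ε) (Eventually.of_forall fun ε => pvjh_pr_simple c0 hE hR hm hπ ε)
    (Eventually.of_forall fun ε => pvjh_pr_clear c0 hE hR hm hπ ε) (qf m) _ (fun _ => rfl) (fun _ => rfl) 0 𝔜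
  fit := hΓ.mono fun ε h ω hω P _ s t hfit => pvn1o_fit hm hf hω.good (h ω hω.ex) hfit

/-- the same at `pvn1oGam` -/
theorem pvn1o_S (c0 : 0 < c) (N : PvxNums) (hN : N.Ok) (𝔈 : PvieEng (pvxTau N)) (hE : PvnaWf (pvxParOf N hN c) 𝔈) (hR : PvnaRec N hN c 𝔈) (𝔊 : PvnaGd (pvxTau N))
    {x : ℂ} {R : ℝ} {m : ℕ} {π : PvxIx (pvxTau N)} (hR0 : 0 < R) (hm : (pvxParOf N hN c).m0 ≤ m) (hπ : π ∈ pvxPatSet (pvxParOf N hN c) x R m) (hgood : PvjxGood (pvxParOf N hN c) m π)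
    {qf : ℕ → ℝ≥0∞} (hf : ∀ m, (pvxParOf N hN c).m0 ≤ m → ∀ (ε : ℝ) (z : ℂ) (t : pvxTau N), 𝔊.O m ε z t ⊆ pvrgFo (pvxParOf N hN c) 𝔈 (qf m) m ε z t ∧ 𝔊.I m ε z t ⊆ pvrgFi (pvxParOf N hN c) 𝔈 (qf m) m ε z t)
    (q : ℝ≥0∞) (𝔜 : PvxnYd) (μ : ℝ) :
    Pvn1aS (pvxParOf N hN c) x R m π 0 𝔜 (pvnxaKsT (pvxParOf N hN c) 𝔈 x R m π q) (pvn1oGam (pvxParOf N hN c) 𝔈 𝔊 x R m π) μ (fun ε => pvn1zSc (pvxParOf N hN c) 𝔈 m π ε (qf m)) :=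
  pvn1o_S_of c0 N hN 𝔈 hE hR 𝔊 hR0 hm hπ hgood hf (Eventually.of_forall fun _ _ h => h.1) q 𝔜 μ

/-- the free good event has high probability, at the record -/
theorem pvn1o_bad_rec (c0 : 0 < c) (N : PvxNums) (hN : N.Ok) (𝔈 : PvieEng (pvxTau N)) (hE : PvnaWf (pvxParOf N hN c) 𝔈) (hR : PvnaRec N hN c 𝔈) (𝔊 : PvnaGd (pvxTau N))
    (hB : PvnaBad (pvxParOf N hN c) 𝔊 (pvxParOf N hN c).m0) {x : ℂ} {R : ℝ} {m : ℕ} {π : PvxIx (pvxTau N)} (hm : (pvxParOf N hN c).m0 ≤ m) (hπ : π ∈ pvxPatSet (pvxParOf N hN c) x R m) :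
    Tendsto (fun ε => (pvhbUp ε).P {p | ¬ pvn1oGam (pvxParOf N hN c) 𝔈 𝔊 x R m π ε (pvMerge p)}) (𝓝[>] (0 : ℝ)) (𝓝 0) :=
  pvn1o_bad hB hm hπ (pvn1h_gen_up_ev (pvxo_wf N hN c) hE hm hπ (pvqh_tyOk hN c) (pvnxa_mC hE hπ)) fun ε => pvnq9_up_rec c0 hE hR hm hπ ε

/-- **(4) N1 = THE STATEMENT OF `exit_pvie_in`** (`Exit/Ana.lean`) VERBATIM -/
theorem pvn1o_in (c0 : 0 < c) (N : PvxNums) (hN : N.Ok) (𝔈 : PvieEng (pvxTau N)) (hE : PvnaWf (pvxParOf N hN c) 𝔈) (hR : PvnaRec N hN c 𝔈)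
    (𝔊 : PvnaGd (pvxTau N)) (hG : 𝔊.Wf (pvxParOf N hN c) 𝔈) (hGR : PvguRec (pvxParOf N hN c) 𝔈 𝔊) :
    PvnaIn (pvxParOf N hN c) (pvnaDatE (pvxParOf N hN c) 𝔈) (pvxParOf N hN c).m0 := by
  intro x R hR0 m hm π hπ
  have hd := pvlm_Del_pos c m
  refine pvnxd_dich hR0 (μ := pvlmDel c m / 3) (by positivity) 0 _ fun hre => ?_
  refine pvjx_split_at hN c0 hm hπ fun hgood => ?_
  obtain ⟨qf, hq0, hf⟩ := pvn1o_frc hGR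
  obtain ⟨q, hq, hX⟩ := pvnxa_X_T c0 hN hE hR hR0 hm hπ hgood
  obtain ⟨𝔜, hY⟩ := pvyz_exit_recT c0 N hN 𝔈 hE hR hR0 hm hπ hgood hre q (hq0 m) (S := fun ε => pvn1zSc (pvxParOf N hN c) 𝔈 m π ε (qf m)) (fun _ => Subset.rfl)
    (pvn1oGam (pvxParOf N hN c) 𝔈 𝔊 x R m π) (pvlmDel c m / 4)
  exact ⟨(pvn1a_ok (pvxo_wf N hN c) hR0 hπ (hX _ (Eventually.of_forall fun ε ω h => h.2) (pvn1o_bad_rec c0 N hN 𝔈 hE hR 𝔊 hG.bad hm hπ) 𝔜)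
    (pvn1o_S c0 N hN 𝔈 hE hR 𝔊 hR0 hm hπ hgood hf q 𝔜 _) hY).toIn⟩

end rec

end Claimed.Agent.R289
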