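import Claimed.Agent.R289.Exit.N1BK
import Claimed.Agent.R289.Exit.N1Guard
import Claimed.Agent.R289.Tr.StabW

/-!
# Row 289 (S0537), THE WALL, ROAD E, file Exit/N1XH : THE WHOLE `X` SIDE OF `n1` (`Pvn1aX` OF 159) AT THE KIT `pvhqKit`      (helper27; prefix `pvhq_x`)      0 sorry

WHY.   At 12:10Z the compiled pieces of the `X` side sit at TWO kits: `act geo qbx` (60 `Exit/N1BK`, 130 `Tr/PatchH`) and (C3) `uni sub fin far` (27 `Tr/StabE`) at `pvhqKit`;   `rd` (29 `Exit/N1RK`) at `pvknKit`.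
THIS FILE CLOSES THE GAP AT `pvhqKit`: `PvrdKit` (contract of 29, `Exit/N1R`) at `pvhqKit` from `Tr/StabW`, hence `rd`, hence THE RECORD `Pvn1aX` OF 159 (`Exit/N1Guard`) IN ONE TERM.
* sec. 1  `pvhq_xN_set` (the read sites of twin data correspond), `pvhq_xN` (field `N`), **`pvhq_xrdKit`** : `PvrdKit 𝔓 m π (pvhqKit x R (𝔓.reg m π) C r q)`
* sec. 2  **`pvhq_xrd`** = the field `rd` of `PvxnOk` / `Pvn1aX` VERBATIM at the family `pvhqKit x R (𝔓.reg m π) (Cs ε) (rs ε) q`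
* sec. 3  **`pvhq_xX`** : `Pvn1aX 𝔓 x R m π a 𝔜 (fun ε => pvhqKit ..) Γs (h_m / 4)`.
REMAINING HYPOTHESES (all named, all with owners; the list of `Exit/N1BK` + ONE): `PvnbkReg` [209 63 84], `hfz` [63 (FZ)], `P(¬ Γs ε) → 0` [256], `PvnbkWO` [5 155], `L h + h ≤ R` [73 `pvxo_LR`], `MeasurableSet (Cs ε)`, and `hks hkt` = the two gate discs are far from `Cs ε` [122 29: `PvknGeo.ks kt`].
WARNING (63, 29, 292; 12:30Z): `PvnbkReg.col` (`Ycolᶜ ⊆ pvgeFar C r`) has NO producer at `𝔓.reg m π` (end tiles, door squares).      So `pvhq_xX` is a TEMPLATE for the pens of `Pvn1aX` (60 `Exit/N1XK`, 292 `Exit/N1C`);   sec. 1 (`pvhq_xM_set pvhq_xN_set pvhq_ximg`) is MODEL FREE IN THE PATTERN `π`: it serves `pvhqKit` at `π₁ := {reg with Ycol := Ycol ∪ Farᶜ}` (292).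
For the DETERMINISTIC GUARD of 170 (`guardE`): feed `pvhq_E_mono pvhq_W_mono pvnbk_kit pvhq_xrdKit pvnbk_qbx` (+ `pvn1a_qbxE`) to `pvn1a_X_guardE`.
-/

set_option autoImplicit false
set_option linter.unusedVariables false

namespace Claimed.Agent.R289

open MeasureTheory Filter Topology Set Claims.C0465
open scoped ENNReal

/-! ## 1. the contract of `rd` at the kit -/

section loc

variable {V D V' D' : Type} {T : PvMap V D} {T' : PvMap V' D'} {Rl : D → D' → Prop} {pos : V → ℂ} {pos' : V' → ℂ} {Kr : Set ℂ} {𝔇 : PvwDat T} {𝔇' : PvwDat T'} {π : PvwPat} {x : ℂ} {ρ : ℝ}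

/-- the sites which `E(D)` reads correspond -/
theorem pvhq_xM_set (L : PvLocP T T' Rl pos pos' Kr) (G : PvLocDat Rl 𝔇 𝔇') (hcol : ∀ z, z ∉ π.Ycol → z ∈ Kr) (hfz : ∀ v ∈ 𝔇.fz, pos v ∈ Kr) :
    PvLocSet T T' Rl (pvhqM 𝔇 pos π x ρ) (pvhqM 𝔇' pos' π x ρ) := by
  constructor
  · intro v hv
    obtain ⟨v', k⟩ := pvlw_vertex L (hcol _ hv.1.2)
    exact ⟨v', k, (pvhq_loc_M L G hcol hfz k).1 hv⟩
  · intro v' hv'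
    obtain ⟨v, k⟩ := pvlw_vertex L.symm (hcol _ hv'.1.2)
    have k' : pvlocV T T' Rl v v' := pvloc_v_symm k
    exact ⟨v, k', (pvhq_loc_M L G hcol hfz k').2 hv'⟩

/-- **the read sites of twin data correspond** -/
theorem pvhq_xN_set (L : PvLocP T T' Rl pos pos' Kr) (G : PvLocDat Rl 𝔇 𝔇') (hW : π.Wf) (hcol : ∀ z, z ∉ π.Ycol → z ∈ Kr) (hann : ∀ z ∈ π.Ycol, ‖z - x‖ ≤ 5 * ρ) (hfz : ∀ v ∈ 𝔇.fz, pos v ∈ Kr) :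
    PvLocSet T T' Rl (pvhqN 𝔇 pos π x ρ) (pvhqN 𝔇' pos' π x ρ) :=
  (((pvhq_loc_fz L G fun k hk => hfz _ (Or.inl (Or.inr ⟨k, hk, rfl⟩))).union (pvhq_xM_set L G hcol hfz)).union
    (pvlw_set_pos L fun z hz => hcol z fun hc => Set.disjoint_left.1 hW.col hc hz)).union
    (pvlw_set_pos L (A := {z | 5 * ρ < ‖z - x‖ ∧ ‖z - x‖ ≤ 6 * ρ}) fun z hz => hcol z fun hc => absurd (hann z hc) (not_le.2 hz.1))

end loc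

section rdkit

variable {τ : Type} {c : ℝ} {𝔓 : PvxPar τ c} {x : ℂ} {R : ℝ} {m : ℕ} {π : PvxIx τ}

/-- corresponding sets of sites of two Delaunay planes have the same positions -/
theorem pvhq_ximg {Y Y' : Set ℂ} {Rl : (delbPl Y).Dart → (delbPl Y').Dart → Prop} {Kr : Set ℂ} (L : PvLocP (delbPl Y).toMap (delbPl Y').toMap Rl Subtype.val Subtype.val Kr)
    {A : Set ↥Y} {A' : Set ↥Y'} (h : PvLocSet (delbPl Y).toMap (delbPl Y').toMap Rl A A') : Subtype.val '' A = Subtype.val '' A' :=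
  pvrd_img_of (fun v hv => let ⟨v', k1, k2⟩ := h.1 v hv; ⟨v', k2, pvlw_pos L k1⟩) (fun v' hv' => let ⟨v, k1, k2⟩ := h.2 v' hv'; ⟨v, k2, (pvlw_pos L k1).symm⟩)

/-- **THE CONTRACT `PvrdKit` OF 29 AT `pvhqKit`** -/
theorem pvhq_xrdKit (hW : 𝔓.Wf) {C : Set ℂ} {r : ℝ} (q : ℝ≥0∞) (r0 : 0 < r) (hks : Metric.closedBall (𝔓.reg m π).zs ((𝔓.reg m π).ts.b * pvlmH m) ⊆ pvgeFar C r)
    (hkt : Metric.closedBall (𝔓.reg m π).zt ((𝔓.reg m π).tt.b * pvlmH m) ⊆ pvgeFar C r) (hcol : ∀ z, z ∉ (𝔓.reg m π).Ycol → z ∈ pvgeFar C r) (hann : ∀ z ∈ (𝔓.reg m π).Ycol, ‖z - x‖ ≤ 5 * R) :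
    PvrdKit 𝔓 m π (pvhqKit x R (𝔓.reg m π) C r q) where
  r0 := r0
  pat := pvrd_pk_of_yy ⟨hks, hkt, fun z hz => hcol z hz.2⟩ (hW.reg_wf m π)
  N := fun Y Y' H 𝔇 𝔇' hT => pvhq_ximg H.locP (pvhq_xN_set H.locP hT.1 (hW.reg_wf m π) hcol hann hT.2.2)
  E := fun Y Y' H σ σ' hσ 𝔇 𝔇' hT hE => (pvhq_loc_kit H.good H.good' H.locP hT.1 C r q (hW.reg_wf m π) hcol hann hT.2.2 hT.2.1 (pvrd_col_rel H hσ)).1 hE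
  W := fun Y Y' H σ σ' hσ 𝔇 𝔇' hT hw => (pvhq_loc_kit H.good H.good' H.locP hT.1 C r q (hW.reg_wf m π) hcol hann hT.2.2 hT.2.1 (pvrd_col_rel H hσ)).2 hw

end rdkit

/-! ## 2. the field `rd`;   3. the record of 159 -/

section roof

variable {τ : Type} {c : ℝ} {𝔓 : PvxPar τ c} {x : ℂ} {R : ℝ} {m : ℕ} {π : PvxIx τ}

/-- the family of contracts -/
theorem pvhq_xrdKits (hW : 𝔓.Wf) {Cs : ℝ → Set ℂ} {rs : ℝ → ℝ} (hreg : PvnbkReg 𝔓 x R m π Cs rs) (q : ℝ≥0∞)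
    (hks : ∀ᶠ ε in 𝓝[>] (0 : ℝ), Metric.closedBall (𝔓.reg m π).zs ((𝔓.reg m π).ts.b * pvlmH m) ⊆ pvgeFar (Cs ε) (rs ε))
    (hkt : ∀ᶠ ε in 𝓝[>] (0 : ℝ), Metric.closedBall (𝔓.reg m π).zt ((𝔓.reg m π).tt.b * pvlmH m) ⊆ pvgeFar (Cs ε) (rs ε)) :
    ∀ᶠ ε in 𝓝[>] (0 : ℝ), PvrdKit 𝔓 m π (pvhqKit x R (𝔓.reg m π) (Cs ε) (rs ε) q) := by
  obtain ⟨B₀, -, r₀, r₁, h0, hC⟩ := hreg.bdd
  filter_upwards [hks, hkt, hreg.col, hC] with ε h1 h2 h3 h4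
  exact pvhq_xrdKit hW q (h0.trans_le h4.2.1) h1 h2 h3 hreg.ycol

/-- **THE FIELD `rd` OF `PvxnOk` AT THE KIT `pvhqKit`, VERBATIM** -/
theorem pvhq_xrd (hW : 𝔓.Wf) {Cs : ℝ → Set ℂ} {rs : ℝ → ℝ} (hreg : PvnbkReg 𝔓 x R m π Cs rs) (q : ℝ≥0∞)
    (hks : ∀ᶠ ε in 𝓝[>] (0 : ℝ), Metric.closedBall (𝔓.reg m π).zs ((𝔓.reg m π).ts.b * pvlmH m) ⊆ pvgeFar (Cs ε) (rs ε))
    (hkt : ∀ᶠ ε in 𝓝[>] (0 : ℝ), Metric.closedBall (𝔓.reg m π).zt ((𝔓.reg m π).tt.b * pvlmH m) ⊆ pvgeFar (Cs ε) (rs ε)) (a : ℂ) (𝔜 : PvxnYd) :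
    ∀ᶠ ε in 𝓝[>] (0 : ℝ), ∀ Y, (pvxnSys 𝔓 m π a (pvhqKit x R (𝔓.reg m π) (Cs ε) (rs ε) q) 𝔜 ε).Ok Y → ∀ σ, ∀ᵐ ω₂ ∂pvP ε, ∀ i,
    (Conf.spl (pvdmU (pvhqKit x R (𝔓.reg m π) (Cs ε) (rs ε) q).C) (cfOf Y σ, ω₂) ∈ (pvxnSys 𝔓 m π a (pvhqKit x R (𝔓.reg m π) (Cs ε) (rs ε) q) 𝔜 ε).A i ↔
      cfOf Y σ ∈ (pvxnSys 𝔓 m π a (pvhqKit x R (𝔓.reg m π) (Cs ε) (rs ε) q) 𝔜 ε).A i) ∧
    (Conf.spl (pvdmU (pvhqKit x R (𝔓.reg m π) (Cs ε) (rs ε) q).C) (cfOf Y σ, ω₂) ∈ (pvxnSys 𝔓 m π a (pvhqKit x R (𝔓.reg m π) (Cs ε) (rs ε) q) 𝔜 ε).WO i ↔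
      cfOf Y σ ∈ (pvxnSys 𝔓 m π a (pvhqKit x R (𝔓.reg m π) (Cs ε) (rs ε) q) 𝔜 ε).WO i) :=
  pvrd_rd_fam (pvhq_xrdKits hW hreg q hks hkt) a 𝔜

/-- **THE `X` SIDE OF `n1` AT THE KIT `pvhqKit`** = the record `Pvn1aX` of 159, in one term -/
theorem pvhq_xX (hW : 𝔓.Wf) (hR : 0 < R) (hπ : π ∈ pvxPatSet 𝔓 x R m) (a : ℂ) (hLR : 𝔓.𝔐.L * pvlmH m + pvlmH m ≤ R) {Cs : ℝ → Set ℂ} {rs : ℝ → ℝ} (hreg : PvnbkReg 𝔓 x R m π Cs rs)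
    (mC : ∀ᶠ ε in 𝓝[>] (0 : ℝ), MeasurableSet (Cs ε))
    (hks : ∀ᶠ ε in 𝓝[>] (0 : ℝ), Metric.closedBall (𝔓.reg m π).zs ((𝔓.reg m π).ts.b * pvlmH m) ⊆ pvgeFar (Cs ε) (rs ε))
    (hkt : ∀ᶠ ε in 𝓝[>] (0 : ℝ), Metric.closedBall (𝔓.reg m π).zt ((𝔓.reg m π).tt.b * pvlmH m) ⊆ pvgeFar (Cs ε) (rs ε))
    {q₁ : ℝ≥0∞} (hq₁ : q₁ ≠ 0) {qf : ℝ} (hqf : 0 < qf) (hfr : Tendsto (fun ε : ℝ => (pvhbUp ε).P {p | ¬ Pve6qFrame qf x R (pvxY (pvMerge p))}) (𝓝[>] (0 : ℝ)) (𝓝 0))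
    (hWO : PvnbkWO 𝔓 m π a (fun ε => pvhqKit x R (𝔓.reg m π) (Cs ε) (rs ε) (q₁ * ENNReal.ofReal qf)) q₁)
    (Γs : ℝ → PVSample → Prop) (hΓ : Tendsto (fun ε => (pvhbUp ε).P {p | ¬ Γs ε (pvMerge p)}) (𝓝[>] (0 : ℝ)) (𝓝 0))
    (hfz : ∀ᶠ ε in 𝓝[>] (0 : ℝ), ∀ ω : PVSample, PvqfGood (pvConf ω) → L9Fine (pvxY ω) (Metric.closedBall x (6 * R)) (pvlmH m / 4) → VorDense (pvxY ω) (pvgeCollar (Cs ε) (rs ε)) (rs ε) → Γs ε ω →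
      ∀ 𝔇 : PvwDat (pvxT ω), Pvn1bAct 𝔓 x R m π ω 𝔇 → ∀ v ∈ 𝔇.fzY, (v : ℂ) ∉ (𝔓.reg m π).Ycol)
    (𝔜 : PvxnYd) :
    Pvn1aX 𝔓 x R m π a 𝔜 (fun ε => pvhqKit x R (𝔓.reg m π) (Cs ε) (rs ε) (q₁ * ENNReal.ofReal qf)) Γs (pvlmH m / 4) := by
  obtain ⟨hμ, hμ4⟩ := pvnbk_mu hW hπ hLR
  obtain ⟨B₀, hB, r₀, r₁, h0, hC⟩ := hreg.bdd
  exact
    { mC := mC
      bB := ⟨Metric.closedBall x (6 * R), Metric.isBounded_closedBall, Eventually.of_forall fun _ => subset_rfl⟩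
      q0 := ⟨q₁ * ENNReal.ofReal qf, mul_ne_zero hq₁ (by simpa using hqf), Eventually.of_forall fun _ => le_rfl⟩
      E_mono := Eventually.of_forall fun ε => pvhq_E_mono 𝔓 x R m π (𝔓.reg m π) (Cs ε) (rs ε) _
      W_mono := Eventually.of_forall fun ε => pvhq_W_mono 𝔓 x R m π (𝔓.reg m π) (Cs ε) (rs ε) _
      rd := pvhq_xrd hW hreg _ hks hkt a 𝔜
      kit := by
        filter_upwards [hreg.col, hfz] with ε h1 h2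
        exact pvnbk_kit hW hR hπ a hμ (Cs ε) (rs ε) _ (Γs ε) (Metric.isBounded_closedBall.subset hreg.yout) h1 hreg.ycol h2
      bC := ⟨B₀, r₀, r₁, hB, h0, hC⟩
      qbx := pvnbk_qbx hW hR hπ hμ hμ4 Cs rs hfr hreg.yout hB h0 hC hWO
      bad := hΓ }

end roof

end Claimed.Agent.R289
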