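import Claimed.Agent.R289.Exit.N1XQ
import Claimed.Agent.R289.Exit.N1XG
import Claimed.Agent.R289.Tr.HookWMF

/-!
# Row 289 (S0537), Exit/N1XK : THE `X` SIDE OF `n1` AT THE PARAMETERS OF RECORD `pvxParOf N hN c`      (helper60, pen of (X) by T16 of 24; prefix `pvnxk_`)

* sec. 1  **(X3) QBX, CLOSED**: `pvnxk_qbx_at` (KIT FREE: any family of kits with `W ⟸ WK`, `E ⟹ g₀ ⊆ closedBall x (5R)`, uniformly bounded `C`, `r₀ ≤ r ≤ r₁`),   **`pvnxk_qbx_kn`** = `exit_pvn1a_qbx` (159, `Exit/N1All`) at `pvxParOf`, ANY regions `Cs ε` in a bounded set: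
          `pvnxq_qbx_ev` (60, `Exit/N1XQ`) ⟸ `pvhvf_det_at`, `pvhvf_core`, `pvhvf_bdd` (155, `Tr/HookWMF`), `hYo := (pvnxg_reg ..).yout` ((b5) of TrModel v4.1), `pvxo_LR` (73).      NO HYPOTHESIS LEFT.      0 sorry
-/

set_option autoImplicit false
set_option linter.unusedVariables false
set_option linter.unusedSectionVars false

namespace Claimed.Agent.R289

open MeasureTheory Filter Topology Set Claims.C0465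
open scoped ENNReal

section qbx

variable {c : ℝ} {N : PvxNums} (hN : N.Ok) (c0 : 0 < c) {x : ℂ} {R : ℝ} {m : ℕ} {π : PvxIx (pvxTau N)}

/-- the outer region of a pattern lies in the patch -/
theorem pvnxk_yout (hR : 0 < R) (hπ : π ∈ pvxPatSet (pvxParOf N hN c) x R m) : ((pvxParOf N hN c).reg m π).Yout ⊆ Metric.closedBall x (6 * R) :=
  fun z hz => mem_closedBall_iff_norm.2 ((pvnxg_reg (pvxo_wf N hN c) hR hπ).yout z hz)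

include c0 in
/-- **(X3) QBX AT THE PARAMETERS OF RECORD, KIT FREE** -/
theorem pvnxk_qbx_at (a : ℂ) (hR : 0 < R) (hm : N.m0 ≤ m) (hπ : π ∈ pvxPatSet (pvxParOf N hN c) x R m) :
    ∃ q : ℝ≥0∞, q ≠ 0 ∧ ∀ (𝔎s : ℝ → PvxnKit) (B₀ : Set ℂ), Bornology.IsBounded B₀ → ∀ r₀ r₁ : ℝ, 0 < r₀ → (∀ᶠ ε in 𝓝[>] (0 : ℝ), (𝔎s ε).C ⊆ B₀ ∧ r₀ ≤ (𝔎s ε).r ∧ (𝔎s ε).r ≤ r₁) →
      (∀ ε, (𝔎s ε).q ≤ q) →
      (∀ (ε : ℝ) (Y : Set ℂ) (𝔇 : PvwDat (delbPl Y).toMap) (σ : ↥Y → Bool), (𝔎s ε).E Y 𝔇 σ → ∀ v ∈ 𝔇.g.verts, ‖(v : ℂ) - x‖ ≤ 5 * R) →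
      (∀ (ε : ℝ) (Y : Set ℂ) (𝔇 : PvwDat (delbPl Y).toMap) (σ : ↥Y → Bool), 𝔇.WK Subtype.val ((pvxParOf N hN c).reg m π) x (5 * R) (6 * R) σ → (𝔎s ε).W Y 𝔇 σ) →
      Pvn1bQbx (pvxParOf N hN c) m π a 𝔎s := by
  obtain ⟨hμ, hμ4⟩ := pvnbk_mu (pvxo_wf N hN c) hπ (pvxo_LR N hN c hπ)
  have hYo := pvnxk_yout hN hR hπ
  exact pvnxq_qbx_ev (pvxo_wf N hN c) hR hπ hμ hμ4 hYo (pvlm_Del_pos c m) (pvhvf_core (pvxo_wf N hN c) (pvfhw_par N hN c) (pvhvf_fine_at hN c0 hm) hπ)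
    (pvhvf_bdd (pvxo_wf N hN c) (pvfhw_par N hN c) (pvhvf_fine_at hN c0 hm) hπ) (pvhvf_det_at hN c0 hR hm hπ (pvlm_Del_pos c m) le_rfl)

include c0 in
/-- **(X3) AT THE KIT OF RECORD WITH LAYER 1 OF THE GUARD** (any deterministic guard `Rg` which contains `g₀ ⊆ closedBall x (5R)`) -/
theorem pvnxk_qbx_kn (a : ℂ) (hR : 0 < R) (hm : N.m0 ≤ m) (hπ : π ∈ pvxPatSet (pvxParOf N hN c) x R m) :
    ∃ q : ℝ≥0∞, q ≠ 0 ∧ ∀ (Cs : ℝ → Set ℂ) (r : ℝ) (B : Set ℂ) (mB : MeasurableSet B) (B₀ : Set ℂ), Bornology.IsBounded B₀ → 0 < r → (∀ᶠ ε in 𝓝[>] (0 : ℝ), Cs ε ⊆ B₀) →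
      ∀ Rgs : ℝ → ∀ Y : Set ℂ, PvwDat (delbPl Y).toMap → (↥Y → Bool) → Prop,
      (∀ (ε : ℝ) (Y : Set ℂ) (𝔇 : PvwDat (delbPl Y).toMap) (σ : ↥Y → Bool), Rgs ε Y 𝔇 σ → ∀ k, k ≤ 𝔇.g.n → ‖((𝔇.g.v k : ↥Y) : ℂ) - x‖ ≤ 5 * R) →
      Pvn1bQbx (pvxParOf N hN c) m π a fun ε => (pvknKit (pvxParOf N hN c) x R m π (Cs ε) r B mB q).guardE (Rgs ε) := by
  obtain ⟨q, hq, H⟩ := pvnxk_qbx_at hN c0 a hR hm hπ
  refine ⟨q, hq, fun Cs r B mB B₀ hB hr hC Rgs hRg => ?_⟩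
  refine H _ B₀ hB r r hr (hC.mono fun ε h => ⟨h, le_rfl, le_rfl⟩) (fun _ => le_rfl) ?_ (fun _ _ _ _ h => h)
  rintro ε Y 𝔇 σ hE v ⟨k, hk, rfl⟩
  exact hRg ε Y 𝔇 σ hE.1 k hk

end qbx

end Claimed.Agent.R289
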