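import Claimed.Agent.R289.Exit.N1Q
import Claimed.Agent.R289.Exit.N1Guard
import Claimed.Agent.R289.Tr.StabW

/-!
# Row 289 (S0537), Exit/N1XQ : THE CONTRACT `Pvn1bQbx` FOR ANY KIT WHOSE `W` IS `PvwDat.WK` AND WHOSE `E` KEEPS `g₀` IN `closedBall x (5R)`      (helper60, pen of (X) by T16 of 24; prefix `pvnxq_`)

KIT FREE (it does not see `N`, nor the class which `E` reads: it survives the change `pvknKit` v1 → v2 of 29).      `𝔎s : ℝ → PvxnKit` ANY family with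
  `hEg : E(D) ⟹ g₀ ⊆ closedBall x (5R)`   [layer 1 of the guard of 159],      `hWK : 𝔇.WK .. σ ⟹ W(D)`   [`Iff.rfl` at `pvknKit`],      `q ≤ q₁ q_frame`.
* `pvnxq_one`   ONE SAMPLE: frame of 130 (`pve6h_W_col` = circuit + Harris, `pve6h_fz_in`) + bridge of 27 (`pvhq_WK_of_W`)
* **`pvnxq_qbx`**   `Pvn1bQbx` from the deterministic contract `PvwhDet` of 5 (HOOK-DET for `WO`) + the quenched bound of its pattern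
* **`pvnxq_qbx_ev`**   the same at the pattern of record of a region (`PvkqCore`, bounded): `∃ q ≠ 0`, ONE `q` for all families
* **`pvnxq_qbx_kn`**   at `(pvknKit 𝔓 x R m π (Cs ε) r B mB q).guardE (g₀ ⊆ closedBall x (5R))` = the statement of `exit_pvn1a_qbx` (159, `Exit/N1All`) up to the names `pvn1aKs`, `pvn1aRg` (delta).      0 sorry
-/

set_option autoImplicit false
set_option linter.unusedVariables false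
set_option linter.unusedSectionVars false

namespace Claimed.Agent.R289

open MeasureTheory Filter Topology Set Claims.C0465
open scoped ENNReal

section qbx

variable {τ : Type} {c : ℝ} {𝔓 : PvxPar τ c} {x : ℂ} {R : ℝ} {m : ℕ} {π : PvxIx τ} {a : ℂ}

/-- ONE SAMPLE, ONE KIT -/
theorem pvnxq_one (hW : 𝔓.Wf) (hR : 0 < R) (hπ : π ∈ pvxPatSet 𝔓 x R m) {μ : ℝ} (hμ : Pvn1bMu 𝔓 R m π μ) (hμ4 : μ ≤ R / 4) {𝔎 : PvxnKit} {q₁ : ℝ≥0∞} {qf : ℝ}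
    (hYo : (𝔓.reg m π).Yout ⊆ Metric.closedBall x (6 * R)) {Y : Set ℂ} (hY : DelGood Y) (σ : ℂ → Bool) (hF : Pve6qFrame qf x R Y) (hf : L9Fine Y (Metric.closedBall x (6 * R)) μ)
    (hc : VorDense Y (pvgeCollar 𝔎.C 𝔎.r) 𝔎.r) {i : PvxnIx} {𝔇 : PvwDat (delbPl Y).toMap}
    (hwit : PvxnWit 𝔓 m π a 𝔎 Y i (fun v => σ v) 𝔇) (hg : ∀ v ∈ 𝔇.g.verts, ‖(v : ℂ) - x‖ ≤ 5 * R)
    (hWK : ∀ σ' : ↥Y → Bool, 𝔇.WK Subtype.val (𝔓.reg m π) x (5 * R) (6 * R) σ' → 𝔎.W Y 𝔇 σ')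
    (h₁ : q₁ ≤ colLaw ℂ {κ | 𝔇.WO Subtype.val (𝔓.reg m π) (fun v : ↥Y => pvdmOv i.Fᶜ κ σ v)}) :
    q₁ * ENNReal.ofReal qf ≤ colLaw ℂ {κ | PvxnPW 𝔓 m π a 𝔎 i Y (pvdmOv i.Fᶜ κ σ)} := by
  obtain ⟨⟨-, -, -, hzs, hzt, -⟩, -, hbs, hbt, -⟩ := hπ
  have hh := pvlm_H_pos m
  have hr1 : 0 ≤ 𝔓.num.rho1 := (hW.rho0.trans hW.rho1).le
  have hrad : ∀ (t : τ) (k : ℕ), k ≤ 𝔓.num.K → pvwRad 𝔓.num (pvlmH m) (𝔓.ty t) k ≤ pvwRad 𝔓.num (pvlmH m) (𝔓.ty t) 𝔓.num.K := by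
    intro t k hk
    unfold pvwRad
    have : (k : ℝ) ≤ 𝔓.num.K := by exact_mod_cast hk
    gcongr
  have hmu := hμ.mu0
  have hFin : ∀ z ∈ i.F, ‖z - x‖ ≤ 21 / 4 * R := by
    rw [← hwit.labF]
    refine pve6h_fz_in hR hμ4 hf hwit.ok (by rw [hW.reg_zs]; exact hzs) (by rw [hW.reg_zt]; exact hzt) ?_ ?_ ?_ ?_ hg
    · rw [hW.reg_ts]; linarith [hμ.gate π.p.ts]
    · rw [hW.reg_tt]; linarith [hμ.gate π.p.tt]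
    · have h1 := hwit.ok.st_s.lev
      rw [hW.reg_ts] at h1 ⊢
      linarith [hrad π.p.ts _ h1]
    · have h1 := hwit.ok.st_t.lev
      rw [hW.reg_tt] at h1 ⊢
      linarith [hrad π.p.tt _ h1]
  refine (pve6h_W_col hR hF 𝔇 hYo i.F hFin σ h₁).trans (measure_mono fun κ hκ => ?_)
  refine ⟨hc, 𝔇, hwit.move fun v hv => ?_, hWK _ (pvhq_WK_of_W (pvmo_sph hY) hwit.ok.g0 hg hκ)⟩
  exact pvdm_ov_notMem (U := i.Fᶜ) (z := (v : ℂ)) (fun h => h hv) κ σ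

/-- **THE CONTRACT `Pvn1bQbx`, KIT FREE**, from HOOK-DET for `WO` (5) and the quenched bound of its pattern -/
theorem pvnxq_qbx (hW : 𝔓.Wf) (hR : 0 < R) (hπ : π ∈ pvxPatSet 𝔓 x R m) {μ : ℝ} (hμ : Pvn1bMu 𝔓 R m π μ) (hμ4 : μ ≤ R / 4)
    (hYo : (𝔓.reg m π).Yout ⊆ Metric.closedBall x (6 * R)) {μ' : ℝ} (hμ' : 0 < μ') {𝒜 : Set (Conf PvPt)} (hdet : PvwhDet 𝔓 x R m π μ' 𝒜) {q₁ : ℝ≥0∞}
    (hlim : Tendsto (fun ε : ℝ => (pvhbUp ε).P {p | pvkqP 𝒜 (cfSites (pvConf (pvMerge p))) < q₁}) (𝓝[>] (0 : ℝ)) (𝓝 0)) {qf : ℝ}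
    (hfr : Tendsto (fun ε : ℝ => (pvhbUp ε).P {p | ¬ Pve6qFrame qf x R (pvxY (pvMerge p))}) (𝓝[>] (0 : ℝ)) (𝓝 0))
    (𝔎s : ℝ → PvxnKit) {B₀ : Set ℂ} (hB : Bornology.IsBounded B₀) {r₀ r₁ : ℝ} (h0 : 0 < r₀) (hC : ∀ᶠ ε in 𝓝[>] (0 : ℝ), (𝔎s ε).C ⊆ B₀ ∧ r₀ ≤ (𝔎s ε).r ∧ (𝔎s ε).r ≤ r₁)
    (hq : ∀ ε, (𝔎s ε).q ≤ q₁ * ENNReal.ofReal qf)
    (hEg : ∀ (ε : ℝ) (Y : Set ℂ) (𝔇 : PvwDat (delbPl Y).toMap) (σ : ↥Y → Bool), (𝔎s ε).E Y 𝔇 σ → ∀ v ∈ 𝔇.g.verts, ‖(v : ℂ) - x‖ ≤ 5 * R)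
    (hWK : ∀ (ε : ℝ) (Y : Set ℂ) (𝔇 : PvwDat (delbPl Y).toMap) (σ : ↥Y → Bool), 𝔇.WK Subtype.val (𝔓.reg m π) x (5 * R) (6 * R) σ → (𝔎s ε).W Y 𝔇 σ) :
    Pvn1bQbx 𝔓 m π a 𝔎s := by
  have h3 := ((((pvn1b_fine_lim x R hR hμ.mu0).add (pvn1b_collar_fam hB h0 hC)).add hfr).add (pvn1b_dense_lim (B := Metric.closedBall x (7 * R)) Metric.isBounded_closedBall hμ')).add hlim
  simp only [add_zero] at h3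
  refine tendsto_of_tendsto_of_tendsto_of_le_of_le tendsto_const_nhds h3 (fun _ => zero_le) fun ε => ?_
  refine le_trans ((pvhbUp ε).P_mono ?_) (((pvhbUp ε).P_union_le _ _).trans (add_le_add (((pvhbUp ε).P_union_le _ _).trans (add_le_add (((pvhbUp ε).P_union_le _ _).trans
    (add_le_add ((pvhbUp ε).P_union_le _ _) le_rfl)) le_rfl)) le_rfl))
  intro p hp
  by_contra hn
  simp only [mem_union, mem_ofPred_eq, not_or, not_not, not_lt] at hn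
  obtain ⟨⟨⟨⟨⟨hg, hf⟩, hc⟩, hF⟩, hd⟩, hq₁⟩ := hn
  refine hp fun i 𝔇 hwit hE => (hq ε).trans ?_
  have hg5 := hEg ε _ 𝔇 _ hE
  exact pvnxq_one hW hR hπ hμ hμ4 hYo hg.del (pvn1bSg 𝔓 π (pvMerge p)) hF hf hc hwit hg5 (hWK ε _ 𝔇)
    (pvwh_one a hdet hg.del hd hq₁ (pvn1bSg 𝔓 π (pvMerge p)) i 𝔇 hwit hg5)

/-- **THE SAME AT THE PATTERN OF RECORD OF A REGION**: a white pattern in a bounded region `RW` with a core joining `xa` to `xb` -/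
theorem pvnxq_qbx_ev (hW : 𝔓.Wf) (hR : 0 < R) (hπ : π ∈ pvxPatSet 𝔓 x R m) {μ : ℝ} (hμ : Pvn1bMu 𝔓 R m π μ) (hμ4 : μ ≤ R / 4)
    (hYo : (𝔓.reg m π).Yout ⊆ Metric.closedBall x (6 * R)) {μ' : ℝ} (hμ' : 0 < μ') {δ' : ℝ} {RW : Set ℂ} {xa xb : ℂ} (hcore : PvkqCore δ' RW xa xb) (hb : Bornology.IsBounded RW)
    (hdet : PvwhDet 𝔓 x R m π μ' (pvkqEv δ' false RW xa xb)) :
    ∃ q : ℝ≥0∞, q ≠ 0 ∧ ∀ (𝔎s : ℝ → PvxnKit) (B₀ : Set ℂ), Bornology.IsBounded B₀ → ∀ r₀ r₁ : ℝ, 0 < r₀ → (∀ᶠ ε in 𝓝[>] (0 : ℝ), (𝔎s ε).C ⊆ B₀ ∧ r₀ ≤ (𝔎s ε).r ∧ (𝔎s ε).r ≤ r₁) →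
      (∀ ε, (𝔎s ε).q ≤ q) →
      (∀ (ε : ℝ) (Y : Set ℂ) (𝔇 : PvwDat (delbPl Y).toMap) (σ : ↥Y → Bool), (𝔎s ε).E Y 𝔇 σ → ∀ v ∈ 𝔇.g.verts, ‖(v : ℂ) - x‖ ≤ 5 * R) →
      (∀ (ε : ℝ) (Y : Set ℂ) (𝔇 : PvwDat (delbPl Y).toMap) (σ : ↥Y → Bool), 𝔇.WK Subtype.val (𝔓.reg m π) x (5 * R) (6 * R) σ → (𝔎s ε).W Y 𝔇 σ) →
      Pvn1bQbx 𝔓 m π a 𝔎s := by
  obtain ⟨q0, h0, -, H⟩ := pvkq_region_up
  obtain ⟨r, hr⟩ := hb.subset_closedBall (0 : ℂ)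
  obtain ⟨M, hM⟩ := exists_nat_ge (r / δ')
  have hsub : RW ⊆ Metric.closedBall (0 : ℂ) (M * δ') := hr.trans (Metric.closedBall_subset_closedBall ((div_le_iff₀ hcore.1).1 hM))
  obtain ⟨qf, hqf, hfr⟩ := pvnbk_frame (x := x) hR
  refine ⟨ENNReal.ofReal (q0 ^ (15 * (2 * M + 1) ^ 2) / 2) * ENNReal.ofReal qf, mul_ne_zero (by simpa using (by positivity : 0 < q0 ^ (15 * (2 * M + 1) ^ 2) / 2)) (by simpa using hqf), ?_⟩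
  intro 𝔎s B₀ hB r₀ r₁ hr0 hC hq hEg hWK
  exact pvnxq_qbx hW hR hπ hμ hμ4 hYo hμ' hdet ((H M δ').1 false RW 0 xa xb hsub hcore) hfr 𝔎s hB hr0 hC hq hEg hWK

/-- **AT THE KIT OF RECORD WITH LAYER 1 OF THE GUARD** -/
theorem pvnxq_qbx_kn (hW : 𝔓.Wf) (hR : 0 < R) (hπ : π ∈ pvxPatSet 𝔓 x R m) {μ : ℝ} (hμ : Pvn1bMu 𝔓 R m π μ) (hμ4 : μ ≤ R / 4)
    (hYo : (𝔓.reg m π).Yout ⊆ Metric.closedBall x (6 * R)) {μ' : ℝ} (hμ' : 0 < μ') {δ' : ℝ} {RW : Set ℂ} {xa xb : ℂ} (hcore : PvkqCore δ' RW xa xb) (hb : Bornology.IsBounded RW)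
    (hdet : PvwhDet 𝔓 x R m π μ' (pvkqEv δ' false RW xa xb)) :
    ∃ q : ℝ≥0∞, q ≠ 0 ∧ ∀ (Cs : ℝ → Set ℂ) (r : ℝ) (B : Set ℂ) (mB : MeasurableSet B) (B₀ : Set ℂ), Bornology.IsBounded B₀ → 0 < r → (∀ᶠ ε in 𝓝[>] (0 : ℝ), Cs ε ⊆ B₀) →
      Pvn1bQbx 𝔓 m π a fun ε => (pvknKit 𝔓 x R m π (Cs ε) r B mB q).guardE fun Y 𝔇 _ => ∀ k, k ≤ 𝔇.g.n → ‖((𝔇.g.v k : ↥Y) : ℂ) - x‖ ≤ 5 * R := by
  obtain ⟨q, hq, H⟩ := pvnxq_qbx_ev (a := a) hW hR hπ hμ hμ4 hYo hμ' hcore hb hdet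
  refine ⟨q, hq, fun Cs r B mB B₀ hB hr hC => ?_⟩
  refine H _ B₀ hB r r hr (hC.mono fun ε h => ⟨h, le_rfl, le_rfl⟩) (fun _ => le_rfl) ?_ (fun _ _ _ _ h => h)
  rintro ε Y 𝔇 σ hE v ⟨k, hk, rfl⟩
  exact hE.1 k hk

end qbx

end Claimed.Agent.R289
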