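import Claimed.Agent.R289.Tr.SimpleE
import Claimed.Agent.R289.Exit.EngRec
import Claimed.Agent.R289.Exit.ParGr
import Claimed.Agent.R289.Exit.N1CX

/-!
# Row 289 (S0537), THE WALL, ROAD E, file Exit/N1XW : `pvieCc ⊆ Yin` AT THE ENGINE OF RECORD, AND (X1) `exit_pvn1a_geo` CLOSED AT THE RECORD      (helper242, post of 243 12:45Z; prefix `pvgv_`)      0 sorry

KEY.    **`pvgv_C_in`** : `pvieCc 𝔓 𝔈 m ε π.p ⊆ (𝔓.reg m π).Yin`      (r = 1/40 of 34 / 258: tiles in the lanes `pvkgg_lane_K`, door squares `pvkgg_O_tenth`; end tiles and the doors `0`, `n` in the two inner mouths: 124 `pveg_oYa_ball`, `pveg_D_ball`; words: 148 `pvzu_O_eq pvzu_K_eq`)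
* sec. 1  unit cell: `pvgv_front pvgv_back` (a door square of half side `1/10` lies in the inner lanes of the two cells it joins), `pvgv_tile_lanes`, `pvgv_door_lanes`
* sec. 2  **`pvgv_C_in`** (any `𝔓 𝔈`: hypotheses `PvegLev`, regions of record, `pviwTyOk`, `PvccKitRef`, `O₀ ⊆ sq (δ/10)`, `K₀ ⊆ lanes`, `oK ⊆ pvegOYa`, `iK ⊆ pvegIYa`)
* sec. 3  AT `pvxParOf N hN c`, `pvnaEngRec N hN c nb`, `N.m0 ≤ m`: **`pvgv_C_in_rec`**;   `pvgv_hC` = the hypothesis `hC` of `pvn1c_geo_cc` of 292 (clearance: 148 `pvzu_clear_pat_end` at `pvgv_eo pvgv_ei`, KERNEL FRIENDLY: no `rfl` through the engine, only `pvnr_*` of 124);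
          **`pvgv_x1`** = THE CONCLUSION OF `exit_pvn1a_geo` (N1All v4) VERBATIM, any mesh `μ ≤ δ_m`, at `pvxParOf N hN c`, `hE : PvnaRec N hN c 𝔈`, `hgood : PvjxGood` (junk split of 209);   `pvgv_LR` (`L h + h ≤ R`)
-/

set_option autoImplicit false

namespace Claimed.Agent.R289

open Set Metric Filter Topology Complex Claims.C0465

/-! ## 1. the unit cell: a door square of half side `1/10` lies in the inner lanes of the two cells it joins -/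

theorem pvgv_sq {w : ℂ} {r : ℝ} (hw : w ∈ pvccSq 0 r) : |w.re| < r ∧ |w.im| < r := by
  have h : pvccN (w - 0) < r := hw
  rw [sub_zero] at h
  exact ⟨lt_of_le_of_lt (le_max_left _ _) h, lt_of_le_of_lt (le_max_right _ _) h⟩

/-- the front half of the door square lies in the lane of the cell which it opens -/
theorem pvgv_front (τ : PvtTurn) {w : ℂ} (hw : w ∈ pvccSq 0 (1 / 10)) (h0 : 0 ≤ w.re) : w ∈ pvfeLane (-(1 / 10)) (4 / 10) τ := by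
  obtain ⟨h1, h2⟩ := pvgv_sq hw
  rw [abs_lt] at h1 h2
  cases τ with
  | S => exact ⟨h0, by linarith [h1.2], by linarith [h2.1], by linarith [h2.2]⟩
  | L => exact Or.inl ⟨h0, by linarith [h1.2], by linarith [h2.1], by linarith [h2.2]⟩
  | R => exact Or.inl ⟨h0, by linarith [h1.2], by linarith [h2.1], by linarith [h2.2]⟩

/-- the back half of the door square lies in the lane of the cell which it closes -/
theorem pvgv_back (τ : PvtTurn) {w : ℂ} (hw : w ∈ pvccSq 0 (1 / 10)) (h0 : w.re ≤ 0) : τ.mid + τ.rot * w ∈ pvfeLane (-(1 / 10)) (4 / 10) τ := by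
  obtain ⟨h1, h2⟩ := pvgv_sq hw
  rw [abs_lt] at h1 h2
  cases τ with
  | S =>
    have e1 : (PvtTurn.S.mid + PvtTurn.S.rot * w).re = 1 + w.re := by simp [PvtTurn.mid, PvtTurn.rot]
    have e2 : (PvtTurn.S.mid + PvtTurn.S.rot * w).im = w.im := by simp [PvtTurn.mid, PvtTurn.rot]
    refine ⟨?_, ?_, ?_, ?_⟩ <;> simp only [e1, e2] <;> linarith [h1.1, h1.2, h2.1, h2.2]
  | L =>
    have e1 : (PvtTurn.L.mid + PvtTurn.L.rot * w).re = 1 / 2 - w.im := by simp [PvtTurn.mid, PvtTurn.rot]; ring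
    have e2 : (PvtTurn.L.mid + PvtTurn.L.rot * w).im = 1 / 2 + w.re := by simp [PvtTurn.mid, PvtTurn.rot]
    refine Or.inr ⟨?_, ?_, ?_, ?_⟩ <;> simp only [e1, e2] <;> linarith [h1.1, h1.2, h2.1, h2.2]
  | R =>
    have e1 : (PvtTurn.R.mid + PvtTurn.R.rot * w).re = 1 / 2 + w.im := by simp [PvtTurn.mid, PvtTurn.rot]
    have e2 : (PvtTurn.R.mid + PvtTurn.R.rot * w).im = -(1 / 2) - w.re := by simp [PvtTurn.mid, PvtTurn.rot]; ring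
    refine Or.inr ⟨?_, ?_, ?_, ?_⟩ <;> simp only [e1, e2] <;> linarith [h1.1, h1.2, h2.1, h2.2]

theorem pvgv_K_lanes {a b : ℝ} (z d : ℂ) {l : List PvtTurn} {j : ℕ} (hj : j < l.length) : pvccK (pvfeLane a b) z d l j ⊆ pvfeLanes a b z d l := by
  unfold pvfeLanes
  exact subset_biUnion_of_mem (u := fun j => pvccK (pvfeLane a b) z d l j) (Finset.mem_coe.2 (Finset.mem_range.2 hj))

/-- the tiles of the cells lie in the inner lanes -/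
theorem pvgv_tile_lanes {K₀ : PvtTurn → Set ℂ} (hK : ∀ τ, K₀ τ ⊆ pvfeLane (-(1 / 10)) (4 / 10) τ) (z d : ℂ) {l : List PvtTurn} {j : ℕ} (hj : j < l.length) :
    pvccK K₀ z d l j ⊆ pvfeLanes (-(1 / 10)) (4 / 10) z d l :=
  (pvccPl_mono _ _ (hK _)).trans (pvgv_K_lanes z d hj)

/-- the inner doors lie in the inner lanes -/
theorem pvgv_door_lanes {O₀ : Set ℂ} (hO : O₀ ⊆ pvccSq 0 (1 / 10)) (z d : ℂ) {l : List PvtTurn} {j : ℕ} (h0 : 0 < j) (hj : j < l.length) :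
    pvccO O₀ z d l j ⊆ pvfeLanes (-(1 / 10)) (4 / 10) z d l := by
  rintro _ ⟨w, hw, rfl⟩
  rcases le_total 0 w.re with h | h
  · exact pvgv_K_lanes z d hj ⟨w, pvgv_front _ (hO hw) h, rfl⟩
  · obtain ⟨i, rfl⟩ : ∃ i, j = i + 1 := ⟨j - 1, by omega⟩
    have hi : i < l.length := by omega
    refine pvgv_K_lanes z d hi ⟨(pvccT l i).mid + (pvccT l i).rot * w, pvgv_back _ (hO hw) h, ?_⟩
    show pvccZ z d l i + pvccD d l i * ((pvccT l i).mid + (pvccT l i).rot * w) = pvccZ z d l (i + 1) + pvccD d l (i + 1) * w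
    rw [pvccZ_succ z d l hi, pvccD_succ d l hi]
    ring

/-! ## 2. the resampled region of the chain lies in `Yin` -/

theorem pvgv_sq_sh {z p w : ℂ} {r : ℝ} (hw : w ∈ pvccSq (z + p) r) : w ∈ pvieSh z (pvccSq p r) := by
  refine ⟨w - z, ?_, by simp⟩
  show pvccN (w - z - p) < r
  have e : w - z - p = w - (z + p) := by ring
  rw [e]
  exact hw

section model

variable {τ : Type} {c : ℝ} {𝔓 : PvxPar τ c} {𝔈 : PvieEng τ}

/-- the square of the exit door, placed, lies in the inner mouth of the exit tip -/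
theorem pvgv_Do_ball {m : ℕ} {t : τ} (hL : PvegLev 𝔓 m) (hT : pviwTyOk 𝔓 t) (z : ℂ) :
    pvccSq (z + (𝔓.Γ m).pout t) (pvlmDel c m / 4) ⊆ closedBall ((𝔓.ty t).cp (pvlmH m) z) (𝔓.num.rho * pvlmH m / 2) := by
  intro w hw
  have h2 : pvieSh z (pvccSq ((𝔓.Γ m).pout t) (pvlmDel c m / 4)) ⊆ pvieSh z (closedBall (pvegYp 𝔓 m t) (pvegR 𝔓 m / 2)) := Set.image_mono (pveg_D_ball (pveg_door_o hL hT))
  rw [pveg_sh_ball] at h2
  exact h2 (pvgv_sq_sh hw)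

/-- the square of the entrance door, placed, lies in the inner mouth of the entrance tip -/
theorem pvgv_Di_ball {m : ℕ} {t : τ} (hL : PvegLev 𝔓 m) (hT : pviwTyOk 𝔓 t) (z : ℂ) :
    pvccSq (z + (𝔓.Γ m).pin t) (pvlmDel c m / 4) ⊆ closedBall ((𝔓.ty t).cm (pvlmH m) z) (𝔓.num.rho * pvlmH m / 2) := by
  intro w hw
  have h2 : pvieSh z (pvccSq ((𝔓.Γ m).pin t) (pvlmDel c m / 4)) ⊆ pvieSh z (closedBall (pvegYm 𝔓 m t) (pvegR 𝔓 m / 2)) := Set.image_mono (pveg_D_ball (pveg_door_i hL hT))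
  rw [pveg_sh_ball] at h2
  exact h2 (pvgv_sq_sh hw)

/-- **THE RESAMPLED REGION OF THE CHAIN OF A PATTERN LIES IN `Yin`** -/
theorem pvgv_C_in {m : ℕ} {ε r : ℝ} {π : PvxIx τ} (hL : PvegLev 𝔓 m) (hreg : 𝔓.reg m π = pvfeRegAt (𝔓.Γ m) 𝔓.ty 𝔓.cp 𝔓.cm 𝔓.num (pvlmH m) π.p)
    (hTt : pviwTyOk 𝔓 π.p.tt) (hTs : pviwTyOk 𝔓 π.p.ts) (R : PvccKitRef (𝔈.kit m ε) r) (hδ : (𝔈.kit m ε).δ = pvlmDel c m)
    (hO : (fun w : ℂ => ((𝔈.kit m ε).δ : ℂ) * w) ⁻¹' (𝔈.kit m ε).O₀ ⊆ pvccSq 0 (1 / 10))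
    (hK : ∀ σ, (fun w : ℂ => ((𝔈.kit m ε).δ : ℂ) * w) ⁻¹' (𝔈.kit m ε).K₀ σ ⊆ pvfeLane (-(1 / 10)) (4 / 10) σ)
    (hoK : 𝔈.oK m π.p.tt ⊆ pvegOYa 𝔓 m π.p.tt) (hiK : 𝔈.iK m π.p.ts ⊆ pvegIYa 𝔓 m π.p.ts) :
    pvieCc 𝔓 𝔈 m ε π.p ⊆ (𝔓.reg m π).Yin := by
  have hΓ : (𝔓.Γ m).δ = (𝔈.kit m ε).δ := by rw [hL.del, hδ]
  rintro w ⟨S, hS, hw⟩
  unfold pvieTiles at hS
  simp only [List.mem_append, List.mem_cons, List.not_mem_nil, or_false, List.mem_map, List.mem_range] at hS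
  rw [hreg]
  show w ∈ pvfeIn (𝔓.num.rho * pvlmH m / 2) ((𝔓.ty π.p.ts).cm (pvlmH m) π.p.zs) ((𝔓.ty π.p.tt).cp (pvlmH m) π.p.zt) (pvfeZ (𝔓.Γ m) π.p) (pvfeD (𝔓.Γ m) π.p) π.p.l
  rcases hS with ((rfl | rfl | rfl) | ⟨j, hj, rfl⟩) | ⟨j, hj, rfl⟩
  · exact Or.inl (Or.inr (pveg_oYa_ball hL hTt _ (Set.image_mono hoK hw)))
  · exact Or.inr (pveg_iYa_ball hL hTs _ (Set.image_mono hiK hw))
  · refine Or.inr (pvgv_Di_ball hL hTs _ ?_)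
    rw [← hδ]
    exact pveg_sim_sq R.O_sub R.r_le _ (pveg_din4 hL _) hw
  · have hw' : w ∈ pvzuO (𝔈.kit m ε) (π.p.zt + (𝔓.Γ m).pout π.p.tt) ((𝔓.Γ m).dout π.p.tt) π.p.l j := hw
    rcases Nat.eq_zero_or_pos j with rfl | h0
    · refine Or.inl (Or.inr (pvgv_Do_ball hL hTt _ ?_))
      have h1 := pvzu_O_sq R (π.p.zt + (𝔓.Γ m).pout π.p.tt) (pveg_dout4 hL π.p.tt) π.p.l 0 hw'
      have e : pvccZ (π.p.zt + (𝔓.Γ m).pout π.p.tt) (((𝔈.kit m ε).δ : ℂ) * (𝔓.Γ m).dout π.p.tt) π.p.l 0 = π.p.zt + (𝔓.Γ m).pout π.p.tt := by simp [pvccZ, pvtDisp]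
      rw [e, hδ] at h1
      exact h1
    · rw [pvzu_O_eq _ R.δ0.ne', ← hΓ] at hw'
      exact Or.inl (Or.inl (pvgv_door_lanes (by rw [hΓ]; exact hO) _ _ h0 hj hw'))
  · have hw' : w ∈ pvzuK (𝔈.kit m ε) (π.p.zt + (𝔓.Γ m).pout π.p.tt) ((𝔓.Γ m).dout π.p.tt) π.p.l j := hw
    rw [pvzu_K_eq _ R.δ0.ne', ← hΓ] at hw'
    exact Or.inl (Or.inl (pvgv_tile_lanes (by rw [hΓ]; exact hK) _ _ hj hw'))

/-- the resampled region is not empty -/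
theorem pvgv_C_ne {m : ℕ} {ε : ℝ} {p : PvtsPat τ} (h0 : (0 : ℂ) ∈ (𝔈.kit m ε).O₀) : (pvieCc 𝔓 𝔈 m ε p).Nonempty := by
  refine ⟨pvieZi 𝔓 m p.zs p.ts, pvieDoor 𝔈 m ε (pvieZi 𝔓 m p.zs p.ts) ((𝔓.Γ m).din p.ts), ?_, 0, h0, by simp [pvthSim]⟩
  unfold pvieTiles
  simp

end model

/-! ## 3. AT THE PARAMETERS AND THE ENGINE OF RECORD -/

section record

variable {N : PvxNums} (hN : N.Ok) {c : ℝ} (c0 : 0 < c) (nb : PvnaNb N) {x : ℂ} {R : ℝ} {m : ℕ} {π : PvxIx (pvxTau N)}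

theorem pvgv_pre (δ : ℝ) (hδ : δ ≠ 0) (U : Set ℂ) : (fun w : ℂ => (δ : ℂ) * w) ⁻¹' (pvthSim 0 (δ : ℂ) '' U) = U := by
  have h : (δ : ℂ) ≠ 0 := by exact_mod_cast hδ
  ext w
  constructor
  · rintro ⟨u, hu, e⟩
    have e' : (δ : ℂ) * u = (δ : ℂ) * w := by simpa [pvthSim] using e
    rwa [← mul_left_cancel₀ h e']
  · intro hw
    exact ⟨w, hw, by simp [pvthSim]⟩

include c0 in
/-- **THE RESAMPLED REGION OF THE CHAIN LIES IN `Yin`, AT THE ENGINE OF RECORD** -/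
theorem pvgv_C_in_rec (hm : N.m0 ≤ m) (ε : ℝ) (π : PvxIx (pvxTau N)) :
    pvieCc (pvxParOf N hN c) (pvnaEngRec N hN c nb) m ε π.p ⊆ ((pvxParOf N hN c).reg m π).Yin := by
  obtain ⟨Cth, r, κs, H⟩ := (pvnr_wf hN c0 nb).wf
  have hδ := H.kit_del m ε
  have hδ0 : pvlmDel c m ≠ 0 := (pvlm_Del_pos c m).ne'
  refine pvgv_C_in ((pvea_par hN c0).lev hm) ((pvfhw_par N hN c).reg_eq m π) (pvqh_tyOk hN c _) (pvqh_tyOk hN c _) (H.kit_ref m ε) hδ ?_ ?_ ?_ ?_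
  · rw [hδ, pvnr_kit_O, pvgv_pre _ hδ0]
    exact pvkgg_O_tenth
  · intro σ
    rw [hδ, pvnr_kit_K, pvgv_pre _ hδ0]
    exact pvkgg_lane_K σ
  · rw [pvnr_oK]
    exact subset_union_right.trans (pveg_oMK_sub _ m _)
  · rw [pvnr_iK]
    exact subset_union_right.trans (pveg_iMK_sub _ m _)

include c0 in
/-- the exit link of the engine of record is an end link (record of 148; kernel friendly: only the unfolding lemmas `pvnr_*` of 124) -/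
theorem pvgv_eo (hm : N.m0 ≤ m) (ε : ℝ) (t : pvxTau N) : PvzuEo (pvxParOf N hN c) (pvnaEngRec N hN c nb) m ε t := by
  obtain ⟨Cth, r, κs, H⟩ := (pvnr_wf hN c0 nb).wf
  exact pvzu_eo_of_a (O₀ := (pvnaInRec N hN c nb).O0) ((pvea_par hN c0).lev hm) (pvqh_tyOk hN c t) (H.kit_ref m ε) (H.kit_del m ε)
    ((pvnr_kit_O N hN c nb m ε).trans (pvnr_O0 N hN c nb m).symm) (pvnr_oM N hN c nb m t).subset (pvnr_oK N hN c nb m t).subset

include c0 in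
/-- the entrance link of the engine of record is an end link -/
theorem pvgv_ei (hm : N.m0 ≤ m) (ε : ℝ) (t : pvxTau N) : PvzuEi (pvxParOf N hN c) (pvnaEngRec N hN c nb) m ε t := by
  obtain ⟨Cth, r, κs, H⟩ := (pvnr_wf hN c0 nb).wf
  exact pvzu_ei_of_a (O₀ := (pvnaInRec N hN c nb).O0) ((pvea_par hN c0).lev hm) (pvqh_tyOk hN c t) (H.kit_ref m ε) (H.kit_del m ε)
    ((pvnr_kit_O N hN c nb m ε).trans (pvnr_O0 N hN c nb m).symm) (pvnr_iM N hN c nb m t).subset (pvnr_iK N hN c nb m t).subset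

include c0 in
/-- `0` lies in the door region -/
theorem pvgv_zero_O (hm : N.m0 ≤ m) (ε : ℝ) : (0 : ℂ) ∈ ((pvnaEngRec N hN c nb).kit m ε).O₀ := by
  obtain ⟨Cth, r, κs, H⟩ := (pvnr_wf hN c0 nb).wf
  refine H.dp_win m hm ε ?_
  have := pvlm_Del_pos c m
  simp only [pvwSq, sub_zero, mem_ofPred_eq, Complex.zero_re, Complex.zero_im, abs_zero]
  constructor <;> positivity

include c0 in
/-- the clearance of 148 at the record -/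
theorem pvgv_clear (hm : N.m0 ≤ m) (ε : ℝ) (hπ : π ∈ pvxPatSet (pvxParOf N hN c) x R m) :
    ∀ S ∈ pvieTiles (pvxParOf N hN c) (pvnaEngRec N hN c nb) m ε π.p,
      Disjoint S (pvieSh π.p.zt (pviwBox (pvxParOf N hN c) m π.p.tt) ∩ pvtU (pvlmDel c m) (pvtN8 (↑π.Zs ∪ ↑π.Zt))) ∧
      Disjoint S (pvieSh π.p.zs (pviwBox (pvxParOf N hN c) m π.p.ts) ∩ pvtU (pvlmDel c m) (pvtN8 (↑π.Zs ∪ ↑π.Zt))) := by
  obtain ⟨Cth, r, κs, H⟩ := (pvnr_wf hN c0 nb).wf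
  exact pvzu_clear_pat_end (pvxo_wf N hN c).toWfB ((pvea_par hN c0).lev hm) (H.kit_ref m ε) (H.kit_del m ε) (pvgv_eo hN c0 nb hm ε) (pvgv_ei hN c0 nb hm ε) hπ

include c0 in
/-- the hypothesis `hC` of `pvn1c_geo_cc` of 292, for EVERY `ε` -/
theorem pvgv_hC (hm : N.m0 ≤ m) (hπ : π ∈ pvxPatSet (pvxParOf N hN c) x R m) (ε : ℝ) :
    (pvieCc (pvxParOf N hN c) (pvnaEngRec N hN c nb) m ε π.p).Nonempty ∧ pvieCc (pvxParOf N hN c) (pvnaEngRec N hN c nb) m ε π.p ⊆ ((pvxParOf N hN c).reg m π).Yin ∧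
      ∀ S ∈ pvieTiles (pvxParOf N hN c) (pvnaEngRec N hN c nb) m ε π.p,
        Disjoint S (pvieSh π.p.zt (pviwBox (pvxParOf N hN c) m π.p.tt) ∩ pvtU (pvlmDel c m) (pvtN8 (↑π.Zs ∪ ↑π.Zt))) ∧
        Disjoint S (pvieSh π.p.zs (pviwBox (pvxParOf N hN c) m π.p.ts) ∩ pvtU (pvlmDel c m) (pvtN8 (↑π.Zs ∪ ↑π.Zt))) :=
  ⟨pvgv_C_ne (pvgv_zero_O hN c0 nb hm ε), pvgv_C_in_rec hN c0 nb hm ε π, pvgv_clear hN c0 nb hm ε hπ⟩

include c0 in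
/-- **(X1) = THE CONCLUSION OF `exit_pvn1a_geo`, AT THE PARAMETERS AND THE ENGINE OF RECORD**, any mesh `μ ≤ δ_m`, at a good index -/
theorem pvgv_x1 {𝔈 : PvieEng (pvxTau N)} (hE : PvnaRec N hN c 𝔈) (hR : 0 < R) (hm : N.m0 ≤ m) (hπ : π ∈ pvxPatSet (pvxParOf N hN c) x R m) (hgood : PvjxGood (pvxParOf N hN c) m π)
    {μ : ℝ} (hμ : μ ≤ pvlmDel c m) :
    ∃ r : ℝ, 0 < r ∧ (∀ᶠ ε in 𝓝[>] (0 : ℝ), PvknGeo (pvxParOf N hN c).num (pvlmH m) ((pvxParOf N hN c).reg m π) x (5 * R) (6 * R) (pvieCc (pvxParOf N hN c) 𝔈 m ε π.p) r) ∧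
      ∀ᶠ ε in 𝓝[>] (0 : ℝ), ∀ ω : PVSample, PvqfGood (pvConf ω) → L9Fine (pvxY ω) (Metric.closedBall x (6 * R)) μ → ∀ 𝔇 : PvwDat (pvxT ω), Pvn1bAct (pvxParOf N hN c) x R m π ω 𝔇 →
        (∀ v ∈ 𝔇.fz, (v : ℂ) ∈ pvgeFar (pvieCc (pvxParOf N hN c) 𝔈 m ε π.p) r) ∧ ∀ v ∈ 𝔇.apx, (v : ℂ) ∉ ((pvxParOf N hN c).reg m π).Yin := by
  obtain ⟨nb, rfl⟩ := hE
  exact pvn1c_geo_cc (pvxo_wf N hN c) (pvfhw_par N hN c) (pvffz_fine_at hN c0 hm) hR hπ hgood hμ (Eventually.of_forall fun ε => pvgv_hC hN c0 nb hm hπ ε)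

/-- (i) of 169: the number `L h + h ≤ R` -/
theorem pvgv_LR (hπ : π ∈ pvxPatSet (pvxParOf N hN c) x R m) : (pvxParOf N hN c).𝔐.L * pvlmH m + pvlmH m ≤ R := pvxo_LR N hN c hπ

end record

end Claimed.Agent.R289
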