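-- KEEP
import Claimed.Agent.R289.Exit.N1Y
import Claimed.Agent.R289.Exit.N1YD
import Claimed.Agent.R289.Exit.N1Stab
import Claimed.Agent.R289.Tr.PatWin
import Claimed.Agent.R289.Tr.ChainL
import Claimed.Agent.R289.Tr.InstLB
import Claimed.Agent.R289.Exit.ParGr
import Claimed.Agent.R289.Exit.EngRec
import Claimed.Agent.R289.Exit.N1XE

/-!
# Row 289 (S0537), THE WALL, ROAD E, file Exit/N1YJ : THE CONTRACT `PvyjInL` (93) AT THE GUARDED KITS, FROM ONE MODEL DEBT      (helper93, pen of `exit_pvn1a_Y`; prefix `pvyj_`, `pvyj`, `Pvyj`)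

BELOW `Exit/N1All.lean` and `Exit/N1YT.lean` (12): those files may import this one.      0 sorry.
* sec. 1  `pvyjS` (what the guard must imply: SAME BODY as `pvyyS` of 12), `pvyjD` (bound of the weight), **`PvyjPk`** = THE ONLY MODEL DEBT: plain colour blindness WITH POCKETS (`PvbqPlain` of 141 at the fresh sets `(mouth \ F) \ i.N`), at every present datum of the guarded kits      [158 120 27 191 217]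
* sec. 2  the datum: `pvyj_dat_F` (`F_o`, `F_i` are frozen sites of the index), `pvyj_dat_base` (the base data do not see the colours off the frozen sites of the index)      [107 `pvn1z_base`, `pvn1z_Fo_dat`]
* sec. 3  the guard at the actual base: `pvyj_gd`
* sec. 4  the geometry of a pattern: `pvyj_pat_win` (the two `PvueWin` of 180 at the hulls of the index)
* sec. 5  **`pvyj_bs`** : `PvyjBs` at one base;   **`pvyj_inL`** : `PvyjInL` at `(𝔎s ε).guard (S ε)`, ANY kits with `C = pvieCc`, ANY `S ⊆ pvyjS`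
-/

set_option autoImplicit false
set_option linter.unusedSectionVars false
set_option linter.unusedVariables false

namespace Claimed.Agent.R289

open MeasureTheory ProbabilityTheory Filter Topology Set Claims.C0465
open scoped ENNReal

/-! ## 1. the guard, the constant, the debt -/

section defs

variable {τ : Type} {c : ℝ} (𝔓 : PvxPar τ c) (𝔈 : PvieEng τ) (m : ℕ) (π : PvxIx τ)

/-- **WHAT THE GUARD (LAYER 2) MUST IMPLY** (`ζ` in the black vocabulary): the four clauses of `pvn1aS` of 159 + the clause `pvyk1Gd` of 214 -/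
def pvyjS (qf : ℝ≥0∞) (ε : ℝ) : Set (Conf PvPt) :=
  {ζ | pvxnFl (𝔓.col π.p.ts) ζ ∈ pvrgFo 𝔓 𝔈 qf m ε π.p.zt π.p.tt ∧ pvxnFl (𝔓.col π.p.ts) ζ ∈ pvrgFi 𝔓 𝔈 qf m ε π.p.zs π.p.ts ∧
    pvilZo 𝔓 m π.p.zt π.p.tt (pvxnFl (𝔓.col π.p.ts) ζ) = (π.Zt : Set (ℤ × ℤ)) ∧ pvilZi 𝔓 m π.p.zs π.p.ts (pvxnFl (𝔓.col π.p.ts) ζ) = (π.Zs : Set (ℤ × ℤ)) ∧
    pvxnFl (𝔓.col π.p.ts) ζ ∈ pvyk1Gd 𝔓 𝔈 m π ε}

/-- **THE BOUND OF THE WEIGHT** -/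
noncomputable def pvyjD (β' q qf : ℝ≥0∞) (n : ℕ) : ℝ≥0∞ := (β'⁻¹) ^ (n + 1) * ((q⁻¹) ^ n * ((min qf 1)⁻¹ * (min qf 1)⁻¹))

/-- **(POCKET-PLAIN) THE ONLY MODEL DEBT OF THE CONTRACT**: at every present datum of the kits, the plain success and the plain value of the two end links (hulls of the index) see, among the colours of the kept sites,
those of the frozen positions of the half state and those of the fresh sites of the mouth WHICH THE DATUM DOES NOT READ -/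
def PvyjPk (𝔎s : ℝ → PvxnKit) : Prop :=
  ∀ᶠ ε in 𝓝[>] (0 : ℝ), ∀ Y : Set ℂ, (DelGood Y ∧ ∀ᵐ ω₂ ∂pvP ε, DelGood (Y \ (𝔎s ε).C ∪ cfSites ω₂ ∩ (𝔎s ε).C)) → ∀ (i : PvxnIx) (σ : ℂ → Bool), PvxnPA 𝔓 m π 0 (𝔎s ε) i Y σ →
    PvbqPlain (pvieCc 𝔓 𝔈 m ε π.p) (pvilWno 𝔓 𝔈 m ε π.p.zt π.p.tt (π.Zt : Set (ℤ × ℤ))) (pvyk1Po 𝔓 𝔈 m ε π.p.zt π.p.tt (π.Zt : Set (ℤ × ℤ)))
      (pvilMo 𝔓 𝔈 m ε π.p.zt π.p.tt (π.Zt : Set (ℤ × ℤ))) (pvyk1Fo 𝔓 𝔈 m π.p.zt π.p.tt) Y (pvilFo 𝔓 m π.p.zt π.p.tt (cfOf Y (pvjbC (𝔓.col π.p.ts) σ)))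
      ((pvieSh π.p.zt (𝔈.oM m π.p.tt) \ pvilFo 𝔓 m π.p.zt π.p.tt (cfOf Y (pvjbC (𝔓.col π.p.ts) σ))) \ i.N) (pvjbC (𝔓.col π.p.ts) σ) ∧
    PvbqPlain (pvieCc 𝔓 𝔈 m ε π.p) (pvilWni 𝔓 𝔈 m ε π.p.zs π.p.ts (π.Zs : Set (ℤ × ℤ))) (pvyk1Pi 𝔓 𝔈 m ε π.p.zs π.p.ts (π.Zs : Set (ℤ × ℤ)))
      (pvilMi 𝔓 𝔈 m ε π.p.zs π.p.ts (π.Zs : Set (ℤ × ℤ))) (pvyk1Fi 𝔓 𝔈 m π.p.zs π.p.ts) Y (pvilFi 𝔓 m π.p.zs π.p.ts (cfOf Y (pvjbC (𝔓.col π.p.ts) σ)))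
      ((pvieSh π.p.zs (𝔈.iM m π.p.ts) \ pvilFi 𝔓 m π.p.zs π.p.ts (cfOf Y (pvjbC (𝔓.col π.p.ts) σ))) \ i.N) (pvjbC (𝔓.col π.p.ts) σ)

theorem pvyj_eqns_cite4 : True := by
  have := @pvyjS.eq_1; have := @pvyjD.eq_1; have := @PvyjPk.eq_1
  trivial

end defs

/-- the debt, asked at every good site set (form `PvkynPl` of 218, per `ε`) -/
theorem PvyjPk.of_forall {τ : Type} {c : ℝ} {𝔓 : PvxPar τ c} {𝔈 : PvieEng τ} {m : ℕ} {π : PvxIx τ} {𝔎s : ℝ → PvxnKit}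
    (h : ∀ᶠ ε in 𝓝[>] (0 : ℝ), ∀ (Y : Set ℂ) (i : PvxnIx) (σ : ℂ → Bool), DelGood Y → PvxnPA 𝔓 m π 0 (𝔎s ε) i Y σ →
      PvbqPlain (pvieCc 𝔓 𝔈 m ε π.p) (pvilWno 𝔓 𝔈 m ε π.p.zt π.p.tt (π.Zt : Set (ℤ × ℤ))) (pvyk1Po 𝔓 𝔈 m ε π.p.zt π.p.tt (π.Zt : Set (ℤ × ℤ)))
        (pvilMo 𝔓 𝔈 m ε π.p.zt π.p.tt (π.Zt : Set (ℤ × ℤ))) (pvyk1Fo 𝔓 𝔈 m π.p.zt π.p.tt) Y (pvilFo 𝔓 m π.p.zt π.p.tt (cfOf Y (pvjbC (𝔓.col π.p.ts) σ)))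
        ((pvieSh π.p.zt (𝔈.oM m π.p.tt) \ pvilFo 𝔓 m π.p.zt π.p.tt (cfOf Y (pvjbC (𝔓.col π.p.ts) σ))) \ i.N) (pvjbC (𝔓.col π.p.ts) σ) ∧
      PvbqPlain (pvieCc 𝔓 𝔈 m ε π.p) (pvilWni 𝔓 𝔈 m ε π.p.zs π.p.ts (π.Zs : Set (ℤ × ℤ))) (pvyk1Pi 𝔓 𝔈 m ε π.p.zs π.p.ts (π.Zs : Set (ℤ × ℤ)))
        (pvilMi 𝔓 𝔈 m ε π.p.zs π.p.ts (π.Zs : Set (ℤ × ℤ))) (pvyk1Fi 𝔓 𝔈 m π.p.zs π.p.ts) Y (pvilFi 𝔓 m π.p.zs π.p.ts (cfOf Y (pvjbC (𝔓.col π.p.ts) σ)))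
        ((pvieSh π.p.zs (𝔈.iM m π.p.ts) \ pvilFi 𝔓 m π.p.zs π.p.ts (cfOf Y (pvjbC (𝔓.col π.p.ts) σ))) \ i.N) (pvjbC (𝔓.col π.p.ts) σ)) :
    PvyjPk 𝔓 𝔈 m π 𝔎s :=
  h.mono fun ε h Y hY i σ hA => h Y i σ hY.1 hA

theorem pvyj_min_ne {qf : ℝ≥0∞} (hqf : qf ≠ 0) : min qf 1 ≠ 0 := by
  intro h
  rcases min_eq_iff.1 h with h1 | h1
  · exact hqf h1.1
  · exact one_ne_zero h1.1

theorem pvyj_D_ne_top {β' q qf : ℝ≥0∞} (hβ : β' ≠ 0) (hq : q ≠ 0) (hqf : qf ≠ 0) (n : ℕ) : pvyjD β' q qf n ≠ ⊤ := by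
  have h1 := pvyj_min_ne hqf
  unfold pvyjD
  exact ENNReal.mul_ne_top (ENNReal.pow_ne_top (ENNReal.inv_ne_top.2 hβ))
    (ENNReal.mul_ne_top (ENNReal.pow_ne_top (ENNReal.inv_ne_top.2 hq)) (ENNReal.mul_ne_top (ENNReal.inv_ne_top.2 h1) (ENNReal.inv_ne_top.2 h1)))

/-! ## 2. the datum -/

section datum

variable {τ : Type} {c : ℝ} {𝔓 : PvxPar τ c} {m : ℕ} {π : PvxIx τ} {a : ℂ} {𝔎 : PvxnKit} {i : PvxnIx} {Y : Set ℂ} {σ : ℂ → Bool}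

/-- the actual configuration of a base, in the words of 107 -/
theorem pvyj_cf_eq (b : Bool) (Y : Set ℂ) (σ : ℂ → Bool) : pvxnFl b (pvn1aCf Y fun v : ↥Y => σ v) = cfOf Y (pvjbC b σ) := by
  rw [pvn1a_cf, pvjb_fl_eq, pvjb_fl_cfOf]

/-- **the frozen positions of the two half states of the base are frozen sites of the index** -/
theorem pvyj_dat_F (hW : 𝔓.Wf) (hc : 𝔓.col π.p.ts = 𝔓.col π.p.tt) (hY : DelGood Y) (hA : PvxnPA 𝔓 m π a 𝔎 i Y σ) :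
    pvilFo 𝔓 m π.p.zt π.p.tt (cfOf Y (pvjbC (𝔓.col π.p.ts) σ)) ⊆ i.F ∧ pvilFi 𝔓 m π.p.zs π.p.ts (cfOf Y (pvjbC (𝔓.col π.p.ts) σ)) ⊆ i.F := by
  obtain ⟨-, ⟨𝔇, hD, -⟩, -⟩ := hA
  have h1 := pvn1z_Fo_dat hW hY hD.ok hD.cyl
  have h2 := pvn1z_Fi_dat hW hY hD.ok hD.cyl
  rw [← hc, pvyj_cf_eq] at h1
  rw [pvyj_cf_eq] at h2
  rw [← hD.labF]
  exact ⟨h1.trans (image_mono fun v hv => Or.inl (Or.inl (Or.inl hv))), h2.trans (image_mono fun v hv => Or.inl (Or.inl (Or.inr hv)))⟩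

/-- **the base data of the two half states do not see the colours off the frozen sites of the index** -/
theorem pvyj_dat_base (hW : 𝔓.Wf) (hc : 𝔓.col π.p.ts = 𝔓.col π.p.tt) (hY : DelGood Y) (hA : PvxnPA 𝔓 m π a 𝔎 i Y σ) {s' : ℂ → Bool}
    (hs : ∀ v ∈ Y, v ∈ i.F → s' v = pvjbC (𝔓.col π.p.ts) σ v) :
    pvilFo 𝔓 m π.p.zt π.p.tt (cfOf Y s') = pvilFo 𝔓 m π.p.zt π.p.tt (cfOf Y (pvjbC (𝔓.col π.p.ts) σ)) ∧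
    pvilZo 𝔓 m π.p.zt π.p.tt (cfOf Y s') = pvilZo 𝔓 m π.p.zt π.p.tt (cfOf Y (pvjbC (𝔓.col π.p.ts) σ)) ∧
    pvilFi 𝔓 m π.p.zs π.p.ts (cfOf Y s') = pvilFi 𝔓 m π.p.zs π.p.ts (cfOf Y (pvjbC (𝔓.col π.p.ts) σ)) ∧
    pvilZi 𝔓 m π.p.zs π.p.ts (cfOf Y s') = pvilZi 𝔓 m π.p.zs π.p.ts (cfOf Y (pvjbC (𝔓.col π.p.ts) σ)) := by
  obtain ⟨-, ⟨𝔇, hD, -⟩, -⟩ := hA
  have key := pvn1z_base (σ' := fun v : ↥Y => pvjbC (𝔓.col π.p.ts) s' v) hW hY hD.ok hD.cyl (fun v hv => by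
    have h1 : (v : ℂ) ∈ i.F := by
      rw [← hD.labF]
      exact ⟨v, Or.inl (Or.inl hv), rfl⟩
    show pvjbC (𝔓.col π.p.ts) s' v = σ v
    have h2 := hs v v.2 h1
    unfold pvjbC at h2 ⊢
    rw [h2]
    cases 𝔓.col π.p.ts <;> cases σ v <;> rfl) (𝔓.col π.p.ts) hc.symm rfl
  rw [pvyj_cf_eq, pvyj_cf_eq, pvjb_C_C] at key
  exact key

end datum

/-! ## 3. the guard at the actual base -/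

section guard

variable {τ : Type} {c : ℝ} {𝔓 : PvxPar τ c} {𝔈 : PvieEng τ} {m : ℕ} {π : PvxIx τ} {ε : ℝ}

theorem pvyj_Fo_anti {q q' : ℝ≥0∞} (hq : q' ≤ q) {z : ℂ} {t : τ} {η : Conf PvPt} (h : η ∈ pvrgFo 𝔓 𝔈 q m ε z t) : η ∈ pvrgFo 𝔓 𝔈 q' m ε z t := by
  rw [pvrgFo, mem_ofPred_eq] at h ⊢
  exact pvrg_frc_anti ε _ _ _ _ hq h

theorem pvyj_Fi_anti {q q' : ℝ≥0∞} (hq : q' ≤ q) {z : ℂ} {t : τ} {η : Conf PvPt} (h : η ∈ pvrgFi 𝔓 𝔈 q m ε z t) : η ∈ pvrgFi 𝔓 𝔈 q' m ε z t := by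
  rw [pvrgFi, mem_ofPred_eq] at h ⊢
  exact pvrg_frc_anti ε _ _ _ _ hq h

/-- **the clauses of the guard at the actual configuration of a base** -/
theorem pvyj_gd {qf : ℝ≥0∞} {Y : Set ℂ} {σ : ℂ → Bool} (h : cfOf Y σ ∈ pvyjS 𝔓 𝔈 m π qf ε) :
    cfOf Y (pvjbC (𝔓.col π.p.ts) σ) ∈ pvrgFo 𝔓 𝔈 qf m ε π.p.zt π.p.tt ∧ cfOf Y (pvjbC (𝔓.col π.p.ts) σ) ∈ pvrgFi 𝔓 𝔈 qf m ε π.p.zs π.p.ts ∧
    pvilZo 𝔓 m π.p.zt π.p.tt (cfOf Y (pvjbC (𝔓.col π.p.ts) σ)) = (π.Zt : Set (ℤ × ℤ)) ∧ pvilZi 𝔓 m π.p.zs π.p.ts (cfOf Y (pvjbC (𝔓.col π.p.ts) σ)) = (π.Zs : Set (ℤ × ℤ)) ∧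
    cfOf Y (pvjbC (𝔓.col π.p.ts) σ) ∈ pvyk1Gd 𝔓 𝔈 m π ε := by
  rw [pvyjS, mem_ofPred_eq, pvjb_fl_eq, pvjb_fl_cfOf] at h
  exact h

theorem pvyj_sq_o {z : ℂ} {t : τ} {η : Conf PvPt} (h : η ∈ pvyk1SqO 𝔓 𝔈 m ε z t) : η ∈ pvueSq (𝔈.kit m ε) ε (pvilEoAt 𝔓 𝔈 m ε pvilQ z t η) (pvieZo 𝔓 m z t) ((𝔓.Γ m).dout t) := by
  rw [pvyk1SqO, mem_ofPred_eq] at h
  exact h

theorem pvyj_sq_i {z : ℂ} {t : τ} {η : Conf PvPt} (h : η ∈ pvyk1SqI 𝔓 𝔈 m ε z t) : η ∈ pvueSq (𝔈.kit m ε) ε (pvilEiAt 𝔓 𝔈 m ε pvilQ z t η) (pvieZi 𝔓 m z t) ((𝔓.Γ m).din t) := by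
  rw [pvyk1SqI, mem_ofPred_eq] at h
  exact h

end guard

/-! ## 4. the geometry of a pattern -/

/-- **THE ENGINE AND THE LEVEL, AS THE GEOMETRY OF 148 AND 180 WANTS THEM**      [at `pvxParOf N hN c`, `PvnaRec`: `pvqh_lev`, `pvqh_tyOk`, `pvnxe_eo`, `pvnxe_ei` of 184 (tiles v2 of 124: NOT inside `pvegOK`, `pvegIK`), `pvwk_rad_ge`] -/
structure PvyjLv {τ : Type} {c : ℝ} (𝔓 : PvxPar τ c) (𝔈 : PvieEng τ) (m : ℕ) : Prop where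
  lev : PvegLev 𝔓 m
  ty : ∀ t, pviwTyOk 𝔓 t
  eo : ∀ ε t, PvzuEo 𝔓 𝔈 m ε t
  ei : ∀ ε t, PvzuEi 𝔓 𝔈 m ε t
  hb : ∀ t, (𝔓.ty t).b * pvlmH m ≤ pviwRad 𝔓 m t

section geo

variable {τ : Type} {c : ℝ} {𝔓 : PvxPar τ c} {𝔈 : PvieEng τ} {m : ℕ} {π : PvxIx τ} {ε : ℝ} {x : ℂ} {R : ℝ} {m0 : ℕ} {Cth : ℝ} {r κs : ℕ → ℝ}

/-- **the two window ends of 180 at the hulls of the index**, any frozen sets -/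
theorem pvyj_pat_win (H : PvieEng.Wf 𝔓 𝔈 m0 Cth r κs) (hm : m0 ≤ m) (hB : 𝔓.WfB) (L : PvyjLv 𝔓 𝔈 m) (hπ : π ∈ pvxPatSet 𝔓 x R m) (hk : (𝔈.kit m ε).WF) {η : Conf PvPt} (cnt : (cfSites η).Countable) (F F' : Set ℂ) :
    PvueWin η (pvieCc 𝔓 𝔈 m ε π.p) (fun _ => (pvieSh π.p.zt (𝔈.oM m π.p.tt) \ F) ∪ (pvieSh π.p.zs (𝔈.iM m π.p.ts) \ F')) (pvilEo 𝔓 𝔈 m ε pvilQ π.p.zt π.p.tt (π.Zt : Set (ℤ × ℤ)) F)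
      (pvkyDoor (𝔈.kit m ε) (pvieZo 𝔓 m π.p.zt π.p.tt) ((𝔓.Γ m).dout π.p.tt)) (pvilWno 𝔓 𝔈 m ε π.p.zt π.p.tt (π.Zt : Set (ℤ × ℤ))) ∧
    PvueWin η (pvieCc 𝔓 𝔈 m ε π.p) (fun _ => (pvieSh π.p.zt (𝔈.oM m π.p.tt) \ F) ∪ (pvieSh π.p.zs (𝔈.iM m π.p.ts) \ F')) (pvilEi 𝔓 𝔈 m ε pvilQ π.p.zs π.p.ts (π.Zs : Set (ℤ × ℤ)) F')
      (pvkyDoor (𝔈.kit m ε) (pvthZ (𝔈.kit m ε).δ (pvieZo 𝔓 m π.p.zt π.p.tt) ((𝔓.Γ m).dout π.p.tt) π.p.l π.p.l.length) (pvthD ((𝔓.Γ m).dout π.p.tt) π.p.l π.p.l.length))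
      (pvilWni 𝔓 𝔈 m ε π.p.zs π.p.ts (π.Zs : Set (ℤ × ℤ))) := by
  obtain ⟨hZ, hD⟩ := pvjh_pw_door (𝔈 := 𝔈) (ε := ε) L.lev.del hπ.1.1 (H.kit_del m ε)
  have sep := (pvzu_pat_ix hπ).sep
  have hs := pvzu_simple_pat_end hB L.lev.del L.lev.doors (H.kit_ref m ε) (H.kit_del m ε) (L.eo ε) (L.ei ε) hπ
  have hc := pvzu_clear_pat_end hB L.lev (H.kit_ref m ε) (H.kit_del m ε) (L.eo ε) (L.ei ε) hπ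
  exact ⟨pvjh_pw_o H hk (pveg_dout4 L.lev _) hZ hD hs (fun S hS => (hc S hS).1) subset_union_right (pvjh_pw_far_o H hm hB (L.ty _) (L.ty _) L.lev.fine sep) cnt F F' pvilQ,
    pvjh_pw_i H hk (pveg_dout4 L.lev _) hZ hD hs (fun S hS => (hc S hS).2) subset_union_left (pvjh_pw_far_i H hm hB (L.ty _) (L.ty _) L.lev.fine sep) cnt F F' pvilQ⟩

/-- the frozen positions of the half state at `t` miss the entrance mouth of `s` -/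
theorem pvyj_Fo_far (H : PvieEng.Wf 𝔓 𝔈 m0 Cth r κs) (hm : m0 ≤ m) (hB : 𝔓.WfB) (L : PvyjLv 𝔓 𝔈 m) (hπ : π ∈ pvxPatSet 𝔓 x R m) (η : Conf PvPt) :
    Disjoint (pvilFo 𝔓 m π.p.zt π.p.tt η) (pvieSh π.p.zs (𝔈.iM m π.p.ts)) := by
  refine (pvjh_pw_far_o H hm hB (L.ty _) (L.ty _) L.lev.fine (pvzu_pat_ix hπ).sep).mono_left ?_
  rw [pvza_Bx_eq]
  exact pvza_Fo_box (L.hb _) (pvlm_Del_pos c m).le _ _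

/-- the frozen positions of the half state at `s` miss the exit mouth of `t` -/
theorem pvyj_Fi_far (H : PvieEng.Wf 𝔓 𝔈 m0 Cth r κs) (hm : m0 ≤ m) (hB : 𝔓.WfB) (L : PvyjLv 𝔓 𝔈 m) (hπ : π ∈ pvxPatSet 𝔓 x R m) (η : Conf PvPt) :
    Disjoint (pvilFi 𝔓 m π.p.zs π.p.ts η) (pvieSh π.p.zt (𝔈.oM m π.p.tt)) := by
  refine (pvjh_pw_far_i H hm hB (L.ty _) (L.ty _) L.lev.fine (pvzu_pat_ix hπ).sep).mono_left ?_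
  rw [pvza_Bx_eq]
  exact pvza_Fi_box (L.hb _) (pvlm_Del_pos c m).le _ _

end geo

/-! ## 5. one base, the contract -/

section top

variable {τ : Type} {c : ℝ} {𝔓 : PvxPar τ c} {𝔈 : PvieEng τ} {m : ℕ} {π : PvxIx τ} {ε : ℝ} {x : ℂ} {R : ℝ} {m0 : ℕ} {Cth : ℝ} {r κs : ℕ → ℝ}

/-- **WHAT ONE BASE OWES (`PvyjBs`), PAID AT A PRESENT DATUM OF THE GUARD**, from the two plain debts with pockets -/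
theorem pvyj_bs (hW : 𝔓.Wf) (H : PvieEng.Wf 𝔓 𝔈 m0 Cth r κs) (hm : m0 ≤ m) (L : PvyjLv 𝔓 𝔈 m) (hπ : π ∈ pvxPatSet 𝔓 x R m) {β' q B qf : ℝ≥0∞} {r' : ℝ}
    (hk : PvcnOkQ (𝔈.kit m ε) ε (𝔈.XQ m ε) β' q B r') (hqf : qf ≠ 0) {𝔎 : PvxnKit} {i : PvxnIx} {Y : Set ℂ} {σ : ℂ → Bool} (hY : DelGood Y)
    (hA : PvxnPA 𝔓 m π 0 𝔎 i Y σ) (hS : cfOf Y σ ∈ pvyjS 𝔓 𝔈 m π qf ε)
    (Po : PvbqPlain (pvieCc 𝔓 𝔈 m ε π.p) (pvilWno 𝔓 𝔈 m ε π.p.zt π.p.tt (π.Zt : Set (ℤ × ℤ))) (pvyk1Po 𝔓 𝔈 m ε π.p.zt π.p.tt (π.Zt : Set (ℤ × ℤ)))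
      (pvilMo 𝔓 𝔈 m ε π.p.zt π.p.tt (π.Zt : Set (ℤ × ℤ))) (pvyk1Fo 𝔓 𝔈 m π.p.zt π.p.tt) Y (pvilFo 𝔓 m π.p.zt π.p.tt (cfOf Y (pvjbC (𝔓.col π.p.ts) σ)))
      ((pvieSh π.p.zt (𝔈.oM m π.p.tt) \ pvilFo 𝔓 m π.p.zt π.p.tt (cfOf Y (pvjbC (𝔓.col π.p.ts) σ))) \ i.N) (pvjbC (𝔓.col π.p.ts) σ))
    (Pi : PvbqPlain (pvieCc 𝔓 𝔈 m ε π.p) (pvilWni 𝔓 𝔈 m ε π.p.zs π.p.ts (π.Zs : Set (ℤ × ℤ))) (pvyk1Pi 𝔓 𝔈 m ε π.p.zs π.p.ts (π.Zs : Set (ℤ × ℤ)))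
      (pvilMi 𝔓 𝔈 m ε π.p.zs π.p.ts (π.Zs : Set (ℤ × ℤ))) (pvyk1Fi 𝔓 𝔈 m π.p.zs π.p.ts) Y (pvilFi 𝔓 m π.p.zs π.p.ts (cfOf Y (pvjbC (𝔓.col π.p.ts) σ)))
      ((pvieSh π.p.zs (𝔈.iM m π.p.ts) \ pvilFi 𝔓 m π.p.zs π.p.ts (cfOf Y (pvjbC (𝔓.col π.p.ts) σ))) \ i.N) (pvjbC (𝔓.col π.p.ts) σ)) :
    ∃ fo fi : PvkeFun ℂ, PvyjBs (pvieCc 𝔓 𝔈 m ε π.p) (𝔈.kit m ε) ε (𝔓.col π.p.ts) (𝔈.XQ m ε) (pvieZo 𝔓 m π.p.zt π.p.tt) ((𝔓.Γ m).dout π.p.tt) π.p.l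
      (fun η₀ => pvilEoAt 𝔓 𝔈 m ε pvilQ π.p.zt π.p.tt η₀) (fun η₀ => pvilEiAt 𝔓 𝔈 m ε pvilQ π.p.zs π.p.ts η₀) (pvyjD β' q qf π.p.l.length) (pvilYfc 𝔓 𝔈 m π.p)
      (pvyjEoR 𝔓 𝔈 m π ε (π.Zt, π.Zs)) (pvyjEiR 𝔓 𝔈 m π ε (π.Zt, π.Zs)) i.F i.N Y (pvjbC (𝔓.col π.p.ts) σ)
      (pvilFo 𝔓 m π.p.zt π.p.tt (cfOf Y (pvjbC (𝔓.col π.p.ts) σ))) (pvilFi 𝔓 m π.p.zs π.p.ts (cfOf Y (pvjbC (𝔓.col π.p.ts) σ))) fo fi β' q (min qf 1) (min qf 1) := by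
  have hB := hW.toWfB
  have hcol : 𝔓.col π.p.ts = 𝔓.col π.p.tt := hπ.1.2.2.2.2.2.1
  obtain ⟨gFo, gFi, hZo, hZi, gd⟩ := pvyj_gd hS
  have cnt : (cfSites (cfOf Y (pvjbC (𝔓.col π.p.ts) σ))).Countable := by rw [cfOf_sites]; exact hY.lf.countable
  have q0 := pvyj_min_ne hqf
  have q1 : min qf 1 ≤ 1 := min_le_right _ _
  have go := pvkyl_gd_o (pvyj_Fo_anti (min_le_left qf 1) gFo) (pvyj_sq_o gd.1.1)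
  have gi := pvkyl_gd_i (pvyj_Fi_anti (min_le_left qf 1) gFi) (pvyj_sq_i gd.1.2)
  rw [← hcol] at go
  obtain ⟨hZ, hD⟩ := pvjh_pw_door (𝔈 := 𝔈) (ε := ε) L.lev.del hπ.1.1 (H.kit_del m ε)
  have sep := (pvzu_pat_ix hπ).sep
  have ch := pvjh_pw_chain H (pveg_dout4 L.lev _) hZ hD (pvzu_simple_pat_end hB L.lev.del L.lev.doors (H.kit_ref m ε) (H.kit_del m ε) (L.eo ε) (L.ei ε) hπ)
    (pvzu_clear_pat_end hB L.lev (H.kit_ref m ε) (H.kit_del m ε) (L.eo ε) (L.ei ε) hπ) (by rw [hZo]; exact subset_union_right) (by rw [hZi]; exact subset_union_left)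
    (pvjh_pw_far_o H hm hB (L.ty _) (L.ty _) L.lev.fine sep) (pvjh_pw_far_i H hm hB (L.ty _) (L.ty _) L.lev.fine sep) cnt (yf := pvilYfc 𝔓 𝔈 m π.p) rfl hk q0 q1 q0 q1 go gi
  obtain ⟨wo, wi⟩ := pvyj_pat_win (ε := ε) H hm hB L hπ hk.wf cnt (pvilFo 𝔓 m π.p.zt π.p.tt (cfOf Y (pvjbC (𝔓.col π.p.ts) σ))) (pvilFi 𝔓 m π.p.zs π.p.ts (cfOf Y (pvjbC (𝔓.col π.p.ts) σ)))
  have eo_eq : pvilEoAt 𝔓 𝔈 m ε pvilQ π.p.zt π.p.tt (cfOf Y (pvjbC (𝔓.col π.p.ts) σ)) =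
      pvilEo 𝔓 𝔈 m ε pvilQ π.p.zt π.p.tt (π.Zt : Set (ℤ × ℤ)) (pvilFo 𝔓 m π.p.zt π.p.tt (cfOf Y (pvjbC (𝔓.col π.p.ts) σ))) := by
    unfold pvilEoAt; rw [hZo]
  have ei_eq : pvilEiAt 𝔓 𝔈 m ε pvilQ π.p.zs π.p.ts (cfOf Y (pvjbC (𝔓.col π.p.ts) σ)) =
      pvilEi 𝔓 𝔈 m ε pvilQ π.p.zs π.p.ts (π.Zs : Set (ℤ × ℤ)) (pvilFi 𝔓 m π.p.zs π.p.ts (cfOf Y (pvjbC (𝔓.col π.p.ts) σ))) := by
    unfold pvilEiAt; rw [hZi]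
  have hdi := pvyj_din_ne hπ.1.1
  have mWo := pvyj_Wno_meas (𝔓 := 𝔓) hk.wf (H.m_oM m) (H.m_oK m) π.p.zt π.p.tt (π.Zt : Set (ℤ × ℤ))
  have mWi := pvyj_Wni_meas (𝔓 := 𝔓) hk.wf (H.m_iM m) (H.m_iK m) π.p.zs hdi (π.Zs : Set (ℤ × ℤ))
  have hGo := gd.2.1
  have hGi := gd.2.2
  rw [cfOf_sites] at hGo hGi
  have Eo := pvkyl_end_o (w := pvilQ) (F := pvilFo 𝔓 m π.p.zt π.p.tt (cfOf Y (pvjbC (𝔓.col π.p.ts) σ))) (D := pvkyDoor (𝔈.kit m ε) (pvieZo 𝔓 m π.p.zt π.p.tt) ((𝔓.Γ m).dout π.p.tt))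
    (Finset.finite_toSet π.Zt) mWo (wo.mK.union (pvkyi_measurable_door hk.wf _ (pvth_ne_zero ((𝔓.Γ m).dout1 _)))) (fun v _ hv h => h.2 hv)
    (by ext v; exact ⟨fun h => ⟨wo.win h, h.2⟩, fun h => ⟨wo.sub h.1, h.2⟩⟩) hGo (fun ζ h => h.1) (fun v _ hv => hv.1) Po
  have Ei := pvkyl_end_i (w := pvilQ) (F := pvilFi 𝔓 m π.p.zs π.p.ts (cfOf Y (pvjbC (𝔓.col π.p.ts) σ)))
    (D := pvkyDoor (𝔈.kit m ε) (pvthZ (𝔈.kit m ε).δ (pvieZo 𝔓 m π.p.zt π.p.tt) ((𝔓.Γ m).dout π.p.tt) π.p.l π.p.l.length) (pvthD ((𝔓.Γ m).dout π.p.tt) π.p.l π.p.l.length))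
    (Finset.finite_toSet π.Zs) mWi (wi.mK.union (pvkyi_measurable_door hk.wf _ (hD ▸ hdi))) (fun v _ hv h => h.2 hv)
    (by ext v; exact ⟨fun h => ⟨wi.win h, h.2⟩, fun h => ⟨wi.sub h.1, h.2⟩⟩) hGi (fun ζ h => h.1) (fun v _ hv => hv.1) Pi
  have hF := pvyj_dat_F hW hcol hY hA
  refine ⟨pvkyiFun (𝔈.kit m ε) ε (𝔓.col π.p.ts) (pvieCc 𝔓 𝔈 m ε π.p) (pvilYfc 𝔓 𝔈 m π.p) (cfOf Y (pvjbC (𝔓.col π.p.ts) σ))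
      (pvilEoAt 𝔓 𝔈 m ε pvilQ π.p.zt π.p.tt (cfOf Y (pvjbC (𝔓.col π.p.ts) σ))) (pvieZo 𝔓 m π.p.zt π.p.tt) ((𝔓.Γ m).dout π.p.tt) (min qf 1),
    pvkyiFun (𝔈.kit m ε) ε (𝔓.col π.p.ts) (pvieCc 𝔓 𝔈 m ε π.p) (pvilYfc 𝔓 𝔈 m π.p) (cfOf Y (pvjbC (𝔓.col π.p.ts) σ))
      (pvilEiAt 𝔓 𝔈 m ε pvilQ π.p.zs π.p.ts (cfOf Y (pvjbC (𝔓.col π.p.ts) σ))) (pvieZi 𝔓 m π.p.zs π.p.ts) ((𝔓.Γ m).din π.p.ts) (min qf 1), ?_⟩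
  exact
    { hD := by unfold pvyjD; exact pvkyl_D_le hk.frc _ _ _
      ch := ch
      Bo := by
        show PvbqEnd ε _ _ (pvilEoAt 𝔓 𝔈 m ε pvilQ π.p.zt π.p.tt (cfOf Y (pvjbC (𝔓.col π.p.ts) σ))) _ _ _
        rw [eo_eq]; exact Eo.1
      Bi := by
        show PvbqEnd ε _ _ (pvilEiAt 𝔓 𝔈 m ε pvilQ π.p.zs π.p.ts (cfOf Y (pvjbC (𝔓.col π.p.ts) σ))) _ _ _
        rw [ei_eq]; exact Ei.1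
      Fo_sub := fun v _ hv => hF.1 hv
      Fi_sub := fun v _ hv => hF.2 hv
      fr_o := fun v _ hv h => by
        rcases h with h | h
        · exact h.2 hv
        · exact Set.disjoint_left.1 (pvyj_Fo_far H hm hB L hπ _) hv h.1
      fr_i := fun v _ hv h => by
        rcases h with h | h
        · exact Set.disjoint_left.1 (pvyj_Fi_far H hm hB L hπ _) hv h.1
        · exact h.2 hv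
      bo := by
        show PvbqBlind ε _ (pvilEoAt 𝔓 𝔈 m ε pvilQ π.p.zt π.p.tt (cfOf Y (pvjbC (𝔓.col π.p.ts) σ))).A (pvilEoAt 𝔓 𝔈 m ε pvilQ π.p.zt π.p.tt (cfOf Y (pvjbC (𝔓.col π.p.ts) σ))).X _ _
          ((pvieSh π.p.zt (𝔈.oM m π.p.tt) \ pvilFo 𝔓 m π.p.zt π.p.tt (cfOf Y (pvjbC (𝔓.col π.p.ts) σ))) \ i.N) _
        rw [eo_eq]; exact Eo.2
      bi := by
        show PvbqBlind ε _ (pvilEiAt 𝔓 𝔈 m ε pvilQ π.p.zs π.p.ts (cfOf Y (pvjbC (𝔓.col π.p.ts) σ))).A (pvilEiAt 𝔓 𝔈 m ε pvilQ π.p.zs π.p.ts (cfOf Y (pvjbC (𝔓.col π.p.ts) σ))).X _ _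
          ((pvieSh π.p.zs (𝔈.iM m π.p.ts) \ pvilFi 𝔓 m π.p.zs π.p.ts (cfOf Y (pvjbC (𝔓.col π.p.ts) σ))) \ i.N) _
        rw [ei_eq]; exact Ei.2
      base := fun σ' h => by
        obtain ⟨e1, e2, e3, e4⟩ := pvyj_dat_base hW hcol hY hA h
        refine ⟨pvkyl_Eo_congr e2 e1, pvkyl_Ei_congr e4 e3, ?_⟩
        unfold pvilYfc
        rw [e1, e3]
      rAo := by
        show (pvilEoAt 𝔓 𝔈 m ε pvilQ π.p.zt π.p.tt (cfOf Y (pvjbC (𝔓.col π.p.ts) σ))).A = _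
        rw [eo_eq]; rfl
      rXo := by
        show (pvilEoAt 𝔓 𝔈 m ε pvilQ π.p.zt π.p.tt (cfOf Y (pvjbC (𝔓.col π.p.ts) σ))).X = _
        rw [eo_eq]; rfl
      rAi := by
        show (pvilEiAt 𝔓 𝔈 m ε pvilQ π.p.zs π.p.ts (cfOf Y (pvjbC (𝔓.col π.p.ts) σ))).A = _
        rw [ei_eq]; rfl
      rXi := by
        show (pvilEiAt 𝔓 𝔈 m ε pvilQ π.p.zs π.p.ts (cfOf Y (pvjbC (𝔓.col π.p.ts) σ))).X = _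
        rw [ei_eq]; rfl }

/-- **THE CONTRACT `PvyjInL` AT THE GUARDED KITS**: ANY kits which resample `C_c`, ANY guard `S ⊆ pvyjS`; the only debt is (POCKET-PLAIN) -/
theorem pvyj_inL (hW : 𝔓.Wf) (H : PvieEng.Wf 𝔓 𝔈 m0 Cth r κs) (hm : m0 ≤ m) (L : PvyjLv 𝔓 𝔈 m) (hπ : π ∈ pvxPatSet 𝔓 x R m) {β' q B qf : ℝ≥0∞}
    (hk : ∀ᶠ ε in 𝓝[>] (0 : ℝ), ∃ r' : ℝ, PvcnOkQ (𝔈.kit m ε) ε (𝔈.XQ m ε) β' q B r') (hqf : qf ≠ 0)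
    {𝔎s : ℝ → PvxnKit} (hC : ∀ ε, (𝔎s ε).C = pvieCc 𝔓 𝔈 m ε π.p) {S : ℝ → Set (Conf PvPt)} (hS : ∀ ε, S ε ⊆ pvyjS 𝔓 𝔈 m π qf ε)
    (hP : PvyjPk 𝔓 𝔈 m π fun ε => (𝔎s ε).guard (S ε)) :
    PvyjInL 𝔓 𝔈 m π (fun ε => (𝔎s ε).guard (S ε)) (pvyjD β' q qf π.p.l.length) (fun _ => pvilYfc 𝔓 𝔈 m π.p) := by
  refine PvyjIn.of_blind ?_ ?_ ?_
  · exact Eventually.of_forall fun ε => pvyj_door hW hπ.1.1 (H.kit_del m ε)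
  · filter_upwards [hk] with ε ⟨r', h⟩
    obtain ⟨hZ, hD⟩ := pvjh_pw_door (𝔈 := 𝔈) (ε := ε) L.lev.del hπ.1.1 (H.kit_del m ε)
    show MeasurableSet (𝔎s ε).C
    rw [hC]
    exact pvjh_pw_C_meas H h.wf (pveg_dout4 L.lev _) hZ hD
  · filter_upwards [hk, hP] with ε ⟨r', h1⟩ h2 Y hY i σ hA
    obtain ⟨p1, p2⟩ := h2 Y hY i σ hA
    obtain ⟨hS', hA'⟩ := (pvn1a_PA 𝔓 m π 0 (𝔎s ε) (S ε)).1 hA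
    obtain ⟨fo, fi, Bs⟩ := pvyj_bs hW H hm L hπ h1 hqf hY.1 hA' (hS ε hS') p1 p2
    rw [← hC ε] at Bs
    exact ⟨_, _, fo, fi, β', q, _, _, (π.Zt, π.Zs), pvyj_mem_L.2 rfl, fun p hp => pvyj_mem_L.1 hp, Bs⟩

end top

/-! ## 6. at the parameters and at the engine of record -/

section rec

variable {c : ℝ}

/-- the level record at the parameters and at the engine of record -/
theorem pvyj_lv_rec (c0 : 0 < c) (N : PvxNums) (hN : N.Ok) {𝔈 : PvieEng (pvxTau N)} (hR : PvnaRec N hN c 𝔈) {m : ℕ} (hm : (pvxParOf N hN c).m0 ≤ m) : PvyjLv (pvxParOf N hN c) 𝔈 m := by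
  obtain ⟨nb, rfl⟩ := hR
  have hW := pvxo_wf N hN c
  exact
    { lev := pvqh_lev hN c0 hm
      ty := pvqh_tyOk hN c
      eo := fun ε t => pvnxe_eo hN nb c0 hm ε t
      ei := fun ε t => pvnxe_ei hN nb c0 hm ε t
      hb := fun t => pvwk_rad_ge (by
        rw [pvxo_ty_b, pvxo_ty_b2]
        linarith [hN.m_gt, hN.m_lt, hN.B_lt, hN.ab1, hN.gap, hN.ab2]) (pvlm_H_pos m).le (hW.toWfB.rho0.trans hW.toWfB.rho1).le _ }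

/-- **(Y-IN) = `exit_pvyy_in` OF 12 OVER (POCKET-PLAIN)**: the contract at the parameters and at the engine of record, ANY kits which resample `C_c`, ANY guard `S ⊆ pvyjS` -/
theorem pvyj_in_rec (c0 : 0 < c) (N : PvxNums) (hN : N.Ok) (𝔈 : PvieEng (pvxTau N)) (hE : PvnaWf (pvxParOf N hN c) 𝔈) (hR : PvnaRec N hN c 𝔈) {x : ℂ} {R : ℝ} {m : ℕ} {π : PvxIx (pvxTau N)}
    (hm : (pvxParOf N hN c).m0 ≤ m) (hπ : π ∈ pvxPatSet (pvxParOf N hN c) x R m) {β' qc B qf : ℝ≥0∞} (hqf : qf ≠ 0)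
    (hk : ∀ᶠ ε in 𝓝[>] (0 : ℝ), ∃ r' : ℝ, PvcnOkQ (𝔈.kit m ε) ε (𝔈.XQ m ε) β' qc B r')
    {𝔎s : ℝ → PvxnKit} (hC : ∀ ε, (𝔎s ε).C = pvieCc (pvxParOf N hN c) 𝔈 m ε π.p) {S : ℝ → Set (Conf PvPt)} (hS : ∀ ε, S ε ⊆ pvyjS (pvxParOf N hN c) 𝔈 m π qf ε)
    (hP : PvyjPk (pvxParOf N hN c) 𝔈 m π fun ε => (𝔎s ε).guard (S ε)) :
    PvyjInL (pvxParOf N hN c) 𝔈 m π (fun ε => (𝔎s ε).guard (S ε)) (pvyjD β' qc qf π.p.l.length) (fun _ => pvilYfc (pvxParOf N hN c) 𝔈 m π.p) := by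
  obtain ⟨Cth, r, κs, H⟩ := hE.wf
  exact pvyj_inL (pvxo_wf N hN c) H hm (pvyj_lv_rec c0 N hN hR hm) hπ hk hqf hC hS hP

end rec

end Claimed.Agent.R289
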