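-- KEEP
import Claimed.Agent.R289.Exit.N1YK
import Claimed.Agent.R289.Exit.N1XE
import Claimed.Agent.R289.Tr.PatWin
import Claimed.Agent.R289.Tr.PlainR

/-!
# Row 289 (S0537), THE WALL, ROAD E, file Exit/N1YKR : PART (B) OF `exit_pvn1a_Y` AT THE OBJECTS OF RECORD: (GEO) AND (PLAIN) PAID      (helper214; prefix `pvyk1_`, `pvyk1`, `Pvyk1`)

**CAUTION (seam of 13:27Z): at the engine of record v2 of 124 `oK = pvegOKa`, `iK = pvegIKa` (funnel up to the plane `S(p) - δ/160`, minus the door region) `⊄ pvegOK`, `pvegIK`: the hypotheses `hoK hiK` of `pvzu_simple_pat`, `pvzu_clear_pat` (148)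
and of `pvjh_pw_chain_pat` (180) FAIL THERE.**      The forms which hold at the record: `pvnxe_simple`, `pvnxe_clear` of 184 (`Exit/N1XE`, through `PvzuEo PvzuEi` of 148 v2).      Here everything goes through them.      0 sorry.
* sec. 1  generic `𝔓`, `𝔈`: **`pvyk1_geo_of`** : `PvieSimple` + clearance + `PvegLev` + `pviwTyOk` ⟹ `Pvyk1Geo`;   **`pvyk1_plain_o`, `pvyk1_plain_i`** : the two `PvbqPlain` at a base of the guard (255 `pvkfp_plain_o _i`: (FZ) proved)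
* sec. 2  **`pvyk1_pl_of`** : `Pvyk1Pl` at the guarded kits;   **`pvyk1_ends_of`** : all the per base inputs, no contract left
* sec. 3  AT THE RECORD `pvxParOf N hN c`, `PvnaRec N hN c 𝔈`, `N.m0 ≤ m`: **`pvyk1_geo_rec`**, **`pvyk1_chain_rec`** (field `chain` of `PvyjInL` verbatim), **`pvyk1_ends_rec`**
-/

set_option autoImplicit false
set_option linter.unusedSectionVars false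
set_option linter.unusedVariables false

namespace Claimed.Agent.R289

open MeasureTheory Filter Topology Set Claims.C0465
open scoped ENNReal

/-! ## 1. (GEO), (PLAIN) at one base -/

section gen

variable {τ : Type} {c : ℝ} {𝔓 : PvxPar τ c} {𝔈 : PvieEng τ} {m : ℕ} {π : PvxIx τ} {ε : ℝ}

/-- **(GEO) FROM THE TWO LINES OF 148 / 184 AND THE SEPARATION OF THE TWO PINS (180)** -/
theorem pvyk1_geo_of {m0 : ℕ} {Cth : ℝ} {r κs : ℕ → ℝ} (H : PvieEng.Wf 𝔓 𝔈 m0 Cth r κs) (hm : m0 ≤ m) (hB : 𝔓.WfB) (hL : PvegLev 𝔓 m) (hT : ∀ t, pviwTyOk 𝔓 t)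
    {x : ℂ} {R : ℝ} (hπ : π ∈ pvxPatSet 𝔓 x R m) (hs : PvieSimple 𝔓 𝔈 m ε π.p)
    (hc : ∀ S ∈ pvieTiles 𝔓 𝔈 m ε π.p, Disjoint S (pvieSh π.p.zt (pviwBox 𝔓 m π.p.tt) ∩ pvtU (pvlmDel c m) (pvtN8 (↑π.Zs ∪ ↑π.Zt))) ∧
      Disjoint S (pvieSh π.p.zs (pviwBox 𝔓 m π.p.ts) ∩ pvtU (pvlmDel c m) (pvtN8 (↑π.Zs ∪ ↑π.Zt)))) : Pvyk1Geo 𝔓 𝔈 m π ε where
  simple := hs
  d4 := pveg_dout4 hL _
  clr_o := (pvjh_pw_Wz_C (fun S hS => (hc S hS).1) subset_union_right).symm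
  clr_i := (pvjh_pw_Wz_C (fun S hS => (hc S hS).2) subset_union_left).symm
  far_o := (pvjh_pw_far_o H hm hB (hT _) (hT _) hL.fine (pvzu_pat_ix hπ).sep).mono_left inter_subset_right
  far_i := (pvjh_pw_far_i H hm hB (hT _) (hT _) hL.fine (pvzu_pat_ix hπ).sep).mono_left inter_subset_right

/-- **PLAIN COLOUR BLINDNESS OF THE FIRST LINK AT A BASE OF THE GUARD** (255) -/
theorem pvyk1_plain_o {m0 : ℕ} {Cth : ℝ} {r κs : ℕ → ℝ} (H : PvieEng.Wf 𝔓 𝔈 m0 Cth r κs) (hm : m0 ≤ m) (ht : pviwTyOk 𝔓 π.p.tt) (hρ : 0 < 𝔓.num.rho3)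
    (hb : (𝔓.ty π.p.tt).b * pvlmH m ≤ pviwRad 𝔓 m π.p.tt) (G : Pvyk1Geo 𝔓 𝔈 m π ε) {β' q qf : ℝ≥0∞} {yf : Conf PvPt → Set ℂ} {Y : Set ℂ} {σ : ℂ → Bool}
    (hG : Pvyk1G 𝔓 𝔈 m π qf ε (cfOf Y σ)) (Rc : Pvyk1Rec 𝔓 𝔈 m π β' q qf ε yf (cfOf Y σ)) :
    PvbqPlain (pvieCc 𝔓 𝔈 m ε π.p) (pvilWno 𝔓 𝔈 m ε π.p.zt π.p.tt (π.Zt : Set (ℤ × ℤ))) (pvyk1Po 𝔓 𝔈 m ε π.p.zt π.p.tt (π.Zt : Set (ℤ × ℤ)))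
      (pvilMo 𝔓 𝔈 m ε π.p.zt π.p.tt (π.Zt : Set (ℤ × ℤ))) (pvyk1Fo 𝔓 𝔈 m π.p.zt π.p.tt) Y (pvilFo 𝔓 m π.p.zt π.p.tt (cfOf Y σ))
      (pvieSh π.p.zt (𝔈.oM m π.p.tt) \ pvilFo 𝔓 m π.p.zt π.p.tt (cfOf Y σ)) σ := by
  have h := pvkfp_plain_o (p := pvyk1Po 𝔓 𝔈 m ε π.p.zt π.p.tt (π.Zt : Set (ℤ × ℤ))) (C := pvieCc 𝔓 𝔈 m ε π.p) (Wn := pvilWno 𝔓 𝔈 m ε π.p.zt π.p.tt (π.Zt : Set (ℤ × ℤ))) (ε := ε) (Y := Y) (σ := σ)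
    H hm ht ((𝔓.Γ m).dout1 _) (fun Y : Set ℂ => (pvbwT Y).qpart Subtype.val) hρ hb (by rw [hG.Zo]; exact pvkfp_Wz_o 𝔓 𝔈 m ε _ _ _) (by rw [hG.Zo]; exact G.clr_o) Rc.wo.sub
  rw [hG.Zo] at h
  exact h

/-- **PLAIN COLOUR BLINDNESS OF THE LAST LINK AT A BASE OF THE GUARD** (255) -/
theorem pvyk1_plain_i {m0 : ℕ} {Cth : ℝ} {r κs : ℕ → ℝ} (H : PvieEng.Wf 𝔓 𝔈 m0 Cth r κs) (hm : m0 ≤ m) (ht : pviwTyOk 𝔓 π.p.ts) (hd : ‖(𝔓.Γ m).din π.p.ts‖ = 1) (hρ : 0 < 𝔓.num.rho3)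
    (hb : (𝔓.ty π.p.ts).b * pvlmH m ≤ pviwRad 𝔓 m π.p.ts) (G : Pvyk1Geo 𝔓 𝔈 m π ε) {β' q qf : ℝ≥0∞} {yf : Conf PvPt → Set ℂ} {Y : Set ℂ} {σ : ℂ → Bool}
    (hG : Pvyk1G 𝔓 𝔈 m π qf ε (cfOf Y σ)) (Rc : Pvyk1Rec 𝔓 𝔈 m π β' q qf ε yf (cfOf Y σ)) :
    PvbqPlain (pvieCc 𝔓 𝔈 m ε π.p) (pvilWni 𝔓 𝔈 m ε π.p.zs π.p.ts (π.Zs : Set (ℤ × ℤ))) (pvyk1Pi 𝔓 𝔈 m ε π.p.zs π.p.ts (π.Zs : Set (ℤ × ℤ)))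
      (pvilMi 𝔓 𝔈 m ε π.p.zs π.p.ts (π.Zs : Set (ℤ × ℤ))) (pvyk1Fi 𝔓 𝔈 m π.p.zs π.p.ts) Y (pvilFi 𝔓 m π.p.zs π.p.ts (cfOf Y σ))
      (pvieSh π.p.zs (𝔈.iM m π.p.ts) \ pvilFi 𝔓 m π.p.zs π.p.ts (cfOf Y σ)) σ := by
  have h := pvkfp_plain_i (p := pvyk1Pi 𝔓 𝔈 m ε π.p.zs π.p.ts (π.Zs : Set (ℤ × ℤ))) (C := pvieCc 𝔓 𝔈 m ε π.p) (Wn := pvilWni 𝔓 𝔈 m ε π.p.zs π.p.ts (π.Zs : Set (ℤ × ℤ))) (ε := ε) (Y := Y) (σ := σ)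
    H hm ht hd (fun Y : Set ℂ => (pvbwT Y).qpart Subtype.val) hρ hb (by rw [hG.Zi]; exact pvkfp_Wz_i 𝔓 𝔈 m ε _ _ _) (by rw [hG.Zi]; exact G.clr_i) Rc.wi.sub
  rw [hG.Zi] at h
  exact h

theorem pvyk1_din1 {x : ℂ} {R : ℝ} (hπ : π ∈ pvxPatSet 𝔓 x R m) : ‖(𝔓.Γ m).din π.p.ts‖ = 1 := by
  have h1 := pvt_norm_dir ((𝔓.Γ m).dout π.p.tt) π.p.l
  rw [hπ.1.1.2, (𝔓.Γ m).dout1] at h1
  exact h1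

end gen

/-! ## 2. the contracts at the guarded kits -/

section kits

variable {τ : Type} {c : ℝ} {𝔓 : PvxPar τ c} {𝔈 : PvieEng τ} {m : ℕ} {π : PvxIx τ}

/-- **(PLAIN) PAID** at the guarded kits -/
theorem pvyk1_pl_of (hW : 𝔓.Wf) (hE : PvnaWf 𝔓 𝔈) (hm : 𝔓.m0 ≤ m) (hT : ∀ t, pviwTyOk 𝔓 t) (hρ : 0 < 𝔓.num.rho3) (hb : ∀ t, (𝔓.ty t).b * pvlmH m ≤ pviwRad 𝔓 m t)
    {x : ℂ} {R : ℝ} (hπ : π ∈ pvxPatSet 𝔓 x R m) {β' q B qf : ℝ≥0∞} (hqf : qf ≠ 0)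
    (hk : ∀ᶠ ε in 𝓝[>] (0 : ℝ), ∃ r₀ : ℝ, PvcnOkQ (𝔈.kit m ε) ε (𝔈.XQ m ε) β' q B r₀) (hGeo : ∀ᶠ ε in 𝓝[>] (0 : ℝ), Pvyk1Geo 𝔓 𝔈 m π ε)
    {𝔎s : ℝ → PvxnKit} {S' : ℝ → Set (Conf PvPt)} (hS' : ∀ᶠ ε in 𝓝[>] (0 : ℝ), ∀ ζ ∈ S' ε, Pvyk1G 𝔓 𝔈 m π qf ε (pvxnFl (𝔓.col π.p.ts) ζ)) :
    Pvyk1Pl 𝔓 𝔈 m π fun ε => (𝔎s ε).guard (S' ε) := by
  obtain ⟨Cth, r, κs, hWf⟩ := hE.wf
  filter_upwards [hk, hGeo, hS'] with ε ⟨r₀, h1⟩ h2 h3 Y hY i σ hA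
  have hS := h3 _ ((pvn1a_PA 𝔓 m π 0 (𝔎s ε) (S' ε)).1 hA).1
  obtain ⟨hG, Rc⟩ := pvyk1_base hW hWf hπ h1 h2 hqf hY.1.lf.countable hS
  exact ⟨pvyk1_plain_o hWf hm (hT _) hρ (hb _) h2 hG Rc, pvyk1_plain_i hWf hm (hT _) (pvyk1_din1 hπ) hρ (hb _) h2 hG Rc⟩

end kits

/-! ## 3. at the objects of record -/

section rec

variable {N : PvxNums} (hN : N.Ok) {c : ℝ}

theorem pvyk1_hb_rec (c : ℝ) (m : ℕ) (t : pvxTau N) : ((pvxParOf N hN c).ty t).b * pvlmH m ≤ pviwRad (pvxParOf N hN c) m t := by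
  have hB := pvnxe_wfB hN c
  refine pvwk_rad_ge ?_ (pvlm_H_pos m).le (hB.rho0.trans hB.rho1).le _
  show N.b1 ≤ 2 * N.b2
  linarith [hN.gap, hN.ab2, hN.ab1, hN.B_lt, hN.m_lt, hN.m_gt]

/-- **(GEO) AT THE RECORD** -/
theorem pvyk1_geo_rec (c0 : 0 < c) (nb : PvnaNb N) {m : ℕ} (hm : N.m0 ≤ m) (ε : ℝ) {x : ℂ} {R : ℝ} {π : PvxIx (pvxTau N)} (hπ : π ∈ pvxPatSet (pvxParOf N hN c) x R m) :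
    Pvyk1Geo (pvxParOf N hN c) (pvnaEngRec N hN c nb) m π ε := by
  obtain ⟨Cth, r, κs, H⟩ := (pvnr_wf hN c0 nb).wf
  exact pvyk1_geo_of H hm (pvnxe_wfB hN c) (pvnxe_lev hN c0 hm) (pvnxe_ty hN c) hπ (pvnxe_simple hN nb c0 hm ε hπ) (pvnxe_clear hN nb c0 hm ε hπ)

/-- **THE FIELD `chain` OF `PvyjInL` (93) VERBATIM AT THE RECORD**: ANY kits with `C = pvieCc`, ANY guard inside `Pvyk1G` -/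
theorem pvyk1_chain_rec (c0 : 0 < c) {𝔈 : PvieEng (pvxTau N)} (hR : PvnaRec N hN c 𝔈) {m : ℕ} (hm : N.m0 ≤ m) {x : ℂ} {R : ℝ} {π : PvxIx (pvxTau N)} (hπ : π ∈ pvxPatSet (pvxParOf N hN c) x R m)
    {β' q B qf : ℝ≥0∞} (hqf : qf ≠ 0) (hk : ∀ᶠ ε in 𝓝[>] (0 : ℝ), ∃ r₀ : ℝ, PvcnOkQ (𝔈.kit m ε) ε (𝔈.XQ m ε) β' q B r₀)
    {𝔎s : ℝ → PvxnKit} (hC : ∀ ε, (𝔎s ε).C = pvieCc (pvxParOf N hN c) 𝔈 m ε π.p) {S' : ℝ → Set (Conf PvPt)}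
    (hS' : ∀ᶠ ε in 𝓝[>] (0 : ℝ), ∀ ζ ∈ S' ε, Pvyk1G (pvxParOf N hN c) 𝔈 m π qf ε (pvxnFl ((pvxParOf N hN c).col π.p.ts) ζ)) :
    ∀ᶠ ε in 𝓝[>] (0 : ℝ), ∀ Y : Set ℂ, (DelGood Y ∧ ∀ᵐ ω₂ ∂pvP ε, DelGood (Y \ ((𝔎s ε).guard (S' ε)).C ∪ cfSites ω₂ ∩ ((𝔎s ε).guard (S' ε)).C)) → ∀ (i : PvxnIx) (σ : ℂ → Bool),
      PvxnPA (pvxParOf N hN c) m π 0 ((𝔎s ε).guard (S' ε)) i Y σ → PvxnPW (pvxParOf N hN c) m π 0 ((𝔎s ε).guard (S' ε)) i Y σ →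
      ∃ (fo fi : PvkeFun ℂ) (β'' q' qo qi : ℝ≥0∞), pvkeD (𝔈.kit m ε) (pvP ε) π.p.l.length q' qo qi ≤ pvyk1D β' q qf π.p.l.length ∧
        PvkyChain (𝔈.kit m ε) ε ((pvxParOf N hN c).col π.p.ts) (𝔈.XQ m ε) (pvieZo (pvxParOf N hN c) m π.p.zt π.p.tt) (((pvxParOf N hN c).Γ m).dout π.p.tt) π.p.l
          (cfOf Y (pvjbC ((pvxParOf N hN c).col π.p.ts) σ)) ((𝔎s ε).guard (S' ε)).C (pvilYfc (pvxParOf N hN c) 𝔈 m π.p)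
          (pvilEoAt (pvxParOf N hN c) 𝔈 m ε pvilQ π.p.zt π.p.tt (cfOf Y (pvjbC ((pvxParOf N hN c).col π.p.ts) σ)))
          (pvilEiAt (pvxParOf N hN c) 𝔈 m ε pvilQ π.p.zs π.p.ts (cfOf Y (pvjbC ((pvxParOf N hN c).col π.p.ts) σ))) fo fi β'' q' qo qi := by
  obtain ⟨nb, rfl⟩ := hR
  exact pvyk1_chain (pvxo_wf N hN c) (pvnr_wf hN c0 nb) hπ hqf hk (Eventually.of_forall fun ε => pvyk1_geo_rec hN c0 nb hm ε hπ) hC hS'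

/-- **ALL THE PER BASE INPUTS AT THE RECORD, NO CONTRACT LEFT**: the guard, the record (2 window ends, the chain in the small experiment), the two blind ends, the two plain blindness clauses -/
theorem pvyk1_ends_rec (c0 : 0 < c) {𝔈 : PvieEng (pvxTau N)} (hR : PvnaRec N hN c 𝔈) {m : ℕ} (hm : N.m0 ≤ m) {x : ℂ} {R : ℝ} {π : PvxIx (pvxTau N)} (hπ : π ∈ pvxPatSet (pvxParOf N hN c) x R m)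
    {β' q B qf : ℝ≥0∞} (hqf : qf ≠ 0) (hk : ∀ᶠ ε in 𝓝[>] (0 : ℝ), ∃ r₀ : ℝ, PvcnOkQ (𝔈.kit m ε) ε (𝔈.XQ m ε) β' q B r₀)
    {𝔎s : ℝ → PvxnKit} {S' : ℝ → Set (Conf PvPt)}
    (hS' : ∀ᶠ ε in 𝓝[>] (0 : ℝ), ∀ ζ ∈ S' ε, Pvyk1G (pvxParOf N hN c) 𝔈 m π qf ε (pvxnFl ((pvxParOf N hN c).col π.p.ts) ζ)) :
    Pvyk1Pl (pvxParOf N hN c) 𝔈 m π (fun ε => (𝔎s ε).guard (S' ε)) ∧
    ∀ᶠ ε in 𝓝[>] (0 : ℝ), ∀ Y : Set ℂ, (DelGood Y ∧ ∀ᵐ ω₂ ∂pvP ε, DelGood (Y \ ((𝔎s ε).guard (S' ε)).C ∪ cfSites ω₂ ∩ ((𝔎s ε).guard (S' ε)).C)) → ∀ (i : PvxnIx) (σ : ℂ → Bool),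
      PvxnPA (pvxParOf N hN c) m π 0 ((𝔎s ε).guard (S' ε)) i Y σ →
      Pvyk1G (pvxParOf N hN c) 𝔈 m π (min qf 1) ε (cfOf Y (pvjbC ((pvxParOf N hN c).col π.p.ts) σ)) ∧
      Pvyk1Rec (pvxParOf N hN c) 𝔈 m π β' q (min qf 1) ε (pvilYfc (pvxParOf N hN c) 𝔈 m π.p) (cfOf Y (pvjbC ((pvxParOf N hN c).col π.p.ts) σ)) ∧
      PvbqEnd ε (pvieCc (pvxParOf N hN c) 𝔈 m ε π.p) (pvkyDoor (𝔈.kit m ε) (pvieZo (pvxParOf N hN c) m π.p.zt π.p.tt) (((pvxParOf N hN c).Γ m).dout π.p.tt))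
        (pvilEoAt (pvxParOf N hN c) 𝔈 m ε pvilQ π.p.zt π.p.tt (cfOf Y (pvjbC ((pvxParOf N hN c).col π.p.ts) σ))) Y
        (pvilFo (pvxParOf N hN c) m π.p.zt π.p.tt (cfOf Y (pvjbC ((pvxParOf N hN c).col π.p.ts) σ))) (pvjbC ((pvxParOf N hN c).col π.p.ts) σ) ∧
      PvbqEnd ε (pvieCc (pvxParOf N hN c) 𝔈 m ε π.p) (pvkyDoor (𝔈.kit m ε) (pvieZi (pvxParOf N hN c) m π.p.zs π.p.ts) (((pvxParOf N hN c).Γ m).din π.p.ts))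
        (pvilEiAt (pvxParOf N hN c) 𝔈 m ε pvilQ π.p.zs π.p.ts (cfOf Y (pvjbC ((pvxParOf N hN c).col π.p.ts) σ))) Y
        (pvilFi (pvxParOf N hN c) m π.p.zs π.p.ts (cfOf Y (pvjbC ((pvxParOf N hN c).col π.p.ts) σ))) (pvjbC ((pvxParOf N hN c).col π.p.ts) σ) := by
  obtain ⟨nb, rfl⟩ := hR
  have hGeo : ∀ᶠ ε in 𝓝[>] (0 : ℝ), Pvyk1Geo (pvxParOf N hN c) (pvnaEngRec N hN c nb) m π ε := Eventually.of_forall fun ε => pvyk1_geo_rec hN c0 nb hm ε hπ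
  have hPl := pvyk1_pl_of (𝔎s := 𝔎s) (pvxo_wf N hN c) (pvnr_wf hN c0 nb) hm (pvnxe_ty hN c) hN.msk0 (pvyk1_hb_rec hN c m) hπ hqf hk hGeo hS'
  exact ⟨hPl, pvyk1_ends (pvxo_wf N hN c) (pvnr_wf hN c0 nb) hπ hqf hk hGeo hS' hPl⟩

end rec

end Claimed.Agent.R289
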