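-- KEEP
import Claimed.Agent.R289.Exit.ParEngF
import Claimed.Agent.R289.Exit.EngRec
import Claimed.Agent.R289.Exit.ParGeo

/-!
# Row 289 (S0537), THE WALL, ROAD E, file Exit/ParRec : REGION FACTS AT THE ENGINE OF RECORD, ON DEMAND OF THE ROOFS      (helper285; prefix `pvzhr_`)

Every line is stated at a generic `𝔓 : PvxPar τ c` under the records of helper1 / 124 / 182 (`PvxrNdg`, `PvegLev`, `PvefNdg`), then AT THE RECORD `pvxParOf N hN c`, `pvnaEngRec N hN c nb`.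
* sec. 1  **OFF, collar `3 δ`** (fields `eK_off fK_off` of `PvjtWf`, `Exit/ThickL` of 223; asked by 13): the resampled tiles of the two thick links miss the own-level box fattened by `3 δ`
          [a funnel WITHOUT THE MOUTH BALL starts at `S > .2 ρ h` (not at `ρ h / 10 + 2 δ`); blocks are made of cells off the box of `pvxrBx` cells = own box fattened by `ρ h / 10`]
          `pvzhr_rc_off` (abstract) | `pvzhr_oK_off pvzhr_iK_off` (funnels of 124) | `pvzhr_e_front pvzhr_e_off` (blocks of `e`, `zu + rK`, `zu + rO`) | `pvzhr_cell_off pvzhr_blocks_off pvzhr_F_off` (return of 182)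
          **`pvzhr_eK_off3`**, **`pvzhr_fK_off3`** (generic),   **`pvzhr_rec_eK_off3`**, **`pvzhr_rec_fK_off3`** (record)
-/

set_option autoImplicit false

namespace Claimed.Agent.R289

open Complex Set Metric

/-! ## 1. OFF -/

/-- **a funnel without the mouth ball** is off the centred square of half side `rk - e + s` as soon as `s² + (w + l)² ≤ rM²` -/
theorem pvzhr_rc_off {Y u p : ℂ} {e δ w rM rk l s : ℝ} (hu : u ^ 4 = 1) (he : 0 ≤ e + 2 * δ) (hl : |pvegL Y u p| ≤ l) (hM : 0 ≤ rM)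
    (hn : s ^ 2 + (w + l) ^ 2 ≤ rM ^ 2) (out : rk - e ≤ (Y * (starRingEnd ℂ) u).re) : Disjoint (pvegRc Y u p e δ w \ closedBall Y rM) (pvwSq 0 (rk - e + s)) := by
  rw [Set.disjoint_left]
  rintro v ⟨⟨h1, -, h3⟩, hv⟩ hb
  have h4 := pveg_sq_zero hu hb
  rw [pveg_S_zero Y u v] at h4
  rw [mem_closedBall_iff_norm, not_le] at hv
  have h5 := pveg_sq hu Y v
  have h6 : rM ^ 2 < ‖v - Y‖ ^ 2 := pow_lt_pow_left₀ hv hM (by norm_num)
  have h7 : |pvegL Y u v| ≤ w + l := by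
    have := abs_add_le (pvegL Y u v - pvegL Y u p) (pvegL Y u p)
    rw [sub_add_cancel] at this
    linarith
  have h8 : pvegL Y u v ^ 2 ≤ (w + l) ^ 2 := by
    rw [← sq_abs]
    exact pow_le_pow_left₀ (abs_nonneg _) h7 2
  have h9 : s ^ 2 < pvegS Y u v ^ 2 := by linarith
  have h10 : s < pvegS Y u v := lt_of_pow_lt_pow_left₀ 2 (by linarith) h9
  linarith

section gen

variable {τ : Type} {c : ℝ} {𝔓 : PvxPar τ c}

theorem pvzhr_K_off {Y u p : ℂ} {R δ rk : ℝ} (H : PvegDoor Y u p (R / 10) δ (R / 5) (5 * R / 16) (3 * R / 8) (R / 2) rk) (hf : 64 * δ ≤ R) :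
    Disjoint (pvegK Y u p (R / 10) δ (R / 5) (5 * R / 16)) (pvwSq 0 (rk + 3 * δ)) := by
  have hd := H.δ0
  have h := pvzhr_rc_off (s := R / 10 + 3 * δ) (w := R / 5) (rM := 5 * R / 16) (δ := δ) H.u4 (by linarith) H.lat (by linarith) (by nlinarith) H.out
  rw [show rk - R / 10 + (R / 10 + 3 * δ) = rk + 3 * δ by ring] at h
  exact h

/-- the tile of the first link is off the own-level box with the collar `3 δ` -/
theorem pvzhr_oK_off {m : ℕ} {t : τ} (hL : PvegLev 𝔓 m) (hT : pviwTyOk 𝔓 t) : Disjoint (pvegOK 𝔓 m t) (pvwSq 0 (pviwRad 𝔓 m t + 3 * pvlmDel c m)) :=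
  pvzhr_K_off (pveg_door_o hL hT) hL.fine

/-- the tile of the last link (= the funnel of the thick link `e`) is off the own-level box with the collar `3 δ` -/
theorem pvzhr_iK_off {m : ℕ} {t : τ} (hL : PvegLev 𝔓 m) (hT : pviwTyOk 𝔓 t) : Disjoint (pvegIK 𝔓 m t) (pvwSq 0 (pviwRad 𝔓 m t + 3 * pvlmDel c m)) :=
  pvzhr_K_off (pveg_door_i hL hT) hL.fine

/-- `1024 δ ≤ ρ h` -/
theorem pvzhr_fine {m : ℕ} {t : τ} (h : PvxrNdg 𝔓 m t) : 1024 * pvlmDel c m ≤ 𝔓.num.rho * pvlmH m := by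
  have hd := pvlm_Del_pos c m
  rw [← pvlm_N_mul_Del c m]
  have := mul_le_mul_of_nonneg_right h.fine hd.le
  linarith

/-- **the blocks of `e`, the last thin tile, the reference plug lie in front of the own-level box fattened by `ρ h / 10`** -/
theorem pvzhr_e_front (O0 : ℕ → Set ℂ) (Mo : ℕ → τ → Set ℂ) {m : ℕ} {t : τ} (h : PvxrNdg 𝔓 m t) {w : ℂ}
    (hw : w ∈ pveheK 𝔓 Mo m t ∪ pvieSh ((pvxrGam 𝔓 m).zu t) (pvehrK 𝔓 O0 m) ∪ pvieSh ((pvxrGam 𝔓 m).zu t) (pvehrO 𝔓 m)) :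
    pviwRad 𝔓 m t + 𝔓.num.rho * pvlmH m / 10 ≤ pvehFront (pvxrB 𝔓 t) w := by
  have G := pvxr_geo h
  have h1 := pveh_end_sub O0 Mo G.n0 t hw
  rw [G.zu'] at h1
  have h2 := pveh_body_front (pveh_Dl_pos G.n0) _ _ h1
  have h3 := pvxr_front_m h
  rw [← pvxr_front_eq] at h3
  have hd := pvlm_Del_pos c m
  have hn : (0 : ℝ) ≤ (pvxrNw 𝔓 m : ℝ) := by exact_mod_cast G.n0
  have h4 : pvehDl 𝔓 m / 2 = ((pvxrNw 𝔓 m : ℝ) + 1 / 2) * pvlmDel c m := by unfold pvehDl; ring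
  have h5 := mul_nonneg hn hd.le
  unfold pviwRad
  nlinarith

theorem pvzhr_e_off (O0 : ℕ → Set ℂ) (Mo : ℕ → τ → Set ℂ) {m : ℕ} {t : τ} (h : PvxrNdg 𝔓 m t) {s : ℝ} (hs : s < 𝔓.num.rho * pvlmH m / 10) :
    Disjoint (pveheK 𝔓 Mo m t ∪ pvieSh ((pvxrGam 𝔓 m).zu t) (pvehrK 𝔓 O0 m) ∪ pvieSh ((pvxrGam 𝔓 m).zu t) (pvehrO 𝔓 m)) (pvwSq 0 (pviwRad 𝔓 m t + s)) := by
  rw [Set.disjoint_left]
  intro w hw
  exact pveh_front_off (by linarith [pvzhr_e_front O0 Mo h hw])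

/-- **`eK_off` of `PvjtWf`**, generic -/
theorem pvzhr_eK_off3 {m : ℕ} {t : τ} (hL : PvegLev 𝔓 m) (h : PvxrNdg 𝔓 m t) (hT : pviwTyOk 𝔓 t) (Mo : ℕ → τ → Set ℂ) :
    Disjoint (pveheK 𝔓 Mo m t ∪ pvegIK 𝔓 m t) (pvwSq 0 (pviwRad 𝔓 m t + 3 * pvlmDel c m)) := by
  rw [Set.disjoint_union_left]
  refine ⟨?_, pvzhr_iK_off hL hT⟩
  have hd := pvlm_Del_pos c m
  exact (pvzhr_e_off (fun _ => ∅) Mo h (by linarith [pvzhr_fine h])).mono_left (fun w hw => Or.inl (Or.inl hw))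

/-- a closed cell off the square of `B` cells is off the open square of half side `B δ` -/
theorem pvzhr_cell_off {δ : ℝ} (hδ : 0 < δ) {B : ℤ} {q : ℤ × ℤ} (hq : B < |q.1| ∨ B < |q.2|) {w : ℂ} (hw : w ∈ pvtSq δ q) {r : ℝ} (hr : r < (B : ℝ) * δ) : w ∉ pvwSq 0 r := by
  rintro ⟨h1, h2⟩
  rw [sub_zero, abs_le] at h1 h2
  obtain ⟨w1, w2, w3, w4⟩ := hw
  have key : ∀ (k : ℤ) (x : ℝ), B < |k| → (k : ℝ) * δ ≤ x → x ≤ ((k : ℝ) + 1) * δ → -r ≤ x → x ≤ r → False := by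
    intro k x hk a1 a2 a3 a4
    rw [lt_abs] at hk
    rcases hk with hk | hk
    · have : (B : ℝ) + 1 ≤ (k : ℝ) := by exact_mod_cast hk
      nlinarith
    · have : (k : ℝ) + 1 ≤ -(B : ℝ) := by
        have : k + 1 ≤ -B := by omega
        exact_mod_cast this
      nlinarith
  rcases hq with hq | hq
  · exact key _ _ hq w1 w2 h1.1 h1.2
  · exact key _ _ hq w3 w4 h2.1 h2.2

/-- the own-level box fattened by `ρ h / 10` lies in the square of `pvxrBx` cells -/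
theorem pvzhr_Bx (m : ℕ) (t : τ) : pviwRad 𝔓 m t + 𝔓.num.rho * pvlmH m / 10 ≤ (pvxrBx 𝔓 m t : ℝ) * pvlmDel c m := by
  have hd := pvlm_Del_pos c m
  have h2 : (pvlmN c m : ℝ) * (2 * (𝔓.ty t).b2 + (𝔓.ty t).k * 𝔓.num.rho1 + 𝔓.num.rho / 10) ≤ (pvxrBx 𝔓 m t : ℝ) := Int.le_ceil _
  have h3 : pvlmH m = (pvlmN c m : ℝ) * pvlmDel c m := (pvlm_N_mul_Del c m).symm
  have := mul_le_mul_of_nonneg_right h2 hd.le
  unfold pviwRad pvwRad
  rw [h3]
  nlinarith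

/-- a block of the polyline of the thick return (the block of the plug included) is off the own-level box fattened by `s < ρ h / 10` -/
theorem pvzhr_block_off {m : ℕ} {t : τ} (h : PvefNdg 𝔓 m t) {j : ℕ} (hj : j ≤ (pvefW 𝔓 m t).length) {s : ℝ} (hs : s < 𝔓.num.rho * pvlmH m / 10) :
    Disjoint (pvehSq (pvccC (pvefZ 𝔓 m t) (pvefD 𝔓 m t) (pvefW 𝔓 m t) j) (pvehDl 𝔓 m / 2)) (pvwSq 0 (pviwRad 𝔓 m t + s)) := by
  have hO := pvef_ok_of_ndg h
  have hd := pvlm_Del_pos c m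
  have hn := pvef_n0 h
  rw [Set.disjoint_left]
  intro w hw
  rw [pvef_W_C, pvehDl, pvef_block_cells hd hn] at hw
  unfold pvtU at hw
  simp only [mem_iUnion, exists_prop] at hw
  obtain ⟨q, hq, hw⟩ := hw
  have h1 := (pvef_path_box hO _ (pvef_V_mem hO hj)).1
  exact pvzhr_cell_off hd (pvef_block_off hn _ h1 hq) hw (by linarith [pvzhr_Bx (𝔓 := 𝔓) m t])

/-- **the blocks of `f` and the block of the plug** -/
theorem pvzhr_blocks_off {m : ℕ} {t : τ} (h : PvefNdg 𝔓 m t) {s : ℝ} (hs : s < 𝔓.num.rho * pvlmH m / 10) :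
    Disjoint (pvefBlocks (pvehDl 𝔓 m) (pvefZ 𝔓 m t) (pvefD 𝔓 m t) (pvefW 𝔓 m t) ∪ pvehSq ((pvxrGam 𝔓 m).zu t) (pvehDl 𝔓 m / 2)) (pvwSq 0 (pviwRad 𝔓 m t + s)) := by
  rw [Set.disjoint_union_left]
  constructor
  · rw [Set.disjoint_left]
    intro w hw
    unfold pvefBlocks at hw
    simp only [mem_iUnion, exists_prop, Finset.mem_range] at hw
    obtain ⟨j, hj, hw⟩ := hw
    exact Set.disjoint_left.1 (pvzhr_block_off h hj.le hs) hw
  · have h1 := pvzhr_block_off h (le_refl (pvefW 𝔓 m t).length) hs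
    have h2 : pvccC (pvefZ 𝔓 m t) (pvefD 𝔓 m t) (pvefW 𝔓 m t) (pvefW 𝔓 m t).length = (pvxrGam 𝔓 m).zu t := by
      rw [pvccC, pvef_last_dir h, pvef_last_door h]
      ring
    rwa [h2] at h1

/-- **the funnel of the return without the mouth ball** -/
theorem pvzhr_F_off {m : ℕ} {t : τ} (h : PvefNdg 𝔓 m t) : Disjoint (pvefF 𝔓 m t \ pvegOM 𝔓 m t) (pvwSq 0 (pviwRad 𝔓 m t + 3 * pvlmDel c m)) := by
  obtain ⟨-, -, f3⟩ := pvef_C0_frame h
  have hu := pvef_I_pow (pvxrA 𝔓 t)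
  have hf := pvef_q217_fine h
  have hd := pvlm_Del_pos c m
  have hH := pvlm_H_pos m
  have h3 : (pvegYp 𝔓 m t * (starRingEnd ℂ) (I ^ pvxrA 𝔓 t)).re = pvlmH m * pvccN (𝔓.ty t).yp := by
    have := pvxr_side_dom (𝔓.ty t).yp
    unfold pvegYp
    rw [mul_assoc, Complex.re_ofReal_mul]
    congr 1
  have h4 := (abs_le.1 h.nd_p).1
  have out : pviwRad 𝔓 m t - pvegR 𝔓 m / 10 ≤ (pvegYp 𝔓 m t * (starRingEnd ℂ) (I ^ pvxrA 𝔓 t)).re := by
    rw [h3]
    unfold pviwRad pvwRad pvegR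
    nlinarith
  have := pvzhr_rc_off (s := pvegR 𝔓 m / 10 + 3 * pvlmDel c m) (w := pvegR 𝔓 m / 5) (rM := 5 * pvegR 𝔓 m / 16) (δ := pvlmDel c m) (p := pvefC0 𝔓 m t) hu (by linarith) f3 (by linarith) (by nlinarith) out
  rw [show pviwRad 𝔓 m t - pvegR 𝔓 m / 10 + (pvegR 𝔓 m / 10 + 3 * pvlmDel c m) = pviwRad 𝔓 m t + 3 * pvlmDel c m by ring] at this
  exact this

/-- **`fK_off` of `PvjtWf`**, generic -/
theorem pvzhr_fK_off3 {m : ℕ} {t : τ} (h : PvefNdg 𝔓 m t) : Disjoint (pveffK 𝔓 m t) (pvwSq 0 (pviwRad 𝔓 m t + 3 * pvlmDel c m)) := by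
  have hd := pvlm_Del_pos c m
  have hs : 3 * pvlmDel c m < 𝔓.num.rho * pvlmH m / 10 := by linarith [pvzhr_fine h.ndg]
  rw [Set.disjoint_left]
  rintro w ⟨(hw | hw) | hw, hn⟩ hb
  · exact Set.disjoint_left.1 (pvzhr_F_off h) ⟨hw, fun hM => hn (Or.inr hM)⟩ hb
  · exact Set.disjoint_left.1 (pvzhr_blocks_off h hs) (Or.inl hw) hb
  · exact Set.disjoint_left.1 (pvzhr_blocks_off h hs) (Or.inr hw.1) hb

end gen

/-! ### at the record -/

section rec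

variable {N : PvxNums} (hN : N.Ok) {c : ℝ} (c0 : 0 < c)

include c0 in
/-- the hypothesis of 182 at the parameters of record -/
theorem pvzhr_rec_ndg {m : ℕ} (hm : N.m0 ≤ m) (t : pvxTau N) : PvefNdg (pvxParOf N hN c) m t := pvef_ndg_of (pvxr_ndg_par hN c0 hm t) (pvea_tyOk hN t)

include c0 in
/-- **`eK_off` of `PvjtWf` AT THE RECORD** -/
theorem pvzhr_rec_eK_off3 {m : ℕ} (hm : N.m0 ≤ m) (t : pvxTau N) :
    Disjoint (pveheK (pvxParOf N hN c) (pvegIM (pvxParOf N hN c)) m t ∪ pvegIK (pvxParOf N hN c) m t) (pvwSq 0 (pviwRad (pvxParOf N hN c) m t + 3 * pvlmDel c m)) :=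
  pvzhr_eK_off3 ((pvea_par hN c0).lev hm) (pvxr_ndg_par hN c0 hm t) (pvea_tyOk hN t) _

include c0 in
/-- the same in the words of the engine of record -/
theorem pvzhr_rec_eK_off3' (nb : PvnaNb N) {m : ℕ} (hm : N.m0 ≤ m) (t : pvxTau N) :
    Disjoint ((pvnaEngRec N hN c nb).eK m t) (pvwSq 0 (pviwRad (pvxParOf N hN c) m t + 3 * pvlmDel c m)) := by
  rw [pvnr_eK]
  unfold pvnuEK
  rw [Set.disjoint_union_left]
  refine ⟨pvzhr_rec_eK_off3 hN c0 hm t, ?_⟩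
  have h := pvxr_ndg_par hN c0 hm t
  have hd := pvlm_Del_pos c m
  exact (pvzhr_e_off (fun _ => ∅) (pvegIM (pvxParOf N hN c)) h (by linarith [pvzhr_fine h])).mono_left
    (fun w hw => Or.inr (pvnu4_sh_mono _ (pvnu4_AE_sub _ _) hw))

include c0 in
/-- **`fK_off` of `PvjtWf` AT THE RECORD** -/
theorem pvzhr_rec_fK_off3 {m : ℕ} (hm : N.m0 ≤ m) (t : pvxTau N) :
    Disjoint (pveffK (pvxParOf N hN c) m t) (pvwSq 0 (pviwRad (pvxParOf N hN c) m t + 3 * pvlmDel c m)) := pvzhr_fK_off3 (pvzhr_rec_ndg hN c0 hm t)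

include c0 in
/-- the same in the words of the engine of record (U4: the tile of the thick return contains the West half of the ring of the reference plug) -/
theorem pvzhr_rec_fK_off3' (nb : PvnaNb N) {m : ℕ} (hm : N.m0 ≤ m) (t : pvxTau N) :
    Disjoint ((pvnaEngRec N hN c nb).fK m t) (pvwSq 0 (pviwRad (pvxParOf N hN c) m t + 3 * pvlmDel c m)) := by
  rw [pvnr_fK]
  unfold pvnuFK
  rw [Set.disjoint_union_left]
  refine ⟨pvzhr_rec_fK_off3 hN c0 hm t, ?_⟩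
  have h := pvxr_ndg_par hN c0 hm t
  have hd := pvlm_Del_pos c m
  exact (pvzhr_e_off (fun _ => ∅) (pvegIM (pvxParOf N hN c)) h (by linarith [pvzhr_fine h])).mono_left
    (fun w hw => Or.inr (pvnu4_sh_mono _ (pvnu4_AW_sub _ _) hw))

include c0 in
/-- the tile of the first link, collar `3 δ`, at the record -/
theorem pvzhr_rec_oK_off3 {m : ℕ} (hm : N.m0 ≤ m) (t : pvxTau N) :
    Disjoint (pvegOK (pvxParOf N hN c) m t) (pvwSq 0 (pviwRad (pvxParOf N hN c) m t + 3 * pvlmDel c m)) := pvzhr_oK_off ((pvea_par hN c0).lev hm) (pvea_tyOk hN t)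

end rec

end Claimed.Agent.R289
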