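-- KEEP
import Claimed.Agent.R289.Exit.ParOK

/-!
# Row 289 (S0537), THE WALL, ROAD E, roof (S0) PAR / node (1) ENG, file Exit/ParThin : THE THIN CHAIN `l1 t` AT THE DOORS OF RECORD, AS A PATH OF CELLS      (helper285; prefix `pvzht`, `Pvzht`)

`Exit/TrPar.lean` (helper1): `l1 t = pvxrWord M a b e⁺ e⁻ n = pvxrPoly (e⁺ - E a) corners`, cells `pvxrCells (e⁺ - E a) (E a) corners`, integer facts (Z1)-(Z6) under `PvxrOK`.
`Tr/CellChainM.lean`, `Exit/ParEngR.lean` (166): everything about tiles and door plugs of a word `l` is stated for a PATH OF CELLS `c0 :: c1 :: t` with `IsChain PvtAdj4` and `pvtCentres (pvtZ c1) (pvtZ c1 - pvtZ c0) l = (c1 :: t).map pvtZ`.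
THIS FILE = the seam:
* sec. 1  (K1) a consistent polyline is a chain of adjacent cells, its first cell is `c + u`
* sec. 2  `pvzhtT` (the tail), **`PvzhtPath`** = (K1) (K2) (K3) at the doors of record, `pvzht_path`
* sec. 3  (K4) door points and centres of the cells of `l1 t` = midpoints / centres of the cells of the path
* sec. 4  the lines of `PvieEng.Wf` which speak of the thin chain: `pvzht_last` (E8), `pvzht_box` (E3)
* sec. 5  **`pvzht_end`** (E4): tiles and door plugs `j < n` of `l1 t` miss the blocks of 166 [integer core `pvzht_path_off`: (Z3) (Z5) of helper1 + the cell behind the exit door]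
-/

set_option autoImplicit false

namespace Claimed.Agent.R289

open Set Complex

/-! ## 1. a consistent polyline is a chain of adjacent cells -/

theorem pvzht_adj_unit {u : ℤ × ℤ} (hu : PvxrUnit u) (c : ℤ × ℤ) : PvtAdj4 c (c + u) := by
  obtain ⟨u1, u2⟩ := u
  obtain ⟨c1, c2⟩ := c
  unfold PvxrUnit at hu
  unfold PvtAdj4
  simp only [Prod.mk_add_mk] at hu ⊢
  omega

/-- a straight leg -/
theorem pvzht_chain_leg {u : ℤ × ℤ} (hu : PvxrUnit u) (k : ℕ) (c : ℤ × ℤ) (L : List (ℤ × ℤ)) (h : List.IsChain PvtAdj4 ((c + (k : ℤ) • u) :: L)) :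
    List.IsChain PvtAdj4 (c :: (((List.range k).map fun s : ℕ => c + ((s : ℤ) + 1) • u) ++ L)) := by
  induction k generalizing c with
  | zero => simpa using h
  | succ k ih =>
    rw [List.range_succ_eq_map, List.map_cons, List.map_map, List.cons_append, List.isChain_cons_cons]
    refine ⟨by simpa using pvzht_adj_unit hu c, ?_⟩
    have e1 : c + ((0 : ℕ) + 1 : ℤ) • u = c + u := by simp
    have e2 : ((fun s : ℕ => c + ((s : ℤ) + 1) • u) ∘ Nat.succ) = fun s : ℕ => (c + u) + ((s : ℤ) + 1) • u := by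
      funext s
      simp only [Function.comp, Nat.succ_eq_add_one, Nat.cast_add, Nat.cast_one, add_smul, one_smul]
      abel
    rw [e1, e2]
    apply ih
    have e3 : c + u + (k : ℤ) • u = c + ((k + 1 : ℕ) : ℤ) • u := by
      push_cast
      rw [add_smul, one_smul]
      abel
    rw [e3]
    exact h

/-- **(K1)** -/
theorem pvzht_chain {u : ℤ × ℤ} (hu : PvxrUnit u) (c : ℤ × ℤ) (r : List ((ℤ × ℤ) × PvtTurn)) (h : PvxrCons c u r) : List.IsChain PvtAdj4 (c :: pvxrCells c u r) := by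
  induction r generalizing c u with
  | nil =>
    simp only [pvxrCells, List.isChain_cons_cons, List.isChain_singleton, and_true]
    exact pvzht_adj_unit hu c
  | cons x r ih =>
    obtain ⟨C, τ'⟩ := x
    obtain ⟨⟨k, hk, rfl⟩, h2⟩ := h
    simp only [pvxrCells, pvxr_D_smul hu]
    exact pvzht_chain_leg hu k c _ (ih (hu.rot τ') _ h2)

/-- the first cell of a consistent polyline -/
theorem pvzht_cells_head {u : ℤ × ℤ} (hu : PvxrUnit u) (c : ℤ × ℤ) (r : List ((ℤ × ℤ) × PvtTurn)) (h : PvxrCons c u r) : pvxrCells c u r = (c + u) :: (pvxrCells c u r).tail := by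
  cases r with
  | nil => simp [pvxrCells]
  | cons x r =>
    obtain ⟨C, τ'⟩ := x
    obtain ⟨⟨k, hk, rfl⟩, h2⟩ := h
    obtain ⟨k, rfl⟩ : ∃ j, k = j + 1 := ⟨k - 1, by omega⟩
    simp only [pvxrCells, pvxr_D_smul hu, List.range_succ_eq_map, List.map_cons, List.cons_append, List.tail_cons]
    simp

/-! ## 2. the path of the thin chain at the doors of record -/

section model

variable {τ : Type} {c : ℝ} (𝔓 : PvxPar τ c)

/-- the cell behind the exit door -/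
noncomputable def pvzhtC0 (m : ℕ) (t : τ) : ℤ × ℤ := pvxrEp 𝔓 m t - pvxrE (pvxrA 𝔓 t)

/-- the cells of the thin chain `l1 t` in order; the last one is the cell which FOLLOWS the word (= the first cell of the block of the reference plug) -/
noncomputable def pvzhtCells (m : ℕ) (t : τ) : List (ℤ × ℤ) :=
  pvxrCells (pvzhtC0 𝔓 m t) (pvxrE (pvxrA 𝔓 t)) (pvxrCorners (pvxrM 𝔓 m t) (pvxrA 𝔓 t) (pvxrB 𝔓 t) (pvxrEp 𝔓 m t) (pvxrEm 𝔓 m t) (pvxrNw 𝔓 m))

/-- the cells after the base cell `e⁺` -/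
noncomputable def pvzhtT (m : ℕ) (t : τ) : List (ℤ × ℤ) := (pvzhtCells 𝔓 m t).tail

/-- the whole path: the cell behind the exit door, the base cell `e⁺`, the other cells -/
noncomputable def pvzhtP (m : ℕ) (t : τ) : List (ℤ × ℤ) := pvzhtC0 𝔓 m t :: pvxrEp 𝔓 m t :: pvzhtT 𝔓 m t

theorem pvzht_eqns_cite : True := by
  have := @pvzhtC0.eq_1; have := @pvzhtCells.eq_1; have := @pvzhtT.eq_1; have := @pvzhtP.eq_1
  trivial

/-- **THE THIN CHAIN AS A PATH OF CELLS** = the hypotheses of `pvccm_centre pvccm_door pvccm_cor_disj` (`Tr/CellChainM`), `pveh_thin_disj` (`Exit/ParEngR`) at `c0 := pvzhtC0`, `c1 := pvxrEp`, `t := pvzhtT`, `l := l1 t` -/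
structure PvzhtPath (m : ℕ) (t : τ) : Prop where
  cells : pvzhtCells 𝔓 m t = pvxrEp 𝔓 m t :: pvzhtT 𝔓 m t
  chain : List.IsChain PvtAdj4 (pvzhtC0 𝔓 m t :: pvxrEp 𝔓 m t :: pvzhtT 𝔓 m t)
  cen : pvtCentres (pvtZ (pvxrEp 𝔓 m t)) (pvtZ (pvxrEp 𝔓 m t) - pvtZ (pvzhtC0 𝔓 m t)) ((pvxrGam 𝔓 m).l1 t) = (pvxrEp 𝔓 m t :: pvzhtT 𝔓 m t).map pvtZ
  pout : (pvxrGam 𝔓 m).pout t = (pvtCtr (pvlmDel c m) (pvzhtC0 𝔓 m t) + pvtCtr (pvlmDel c m) (pvxrEp 𝔓 m t)) / 2
  dout : (pvxrGam 𝔓 m).dout t = pvtZ (pvxrEp 𝔓 m t) - pvtZ (pvzhtC0 𝔓 m t)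
  len : ((pvxrGam 𝔓 m).l1 t).length = (pvzhtT 𝔓 m t).length

variable {𝔓}

theorem pvzht_path {B : ℤ} {m : ℕ} {t : τ} (h : PvxrOK B (pvxrM 𝔓 m t) (pvxrA 𝔓 t) (pvxrB 𝔓 t) (pvxrEp 𝔓 m t) (pvxrEm 𝔓 m t) (pvxrNw 𝔓 m)) : PvzhtPath 𝔓 m t := by
  have hu := pvxr_unit_E (pvxrA 𝔓 t)
  have hc := pvxr_cons h
  have e0 : pvzhtC0 𝔓 m t + pvxrE (pvxrA 𝔓 t) = pvxrEp 𝔓 m t := sub_add_cancel _ _
  have hcells : pvzhtCells 𝔓 m t = pvxrEp 𝔓 m t :: pvzhtT 𝔓 m t := by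
    have := pvzht_cells_head hu _ _ hc
    rw [sub_add_cancel] at this
    exact this
  have hd : pvtZ (pvxrEp 𝔓 m t) - pvtZ (pvzhtC0 𝔓 m t) = pvtZ (pvxrE (pvxrA 𝔓 t)) := by
    rw [← e0, pvtZ_add]; ring
  have hcen : pvtCentres (pvtZ (pvxrEp 𝔓 m t)) (pvtZ (pvxrEp 𝔓 m t) - pvtZ (pvzhtC0 𝔓 m t)) ((pvxrGam 𝔓 m).l1 t) = (pvxrEp 𝔓 m t :: pvzhtT 𝔓 m t).map pvtZ := by
    have := pvxr_poly_centres hu _ _ hc
    rw [sub_add_cancel] at this
    rw [hd, ← hcells, pvxr_gam_l1]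
    exact this
  refine ⟨hcells, ?_, hcen, ?_, ?_, pvccm_len_eq hcen⟩
  · rw [← hcells]; exact pvzht_chain hu _ _ hc
  · rw [pvxr_gam_pout]; exact pvzh_door_mid h.a4 _ _
  · rw [pvxr_gam_dout, hd, pvzh_Z_E h.a4]

/-! ## 3. door points and centres -/

/-- **(K4) the door point number `j`** of the thin chain is the midpoint of the centres of the cells number `j`, `j + 1` of the path -/
theorem PvzhtPath.door {m : ℕ} {t : τ} (P : PvzhtPath 𝔓 m t) (j : ℕ) (hj : j + 1 < (pvzhtP 𝔓 m t).length) :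
    pvthZ (pvlmDel c m) ((pvxrGam 𝔓 m).pout t) ((pvxrGam 𝔓 m).dout t) ((pvxrGam 𝔓 m).l1 t) j =
      (pvtCtr (pvlmDel c m) ((pvzhtP 𝔓 m t)[j]) + pvtCtr (pvlmDel c m) ((pvzhtP 𝔓 m t)[j + 1])) / 2 := by
  rw [P.pout, P.dout]
  exact pvccm_door (pvlmDel c m) P.cen j hj

/-- **(K4) the centre of the cell number `j`** of the thin chain is the centre of the cell number `j + 1` of the path -/
theorem PvzhtPath.centre {m : ℕ} {t : τ} (P : PvzhtPath 𝔓 m t) (j : ℕ) (hj : j + 1 < (pvzhtP 𝔓 m t).length) :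
    pvthZ (pvlmDel c m) ((pvxrGam 𝔓 m).pout t) ((pvxrGam 𝔓 m).dout t) ((pvxrGam 𝔓 m).l1 t) j +
      (pvlmDel c m : ℂ) * pvthD ((pvxrGam 𝔓 m).dout t) ((pvxrGam 𝔓 m).l1 t) j / 2 = pvtCtr (pvlmDel c m) ((pvzhtP 𝔓 m t)[j + 1]) := by
  have h := pvccm_centre (pvlmDel c m) P.cen j (by simpa [pvzhtP] using hj)
  rw [← P.pout, ← P.dout] at h
  have e : pvccD ((pvlmDel c m : ℂ) * (pvxrGam 𝔓 m).dout t) ((pvxrGam 𝔓 m).l1 t) j = (pvlmDel c m : ℂ) * pvthD ((pvxrGam 𝔓 m).dout t) ((pvxrGam 𝔓 m).l1 t) j := by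
    rw [pvccD_cov]
    have : pvthD ((pvxrGam 𝔓 m).dout t) ((pvxrGam 𝔓 m).l1 t) j = pvccD ((pvxrGam 𝔓 m).dout t) ((pvxrGam 𝔓 m).l1 t) j := rfl
    rw [this, pvccD_cov ((pvxrGam 𝔓 m).dout t)]
    ring
  rw [pvccC, ← pvthZ_eq, e] at h
  rw [h]
  rfl

theorem PvzhtPath.length {m : ℕ} {t : τ} (P : PvzhtPath 𝔓 m t) : (pvzhtP 𝔓 m t).length = ((pvxrGam 𝔓 m).l1 t).length + 2 := by
  simp only [pvzhtP, List.length_cons, P.len]

/-- a cell of the path but the first one is a cell of helper1 -/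
theorem PvzhtPath.mem_cells {m : ℕ} {t : τ} (P : PvzhtPath 𝔓 m t) (j : ℕ) (hj : j + 1 < (pvzhtP 𝔓 m t).length) : (pvzhtP 𝔓 m t)[j + 1] ∈ pvzhtCells 𝔓 m t := by
  rw [P.cells]
  simp only [pvzhtP, List.getElem_cons_succ]
  exact List.getElem_mem _

/-! ## 4. the lines of `PvieEng.Wf` which speak of the thin chain -/

/-- **(E8)** (any doors): the last door of the thin chain is the door of the reference plug -/
theorem pvzht_last {τ' : Type} (Γ : PvtsGeo τ') (t : τ') (O : Set ℂ) :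
    pvthSim (pvthZ Γ.δ (Γ.pout t) (Γ.dout t) (Γ.l1 t) (Γ.l1 t).length) (pvthD (Γ.dout t) (Γ.l1 t) (Γ.l1 t).length) '' O = pvieSh (Γ.zu t) (pvthSim Γ.pin0 Γ.din0 '' O) := by
  have e1 : pvthZ Γ.δ (Γ.pout t) (Γ.dout t) (Γ.l1 t) (Γ.l1 t).length = Γ.zu t + Γ.pin0 := by
    unfold pvthZ
    rw [List.take_length, Γ.l1_disp]
    ring
  have e2 : pvthD (Γ.dout t) (Γ.l1 t) (Γ.l1 t).length = Γ.din0 := by
    unfold pvthD
    rw [List.take_length, Γ.l1_dir]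
  rw [e1, e2]
  unfold pvieSh
  rw [Set.image_image]
  apply Set.image_congr
  intro w _
  unfold pvthSim
  ring

/-- the centre of a cell off the square of `B` cells -/
theorem pvzht_ctr_off {δ : ℝ} (hδ : 0 < δ) {B : ℤ} {x : ℤ × ℤ} (h : B < |x.1| ∨ B < |x.2|) : ((B : ℝ) + 1 / 2) * δ ≤ pvccN (pvtCtr δ x) := by
  unfold pvccN pvtCtr
  simp only
  rcases h with h | h
  · refine le_max_of_le_left ?_
    rcases lt_abs.1 h with h1 | h1
    · have : (B : ℝ) + 1 ≤ x.1 := by exact_mod_cast h1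
      refine le_trans ?_ (le_abs_self _)
      nlinarith
    · have : (B : ℝ) + 1 ≤ -x.1 := by exact_mod_cast h1
      refine le_trans ?_ (neg_le_abs _)
      nlinarith
  · refine le_max_of_le_right ?_
    rcases lt_abs.1 h with h1 | h1
    · have : (B : ℝ) + 1 ≤ x.2 := by exact_mod_cast h1
      refine le_trans ?_ (le_abs_self _)
      nlinarith
    · have : (B : ℝ) + 1 ≤ -x.2 := by exact_mod_cast h1
      refine le_trans ?_ (neg_le_abs _)
      nlinarith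

/-- the midpoint of the centres of two adjacent cells, the first one off the square of `B` cells -/
theorem pvzht_mid_off {δ : ℝ} (hδ : 0 < δ) {B : ℤ} {x x' : ℤ × ℤ} (ha : PvtAdj4 x x') (h : B < |x.1| ∨ B < |x.2|) : (B : ℝ) * δ ≤ pvccN ((pvtCtr δ x + pvtCtr δ x') / 2) := by
  have e1 : ((pvtCtr δ x + pvtCtr δ x') / 2).re = (((x.1 : ℝ) + x'.1) / 2 + 1 / 2) * δ := by
    have : ((pvtCtr δ x + pvtCtr δ x') / 2) = ((1 / 2 : ℝ) : ℂ) * (pvtCtr δ x + pvtCtr δ x') := by push_cast; ring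
    rw [this, Complex.re_ofReal_mul, Complex.add_re]
    simp only [pvtCtr]
    ring
  have e2 : ((pvtCtr δ x + pvtCtr δ x') / 2).im = (((x.2 : ℝ) + x'.2) / 2 + 1 / 2) * δ := by
    have : ((pvtCtr δ x + pvtCtr δ x') / 2) = ((1 / 2 : ℝ) : ℂ) * (pvtCtr δ x + pvtCtr δ x') := by push_cast; ring
    rw [this, Complex.im_ofReal_mul, Complex.add_im]
    simp only [pvtCtr]
    ring
  have b1 : x.1 - 1 ≤ x'.1 ∧ x'.1 ≤ x.1 + 1 := by unfold PvtAdj4 at ha; omega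
  have b2 : x.2 - 1 ≤ x'.2 ∧ x'.2 ≤ x.2 + 1 := by unfold PvtAdj4 at ha; omega
  have c1 : (x.1 : ℝ) - 1 ≤ x'.1 ∧ (x'.1 : ℝ) ≤ x.1 + 1 := ⟨by exact_mod_cast b1.1, by exact_mod_cast b1.2⟩
  have c2 : (x.2 : ℝ) - 1 ≤ x'.2 ∧ (x'.2 : ℝ) ≤ x.2 + 1 := ⟨by exact_mod_cast b2.1, by exact_mod_cast b2.2⟩
  unfold pvccN
  rw [e1, e2]
  rcases h with h | h
  · refine le_max_of_le_left ?_
    rcases lt_abs.1 h with h1 | h1
    · have : (B : ℝ) + 1 ≤ x.1 := by exact_mod_cast h1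
      refine le_trans ?_ (le_abs_self _)
      nlinarith [c1.1]
    · have : (B : ℝ) + 1 ≤ -x.1 := by exact_mod_cast h1
      refine le_trans ?_ (neg_le_abs _)
      nlinarith [c1.2]
  · refine le_max_of_le_right ?_
    rcases lt_abs.1 h with h1 | h1
    · have : (B : ℝ) + 1 ≤ x.2 := by exact_mod_cast h1
      refine le_trans ?_ (le_abs_self _)
      nlinarith [c2.1]
    · have : (B : ℝ) + 1 ≤ -x.2 := by exact_mod_cast h1
      refine le_trans ?_ (neg_le_abs _)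
      nlinarith [c2.2]

/-- **(E3)** the door points `j ≥ 1` and the centres of the cells of the thin chain are off the own-level box FATTENED BY `ρ h / 10` -/
theorem pvzht_box {m : ℕ} {t : τ} (h : PvxrOK (pvzhB 𝔓 m t) (pvxrM 𝔓 m t) (pvxrA 𝔓 t) (pvxrB 𝔓 t) (pvxrEp 𝔓 m t) (pvxrEm 𝔓 m t) (pvxrNw 𝔓 m)) :
    (∀ j, 1 ≤ j → j ≤ ((pvxrGam 𝔓 m).l1 t).length →
      pviwRad 𝔓 m t + 𝔓.num.rho * pvlmH m / 10 ≤ pvccN (pvthZ (pvlmDel c m) ((pvxrGam 𝔓 m).pout t) ((pvxrGam 𝔓 m).dout t) ((pvxrGam 𝔓 m).l1 t) j)) ∧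
    (∀ j, j < ((pvxrGam 𝔓 m).l1 t).length →
      pviwRad 𝔓 m t + 𝔓.num.rho * pvlmH m / 10 ≤ pvccN (pvthZ (pvlmDel c m) ((pvxrGam 𝔓 m).pout t) ((pvxrGam 𝔓 m).dout t) ((pvxrGam 𝔓 m).l1 t) j +
        (pvlmDel c m : ℂ) * pvthD ((pvxrGam 𝔓 m).dout t) ((pvxrGam 𝔓 m).l1 t) j / 2)) := by
  have P := pvzht_path h
  have hδ := pvlm_Del_pos c m
  have hB := pvzh_B_box (𝔓 := 𝔓) m t
  have hZ4 := pvxr_cells_box h
  constructor
  · intro j h1 hj
    obtain ⟨i, rfl⟩ : ∃ i, j = i + 1 := ⟨j - 1, by omega⟩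
    have hl : i + 1 + 1 < (pvzhtP 𝔓 m t).length := by rw [P.length]; omega
    rw [P.door (i + 1) hl]
    have ha : PvtAdj4 ((pvzhtP 𝔓 m t)[i + 1]) ((pvzhtP 𝔓 m t)[i + 1 + 1]) := List.isChain_iff_getElem.1 P.chain (i + 1) hl
    exact hB.trans (pvzht_mid_off hδ ha (hZ4 _ (P.mem_cells i (by omega))).1)
  · intro j hj
    have hl : j + 1 < (pvzhtP 𝔓 m t).length := by rw [P.length]; omega
    rw [P.centre j hl]
    have := pvzht_ctr_off hδ (hZ4 _ (P.mem_cells j hl)).1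
    nlinarith

end model

/-! ## 5. (E4) the thin chain misses the blocks of the thick link -/

/-- the cells of the blocks of 166 are cells of the thick set of helper1 -/
theorem pvzht_E_thick (b : ℕ) (em : ℤ × ℤ) (n : ℤ) : pvehE (em + pvxrUo b (2 * n + 1)) n (pvxrLe b) ⊆ pvxrThick b em n 0 := by
  intro x hx
  rcases hx with hx | ⟨j, hj, hx⟩
  · left
    simpa [pvxrBlock, pvehCells] using hx
  · right
    simp only [mem_iUnion, Finset.mem_range, exists_prop]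
    refine ⟨j, hj, ?_⟩
    have e : em + pvxrLk b (2 * n + 1) j = em + pvxrUo b (2 * n + 1) + (2 * n + 1) • pvehV (pvxrLe b) j := by
      rw [pvxrLk, pvehV, add_assoc]
    rw [e]
    simpa [pvxrBlock, pvehCells] using hx

theorem pvzht_thick_mono (b : ℕ) (em : ℤ × ℤ) {n : ℤ} (hn : 0 ≤ n) : pvxrThick b em n 0 ⊆ pvxrThick b em n n := by
  have hb : ∀ q, pvxrBlock q (n + 0) ⊆ pvxrBlock q (n + n) := fun q x hx => ⟨hx.1.trans (by omega), hx.2.trans (by omega)⟩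
  exact Set.union_subset_union (hb _) (Set.iUnion₂_mono fun j _ => hb _)

/-- a cell of the blocks in the row of the west door of the plug, not east of its first cell, is its first cell -/
theorem pvzht_tr_last {b : ℕ} (hb : b < 4) {em : ℤ × ℤ} {n : ℤ} (_hn : 0 ≤ n) {x : ℤ × ℤ} (hT : PvxrTR b em n 0 x)
    (h2 : x.2 = (em + pvxrUo b (2 * n + 1)).2) (h1 : x.1 ≤ (em + pvxrUo b (2 * n + 1)).1 - n) : x = em + pvxrUo b (2 * n + 1) - (n, 0) := by
  obtain ⟨m1, m2⟩ := em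
  obtain ⟨x1, x2⟩ := x
  interval_cases b <;> simp only [PvxrTR, pvxrUo, Nat.reduceMod, Prod.mk_add_mk, Prod.mk_sub_mk, Prod.mk.injEq] at hT h1 h2 ⊢ <;> omega

set_option linter.unusedSimpArgs false in
/-- the cell behind the exit door is not a cell of the blocks -/
theorem pvzht_c0_off {B M : ℤ} {a b : ℕ} {ep em : ℤ × ℤ} {n : ℤ} (h : PvxrOK B M a b ep em n) : ¬ PvxrTR b em n 0 (ep - pvxrE a) := by
  obtain ⟨a4, b4, n0, B0, ep_n, ep_l, em_n, em_l, ep_M, em_M, sep⟩ := h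
  rw [abs_le] at ep_l em_l
  obtain ⟨p1, p2⟩ := ep
  obtain ⟨m1, m2⟩ := em
  interval_cases a <;> interval_cases b <;>
  simp only [pvxrDot, pvxrE, Nat.reduceMod, Nat.reduceAdd, lt_abs, Nat.reduceEqDiff, forall_const, false_imp_iff, OfNat.zero_ne_ofNat, OfNat.ofNat_ne_zero, OfNat.one_ne_ofNat, OfNat.ofNat_ne_one, zero_ne_one, one_ne_zero, IsEmpty.forall_iff] at ep_n ep_l em_n em_l ep_M em_M sep <;>
  simp only [PvxrTR, pvxrE, Nat.reduceMod, Prod.mk_sub_mk] <;> omega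

/-- **no cell of the path but the last one is a cell of the blocks** -/
theorem pvzht_path_off {B M : ℤ} {a b : ℕ} {ep em : ℤ × ℤ} {n : ℤ} (h : PvxrOK B M a b ep em n) {tl : List (ℤ × ℤ)}
    (hc : pvxrCells (ep - pvxrE a) (pvxrE a) (pvxrCorners M a b ep em n) = ep :: tl) :
    ∀ j (hj : j < ((ep - pvxrE a) :: ep :: tl).length), j ≤ tl.length → ((ep - pvxrE a) :: ep :: tl)[j] ∉ pvehE (em + pvxrUo b (2 * n + 1)) n (pvxrLe b) := by
  intro j hj hjl hx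
  have hT0 := pvzht_E_thick b em n hx
  have hTR := pvxr_thick_rect h.b4 h.n0 hT0
  cases j with
  | zero => exact pvzht_c0_off h hTR
  | succ i =>
    simp only [List.getElem_cons_succ] at hT0 hTR
    have hi : i < (ep :: tl).length := by simpa using hj
    have hmem : (ep :: tl)[i] ∈ pvxrCells (ep - pvxrE a) (pvxrE a) (pvxrCorners M a b ep em n) := by rw [hc]; exact List.getElem_mem _
    obtain ⟨k2, k1⟩ := pvxr_cells_thick h _ hmem (pvzht_thick_mono b em h.n0 hT0)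
    have e1 := pvzht_tr_last h.b4 h.n0 hTR k2 k1
    have e2 := pvzh_cells_last (ep - pvxrE a) (pvxrE a) (pvxrCorners M a b ep em n)
    rw [pvxr_end h, hc, ← e1] at e2
    have hnd := pvxr_nodup h
    rw [hc] at hnd
    have e3 : (ep :: tl)[tl.length]'(by simp) = (ep :: tl)[i] := by
      rw [List.getLast?_eq_getElem?] at e2
      simp only [List.length_cons, Nat.add_sub_cancel] at e2
      rw [List.getElem?_eq_getElem (by simp)] at e2
      exact Option.some.inj e2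
    have := (hnd.getElem_inj_iff).1 e3
    omega

section model

variable {τ : Type} {c : ℝ} {𝔓 : PvxPar τ c}

/-- **(E4)** the door plugs `j < n` and the tiles of the thin chain miss the blocks of the thick link and the block of the reference plug -/
theorem pvzht_end {B : ℤ} {m : ℕ} {t : τ} (h : PvxrOK B (pvxrM 𝔓 m t) (pvxrA 𝔓 t) (pvxrB 𝔓 t) (pvxrEp 𝔓 m t) (pvxrEm 𝔓 m t) (pvxrNw 𝔓 m)) (G : PvehGeo 𝔓 m t)
    {kit : PvthKit} {r : ℝ} (R : PvccKitRef kit r) (hδ : kit.δ = pvlmDel c m) (O0 : ℕ → Set ℂ) (Mo : ℕ → τ → Set ℂ) :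
    (∀ j, j < ((pvxrGam 𝔓 m).l1 t).length → Disjoint (pveheK 𝔓 Mo m t ∪ pvieSh ((pvxrGam 𝔓 m).zu t) (pvehrK 𝔓 O0 m) ∪ pvieSh ((pvxrGam 𝔓 m).zu t) (pvehrO 𝔓 m))
      (pvthSim (pvthZ (pvlmDel c m) ((pvxrGam 𝔓 m).pout t) ((pvxrGam 𝔓 m).dout t) ((pvxrGam 𝔓 m).l1 t) j) (pvthD ((pvxrGam 𝔓 m).dout t) ((pvxrGam 𝔓 m).l1 t) j) '' kit.O₀)) ∧
    (∀ j, j < ((pvxrGam 𝔓 m).l1 t).length → Disjoint (pveheK 𝔓 Mo m t ∪ pvieSh ((pvxrGam 𝔓 m).zu t) (pvehrK 𝔓 O0 m) ∪ pvieSh ((pvxrGam 𝔓 m).zu t) (pvehrO 𝔓 m))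
      (pvthSim (pvthZ (pvlmDel c m) ((pvxrGam 𝔓 m).pout t) ((pvxrGam 𝔓 m).dout t) ((pvxrGam 𝔓 m).l1 t) j) (pvthD ((pvxrGam 𝔓 m).dout t) ((pvxrGam 𝔓 m).l1 t) j) '' kit.K₀ (pvthL ((pvxrGam 𝔓 m).l1 t) j))) := by
  have P := pvzht_path h
  have hoff := pvzht_path_off h P.cells
  have hd := pveh_thin_disj R P.chain P.cen _ (fun j hj hjl => hoff j hj (by rw [← P.len]; exact hjl))
  rw [hδ, ← P.pout, ← P.dout] at hd
  have hsub := pveh_end_cells O0 Mo G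
  exact ⟨fun j hj => ((hd.1 j hj).mono_right hsub).symm, fun j hj => ((hd.2 j hj).mono_right hsub).symm⟩

end model

end Claimed.Agent.R289
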