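import Claimed.Agent.R289.Exit.TrPar

/-!
# Row 289 (S0537), THE WALL, ROAD E, roof (S0) PAR, file Exit/ParWord : THE CELLS OF THE WORD OF A POLYLINE      (helper51, second of helper1 on `par.Γ`; prefix `pvrw`, `Pvrw`)

API of `pvxrPoly` (`Exit/TrPar.lean`, helper1) in INTEGER coordinates of the cells.
* sec. 1  `pvrwCells v u l` = the integer cells of a word (first cell `v`, entered in the direction `u`) and the next cell;   `pvrw_centres` (`= pvtCentres` of 218);   `pvrw_simple` (Nodup gives `PvccSimple` of 166);   `pvrwSeg`, `pvrw_cells_run`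
* sec. 2  `PvrwOk c u r` (CONSISTENT polyline: every corner straight ahead at distance `≥ 1`; arithmetic form `PvrwOkA`, `pvrw_ok_of_A`), `pvrwPolyCells`, **`pvrw_poly_cells`** (the cells of `pvxrPoly c r`), `PvrwIn c u C x` (a segment, LINEAR in `x`: `omega` decides it), `pvrwSegs`,
          **`pvrw_mem_poly`** (every cell lies on a segment), `PvrwDisj`, **`pvrw_poly_nodup`**, **`pvrw_poly_simple`** (pairwise disjoint segments give `PvccSimple`)
* sec. 3  `pvrwF a e` (forward coordinate), **`PvrwGood M a b ep em n r`** (the integer data of a type are not degenerate), `pvrw_word_okA`, `pvrw_word_disj` (20 cases, `omega`), `PvrwOut PvrwRing PvrwRamp`, `pvrw_segs_mem`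
* sec. 4  EXITS for `pvxrWord` (= `l1 t` of `pvxrGam`): `pvrwL1` (its cells), `pvrw_L1_eq`, **`pvrw_L1_nodup`**, **`pvrw_word_simple`** (`PvccSimple`), **`pvrw_L1_mem`** (out-run, ring road, ramp + manoeuvre)
-/

set_option autoImplicit false

namespace Claimed.Agent.R289

open Complex Set

/-! ## 1. the integer cells of a word -/

/-- the integer cells of a word, and the next cell: first cell `v`, entered in the direction `u` -/
def pvrwCells (v u : ℤ × ℤ) : List PvtTurn → List (ℤ × ℤ)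
  | [] => [v]
  | τ :: l => v :: pvrwCells (v + pvccRotI u τ) (pvccRotI u τ) l

theorem pvrw_centres (v u : ℤ × ℤ) (l : List PvtTurn) : pvtCentres (pvtZ v) (pvtZ u) l = (pvrwCells v u l).map pvtZ := by
  induction l generalizing v u with
  | nil => rfl
  | cons τ l ih =>
    rw [pvtCentres, pvrwCells, List.map_cons, ← ih, pvtZ_add, pvccRotI_eq]

/-- a word whose integer cells are distinct is cell-simple -/
theorem pvrw_simple {v u : ℤ × ℤ} {l : List PvtTurn} (h : (pvrwCells v u l).Nodup) : PvccSimple l l.length :=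
  pvcc_simple_of_nodup (z := pvtZ v) (d := pvtZ u) (by rw [pvrw_centres]; exact h.map pvtZ_injective)

/-- the cells `c + u, …, c + k u` -/
def pvrwSeg (c u : ℤ × ℤ) (k : ℕ) : List (ℤ × ℤ) := (List.range k).map fun i : ℕ => c + ((i : ℤ) + 1) • u

theorem pvrw_seg_zero (c u : ℤ × ℤ) : pvrwSeg c u 0 = [] := rfl

theorem pvrw_seg_succ' (c u : ℤ × ℤ) (k : ℕ) : pvrwSeg c u (k + 1) = (c + u) :: pvrwSeg (c + u) u k := by
  unfold pvrwSeg
  rw [List.range_succ_eq_map, List.map_cons, List.map_map]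
  congr 1
  · simp
  · refine List.map_congr_left fun i _ => ?_
    simp only [Function.comp_apply, Nat.succ_eq_add_one]
    push_cast
    rw [add_smul ((i : ℤ) + 1) 1 u, one_smul, add_assoc, add_comm u]

theorem pvrw_seg_succ (c u : ℤ × ℤ) (k : ℕ) : pvrwSeg c u (k + 1) = pvrwSeg c u k ++ [c + ((k : ℤ) + 1) • u] := by
  unfold pvrwSeg
  rw [List.range_succ, List.map_append]
  rfl

theorem pvrw_cells_run (v u : ℤ × ℤ) (k : ℕ) (l : List PvtTurn) :
    pvrwCells (v + u) u (List.replicate k PvtTurn.S ++ l) = pvrwSeg v u k ++ pvrwCells (v + ((k : ℤ) + 1) • u) u l := by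
  induction k generalizing v with
  | zero => simp [pvrwSeg]
  | succ k ih =>
    rw [List.replicate_succ, List.cons_append, pvrwCells, pvrw_seg_succ', List.cons_append]
    congr 1
    have : pvccRotI u PvtTurn.S = u := rfl
    rw [this, ih (v + u)]
    congr 2
    push_cast
    rw [add_smul ((k : ℤ) + 1) 1 u, one_smul, add_assoc, add_comm u]

/-! ## 2. polylines -/

/-- a unit direction -/
def PvrwU (u : ℤ × ℤ) : Prop := u = (1, 0) ∨ u = (0, 1) ∨ u = (-1, 0) ∨ u = (0, -1)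

theorem PvrwU.rot {u : ℤ × ℤ} (h : PvrwU u) (τ : PvtTurn) : PvrwU (pvccRotI u τ) := by
  rcases h with rfl | rfl | rfl | rfl <;> cases τ <;> simp [PvrwU, pvccRotI]

/-- **the polyline is CONSISTENT**: every corner lies straight ahead of the previous one, at distance `≥ 1` -/
def PvrwOk : ℤ × ℤ → ℤ × ℤ → List ((ℤ × ℤ) × PvtTurn) → Prop
  | _, _, [] => True
  | c, u, (C, τ) :: r => (∃ k : ℕ, 0 < k ∧ C = c + (k : ℤ) • u) ∧ PvrwOk C (pvccRotI u τ) r

/-- the cells of a polyline (the start `c` is not counted), and the next cell -/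
def pvrwPolyCells : ℤ × ℤ → ℤ × ℤ → List ((ℤ × ℤ) × PvtTurn) → List (ℤ × ℤ)
  | c, u, [] => [c + u]
  | c, u, (C, τ) :: r => pvrwSeg c u (pvxrD c C) ++ pvrwPolyCells C (pvccRotI u τ) r

theorem pvrw_D {c u : ℤ × ℤ} (hu : PvrwU u) (k : ℕ) : pvxrD c (c + (k : ℤ) • u) = k := by
  rcases hu with rfl | rfl | rfl | rfl <;> simp [pvxrD]

/-- **the cells of the word of a consistent polyline** -/
theorem pvrw_poly_cells {c u : ℤ × ℤ} {r : List ((ℤ × ℤ) × PvtTurn)} (hu : PvrwU u) (h : PvrwOk c u r) :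
    pvrwCells (c + u) u (pvxrPoly c r) = pvrwPolyCells c u r := by
  induction r generalizing c u with
  | nil => rfl
  | cons x r ih =>
    obtain ⟨C, τ⟩ := x
    obtain ⟨⟨k, hk, rfl⟩, h2⟩ := h
    obtain ⟨k, rfl⟩ : ∃ k', k = k' + 1 := ⟨k - 1, by omega⟩
    rw [pvxrPoly, pvrwPolyCells, pvrw_D hu, Nat.add_sub_cancel, pvrw_cells_run, pvrwCells, pvrw_seg_succ, List.append_assoc]
    congr 1
    have e : ((k : ℤ) + 1) = ((k + 1 : ℕ) : ℤ) := by push_cast; ring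
    rw [List.singleton_append, e, ih (hu.rot τ) h2]

/-- the cell `x` lies on the segment from `c` (excluded) to `C` (included), run in the direction `u`      (LINEAR in `x` for a concrete `u`: `omega` decides it) -/
def PvrwIn (c u C x : ℤ × ℤ) : Prop :=
  0 < (x.1 - c.1) * u.1 + (x.2 - c.2) * u.2 ∧ (x.1 - c.1) * u.1 + (x.2 - c.2) * u.2 ≤ (C.1 - c.1) * u.1 + (C.2 - c.2) * u.2 ∧ (x.1 - c.1) * u.2 = (x.2 - c.2) * u.1

theorem pvrw_mem_seg {c u x : ℤ × ℤ} {k : ℕ} (hu : PvrwU u) (h : x ∈ pvrwSeg c u k) : PvrwIn c u (c + (k : ℤ) • u) x := by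
  unfold pvrwSeg at h
  obtain ⟨i, hi, rfl⟩ := List.mem_map.1 h
  have hi' := List.mem_range.1 hi
  obtain ⟨c1, c2⟩ := c
  rcases hu with rfl | rfl | rfl | rfl <;>
    (refine ⟨?_, ?_, ?_⟩ <;> simp <;> omega)

theorem pvrw_seg_nodup {c u : ℤ × ℤ} (hu : PvrwU u) (k : ℕ) : (pvrwSeg c u k).Nodup := by
  unfold pvrwSeg
  refine List.Nodup.map ?_ List.nodup_range
  intro i j e
  obtain ⟨c1, c2⟩ := c
  rcases hu with rfl | rfl | rfl | rfl <;> simp [Prod.ext_iff] at e <;> omega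

/-- the segments of a polyline, as triples (start excluded, direction, end included); the last one is the next cell -/
def pvrwSegs : ℤ × ℤ → ℤ × ℤ → List ((ℤ × ℤ) × PvtTurn) → List ((ℤ × ℤ) × (ℤ × ℤ) × (ℤ × ℤ))
  | c, u, [] => [(c, u, c + u)]
  | c, u, (C, τ) :: r => (c, u, C) :: pvrwSegs C (pvccRotI u τ) r

/-- **every cell of a consistent polyline lies on one of its segments** -/
theorem pvrw_mem_poly {c u x : ℤ × ℤ} {r : List ((ℤ × ℤ) × PvtTurn)} (hu : PvrwU u) (h : PvrwOk c u r) (hx : x ∈ pvrwPolyCells c u r) :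
    ∃ s ∈ pvrwSegs c u r, PvrwIn s.1 s.2.1 s.2.2 x := by
  induction r generalizing c u with
  | nil =>
    rw [pvrwPolyCells, List.mem_singleton] at hx
    subst hx
    refine ⟨(c, u, c + u), List.mem_singleton.2 rfl, ?_⟩
    have := pvrw_mem_seg (c := c) (u := u) (x := c + u) (k := 1) hu (by simp [pvrwSeg])
    simpa using this
  | cons y r ih =>
    obtain ⟨C, τ⟩ := y
    obtain ⟨⟨k, hk, rfl⟩, h2⟩ := h
    rw [pvrwPolyCells, List.mem_append, pvrw_D hu] at hx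
    rcases hx with hx | hx
    · exact ⟨_, List.mem_cons_self, pvrw_mem_seg hu hx⟩
    · obtain ⟨s, hs, hs'⟩ := ih (hu.rot τ) h2 hx
      exact ⟨s, List.mem_cons_of_mem _ hs, hs'⟩

/-- the segments are pairwise disjoint -/
def PvrwDisj (S : List ((ℤ × ℤ) × (ℤ × ℤ) × (ℤ × ℤ))) : Prop := S.Pairwise fun s s' => ∀ x, PvrwIn s.1 s.2.1 s.2.2 x → ¬ PvrwIn s'.1 s'.2.1 s'.2.2 x

/-- **NODUP OF THE CELLS OF A CONSISTENT POLYLINE FROM PAIRWISE DISJOINT SEGMENTS** -/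
theorem pvrw_poly_nodup {c u : ℤ × ℤ} {r : List ((ℤ × ℤ) × PvtTurn)} (hu : PvrwU u) (h : PvrwOk c u r) (hd : PvrwDisj (pvrwSegs c u r)) : (pvrwPolyCells c u r).Nodup := by
  induction r generalizing c u with
  | nil => exact List.nodup_singleton _
  | cons y r ih =>
    obtain ⟨C, τ⟩ := y
    obtain ⟨⟨k, hk, rfl⟩, h2⟩ := h
    rw [PvrwDisj, pvrwSegs, List.pairwise_cons] at hd
    rw [pvrwPolyCells, pvrw_D hu]
    refine List.Nodup.append (pvrw_seg_nodup hu k) (ih (hu.rot τ) h2 hd.2) ?_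
    intro x hx hx'
    obtain ⟨s, hs, hs'⟩ := pvrw_mem_poly (hu.rot τ) h2 hx'
    exact hd.1 s hs x (pvrw_mem_seg hu hx) hs'

/-- **cell-simplicity of the word of a consistent polyline with pairwise disjoint segments** -/
theorem pvrw_poly_simple {c u : ℤ × ℤ} {r : List ((ℤ × ℤ) × PvtTurn)} (hu : PvrwU u) (h : PvrwOk c u r) (hd : PvrwDisj (pvrwSegs c u r)) :
    PvccSimple (pvxrPoly c r) (pvxrPoly c r).length :=
  pvrw_simple (v := c + u) (u := u) (by rw [pvrw_poly_cells hu h]; exact pvrw_poly_nodup hu h hd)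

/-- arithmetic form of consistency -/
def PvrwOkA : ℤ × ℤ → ℤ × ℤ → List ((ℤ × ℤ) × PvtTurn) → Prop
  | _, _, [] => True
  | c, u, (C, τ) :: r => (0 < (C.1 - c.1) * u.1 + (C.2 - c.2) * u.2 ∧ (C.1 - c.1) * u.2 = (C.2 - c.2) * u.1) ∧ PvrwOkA C (pvccRotI u τ) r

theorem pvrw_ok_of_A {c u : ℤ × ℤ} {r : List ((ℤ × ℤ) × PvtTurn)} (hu : PvrwU u) (h : PvrwOkA c u r) : PvrwOk c u r := by
  induction r generalizing c u with
  | nil => trivial
  | cons y r ih =>
    obtain ⟨C, τ⟩ := y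
    obtain ⟨⟨h1, h2⟩, h3⟩ := h
    refine ⟨?_, ih (hu.rot τ) h3⟩
    obtain ⟨c1, c2⟩ := c
    obtain ⟨C1, C2⟩ := C
    rcases hu with rfl | rfl | rfl | rfl
    · refine ⟨(C1 - c1).toNat, ?_, ?_⟩ <;> simp [Prod.ext_iff] at * <;> omega
    · refine ⟨(C2 - c2).toNat, ?_, ?_⟩ <;> simp [Prod.ext_iff] at * <;> omega
    · refine ⟨(c1 - C1).toNat, ?_, ?_⟩ <;> simp [Prod.ext_iff] at * <;> omega
    · refine ⟨(c2 - C2).toNat, ?_, ?_⟩ <;> simp [Prod.ext_iff] at * <;> omega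

/-! ## 3. the reference word of helper1: consistency, disjoint segments -/

/-- forward coordinate in the direction `I ^ a`      (`pvrwF (a + 1)` = the lateral coordinate, counterclockwise) -/
def pvrwF (a : ℕ) (e : ℤ × ℤ) : ℤ := e.1 * (pvxrE a).1 + e.2 * (pvxrE a).2

/-- **THE INTEGER DATA OF A TYPE ARE NOT DEGENERATE**.      `r` = any radius (in cells) such that: both base cells lie beyond the sup-ball of radius `r` in front of their sides (the whole `g`-block round `e⁻` does), with lateral coordinates `≤ r`;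
the ring road is `9 g` beyond `e⁻` and `7 g` beyond `r`;   two tips on the SAME side are `7 g` apart (`g = 2 n + 1`) -/
structure PvrwGood (M : ℤ) (a b : ℕ) (ep em : ℤ × ℤ) (n r : ℤ) : Prop where
  ha : a < 4
  hb : b < 4
  n0 : 0 ≤ n
  r0 : 0 ≤ r
  ep_f : r < pvrwF a ep
  ep_l : - r ≤ pvrwF (a + 1) ep
  ep_l' : pvrwF (a + 1) ep ≤ r
  em_f : r + n < pvrwF b em
  em_l : - r ≤ pvrwF (b + 1) em
  em_l' : pvrwF (b + 1) em ≤ r
  ep_M : pvrwF a ep ≤ M
  em_M : pvrwF b em + 9 * (2 * n + 1) ≤ M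
  r_M : r + 7 * (2 * n + 1) ≤ M
  sep : a = b → pvrwF (a + 1) em + 7 * (2 * n + 1) ≤ pvrwF (a + 1) ep ∨ pvrwF (a + 1) ep + 7 * (2 * n + 1) ≤ pvrwF (a + 1) em

theorem pvrw_nc_cases (a b : ℕ) (W T : ℤ × ℤ) :
    (pvxrNc a b W T = (b + 4 - a) % 4 ∧ (a = b → 0 < (T.1 - W.1) * (pvxrE (a + 1)).1 + (T.2 - W.2) * (pvxrE (a + 1)).2)) ∨
    (pvxrNc a b W T = (b + 4 - a) % 4 + 4 ∧ a = b ∧ ¬ 0 < (T.1 - W.1) * (pvxrE (a + 1)).1 + (T.2 - W.2) * (pvxrE (a + 1)).2) := by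
  unfold pvxrNc
  by_cases h : a = b ∧ ¬ 0 < (T.1 - W.1) * (pvxrE (a + 1)).1 + (T.2 - W.2) * (pvxrE (a + 1)).2
  · right
    exact ⟨by rw [if_pos h], h.1, h.2⟩
  · left
    refine ⟨by rw [if_neg h, add_zero], fun hab => ?_⟩
    by_contra h'
    exact h ⟨hab, h'⟩

theorem pvrw_E_unit (a : ℕ) : PvrwU (pvxrE a) := by
  unfold pvxrE PvrwU
  split <;> simp

set_option maxHeartbeats 4000000 in
theorem pvrw_word_okA {M : ℤ} {a b : ℕ} {ep em : ℤ × ℤ} {n r : ℤ} (G : PvrwGood M a b ep em n r) :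
    PvrwOkA (ep - pvxrE a) (pvxrE a) (pvxrCorners M a b ep em n) := by
  obtain ⟨ha, hb, n0, r0, h1, h2, h3, h4, h5, h6, h7, h8, h9, hs⟩ := G
  obtain ⟨e1, e2⟩ := ep
  obtain ⟨f1, f2⟩ := em
  rcases pvrw_nc_cases a b (pvxrProj M a (e1, e2)) (pvxrProj M b ((f1, f2) + pvxrRo b (2 * n + 1))) with ⟨hc, hP⟩ | ⟨hc, hab, hP⟩
  · interval_cases a <;> interval_cases b <;>
    simp only [pvrwF, pvxrE, pvxrProj, pvxrRo, Prod.mk_add_mk, Nat.reduceAdd, Nat.reduceMod, Nat.zero_mod, true_implies] at h1 h2 h3 h4 h5 h6 h7 h8 hs hP <;>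
    simp only [pvxrCorners, hc] <;>
    simp only [PvrwOkA, and_true, pvxrProj, pvxrRo, pvxrE, pvxrCor, pvxrMan, pvccRotI, List.range_succ, List.range_zero, List.map_cons, List.map_nil, List.nil_append, List.cons_append, Nat.reduceAdd, Nat.reduceSub, Nat.reduceMod, Nat.zero_mod, Prod.mk_sub_mk, Prod.mk_add_mk] <;>
    omega
  · subst hab
    interval_cases a <;>
    simp only [pvrwF, pvxrE, pvxrProj, pvxrRo, Prod.mk_add_mk, Nat.reduceAdd, Nat.reduceMod, Nat.zero_mod, true_implies] at h1 h2 h3 h4 h5 h6 h7 h8 hs hP <;>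
    simp only [pvxrCorners, hc] <;>
    simp only [PvrwOkA, and_true, pvxrProj, pvxrRo, pvxrE, pvxrCor, pvxrMan, pvccRotI, List.range_succ, List.range_zero, List.map_cons, List.map_nil, List.nil_append, List.cons_append, Nat.reduceAdd, Nat.reduceSub, Nat.reduceMod, Nat.zero_mod, Prod.mk_sub_mk, Prod.mk_add_mk] <;>
    omega

set_option maxHeartbeats 8000000 in
theorem pvrw_word_disj {M : ℤ} {a b : ℕ} {ep em : ℤ × ℤ} {n r : ℤ} (G : PvrwGood M a b ep em n r) :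
    PvrwDisj (pvrwSegs (ep - pvxrE a) (pvxrE a) (pvxrCorners M a b ep em n)) := by
  obtain ⟨ha, hb, n0, r0, h1, h2, h3, h4, h5, h6, h7, h8, h9, hs⟩ := G
  obtain ⟨e1, e2⟩ := ep
  obtain ⟨f1, f2⟩ := em
  rcases pvrw_nc_cases a b (pvxrProj M a (e1, e2)) (pvxrProj M b ((f1, f2) + pvxrRo b (2 * n + 1))) with ⟨hc, hP⟩ | ⟨hc, hab, hP⟩
  · interval_cases a <;> interval_cases b <;>
    simp only [pvrwF, pvxrE, pvxrProj, pvxrRo, Prod.mk_add_mk, Nat.reduceAdd, Nat.reduceMod, Nat.zero_mod, true_implies] at h1 h2 h3 h4 h5 h6 h7 h8 hs hP <;>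
    simp only [pvxrCorners, hc, PvrwDisj] <;>
    simp only [pvrwSegs, List.pairwise_cons, List.mem_cons, forall_eq_or_imp, List.not_mem_nil, IsEmpty.forall_iff, implies_true, and_true, List.Pairwise.nil, PvrwIn, pvxrProj, pvxrRo, pvxrE, pvxrCor, pvxrMan, pvccRotI, List.range_succ, List.range_zero, List.map_cons, List.map_nil, List.nil_append, List.cons_append, Nat.reduceAdd, Nat.reduceSub, Nat.reduceMod, Nat.zero_mod, Prod.mk_sub_mk, Prod.mk_add_mk] <;>
    (repeat' apply And.intro) <;>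
    (intro x hx hx') <;>
    omega
  · subst hab
    interval_cases a <;>
    simp only [pvrwF, pvxrE, pvxrProj, pvxrRo, Prod.mk_add_mk, Nat.reduceAdd, Nat.reduceMod, Nat.zero_mod, true_implies] at h1 h2 h3 h4 h5 h6 h7 h8 hs hP <;>
    simp only [pvxrCorners, hc, PvrwDisj] <;>
    simp only [pvrwSegs, List.pairwise_cons, List.mem_cons, forall_eq_or_imp, List.not_mem_nil, IsEmpty.forall_iff, implies_true, and_true, List.Pairwise.nil, PvrwIn, pvxrProj, pvxrRo, pvxrE, pvxrCor, pvxrMan, pvccRotI, List.range_succ, List.range_zero, List.map_cons, List.map_nil, List.nil_append, List.cons_append, Nat.reduceAdd, Nat.reduceSub, Nat.reduceMod, Nat.zero_mod, Prod.mk_sub_mk, Prod.mk_add_mk] <;>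
    (repeat' apply And.intro) <;>
    (intro x hx hx') <;>
    omega

/-- the OUT-RUN: from `e⁺` straight out to the ring road -/
def PvrwOut (M : ℤ) (a : ℕ) (ep x : ℤ × ℤ) : Prop := pvrwF (a + 1) x = pvrwF (a + 1) ep ∧ pvrwF a ep ≤ pvrwF a x ∧ pvrwF a x ≤ M

/-- the RING ROAD: the cells of sup-norm `M` -/
def PvrwRing (M : ℤ) (x : ℤ × ℤ) : Prop := (x.1 = M ∨ x.1 = -M ∨ x.2 = M ∨ x.2 = -M) ∧ -M ≤ x.1 ∧ x.1 ≤ M ∧ -M ≤ x.2 ∧ x.2 ≤ M

/-- the RAMP, the MANOEUVRE and the next cell (= the middle cell of the west side of the reference plug) -/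
def PvrwRamp (M : ℤ) (b : ℕ) (em : ℤ × ℤ) (n : ℤ) (x : ℤ × ℤ) : Prop :=
  match b % 4 with
  | 0 => (x.2 = em.2 + 6 * (2 * n + 1) ∧ em.1 + 2 * (2 * n + 1) ≤ x.1 ∧ x.1 < M) ∨ (x.1 = em.1 + 2 * (2 * n + 1) ∧ em.2 + 3 * (2 * n + 1) ≤ x.2 ∧ x.2 ≤ em.2 + 6 * (2 * n + 1)) ∨
      (x.2 = em.2 + 3 * (2 * n + 1) ∧ em.1 + 2 * (2 * n + 1) ≤ x.1 ∧ x.1 ≤ em.1 + 5 * (2 * n + 1) - n)
  | 1 => (x.1 = em.1 - 5 * (2 * n + 1) ∧ em.2 + 4 * (2 * n + 1) ≤ x.2 ∧ x.2 < M) ∨ (x.2 = em.2 + 4 * (2 * n + 1) ∧ em.1 - 5 * (2 * n + 1) ≤ x.1 ∧ x.1 ≤ em.1 - 3 * (2 * n + 1) - n)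
  | 2 => x.2 = em.2 ∧ -M < x.1 ∧ x.1 ≤ em.1 - 4 * (2 * n + 1) - n
  | _ => (x.1 = em.1 - 5 * (2 * n + 1) ∧ -M < x.2 ∧ x.2 ≤ em.2 - 4 * (2 * n + 1)) ∨ (x.2 = em.2 - 4 * (2 * n + 1) ∧ em.1 - 5 * (2 * n + 1) ≤ x.1 ∧ x.1 ≤ em.1 - 3 * (2 * n + 1) - n)

set_option maxHeartbeats 8000000 in
theorem pvrw_segs_mem {M : ℤ} {a b : ℕ} {ep em : ℤ × ℤ} {n r : ℤ} (G : PvrwGood M a b ep em n r) {x : ℤ × ℤ}
    (hx : ∃ s ∈ pvrwSegs (ep - pvxrE a) (pvxrE a) (pvxrCorners M a b ep em n), PvrwIn s.1 s.2.1 s.2.2 x) :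
    PvrwOut M a ep x ∨ PvrwRing M x ∨ PvrwRamp M b em n x := by
  obtain ⟨ha, hb, n0, r0, h1, h2, h3, h4, h5, h6, h7, h8, h9, hs⟩ := G
  obtain ⟨e1, e2⟩ := ep
  obtain ⟨f1, f2⟩ := em
  rcases pvrw_nc_cases a b (pvxrProj M a (e1, e2)) (pvxrProj M b ((f1, f2) + pvxrRo b (2 * n + 1))) with ⟨hc, hP⟩ | ⟨hc, hab, hP⟩
  · interval_cases a <;> interval_cases b <;>
    simp only [pvrwF, pvxrE, pvxrProj, pvxrRo, Prod.mk_add_mk, Nat.reduceAdd, Nat.reduceMod, Nat.zero_mod, true_implies] at h1 h2 h3 h4 h5 h6 h7 h8 hs hP <;>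
    simp only [pvxrCorners, hc] at hx <;>
    simp only [pvrwSegs, List.mem_cons, exists_eq_or_imp, exists_eq_left, List.not_mem_nil, or_false, PvrwIn, pvxrProj, pvxrRo, pvxrE, pvxrCor, pvxrMan, pvccRotI, List.range_succ, List.range_zero, List.map_cons, List.map_nil, List.nil_append, List.cons_append, Nat.reduceAdd, Nat.reduceSub, Nat.reduceMod, Nat.zero_mod, Prod.mk_sub_mk, Prod.mk_add_mk] at hx <;>
    simp only [PvrwOut, PvrwRing, PvrwRamp, pvrwF, pvxrE, Nat.reduceAdd, Nat.reduceMod, Nat.zero_mod] <;>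
    (repeat' (rcases hx with hx | hx)) <;>
    omega
  · subst hab
    interval_cases a <;>
    simp only [pvrwF, pvxrE, pvxrProj, pvxrRo, Prod.mk_add_mk, Nat.reduceAdd, Nat.reduceMod, Nat.zero_mod, true_implies] at h1 h2 h3 h4 h5 h6 h7 h8 hs hP <;>
    simp only [pvxrCorners, hc] at hx <;>
    simp only [pvrwSegs, List.mem_cons, exists_eq_or_imp, exists_eq_left, List.not_mem_nil, or_false, PvrwIn, pvxrProj, pvxrRo, pvxrE, pvxrCor, pvxrMan, pvccRotI, List.range_succ, List.range_zero, List.map_cons, List.map_nil, List.nil_append, List.cons_append, Nat.reduceAdd, Nat.reduceSub, Nat.reduceMod, Nat.zero_mod, Prod.mk_sub_mk, Prod.mk_add_mk] at hx <;>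
    simp only [PvrwOut, PvrwRing, PvrwRamp, pvrwF, pvxrE, Nat.reduceAdd, Nat.reduceMod, Nat.zero_mod] <;>
    (repeat' (rcases hx with hx | hx)) <;>
    omega

/-! ## 4. THE REFERENCE WORD: exits -/

section word

variable {M : ℤ} {a b : ℕ} {ep em : ℤ × ℤ} {n r : ℤ}

theorem pvrw_word_ok (G : PvrwGood M a b ep em n r) : PvrwOk (ep - pvxrE a) (pvxrE a) (pvxrCorners M a b ep em n) := pvrw_ok_of_A (pvrw_E_unit a) (pvrw_word_okA G)

/-- the cells of the reference word (first cell `e⁺`, entered in the direction `I ^ a`) and the next cell -/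
def pvrwL1 (M : ℤ) (a b : ℕ) (ep em : ℤ × ℤ) (n : ℤ) : List (ℤ × ℤ) := pvrwCells ep (pvxrE a) (pvxrWord M a b ep em n)

theorem pvrw_L1_eq (G : PvrwGood M a b ep em n r) : pvrwL1 M a b ep em n = pvrwPolyCells (ep - pvxrE a) (pvxrE a) (pvxrCorners M a b ep em n) := by
  have h := pvrw_poly_cells (pvrw_E_unit a) (pvrw_word_ok G)
  rw [sub_add_cancel] at h
  exact h

/-- **the cells of the reference word are distinct** -/
theorem pvrw_L1_nodup (G : PvrwGood M a b ep em n r) : (pvrwL1 M a b ep em n).Nodup := by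
  rw [pvrw_L1_eq G]
  exact pvrw_poly_nodup (pvrw_E_unit a) (pvrw_word_ok G) (pvrw_word_disj G)

/-- **`l1` IS CELL-SIMPLE** -/
theorem pvrw_word_simple (G : PvrwGood M a b ep em n r) : PvccSimple (pvxrWord M a b ep em n) (pvxrWord M a b ep em n).length :=
  pvrw_simple (pvrw_L1_nodup G)

/-- **WHERE THE CELLS OF `l1` ARE**: out-run, ring road, ramp + manoeuvre -/
theorem pvrw_L1_mem (G : PvrwGood M a b ep em n r) {x : ℤ × ℤ} (hx : x ∈ pvrwL1 M a b ep em n) : PvrwOut M a ep x ∨ PvrwRing M x ∨ PvrwRamp M b em n x := by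
  rw [pvrw_L1_eq G] at hx
  exact pvrw_segs_mem G (pvrw_mem_poly (pvrw_E_unit a) (pvrw_word_ok G) hx)

end word

end Claimed.Agent.R289
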