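import Claimed.Agent.R289.Exit.PatD
import Claimed.Agent.R289.Tr.ConnL1

/-!
# Row 289 (S0537, Cardy for Poisson-Voronoi), THE WALL, ROAD P, file Exit/PatL : DEBT 2 (`PvytL1`, field `l1` of `PvrsGeoOk` / `PveqCl`) PAID AT THE MASSES OF 113      (pen helper183; prefix `pvyt_`)

`pvyt_l1_conn` : if the masses of the two funnels of the candidate are `pvkjX Co`, `pvkjX Ci` for two WELL FORMED placed connectors (`PvkjCn.Wf` of 113, `Tr/ConnQ`), then `PvytL1 𝔓 𝔤 m z t`.      NOTHING ELSE is asked (no forcing, no reading, no ring): `Tr/ConnL1` `pvyt_X_l1` + the soft localisation contracts `L¹`.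
-/

set_option autoImplicit false

namespace Claimed.Agent.R289

open MeasureTheory Filter Topology Set
open scoped ENNReal

variable {τ : Type} {cc : ℝ} {𝔓 : PvrxPar τ cc} {𝔤 : PvydGeo τ} {m : ℕ} {β' qk : ℝ≥0∞}

/-- the global form -/
theorem pvyt_l1G_conn {z : ℂ} {t : τ} {Co Ci : PvkjCn} (ho : Co.Wf) (hi : Ci.Wf) (eo : 𝔤.Xo m z t = pvkjX Co) (ei : 𝔤.Xi m z t = pvkjX Ci) : PvytL1G 𝔤 m z t where
  o := by
    filter_upwards [self_mem_nhdsWithin] with ε hε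
    rw [eo]
    exact pvyt_X_l1 ho (ne_of_gt hε)
  i := by
    filter_upwards [self_mem_nhdsWithin] with ε hε
    rw [ei]
    exact pvyt_X_l1 hi (ne_of_gt hε)

/-- **DEBT 2 AT THE MASSES OF 113** -/
theorem pvyt_l1_conn (hW : 𝔓.Wf) (H : 𝔤.KitOk 𝔓 m β' qk) {z : ℂ} {t : τ} (C : 𝔤.CandOk 𝔓 m z t) {Co Ci : PvkjCn} (ho : Co.Wf) (hi : Ci.Wf)
    (eo : 𝔤.Xo m z t = pvkjX Co) (ei : 𝔤.Xi m z t = pvkjX Ci) : PvytL1 𝔓 𝔤 m z t :=
  pvyt_l1_glob hW H C (pvyt_l1G_conn ho hi eo ei)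

end Claimed.Agent.R289
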