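import Claimed.Agent.R289.Fan.Dict
import Claimed.Agent.R289.Del.Seam

/-!
# Row 289 (S0537), box BRIDGE (head helper188), file Exit/Path : (B5) GLUE  `XB` in the completed sphere  ⟹  `PvVC`      (owner helper45; prefix `pvgp_`; complete)

Ruling M3 of helper31 (09:00Z): the dictionary itself exists already (`Fan/Dict.lean` of 92: `F.xb_iff`, `F.join_iff`;  `Del/Seam.lean` of 271: `dls_vc_iff`, `dls_bk_iff`).      Here ONLY the glue over them.
* `pvgp_vc_of_join`      ABSTRACT: any map `T : PvMap V D`, any position `pos : V → ℂ`, edges of `T` = touching cells, `X` = vertices at black sites of `W`:   `T.Join R X u w`, `pos u ∈ A`, `pos w ∈ B`  ⟹  `PvVC η W A B`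
* `pvgp_touch`, `pvgp_touchT`      the hypothesis for `delMap h` and for the TOTAL form `(delPlT Y).toMap` (the one of the bulk families)
* **`pvgp_vc_of_xb`**      ABSTRACT FAN `F : PvFan V D`:  the event `F.map.XB (.s j) (probe t) (F.map.dcol (.s j) s' true)` of `pv82_cross` ⟹ `PvVC η W A B`, from the fields IN (disc vertices in `W`), ARC (index arcs in `A`, `B`), COL (`s'` = colours of `η` on the disc)
* `pvgp_vc_of_xb_zero`   the case `j = 0` of the paper;   `pvgp_vc_of_xbT`, `pvgp_vc_of_xbG`   the instances `F.T = (delPlT (cfSites η)).toMap`, `F.T = delMap h`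
* `pvgp_xb_congr`        the event `XB` reads the disc colours only
* `PvVC.mono`, `PvBk.mono`
-/

set_option autoImplicit false
set_option linter.unusedVariables false

namespace Claimed.Agent.R289

open Relation Set Claims.C0465

/-! ## 1. monotonicity -/

theorem PvBk.mono {η : Conf PvPt} {W W' : Set ℂ} {v : ℂ} (h : PvBk η W v) (hW : W ⊆ W') : PvBk η W' v := ⟨h.1, hW h.2⟩

theorem PvVC.mono {η : Conf PvPt} {W W' A A' B B' : Set ℂ} (h : PvVC η W A B) (hW : W ⊆ W') (hA : A ⊆ A') (hB : B ⊆ B') : PvVC η W' A' B' := by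
  obtain ⟨u, v, hu, hv, hb, hc⟩ := h
  exact ⟨u, v, hA hu, hB hv, hb.mono hW, ReflTransGen.mono (fun _ _ hxy => ⟨hxy.1.mono hW, hxy.2⟩) _ _ hc⟩

/-! ## 2. the abstract form -/

/-- **a path of black vertices whose edges are touching cells is a black vertex crossing** -/
theorem pvgp_vc_of_join {η : Conf PvPt} {V D : Type} (T : PvMap V D) (pos : V → ℂ)
    (htouch : ∀ a b, T.Adj a b → (cfCell η (pos a) ∩ cfCell η (pos b)).Nonempty)
    {R : Set D} {X : Set V} {W A B : Set ℂ} (hX : ∀ v ∈ X, PvBk η W (pos v)) {u w : V} (hu : pos u ∈ A) (hw : pos w ∈ B)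
    (h : T.Join R X u w) : PvVC η W A B := by
  refine ⟨pos u, pos w, hu, hw, hX u h.1, ?_⟩
  obtain ⟨-, h2⟩ := h
  clear hw
  induction h2 with
  | refl => exact ReflTransGen.refl
  | tail _ hbc ih =>
    obtain ⟨⟨d, -, h1, h2⟩, hc⟩ := hbc
    exact ih.tail ⟨hX _ hc, htouch _ _ ⟨d, h1, h2⟩⟩

/-- edges of the Delaunay map = touching cells -/
theorem pvgp_touch {η : Conf PvPt} (h : DelGood (cfSites η)) (a b : cfSites η) (hab : (delMap h).Adj a b) :
    (cfCell η (a : ℂ) ∩ cfCell η (b : ℂ)).Nonempty := by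
  rw [cfCell_eq_vor, cfCell_eq_vor]
  exact ((dls_adj_iff h a b).1 hab).2.2.2

/-- the same for the total form -/
theorem pvgp_touchT (η : Conf PvPt) (a b : cfSites η) (hab : (delPlT (cfSites η)).toMap.Adj a b) :
    (cfCell η (a : ℂ) ∩ cfCell η (b : ℂ)).Nonempty := by
  obtain ⟨d, rfl, rfl⟩ := hab
  rw [cfCell_eq_vor, cfCell_eq_vor]
  exact d.2.2.2.2.2

/-! ## 3. the fan form -/

/-- **GLUE**: the crossing event of `pv82_cross` in the completed sphere is a black vertex crossing -/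
theorem pvgp_vc_of_xb {η : Conf PvPt} {V D : Type} (F : PvFan V D) (pos : V → ℂ)
    (htouch : ∀ a b, F.T.Adj a b → (cfCell η (pos a) ∩ cfCell η (pos b)).Nonempty)
    (s' : F.V' → Bool) (hcol : ∀ v hv, s' (F.iv v hv) = true → (pos v, true) ∈ η.pts)
    {W A B : Set ℂ} (hW : ∀ v ∈ F.T.VOf F.c.Left, pos v ∈ W) (j : Fin 3) (t : ℕ) (ht : t ≤ F.hi j - F.lo j)
    (hA : ∀ v ∈ F.c.arc (F.lo j) (F.hi j - t), pos v ∈ A) (hB : ∀ v ∈ F.c.arc (F.lo (PvFan.sj j)) (F.hi (PvFan.sj j)), pos v ∈ B)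
    (h : F.map.XB (.s j) (F.map.rot^[2 + t] (.s j)) (F.map.dcol (.s j) s' true)) : PvVC η W A B := by
  obtain ⟨u, hu, w, hw, hj⟩ := (F.xb_iff j t ht s' true).1 h
  refine pvgp_vc_of_join F.T pos htouch (X := {v | ∃ hv, s' (F.iv v hv) = true}) ?_ (hA u hu) (hB w hw) hj
  rintro v ⟨hv, hs⟩
  exact ⟨hcol v hv hs, hW v hv⟩

/-- the case of the paper (`q = s₀ → s₂`): arcs `x_0 … x_{i1 - t}` and `x_{i1} … x_{i2}` -/
theorem pvgp_vc_of_xb_zero {η : Conf PvPt} {V D : Type} (F : PvFan V D) (pos : V → ℂ)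
    (htouch : ∀ a b, F.T.Adj a b → (cfCell η (pos a) ∩ cfCell η (pos b)).Nonempty)
    (s' : F.V' → Bool) (hcol : ∀ v hv, s' (F.iv v hv) = true → (pos v, true) ∈ η.pts)
    {W A B : Set ℂ} (hW : ∀ v ∈ F.T.VOf F.c.Left, pos v ∈ W) (t : ℕ) (ht : t ≤ F.i1)
    (hA : ∀ v ∈ F.c.arc 0 (F.i1 - t), pos v ∈ A) (hB : ∀ v ∈ F.c.arc F.i1 F.i2, pos v ∈ B)
    (h : F.map.XB (.s 0) (F.map.rot^[2 + t] (.s 0)) (F.map.dcol (.s 0) s' true)) : PvVC η W A B :=
  pvgp_vc_of_xb F pos htouch s' hcol hW 0 t ht hA hB h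

/-- instance: a fan over the TOTAL Delaunay map (the one of the bulk families), colours `cfCol η` on the disc -/
theorem pvgp_vc_of_xbT {η : Conf PvPt} (F : PvFan (cfSites η) (delPlT (cfSites η)).Dart) (hT : F.T = (delPlT (cfSites η)).toMap)
    (s' : F.V' → Bool) (hcol : ∀ v hv, s' (F.iv v hv) = cfCol η v)
    {W A B : Set ℂ} (hW : ∀ v ∈ F.T.VOf F.c.Left, (v : ℂ) ∈ W) (t : ℕ) (ht : t ≤ F.i1)
    (hA : ∀ v ∈ F.c.arc 0 (F.i1 - t), (v : ℂ) ∈ A) (hB : ∀ v ∈ F.c.arc F.i1 F.i2, (v : ℂ) ∈ B)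
    (h : F.map.XB (.s 0) (F.map.rot^[2 + t] (.s 0)) (F.map.dcol (.s 0) s' true)) : PvVC η W A B := by
  refine pvgp_vc_of_xb_zero F Subtype.val (fun a b hab => pvgp_touchT η a b (hT ▸ hab)) s' (fun v hv hs => ?_) hW t ht hA hB h
  rw [hcol v hv] at hs
  exact (dls_col_true v).1 hs

/-- instance: a fan over `delMap h` -/
theorem pvgp_vc_of_xbG {η : Conf PvPt} (hg : DelGood (cfSites η)) (F : PvFan (cfSites η) (DelDart hg)) (hT : F.T = delMap hg)
    (s' : F.V' → Bool) (hcol : ∀ v hv, s' (F.iv v hv) = cfCol η v)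
    {W A B : Set ℂ} (hW : ∀ v ∈ F.T.VOf F.c.Left, (v : ℂ) ∈ W) (t : ℕ) (ht : t ≤ F.i1)
    (hA : ∀ v ∈ F.c.arc 0 (F.i1 - t), (v : ℂ) ∈ A) (hB : ∀ v ∈ F.c.arc F.i1 F.i2, (v : ℂ) ∈ B)
    (h : F.map.XB (.s 0) (F.map.rot^[2 + t] (.s 0)) (F.map.dcol (.s 0) s' true)) : PvVC η W A B := by
  refine pvgp_vc_of_xb_zero F Subtype.val (fun a b hab => pvgp_touch hg a b (hT ▸ hab)) s' (fun v hv hs => ?_) hW t ht hA hB h
  rw [hcol v hv] at hs
  exact (dls_col_true v).1 hs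

/-! ## 4. the event reads the disc colours only -/

theorem pvgp_xb_congr {V D : Type} (F : PvFan V D) (j : Fin 3) (t : ℕ) (ht : t ≤ F.hi j - F.lo j) (β : Bool) {s₁ s₂ : F.V' → Bool}
    (h : ∀ v hv, s₁ (F.iv v hv) = s₂ (F.iv v hv)) :
    F.map.XB (.s j) (F.map.rot^[2 + t] (.s j)) (F.map.dcol (.s j) s₁ β) ↔ F.map.XB (.s j) (F.map.rot^[2 + t] (.s j)) (F.map.dcol (.s j) s₂ β) := by
  rw [F.xb_iff j t ht, F.xb_iff j t ht]
  have : {v | ∃ hv, s₁ (F.iv v hv) = β} = {v | ∃ hv, s₂ (F.iv v hv) = β} := by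
    ext v
    exact ⟨fun ⟨hv, e⟩ => ⟨hv, (h v hv) ▸ e⟩, fun ⟨hv, e⟩ => ⟨hv, (h v hv).symm ▸ e⟩⟩
  rw [this]

end Claimed.Agent.R289
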