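import Claimed.Agent.R289.Arm.AdaptAB
import Claimed.Agent.R289.Exit.PinsA6

/-!
# Row 289 (S0537, Cardy for Poisson-Voronoi), THE WALL, roof PINS, A6, leaf (C) of the cut of `exit_pvx2_core` (200) : THE COUNT OF THE CHORDS      (helper149, post of helper200 10:50Z; prefix `pvx7_`, `Pvx7`)

MODEL FREE IN THE MAP (the shape of `pvaa_hab` of 237): ANY family `Y ↦ T Y`, ANY frame events `G m Y`, ANY macro cycles `C0 C1` defined on `G m Y` with `PvaaGeo (T Y) C1 C0 q0`.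
* `Pvx7Few T C1 C0 s K`      there is a finite set of at most `K` darts which contains ALL the entrances `e` with `PvaaK T C1 C0 s e` (the chord of `e` reaches `C1.Left`)      = the hypothesis of (B) SPLIT (105)
* `pvx7_few_of_R`            `pvakR C1 C0 s ≤ K ⟹ Pvx7Few`
* `pvx7_count_q`             QUENCHED: `P(¬ Few K) ≤ pvbkM 2 1 (1 - q0) / (K + 1)`      (Markov on `pvak_moment_blk`)
* `pvx7_few_loc`             the event reads the colours of `VOf C0.Left` only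
* `pvx7_count_up`            U-form at fixed `(ε, level)`: `(pvhbUp ε).P {∃ hG b, ¬ Few} ≤ 2 M / (K + 1)`
* **`pvx7_count`**           THE EXIT: `PvhbOrd` for ANY `K0 m → ∞`;      `pvx7_few_of_not` off the bad event
* **`pvx7_few`**             = `exit_pvx2_few` of `Exit/PinsA6X.lean` (200) VERBATIM
* `pvx7_num`                 a choice of `K0 m → ∞` with `(L h m)^(1 - kap) ≤ r m / K0 m` (fields `kap kap0 r'_ge` of `PvX2Loc` at `r' m := r m / K0 m`)
-/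

set_option autoImplicit false
set_option linter.unusedSectionVars false
set_option linter.unusedVariables false

namespace Claimed.Agent.R289

open MeasureTheory Set Filter Topology Claims.C0465
open scoped ENNReal

/-! ## 1. one map -/

section model

variable {V D : Type} [DecidableEq V]

/-- at most `K` chords reach `C1.Left` -/
def Pvx7Few (T : PvMap V D) (C1 C0 : T.Cyc) (s : V → Bool) (K : ℕ) : Prop := ∃ F : Finset D, F.card ≤ K ∧ ∀ e, PvaaK T C1 C0 s e → e ∈ F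

theorem pvx7_eqns_cite : True := by
  have := @Pvx7Few.eq_1
  trivial

variable {T : PvMap V D} {C0 C1 : T.Cyc}

theorem Pvx7Few.mono {s : V → Bool} {K K' : ℕ} (h : Pvx7Few T C1 C0 s K) (hK : K ≤ K') : Pvx7Few T C1 C0 s K' := by
  obtain ⟨F, h1, h2⟩ := h
  exact ⟨F, h1.trans hK, h2⟩

theorem pvx7_few_of_R (hT : T.IsSph) {s : V → Bool} {K : ℕ} (h : pvakR C1 C0 s ≤ K) : Pvx7Few T C1 C0 s K := by
  refine ⟨(pvak_runSet_finite hT C1 C0 s).toFinset, ?_, fun e he => (pvak_runSet_finite hT C1 C0 s).mem_toFinset.2 he⟩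
  exact (pvak_card_le_R hT C1 C0 s _ fun x hx => Or.inl ((pvak_runSet_finite hT C1 C0 s).mem_toFinset.1 hx)).trans h

/-- **THE COUNT, QUENCHED** -/
theorem pvx7_count_q (hT : T.IsSph) (hin : C1.Inside C0) {q0 : ℝ} (hq0 : 0 < q0) (hB : PvaxBlk T C1 C0 q0) (A : Finset V) (hA : ∀ v ∈ T.VOf C0.Left, v ∈ A) (ξ : V → Bool) (K : ℕ) :
    pvaP A ξ (fun s => ¬ Pvx7Few T C1 C0 s K) ≤ pvbkM 2 1 (1 - q0) / (K + 1) := by
  classical
  have hm := pvak_moment_blk hT hin hq0 hB A (fun v hv => hA v (by obtain ⟨d, hd, rfl⟩ := hv; exact ⟨d, hd.1, rfl⟩)) ξ 1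
  have hK : (0 : ℝ) < (K : ℝ) + 1 := by positivity
  rw [le_div_iff₀ hK]
  refine le_trans ?_ hm
  unfold pvaP
  rw [← pva_E_mul_right]
  refine pva_E_mono fun ω _ => ?_
  rw [pow_one]
  by_cases h : Pvx7Few T C1 C0 ω K
  · rw [if_neg (not_not.2 h), zero_mul]
    exact Nat.cast_nonneg _
  · rw [if_pos h, one_mul]
    have : K + 1 ≤ pvakR C1 C0 ω := by
      by_contra hcon
      exact h (pvx7_few_of_R hT (by omega))
    exact_mod_cast this

/-- the event reads the colours of the vertices of `C0.Left` only -/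
theorem pvx7_few_loc (hin : C1.Inside C0) (hfin : C0.Left.Finite) (A : Finset V) (hA : ∀ v ∈ T.VOf C0.Left, v ∈ A) (K : ℕ) : PvalLoc A (fun s => ¬ Pvx7Few T C1 C0 s K) := by
  have aux : ∀ s s' : V → Bool, (∀ v ∈ A, s' v = s v) → ∀ e, PvaaK T C1 C0 s e → PvaaK T C1 C0 s' e := by
    intro s s' hs e hK
    have hI : pvasIn T C0.Left s e := by obtain ⟨n, hr⟩ := hK; exact hr.1
    exact pvaa_K_aux hin hfin (fun v hv => hs v (hA v (pvaa_expl_sub hfin hI v hv))) hK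
  intro ω ω' h
  have e : ∀ e, PvaaK T C1 C0 ω e ↔ PvaaK T C1 C0 ω' e := fun e => ⟨aux ω ω' (fun v hv => (h v hv).symm) e, aux ω' ω (fun v hv => h v hv) e⟩
  unfold Pvx7Few
  simp only [e]

end model

/-! ## 2. the two-level space -/

section exit

variable {Dt : Set ℂ → Type} [∀ Y : Set ℂ, DecidableEq ↥Y] (T : ∀ Y : Set ℂ, PvMap ↥Y (Dt Y))

/-- the bad event of the count at the site set `Y` coloured by `σ`, for the rims of colour `b` -/
def Pvx7Ev1 (G : Set ℂ → Prop) (C0 C1 : ∀ Y, G Y → (T Y).Cyc) (K : ℕ) (b : Bool) (Y : Set ℂ) (σ : ↥Y → Bool) : Prop :=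
  ∃ hG : G Y, ¬ Pvx7Few (T Y) (C1 Y hG) (C0 Y hG) (fun v => σ v == b) K

/-- **the bad event of the count**: the geometry is in the frame event and, for one of the two colours, more than `K` chords reach `C1.Left` -/
def Pvx7Ev (G : Set ℂ → Prop) (C0 C1 : ∀ Y, G Y → (T Y).Cyc) (K : ℕ) (Y : Set ℂ) (σ : ↥Y → Bool) : Prop :=
  ∃ (hG : G Y) (b : Bool), ¬ Pvx7Few (T Y) (C1 Y hG) (C0 Y hG) (fun v => σ v == b) K

theorem pvx7_eqns_cite2 : True := by
  have := @Pvx7Ev1.eq_1; have := @Pvx7Ev.eq_1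
  trivial

/-- **THE COUNT AT FIXED `(ε, level)`**, U-form -/
theorem pvx7_count_up (G : Set ℂ → Prop) (C0 C1 : ∀ Y, G Y → (T Y).Cyc) {q0 : ℝ} (hq0 : 0 < q0) (hq01 : q0 ≤ 1)
    (hG : ∀ Y (h : G Y), PvaaGeo (T Y) (C1 Y h) (C0 Y h) q0) (K : ℕ) (ε : ℝ) :
    (pvhbUp ε).P {p | Pvx7Ev T G C0 C1 K (cfSites (pvConf (pvMerge p))) (fun v => cfCol (pvConf (pvMerge p)) v)} ≤ 2 * ENNReal.ofReal (pvbkM 2 1 (1 - q0) / (K + 1)) := by
  have h0 : pvGeo ε {g | ¬ PvgOk g} = 0 := pvqu_ok_ae ε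
  refine le_trans (pvaa_up_le (pvGeo ε) pvCol _ {g | ¬ PvgOk g} _ fun g hg => ?_) (by rw [h0, add_zero])
  simp only [mem_ofPred_eq, not_not] at hg
  have hsub : {c | (g, c) ∈ {p | Pvx7Ev T G C0 C1 K (cfSites (pvConf (pvMerge p))) (fun v => cfCol (pvConf (pvMerge p)) v)}} ⊆
      {c | Pvx7Ev1 T G C0 C1 K false (cfSites (pvConf (pvMerge (g, c)))) (fun v => cfCol (pvConf (pvMerge (g, c))) v)} ∪
      {c | Pvx7Ev1 T G C0 C1 K true (cfSites (pvConf (pvMerge (g, c)))) (fun v => cfCol (pvConf (pvMerge (g, c))) v)} := by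
    rintro c ⟨h, b, hb⟩
    cases b
    · exact Or.inl ⟨h, hb⟩
    · exact Or.inr ⟨h, hb⟩
  refine (measure_mono hsub).trans ((measure_union_le _ _).trans ?_)
  rw [two_mul]
  suffices hone : ∀ b : Bool, pvCol {c | Pvx7Ev1 T G C0 C1 K b (cfSites (pvConf (pvMerge (g, c)))) (fun v => cfCol (pvConf (pvMerge (g, c))) v)}
      ≤ ENNReal.ofReal (pvbkM 2 1 (1 - q0) / (K + 1)) from add_le_add (hone false) (hone true)
  intro b
  by_cases hGg : G (pvgSites g)
  · obtain ⟨hT, hin, hfin, hB⟩ := hG _ hGg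
    have hVfin : ((T (pvgSites g)).VOf (C0 (pvgSites g) hGg).Left).Finite := by
      refine (hfin.image (T (pvgSites g)).src).subset ?_
      rintro v ⟨d, hd, rfl⟩
      exact ⟨d, hd, rfl⟩
    have hA : ∀ v ∈ (T (pvgSites g)).VOf (C0 (pvgSites g) hGg).Left, v ∈ hVfin.toFinset := fun v hv => hVfin.mem_toFinset.2 hv
    have hQloc := pvx7_few_loc hin hfin hVfin.toFinset hA K
    have hQle := fun ξ => pvx7_count_q hT hin hq0 hB hVfin.toFinset hA ξ K
    have e : Pvx7Ev1 T G C0 C1 K b (pvgSites g) = fun σ => (fun s => ¬ Pvx7Few (T (pvgSites g)) (C1 (pvgSites g) hGg) (C0 (pvgSites g) hGg) s K) (fun v => σ v == b) := by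
      funext σ
      exact propext ⟨fun ⟨_, h⟩ => h, fun h => ⟨hGg, h⟩⟩
    rw [pvaa_sec (Pvx7Ev1 T G C0 C1 K b) hg hVfin.toFinset (by rw [e]; exact pvaa_loc_beq hQloc b) (fun _ => false), e]
    exact ENNReal.ofReal_le_ofReal (pvaa_P_beq _ _ _ hQle b _)
  · have : {c | Pvx7Ev1 T G C0 C1 K b (cfSites (pvConf (pvMerge (g, c)))) (fun v => cfCol (pvConf (pvMerge (g, c))) v)} = ∅ := by
      ext c
      simp only [mem_ofPred_eq, mem_empty_iff_false, iff_false]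
      rintro ⟨h, -⟩
      rw [pvqu_cfSites g c] at h
      exact hGg h
    rw [this, measure_empty]
    exact zero_le

/-- **(C) THE COUNT OF THE CHORDS IN THE ORDERED LIMIT**, U-form: for ANY `K0 m → ∞`, with upper probability `→ 1`: on the frame event, for both colours, at most `K0 m` chords of `C0` reach `C1.Left`.
(In fact uniformly in `ε`: nothing is asked of the geometry off the frame event.) -/
theorem pvx7_count (G : ℕ → Set ℂ → Prop) (C0 C1 : ∀ m Y, G m Y → (T Y).Cyc) {q0 : ℝ} (hq0 : 0 < q0) (hq01 : q0 ≤ 1)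
    (hG : ∀ m Y (h : G m Y), PvaaGeo (T Y) (C1 m Y h) (C0 m Y h) q0) (K0 : ℕ → ℕ) (hK0 : Tendsto K0 atTop atTop) :
    PvhbOrd fun m ε => ((pvhbUp ε).P {p | Pvx7Ev T (G m) (C0 m) (C1 m) (K0 m) (cfSites (pvConf (pvMerge p))) (fun v => cfCol (pvConf (pvMerge p)) v)}).toReal := by
  intro η hη
  set M : ℝ := pvbkM 2 1 (1 - q0) with hM
  have hM0 : 0 ≤ M := pvbk_M_nonneg 2 1 (by linarith)
  have hb : Tendsto (fun m => 2 * (M / ((K0 m : ℝ) + 1))) atTop (𝓝 0) := by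
    have h1 : Tendsto (fun m => (K0 m : ℝ) + 1) atTop atTop := tendsto_atTop_add_const_right _ _ (tendsto_natCast_atTop_atTop.comp hK0)
    have h2 := (h1.const_div_atTop M).const_mul 2
    simpa using h2
  filter_upwards [hb.eventually (ge_mem_nhds hη)] with m hm
  refine Eventually.of_forall fun ε => ?_
  have h1 := pvx7_count_up T (G m) (C0 m) (C1 m) hq0 hq01 (hG m) (K0 m) ε
  have h2 := ENNReal.toReal_mono (ENNReal.mul_ne_top (by norm_num) ENNReal.ofReal_ne_top) h1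
  rw [ENNReal.toReal_mul, ENNReal.toReal_ofReal (by positivity)] at h2
  norm_num at h2
  exact h2.trans hm

/-- off the bad event: the hypothesis of (B) SPLIT, for both colours -/
theorem pvx7_few_of_not {G : Set ℂ → Prop} {C0 C1 : ∀ Y, G Y → (T Y).Cyc} {K : ℕ} {Y : Set ℂ} {σ : ↥Y → Bool} (h : ¬ Pvx7Ev T G C0 C1 K Y σ) (hG : G Y) (b : Bool) :
    ∃ F : Finset (Dt Y), F.card ≤ K ∧ ∀ e, PvaaK (T Y) (C1 Y hG) (C0 Y hG) (fun v => σ v == b) e → e ∈ F := by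
  by_contra hcon
  exact h ⟨hG, b, hcon⟩

end exit

/-! ## 3. the numbers: a count `K0 m → ∞` which leaves a scale `r m / K0 m ≥ (L h m)^(1 - kap)` -/

/-- **THE NUMBERS OF THE SPLIT**: `K0 m := ⌊(h m)^(-κ'/2)⌋₊`, `κ' = min κ 1`, `kap := κ'/4` -/
theorem pvx7_num {h r : ℕ → ℝ} {κ : ℝ} (hκ : 0 < κ) (h0 : ∀ m, 0 < h m) (hlim : Tendsto h atTop (𝓝 0)) (hr : ∀ᶠ m in atTop, h m ^ (1 - κ) ≤ r m) (L : ℝ) (hL : 0 < L) :
    ∃ (K0 : ℕ → ℕ) (kap : ℝ), 0 < kap ∧ Tendsto K0 atTop atTop ∧ (∀ᶠ m in atTop, 0 < K0 m) ∧ ∀ᶠ m in atTop, (L * h m) ^ (1 - kap) ≤ r m / K0 m := by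
  set k' : ℝ := min κ 1 with hk'
  have hk0 : 0 < k' := lt_min hκ one_pos
  have hk1 : k' ≤ κ := min_le_left _ _
  have hlim' : Tendsto h atTop (𝓝[>] (0 : ℝ)) := tendsto_nhdsWithin_iff.2 ⟨hlim, Eventually.of_forall h0⟩
  have hinf : Tendsto (fun m => h m ^ (-(k' / 2))) atTop atTop := (tendsto_rpow_neg_nhdsGT_zero (by linarith)).comp hlim'
  have hK : Tendsto (fun m => ⌊h m ^ (-(k' / 2))⌋₊) atTop atTop := tendsto_nat_floor_atTop.comp hinf
  have hsm : Tendsto (fun m => L ^ (1 - k' / 4) * h m ^ (k' / 4)) atTop (𝓝 0) := by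
    have h1 := ((Real.continuous_rpow_const (show (0 : ℝ) ≤ k' / 4 by positivity)).tendsto 0).comp hlim
    rw [Real.zero_rpow (by positivity)] at h1
    simpa using h1.const_mul (L ^ (1 - k' / 4))
  refine ⟨fun m => ⌊h m ^ (-(k' / 2))⌋₊, k' / 4, by positivity, hK, hK.eventually (eventually_gt_atTop 0), ?_⟩
  filter_upwards [hr, hK.eventually (eventually_gt_atTop 0), hsm.eventually (ge_mem_nhds one_pos), hlim.eventually (ge_mem_nhds one_pos)] with m a1 a2 a3 a4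
  have hh := h0 m
  have hKpos : (0 : ℝ) < (⌊h m ^ (-(k' / 2))⌋₊ : ℝ) := by exact_mod_cast a2
  have hKle : (⌊h m ^ (-(k' / 2))⌋₊ : ℝ) ≤ h m ^ (-(k' / 2)) := Nat.floor_le (Real.rpow_nonneg hh.le _)
  rw [le_div_iff₀ hKpos]
  have e1 : h m ^ (1 - k') ≤ r m := (Real.rpow_le_rpow_of_exponent_ge hh a4 (by linarith)).trans a1
  have e2 : (L * h m) ^ (1 - k' / 4) = (L ^ (1 - k' / 4) * h m ^ (k' / 4)) * h m ^ (1 - k' / 2) := by
    rw [Real.mul_rpow hL.le hh.le, mul_assoc, ← Real.rpow_add hh]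
    congr 2
    ring
  have e3 : h m ^ (1 - k' / 2) * h m ^ (-(k' / 2)) = h m ^ (1 - k') := by
    rw [← Real.rpow_add hh]
    congr 1
    ring
  have p1 : 0 ≤ h m ^ (1 - k' / 2) := Real.rpow_nonneg hh.le _
  have p2 : 0 ≤ L ^ (1 - k' / 4) * h m ^ (k' / 4) := mul_nonneg (Real.rpow_nonneg hL.le _) (Real.rpow_nonneg hh.le _)
  calc (L * h m) ^ (1 - k' / 4) * (⌊h m ^ (-(k' / 2))⌋₊ : ℝ) ≤ (1 * h m ^ (1 - k' / 2)) * h m ^ (-(k' / 2)) := by
        rw [e2]
        exact mul_le_mul (mul_le_mul_of_nonneg_right a3 p1) hKle hKpos.le (by rw [one_mul]; exact p1)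
    _ = h m ^ (1 - k') := by rw [one_mul, e3]
    _ ≤ r m := e1

/-! ## 4. the leaf (C) of `Exit/PinsA6X.lean` (200), verbatim -/

/-- **(C) COUNT OF THE CHORDS** = the statement of `exit_pvx2_few` -/
theorem pvx7_few [∀ Y : Set ℂ, DecidableEq ↥Y] {x : ℂ} {R : ℝ} {y : ℂ} {ρ : ℝ} (F : PvX2Fr x R y ρ) (K0 : ℕ → ℕ) (hK0 : Tendsto K0 atTop atTop) :
    PvhbOrd fun m ε => ((pvhbUp ε).P {p | ∃ hG : F.G m (cfSites (pvConf (pvMerge p))),
      ¬ PvX2Few _ (fun v => cfCol (pvConf (pvMerge p)) v) (F.C0 m _ hG) (F.C1 m _ hG) (K0 m)}).toReal := by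
  refine (pvx7_count pvx2T F.G F.C0 F.C1 F.q0_pos F.q0_le (fun m Y h => (F.mac m Y h).geo) K0 hK0).mono fun m ε => ?_
  refine ENNReal.toReal_mono (PvUp.P_ne_top _ _) ((pvhbUp ε).P_mono ?_)
  rintro p ⟨hG, hn⟩
  by_contra hcon
  exact hn fun b => pvx7_few_of_not pvx2T hcon hG b

end Claimed.Agent.R289
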