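import Claimed.Agent.R289.Arm.GateFrM
import Claimed.Agent.R289.Tr.DenseU

/-!
# Row 289 (S0537), THE WALL, roof PINS, sub-exit (X2), file Exit/PinsA6D0 : THE NUMBERS OF LEAF (D) OF THE CORE OF A6, DEFINITIONS ONLY      (helper116, head of (D); prefix `pvx2d_`, `PvX2d`)

`PvX2dNum` (record of 101 + constant of the frame + enlargement + height of the towers + radii of the trials in units of `h`), `PvX2dNum.Ok g` (ALL the inequalities which the glue `Exit/PinsA6D.lean` uses), `PvX2dNum.lev` (the level of 54 of one patch).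
The existence theorem (NUM) is proved in `Exit/PinsA6N.lean` (149 + 54), which imports this file.
-/

set_option autoImplicit false

namespace Claimed.Agent.R289

open MeasureTheory Filter Topology Set Claims.C0465
open scoped ENNReal

/-! ## 1. the numbers -/

/-- **THE NUMBERS OF (D)**: the record of 101, the constant of the frame, the enlargement, the height of the towers, the radii of the trials IN UNITS OF `h` -/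
structure PvX2dNum where
  Ps : PvdsPar
  q : ℝ
  en : ℕ
  mt : ℕ
  r0 : ℕ → ℝ
  r1 : ℕ → ℝ
  r2 : ℕ → ℝ
  r3 : ℕ → ℝ
  t : ℕ → ℕ → ℝ

/-- the inequalities between the numbers -/
structure PvX2dNum.Ok (𝔑 : PvX2dNum) (g : ℕ) : Prop where
  wf : 𝔑.Ps.Wf
  n_eq : 𝔑.Ps.n = 2 * g
  hsc : ∀ i < 2 * g, (𝔑.Ps.n0 + 4) * (𝔑.Ps.Mc * 𝔑.Ps.A i) ≤ 𝔑.Ps.A (i + 1)
  hA : 𝔑.Ps.A (2 * g) ≤ 𝔑.Ps.L
  en11 : 11 ≤ 𝔑.en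
  hd : 𝔑.en + 1 ≤ 𝔑.Ps.d
  q0 : 0 < 𝔑.q
  q1 : 𝔑.q ≤ 1
  hr0 : ∀ k < g, 1 ≤ 𝔑.r0 k
  h01 : ∀ k < g, 5 * 𝔑.r0 k / 4 ≤ 𝔑.r1 k
  h12 : ∀ k < g, 5 * 𝔑.r1 k / 4 ≤ 𝔑.r2 k
  h23 : ∀ k < g, 5 * 𝔑.r2 k / 4 ≤ 𝔑.r3 k
  h1t : ∀ k < g, ∀ j < 2 * 𝔑.mt, 5 * 𝔑.r1 k / 4 ≤ 𝔑.t k j
  htt : ∀ k < g, ∀ j, j + 1 < 2 * 𝔑.mt → 8 * 𝔑.t k j / 5 ≤ 𝔑.t k (j + 1)
  ht2 : ∀ k < g, ∀ j < 2 * 𝔑.mt, 5 * 𝔑.t k j / 4 ≤ 𝔑.r2 k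
  r3L : ∀ k < g, 1 + 5 * 𝔑.r3 k / 4 ≤ 𝔑.Ps.L
  b0 : ∀ k < g, 4 * (𝔑.Ps.A (2 * k) : ℝ) + 5 * 𝔑.r0 k / 4 ≤ 𝔑.Ps.w * 𝔑.Ps.A (2 * k)
  b1 : ∀ k < g, 4 * (𝔑.Ps.A (2 * k) : ℝ) + pvdsLam 𝔑.Ps.Mc * (𝔑.Ps.w * 𝔑.Ps.A (2 * k)) ≤ 𝔑.r1 k
  b2 : ∀ k < g, 4 * (𝔑.Ps.A (2 * k + 1) : ℝ) + 5 * 𝔑.r2 k / 4 ≤ 𝔑.Ps.w * 𝔑.Ps.A (2 * k + 1)
  b3 : ∀ k < g, 4 * (𝔑.Ps.A (2 * k + 1) : ℝ) + pvdsLam 𝔑.Ps.Mc * (𝔑.Ps.w * 𝔑.Ps.A (2 * k + 1)) ≤ 𝔑.r3 k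
  hp : ENNReal.ofReal (((𝔑.Ps.J * g : ℕ) : ℝ) * (1 - 𝔑.q) ^ 𝔑.mt) ≤ pvtdQ (𝔑.en + 2)

/-- **the level of 54 of the patch of centre `y`** (core radius `R`), mesh `h` -/
noncomputable def PvX2dNum.lev (𝔑 : PvX2dNum) (g : ℕ) (y : ℂ) (R h : ℝ) : PvklPar where
  x := y
  R := R / 2
  h := h
  g := g
  mt := 𝔑.mt
  r0 := fun k => 𝔑.r0 k * h
  r1 := fun k => 𝔑.r1 k * h
  r2 := fun k => 𝔑.r2 k * h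
  r3 := fun k => 𝔑.r3 k * h
  t := fun k j => 𝔑.t k j * h

theorem pvx2d_eqns_cite : True := by
  have := @PvX2dNum.lev.eq_1
  trivial

end Claimed.Agent.R289
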