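import Claimed.Agent.R289.Tr.DenseS
import Claimed.Agent.R289.Exit.PinsA6
import Claimed.Agent.R289.Arm.GateS
import Claimed.Agent.R289.Exit.PinsA6D0

/-!
# Row 289 (S0537), THE WALL, roof PINS, sub-exit (X2), file Exit/PinsA6N : THE NUMBERS OF (D)      (helper149; prefix `pvx8_`, `pvx8`)

Post (D-NUM1) of 281 (id 86124): a well-formed record `PvdsPar` of 101 (`Tr/DenseS.lean`) with PRESCRIBED `n w d a' J`, the growth of the sides `A i` asked by the micro geometry, `Mc` chosen LAST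
(`cbNum` does not contain `Mc`).
* `pvx8Par n w d a' J c A0 Mc` : the explicit record (`a = 257 w + 1`, `n0 = (2n+1)(2a+1)^2`, `A i = 2 A0 (c Mc)^i`, `L = A n`, `N i = c (c Mc)^(n-1-i)`, `C0 = c^n`, `ρ = 1`)
* `pvx8_wf`          : it is well formed as soon as `n0 + a ≤ c`, `0 < A0`, `1310723 ≤ Mc`
* `pvx8_par_exists`  : (D-NUM1)
* `pvx8Micro`        : the record `PvagsNum g mt` of 75 (`Arm/GateS.lean`) from the record of 101: `A = P.A`, `ri i = w A i`, `ro i = Λ w A i`, `r0 k = A (2k)`, `r1 k = (Λ w + 4) A (2k)`, `t = 5/4 r1`,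
                       `r2 = 5/4 16^(2 mt) t`, `r3 k = (Λ w + 4) A (2k+1)`      (units of `u = h / 2`)
* `Pvx8Num a0 S g Cw q5 qT` : (D-NUM2) ALL THE NUMBERS OF (D) in one record;   `pvx8_num_exists` : it is inhabited;   `Pvx8Num.Gl` : the term of `PvX2Glob g` of 200 (`a k = r0 k / 2`, `b k = 5/8 r3 k`, `L = P.L / 2`,
                       `ae = 12`, `aw = Cw + 16`, `SB h b = P.SB (h / 2) b`), `Pvx8Num.Gl_Cw`, `.Gl_ab`, `.Gl_next` = the three numerical clauses of `exit_pvx2_di` verbatim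
* sec. 6  **`pvx8_numD`** : (NUM) OF THE ROAD OF RECORD (116, `Exit/PinsA6D0.lean`, unit `h`): `∃ 𝔑 : PvX2dNum, 𝔑.Ok g` with the term of `PvX2Glob g` and the three numerical clauses of `exit_pvx2_di`
-/

set_option autoImplicit false

namespace Claimed.Agent.R289

open MeasureTheory Filter Topology Set Claims.C0465
open scoped ENNReal

/-! ## 1. the explicit record -/

/-- the length of the chains -/
def pvx8N0 (n w : ℕ) : ℕ := (2 * n + 1) * (2 * (257 * w + 1) + 1) ^ 2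

/-- **the explicit numbers of the static bad block** -/
def pvx8Par (n w d a' J c A0 Mc : ℕ) : PvdsPar where
  n := n
  n0 := pvx8N0 n w
  d := d
  w := w
  Mc := Mc
  J := J
  a' := a'
  C0 := c ^ n
  L := 2 * A0 * (c * Mc) ^ n
  A := fun i => 2 * A0 * (c * Mc) ^ i
  N := fun i => c * (c * Mc) ^ (n - 1 - i)
  ρ := 1

theorem pvx8_eqns_cite : True := by
  have := @pvx8N0.eq_1; have := @pvx8Par.eq_1
  trivial

theorem pvx8_wf {n w d a' J c A0 Mc : ℕ} (hw : 0 < w) (hd : d + 1 ≤ a') (ha : 16 ≤ a') (hc : pvx8N0 n w + (257 * w + 1) ≤ c) (hA : 0 < A0) (hMc : 1310723 ≤ Mc) :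
    (pvx8Par n w d a' J c A0 Mc).Wf := by
  have hc0 : 0 < c := by omega
  have hM0 : 0 < Mc := by omega
  have hcM : 0 < c * Mc := Nat.mul_pos hc0 hM0
  refine ⟨hw, hMc, one_pos, le_rfl, fun i _ => ?_, fun i _ => ?_, fun i hi => ?_, ?_, fun i _ => ?_, fun i hi => ?_, ?_, hd, ha⟩
  · show 0 < 2 * A0 * (c * Mc) ^ i
    positivity
  · show 0 < c * (c * Mc) ^ (n - 1 - i)
    positivity
  · show 2 * A0 * (c * Mc) ^ n = c * (c * Mc) ^ (n - 1 - i) * (Mc * (2 * A0 * (c * Mc) ^ i))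
    have hi' : i < n := hi
    have e : n = (n - 1 - i) + 1 + i := by omega
    conv_lhs => rw [e, pow_add, pow_succ]
    ring
  · show 0 < 2 * A0 * (c * Mc) ^ n
    positivity
  · show pvx8N0 n w + (257 * w + 1) ≤ c * (c * Mc) ^ (n - 1 - i)
    exact hc.trans (Nat.le_mul_of_pos_right _ (by positivity))
  · show c * (c * Mc) ^ (n - 1 - i) ≤ c ^ n * Mc ^ n
    have hi' : i < n := hi
    rw [← mul_pow]
    calc c * (c * Mc) ^ (n - 1 - i) ≤ (c * Mc) * (c * Mc) ^ (n - 1 - i) := Nat.mul_le_mul_right _ (Nat.le_mul_of_pos_right _ hM0)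
      _ = (c * Mc) ^ (n - 1 - i + 1) := by rw [pow_succ]; ring
      _ ≤ (c * Mc) ^ n := Nat.pow_le_pow_right hcM (by omega)
  · show 2 * n + 1 ≤ (pvx8N0 n w + 1) / (2 * (257 * w + 1) + 1) ^ 2
    rw [Nat.le_div_iff_mul_le (by positivity)]
    unfold pvx8N0
    omega

/-! ## 2. (D-NUM1) -/

/-- **(D-NUM1)**: the record of 101 with prescribed `n w d a' J`; `c2`, `A0`, `M0` = the demands of the micro geometry;   `Mc` is chosen LAST -/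
theorem pvx8_par_exists (q : ℝ) (n w d a' J c2 A0 M0 : ℕ) (hw : 0 < w) (hd : d + 1 ≤ a') (ha : 16 ≤ a') {τ : ℝ≥0∞} (hτ : 0 < τ) :
    ∃ P : PvdsPar, P.Wf ∧ P.n = n ∧ P.w = w ∧ P.d = d ∧ P.a' = a' ∧ P.J = J ∧ P.ρ = 1 ∧ P.n0 = pvx8N0 n w ∧ pvdsK q w ≤ P.Mc ∧ M0 ≤ P.Mc ∧ (P.cbNum q : ℝ≥0∞) / P.Mc ≤ τ ∧
      A0 ≤ P.A 0 ∧ (∀ i, 2 ∣ P.A i) ∧ (∀ i, c2 * (P.Mc * P.A i) ≤ P.A (i + 1) ∧ (P.n0 + 4) * (P.Mc * P.A i) ≤ P.A (i + 1)) ∧ P.L = P.A n := by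
  obtain ⟨M1, hM1⟩ := pvds_choose_Mc ((pvx8Par n w d a' J (max c2 (pvx8N0 n w + (257 * w + 1) + 4)) (max A0 1) 0).cbNum q) hτ
  set c := max c2 (pvx8N0 n w + (257 * w + 1) + 4) with hc
  set Mc := max (max M1 M0) (max (pvdsK q w) 1310723) with hMc
  have h1 : c2 ≤ c := le_max_left _ _
  have h2 : pvx8N0 n w + (257 * w + 1) + 4 ≤ c := le_max_right _ _
  refine ⟨pvx8Par n w d a' J c (max A0 1) Mc, pvx8_wf hw hd ha (by omega) (lt_of_lt_of_le one_pos (le_max_right _ _)) ((le_max_right _ _).trans (le_max_right _ _)),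
    rfl, rfl, rfl, rfl, rfl, rfl, rfl, (le_max_left _ _).trans (le_max_right _ _), (le_max_right _ _).trans (le_max_left _ _),
    hM1 Mc ((le_max_left _ _).trans (le_max_left _ _)), ?_, fun i => ?_, fun i => ?_, rfl⟩
  · show A0 ≤ 2 * max A0 1 * (c * Mc) ^ 0
    have := le_max_left A0 1
    rw [pow_zero]
    omega
  · show 2 ∣ 2 * max A0 1 * (c * Mc) ^ i
    exact ⟨max A0 1 * (c * Mc) ^ i, by ring⟩
  · have e : 2 * max A0 1 * (c * Mc) ^ (i + 1) = c * (Mc * (2 * max A0 1 * (c * Mc) ^ i)) := by rw [pow_succ]; ring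
    constructor
    · show c2 * (Mc * (2 * max A0 1 * (c * Mc) ^ i)) ≤ 2 * max A0 1 * (c * Mc) ^ (i + 1)
      rw [e]
      exact Nat.mul_le_mul_right _ h1
    · show (pvx8N0 n w + 4) * (Mc * (2 * max A0 1 * (c * Mc) ^ i)) ≤ 2 * max A0 1 * (c * Mc) ^ (i + 1)
      rw [e]
      exact Nat.mul_le_mul_right _ (by omega)

/-! ## 3. the micro numbers of 75 from the record of 101 -/

theorem pvx8_lam_le {Mc : ℕ} (hMc : 1310723 ≤ Mc) : pvdsLam Mc ≤ 257 * Mc := by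
  have : (1310723 : ℝ) ≤ Mc := by exact_mod_cast hMc
  unfold pvdsLam
  linarith

/-- `Λ w + 4 ≤ 261 w Mc` -/
theorem pvx8_lam_w {Mc w : ℕ} (hMc : 1310723 ≤ Mc) (hw : 0 < w) : pvdsLam Mc * w + 4 ≤ 261 * w * Mc := by
  have h1 := pvx8_lam_le hMc
  have h2 : (1 : ℝ) ≤ w := by exact_mod_cast hw
  have h3 : (1 : ℝ) ≤ Mc := by exact_mod_cast (by omega : 1 ≤ Mc)
  have h4 : pvdsLam Mc * w ≤ 257 * Mc * w := mul_le_mul_of_nonneg_right h1 (by linarith)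
  nlinarith

/-- **the micro numbers** (units of `u = h / 2`) -/
noncomputable def pvx8Micro (P : PvdsPar) (g mt : ℕ) (hMc : 1310723 ≤ P.Mc) (hw : 6 ≤ P.w) (hA2 : ∀ i, 2 ≤ P.A i)
    (hgrow : ∀ i, 261 * P.w * 16 ^ (2 * mt) * (P.Mc * P.A i) ≤ P.A (i + 1)) : PvagsNum g mt where
  A := P.A
  ri := fun i => P.w * P.A i
  ro := fun i => pvdsLam P.Mc * (P.w * P.A i)
  r0 := fun k => P.A (2 * k)
  r1 := fun k => (pvdsLam P.Mc * P.w + 4) * P.A (2 * k)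
  t := fun k => 5 / 4 * ((pvdsLam P.Mc * P.w + 4) * P.A (2 * k))
  r2 := fun k => 5 / 4 * ((16 : ℝ) ^ (2 * mt) * (5 / 4 * ((pvdsLam P.Mc * P.w + 4) * P.A (2 * k))))
  r3 := fun k => (pvdsLam P.Mc * P.w + 4) * P.A (2 * k + 1)
  A0 := fun i _ => lt_of_lt_of_le (by norm_num) (hA2 i)
  io := fun i _ => le_mul_of_one_le_left (by positivity) (pvds_lam_one _)
  h0 := fun k _ => by exact_mod_cast hA2 (2 * k)
  b0 := fun k _ => by
    have h1 : (6 : ℝ) ≤ P.w := by exact_mod_cast hw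
    have h2 : (0 : ℝ) ≤ P.A (2 * k) := by positivity
    nlinarith
  b1 := fun k _ => le_of_eq (by ring)
  t1 := fun k _ => le_rfl
  t2 := fun k _ => le_rfl
  b2 := fun k _ => by
    have h1 : (6 : ℝ) ≤ P.w := by exact_mod_cast hw
    have h2 : (0 : ℝ) ≤ P.A (2 * k + 1) := by positivity
    have h3 : ((261 * P.w * 16 ^ (2 * mt) * (P.Mc * P.A (2 * k)) : ℕ) : ℝ) ≤ P.A (2 * k + 1) := by exact_mod_cast hgrow (2 * k)
    push_cast at h3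
    have h4 := pvx8_lam_w hMc (by omega : 0 < P.w)
    have h5 : (0 : ℝ) ≤ (16 : ℝ) ^ (2 * mt) * P.A (2 * k) := by positivity
    have h6 : (pvdsLam P.Mc * P.w + 4) * ((16 : ℝ) ^ (2 * mt) * P.A (2 * k)) ≤ 261 * P.w * P.Mc * ((16 : ℝ) ^ (2 * mt) * P.A (2 * k)) := mul_le_mul_of_nonneg_right h4 h5
    nlinarith
  b3 := fun k _ => le_of_eq (by ring)

theorem pvx8_eqns_cite2 : True := by
  have := @pvx8Micro.eq_1
  trivial

/-! ## 4. (D-NUM2): all the numbers of (D) -/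

/-- **ALL THE NUMBERS OF (D)**.   `q5` = the constant of the frames of the five-arm count of 101 (`PvdsFr q5`), `qT` = the blocking constant of the towers (54 / 75).
Passage `en = ae = 12`, `P.d = 12`, `P.a' = 16`, window of the adaptive bad blocks `13`, window of the static bad blocks `aw = Cw + 16`, unit `u = h / 2`, `P.L = 2 L`, `n = 2 g` levels, `N = J g` trials. -/
structure Pvx8Num (a0 S : ℝ) (g Cw : ℕ) (q5 qT : ℝ) where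
  P : PvdsPar
  mt : ℕ
  Nm : PvagsNum g mt
  L : ℕ
  wf : P.Wf
  n_eq : P.n = 2 * g
  d_eq : P.d = 12
  a'_eq : P.a' = 16
  ρ_eq : P.ρ = 1
  w_ge : 6 ≤ P.w
  K_le : pvdsK q5 P.w ≤ P.Mc
  L_eq : P.L = 2 * L
  L_A : P.L = P.A (2 * g)
  A_mono : Monotone P.A
  A_ge : ∀ i, 2 ≤ P.A i
  sc : ∀ i, (P.n0 + 4) * (P.Mc * P.A i) ≤ P.A (i + 1)
  mt_pos : 0 < mt
  A_eq : Nm.A = P.A
  ri_eq : ∀ i, Nm.ri i = P.w * P.A i
  ro_eq : ∀ i, Nm.ro i = pvdsLam P.Mc * (P.w * P.A i)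
  r0_eq : ∀ k, Nm.r0 k = P.A (2 * k)
  r3_eq : ∀ k, Nm.r3 k = (pvdsLam P.Mc * P.w + 4) * P.A (2 * k + 1)
  r2_le : ∀ k < g, Nm.r2 k + 2 ≤ P.L
  r3_le : ∀ k < g, 5 / 4 * Nm.r3 k ≤ P.L
  /-- the static bad block -/
  small : (P.cbNum q5 : ℝ≥0∞) / P.Mc + ENNReal.ofReal (2 * (1 - q5) ^ P.J) + pvtdQ (Cw + 16) / 6 ≤ pvtdQ (Cw + 16) / 2
  /-- the adaptive bad block: `hp` of `PvX2Ad` -/
  hp : ENNReal.ofReal (((P.J * g : ℕ) : ℝ) * (1 - qT) ^ mt) ≤ pvtdQ 13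
  a_ge : ∀ j < g, a0 ≤ Nm.r0 j / 2
  ab : ∀ j < g, S * (Nm.r0 j / 2) ≤ 5 / 8 * Nm.r3 j
  bL : ∀ j < g, S * (5 / 8 * Nm.r3 j) ≤ L
  ba : ∀ j, j + 1 < g → S * (5 / 8 * Nm.r3 j) ≤ Nm.r0 (j + 1) / 2

theorem pvx8_choose_mt (C : ℝ) {q : ℝ} (hq : 0 < q) (hq1 : q ≤ 1) {τ : ℝ≥0∞} (hτ : 0 < τ) : ∃ mt : ℕ, 0 < mt ∧ ENNReal.ofReal (C * (1 - q) ^ mt) ≤ τ := by
  have h1 : Tendsto (fun n : ℕ => C * (1 - q) ^ n) atTop (𝓝 0) := by
    simpa using (tendsto_pow_atTop_nhds_zero_of_lt_one (by linarith : (0 : ℝ) ≤ 1 - q) (by linarith)).const_mul C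
  have h2 : Tendsto (fun n : ℕ => ENNReal.ofReal (C * (1 - q) ^ n)) atTop (𝓝 0) := by
    simpa using ENNReal.tendsto_ofReal h1
  obtain ⟨n, hn⟩ := eventually_atTop.1 (h2.eventually (Iic_mem_nhds hτ))
  exact ⟨n + 1, Nat.succ_pos _, hn (n + 1) (Nat.le_succ _)⟩

theorem pvx8_sixth (t : ℝ≥0∞) : t / 6 + t / 6 + t / 6 = t / 2 := by
  rw [← ENNReal.add_div, ← ENNReal.add_div, div_eq_mul_inv, div_eq_mul_inv]
  have e : t + t + t = t * 3 := by ring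
  rw [e, mul_assoc]
  congr 1
  have h6 : (6 : ℝ≥0∞) = 3 * 2 := by norm_num
  rw [h6, ENNReal.mul_inv (Or.inl (by norm_num)) (Or.inl (by norm_num)), ← mul_assoc, ENNReal.mul_inv_cancel (by norm_num) (by norm_num), one_mul]

/-- **(D-NUM2)**: the numbers exist -/
theorem pvx8_num_exists (a0 S : ℝ) (g Cw : ℕ) {q5 qT : ℝ} (h5 : 0 < q5) (h5' : q5 < 1) (hT : 0 < qT) (hT' : qT ≤ 1) : Nonempty (Pvx8Num a0 S g Cw q5 qT) := by
  have hτ : 0 < pvtdQ (Cw + 16) / 6 := ENNReal.div_pos (pvtd_Q_pos _).ne' (by norm_num)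
  obtain ⟨J, hJ⟩ := pvds_choose_J h5 h5' hτ
  obtain ⟨mt, hmt0, hmt⟩ := pvx8_choose_mt ((J * g : ℕ) : ℝ) hT hT' (pvtd_Q_pos 13)
  set Sn : ℕ := ⌈S⌉₊ with hSn
  have hS : S ≤ Sn := Nat.le_ceil S
  set c2 : ℕ := 261 * 6 * 16 ^ (2 * mt) + 328 * Sn * 6 + Sn + 1958 with hc2
  obtain ⟨P, wf, hn, hw, hd, ha', hPJ, hρ, -, hK, -, hcb, hA0, h2, hgr, hL⟩ :=
    pvx8_par_exists q5 (2 * g) 6 12 16 J c2 (2 * (⌈a0⌉₊ + 1)) 0 (by norm_num) (by norm_num) le_rfl hτ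
  have hMc1 : 1 ≤ P.Mc := wf.Mc_pos
  have hstep : ∀ i, c2 * P.A i ≤ P.A (i + 1) := fun i =>
    le_trans (Nat.mul_le_mul_left _ (Nat.le_mul_of_pos_left _ hMc1)) (hgr i).1
  have hmono : Monotone P.A := monotone_nat_of_le_succ fun i => le_trans (Nat.le_mul_of_pos_left _ (by omega)) (hstep i)
  have hAge : ∀ i, 2 * (⌈a0⌉₊ + 1) ≤ P.A i := fun i => hA0.trans (hmono (Nat.zero_le i))
  have hA2 : ∀ i, 2 ≤ P.A i := fun i => le_trans (by omega) (hAge i)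
  have hw6 : 6 ≤ P.w := hw.ge
  have hgrow : ∀ i, 261 * P.w * 16 ^ (2 * mt) * (P.Mc * P.A i) ≤ P.A (i + 1) := fun i => by
    rw [hw]
    exact le_trans (Nat.mul_le_mul_right _ (by omega)) (hgr i).1
  obtain ⟨L, hLL⟩ : ∃ L, P.L = 2 * L := by
    rw [hL]
    exact h2 _
  -- real forms
  have hM : (1 : ℝ) ≤ P.Mc := by exact_mod_cast hMc1
  have ha0 : ∀ i, (2 : ℝ) ≤ P.A i := fun i => by exact_mod_cast hA2 i
  have hgrR : ∀ i, (c2 : ℝ) * (P.Mc * P.A i) ≤ P.A (i + 1) := fun i => by exact_mod_cast (hgr i).1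
  have hSn0 : (0 : ℝ) ≤ Sn := Nat.cast_nonneg _
  have hc2R : (c2 : ℝ) = 261 * 6 * 16 ^ (2 * mt) + 328 * Sn * 6 + Sn + 1958 := by
    rw [hc2]
    push_cast
    ring
  have h16 : (0 : ℝ) ≤ 16 ^ (2 * mt) := by positivity
  have hcA : (1958 : ℝ) ≤ c2 := by rw [hc2R]; linarith
  have hcB : (Sn : ℝ) ≤ c2 := by rw [hc2R]; linarith
  have hcC : (328 * Sn * 6 : ℝ) ≤ c2 := by rw [hc2R]; linarith
  have hc0 : (0 : ℝ) ≤ c2 := by linarith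
  have hlam : pvdsLam P.Mc * P.w + 4 ≤ 1566 * P.Mc := by
    have := pvx8_lam_w wf.Mc_big wf.w_pos
    rw [hw] at this ⊢
    push_cast at this ⊢
    linarith
  have hlam4 : (4 : ℝ) ≤ pvdsLam P.Mc * P.w + 4 := by
    have := pvds_lam_one P.Mc
    have : (0 : ℝ) ≤ pvdsLam P.Mc * P.w := by positivity
    linarith
  have hLg : ∀ k < g, (P.A (2 * k + 2) : ℝ) ≤ P.L := fun k hk => by
    rw [hL]
    exact_mod_cast hmono (by omega : 2 * k + 2 ≤ 2 * g)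
  have hLR : (P.L : ℝ) = 2 * L := by exact_mod_cast hLL
  -- `Λ w + 4` times `A (2k+1)`
  have hr3 : ∀ k, (pvdsLam P.Mc * P.w + 4) * P.A (2 * k + 1) ≤ 1566 * (P.Mc * P.A (2 * k + 1)) := fun k => by
    have := mul_le_mul_of_nonneg_right hlam (by linarith [ha0 (2 * k + 1)] : (0 : ℝ) ≤ P.A (2 * k + 1))
    linarith
  have hMA : ∀ i, (0 : ℝ) ≤ P.Mc * P.A i := fun i => by positivity
  have hkey : ∀ k, S * (5 / 8 * ((pvdsLam P.Mc * P.w + 4) * P.A (2 * k + 1))) ≤ (P.A (2 * k + 2) : ℝ) / 2 := fun k => by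
    have e1 := hr3 k
    have e2 := hgrR (2 * k + 1)
    have e3 := hMA (2 * k + 1)
    have e4 : (0 : ℝ) ≤ (pvdsLam P.Mc * P.w + 4) * P.A (2 * k + 1) := mul_nonneg (by linarith) (by linarith [ha0 (2 * k + 1)])
    have e5 : S * (5 / 8 * ((pvdsLam P.Mc * P.w + 4) * P.A (2 * k + 1))) ≤ Sn * (5 / 8 * ((pvdsLam P.Mc * P.w + 4) * P.A (2 * k + 1))) :=
      mul_le_mul_of_nonneg_right hS (by linarith)
    have e6 : (Sn : ℝ) * (5 / 8 * ((pvdsLam P.Mc * P.w + 4) * P.A (2 * k + 1))) ≤ Sn * (5 / 8 * (1566 * (P.Mc * P.A (2 * k + 1)))) :=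
      mul_le_mul_of_nonneg_left (by linarith) hSn0
    have e7 : (328 * Sn * 6 : ℝ) * (P.Mc * P.A (2 * k + 1)) ≤ c2 * (P.Mc * P.A (2 * k + 1)) :=
      mul_le_mul_of_nonneg_right hcC e3
    have e8 : (0 : ℝ) ≤ Sn * (P.Mc * P.A (2 * k + 1)) := mul_nonneg hSn0 e3
    have e9 : (P.A (2 * k + 1 + 1) : ℝ) = P.A (2 * k + 2) := rfl
    rw [e9] at e2
    linarith
  refine ⟨{ P := P, mt := mt, Nm := pvx8Micro P g mt wf.Mc_big hw6 hA2 hgrow, L := L, wf := wf, n_eq := hn, d_eq := hd, a'_eq := ha', ρ_eq := hρ, w_ge := hw6, K_le := (hw ▸ hK), L_eq := hLL,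
            L_A := hL, A_mono := hmono, A_ge := hA2, sc := fun i => (hgr i).2, mt_pos := hmt0, A_eq := rfl, ri_eq := fun _ => rfl, ro_eq := fun _ => rfl, r0_eq := fun _ => rfl, r3_eq := fun _ => rfl,
            r2_le := ?_, r3_le := ?_, small := ?_, hp := (hPJ ▸ hmt), a_ge := ?_, ab := ?_, bL := ?_, ba := ?_ }⟩
  · intro k hk
    have e1 := (pvx8Micro P g mt wf.Mc_big hw6 hA2 hgrow).b2 k hk
    have e2 : (pvx8Micro P g mt wf.Mc_big hw6 hA2 hgrow).ri (2 * k + 1) = P.w * P.A (2 * k + 1) := rfl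
    have e3 : ((pvx8Micro P g mt wf.Mc_big hw6 hA2 hgrow).A (2 * k + 1) : ℝ) = P.A (2 * k + 1) := rfl
    rw [e2, e3, hw] at e1
    push_cast at e1
    have e4 := hgrR (2 * k + 1)
    have e5 := hLg k hk
    have e6 := ha0 (2 * k + 1)
    have e7 : (1958 : ℝ) * (1 * P.A (2 * k + 1)) ≤ c2 * (P.Mc * P.A (2 * k + 1)) :=
      mul_le_mul hcA (mul_le_mul_of_nonneg_right hM (by linarith)) (by linarith) hc0
    have e9 : (P.A (2 * k + 1 + 1) : ℝ) = P.A (2 * k + 2) := rfl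
    rw [e9] at e4
    linarith
  · intro k hk
    show 5 / 4 * ((pvdsLam P.Mc * P.w + 4) * P.A (2 * k + 1)) ≤ (P.L : ℝ)
    have e1 := hr3 k
    have e4 := hgrR (2 * k + 1)
    have e5 := hLg k hk
    have e7 : (1958 : ℝ) * (P.Mc * P.A (2 * k + 1)) ≤ c2 * (P.Mc * P.A (2 * k + 1)) :=
      mul_le_mul_of_nonneg_right hcA (hMA _)
    have e9 : (P.A (2 * k + 1 + 1) : ℝ) = P.A (2 * k + 2) := rfl
    rw [e9] at e4
    linarith [hMA (2 * k + 1)]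
  · rw [← pvx8_sixth]
    exact add_le_add (add_le_add hcb (hPJ ▸ hJ J le_rfl)) le_rfl
  · intro j _
    show a0 ≤ (P.A (2 * j) : ℝ) / 2
    have e1 : ((2 * (⌈a0⌉₊ + 1) : ℕ) : ℝ) ≤ P.A (2 * j) := by exact_mod_cast hAge (2 * j)
    push_cast at e1
    have e2 := Nat.le_ceil a0
    linarith
  · intro j _
    show S * ((P.A (2 * j) : ℝ) / 2) ≤ 5 / 8 * ((pvdsLam P.Mc * P.w + 4) * P.A (2 * j + 1))
    have e1 := hgrR (2 * j)
    have e2 := ha0 (2 * j)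
    have e3 := ha0 (2 * j + 1)
    have e4 : (4 : ℝ) * P.A (2 * j + 1) ≤ (pvdsLam P.Mc * P.w + 4) * P.A (2 * j + 1) := mul_le_mul_of_nonneg_right hlam4 (by linarith)
    have e5 : S * ((P.A (2 * j) : ℝ) / 2) ≤ Sn * ((P.A (2 * j) : ℝ) / 2) := mul_le_mul_of_nonneg_right hS (by linarith)
    have e6 : (Sn : ℝ) * (1 * P.A (2 * j)) ≤ c2 * (P.Mc * P.A (2 * j)) :=
      mul_le_mul hcB (mul_le_mul_of_nonneg_right hM (by linarith)) (by linarith) hc0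
    have e7 : (0 : ℝ) ≤ Sn * P.A (2 * j) := mul_nonneg hSn0 (by linarith)
    linarith
  · intro j hj
    show S * (5 / 8 * ((pvdsLam P.Mc * P.w + 4) * P.A (2 * j + 1))) ≤ (L : ℝ)
    have := hkey j
    have := hLg j hj
    linarith
  · intro j _
    show S * (5 / 8 * ((pvdsLam P.Mc * P.w + 4) * P.A (2 * j + 1))) ≤ (P.A (2 * (j + 1)) : ℝ) / 2
    exact hkey j

/-! ## 5. the term of `PvX2Glob` -/

namespace Pvx8Num

variable {a0 S : ℝ} {g Cw : ℕ} {q5 qT : ℝ} (𝔑 : Pvx8Num a0 S g Cw q5 qT)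

theorem L_pos : 0 < 𝔑.L := by
  have h1 := 𝔑.wf.L_pos
  have h2 := 𝔑.L_eq
  omega

/-- **the unit**: blocks of side `P.L u = L h`, `u = h / 2` -/
theorem unit (h : ℝ) : (𝔑.P.L : ℝ) * (h / 2) = 𝔑.L * h := by
  have : (𝔑.P.L : ℝ) = 2 * 𝔑.L := by exact_mod_cast 𝔑.L_eq
  rw [this]
  ring

/-- **THE GLOBAL DATA OF A6** -/
noncomputable def Gl (h5 : 0 < q5) (hFr : PvdsFr q5) : PvX2Glob g where
  a := fun j => 𝔑.Nm.r0 j / 2
  b := fun j => 5 / 8 * 𝔑.Nm.r3 j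
  L := 𝔑.L
  L0 := 𝔑.L_pos
  ae := 12
  aw := Cw + 16
  SB := fun h b => 𝔑.P.SB (h / 2) b
  reads := fun h hh b => by
    have h1 := 𝔑.wf.sb_reads (half_pos hh) b
    rw [𝔑.unit, 𝔑.a'_eq] at h1
    exact h1.mono (pvtd_win_mono _ (by omega) b)
  small := fun h hh b => by
    filter_upwards [𝔑.wf.sb_le h5 hFr 𝔑.K_le (half_pos hh) b (δ := pvtdQ (Cw + 16) / 6) (ENNReal.div_pos (pvtd_Q_pos _).ne' (by norm_num))] with ε hε
    exact hε.trans 𝔑.small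

theorem _root_.Claimed.Agent.R289.pvx8_eqns_cite3 : True := by
  have := @Pvx8Num.Gl.eq_1
  trivial

variable (h5 : 0 < q5) (hFr : PvdsFr q5)

/-- the first numerical clause of `exit_pvx2_di` -/
theorem Gl_Cw : Cw + ((𝔑.Gl h5 hFr).ae + 1) ≤ (𝔑.Gl h5 hFr).aw := by
  show Cw + (12 + 1) ≤ Cw + 16
  omega

/-- the second numerical clause of `exit_pvx2_di` -/
theorem Gl_ab : ∀ j < g, a0 ≤ (𝔑.Gl h5 hFr).a j ∧ S * (𝔑.Gl h5 hFr).a j ≤ (𝔑.Gl h5 hFr).b j ∧ S * (𝔑.Gl h5 hFr).b j ≤ (𝔑.Gl h5 hFr).L :=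
  fun j hj => ⟨𝔑.a_ge j hj, 𝔑.ab j hj, 𝔑.bL j hj⟩

/-- the third numerical clause of `exit_pvx2_di` -/
theorem Gl_next : ∀ j, j + 1 < g → S * (𝔑.Gl h5 hFr).b j ≤ (𝔑.Gl h5 hFr).a (j + 1) := 𝔑.ba

/-- the radii of the gates: `a j h = r0 j u`, `b j h = 5/4 r3 j u` for `u = h / 2` (conclusion of `PvagsFit.DI` / `PvagsFit.gate` of 75) -/
theorem Gl_a (j : ℕ) (h : ℝ) : (𝔑.Gl h5 hFr).a j * h = 𝔑.Nm.r0 j * (h / 2) := by
  show 𝔑.Nm.r0 j / 2 * h = _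
  ring

theorem Gl_b (j : ℕ) (h : ℝ) : (𝔑.Gl h5 hFr).b j * h = 5 / 4 * (𝔑.Nm.r3 j * (h / 2)) := by
  show 5 / 8 * 𝔑.Nm.r3 j * h = _
  ring

/-- the numerical hypotheses `hsc hLu0 hLu hen hA hr hw hdd` of `PvagsFit.DI` of 75 at `M i = P.Mc`, `Nn = P.N`, `Lu = P.L`, `en = 12`, `w = 13`, `dd = P.d`, `n0 = P.n0` -/
theorem hsc : ∀ i < 2 * g, 0 < 𝔑.P.Mc ∧ (𝔑.P.n0 + 4) * (𝔑.P.Mc * 𝔑.Nm.A i) ≤ 𝔑.Nm.A (i + 1) := fun i _ => by
  rw [𝔑.A_eq]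
  exact ⟨𝔑.wf.Mc_pos, 𝔑.sc i⟩

theorem hLu : ∀ i < 2 * g, 0 < 𝔑.P.N i ∧ 𝔑.P.L = 𝔑.P.N i * (𝔑.P.Mc * 𝔑.Nm.A i) := fun i hi => by
  rw [𝔑.A_eq]
  exact ⟨𝔑.wf.N_pos i (𝔑.n_eq ▸ hi), 𝔑.wf.L_eq i (𝔑.n_eq ▸ hi)⟩

theorem hA : 𝔑.Nm.A (2 * g) ≤ (12 - 1) * 𝔑.P.L + 1 := by
  rw [𝔑.A_eq, ← 𝔑.L_A]
  omega

theorem hdd : 12 ≤ 𝔑.P.d := 𝔑.d_eq.ge

/-- `hsc` of `pvagm_DI` of 116 / `pvaga_main` of 281 -/
theorem hsc' : ∀ i < 2 * g, 0 < 𝔑.P.A i ∧ 0 < 𝔑.P.Mc ∧ (𝔑.P.n0 + 4) * (𝔑.P.Mc * 𝔑.P.A i) ≤ 𝔑.P.A (i + 1) := fun i _ =>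
  ⟨lt_of_lt_of_le (by norm_num) (𝔑.A_ge i), 𝔑.wf.Mc_pos, 𝔑.sc i⟩

end Pvx8Num

/-! ## 6. (NUM) of the road of record: `PvX2dNum.Ok` of 116, unit `h` -/

/-- the numbers of 116 from the record of 101 -/
noncomputable def pvx8D (P : PvdsPar) (q : ℝ) (mt : ℕ) : PvX2dNum where
  Ps := P
  q := q
  en := 12
  mt := mt
  r0 := fun k => P.A (2 * k)
  r1 := fun k => (pvdsLam P.Mc * P.w + 4) * P.A (2 * k)
  r2 := fun k => 5 / 4 * ((16 : ℝ) ^ (2 * mt) * (5 / 4 * ((pvdsLam P.Mc * P.w + 4) * P.A (2 * k))))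
  r3 := fun k => (pvdsLam P.Mc * P.w + 4) * P.A (2 * k + 1)
  t := fun k j => (16 : ℝ) ^ j * (5 / 4 * ((pvdsLam P.Mc * P.w + 4) * P.A (2 * k)))

theorem pvx8_eqns_cite4 : True := by
  have := @pvx8D.eq_1
  trivial

/-- **(NUM)**: the numbers of (D), the global data of A6, the three numerical clauses of `exit_pvx2_di` -/
theorem pvx8_numD (a0 S : ℝ) (g Cw : ℕ) {q5 q : ℝ} (h5 : 0 < q5) (h5' : q5 < 1) (hFr : PvdsFr q5) (hq : 0 < q) (hq1 : q ≤ 1) :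
    ∃ (𝔑 : PvX2dNum) (Gl : PvX2Glob g), 𝔑.Ok g ∧ 𝔑.q = q ∧ 𝔑.en = 12 ∧ Gl.L = 𝔑.Ps.L ∧ Gl.ae = 𝔑.en + 1 ∧ Gl.aw = Cw + 16 ∧ Gl.a = 𝔑.r0 ∧ (∀ j, Gl.b j = 5 * 𝔑.r3 j / 4) ∧ Gl.SB = 𝔑.Ps.SB ∧
      Cw + (Gl.ae + 1) ≤ Gl.aw ∧ (∀ j < g, a0 ≤ Gl.a j ∧ S * Gl.a j ≤ Gl.b j ∧ S * Gl.b j ≤ Gl.L) ∧ (∀ j, j + 1 < g → S * Gl.b j ≤ Gl.a (j + 1)) := by
  have hτ : 0 < pvtdQ (Cw + 16) / 6 := ENNReal.div_pos (pvtd_Q_pos _).ne' (by norm_num)
  obtain ⟨J, hJ⟩ := pvds_choose_J h5 h5' hτ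
  obtain ⟨mt, hmt0, hmt⟩ := pvx8_choose_mt ((J * g : ℕ) : ℝ) hq hq1 (pvtd_Q_pos 14)
  set Sn : ℕ := ⌈S⌉₊ with hSn
  have hS : S ≤ Sn := Nat.le_ceil S
  set c2 : ℕ := 261 * 6 * 16 ^ (2 * mt) + 1958 * Sn + Sn + 1958 with hc2
  obtain ⟨P, wf, hn, hw, hd, ha', hPJ, hρ, -, hK, -, hcb, hA0, -, hgr, hL⟩ :=
    pvx8_par_exists q5 (2 * g) 6 14 16 J c2 (⌈a0⌉₊ + 2) 0 (by norm_num) (by norm_num) le_rfl hτ
  have hMc1 : 1 ≤ P.Mc := wf.Mc_pos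
  have hstep : ∀ i, c2 * P.A i ≤ P.A (i + 1) := fun i =>
    le_trans (Nat.mul_le_mul_left _ (Nat.le_mul_of_pos_left _ hMc1)) (hgr i).1
  have hmono : Monotone P.A := monotone_nat_of_le_succ fun i => le_trans (Nat.le_mul_of_pos_left _ (by omega)) (hstep i)
  have hAge : ∀ i, ⌈a0⌉₊ + 2 ≤ P.A i := fun i => hA0.trans (hmono (Nat.zero_le i))
  have hA2 : ∀ i, 2 ≤ P.A i := fun i => le_trans (by omega) (hAge i)
  have hw6 : 6 ≤ P.w := hw.ge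
  have hgrow : ∀ i, 261 * P.w * 16 ^ (2 * mt) * (P.Mc * P.A i) ≤ P.A (i + 1) := fun i => by
    rw [hw]
    exact le_trans (Nat.mul_le_mul_right _ (by omega)) (hgr i).1
  -- the record of 75 carries the four buffer inequalities
  set Nm := pvx8Micro P g mt wf.Mc_big hw6 hA2 hgrow with hNm
  -- real forms
  have hM : (1 : ℝ) ≤ P.Mc := by exact_mod_cast hMc1
  have ha0 : ∀ i, (2 : ℝ) ≤ P.A i := fun i => by exact_mod_cast hA2 i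
  have hgrR : ∀ i, (c2 : ℝ) * (P.Mc * P.A i) ≤ P.A (i + 1) := fun i => by exact_mod_cast (hgr i).1
  have hSn0 : (0 : ℝ) ≤ Sn := Nat.cast_nonneg _
  have hc2R : (c2 : ℝ) = 261 * 6 * 16 ^ (2 * mt) + 1958 * Sn + Sn + 1958 := by
    rw [hc2]
    push_cast
    ring
  have h16 : (0 : ℝ) ≤ 16 ^ (2 * mt) := by positivity
  have hcA : (1958 : ℝ) ≤ c2 := by rw [hc2R]; linarith
  have hcB : (Sn : ℝ) ≤ c2 := by rw [hc2R]; linarith
  have hcC : (1958 * Sn : ℝ) ≤ c2 := by rw [hc2R]; linarith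
  have hc0 : (0 : ℝ) ≤ c2 := by linarith
  have hlam : pvdsLam P.Mc * P.w + 4 ≤ 1566 * P.Mc := by
    have := pvx8_lam_w wf.Mc_big wf.w_pos
    rw [hw] at this ⊢
    push_cast at this ⊢
    linarith
  have hlam4 : (4 : ℝ) ≤ pvdsLam P.Mc * P.w + 4 := by
    have := pvds_lam_one P.Mc
    have : (0 : ℝ) ≤ pvdsLam P.Mc * P.w := by positivity
    linarith
  have hLg : ∀ k < g, (P.A (2 * k + 2) : ℝ) ≤ P.L := fun k hk => by
    rw [hL]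
    exact_mod_cast hmono (by omega : 2 * k + 2 ≤ 2 * g)
  have hr3 : ∀ k, (pvdsLam P.Mc * P.w + 4) * P.A (2 * k + 1) ≤ 1566 * (P.Mc * P.A (2 * k + 1)) := fun k => by
    have := mul_le_mul_of_nonneg_right hlam (by linarith [ha0 (2 * k + 1)] : (0 : ℝ) ≤ P.A (2 * k + 1))
    linarith
  have hMA : ∀ i, (2 : ℝ) ≤ P.Mc * P.A i := fun i => by
    have := mul_le_mul_of_nonneg_right hM (by linarith [ha0 i] : (0 : ℝ) ≤ P.A i)
    linarith [ha0 i]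
  have hX0 : ∀ i, (0 : ℝ) ≤ (pvdsLam P.Mc * P.w + 4) * P.A i := fun i => mul_nonneg (by linarith) (by linarith [ha0 i])
  have hkey : ∀ k, S * (5 * ((pvdsLam P.Mc * P.w + 4) * P.A (2 * k + 1)) / 4) ≤ (P.A (2 * k + 2) : ℝ) := fun k => by
    have e1 := hr3 k
    have e2 := hgrR (2 * k + 1)
    have e3 := hMA (2 * k + 1)
    have e4 := hX0 (2 * k + 1)
    have e5 : S * (5 * ((pvdsLam P.Mc * P.w + 4) * P.A (2 * k + 1)) / 4) ≤ Sn * (5 * ((pvdsLam P.Mc * P.w + 4) * P.A (2 * k + 1)) / 4) :=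
      mul_le_mul_of_nonneg_right hS (by linarith)
    have e6 : (Sn : ℝ) * (5 * ((pvdsLam P.Mc * P.w + 4) * P.A (2 * k + 1)) / 4) ≤ Sn * (5 * (1566 * (P.Mc * P.A (2 * k + 1))) / 4) :=
      mul_le_mul_of_nonneg_left (by linarith) hSn0
    have e7 : (1958 * Sn : ℝ) * (P.Mc * P.A (2 * k + 1)) ≤ c2 * (P.Mc * P.A (2 * k + 1)) :=
      mul_le_mul_of_nonneg_right hcC (by linarith)
    have e8 : (0 : ℝ) ≤ Sn * (P.Mc * P.A (2 * k + 1)) := mul_nonneg hSn0 (by linarith)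
    have e9 : (P.A (2 * k + 1 + 1) : ℝ) = P.A (2 * k + 2) := rfl
    rw [e9] at e2
    linarith
  have hsmall : (P.cbNum q5 : ℝ≥0∞) / P.Mc + ENNReal.ofReal (2 * (1 - q5) ^ P.J) + pvtdQ (Cw + 16) / 6 ≤ pvtdQ (Cw + 16) / 2 := by
    rw [← pvx8_sixth]
    exact add_le_add (add_le_add hcb (hPJ ▸ hJ J le_rfl)) le_rfl
  have hpow : ∀ j, (1 : ℝ) ≤ 16 ^ j := fun j => one_le_pow₀ (by norm_num)
  have hOk : (pvx8D P q mt).Ok g := by
    refine ⟨wf, hn, fun i _ => (hgr i).2, hL.ge, by show 11 ≤ 12; norm_num, by show 12 + 1 ≤ P.d; omega, hq, hq1, fun k _ => ?_, fun k _ => ?_, fun k _ => ?_, fun k hk => ?_, fun k _ j _ => ?_,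
      fun k _ j _ => ?_, fun k _ j hj => ?_, fun k hk => ?_, fun k hk => ?_, fun k hk => ?_, fun k hk => ?_, fun k hk => ?_, hPJ ▸ hmt⟩
    · show (1 : ℝ) ≤ P.A (2 * k)
      linarith [ha0 (2 * k)]
    · show 5 * (P.A (2 * k) : ℝ) / 4 ≤ (pvdsLam P.Mc * P.w + 4) * P.A (2 * k)
      have := mul_le_mul_of_nonneg_right hlam4 (by linarith [ha0 (2 * k)] : (0 : ℝ) ≤ P.A (2 * k))
      linarith [ha0 (2 * k)]
    · show 5 * ((pvdsLam P.Mc * P.w + 4) * P.A (2 * k)) / 4 ≤ 5 / 4 * ((16 : ℝ) ^ (2 * mt) * (5 / 4 * ((pvdsLam P.Mc * P.w + 4) * P.A (2 * k))))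
      have e1 := hX0 (2 * k)
      have e2 := mul_le_mul_of_nonneg_right (hpow (2 * mt)) (by linarith : (0 : ℝ) ≤ 5 / 4 * ((pvdsLam P.Mc * P.w + 4) * P.A (2 * k)))
      linarith
    · show 5 * Nm.r2 k / 4 ≤ (pvdsLam P.Mc * P.w + 4) * P.A (2 * k + 1)
      have e1 := Nm.b2 k hk
      have e2 : Nm.ri (2 * k + 1) = P.w * P.A (2 * k + 1) := rfl
      have e3 : (Nm.A (2 * k + 1) : ℝ) = P.A (2 * k + 1) := rfl
      rw [e2, e3, hw] at e1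
      push_cast at e1
      have e4 := mul_le_mul_of_nonneg_right hlam4 (by linarith [ha0 (2 * k + 1)] : (0 : ℝ) ≤ P.A (2 * k + 1))
      linarith [ha0 (2 * k + 1)]
    · show 5 * ((pvdsLam P.Mc * P.w + 4) * P.A (2 * k)) / 4 ≤ (16 : ℝ) ^ j * (5 / 4 * ((pvdsLam P.Mc * P.w + 4) * P.A (2 * k)))
      have e1 := hX0 (2 * k)
      have e2 := mul_le_mul_of_nonneg_right (hpow j) (by linarith : (0 : ℝ) ≤ 5 / 4 * ((pvdsLam P.Mc * P.w + 4) * P.A (2 * k)))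
      linarith
    · show 8 * ((16 : ℝ) ^ j * (5 / 4 * ((pvdsLam P.Mc * P.w + 4) * P.A (2 * k)))) / 5 ≤ (16 : ℝ) ^ (j + 1) * (5 / 4 * ((pvdsLam P.Mc * P.w + 4) * P.A (2 * k)))
      have e1 := hX0 (2 * k)
      have e2 : (0 : ℝ) ≤ (16 : ℝ) ^ j * (5 / 4 * ((pvdsLam P.Mc * P.w + 4) * P.A (2 * k))) := mul_nonneg (by positivity) (by linarith)
      rw [pow_succ]
      linarith
    · show 5 * ((16 : ℝ) ^ j * (5 / 4 * ((pvdsLam P.Mc * P.w + 4) * P.A (2 * k)))) / 4 ≤ 5 / 4 * ((16 : ℝ) ^ (2 * mt) * (5 / 4 * ((pvdsLam P.Mc * P.w + 4) * P.A (2 * k))))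
      have e1 := hX0 (2 * k)
      have e2 : (16 : ℝ) ^ j ≤ 16 ^ (2 * mt) := pow_le_pow_right₀ (by norm_num) hj.le
      have e3 := mul_le_mul_of_nonneg_right e2 (by linarith : (0 : ℝ) ≤ 5 / 4 * ((pvdsLam P.Mc * P.w + 4) * P.A (2 * k)))
      linarith
    · show 1 + 5 * ((pvdsLam P.Mc * P.w + 4) * P.A (2 * k + 1)) / 4 ≤ (P.L : ℝ)
      have e1 := hr3 k
      have e4 := hgrR (2 * k + 1)
      have e5 := hLg k hk
      have e7 : (1958 : ℝ) * (P.Mc * P.A (2 * k + 1)) ≤ c2 * (P.Mc * P.A (2 * k + 1)) :=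
        mul_le_mul_of_nonneg_right hcA (by linarith [hMA (2 * k + 1)])
      have e9 : (P.A (2 * k + 1 + 1) : ℝ) = P.A (2 * k + 2) := rfl
      rw [e9] at e4
      linarith [hMA (2 * k + 1)]
    · have := Nm.b0 k hk
      show 4 * (P.A (2 * k) : ℝ) + 5 * (P.A (2 * k) : ℝ) / 4 ≤ P.w * P.A (2 * k)
      have e2 : Nm.ri (2 * k) = P.w * P.A (2 * k) := rfl
      have e3 : (Nm.A (2 * k) : ℝ) = P.A (2 * k) := rfl
      have e4 : Nm.r0 k = P.A (2 * k) := rfl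
      rw [e2, e3, e4] at this
      linarith
    · show 4 * (P.A (2 * k) : ℝ) + pvdsLam P.Mc * (P.w * P.A (2 * k)) ≤ (pvdsLam P.Mc * P.w + 4) * P.A (2 * k)
      exact le_of_eq (by ring)
    · have := Nm.b2 k hk
      show 4 * (P.A (2 * k + 1) : ℝ) + 5 * Nm.r2 k / 4 ≤ P.w * P.A (2 * k + 1)
      have e2 : Nm.ri (2 * k + 1) = P.w * P.A (2 * k + 1) := rfl
      have e3 : (Nm.A (2 * k + 1) : ℝ) = P.A (2 * k + 1) := rfl
      rw [e2, e3] at this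
      linarith
    · show 4 * (P.A (2 * k + 1) : ℝ) + pvdsLam P.Mc * (P.w * P.A (2 * k + 1)) ≤ (pvdsLam P.Mc * P.w + 4) * P.A (2 * k + 1)
      exact le_of_eq (by ring)
  refine ⟨pvx8D P q mt,
    { a := fun j => P.A (2 * j), b := fun j => 5 * ((pvdsLam P.Mc * P.w + 4) * P.A (2 * j + 1)) / 4, L := P.L, L0 := wf.L_pos, ae := 13, aw := Cw + 16, SB := P.SB,
      reads := fun h hh b => by
        have h1 := wf.sb_reads hh b
        rw [ha'] at h1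
        exact h1.mono (pvtd_win_mono _ (by omega) b),
      small := fun h hh b => by
        filter_upwards [wf.sb_le h5 hFr (hw ▸ hK) hh b (δ := pvtdQ (Cw + 16) / 6) hτ] with ε hε
        exact hε.trans hsmall },
    hOk, rfl, rfl, rfl, rfl, rfl, rfl, fun _ => rfl, rfl, by show Cw + (13 + 1) ≤ Cw + 16; omega, fun j hj => ⟨?_, ?_, ?_⟩, fun j _ => hkey j⟩
  · show a0 ≤ (P.A (2 * j) : ℝ)
    have e1 : ((⌈a0⌉₊ + 2 : ℕ) : ℝ) ≤ P.A (2 * j) := by exact_mod_cast hAge (2 * j)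
    push_cast at e1
    have e2 := Nat.le_ceil a0
    linarith
  · show S * (P.A (2 * j) : ℝ) ≤ 5 * ((pvdsLam P.Mc * P.w + 4) * P.A (2 * j + 1)) / 4
    have e1 := hgrR (2 * j)
    have e2 := ha0 (2 * j)
    have e3 := ha0 (2 * j + 1)
    have e4 : (4 : ℝ) * P.A (2 * j + 1) ≤ (pvdsLam P.Mc * P.w + 4) * P.A (2 * j + 1) := mul_le_mul_of_nonneg_right hlam4 (by linarith)
    have e5 : S * (P.A (2 * j) : ℝ) ≤ Sn * (P.A (2 * j) : ℝ) := mul_le_mul_of_nonneg_right hS (by linarith)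
    have e6 : (Sn : ℝ) * (1 * P.A (2 * j)) ≤ c2 * (P.Mc * P.A (2 * j)) :=
      mul_le_mul hcB (mul_le_mul_of_nonneg_right hM (by linarith)) (by linarith) hc0
    linarith
  · show S * (5 * ((pvdsLam P.Mc * P.w + 4) * P.A (2 * j + 1)) / 4) ≤ (P.L : ℝ)
    have := hkey j
    have := hLg j hj
    linarith

end Claimed.Agent.R289
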