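import Claimed.Agent.R289.Exit.PinsA6
import Claimed.Agent.R289.Exit.PinsA6D0
import Claimed.Agent.R289.Exit.PinsA6N
import Claimed.Agent.R289.Arm.GateFrM
import Claimed.Agent.R289.Arm.GateB
import Claimed.Agent.R289.Arm.GateM
import Claimed.Agent.R289.Arm.GateO
import Claimed.Agent.R289.Arm.GateS
import Claimed.Agent.R289.Tr.DenseU

/-!
# Row 289 (S0537), THE WALL, roof PINS, sub-exit (X2), file Exit/PinsA6D : LEAF (D) OF THE CORE OF A6 = THE DI PACKAGE, ASSEMBLED      (helper116, head of (D); prefix `pvx2d_`, `PvX2d`)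

ROAD B54:   the level of 54 (`Arm/GateFrM`: `PvklPar`, event `P.G q Y`, thin blocking, `tri`, towers, `adm`, `mesh`, `pvkl_G_ord`), one level per patch (`P.x := ctr j`, `P.R := R / 2`, `ρ := R`), unit `h`, box = nearest grid point;
the plane-only (DI) of 281 (`Arm/GateB`: `pvagb_DI`);   the static bad block of 101 (`Tr/DenseS`, `Tr/DenseU`: `SB`, `use`, `five_plane`, `hJ_plane`);   (INFIX) of 105 (`Arm/GateO`: `pvago_infix`).

* sec. 1  `PvX2dNum`, `PvX2dNum.Ok g` (THE NUMBERS, units of `h`), `PvX2dNum.lev` (the level of a patch): `Exit/PinsA6D0.lean`;   existence (NUM) = `pvx8_numD` of 149 (`Exit/PinsA6N.lean`);   here `lev_ok`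
* sec. 2  small geometry: `pvx2d_ctr`, `pvx2d_box_blk`, `pvx2d_far`, `pvx2d_gate`, `PvagaTri.restr`
* sec. 3  **`pvx2d_det`** : (DI), deterministic, one patch
* sec. 4  the records `fr`, `ad`, the net, **`pvx2d_di`** = `exit_pvx2_di`      (0 sorry)
-/

set_option autoImplicit false
set_option linter.unusedSectionVars false
set_option linter.unusedVariables false

namespace Claimed.Agent.R289

open MeasureTheory Filter Topology Set Claims.C0465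
open scoped ENNReal

/-! ## 1. the numbers (definitions: `Exit/PinsA6D0.lean`) -/

variable {𝔑 : PvX2dNum} {g : ℕ}

theorem PvX2dNum.Ok.L_one (hN : 𝔑.Ok g) : (1 : ℝ) ≤ 𝔑.Ps.L := by exact_mod_cast hN.wf.L_pos

/-- the level is in order as soon as a block is small -/
theorem PvX2dNum.Ok.lev_ok (hN : 𝔑.Ok g) (y : ℂ) {R h : ℝ} (hh : 0 < h) (hs : 𝔑.Ps.L * h ≤ R / 4) : (𝔑.lev g y R h).Ok := by
  have hL := hN.L_one
  have hhL : h ≤ 𝔑.Ps.L * h := by nlinarith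
  have hR : 0 < R := by linarith
  have key : ∀ {a b : ℝ}, a ≤ b → a * h ≤ b * h := fun hab => mul_le_mul_of_nonneg_right hab hh.le
  refine ⟨by show 0 < R / 2; linarith, hh, fun k hk => ?_, fun k hk => ?_, fun k hk => ?_, fun k hk => ?_, fun k hk j hj => ?_, fun k hk j hj => ?_, fun k hk j hj => ?_, fun k hk => ?_, ?_⟩
  · show h ≤ 𝔑.r0 k * h
    have := key (hN.hr0 k hk); linarith
  · show 5 * (𝔑.r0 k * h) / 4 ≤ 𝔑.r1 k * h
    have := key (hN.h01 k hk); linarith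
  · show 5 * (𝔑.r1 k * h) / 4 ≤ 𝔑.r2 k * h
    have := key (hN.h12 k hk); linarith
  · show 5 * (𝔑.r2 k * h) / 4 ≤ 𝔑.r3 k * h
    have := key (hN.h23 k hk); linarith
  · show 5 * (𝔑.r1 k * h) / 4 ≤ 𝔑.t k j * h
    have := key (hN.h1t k hk j hj); linarith
  · show 8 * (𝔑.t k j * h) / 5 ≤ 𝔑.t k (j + 1) * h
    have := key (hN.htt k hk j hj); linarith
  · show 5 * (𝔑.t k j * h) / 4 ≤ 𝔑.r2 k * h
    have := key (hN.ht2 k hk j hj); linarith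
  · show h + 5 * (𝔑.r3 k * h) / 4 ≤ 6 * (R / 2) / 5
    have := key (hN.r3L k hk); linarith
  · show h ≤ R / 2 / 2
    linarith

/-! ## 2. small geometry -/

/-- a grid point and the corner of a neighbouring box of side `A h` -/
theorem pvx2d_ctr {h : ℝ} (hh : 0 < h) {A : ℕ} (hA : 0 < A) {z b : ℤ × ℤ} (hb : PvagNear 1 (pvagCg A z) b) : ‖l9Pt h z - pv5Ctr (A * h) b‖ ≤ 4 * (A * h) := by
  have key : ∀ u c : ℤ, |u / (A : ℤ) - c| ≤ 1 → |(u : ℝ) * h - A * h * c| ≤ 2 * (A * h) := by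
    intro u c hc
    have hA' : (0 : ℤ) < A := by exact_mod_cast hA
    have h1 : u / (A : ℤ) * A ≤ u := Int.ediv_mul_le u hA'.ne'
    have h2 : u < (u / (A : ℤ) + 1) * A := Int.lt_ediv_add_one_mul_self u hA'
    obtain ⟨h3, h4⟩ := abs_le.1 hc
    have h5 : -(A : ℤ) ≤ u - A * c := by nlinarith
    have h6 : u - A * c ≤ 2 * A := by nlinarith
    have h5' : -(A : ℝ) ≤ (u : ℝ) - A * c := by exact_mod_cast h5
    have h6' : (u : ℝ) - A * c ≤ 2 * A := by exact_mod_cast h6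
    have hAr : (0 : ℝ) < A := by exact_mod_cast hA
    have e : (u : ℝ) * h - A * h * c = ((u : ℝ) - A * c) * h := by ring
    rw [e, abs_le]
    constructor <;> nlinarith
  refine (Complex.norm_le_abs_re_add_abs_im _).trans ?_
  have e1 : (l9Pt h z - pv5Ctr (A * h) b).re = (z.1 : ℝ) * h - A * h * b.1 := by simp [l9Pt, pv5Ctr]
  have e2 : (l9Pt h z - pv5Ctr (A * h) b).im = (z.2 : ℝ) * h - A * h * b.2 := by simp [l9Pt, pv5Ctr]
  rw [e1, e2]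
  have := key z.1 b.1 hb.1
  have := key z.2 b.2 hb.2
  linarith

theorem pvx2d_dist_comm (a b : ℤ × ℤ) : pv5Dist a b = pv5Dist b a := by
  unfold pv5Dist
  rw [abs_sub_comm a.1, abs_sub_comm a.2]

/-- the block of the box of a point is next to the block of the point -/
theorem pvx2d_box_blk {h : ℝ} (hh : 0 < h) {L : ℕ} (hL : 0 < L) (v : ℂ) : pv5Dist (pvagCg L (pvklBox h v)) (pv5Blk (L * h) v) ≤ 1 := by
  have hLr : (1 : ℝ) ≤ L := by exact_mod_cast hL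
  unfold pvklBox
  rw [← pvtd_blk_cg hh hL]
  have : pv5Dist (pv5Blk (L * h) (v + ⟨h / 2, h / 2⟩)) (pv5Blk (L * h) v) ≤ ((1 : ℕ) : ℤ) := by
    refine pvtd_blk_close (by positivity) ?_
    rw [add_sub_cancel_left]
    refine (Complex.norm_le_abs_re_add_abs_im _).trans ?_
    simp only [abs_of_pos (half_pos hh), Nat.cast_one, one_mul]
    nlinarith
  simpa using this

/-- far blocks, far boxes -/
theorem pvx2d_far {h : ℝ} (hh : 0 < h) {L : ℕ} (hL : 0 < L) {en A : ℕ} (hen : 4 ≤ en) (hA : A ≤ L) {v v' : ℂ} (hf : (en : ℤ) ≤ pv5Dist (pv5Blk (L * h) v) (pv5Blk (L * h) v')) :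
    PvagFar A (pvklBox h v) (pvklBox h v') := by
  refine pvags_far hL (en := en - 2) (by omega) ?_ ?_
  · have : 1 ≤ en - 2 - 1 := by omega
    calc A ≤ L := hA
      _ ≤ (en - 2 - 1) * L := Nat.le_mul_of_pos_left _ (by omega)
      _ ≤ _ := Nat.le_succ _
  · have h1 := pvx2d_box_blk hh hL v
    have h2 := pvx2d_box_blk hh hL v'
    rw [pvx2d_dist_comm] at h1
    have h3 := pv5_dist_triangle (pv5Blk (L * h) v) (pvagCg L (pvklBox h v)) (pv5Blk (L * h) v')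
    have h4 := pv5_dist_triangle (pvagCg L (pvklBox h v)) (pvagCg L (pvklBox h v')) (pv5Blk (L * h) v')
    have h5 : ((en - 2 : ℕ) : ℤ) = (en : ℤ) - 2 := by
      rw [Nat.cast_sub (by omega)]
      simp
    rw [h5]
    linarith

/-- a gate of the total plane for the colouring `σ == bc` is a gate of record -/
theorem pvx2d_gate {Y : Set ℂ} (hY : DelGood Y) {σ : ℂ → Bool} {bc : Bool} {z : ℂ} {a b : ℝ} {G : Set (delbPl Y).Dart} {X : Finset ↥Y}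
    (hg : PvgGate (delbPl Y).toMap (fun v : ↥Y => σ v == bc) true (pvdiB (delbPl Y).toMap Subtype.val z a) (pvdiB (delbPl Y).toMap Subtype.val z b) G X) : PvdaGate Y σ bc z a b := by
  refine ⟨hY, ?_⟩
  rw [← delb_pl_eq hY]
  refine ⟨G, X, hg.face, hg.inner, hg.outer, hg.card, fun v hv => ?_, fun v hv => ?_⟩
  · simpa using hg.col v hv
  · rcases hg.other v hv with h1 | h1
    · left
      simpa using h1
    · exact Or.inr h1

section restr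

variable {V D : Type} [DecidableEq V] {T : PvMap V D} {B : Set D} {Zs Zs' : Set (ℤ × ℤ)} {g : ℕ}

/-- fewer centres -/
def PvagaTri.restr (G : PvagaTri T B Zs g) (h : Zs' ⊆ Zs) : PvagaTri T B Zs' g where
  box := G.box
  c0 := G.c0
  c1 := G.c1
  c2 := G.c2
  c3 := G.c3
  h01 z hz := G.h01 z (h hz)
  h12 z hz := G.h12 z (h hz)
  h23 z hz := G.h23 z (h hz)
  h3B z hz := G.h3B z (h hz)
  hin z hz := G.hin z (h hz)

theorem pvx2d_eqns_cite2 : True := by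
  have := @PvagaTri.restr.eq_1
  trivial

/-- the selection of record does not see the set of centres -/
theorem pvx2d_sel_restr {C0 : T.Cyc} (G : PvagaTri T C0.Left Zs g) (h : Zs' ⊆ Zs) (a o : (ℤ × ℤ) × ℕ → ℕ → T.Cyc) (pos : V → ℂ) (ℓ : ℝ) (w mt : ℕ) (q : ℝ) (blk : D → ℤ × ℤ) (en J : ℕ) :
    pvagbSel (G.restr h) a o pos ℓ w mt q blk en J = pvagbSel G a o pos ℓ w mt q blk en J := rfl

end restr

/-! ## 3. (DI), deterministic, one patch -/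

/-- the macroscopic frame of the patch of centre `y`, core radius `R` -/
theorem pvx2d_mac {x y : ℂ} {R h : ℝ} (hyx : ‖y - x‖ ≤ 2 * R) {Y : Set ℂ} (hG : (𝔑.lev g y R h).G 𝔑.q Y) : PvX2Mac x R 𝔑.q y R Y hG.C0 hG.C1 := by
  refine ⟨hG.good, hG.geo, fun v hv => hG.C1_int ?_, fun v hv => ?_⟩
  · show ‖(v : ℂ) - y‖ ≤ 2 * (R / 2)
    linarith
  · have h1 : ‖(v : ℂ) - y‖ < 4 * (R / 2) := hG.C0_lt hv
    have h2 := norm_add_le ((v : ℂ) - y) (y - x)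
    rw [sub_add_sub_cancel] at h2
    linarith

/-- **(DI), DETERMINISTIC, ONE PATCH.**   On the frame event of the patch: an arc of an actual rim carried by the chord of `e`; a passage of the arc from the block `b` to a block at sup-distance `≥ en + 1`; `b` is neither statically bad
nor adaptively bad for the chord of `e`:   the passage carries a PLACE. -/
theorem pvx2d_det (hN : 𝔑.Ok g) {x y : ℂ} {R h : ℝ} (hR : 0 < R) (hyx : ‖y - x‖ ≤ 2 * R) (hh : 0 < h) {ω : PVSample}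
    (hG : (𝔑.lev g y R h).G 𝔑.q (cfSites (pvConf ω))) {P : PvbRim} (hP : P ∈ pvhbAll x R ω) {s n : ℕ} {bc : Bool} {e : (delbPl (cfSites (pvConf ω))).Dart}
    (hcar : PvX2Car _ (fun v => cfCol (pvConf ω) v) y R hG.C0 (pvx2Sub P s n) bc e)
    {j j' : ℕ} (hjj : j ≤ j') (hj' : j' ≤ n)
    (hfar : ((𝔑.en + 1 : ℕ) : ℤ) ≤ pv5Dist (pv5Blk (𝔑.Ps.L * h) (P.v (s + j))) (pv5Blk (𝔑.Ps.L * h) (P.v (s + j'))))
    (hSB : pvConf ω ∉ 𝔑.Ps.SB h (pv5Blk (𝔑.Ps.L * h) (P.v (s + j))))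
    (hnb : ¬ PvaaBad (pvx2T _) Subtype.val hG.C0 (𝔑.Ps.L * h) (𝔑.en + 2) 𝔑.mt (𝔑.Ps.J * g) 𝔑.q
      (pvagbSel hG.tri hG.a hG.o Subtype.val (𝔑.Ps.L * h) (𝔑.en + 2) 𝔑.mt 𝔑.q (fun d => pv5Blk (𝔑.Ps.L * h) ((pvx2T _).src d : ℂ)) 𝔑.en 𝔑.Ps.J)
      (fun v => cfCol (pvConf ω) v == bc) e (pv5Blk (𝔑.Ps.L * h) (P.v (s + j)))) :
    ∃ τ p, j ≤ τ ∧ τ ≤ j' ∧ PvX2At g 𝔑.r0 (fun k => 5 * 𝔑.r3 k / 4) h ω (pvx2Sub P s n) τ p := by
  classical
  have hL0 : 0 < 𝔑.Ps.L := hN.wf.L_pos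
  have hL1 := hN.L_one
  have hℓ : 0 < (𝔑.Ps.L : ℝ) * h := by positivity
  have hhℓ : h ≤ 𝔑.Ps.L * h := by nlinarith
  have hok := hG.ok
  have hfin : hG.C0.Left.Finite := hG.geo.2.2.1
  obtain ⟨hms, hnj, hli⟩ := PvdsPar.use hSB
  obtain ⟨k₀, hk₀⟩ := pvago_infix hR (pvx2d_mac hyx hG) hP hcar
  -- the vertices of the arc lie in the core
  have hcore : ∀ t ≤ n, ‖P.v (s + t) - y‖ ≤ R := hcar.1
  -- mesh
  have hstep : ∀ t < n, ‖P.v (s + t + 1) - P.v (s + t)‖ ≤ h := by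
    intro t ht
    obtain ⟨f, -, h1, h2⟩ := hk₀ t ht
    have h3 := hG.mesh _ _ ⟨f, rfl, rfl⟩ (by
      show ‖(((pvx2T _).src f : ↥(cfSites (pvConf ω))) : ℂ) - y‖ ≤ 4 * (R / 2)
      rw [h1]
      linarith [hcore t ht.le])
    rw [← h1, ← h2]
    exact h3
  -- the first exit
  obtain ⟨j'', a1, a2, a3, a4⟩ := pvx2_first_exit hℓ (fun t => P.v (s + t)) hjj (fun t _ h2 => (hstep t (by omega)).trans hhℓ) 𝔑.en
    (le_trans (by push_cast; linarith) hfar)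
  have a5 : j'' < j' := by
    rcases Nat.eq_or_lt_of_le a2 with rfl | h
    · have := a4 j'' a1 le_rfl
      push_cast at hfar
      linarith
    · exact h
  -- vocabulary
  set b : ℤ × ℤ := pv5Blk (𝔑.Ps.L * h) (P.v (s + j)) with hb
  set σ : ↥(cfSites (pvConf ω)) → Bool := fun v => cfCol (pvConf ω) v == bc with hσ
  set blk : (delbPl (cfSites (pvConf ω))).Dart → ℤ × ℤ := fun d => pv5Blk (𝔑.Ps.L * h) ((pvx2T _).src d : ℂ) with hblk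
  set Γ := pvafGam (pvx2T (cfSites (pvConf ω))) hG.C0.Left e σ with hΓ
  -- the darts of the passage
  have hget : ∀ t d, k₀ + j ≤ t → t ≤ k₀ + j'' → Γ[t]? = some d → ∃ u, j ≤ u ∧ u ≤ j'' ∧ t = k₀ + u ∧ ((pvx2T _).src d : ℂ) = P.v (s + u) := by
    intro t d h1 h2 h3
    obtain ⟨u, rfl⟩ := Nat.exists_eq_add_of_le (show k₀ ≤ t by omega)
    obtain ⟨f, f1, f2, -⟩ := hk₀ u (by omega)
    rw [h3] at f1
    obtain rfl := Option.some.inj f1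
    exact ⟨u, by omega, by omega, rfl, f2⟩
  -- the boxes of the passage are near the block
  have hnear : ∀ u, j ≤ u → u ≤ j'' → pv5Dist (pvagCg 𝔑.Ps.L (pvklBox h (P.v (s + u)))) b ≤ ((𝔑.en + 1 : ℕ) : ℤ) := by
    intro u h1 h2
    have e1 := pvx2d_box_blk hh hL0 (P.v (s + u))
    have e2 := a4 u h1 h2
    have e3 := pv5_dist_triangle (pvagCg 𝔑.Ps.L (pvklBox h (P.v (s + u)))) (pv5Blk (𝔑.Ps.L * h) (P.v (s + u))) b
    rw [pvx2d_dist_comm] at e2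
    push_cast
    linarith
  -- the centres
  set Zs' : Set (ℤ × ℤ) := {z | z ∈ (𝔑.lev g y R h).Zs ∧ pv5Dist (pvagCg 𝔑.Ps.L z) b ≤ 𝔑.Ps.d} with hZs'
  have hsub : Zs' ⊆ (𝔑.lev g y R h).Zs := fun z hz => hz.1
  have hZmem : ∀ u, j ≤ u → u ≤ j'' → pvklBox h (P.v (s + u)) ∈ Zs' := by
    intro u h1 h2
    refine ⟨PvklPar.box_mem hok (w := P.v (s + u)) ?_, (hnear u h1 h2).trans (by exact_mod_cast hN.hd)⟩
    show ‖P.v (s + u) - y‖ ≤ 2 * (R / 2)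
    linarith [hcore u (by omega)]
  have hn2 : ∀ i < 2 * g, i < 𝔑.Ps.n := fun i hi => by rw [hN.n_eq]; exact hi
  have key : ∃ τ d, k₀ + j ≤ τ ∧ τ ≤ k₀ + j'' ∧ Γ[τ]? = some d ∧ pvklBox h ((pvx2T _).src d : ℂ) ∈ Zs' ∧
      ∀ k < g, ∃ G' X, PvgGate (pvx2T (cfSites (pvConf ω))) σ true (hG.cy (l9Pt h (pvklBox h ((pvx2T _).src d : ℂ))) (𝔑.r0 k * h)).Left
        (hG.cy (l9Pt h (pvklBox h ((pvx2T _).src d : ℂ))) (𝔑.r3 k * h)).Left G' X := by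
    refine pvagb_DI (G := hG.tri.restr hsub) hG.a hG.o Subtype.val (𝔑.Ps.L * h) (𝔑.en + 2) 𝔑.mt 𝔑.q blk 𝔑.en 𝔑.Ps.J
      hG.isSph (delbPl _).toMap_simple hfin 𝔑.Ps.n0 (A := 𝔑.Ps.A) (M := fun _ => 𝔑.Ps.Mc)
      (fun i hi => ⟨hN.wf.A_pos i (hn2 i hi), hN.wf.Mc_pos, hN.hsc i hi⟩) (s := σ) (e := e) hcar.2.1 (fun i _ b' => pvConf ω ∈ 𝔑.Ps.Fl h i b')
      ?hbuf ?hbuf' (by have := hN.en11; omega) b (hN.wf.hJ_plane hh b hG.good hms hnj hG.C0.Left e bc blk (fun _ => rfl) hN.en11)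
      (j := k₀ + j) (j' := k₀ + j'') (by omega) ?hj ?hj' ?hwalk ?hZ ?hfar ?hlight (fun z hz => hG.htow z hz.1) ?hAdm (N := 𝔑.Ps.J * g) le_rfl hnb
    case hbuf =>
      intro z hz k hk Q b' hF hQ hb'
      have hk' : k < g := hk
      have hA0 : 0 < 𝔑.Ps.A (2 * k) := hN.wf.A_pos _ (hn2 _ (by omega))
      have hrb := hN.wf.reach_of_box (hn2 (2 * k) (by omega)) hz.2 hQ hb'
      have h5 := hN.wf.five_plane hh b hG.good hms (hn2 (2 * k) (by omega)) hrb.1 hrb.2 hF bc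
      have h6 := pvx2d_ctr hh hA0 hb'
      refine pvkl_buf (hG.cy_at (PvklPar.ctr_mem hok hz.1) (PvklPar.r0_mem hk)) (hG.cy_at (PvklPar.ctr_mem hok hz.1) (PvklPar.r1_mem hk)) h5 ?_ ?_
      · show ‖l9Pt h z - pv5Ctr (𝔑.Ps.A (2 * k) * h) b'‖ + 5 * (𝔑.r0 k * h) / 4 ≤ 𝔑.Ps.w * (𝔑.Ps.A (2 * k) * h)
        have := mul_le_mul_of_nonneg_right (hN.b0 k hk') hh.le
        linarith
      · show ‖l9Pt h z - pv5Ctr (𝔑.Ps.A (2 * k) * h) b'‖ + pvdsLam 𝔑.Ps.Mc * (𝔑.Ps.w * (𝔑.Ps.A (2 * k) * h)) ≤ 𝔑.r1 k * h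
        have := mul_le_mul_of_nonneg_right (hN.b1 k hk') hh.le
        linarith
    case hbuf' =>
      intro z hz k hk Q b' hF hQ hb'
      have hk' : k < g := hk
      have hA0 : 0 < 𝔑.Ps.A (2 * k + 1) := hN.wf.A_pos _ (hn2 _ (by omega))
      have hrb := hN.wf.reach_of_box (hn2 (2 * k + 1) (by omega)) hz.2 hQ hb'
      have h5 := hN.wf.five_plane hh b hG.good hms (hn2 (2 * k + 1) (by omega)) hrb.1 hrb.2 hF bc
      have h6 := pvx2d_ctr hh hA0 hb'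
      refine pvkl_buf (hG.cy_at (PvklPar.ctr_mem hok hz.1) (PvklPar.r2_mem hk)) (hG.cy_at (PvklPar.ctr_mem hok hz.1) (PvklPar.r3_mem hk)) h5 ?_ ?_
      · show ‖l9Pt h z - pv5Ctr (𝔑.Ps.A (2 * k + 1) * h) b'‖ + 5 * (𝔑.r2 k * h) / 4 ≤ 𝔑.Ps.w * (𝔑.Ps.A (2 * k + 1) * h)
        have := mul_le_mul_of_nonneg_right (hN.b2 k hk') hh.le
        linarith
      · show ‖l9Pt h z - pv5Ctr (𝔑.Ps.A (2 * k + 1) * h) b'‖ + pvdsLam 𝔑.Ps.Mc * (𝔑.Ps.w * (𝔑.Ps.A (2 * k + 1) * h)) ≤ 𝔑.r3 k * h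
        have := mul_le_mul_of_nonneg_right (hN.b3 k hk') hh.le
        linarith
    case hj =>
      obtain ⟨f, f1, f2, -⟩ := hk₀ j (by omega)
      exact ⟨f, f1, by show pv5Blk _ _ = b; rw [f2]⟩
    case hj' =>
      obtain ⟨f, f1, f2, -⟩ := hk₀ j'' (by omega)
      exact ⟨f, f1, by show (𝔑.en : ℤ) ≤ pv5Dist b (pv5Blk _ _); rw [f2]; exact a3⟩
    case hwalk =>
      intro t d d' h1 h2 h3 h4
      obtain ⟨u, u1, u2, rfl, u3⟩ := hget t d h1 (by omega) h3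
      obtain ⟨u', u1', u2', hu', u3'⟩ := hget (k₀ + u + 1) d' (by omega) (by omega) h4
      obtain rfl : u' = u + 1 := by omega
      show PvagNear 1 (pvklBox h _) (pvklBox h _)
      rw [u3, u3']
      exact pvkl_box_step hh (hstep u (by omega))
    case hZ =>
      intro t d h1 h2 h3
      obtain ⟨u, u1, u2, rfl, u3⟩ := hget t d h1 h2 h3
      show pvklBox h _ ∈ Zs'
      rw [u3]
      exact hZmem u u1 u2
    case hfar =>
      intro d d' h1 h2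
      rw [← h1] at h2
      exact pvx2d_far hh hL0 (by have := hN.en11; omega) hN.hA h2
    case hlight =>
      intro i hi c hc hvis
      obtain ⟨t, d, h1, h2, h3, h4⟩ := hvis 0 (Nat.zero_le _)
      obtain ⟨u, u1, u2, rfl, u3⟩ := hget t d h1 h2 h3
      refine hli i (hn2 i hi) c hc ?_
      rw [h4]
      show pvagCg _ (pvklBox h _) ∈ _
      rw [u3]
      exact hN.wf.cell_of_box (hn2 i hi) (hZmem u u1 u2).2
    case hAdm =>
      intro t d h1 h2 h3 k hk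
      obtain ⟨u, u1, u2, rfl, u3⟩ := hget t d h1 h2 h3
      have hk' : k < g := hk
      have hz := hZmem u u1 u2
      have hr : 𝔑.r2 k * h ≤ 𝔑.Ps.L * h := by
        refine mul_le_mul_of_nonneg_right ?_ hh.le
        have e1 := hN.h23 k hk'
        have e2 := hN.r3L k hk'
        have e3 := hN.hr0 k hk'
        have e4 := hN.h01 k hk'
        have e5 := hN.h12 k hk'
        linarith
      have := hG.adm hz.1 hk hℓ hr (w := 𝔑.en + 1) (b := b) (by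
        show pv5Dist (pv5Blk (𝔑.Ps.L * h) (l9Pt h (pvklBox h (P.v (s + u))))) b ≤ _
        rw [pvx2_blk_pt hh hL0]
        exact hnear u u1 u2)
      show PvaaAdm _ _ _ _ _ _ _ _ (hG.a (pvklBox h _, k), hG.o (pvklBox h _, k))
      rw [u3]
      exact this
  obtain ⟨τ, d, t1, t2, t3, t4, t5⟩ := key
  obtain ⟨u, u1, u2, rfl, u3⟩ := hget τ d t1 t2 t3
  rw [u3] at t4 t5
  have hcol : cfCol (pvConf ω) (P.v (s + u)) = bc := by
    have h1 : σ ((pvx2T _).src d) = true := pvaf_gam_black (List.mem_of_getElem? t3)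
    rw [← u3]
    simpa [hσ] using h1
  refine ⟨u, pvklBox h (P.v (s + u)), u1, by omega, pvkl_box_near hh _, fun k hk => ?_⟩
  obtain ⟨G', X, hg⟩ := t5 k hk
  show PvdaGate _ _ (cfCol (pvConf ω) (P.v (s + u))) _ _ _
  rw [hcol]
  refine pvx2d_gate hG.good (pvkl_gate_disc (hG.cy_at (PvklPar.ctr_mem hok t4.1) (PvklPar.r0_mem (P := 𝔑.lev g y R h) hk))
    (hG.cy_at (PvklPar.ctr_mem hok t4.1) (PvklPar.r3_mem (P := 𝔑.lev g y R h) hk)) hg ?_ ?_)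
  · show ‖l9Pt h (pvklBox h (P.v (s + u))) - l9Pt h (pvklBox h (P.v (s + u)))‖ + 𝔑.r0 k * h ≤ 𝔑.r0 k * h
    rw [sub_self, norm_zero, zero_add]
  · show ‖l9Pt h (pvklBox h (P.v (s + u))) - l9Pt h (pvklBox h (P.v (s + u)))‖ + 5 * (𝔑.r3 k * h) / 4 ≤ 5 * 𝔑.r3 k / 4 * h
    rw [sub_self, norm_zero, zero_add]
    linarith

/-! ## 4. the records, the net, the exit -/

/-- the frame events of the patch of centre `y`, core radius `R` -/
noncomputable def PvX2dNum.fr (𝔑 : PvX2dNum) {g : ℕ} (hN : 𝔑.Ok g) (h : ℕ → ℝ) {x y : ℂ} {R : ℝ} (hyx : ‖y - x‖ ≤ 2 * R)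
    (hord : PvhbOrd fun m ε => ((pvhbUp ε).P {p | ¬ (𝔑.lev g y R (h m)).G 𝔑.q (cfSites (pvConf (pvMerge p)))}).toReal) : PvX2Fr x R y R where
  q0 := 𝔑.q
  q0_pos := hN.q0
  q0_le := hN.q1
  G m Y := (𝔑.lev g y R (h m)).G 𝔑.q Y
  C0 m Y hG := hG.C0
  C1 m Y hG := hG.C1
  mac m Y hG := pvx2d_mac hyx hG
  G_ord := hord

/-- the adaptive data of the patch: THE SELECTION OF RECORD of 281 on the cycles of 54 -/
noncomputable def PvX2dNum.ad (𝔑 : PvX2dNum) {g : ℕ} (hN : 𝔑.Ok g) (h : ℕ → ℝ) {x y : ℂ} {R : ℝ} (hyx : ‖y - x‖ ≤ 2 * R)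
    (hord : PvhbOrd fun m ε => ((pvhbUp ε).P {p | ¬ (𝔑.lev g y R (h m)).G 𝔑.q (cfSites (pvConf (pvMerge p)))}).toReal) : PvX2Ad (𝔑.fr hN h hyx hord) where
  q := 𝔑.q
  q_le := hN.q1
  w := 𝔑.en + 2
  mt := fun _ => 𝔑.mt
  N := fun _ => 𝔑.Ps.J * g
  hp := Eventually.of_forall fun _ => hN.hp
  Sel m Y hG := pvagbSel (PvklPar.G.tri (P := 𝔑.lev g y R (h m)) hG) (PvklPar.G.a (P := 𝔑.lev g y R (h m)) hG) (PvklPar.G.o (P := 𝔑.lev g y R (h m)) hG) Subtype.val (𝔑.Ps.L * h m) (𝔑.en + 2) 𝔑.mt 𝔑.q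
    (fun d => pv5Blk (𝔑.Ps.L * h m) ((pvx2T Y).src d : ℂ)) 𝔑.en 𝔑.Ps.J
  hSel m Y hG e he he' b := pvagb_sel_meas (PvklPar.G.tri (P := 𝔑.lev g y R (h m)) hG) _ _ _ _ _ _ _ _ _ _ (PvklPar.G.geo (P := 𝔑.lev g y R (h m)) hG).2.2.1 he he' b

theorem pvx2d_eqns_cite3 : True := by
  have := @PvX2dNum.fr.eq_1; have := @PvX2dNum.ad.eq_1
  trivial

/-- a finite net of `clB(x, 2R)` -/
theorem pvx2d_net (x : ℂ) {R : ℝ} (hR : 0 < R) : ∃ (nJ : ℕ) (ctr : Fin nJ → ℂ), (∀ j, ‖ctr j - x‖ ≤ 2 * R) ∧ ∀ z : ℂ, ‖z - x‖ ≤ 2 * R → ∃ j, ‖z - ctr j‖ ≤ R / 2 := by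
  obtain ⟨t, ht, hfin, hcov⟩ := (isCompact_closedBall x (2 * R)).finite_cover_balls (e := R / 2) (by linarith)
  obtain ⟨nJ, ctr, hctr⟩ : ∃ (nJ : ℕ) (ctr : Fin nJ → ℂ), Set.range ctr = t := by
    obtain ⟨nJ, f, hf⟩ := hfin.fin_embedding
    exact ⟨nJ, f, hf⟩
  refine ⟨nJ, ctr, fun j => ?_, fun z hz => ?_⟩
  · have : ctr j ∈ t := hctr ▸ Set.mem_range_self j
    simpa [dist_eq_norm] using ht this
  · have hz' : z ∈ Metric.closedBall x (2 * R) := by simpa [dist_eq_norm] using hz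
    obtain ⟨c, hc, hzc⟩ := Set.mem_iUnion₂.1 (hcov hz')
    rw [← hctr] at hc
    obtain ⟨j, rfl⟩ := hc
    exact ⟨j, by simpa [dist_eq_norm] using (Metric.mem_ball.1 hzc).le⟩

/-- **(D) THE DI PACKAGE** = `exit_pvx2_di` of `Exit/PinsA6X.lean`, for the canonical instance of `DecidableEq` -/
theorem pvx2d_di0 (a0 S : ℝ) (g Cw : ℕ) : ∃ Gl : PvX2Glob g, Cw + (Gl.ae + 1) ≤ Gl.aw ∧ (∀ j < g, a0 ≤ Gl.a j ∧ S * Gl.a j ≤ Gl.b j ∧ S * Gl.b j ≤ Gl.L) ∧ (∀ j, j + 1 < g → S * Gl.b j ≤ Gl.a (j + 1)) ∧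
    ∀ h : ℕ → ℝ, (∀ m, 0 < h m) → Tendsto h atTop (𝓝 0) → ∀ (x : ℂ) (R : ℝ), 0 < R →
      ∃ (𝔓 : PvX2Pat x R) (Ex : ℕ → ℝ → Set (PvGeoT × PvColT)), PvhbOrd (fun m ε => ((pvhbUp ε).P (Ex m ε)).toReal) ∧
        ∀ m ε, ∀ p ∉ Ex m ε, ∀ j, ∀ P ∈ pvhbAll x R (pvMerge p), ∀ s n, s + n ≤ P.len →
          PvtdDI (Gl.L * h m) Gl.ae x R (pvx2Sub P s n) (pvx2Pl g Gl.a Gl.b (h m) (pvMerge p) (pvx2Sub P s n))
            (fun b => pvConf (pvMerge p) ∈ Gl.SB (h m) b) ((𝔓.A j).AB (fun m => Gl.L * h m) m p (pvx2Sub P s n)) := by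
  obtain ⟨q, hq0, hq1, hord⟩ := pvkl_G_ord
  obtain ⟨q5, h5, h5', hFr⟩ := pvds_fr_exists
  obtain ⟨𝔑, Gl, hN, rfl, -, hL, hae, -, ha, hb, hSBe, c1, c2, c3⟩ := pvx8_numD a0 S g Cw h5 h5' hFr hq0 hq1.le
  refine ⟨Gl, c1, c2, c3, fun h h0 hlim x R hR => ?_⟩
  have hb' : Gl.b = fun k => 5 * 𝔑.r3 k / 4 := funext hb
  rw [hL, hae, ha, hb', hSBe]
  obtain ⟨nJ, ctr, hctr, hnet⟩ := pvx2d_net x hR
  have hev : ∀ᶠ m in atTop, 𝔑.Ps.L * h m ≤ R / 4 := by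
    have h1 : Tendsto (fun m => (𝔑.Ps.L : ℝ) * h m) atTop (𝓝 0) := by simpa using hlim.const_mul (𝔑.Ps.L : ℝ)
    exact h1.eventually (ge_mem_nhds (by linarith))
  have hO : ∀ j, PvhbOrd fun m ε => ((pvhbUp ε).P {p | ¬ (𝔑.lev g (ctr j) R (h m)).G 𝔑.q (cfSites (pvConf (pvMerge p)))}).toReal :=
    fun j => hord (fun m => 𝔑.lev g (ctr j) R (h m)) (hev.mono fun m hm => hN.lev_ok _ (h0 m) hm)
  refine ⟨⟨nJ, ctr, R, hR, hnet, fun j => 𝔑.fr hN h (hctr j) (hO j), fun j => 𝔑.ad hN h (hctr j) (hO j)⟩, fun _ _ => ∅, ?_, ?_⟩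
  · intro η hη
    refine Eventually.of_forall fun m => Eventually.of_forall fun ε => ?_
    show ((pvhbUp ε).P ∅).toReal ≤ η
    rw [PvUp.P_empty, ENNReal.toReal_zero]
    exact hη.le
  · intro m ε p _ j P hP s n hsn i i' hii hi' hin hfar hSB hAB
    have hAB' : ¬ ∀ (hG : (𝔑.lev g (ctr j) R (h m)).G 𝔑.q (cfSites (pvConf (pvMerge p)))) (b : Bool) (e : (delbPl (cfSites (pvConf (pvMerge p)))).Dart),
        (𝔑.fr hN h (hctr j) (hO j)).car m p (pvx2Sub P s n) b e →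
        PvaaBad (pvx2T _) Subtype.val hG.C0 (𝔑.Ps.L * h m) (𝔑.en + 2) 𝔑.mt (𝔑.Ps.J * g) 𝔑.q
          (pvagbSel hG.tri hG.a hG.o Subtype.val (𝔑.Ps.L * h m) (𝔑.en + 2) 𝔑.mt 𝔑.q (fun d => pv5Blk (𝔑.Ps.L * h m) ((pvx2T _).src d : ℂ)) 𝔑.en 𝔑.Ps.J)
          (fun v => cfCol (pvConf (pvMerge p)) v == b) e (pv5Blk (𝔑.Ps.L * h m) (P.v (s + i))) := hAB
    push Not at hAB'
    obtain ⟨hG, b, e, ⟨hG', hcar⟩, hnb⟩ := hAB'
    obtain ⟨τ, p', h1, h2, h3⟩ := pvx2d_det hN hR (hctr j) (h0 m) hG hP hcar hii hi' hfar hSB hnb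
    exact ⟨⟨τ, l9Pt (h m) p', p'⟩, ⟨rfl, h3⟩, h1, h2⟩

/-- the canonical instance -/
noncomputable def pvx2dInst : ∀ Y : Set ℂ, DecidableEq ↥Y := fun _ => inferInstance

theorem pvx2d_eqns_cite4 : True := by
  have := @pvx2dInst.eq_1
  trivial

/-- **(D) THE DI PACKAGE** = `exit_pvx2_di` of `Exit/PinsA6X.lean`, verbatim (generic instance) -/
theorem pvx2d_di [I : ∀ Y : Set ℂ, DecidableEq ↥Y] (a0 S : ℝ) (g Cw : ℕ) : ∃ Gl : PvX2Glob g, Cw + (Gl.ae + 1) ≤ Gl.aw ∧ (∀ j < g, a0 ≤ Gl.a j ∧ S * Gl.a j ≤ Gl.b j ∧ S * Gl.b j ≤ Gl.L) ∧ (∀ j, j + 1 < g → S * Gl.b j ≤ Gl.a (j + 1)) ∧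
    ∀ h : ℕ → ℝ, (∀ m, 0 < h m) → Tendsto h atTop (𝓝 0) → ∀ (x : ℂ) (R : ℝ), 0 < R →
      ∃ (𝔓 : PvX2Pat x R) (Ex : ℕ → ℝ → Set (PvGeoT × PvColT)), PvhbOrd (fun m ε => ((pvhbUp ε).P (Ex m ε)).toReal) ∧
        ∀ m ε, ∀ p ∉ Ex m ε, ∀ j, ∀ P ∈ pvhbAll x R (pvMerge p), ∀ s n, s + n ≤ P.len →
          PvtdDI (Gl.L * h m) Gl.ae x R (pvx2Sub P s n) (pvx2Pl g Gl.a Gl.b (h m) (pvMerge p) (pvx2Sub P s n))
            (fun b => pvConf (pvMerge p) ∈ Gl.SB (h m) b) ((𝔓.A j).AB (fun m => Gl.L * h m) m p (pvx2Sub P s n)) := by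
  obtain rfl : I = pvx2dInst := Subsingleton.elim _ _
  exact pvx2d_di0 a0 S g Cw

end Claimed.Agent.R289
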