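import Claimed.Agent.R289.Exit.PinsA6
import Claimed.Agent.R289.Exit.PinsA6C
import Claimed.Agent.R289.Arm.GateO
import Claimed.Agent.R289.Exit.PinsA6D

/-!
# Row 289 (S0537), THE WALL, roof PINS, sub-exit (X2), file Exit/PinsA6X : THE CORE OF A6 = COMPILED GLUE OVER THREE LEAVES      (helper200; prefix `pvx2_`, `PvX2`, `pvx2`)

Definitions: `Exit/PinsA6.lean` sec. 4 (records `PvX2Glob`, `PvX2Loc`), sec. 5 (the model).      A producer imports `Exit/PinsA6.lean`, proves his leaf in his own file; the sorry below is then replaced by a citation (import added here).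
* `exit_pvx2_split` (B)  SPLIT = L8 at the model, deterministic                                   [105 + transfer of 13]
* `exit_pvx2_few`   (C)  at most `K0 m → ∞` chords reach `C1.Left`, Markov                          [149: PROVED, `pvx7_few` of `Exit/PinsA6C.lean`]
* `exit_pvx2_di`    (D)  THE DI PACKAGE: constants, static bad block, frames, selection, (DI) for the pieces   [head 116; 54 13 101 89 238 281]
PATCHES (defect of 75): (B), (C) are stated for ONE patch; (D) provides the finite family `PvX2Pat`; trimming, choice of the patch, finite unions = glue.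
PROVED HERE: `pvx2_fine`, `pvx2_all_mesh`, `pvx2_trim`, `pvx2_num` (`K0 = ⌈h^(-κ/4)⌉`, `r / K0 ≥ (L h)^(1-κ/2)`), `pvx2_num_min`, `pvx2_ord_iUnion`, `pvx2Loc` (all the fields of `PvX2Loc`; `AB_ord` = `pvaa_hab_rims` of 237), `pvx2_core`, `pvx2_main`, `pvx2_a6` (= `exit_pins_a6` of 12).
-/

set_option autoImplicit false

namespace Claimed.Agent.R289

open MeasureTheory Filter Topology Set Claims.C0465
open scoped ENNReal

section model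

variable [∀ Y : Set ℂ, DecidableEq ↥Y]

/-! ## 1. the leaves -/

/-- **(B) SPLIT** = (o) of A6 = L8, DETERMINISTIC, ONE PATCH      [13 + 105;  `pvagt_L8` of 13 (`Arm/GateTr.lean`: L8 on two maps) + the iso at the model `pvagt_model`].
The frame of a patch, at most `K` chords reach `C1.Left`: every arc inside the core `clB(y,ρ)` of every rim of every completion contains an arc carried by ONE chord which reaches `C1.Left`, with `1/K` of the displacement. -/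
theorem exit_pvx2_split {x : ℂ} {R q0 : ℝ} {y : ℂ} {ρ : ℝ} (hR : 0 < R) (ω : PVSample) (C0 C1 : (pvx2T (cfSites (pvConf ω))).Cyc) (hM : PvX2Mac x R q0 y ρ _ C0 C1) (K : ℕ)
    (hK : PvX2Few _ (fun v => cfCol (pvConf ω) v) C0 C1 K) (P : PvbRim) (hP : P ∈ pvhbAll x R ω) (i i' : ℕ) (hii : i < i') (hi' : i' ≤ P.len)
    (hin2 : ∀ k, i ≤ k → k ≤ i' → ‖P.v k - x‖ ≤ 2 * R) (hin : ∀ k, i ≤ k → k ≤ i' → ‖P.v k - y‖ ≤ ρ) :
    ∃ (s n : ℕ) (b : Bool) (e : (delbPl (cfSites (pvConf ω))).Dart), i ≤ s ∧ s + n ≤ i' ∧ PvX2Car _ (fun v => cfCol (pvConf ω) v) y ρ C0 (pvx2Sub P s n) b e ∧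
      PvaaK (pvx2T _) C1 C0 (fun v => cfCol (pvConf ω) v == b) e ∧ ‖P.v i' - P.v i‖ ≤ K * ‖P.v (s + n) - P.v s‖ :=
  pvago_exit_split hR ω C0 C1 hM K hK P hP i i' hii hi' hin2 hin

/-- **(C) COUNT OF THE CHORDS**, ONE PATCH      [149;  Markov on `E #{e : PvaaK e} ≤ pvbkM 2 1 (1 - q0)` (inside `pvaa_hab_q` of 237) + `pvaa_up_le`, `pvaa_sec`] -/
theorem exit_pvx2_few {x : ℂ} {R : ℝ} {y : ℂ} {ρ : ℝ} (F : PvX2Fr x R y ρ) (K0 : ℕ → ℕ) (hK0 : Tendsto K0 atTop atTop) :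
    PvhbOrd fun m ε => ((pvhbUp ε).P {p | ∃ hG : F.G m (cfSites (pvConf (pvMerge p))),
      ¬ PvX2Few _ (fun v => cfCol (pvConf (pvMerge p)) v) (F.C0 m _ hG) (F.C1 m _ hG) (K0 m)}).toReal :=
  pvx7_few F K0 hK0

/-- **(D) THE DI PACKAGE**      [head 116 `Arm/GateM.lean`;  D1 frames at the model 54 `Arm/GateFrM.lean` + 75 `Arm/GateS.lean`;  D2 two-map (DI) 13 `Arm/GateTr.lean` (`pvagt_DI`, proved);  D3 static bad block `B0` (reads, small) 101 89 238;  constants 281].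
The constants and the static bad block;  for all scales and balls: the patches (net, frame events, selection, numbers), one more exceptional event, and, IN EVERY PATCH, (DI) for ALL the sub-arcs of the rims of the completions
(`¬ AB` of the patch provides a chord of the patch which carries the arc; the arc then lies in the core of the patch). -/
theorem exit_pvx2_di (a0 S : ℝ) (g Cw : ℕ) : ∃ Gl : PvX2Glob g, Cw + (Gl.ae + 1) ≤ Gl.aw ∧ (∀ j < g, a0 ≤ Gl.a j ∧ S * Gl.a j ≤ Gl.b j ∧ S * Gl.b j ≤ Gl.L) ∧ (∀ j, j + 1 < g → S * Gl.b j ≤ Gl.a (j + 1)) ∧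
    ∀ h : ℕ → ℝ, (∀ m, 0 < h m) → Tendsto h atTop (𝓝 0) → ∀ (x : ℂ) (R : ℝ), 0 < R →
      ∃ (𝔓 : PvX2Pat x R) (Ex : ℕ → ℝ → Set (PvGeoT × PvColT)), PvhbOrd (fun m ε => ((pvhbUp ε).P (Ex m ε)).toReal) ∧
        ∀ m ε, ∀ p ∉ Ex m ε, ∀ j, ∀ P ∈ pvhbAll x R (pvMerge p), ∀ s n, s + n ≤ P.len →
          PvtdDI (Gl.L * h m) Gl.ae x R (pvx2Sub P s n) (pvx2Pl g Gl.a Gl.b (h m) (pvMerge p) (pvx2Sub P s n))
            (fun b => pvConf (pvMerge p) ∈ Gl.SB (h m) b) ((𝔓.A j).AB (fun m => Gl.L * h m) m p (pvx2Sub P s n)) :=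
  pvx2d_di a0 S g Cw

end model

/-! ## 2. mesh, trimming, numbers, finite unions -/

/-- the mesh is eventually finer than any prescribed `μ m > 0` (= `pvxp_fine` of 12) -/
theorem pvx2_fine (x : ℂ) {R : ℝ} (hR : 0 < R) (μ : ℕ → ℝ) (hμ : ∀ m, 0 < μ m) :
    PvhbOrd fun m ε => ((pvhbUp ε).P {q | ¬ L9Fine (cfSites (pvConf (pvMerge q))) (Metric.closedBall x (6 * R)) (μ m)}).toReal := by
  have h1 : PvhbOrd fun m ε => (pvLaw ε {o | ¬ L9Fine (cfSites (pvConf o)) (Metric.closedBall x (6 * R)) (μ m)}).toReal :=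
    PvhbOrd.of_tendsto fun m => (pvhb_tendsto_iff _ _).2 fun es h0 he => l9_fine_prob es h0 he x hR (hμ m)
  refine PvhbOrd.mono h1 fun m ε => ?_
  have h2 := pvhb_up_P_law ε {o | ¬ L9Fine (cfSites (pvConf o)) (Metric.closedBall x (6 * R)) (μ m)}
  exact ENNReal.toReal_mono (measure_ne_top _ _) h2

/-- mesh of ALL rims of ALL completions on the fine event -/
theorem pvx2_all_mesh {x : ℂ} {R μ : ℝ} (hR : 0 < R) (hμ : μ ≤ R) {ω : PVSample} (hF : L9Fine (cfSites (pvConf ω)) (Metric.closedBall x (6 * R)) μ) {P : PvbRim} (hP : P ∈ pvhbAll x R ω) :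
    ∀ k < P.len, ‖P.v k - x‖ ≤ 5 * R → ‖P.v (k + 1) - P.v k‖ ≤ μ := by
  obtain ⟨X, hX, 𝔅, ξ, -, hOk, hP'⟩ := hP
  obtain ⟨-, -, h3, -⟩ := l9_enc_mesh 𝔅 hR hμ hOk hF hP'
  exact fun k hk h => h3 k hk (Or.inl h)

/-- **TRIMMING**: the first exit of the ball of radius `d` round the starting point -/
theorem pvx2_trim (v : ℕ → ℂ) {i i' : ℕ} (hii : i ≤ i') {d μ : ℝ} (hd : 0 < d) (hstep : ∀ t, i ≤ t → t < i' → ‖v (t + 1) - v t‖ ≤ μ) (hfar : d ≤ ‖v i' - v i‖) :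
    ∃ i'', i < i'' ∧ i'' ≤ i' ∧ d ≤ ‖v i'' - v i‖ ∧ ∀ k, i ≤ k → k ≤ i'' → ‖v k - v i‖ ≤ d + μ := by
  classical
  have hex : ∃ n, d ≤ ‖v (i + n) - v i‖ := ⟨i' - i, by rwa [Nat.add_sub_cancel' hii]⟩
  have hle : Nat.find hex ≤ i' - i := Nat.find_min' hex (by rwa [Nat.add_sub_cancel' hii])
  have hlt : ∀ n, n < Nat.find hex → ‖v (i + n) - v i‖ < d := fun n hn => not_le.1 (Nat.find_min hex hn)
  have hpos : 0 < Nat.find hex := by
    rcases Nat.eq_zero_or_pos (Nat.find hex) with h | h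
    · exfalso
      have := Nat.find_spec hex
      rw [h] at this
      simp only [add_zero, sub_self, norm_zero] at this
      linarith
    · exact h
  have hμ : 0 ≤ μ := (norm_nonneg _).trans (hstep i le_rfl (by omega))
  refine ⟨i + Nat.find hex, by omega, by omega, Nat.find_spec hex, fun k h1 h2 => ?_⟩
  obtain ⟨n, rfl⟩ := Nat.exists_eq_add_of_le h1
  rcases Nat.lt_or_ge n (Nat.find hex) with h | h
  · linarith [hlt n h]
  · obtain ⟨n', rfl⟩ : ∃ n', n = n' + 1 := ⟨n - 1, by omega⟩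
    have e1 := hlt n' (by omega)
    have e2 := hstep (i + n') (by omega) (by omega)
    calc ‖v (i + (n' + 1)) - v i‖ = ‖(v (i + n') - v i) + (v (i + n' + 1) - v (i + n'))‖ := by rw [← add_assoc]; ring_nf
      _ ≤ ‖v (i + n') - v i‖ + ‖v (i + n' + 1) - v (i + n')‖ := norm_add_le _ _
      _ ≤ d + μ := by linarith

/-- **the number of chords which is allowed**: `K0 m = ⌈h^(-κ/4)⌉ → ∞`, and `r / K0` is still a scale `(L h)^(1-κ/2)` -/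
theorem pvx2_num (L : ℝ) (hL : 0 < L) (h r : ℕ → ℝ) {κ : ℝ} (hκ : 0 < κ) (h0 : ∀ m, 0 < h m) (hlim : Tendsto h atTop (𝓝 0)) (hr : ∀ᶠ m in atTop, h m ^ (1 - κ) ≤ r m) :
    Tendsto (fun m => ⌈h m ^ (-(κ / 4))⌉₊) atTop atTop ∧ ∀ᶠ m in atTop, (L * h m) ^ (1 - κ / 2) ≤ r m / (⌈h m ^ (-(κ / 4))⌉₊ : ℝ) := by
  have htt : Tendsto (fun m => h m ^ (-(κ / 4))) atTop atTop :=
    (tendsto_rpow_neg_nhdsGT_zero (neg_lt_zero.2 (by positivity : 0 < κ / 4))).comp (tendsto_nhdsWithin_iff.2 ⟨hlim, Eventually.of_forall h0⟩)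
  refine ⟨tendsto_nat_ceil_atTop.comp htt, ?_⟩
  filter_upwards [hr, htt.eventually_ge_atTop (max 1 (2 * L ^ (1 - κ / 2)))] with m hm1 hm2
  set t : ℝ := h m ^ (-(κ / 4)) with ht
  have ht1 : 1 ≤ t := (le_max_left _ _).trans hm2
  have ht2 : 2 * L ^ (1 - κ / 2) ≤ t := (le_max_right _ _).trans hm2
  have hK : ((⌈t⌉₊ : ℕ) : ℝ) ≤ 2 * t := by
    have := (Nat.ceil_lt_add_one (by linarith : 0 ≤ t)).le
    linarith
  have hK0 : (0 : ℝ) < (⌈t⌉₊ : ℕ) := by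
    have : 0 < ⌈t⌉₊ := Nat.ceil_pos.2 (by linarith)
    exact_mod_cast this
  rw [le_div_iff₀ hK0]
  have hh := h0 m
  have e1 : (L * h m) ^ (1 - κ / 2) = L ^ (1 - κ / 2) * h m ^ (1 - κ / 2) := Real.mul_rpow hL.le hh.le
  have e2 : h m ^ (1 - κ / 2) * (t * t) = h m ^ (1 - κ) := by
    rw [ht, ← Real.rpow_add hh, ← Real.rpow_add hh]
    congr 1
    ring
  have hp : 0 < h m ^ (1 - κ / 2) := Real.rpow_pos_of_pos hh _
  have hLp : 0 < L ^ (1 - κ / 2) := Real.rpow_pos_of_pos hL _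
  calc (L * h m) ^ (1 - κ / 2) * ((⌈t⌉₊ : ℕ) : ℝ) ≤ (L ^ (1 - κ / 2) * h m ^ (1 - κ / 2)) * (2 * t) := by rw [e1]; gcongr
    _ = h m ^ (1 - κ / 2) * ((2 * L ^ (1 - κ / 2)) * t) := by ring
    _ ≤ h m ^ (1 - κ / 2) * (t * t) := by gcongr
    _ = h m ^ (1 - κ) := e2
    _ ≤ r m := hm1

/-- the trimmed scale `min r d` is a scale `h^(1-κ')`, `κ' = min κ (1/2)` -/
theorem pvx2_num_min (h r : ℕ → ℝ) {κ d : ℝ} (hd : 0 < d) (h0 : ∀ m, 0 < h m) (hlim : Tendsto h atTop (𝓝 0)) (hr : ∀ᶠ m in atTop, h m ^ (1 - κ) ≤ r m) :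
    ∀ᶠ m in atTop, h m ^ (1 - min κ (1 / 2)) ≤ min (r m) d := by
  have hpos : 0 < 1 - min κ (1 / 2) := by
    have := min_le_right κ (1 / 2)
    linarith
  have h1 : Tendsto (fun m => h m ^ (1 - min κ (1 / 2))) atTop (𝓝 0) := by
    have := (Real.continuousAt_rpow_const 0 (1 - min κ (1 / 2)) (Or.inr hpos.le)).tendsto.comp hlim
    rw [Real.zero_rpow hpos.ne'] at this
    exact this
  filter_upwards [hr, h1.eventually (ge_mem_nhds hd), hlim.eventually (ge_mem_nhds one_pos)] with m a1 a2 a3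
  refine le_min (le_trans ?_ a1) a2
  exact Real.rpow_le_rpow_of_exponent_ge (h0 m) a3 (by have := min_le_left κ (1 / 2); linarith)

theorem pvx2_ord_union {A B : ℕ → ℝ → Set (PvGeoT × PvColT)} (hA : PvhbOrd fun m ε => ((pvhbUp ε).P (A m ε)).toReal) (hB : PvhbOrd fun m ε => ((pvhbUp ε).P (B m ε)).toReal) :
    PvhbOrd fun m ε => ((pvhbUp ε).P (A m ε ∪ B m ε)).toReal := by
  refine (PvhbOrd.add hA hB).mono fun m ε => ?_
  rw [← ENNReal.toReal_add ((pvhbUp ε).P_ne_top _) ((pvhbUp ε).P_ne_top _)]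
  exact ENNReal.toReal_mono (ENNReal.add_ne_top.2 ⟨(pvhbUp ε).P_ne_top _, (pvhbUp ε).P_ne_top _⟩) ((pvhbUp ε).P_union_le _ _)

/-- finite unions of negligible events -/
theorem pvx2_ord_iUnion : ∀ {n : ℕ} {A : Fin n → ℕ → ℝ → Set (PvGeoT × PvColT)}, (∀ j, PvhbOrd fun m ε => ((pvhbUp ε).P (A j m ε)).toReal) →
    PvhbOrd fun m ε => ((pvhbUp ε).P {p | ∃ j, p ∈ A j m ε}).toReal
  | 0, A, _ => by
    intro η hη
    refine Eventually.of_forall fun m => Eventually.of_forall fun ε => ?_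
    have : {p | ∃ j : Fin 0, p ∈ A j m ε} = ∅ := by
      ext p
      simp
    show ((pvhbUp ε).P {p | ∃ j : Fin 0, p ∈ A j m ε}).toReal ≤ η
    rw [this, PvUp.P_empty]
    simpa using hη.le
  | n + 1, A, h => by
    have ih := pvx2_ord_iUnion (A := fun j : Fin n => A j.succ) fun j => h j.succ
    refine (pvx2_ord_union (h 0) ih).mono fun m ε => ?_
    refine ENNReal.toReal_mono (PvUp.P_ne_top _ _) (PvUp.P_mono _ ?_)
    rintro p ⟨j, hj⟩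
    refine Fin.cases (motive := fun j => p ∈ A j m ε → _) (fun h0 => Or.inl h0) (fun j' hj' => Or.inr ⟨j', hj'⟩) j hj

/-! ## 3. the assembly -/

section asm

variable [∀ Y : Set ℂ, DecidableEq ↥Y]

/-- **THE LOCAL DATA OF A6 FROM THE LEAVES** -/
noncomputable def pvx2Loc {g : ℕ} (Gl : PvX2Glob g) (h r : ℕ → ℝ) {κ : ℝ} (hκ : 0 < κ) (h0 : ∀ m, 0 < h m) (hlim : Tendsto h atTop (𝓝 0)) (hr : ∀ᶠ m in atTop, h m ^ (1 - κ) ≤ r m)
    {x : ℂ} {R : ℝ} (hR : 0 < R) (𝔓 : PvX2Pat x R) (Ex : ℕ → ℝ → Set (PvGeoT × PvColT)) (hEx : PvhbOrd (fun m ε => ((pvhbUp ε).P (Ex m ε)).toReal))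
    (hdi : ∀ m ε, ∀ p ∉ Ex m ε, ∀ j, ∀ P ∈ pvhbAll x R (pvMerge p), ∀ s n, s + n ≤ P.len →
      PvtdDI (Gl.L * h m) Gl.ae x R (pvx2Sub P s n) (pvx2Pl g Gl.a Gl.b (h m) (pvMerge p) (pvx2Sub P s n))
        (fun b => pvConf (pvMerge p) ∈ Gl.SB (h m) b) ((𝔓.A j).AB (fun m => Gl.L * h m) m p (pvx2Sub P s n))) : PvX2Loc Gl h r x R where
  r' := fun m => min (r m) (𝔓.ρ / 4) / (⌈h m ^ (-(min κ (1 / 2) / 4))⌉₊ : ℝ)
  kap := min κ (1 / 2) / 2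
  kap0 := by have : 0 < min κ (1 / 2) := lt_min hκ (by norm_num); positivity
  r'_ge := (pvx2_num Gl.L (by exact_mod_cast Gl.L0) h _ (lt_min hκ (by norm_num)) h0 hlim (pvx2_num_min h r (by have := 𝔓.ρ0; positivity) h0 hlim hr)).2
  pc := fun m _ p => {P' | ∃ j, P' ∈ (𝔓.F j).pc m p}
  AB := fun m _ p P b => ∀ j, (𝔓.A j).AB (fun m => Gl.L * h m) m p P b
  Ex := fun m ε => ((({p | ∃ j, p ∈ {p | ¬ (𝔓.F j).G m (cfSites (pvConf (pvMerge p)))}} ∪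
      {p | ¬ L9Fine (cfSites (pvConf (pvMerge p))) (Metric.closedBall x (6 * R)) (min (h m) (min R (𝔓.ρ / 4)))}) ∪
    {p | ∃ j, p ∈ {p | ∃ hG : (𝔓.F j).G m (cfSites (pvConf (pvMerge p))),
      ¬ PvX2Few _ (fun v => cfCol (pvConf (pvMerge p)) v) ((𝔓.F j).C0 m _ hG) ((𝔓.F j).C1 m _ hG) ⌈h m ^ (-(min κ (1 / 2) / 4))⌉₊}}) ∪ Ex m ε) ∪ {_p | r m ≤ 0}
  Ex_ord := by
    have hρ := 𝔓.ρ0
    refine pvx2_ord_union (pvx2_ord_union (pvx2_ord_union (pvx2_ord_union (pvx2_ord_iUnion fun j => (𝔓.F j).G_ord)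
      (pvx2_fine x hR _ fun m => lt_min (h0 m) (lt_min hR (by positivity))))
      (pvx2_ord_iUnion fun j => exit_pvx2_few (𝔓.F j) _
        (pvx2_num Gl.L (by exact_mod_cast Gl.L0) h _ (lt_min hκ (by norm_num)) h0 hlim (pvx2_num_min h r (by positivity : 0 < 𝔓.ρ / 4) h0 hlim hr)).1)) hEx) ?_
    intro η hη
    filter_upwards [hr] with m hm
    refine Eventually.of_forall fun ε => ?_
    have : {_p : PvGeoT × PvColT | r m ≤ 0} = ∅ := by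
      ext p
      simp only [mem_ofPred_eq, mem_empty_iff_false, iff_false, not_le]
      exact lt_of_lt_of_le (Real.rpow_pos_of_pos (h0 m) _) hm
    rw [this, PvUp.P_empty]
    simpa using hη.le
  AB_ord := by
    have hL : (0 : ℝ) < Gl.L := by exact_mod_cast Gl.L0
    have hρ := 𝔓.ρ0
    have hn := pvx2_num Gl.L hL h _ (lt_min hκ (by norm_num)) h0 hlim (pvx2_num_min h r (by positivity : 0 < 𝔓.ρ / 4) h0 hlim hr)
    have hnum := (pvtd_num_lim (fun m => Gl.L * h m) _ (fun m => mul_pos hL (h0 m)) (by simpa using hlim.const_mul (Gl.L : ℝ))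
      (by have : 0 < min κ (1 / 2) := lt_min hκ (by norm_num); positivity : 0 < min κ (1 / 2) / 2) hn.2 x hR.le Gl.ae).1
    refine (pvx2_ord_iUnion fun j => (𝔓.A j).AB_ord (fun m => Gl.L * h m) _ _ hnum).mono fun m ε => ?_
    refine ENNReal.toReal_mono (PvUp.P_ne_top _ _) (PvUp.P_mono _ ?_)
    rintro p ⟨P, ⟨j, hj⟩, hH⟩
    exact ⟨j, P, hj, pvaa_half_mono (fun b hb => hb j) hH⟩
  split := by
    intro m ε q hq P hP i i' hii hi' hin hfar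
    simp only [mem_union, mem_ofPred_eq, not_or, not_not, not_exists, not_le] at hq
    obtain ⟨⟨⟨⟨hG, hfine⟩, hfew⟩, -⟩, hr0⟩ := hq
    have hρ := 𝔓.ρ0
    have hmesh := pvx2_all_mesh hR ((min_le_right _ _).trans (min_le_left _ _)) hfine hP
    obtain ⟨i'', h1, h2, h3, h4⟩ := pvx2_trim P.v hii (d := min (r m) (𝔓.ρ / 4)) (μ := 𝔓.ρ / 4) (lt_min hr0 (by positivity))
      (fun t a1 a2 => (hmesh t (by omega) ((hin t a1 a2.le).trans (by linarith))).trans ((min_le_right _ _).trans (min_le_right _ _))) ((min_le_left _ _).trans hfar)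
    obtain ⟨j, hj⟩ := 𝔓.net (P.v i) (hin i le_rfl hii)
    have hcore : ∀ k, i ≤ k → k ≤ i'' → ‖P.v k - 𝔓.ctr j‖ ≤ 𝔓.ρ := by
      intro k a1 a2
      have e1 := h4 k a1 a2
      have e2 : min (r m) (𝔓.ρ / 4) ≤ 𝔓.ρ / 4 := min_le_right _ _
      calc ‖P.v k - 𝔓.ctr j‖ = ‖(P.v k - P.v i) + (P.v i - 𝔓.ctr j)‖ := by ring_nf
        _ ≤ ‖P.v k - P.v i‖ + ‖P.v i - 𝔓.ctr j‖ := norm_add_le _ _
        _ ≤ 𝔓.ρ := by linarith
    obtain ⟨s, n, b, e, g1, g2, g3, g4, g5⟩ := exit_pvx2_split hR (pvMerge q) _ _ ((𝔓.F j).mac m _ (hG j)) _ (hfew j (hG j)) P hP i i'' h1 (h2.trans hi') (fun k a1 a2 => hin k a1 (a2.trans h2)) hcore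
    refine ⟨pvx2Sub P s n, ⟨j, hG j, P, hP, s, n, (g2.trans h2).trans hi', rfl, b, e, g3, g4⟩, s, 0, n, g1, g2.trans h2, by simp [pvx2Sub], fun t _ => by simp [pvx2Sub], ?_⟩
    have hK0 : (0 : ℝ) < (⌈h m ^ (-(min κ (1 / 2) / 4))⌉₊ : ℕ) := by
      have : 0 < ⌈h m ^ (-(min κ (1 / 2) / 4))⌉₊ := Nat.ceil_pos.2 (Real.rpow_pos_of_pos (h0 m) _)
      exact_mod_cast this
    rw [div_le_iff₀ hK0]
    simp only [pvx2Sub, zero_add, add_zero]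
    linarith
  mesh := by
    intro m ε q hq P' hP' t ht hin
    simp only [mem_union, mem_ofPred_eq, not_or, not_not, not_exists, not_le] at hq
    obtain ⟨⟨⟨⟨-, hfine⟩, -⟩, -⟩, -⟩ := hq
    obtain ⟨j, -, P, hP, s, n, hsn, rfl, -⟩ := hP'
    have h1 := pvx2_all_mesh hR ((min_le_right _ _).trans (min_le_left _ _)) hfine hP (s + t) (by simp only [pvx2Sub] at ht; omega) (by simp only [pvx2Sub] at hin; linarith)
    have hLh : h m ≤ Gl.L * h m := by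
      have : (1 : ℝ) ≤ Gl.L := by exact_mod_cast Gl.L0
      nlinarith [h0 m]
    simp only [pvx2Sub]
    rw [← add_assoc]
    exact h1.trans ((min_le_left _ _).trans hLh)
  di := by
    intro m ε q hq P' hP'
    simp only [mem_union, mem_ofPred_eq, not_or] at hq
    obtain ⟨j₀, -, P, hP, s, n, hsn, rfl, -⟩ := hP'
    intro a a' h1 h2 h3 h4 h5 h6
    push Not at h6
    obtain ⟨j, hj⟩ := h6
    exact hdi m ε q hq.1.2 j P hP s n hsn a a' h1 h2 h3 h4 h5 hj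

end asm

open Classical in
/-- **THE CORE OF A6** (no flags) -/
theorem pvx2_core (a0 S : ℝ) (g Cw : ℕ) : ∃ G : PvX2Glob g, Cw + (G.ae + 1) ≤ G.aw ∧ (∀ j < g, a0 ≤ G.a j ∧ S * G.a j ≤ G.b j ∧ S * G.b j ≤ G.L) ∧ (∀ j, j + 1 < g → S * G.b j ≤ G.a (j + 1)) ∧
    ∀ (h r : ℕ → ℝ) (κ : ℝ), 0 < κ → (∀ m, 0 < h m) → Tendsto h atTop (𝓝 0) → (∀ᶠ m in atTop, h m ^ (1 - κ) ≤ r m) → ∀ (x : ℂ) (R : ℝ), 0 < R → Nonempty (PvX2Loc G h r x R) := by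
  obtain ⟨Gl, h1, h2, h3, H⟩ := exit_pvx2_di a0 S g Cw
  refine ⟨Gl, h1, h2, h3, fun h r κ hκ h0 hlim hr x R hR => ?_⟩
  obtain ⟨𝔓, Ex, hEx, hdi⟩ := H h h0 hlim x R hR
  exact ⟨pvx2Loc Gl h r hκ h0 hlim hr hR 𝔓 Ex hEx hdi⟩

/-! ## 4. the exit -/

/-- **(X2) = A6 IN THE `A'`-FORM** -/
theorem pvx2_main (a0 S : ℝ) (g Cw : ℕ) : ∃ (a b : ℕ → ℝ) (L : ℕ) (ζ : ℝ≥0∞), 0 < L ∧ 0 < ζ ∧ (∀ j < g, a0 ≤ a j ∧ S * a j ≤ b j ∧ S * b j ≤ L) ∧ (∀ j, j + 1 < g → S * b j ≤ a (j + 1)) ∧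
    ∀ (h r : ℕ → ℝ) (κ : ℝ), 0 < κ → (∀ m, 0 < h m) → Tendsto h atTop (𝓝 0) → (∀ᶠ m in atTop, h m ^ (1 - κ) ≤ r m) →
    ∀ (w : ℕ), w ≤ Cw * L → ∀ Fl : ℕ → ℝ → ℤ × ℤ → Set (Conf PvPt), (∀ m ε p, Conf.ReadsSet (pvtdWin (h m) w p) (Fl m ε p)) → ∀ (x : ℂ) (R : ℝ), 0 < R →
      (∀ᶠ m in atTop, ∀ᶠ ε in 𝓝[>] (0 : ℝ), ∀ p, ‖l9Pt (h m) p - x‖ ≤ 6 * R → pvP ε (Fl m ε p) ≤ ζ) → PvX2 g a b h r Fl x R := by
  obtain ⟨G, h1, h2, h3, h4⟩ := pvx2_core a0 S g Cw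
  refine ⟨G.a, G.b, G.L, G.zeta, G.L0, G.zeta_pos, h2, h3, fun h r κ hκ h0 hlim hr w hw Fl hFr x R hR hFq => ?_⟩
  obtain ⟨𝔏⟩ := h4 h r κ hκ h0 hlim hr x R hR
  exact 𝔏.x2 hR h0 hlim Cw w h1 hw Fl hFr hFq

/-- **(A6) IN THE FORM OF THE ROOF** (`exit_pins_a6` of `Exit/Pins.lean`, 12; all definitions unfolded).      ORDER OF THE CONSTANTS: the road asks `a0 S g` and the range `Cw` of its flags IN UNITS OF THE BLOCK SIDE `L`. -/
theorem pvx2_a6 (a0 S : ℝ) (g Cw : ℕ) : ∃ (a b : ℕ → ℝ) (L : ℕ) (ζ : ℝ≥0∞), 0 < L ∧ 0 < ζ ∧ (∀ j < g, a0 ≤ a j ∧ S * a j ≤ b j ∧ S * b j ≤ L) ∧ (∀ j, j + 1 < g → S * b j ≤ a (j + 1)) ∧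
    ∀ (h r : ℕ → ℝ) (κ : ℝ), 0 < κ → (∀ m, 0 < h m) → Tendsto h atTop (𝓝 0) → (∀ᶠ m in atTop, h m ^ (1 - κ) ≤ r m) →
    ∀ (w : ℕ), w ≤ Cw * L → ∀ Fl : ℕ → ℝ → ℤ × ℤ → Set (Conf PvPt), (∀ m ε p, Conf.ReadsSet (pvtdWin (h m) w p) (Fl m ε p)) →
      (∀ (x : ℂ) (R : ℝ), ∀ᶠ m in atTop, ∀ᶠ ε in 𝓝[>] (0 : ℝ), ∀ p, ‖l9Pt (h m) p - x‖ ≤ R → pvP ε (Fl m ε p) ≤ ζ) → ∀ (x : ℂ) (R : ℝ), 0 < R →
      PvhbOrd fun m ε => ((pvhbUp ε).P {q | ¬ ∀ P ∈ pvhbAll x R (pvMerge q), ∀ i i', i ≤ i' → i' ≤ P.len → (∀ k, i ≤ k → k ≤ i' → ‖P.v k - x‖ ≤ 2 * R) → r m ≤ ‖P.v i' - P.v i‖ →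
        ∃ (k : ℕ) (p : ℤ × ℤ), i ≤ k ∧ k ≤ i' ∧ ‖P.v k - l9Pt (h m) p‖ ≤ h m ∧ ¬ pvConf (pvMerge q) ∈ Fl m ε p ∧
          ∀ j < g, DelGood (pvxY (pvMerge q)) ∧ ∃ G X, PvgGate (pvxT (pvMerge q)) (pvxCol (pvMerge q) (cfCol (pvConf (pvMerge q)) (P.v k))) true
            (pvdiB (pvxT (pvMerge q)) (pvxPos (pvMerge q)) (l9Pt (h m) p) (a j * h m)) (pvdiB (pvxT (pvMerge q)) (pvxPos (pvMerge q)) (l9Pt (h m) p) (b j * h m)) G X}).toReal := by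
  obtain ⟨a, b, L, ζ, hL, hζ, h1, h2, H⟩ := pvx2_main a0 S g Cw
  refine ⟨a, b, L, ζ, hL, hζ, h1, h2, fun h r κ hκ h0 hlim hr w hw Fl hFr hFq x R hR => ?_⟩
  refine PvhbOrd.mono (H h r κ hκ h0 hlim hr w hw Fl hFr x R hR (hFq x (6 * R))) fun m ε => ?_
  refine ENNReal.toReal_mono (PvUp.P_ne_top _ _) (PvUp.P_mono _ fun q hq hall => hq fun P hP i i' hii hi' hin hfar => ?_)
  obtain ⟨s, hs, hs1, hs2⟩ := hall P hP i i' hii hi' hin hfar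
  exact ⟨s.idx, s.typ, hs1, hs2, hs.1.2.near, hs.2, fun j hj => pvx2_gate_conv (hs.1.2.gate j hj)⟩

end Claimed.Agent.R289
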