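import Claimed.Agent.R289.Tr.Dense
import Claimed.Agent.R289.Tr.Di
import Claimed.Agent.R289.Tr.PinTrap
import Claimed.Agent.R289.Tr.Cover
import Claimed.Agent.R289.Exit.Arm
import Claimed.Agent.R289.Arm.TopGlue
import Claimed.Agent.R289.Defs.TrModel
import Claimed.Agent.R289.Cr.All
import Claimed.Agent.R289.Exit.PinsA6X
import Claimed.Agent.R289.Exit.Par

/-!
# Row 289 (S0537, Cardy for Poisson-Voronoi), THE WALL, Exit/Pins : THE ROOF OF THE PINS = field `pinsOK` (H1) of `PvhbLoc`      (helper12; prefix `pvxp_`, `Pvxp`, `pvxp`)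

TARGET.   `PvxpOK 𝔐 h r U rims pins x R` = the field `pinsOK` of `PvhbLoc` (`Tr/Hub.lean`, 73 / 129) verbatim, for upper expectations `U ε : PvUp Ω` (ruling of 163, 09:29Z: two-level upper expectation,
geometry outside, colours inside; joint outer bounds enter by `pvup_iter_P_le`, quenched bounds by `pvup_iter_E_quenched`).

THE CUT (level 1; ROAD-BLIND glue = `pvxp_glue`, proved here):
* (A6)    `exit_pins_a6`     GATE DENSITY of 281 (`origin/helper281:notes/R289/A6_281.md`, THEOREM A6) in family-free form, on the plain two-level space: whp every sub-arc of diameter `≥ r` of every rim of every completion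
                             carries a vertex within `h` of an UNFLAGGED grid centre with gates (colour of the rim) in the `g` FIXED annuli.      The flags are ARBITRARY static local events of small probability.      [281 200 89]
* (FINE)  `pvxp_fine`        the mesh, PROVED (161: `l9_fine_prob`).      (NEAR)  `pvxp_near`  no `(k₁ δ_m, k₂ h_m)` near return of a rim centred in `clB(x,3R)`, PROVED from `PvNearExit` (`armt_near`).
* (TRAP)  hypothesis `hTrap` of the glue: a pin of the road is a pin of S6b, deterministic.      Road E: PROVED by 276 (`pvpt_pins_ok`, `Tr/PinTrap.lean`).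
* (DI)    hypothesis `hDI` of the glue: off an exceptional event `Ex` (small in the ordered limit; it MAY mention the rims: mesh, rim near returns = ruling 13 (4) of 234):
                             gates + no flag + the rim passes within `h` of the centre ⟹ a pin of the road whose marked vertex is joined to the passage inside `B(z, L h)`.      Road E: `exit_pins_roadE`  [cut by 121 in `Exit/PinsE.lean`].
* TRIMMING `pvxp_trim` (proved): the marked vertex of the pin falls inside the given sub-arc.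
ROAD E (187, `Defs/TrModel.lean`): `pvxp_mainE` = `exit_pvx_pins0` of ruling T2 (24).
-/

set_option autoImplicit false

namespace Claimed.Agent.R289

open MeasureTheory Filter Topology Set Claims.C0465
open scoped ENNReal

/-! ## 0. ordered limits of upper probabilities -/

section small

variable {Ω : Type}

/-- the events `A m ε` are negligible in the ordered limit (`ε ↓ 0`, then `m → ∞`) for the upper probabilities `U ε` -/
def PvxpSmall (U : ℝ → PvUp Ω) (A : ℕ → ℝ → Set Ω) : Prop := PvhbOrd fun m ε => ((U ε).P (A m ε)).toReal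

theorem PvxpSmall.mono_ev {U : ℝ → PvUp Ω} {A B : ℕ → ℝ → Set Ω} (hB : PvxpSmall U B)
    (h : ∀ᶠ m in atTop, ∀ᶠ ε in 𝓝[>] (0 : ℝ), A m ε ⊆ B m ε) : PvxpSmall U A := by
  intro η hη
  filter_upwards [hB η hη, h] with m h1 h2
  filter_upwards [h1, h2] with ε a1 a2
  exact (ENNReal.toReal_mono ((U ε).P_ne_top _) ((U ε).P_mono a2)).trans a1

theorem PvxpSmall.mono {U : ℝ → PvUp Ω} {A B : ℕ → ℝ → Set Ω} (hB : PvxpSmall U B) (h : ∀ m ε, A m ε ⊆ B m ε) : PvxpSmall U A :=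
  hB.mono_ev (Eventually.of_forall fun m => Eventually.of_forall fun ε => h m ε)

theorem PvxpSmall.union {U : ℝ → PvUp Ω} {A B : ℕ → ℝ → Set Ω} (hA : PvxpSmall U A) (hB : PvxpSmall U B) : PvxpSmall U fun m ε => A m ε ∪ B m ε := by
  refine (PvhbOrd.add hA hB).mono fun m ε => ?_
  rw [← ENNReal.toReal_add ((U ε).P_ne_top _) ((U ε).P_ne_top _)]
  exact ENNReal.toReal_mono (ENNReal.add_ne_top.2 ⟨(U ε).P_ne_top _, (U ε).P_ne_top _⟩) ((U ε).P_union_le _ _)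

/-- a bound by numbers which are small in the ordered limit, valid eventually -/
theorem PvxpSmall.of_le {U : ℝ → PvUp Ω} {A : ℕ → ℝ → Set Ω} {p : ℕ → ℝ → ℝ} (hp : PvhbOrd p)
    (h : ∀ᶠ m in atTop, ∀ᶠ ε in 𝓝[>] (0 : ℝ), ((U ε).P (A m ε)).toReal ≤ p m ε) : PvxpSmall U A := by
  intro η hη
  filter_upwards [hp η hη, h] with m h1 h2
  filter_upwards [h1, h2] with ε a1 a2
  exact a2.trans a1

/-- change of sample space: `π : Ω' → Ω` does not increase upper probabilities -/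
theorem PvxpSmall.comap {Ω' : Type} {U : ℝ → PvUp Ω} {U' : ℝ → PvUp Ω'} {A : ℕ → ℝ → Set Ω} (hA : PvxpSmall U A) (π : Ω' → Ω)
    (hπ : ∀ ε (E : Set Ω), (U' ε).P (π ⁻¹' E) ≤ (U ε).P E) : PvxpSmall U' fun m ε => π ⁻¹' A m ε :=
  PvhbOrd.mono hA fun m ε => ENNReal.toReal_mono ((U ε).P_ne_top _) (hπ ε _)

/-- numbers which tend to `0` with the level -/
theorem pvxp_ord_of_lim {b : ℕ → ℝ} (hb : Tendsto b atTop (𝓝 0)) : PvhbOrd fun m _ => b m :=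
  fun _ hη => (hb.eventually (gt_mem_nhds hη)).mono fun _ hm => Eventually.of_forall fun _ => le_of_lt hm

end small

/-! ## 1. the target;  trimming -/

/-- **THE TARGET** = field `pinsOK` (H1) of `PvhbLoc`, for upper expectations -/
def PvxpOK {Ω τ : Type} (𝔐 : PvbMenu τ) (h r : ℕ → ℝ) (U : ℝ → PvUp Ω) (rims : Ω → Set PvbRim) (pins : ℕ → ℝ → Ω → PvbRim → Set (PvbPin τ)) (x : ℂ) (R : ℝ) : Prop :=
  PvhbOrd (fun m ε => ((U ε).P {o | ¬ ∀ P ∈ rims o,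
    (∀ s ∈ pins m ε o P, PvbIsPin 𝔐 (h m) P s ∧ ∃ p : ℤ × ℤ, s.ctr = l9Pt (h m) p) ∧
    (∀ i i', i ≤ i' → i' ≤ P.len → (∀ k, i ≤ k → k ≤ i' → ‖P.v k - x‖ ≤ 2 * R) → r m ≤ ‖P.v i' - P.v i‖ → ∃ s ∈ pins m ε o P, i ≤ s.idx ∧ s.idx ≤ i')}).toReal)

/-- **TRIMMING**: a walk with steps `≤ μ` from `v i` to `v i'` contains a sub-walk which stays at distance `> d` from both ends and loses only `2 (d + μ)` of the displacement -/
theorem pvxp_trim (v : ℕ → ℂ) {i i' : ℕ} (hii : i ≤ i') {d μ r r' : ℝ} (hd : 0 ≤ d) (hμ : 0 ≤ μ) (hstep : ∀ t, i ≤ t → t < i' → ‖v (t + 1) - v t‖ ≤ μ)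
    (hr : r ≤ ‖v i' - v i‖) (hrr : 2 * (d + μ) + r' ≤ r) (hr' : 0 < r') :
    ∃ j j', i ≤ j ∧ j ≤ j' ∧ j' ≤ i' ∧ r' ≤ ‖v j' - v j‖ ∧ ∀ k, j ≤ k → k ≤ j' → d < ‖v k - v i‖ ∧ d < ‖v k - v i'‖ := by
  classical
  -- `S` = the indices of `[i,i']` within `d` of the start
  let S := (Finset.Icc i i').filter fun k => ‖v k - v i‖ ≤ d
  have hS : S.Nonempty := ⟨i, Finset.mem_filter.2 ⟨Finset.mem_Icc.2 ⟨le_rfl, hii⟩, by simpa using hd⟩⟩
  set i0 := S.max' hS with hi0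
  have hi0m : i0 ∈ S := S.max'_mem hS
  obtain ⟨h0a, h0b⟩ := Finset.mem_filter.1 hi0m
  obtain ⟨h0i, h0i'⟩ := Finset.mem_Icc.1 h0a
  have hlast : ∀ k, i0 < k → k ≤ i' → d < ‖v k - v i‖ := by
    intro k h1 h2
    by_contra hcon
    have : k ∈ S := Finset.mem_filter.2 ⟨Finset.mem_Icc.2 ⟨by omega, h2⟩, not_lt.1 hcon⟩
    exact absurd (S.le_max' k this) (by omega)
  have hne : i0 ≠ i' := by
    intro e
    rw [e] at h0b
    linarith
  have hlt : i0 < i' := lt_of_le_of_ne h0i' hne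
  have hj1 : ‖v (i0 + 1) - v i‖ ≤ d + μ := by
    calc ‖v (i0 + 1) - v i‖ = ‖(v i0 - v i) + (v (i0 + 1) - v i0)‖ := by ring_nf
      _ ≤ ‖v i0 - v i‖ + ‖v (i0 + 1) - v i0‖ := norm_add_le _ _
      _ ≤ d + μ := add_le_add h0b (hstep i0 h0i hlt)
  -- the first index after `i0` near the end
  let S' := (Finset.Icc (i0 + 1) i').filter fun k => ‖v k - v i'‖ ≤ d
  have hS' : S'.Nonempty := ⟨i', Finset.mem_filter.2 ⟨Finset.mem_Icc.2 ⟨hlt, le_rfl⟩, by simpa using hd⟩⟩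
  set i2 := S'.min' hS' with hi2
  have hi2m : i2 ∈ S' := S'.min'_mem hS'
  obtain ⟨h2a, h2b⟩ := Finset.mem_filter.1 hi2m
  obtain ⟨h2i, h2i'⟩ := Finset.mem_Icc.1 h2a
  have hfirst : ∀ k, i0 + 1 ≤ k → k < i2 → d < ‖v k - v i'‖ := by
    intro k h1 h2
    by_contra hcon
    have : k ∈ S' := Finset.mem_filter.2 ⟨Finset.mem_Icc.2 ⟨h1, by omega⟩, not_lt.1 hcon⟩
    exact absurd (S'.min'_le k this) (by omega)
  have htri : ‖v i' - v i‖ ≤ ‖v (i0 + 1) - v i'‖ + ‖v (i0 + 1) - v i‖ := by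
    calc ‖v i' - v i‖ = ‖-(v (i0 + 1) - v i') + (v (i0 + 1) - v i)‖ := by ring_nf
      _ ≤ ‖-(v (i0 + 1) - v i')‖ + ‖v (i0 + 1) - v i‖ := norm_add_le _ _
      _ = _ := by rw [norm_neg]
  have hne2 : i2 ≠ i0 + 1 := by
    intro e
    rw [e] at h2b
    linarith
  have hlt2 : i0 + 1 < i2 := lt_of_le_of_ne h2i (Ne.symm hne2)
  obtain ⟨j', hj'⟩ : ∃ j', i2 = j' + 1 := ⟨i2 - 1, by omega⟩
  have hj2 : ‖v j' - v i'‖ ≤ d + μ := by
    have hs := hstep j' (by omega) (by omega)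
    rw [← hj'] at hs
    calc ‖v j' - v i'‖ = ‖(v i2 - v i') + -(v i2 - v j')‖ := by ring_nf
      _ ≤ ‖v i2 - v i'‖ + ‖-(v i2 - v j')‖ := norm_add_le _ _
      _ ≤ d + μ := by rw [norm_neg]; exact add_le_add h2b hs
  refine ⟨i0 + 1, j', by omega, by omega, by omega, ?_, fun k h1 h2 => ⟨hlast k (by omega) (by omega), hfirst k h1 (by omega)⟩⟩
  have : ‖v i' - v i‖ ≤ ‖v j' - v i'‖ + ‖v j' - v (i0 + 1)‖ + ‖v (i0 + 1) - v i‖ := by
    calc ‖v i' - v i‖ = ‖-(v j' - v i') + (v j' - v (i0 + 1)) + (v (i0 + 1) - v i)‖ := by ring_nf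
      _ ≤ ‖-(v j' - v i') + (v j' - v (i0 + 1))‖ + ‖v (i0 + 1) - v i‖ := norm_add_le _ _
      _ ≤ ‖-(v j' - v i')‖ + ‖v j' - v (i0 + 1)‖ + ‖v (i0 + 1) - v i‖ := by gcongr; exact norm_add_le _ _
      _ = _ := by rw [norm_neg]
  linarith

/-! ## 2. the mesh      (sample space of record: `q : PvGeoT × PvColT`, `ω = pvMerge q`, upper expectation `pvhbUp ε` of `Tr/Hub.lean`, rims `pvhbAll x R ω`) -/

/-- closed, far, mesh for ALL rims of ALL completions on the fine event -/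
theorem pvxp_all_mesh {x : ℂ} {R μ : ℝ} (hR : 0 < R) (hμ : μ ≤ R) {ω : PVSample} (hF : L9Fine (pvxY ω) (Metric.closedBall x (6 * R)) μ) {P : PvbRim} (hP : P ∈ pvhbAll x R ω) :
    P.v P.len = P.v 0 ∧ 4 * R ≤ ‖P.v 0 - x‖ ∧ ∀ k < P.len, (‖P.v k - x‖ ≤ 5 * R ∨ ‖P.v (k + 1) - x‖ ≤ 5 * R) → ‖P.v (k + 1) - P.v k‖ ≤ μ := by
  obtain ⟨X, hX, 𝔅, ξ, -, hOk, hP'⟩ := hP
  obtain ⟨h1, h2, h3, -⟩ := l9_enc_mesh 𝔅 hR hμ hOk hF hP'
  exact ⟨h1, h2, h3⟩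

/-- **(FINE)**: at every level the mesh is eventually finer than any prescribed `μ m > 0` -/
theorem pvxp_fine (x : ℂ) {R : ℝ} (hR : 0 < R) (μ : ℕ → ℝ) (hμ : ∀ m, 0 < μ m) :
    PvxpSmall pvhbUp fun m _ => {q | ¬ L9Fine (pvxY (pvMerge q)) (Metric.closedBall x (6 * R)) (μ m)} := by
  have h1 : PvhbOrd fun m ε => (pvLaw ε {o | ¬ L9Fine (cfSites (pvConf o)) (Metric.closedBall x (6 * R)) (μ m)}).toReal :=
    PvhbOrd.of_tendsto fun m => (pvhb_tendsto_iff _ _).2 fun es h0 he => l9_fine_prob es h0 he x hR (hμ m)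
  refine PvhbOrd.mono h1 fun m ε => ?_
  have h2 := pvhb_up_P_law ε {o | ¬ L9Fine (cfSites (pvConf o)) (Metric.closedBall x (6 * R)) (μ m)}
  exact ENNReal.toReal_mono (measure_ne_top _ _) h2

/-! ## 2b. rim near returns      (exceptional event of (DI): ruling 13 (4) of 234, cure of 150) -/

/-- **RECENTRING**: the interface `PvNearExit.det` of ARM has its centres in `clB(x,2R)`; applied at the ball `(x', R/2)`, `x' = x + (2/3)(y - x)`, it serves all the centres of `clB(x,3R)` -/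
theorem pvxp_near_det {c₁ : ℝ} (N : PvNearExit c₁) {x y : ℂ} {R s S : ℝ} (hR : 0 < R) (hy : ‖y - x‖ ≤ 3 * R) (hs : 0 < s) (hsS : s ≤ S) (hSR : S ≤ R / 2)
    {ω : PVSample} {P : PvbRim} (hP : P ∈ pvhbAll x R ω) (h : PvbNearRet P y s S) : pvConf ω ∈ N.F y s S (R / 2) := by
  obtain ⟨X, _, 𝔅, ξ, hAdm, hOk, c, hc, h4, rfl⟩ := l9a_mem (show P ∈ l9All x R ω from hP)
  obtain ⟨x', hx'def⟩ : ∃ x' : ℂ, x' = x + ((2 / 3 : ℝ) : ℂ) * (y - x) := ⟨_, rfl⟩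
  have e1 : x' - x = ((2 / 3 : ℝ) : ℂ) * (y - x) := by rw [hx'def]; ring
  have e2 : y - x' = ((1 / 3 : ℝ) : ℂ) * (y - x) := by rw [hx'def]; push_cast; ring
  have hx' : ‖x' - x‖ ≤ 2 * R := by
    rw [e1, norm_mul, Complex.norm_real, Real.norm_of_nonneg (by norm_num)]
    linarith
  have hyx' : ‖y - x'‖ ≤ R := by
    rw [e2, norm_mul, Complex.norm_real, Real.norm_of_nonneg (by norm_num)]
    linarith
  have hsub : Metric.closedBall x' (6 * (R / 2)) ⊆ Metric.closedBall x (6 * R) := by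
    intro w hw
    rw [mem_closedBall_iff_norm] at hw ⊢
    calc ‖w - x‖ = ‖(w - x') + (x' - x)‖ := by ring_nf
      _ ≤ ‖w - x'‖ + ‖x' - x‖ := norm_add_le _ _
      _ ≤ 6 * R := by linarith
  have hOk' : 𝔅.Ok (cfSites (pvConf ω)) (Metric.closedBall x' (6 * (R / 2))) :=
    ⟨hOk.sph, hOk.simple, hOk.inj, hOk.site, fun a b c ht ha => hOk.face a b c ht (hsub ha), fun d a hd ha => hOk.del d a hd (hsub ha), hOk.emb⟩
  have n7 : ∀ r : ℝ, 0 ≤ r → ‖(7 : ℂ) * (r : ℂ)‖ = 7 * r := fun r hr => by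
    rw [norm_mul, Complex.norm_real, Real.norm_of_nonneg hr]; simp
  -- positions in the two encodings
  have hpos : ∀ v : 𝔅.V (cfSites (pvConf ω)), (∃ a, 𝔅.lab (cfSites (pvConf ω)) v = Sum.inl a ∧ 𝔅.posF (cfSites (pvConf ω)) (x + 7 * R) v = a ∧ 𝔅.posF (cfSites (pvConf ω)) (x' + 7 * ((R / 2 : ℝ) : ℂ)) v = a) ∨
      (𝔅.posF (cfSites (pvConf ω)) (x + 7 * R) v = x + 7 * R ∧ 𝔅.posF (cfSites (pvConf ω)) (x' + 7 * ((R / 2 : ℝ) : ℂ)) v = x' + 7 * ((R / 2 : ℝ) : ℂ)) := by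
    intro v
    unfold PvBulk.posF
    rcases hl : 𝔅.lab (cfSites (pvConf ω)) v with a | b
    · exact Or.inl ⟨a, rfl, rfl, rfl⟩
    · exact Or.inr ⟨rfl, rfl⟩
  have far1 : 4 * R ≤ ‖x + 7 * (R : ℂ) - y‖ := by
    have : ‖(7 : ℂ) * (R : ℂ)‖ ≤ ‖x + 7 * (R : ℂ) - y‖ + ‖y - x‖ := by
      calc ‖(7 : ℂ) * (R : ℂ)‖ = ‖(x + 7 * (R : ℂ) - y) + (y - x)‖ := by ring_nf
        _ ≤ _ := norm_add_le _ _
    rw [n7 R hR.le] at this
    linarith
  have far2 : 5 / 2 * R ≤ ‖x' + 7 * ((R / 2 : ℝ) : ℂ) - y‖ := by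
    have : ‖(7 : ℂ) * ((R / 2 : ℝ) : ℂ)‖ ≤ ‖x' + 7 * ((R / 2 : ℝ) : ℂ) - y‖ + ‖y - x'‖ := by
      calc ‖(7 : ℂ) * ((R / 2 : ℝ) : ℂ)‖ = ‖(x' + 7 * ((R / 2 : ℝ) : ℂ) - y) + (y - x')‖ := by ring_nf
        _ ≤ _ := norm_add_le _ _
    rw [n7 (R / 2) (by linarith)] at this
    linarith
  refine N.det X 𝔅 (pvConf ω) ξ x' y s S (R / 2) (by linarith) hs hsS hSR hAdm hOk' (𝔅.enc (cfSites (pvConf ω)) (x' + 7 * ((R / 2 : ℝ) : ℂ)) c) ⟨c, hc, ?_, rfl⟩ ?_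
  · rcases hpos ((𝔅.T (cfSites (pvConf ω))).src (c.e 0)) with ⟨a, -, ha1, ha2⟩ | ⟨-, hb⟩
    · rw [ha2]
      rw [ha1] at h4
      have : ‖a - x‖ ≤ ‖a - x'‖ + ‖x' - x‖ := by
        calc ‖a - x‖ = ‖(a - x') + (x' - x)‖ := by ring_nf
          _ ≤ _ := norm_add_le _ _
      linarith
    · rw [hb, add_sub_cancel_left, n7 (R / 2) (by linarith)]
      linarith
  · obtain ⟨k, i, k', h1, h2, h3, hk, hk', hi⟩ := h
    have hv : ∀ j, (𝔅.enc (cfSites (pvConf ω)) (x + 7 * R) c).v j = 𝔅.posF (cfSites (pvConf ω)) (x + 7 * R) ((𝔅.T (cfSites (pvConf ω))).src (c.e j)) := fun _ => rfl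
    have hv' : ∀ j, (𝔅.enc (cfSites (pvConf ω)) (x' + 7 * ((R / 2 : ℝ) : ℂ)) c).v j = 𝔅.posF (cfSites (pvConf ω)) (x' + 7 * ((R / 2 : ℝ) : ℂ)) ((𝔅.T (cfSites (pvConf ω))).src (c.e j)) := fun _ => rfl
    have near : ∀ j, ‖(𝔅.enc (cfSites (pvConf ω)) (x + 7 * R) c).v j - y‖ ≤ s → ‖(𝔅.enc (cfSites (pvConf ω)) (x' + 7 * ((R / 2 : ℝ) : ℂ)) c).v j - y‖ ≤ s := by
      intro j hj
      rw [hv] at hj
      rw [hv']
      rcases hpos ((𝔅.T (cfSites (pvConf ω))).src (c.e j)) with ⟨a, -, ha1, ha2⟩ | ⟨hb, -⟩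
      · rwa [ha2, ← ha1]
      · rw [hb] at hj
        linarith
    refine ⟨k, i, k', h1, h2, h3, near k hk, near k' hk', ?_⟩
    rw [hv] at hi
    rw [hv']
    rcases hpos ((𝔅.T (cfSites (pvConf ω))).src (c.e i)) with ⟨a, -, ha1, ha2⟩ | ⟨-, hb⟩
    · rwa [ha2, ← ha1]
    · rw [hb]
      linarith

/-- near return at ONE centre of `clB(x,3R)` -/
theorem pvxp_near_one {c₁ : ℝ} (N : PvNearExit c₁) (x y : ℂ) {R s S : ℝ} (hR : 0 < R) (hy : ‖y - x‖ ≤ 3 * R) (hs : 0 < s) (hsS : s ≤ S) (hSR : S ≤ R / 2) :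
    ∀ᶠ ε in 𝓝[>] (0 : ℝ), ((pvhbUp ε).P {q | ∃ P ∈ pvhbAll x R (pvMerge q), PvbNearRet P y s S}).toReal ≤ max N.C 1 * (s / S) ^ (2 + c₁) * (S / (R / 2)) ^ c₁ := by
  refine (pvhb_eventually_iff _).2 fun es h0 he => ?_
  filter_upwards [pvxa_near_le N le_rfl es h0 he y s S (R / 2) hs hsS hSR] with n hn
  refine le_trans (ENNReal.toReal_mono (measure_ne_top _ _) ?_) hn
  refine le_trans ((pvhbUp (es n)).P_mono ?_) (pvhb_up_P_conf (es n) (N.F y s S (R / 2)))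
  rintro q ⟨P, hP, hnr⟩
  exact pvxp_near_det N hR hy hs hsS hSR hP hnr

/-- near return at SOME centre of `clB(x,3R)`: union bound over the net of 236 -/
theorem pvxp_near_union {c₁ : ℝ} (N : PvNearExit c₁) (x : ℂ) {R s S : ℝ} (hR : 0 < R) (hs : 0 < s) (hsS : 6 * s ≤ S) (hSR : S ≤ R) :
    ∀ᶠ ε in 𝓝[>] (0 : ℝ), ((pvhbUp ε).P {q | ∃ P ∈ pvhbAll x R (pvMerge q), ∃ w, ‖w - x‖ ≤ 3 * R ∧ PvbNearRet P w s S}).toReal ≤
      49 * (3 * R / 2 / s) ^ 2 * (max N.C 1 * (3 * s / (S / 2)) ^ (2 + c₁) * (S / 2 / (R / 2)) ^ c₁) := by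
  have hsR : s ≤ 3 * R / 2 := by linarith
  set p : ℝ := max N.C 1 * (3 * s / (S / 2)) ^ (2 + c₁) * (S / 2 / (R / 2)) ^ c₁ with hp
  have hp0 : 0 ≤ p := by
    have : (0 : ℝ) ≤ max N.C 1 := le_trans zero_le_one (le_max_right _ _)
    have hS : 0 < S := by linarith
    positivity
  have h1 : ∀ y ∈ pvtvNet x (3 * R / 2) s, ∀ᶠ ε in 𝓝[>] (0 : ℝ), ((pvhbUp ε).P {q | ∃ P ∈ pvhbAll x R (pvMerge q), PvbNearRet P y (3 * s) (S / 2)}).toReal ≤ p :=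
    fun y hy => pvxp_near_one N x y hR (by have := pvtv_net_in hy; linarith) (by positivity) (by linarith) (by linarith)
  filter_upwards [(Filter.eventually_all_finset _).2 h1] with ε hε
  have hsub : {q | ∃ P ∈ pvhbAll x R (pvMerge q), ∃ w, ‖w - x‖ ≤ 3 * R ∧ PvbNearRet P w s S} ⊆
      ⋃ y ∈ pvtvNet x (3 * R / 2) s, {q | ∃ P ∈ pvhbAll x R (pvMerge q), PvbNearRet P y (3 * s) (S / 2)} := by
    rintro q ⟨P, hP, w, hw, hnr⟩
    obtain ⟨y, hy, hy2⟩ := pvtv_nr_net (x := x) (R := 3 * R / 2) hs hsR (by linarith) (by linarith) hnr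
    exact Set.mem_biUnion hy ⟨P, hP, hy2⟩
  have h2 := ((pvhbUp ε).P_mono hsub).trans ((pvhbUp ε).P_biUnion_le (pvtvNet x (3 * R / 2) s) fun y => {q | ∃ P ∈ pvhbAll x R (pvMerge q), PvbNearRet P y (3 * s) (S / 2)})
  have h3 := ENNReal.toReal_mono (ENNReal.sum_ne_top.2 fun y _ => (pvhbUp ε).P_ne_top _) h2
  rw [ENNReal.toReal_sum fun y _ => (pvhbUp ε).P_ne_top _] at h3
  calc _ ≤ _ := h3
    _ ≤ ∑ _y ∈ pvtvNet x (3 * R / 2) s, p := Finset.sum_le_sum hε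
    _ = ((pvtvNet x (3 * R / 2) s).card : ℝ) * p := by rw [Finset.sum_const, nsmul_eq_mul]
    _ ≤ 49 * (3 * R / 2 / s) ^ 2 * p := mul_le_mul_of_nonneg_right (pvtv_net_card hs hsR) hp0

/-- **(NEAR)**: in the ordered limit no rim of any completion has a `(k₁ δ_m, k₂ h_m)` near return centred in `clB(x,3R)`      (arm exponent `c₁ > 0` FREE: the scales of record are super-polynomial, ruling 13 (1)) -/
theorem pvxp_near {c₁ : ℝ} (h1 : 0 < c₁) (N : PvNearExit c₁) {c : ℝ} (c0 : 0 < c) (x : ℂ) {R : ℝ} (hR : 0 < R) {k1 k2 : ℝ} (hk1 : 0 < k1) (hk2 : 0 < k2) :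
    PvxpSmall pvhbUp fun m _ => {q | ∃ P ∈ pvhbAll x R (pvMerge q), ∃ w, ‖w - x‖ ≤ 3 * R ∧ PvbNearRet P w (k1 * pvlmDel c m) (k2 * pvlmH m)} := by
  have hz := (pvlm_zeta_lim_any c0 h1 (max N.C 1) R hk1 hk2 hR).const_mul (9 / 4 * (2 : ℝ) ^ c₁)
  rw [mul_zero] at hz
  have hδ : Tendsto (fun m => 6 * k1 * (pvlmDel c m * pvlmH m ^ (-(1 : ℝ)))) atTop (𝓝 0) := by
    have := pvlm_Del_beats_any c0 (c1 := 1) one_pos (6 * k1) 1
    simpa using this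
  have hh : Tendsto (fun m => k2 * pvlmH m) atTop (𝓝 0) := by simpa using pvlm_H_lim.const_mul k2
  intro η hη
  filter_upwards [hz.eventually (gt_mem_nhds hη), hδ.eventually (ge_mem_nhds hk2), hh.eventually (ge_mem_nhds hR)] with m hm1 hm2 hm3
  have hH := pvlm_H_pos m
  have hD := pvlm_Del_pos c m
  have h6 : 6 * (k1 * pvlmDel c m) ≤ k2 * pvlmH m := by
    rw [Real.rpow_neg_one] at hm2
    have : 6 * k1 * (pvlmDel c m * (pvlmH m)⁻¹) * pvlmH m ≤ k2 * pvlmH m := mul_le_mul_of_nonneg_right hm2 hH.le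
    have e : 6 * k1 * (pvlmDel c m * (pvlmH m)⁻¹) * pvlmH m = 6 * (k1 * pvlmDel c m) := by field_simp
    linarith
  filter_upwards [pvxp_near_union N x hR (s := k1 * pvlmDel c m) (S := k2 * pvlmH m) (by positivity) h6 hm3] with ε hε
  refine hε.trans (le_trans (le_of_eq ?_) hm1.le)
  unfold pvtvZeta
  have e2 : k2 * pvlmH m / 2 / (R / 2) = 2 * (k2 * pvlmH m / 2 / R) := by field_simp
  rw [e2, Real.mul_rpow (by norm_num) (by positivity)]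
  have e3 : (3 * R / 2 / (k1 * pvlmDel c m)) ^ 2 = 9 / 4 * (R / (k1 * pvlmDel c m)) ^ 2 := by field_simp; ring
  rw [e3]
  ring

theorem pvxp_nearret_mono {P : PvbRim} {y : ℂ} {s s' S : ℝ} (hs : s ≤ s') (h : PvbNearRet P y s S) : PvbNearRet P y s' S := by
  obtain ⟨k, i, k', h1, h2, h3, h4, h5, h6⟩ := h
  exact ⟨k, i, k', h1, h2, h3, h4.trans hs, h5.trans hs, h6⟩

/-- **near returns at ANY prescribed small scale** `s m ≤ cap m` against `h_m`      (= `exit_pinsE_near` of 121, `Exit/PinsE.lean`, up to the unfolding `pvpj_all_eq`) -/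
theorem pvxp_near_cap (x : ℂ) (R : ℝ) (hR : 0 < R) (cap : ℕ → ℝ) (hcap : ∀ m, 0 < cap m) :
    ∃ s : ℕ → ℝ, (∀ m, 0 < s m ∧ s m ≤ cap m) ∧
      PvxpSmall pvhbUp fun m _ => {q | ∃ P ∈ pvhbAll x R (pvMerge q), ∃ w : ℂ, ‖w - x‖ ≤ 3 * R ∧ PvbNearRet P w (s m) (pvlmH m)} := by
  obtain ⟨c₁, h1, ⟨N⟩⟩ := armt_near
  refine ⟨fun m => min (pvlmDel 1 m) (cap m), fun m => ⟨lt_min (pvlm_Del_pos _ m) (hcap m), min_le_right _ _⟩, ?_⟩
  refine (pvxp_near h1 N (c := 1) one_pos x hR (k1 := 1) (k2 := 1) one_pos one_pos).mono fun m _ q hq => ?_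
  obtain ⟨P, hP, w, hw, hnr⟩ := hq
  refine ⟨P, hP, w, hw, ?_⟩
  rw [one_mul, one_mul]
  exact pvxp_nearret_mono (min_le_left _ _) hnr

/-! ## 3. (A6): vocabulary and exit -/

/-- the numbers of A6, in units of `h`: `g` FIXED gate annuli `[a j, b j]` (buffers included), side `L` of the blocks -/
structure PvxpNum where
  g : ℕ
  a : ℕ → ℝ
  b : ℕ → ℝ
  L : ℝ

/-- `a0` = the smallest inner radius, `S` = the smallest ratio between consecutive radii, `g0` = the number of gates wanted by the road -/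
structure PvxpNum.Wf (𝔑 : PvxpNum) (a0 S : ℝ) (g0 : ℕ) : Prop where
  g_ge : g0 ≤ 𝔑.g
  a_ge : ∀ j < 𝔑.g, a0 ≤ 𝔑.a j
  ab : ∀ j < 𝔑.g, S * 𝔑.a j ≤ 𝔑.b j
  nest : ∀ j, j + 1 < 𝔑.g → S * 𝔑.b j ≤ 𝔑.a (j + 1)
  bL : ∀ j < 𝔑.g, S * 𝔑.b j ≤ 𝔑.L

/-- **GATE OF A6 AT THE PLANE MAP OF THE SAMPLE** for rims of colour `c`: a face set between the faces which meet `clB(z,ρ₁)` and the faces which meet `clB(z,ρ₂)`, all of whose boundary vertices have the other colour, two excepted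
(`PvgGate` of 190;   = `PvdaGate` of 212 in the vocabulary of 187: `pvxCol ω c v = true` iff the site `v` has the colour `c`) -/
def PvxpGate (ω : PVSample) (c : Bool) (z : ℂ) (ρ₁ ρ₂ : ℝ) : Prop :=
  DelGood (pvxY ω) ∧ ∃ G X, PvgGate (pvxT ω) (pvxCol ω c) true (pvdiB (pvxT ω) (pvxPos ω) z ρ₁) (pvdiB (pvxT ω) (pvxPos ω) z ρ₂) G X

/-- **STATIC LOCAL FLAGS**: `Flag m p` = an ARBITRARY set of configurations of the marked Poisson process (no measurability: `pvtd_hull`, `pvtd_outer_prod` of 101) attached to the centre `l9Pt (h m) p`,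
read from the sites in the `h m`-boxes at sup-distance `≤ w` of the box `p`, of OUTER probability `≤ ζ` in the ordered limit, uniformly over the centres of any fixed ball -/
structure PvxpFlag (h : ℕ → ℝ) (w : ℕ) (ζ : ℝ≥0∞) (Flag : ℕ → ℤ × ℤ → Set (Conf PvPt)) : Prop where
  reads : ∀ m p, Conf.ReadsSet (pvtdWin (h m) w p) (Flag m p)
  small : ∀ (x : ℂ) (R : ℝ), ∀ᶠ m in atTop, ∀ᶠ ε in 𝓝[>] (0 : ℝ), ∀ p, ‖l9Pt (h m) p - x‖ ≤ R → pvP ε (Flag m p) ≤ ζ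

/-- **the conclusion of A6 for one encoded rim**: every sub-arc inside `clB(x,2R)` with end points at distance `≥ r` has a vertex within `h` of an unflagged grid centre which carries the `g` gates of the colour of the rim -/
def PvxpA6At (𝔑 : PvxpNum) (h r : ℝ) (x : ℂ) (R : ℝ) (ω : PVSample) (Fl : ℤ × ℤ → Prop) (P : PvbRim) : Prop :=
  ∀ i i', i ≤ i' → i' ≤ P.len → (∀ k, i ≤ k → k ≤ i' → ‖P.v k - x‖ ≤ 2 * R) → r ≤ ‖P.v i' - P.v i‖ →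
    ∃ (k : ℕ) (p : ℤ × ℤ), i ≤ k ∧ k ≤ i' ∧ ‖P.v k - l9Pt h p‖ ≤ h ∧ ¬ Fl p ∧
      ∀ j < 𝔑.g, PvxpGate ω (cfCol (pvConf ω) (P.v k)) (l9Pt h p) (𝔑.a j * h) (𝔑.b j * h)

/-- the exceptional event of A6 -/
def pvxpA6Bad (𝔑 : PvxpNum) (h r : ℝ) (x : ℂ) (R : ℝ) (Fl : ℤ × ℤ → Set (Conf PvPt)) : Set (PvGeoT × PvColT) :=
  {q | ¬ ∀ P ∈ pvhbAll x R (pvMerge q), PvxpA6At 𝔑 h r x R (pvMerge q) (fun p => pvConf (pvMerge q) ∈ Fl p) P}

/-- **EXIT (A6)** = THEOREM A6 of `origin/helper281:notes/R289/A6_281.md` (gate density without `α₄`), family-free, two-level.      = `pvx2_a6` of `Exit/PinsA6.lean` (200 + 281): glue PROVED there over the core of A6 `exit_pvx2_core`.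
ORDER OF THE CONSTANTS: the road asks `a0 S g0` and the range `Cw` of its flags IN UNITS OF THE BLOCK SIDE;  A6 answers `𝔑`, `ζ`;  the road builds flags of range `w ≤ Cw 𝔑.L` and probability `≤ ζ`. -/
theorem exit_pins_a6 (a0 S : ℝ) (g0 Cw : ℕ) : ∃ 𝔑 : PvxpNum, 𝔑.Wf a0 S g0 ∧ 1 ≤ 𝔑.L ∧ ∃ ζ : ℝ≥0∞, 0 < ζ ∧ ∀ w : ℕ, (w : ℝ) ≤ Cw * 𝔑.L →
    ∀ (h r : ℕ → ℝ) (κ : ℝ), 0 < κ → (∀ m, 0 < h m) → Tendsto h atTop (𝓝 0) → (∀ᶠ m in atTop, h m ^ (1 - κ) ≤ r m) →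
    ∀ Flag : ℕ → ℤ × ℤ → Set (Conf PvPt), PvxpFlag h w ζ Flag → ∀ (x : ℂ) (R : ℝ), 0 < R →
      PvxpSmall pvhbUp fun m _ => pvxpA6Bad 𝔑 (h m) (r m) x R (Flag m) := by
  obtain ⟨a, b, L, ζ, hL, hζ, h1, h2, H⟩ := pvx2_a6 a0 S g0 Cw
  refine ⟨⟨g0, a, b, L⟩, ⟨le_rfl, fun j hj => (h1 j hj).1, fun j hj => (h1 j hj).2.1, h2, fun j hj => (h1 j hj).2.2⟩, by show (1 : ℝ) ≤ (L : ℝ); exact_mod_cast hL, ζ, hζ,
    fun w hw h r κ hκ h0 hlim hr Flag hFl x R hR => ?_⟩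
  have hw' : (w : ℝ) ≤ Cw * (L : ℝ) := hw
  exact H h r κ hκ h0 hlim hr w (by exact_mod_cast hw') (fun m _ => Flag m) (fun m _ p => hFl.reads m p) hFl.small x R hR

/-! ## 4. the road-blind glue -/

/-- **(TRAP) + (GRID) as consumed**: the pins of the road are pins of S6b and sit on the grid -/
def PvxpTrapH {τ : Type} (𝔐 : PvbMenu τ) (h : ℝ) (x : ℂ) (R : ℝ) (pins : PVSample → PvbRim → Set (PvbPin τ)) (ω : PVSample) : Prop :=
  ∀ P ∈ pvhbAll x R ω, ∀ s ∈ pins ω P, PvbIsPin 𝔐 h P s ∧ ∃ p : ℤ × ℤ, s.ctr = l9Pt h p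

/-- **(DI) as consumed**, at the sample `ω`: a vertex `P.v k` of a rim within `h` of an unflagged centre `z` with the `g` gates yields a pin of the road whose marked vertex is joined to `P.v k` by an arc of the rim inside `clB(z, L h)` -/
def PvxpDIH {τ : Type} (𝔑 : PvxpNum) (h : ℝ) (x : ℂ) (R : ℝ) (Fl : ℤ × ℤ → Set (Conf PvPt)) (pins : PVSample → PvbRim → Set (PvbPin τ)) (ω : PVSample) : Prop :=
  ∀ P ∈ pvhbAll x R ω, ∀ (k : ℕ) (p : ℤ × ℤ), k ≤ P.len → ‖P.v k - x‖ ≤ 2 * R → ‖P.v k - l9Pt h p‖ ≤ h →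
    pvConf ω ∉ Fl p → (∀ j < 𝔑.g, PvxpGate ω (cfCol (pvConf ω) (P.v k)) (l9Pt h p) (𝔑.a j * h) (𝔑.b j * h)) →
    ∃ s ∈ pins ω P, ∀ i, (s.idx ≤ i ∧ i ≤ k ∨ k ≤ i ∧ i ≤ s.idx) → ‖P.v i - l9Pt h p‖ ≤ 𝔑.L * h

/-- deterministic core of the glue -/
theorem pvxp_glue_det {τ : Type} {𝔐 : PvbMenu τ} {𝔑 : PvxpNum} {h r : ℝ} {x : ℂ} {R : ℝ} {Fl : ℤ × ℤ → Set (Conf PvPt)} {pins : PVSample → PvbRim → Set (PvbPin τ)}
    (hR : 0 < R) (hh : 0 < h) (hhR : h ≤ R) (hL : 0 ≤ 𝔑.L) (hrL : 4 * (𝔑.L + 3) * h ≤ r) {ω : PVSample}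
    (hTrap : PvxpTrapH 𝔐 h x R pins ω) (hDI : PvxpDIH 𝔑 h x R Fl pins ω)
    (hF : L9Fine (pvxY ω) (Metric.closedBall x (6 * R)) h) (hA : ∀ P ∈ pvhbAll x R ω, PvxpA6At 𝔑 h (r / 2) x R ω (fun p => pvConf ω ∈ Fl p) P) :
    ∀ P ∈ pvhbAll x R ω, (∀ s ∈ pins ω P, PvbIsPin 𝔐 h P s ∧ ∃ p : ℤ × ℤ, s.ctr = l9Pt h p) ∧
      (∀ i i', i ≤ i' → i' ≤ P.len → (∀ k, i ≤ k → k ≤ i' → ‖P.v k - x‖ ≤ 2 * R) → r ≤ ‖P.v i' - P.v i‖ → ∃ s ∈ pins ω P, i ≤ s.idx ∧ s.idx ≤ i') := by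
  intro P hP
  refine ⟨hTrap P hP, fun i i' hii hi' hin hfar => ?_⟩
  obtain ⟨-, -, hmesh⟩ := pvxp_all_mesh hR hhR hF hP
  have hLh : 0 ≤ 𝔑.L * h := mul_nonneg hL hh.le
  have hr0 : 0 < r := by nlinarith
  obtain ⟨j, j', hj, hjj, hj', hfar', hoff⟩ := pvxp_trim P.v hii (d := (𝔑.L + 1) * h) (μ := h) (r := r) (r' := r / 2) (by nlinarith) hh.le
    (fun t h1 h2 => hmesh t (by omega) (Or.inl ((hin t h1 h2.le).trans (by linarith)))) hfar (by nlinarith) (by linarith)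
  obtain ⟨k, p, hk1, hk2, hnear, hfl, hg⟩ := hA P hP j j' hjj (hj'.trans hi') (fun k h1 h2 => hin k (hj.trans h1) (h2.trans hj')) hfar'
  obtain ⟨s, hs, hcon⟩ := hDI P hP k p ((hk2.trans hj').trans hi') (hin k (hj.trans hk1) (hk2.trans hj')) hnear hfl hg
  obtain ⟨ho1, ho2⟩ := hoff k hk1 hk2
  have key : ∀ i₀, ‖P.v i₀ - l9Pt h p‖ ≤ 𝔑.L * h → ‖P.v k - P.v i₀‖ ≤ (𝔑.L + 1) * h := by
    intro i₀ h0
    calc ‖P.v k - P.v i₀‖ = ‖(P.v k - l9Pt h p) + -(P.v i₀ - l9Pt h p)‖ := by ring_nf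
      _ ≤ ‖P.v k - l9Pt h p‖ + ‖-(P.v i₀ - l9Pt h p)‖ := norm_add_le _ _
      _ ≤ h + 𝔑.L * h := by rw [norm_neg]; exact add_le_add hnear h0
      _ = (𝔑.L + 1) * h := by ring
  refine ⟨s, hs, ?_, ?_⟩
  · by_contra hlt
    have := key i (hcon i (Or.inl ⟨by omega, by omega⟩))
    linarith
  · by_contra hlt
    have := key i' (hcon i' (Or.inr ⟨by omega, by omega⟩))
    linarith

/-- **THE ROAD-BLIND GLUE**:   (A6) at the scale `r / 2`  +  (TRAP)  +  (DI) off a negligible event `Ex`  ⟹  `pinsOK` -/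
theorem pvxp_glue {τ : Type} (𝔐 : PvbMenu τ) (𝔑 : PvxpNum) (h r : ℕ → ℝ) (pins : ℕ → PVSample → PvbRim → Set (PvbPin τ)) (Flag : ℕ → ℤ × ℤ → Set (Conf PvPt))
    (x : ℂ) {R : ℝ} (hR : 0 < R) (hh : ∀ m, 0 < h m) (hlim : Tendsto h atTop (𝓝 0)) (hL : 0 ≤ 𝔑.L) (hrL : ∀ᶠ m in atTop, 4 * (𝔑.L + 3) * h m ≤ r m)
    (hA6 : PvxpSmall pvhbUp fun m _ => pvxpA6Bad 𝔑 (h m) (r m / 2) x R (Flag m))
    (Ex : ℕ → ℝ → Set (PvGeoT × PvColT)) (hEx : PvxpSmall pvhbUp Ex)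
    (hTrap : ∀ᶠ m in atTop, ∀ ε, ∀ q ∉ Ex m ε, PvxpTrapH 𝔐 (h m) x R (pins m) (pvMerge q))
    (hDI : ∀ᶠ m in atTop, ∀ ε, ∀ q ∉ Ex m ε, PvxpDIH 𝔑 (h m) x R (Flag m) (pins m) (pvMerge q)) :
    PvxpOK 𝔐 h r pvhbUp (fun q => pvhbAll x R (pvMerge q)) (fun m _ q P => pins m (pvMerge q) P) x R := by
  refine PvxpSmall.mono_ev (((pvxp_fine x hR h hh).union hA6).union hEx) ?_
  filter_upwards [hrL, hTrap, hDI, hlim.eventually (ge_mem_nhds hR)] with m h1 h2 h3 h4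
  refine Eventually.of_forall fun ε q hq => ?_
  by_contra hcon
  simp only [mem_union, mem_ofPred_eq, not_or, not_not, pvxpA6Bad] at hcon
  exact hq (pvxp_glue_det hR (hh m) h4 hL h1 (h2 ε q hcon.2) (h3 ε q hcon.2) hcon.1.1 hcon.1.2)

/-! ## 5. ROAD E      (text of record: `origin/helper208:notes/R289/W1_208_v3.md` D1-D12, E11-E18;   data of record: `Defs/TrModel.lean` of 187) -/

theorem pvxp_fine_mono {Y K : Set ℂ} {μ μ' : ℝ} (h : L9Fine Y K μ) (hμ : μ ≤ μ') : L9Fine Y K μ' := fun a b c ht hK => by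
  obtain ⟨h1, h2, h3⟩ := h a b c ht hK
  exact ⟨h1.trans hμ, h2.trans hμ, h3.trans hμ⟩

/-- the scale `r / 2` is still a scale `h^(1-κ')` -/
theorem pvxp_half_scale {c : ℝ} (c0 : 0 < c) : ∀ᶠ m in atTop, pvlmH m ^ (1 - pvlmKap c / 2) ≤ pvlmR c m / 2 := by
  have hκ := pvlm_Kap_pos c0
  have h1 : Tendsto (fun m => pvlmH m ^ (pvlmKap c / 2)) atTop (𝓝 0) := pvlm_rpow_lim pvlm_H_lim (by positivity)
  filter_upwards [h1.eventually (ge_mem_nhds (show (0 : ℝ) < 1 / 2 by norm_num))] with m hm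
  have e : pvlmH m ^ (1 - pvlmKap c / 2) = pvlmR c m * pvlmH m ^ (pvlmKap c / 2) := by
    unfold pvlmR
    rw [← Real.rpow_add (pvlm_H_pos m)]
    congr 1
    ring
  rw [e]
  have := pvlm_R_pos c m
  nlinarith

/-- the range of the flags of road E, in units of `h` (E18: "local, range `3 b₂ h + h`") -/
noncomputable def pvxpW (𝔑 : PvxpNum) : ℕ := ⌈4 * 𝔑.L⌉₊

/-- **EXIT (MENU + FLAGS + DI), ROAD E** = D11, E11-E16 + the conversion of the gates of A6.      [CUT by 121 in `Exit/PinsE.lean`; X3 = PIN EXISTS 126 66, E15 112 42, menu 73 285 66, FLAG1 235 16, FLAG2 248 233, FLAG4 55 71, gates 150 3]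
T2bis (24; retyped by 243 11:00Z): the roof chooses NUMBERS `N : PvxNums` only; menu and parameters = `pvxParOf N hN c` of 73 (`Exit/Par.lean`).
Given the annuli of A6 and the budget `ζ`: the numbers (order of the constants: `ρ₂`, `N₀`, `K`, `ρ₁`, `ρ`, `ρ''`), the static local flags `Flag = FLAG1 ∪ FLAG2 ∪ FLAG4` of total probability `≤ ζ`,
for every ball an exceptional event `Ex` (mesh, rim near returns: `pvxp_fine`, `pvxp_near`), and off `Ex` the DETERMINISTIC implication (DI):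
gates of A6 at `z` (colour of the rim) + the rim passes within `h` of `z` + no flag at `z`  ⟹  for some type `t` the state `Σ(z,t)` exists, is good, and is a pin of the rim (`pvxPins`). -/
def PvxpRoadE (c : ℝ) : Prop :=
  ∀ (𝔑 : PvxpNum) (_ : 𝔑.Wf (10 ^ 6) 4 2) (ζ : ℝ≥0∞) (_ : 0 < ζ),
    ∃ (N : PvxNums) (hN : N.Ok) (Flag : ℕ → ℤ × ℤ → Set (Conf PvPt)),
      PvxpFlag pvlmH (pvxpW 𝔑) ζ Flag ∧
      ∀ (x : ℂ) (R : ℝ), 0 < R → ∃ Ex : ℕ → ℝ → Set (PvGeoT × PvColT), PvxpSmall pvhbUp Ex ∧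
        ∀ᶠ m in atTop, ∀ ε, ∀ q ∉ Ex m ε, PvxpDIH 𝔑 (pvlmH m) x R (Flag m) (pvxPins (pvxParOf N hN c) x R m) (pvMerge q)

/-- **THE ROOF OF THE PINS, ROAD E** = `exit_pvx_pins0` of ruling T2 (24), GIVEN the statement `PvxpRoadE c` (wired 243 11:45Z: the former exit `exit_pins_roadE` is now this hypothesis;
it is delivered by `pvpj_roadE` of 121 (`Exit/PinsE.lean`, which imports this file) in `Exit/PinsTop.lean` : `pvxp_mainE`). -/
theorem pvxp_mainE_of (c : ℝ) (c0 : 0 < c) (hE : PvxpRoadE c) :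
    ∃ (N : PvxNums) (hN : N.Ok), ∀ (x : ℂ) (R : ℝ), 0 < R → PvxPinsOK (pvxParOf N hN c) x R := by
  obtain ⟨𝔑, h𝔑, hL1, ζ, hζ, hA⟩ := exit_pins_a6 (10 ^ 6) 4 2 5
  have hA6 := hA (pvxpW 𝔑) (by
    have := Nat.ceil_lt_add_one (a := 4 * 𝔑.L) (by linarith)
    unfold pvxpW
    push_cast
    linarith)
  obtain ⟨N, hN, Flag, hFl, hDI⟩ := hE 𝔑 h𝔑 ζ hζ
  refine ⟨N, hN, fun x R hR => ?_⟩
  set 𝔓 : PvxPar (pvxTau N) c := pvxParOf N hN c with h𝔓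
  have hW : 𝔓.WfB := (pvxo_wf N hN c).toWfB
  obtain ⟨Ex, hEx, hDI⟩ := hDI x R hR
  have hg : 0 < 𝔑.g := lt_of_lt_of_le (by norm_num) h𝔑.g_ge
  have hL : 0 ≤ 𝔑.L := by
    have h1 := h𝔑.a_ge 0 hg
    have h2 := h𝔑.ab 0 hg
    have h3 := h𝔑.bL 0 hg
    nlinarith
  refine pvxp_glue 𝔓.𝔐 𝔑 pvlmH (pvlmR c) (pvxPins 𝔓 x R) Flag x hR pvlm_H_pos pvlm_H_lim hL (pvlm_R_spec c0 (𝔑.L + 3)).2.1 ?_ Ex hEx ?_ hDI
  · exact hA6 pvlmH (fun m => pvlmR c m / 2) (pvlmKap c / 2) (by have := pvlm_Kap_pos c0; positivity) pvlm_H_pos pvlm_H_lim (pvxp_half_scale c0) Flag hFl x R hR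
  · filter_upwards [pvpt_scale 𝔓.𝔐.L hR] with m hm ε q _
    exact pvpt_pins_ok 𝔓 hW hR hm (pvMerge q)

theorem pvxp_pins_eqns_cite : True := by
  have := @PvxpSmall.eq_1; have := @PvxpOK.eq_1; have := @PvxpGate.eq_1; have := @PvxpA6At.eq_1; have := @pvxpA6Bad.eq_1; have := @PvxpTrapH.eq_1; have := @PvxpDIH.eq_1; have := @pvxpW.eq_1; have := @PvxpRoadE.eq_1
  trivial

end Claimed.Agent.R289
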