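import Claimed.Agent.R289.Arm.GateS
import Claimed.Agent.R289.Arm.GateO
import Claimed.Agent.R289.Arm.GateFrP
import Claimed.Agent.R289.Tr.DenseU
import Claimed.Agent.R289.Exit.PinsA6
import Claimed.Agent.R289.Exit.PinsA6N

/-!
# Row 289 (S0537), THE WALL, roof PINS, sub-exit (X2), file Exit/PinsA6E : SECOND ROPE OF (D) = `exit_pvx2_di`      (helper75; prefix `pvx2e_`, `Pvx2e`, `pvx2e`)

ROUTE (i), PLANE ONLY, unit `u = h / 2`:   `PvagsFit.DI` (75, `Arm/GateS`: (DI) of 281 in position form)  +  `pvago_infix`, `pvago_passage` (105, `Arm/GateO`)  +  `Wf.b0_light`, `Wf.b0_five`, `Wf.b0_hJ`, `pvdu_exists` (101, `Tr/DenseU`)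
+  `PvklPG`, `pvklFr`, `pvkl_net` (54, `Arm/GateFrP`).
* sec. 1  `pvx2e_gate` (a gate of the total plane for `σ == c`, `true` is a `PvdaGate`), `pvx2e_nf` (`¬ PvdnFive` ⟹ `PvagsNF`), `pvx2e_mesh`, `pvx2e_fine`
* sec. 2  `Pvx2eNum g mt` (the numbers: `PvdsPar` of 101 and `PvagsNum` of 75 fit), `pvx2eZs`, **`pvx2e_det`** : ONE PATCH, DETERMINISTIC (static hypothesis = the conclusion of `PvdsPar.use` / `Wf.b0_use` of 101)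
* sec. 3  `pvx2eOf` (the numbers `Pvx8Num` of 149, `Exit/PinsA6N`, passage `en + 1 = 12 = ae`), `pvx2eZ`, `pvx2eRs`, `pvx2e_fit`, `pvx2eFn`, `pvx2eE`, `pvx2eFr : PvX2Fr x R y R` (`pvklFr` of 54), `pvx2eAd : PvX2Ad _`
* sec. 4  `pvx2e_di_patch`, **`pvx2e_di` = `exit_pvx2_di` of `Exit/PinsA6X.lean` VERBATIM, PROVED** (0 sorry; `Ex = ∅`)
-/

set_option autoImplicit false
set_option linter.unusedSectionVars false
set_option linter.unusedVariables false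

namespace Claimed.Agent.R289

open MeasureTheory Filter Topology Set Claims.C0465
open scoped ENNReal

/-! ## 1. converters -/

/-- a gate of the TOTAL plane for the colouring `σ == c` and the colour `true` is a family free gate of 212 -/
theorem pvx2e_gate {Y : Set ℂ} (h : DelGood Y) {σ : ℂ → Bool} {c : Bool} {z : ℂ} {a b : ℝ} {G : Set (delbPl Y).Dart} {X : Finset ↥Y}
    (hg : PvgGate (pvx2T Y) (fun v : ↥Y => σ v == c) true (pvdiB (pvx2T Y) Subtype.val z a) (pvdiB (pvx2T Y) Subtype.val z b) G X) : PvdaGate Y σ c z a b := by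
  have key : ∀ Pl : PlTri ↥Y, Pl = delPl h → ∀ G : Set Pl.Dart, PvgGate Pl.toMap (fun v : ↥Y => σ v == c) true (pvdiB Pl.toMap Subtype.val z a) (pvdiB Pl.toMap Subtype.val z b) G X →
      PvdaGate Y σ c z a b := by
    rintro Pl rfl G hg
    refine ⟨h, G, X, hg.face, hg.inner, hg.outer, hg.card, fun v hv => by simpa using hg.col v hv, fun v hv => ?_⟩
    rcases hg.other v hv with h1 | h1
    · exact Or.inl (by simpa using h1)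
    · exact Or.inr h1
  exact key _ (delb_pl_eq h) G hg

/-- the flags of 89 / 101 in the vocabulary of `Arm/GateS` -/
theorem pvx2e_nf {V D : Type} [DecidableEq V] {T : PvMap V D} {pos : V → ℂ} {s : V → Bool} {ζ : ℂ} {ri ro : ℝ} (h : ¬ PvdnFive T pos s ζ ri ro) : PvagsNF T pos s ζ ri ro := by
  unfold PvdnFive at h
  push Not at h
  obtain ⟨k0, k1, k2, -, h12, h20, h1, h0, hc, hc'⟩ := h
  refine ⟨k0, k1, k2, h12, h20, h1, h0, ?_⟩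
  rintro (⟨x, x2, x4, n1, n2, n4, hh⟩ | ⟨x, x2, x4, n1, n2, n4, hh⟩)
  · exact hc x x2 x4 n1 n2 n4 hh
  · exact hc' x x2 x4 n1 n2 n4 hh

/-- mesh of ALL rims of ALL completions on the fine event -/
theorem pvx2e_mesh {x : ℂ} {R μ : ℝ} (hR : 0 < R) (hμ : μ ≤ R) {ω : PVSample} (hF : L9Fine (cfSites (pvConf ω)) (Metric.closedBall x (6 * R)) μ) {P : PvbRim} (hP : P ∈ pvhbAll x R ω) :
    ∀ k < P.len, ‖P.v k - x‖ ≤ 5 * R → ‖P.v (k + 1) - P.v k‖ ≤ μ := by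
  obtain ⟨X, hX, 𝔅, ξ, -, hOk, hP'⟩ := hP
  obtain ⟨-, -, h3, -⟩ := l9_enc_mesh 𝔅 hR hμ hOk hF hP'
  exact fun k hk h => h3 k hk (Or.inl h)

/-- the mesh is eventually finer than any prescribed `μ m > 0` -/
theorem pvx2e_fine (x : ℂ) {R : ℝ} (hR : 0 < R) (μ : ℕ → ℝ) (hμ : ∀ m, 0 < μ m) :
    PvhbOrd fun m ε => ((pvhbUp ε).P {q | ¬ L9Fine (cfSites (pvConf (pvMerge q))) (Metric.closedBall x (6 * R)) (μ m)}).toReal := by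
  have h1 : PvhbOrd fun m ε => (pvLaw ε {o | ¬ L9Fine (cfSites (pvConf o)) (Metric.closedBall x (6 * R)) (μ m)}).toReal :=
    PvhbOrd.of_tendsto fun m => (pvhb_tendsto_iff _ _).2 fun es h0 he => l9_fine_prob es h0 he x hR (hμ m)
  refine PvhbOrd.mono h1 fun m ε => ?_
  have h2 := pvhb_up_P_law ε {o | ¬ L9Fine (cfSites (pvConf o)) (Metric.closedBall x (6 * R)) (μ m)}
  exact ENNReal.toReal_mono (measure_ne_top _ _) h2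

/-! ## 2. one patch, deterministic -/

/-- **THE NUMBERS FIT**: the record of the static bad block (101, unit `u`) and the record of the micro geometry (75) -/
structure Pvx2eNum (g mt : ℕ) where
  Ps : PvdsPar
  N : PvagsNum g mt
  en : ℕ
  wf : Ps.Wf
  n_eq : Ps.n = 2 * g
  A_eq : N.A = Ps.A
  ri_eq : ∀ i, N.ri i = Ps.w * Ps.A i
  ro_eq : ∀ i, N.ro i = pvdsLam Ps.Mc * (Ps.w * Ps.A i)
  en11 : 11 ≤ en
  en_d : en ≤ Ps.d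
  hsc : ∀ i < 2 * g, (Ps.n0 + 4) * (Ps.Mc * Ps.A i) ≤ Ps.A (i + 1)
  hA : Ps.A (2 * g) ≤ (en - 1) * Ps.L + 1
  hr : ∀ k < g, N.r2 k + 2 ≤ Ps.L

/-- the boxes (side `u`) whose centre is near the core of the patch, in the blocks near the block `x` -/
def pvx2eZs (u : ℝ) (y : ℂ) (ρ : ℝ) (Lu d : ℕ) (x : ℤ × ℤ) : Set (ℤ × ℤ) := {z | ‖pvagsZ u z - y‖ ≤ ρ + 2 * u ∧ pv5Dist (pvagCg Lu z) x ≤ d}

theorem pvx2e_eqns_cite : True := by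
  have := @pvx2eZs.eq_1
  trivial

section det

variable [∀ Y : Set ℂ, DecidableEq ↥Y]

/-- **(DI) FOR ONE PATCH, DETERMINISTIC**.   An arc `s .. s + n` of an actual rim, carried by the chord of `e` of the patch; a passage `j ≤ j'` of the arc inside `clB(x,2R)` from the block `b` (side `L u`) to sup-distance `≥ en + 1`;
the block is not statically bad, not adaptively bad for the chord of `e`: the passage has a PLACE. -/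
theorem pvx2e_det {g mt : ℕ} (𝔑 : Pvx2eNum g mt) {u : ℝ} (hu : 0 < u) {x : ℂ} {R q0 : ℝ} {y : ℂ} {ρ : ℝ} (hR : 0 < R) {ω : PVSample}
    {C0 C1 : (pvx2T (cfSites (pvConf ω))).Cyc} (hM : PvX2Mac x R q0 y ρ _ C0 C1) {q : ℝ} {Z : Set ℂ} {Rs : Set ℝ} {ρ0 : ℝ}
    (F : PvagsFr (pvx2T (cfSites (pvConf ω))) Subtype.val q Z Rs)
    (H : ∀ b, PvagsFit 𝔑.N u (pvx2T (cfSites (pvConf ω))) Subtype.val C0 Z Rs (pvx2eZs u y ρ 𝔑.Ps.L 𝔑.Ps.d b) y ρ0)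
    {μ : ℝ} (hfine : L9Fine (cfSites (pvConf ω)) (Metric.closedBall x (6 * R)) μ) (hμu : μ ≤ u) (hμR : μ ≤ R)
    {P : PvbRim} (hP : P ∈ pvhbAll x R ω) {s n : ℕ} (hsn : s + n ≤ P.len) {bc : Bool} {e : (delbPl (cfSites (pvConf ω))).Dart}
    (hcar : PvX2Car _ (fun v => cfCol (pvConf ω) v) y ρ C0 (pvx2Sub P s n) bc e)
    {j j' : ℕ} (hjj : j ≤ j') (hj' : j' ≤ n) (hin : ∀ t, j ≤ t → t ≤ j' → ‖P.v (s + t) - x‖ ≤ 2 * R)
    (hfar : ((𝔑.en + 1 : ℕ) : ℤ) ≤ pv5Dist (pv5Blk (𝔑.Ps.L * u) (P.v (s + j))) (pv5Blk (𝔑.Ps.L * u) (P.v (s + j'))))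
    (hU : PvtrMesh (𝔑.Ps.ρ * u) (pvdsSq (𝔑.Ps.L * u) 𝔑.Ps.a' (pv5Blk (𝔑.Ps.L * u) (P.v (s + j)))) (cfSites (pvConf ω)) ∧ pvConf ω ∉ 𝔑.Ps.JB u (pv5Blk (𝔑.Ps.L * u) (P.v (s + j))) ∧
      ∀ i < 𝔑.Ps.n, ∀ c, Pv5Chain 𝔑.Ps.n0 c → c 0 ∈ pvtdCells (𝔑.Ps.N i) 𝔑.Ps.d (pv5Blk (𝔑.Ps.L * u) (P.v (s + j))) → ∃ l ≤ 𝔑.Ps.n0, PvagLight 𝔑.Ps.Mc (fun _ b => pvConf ω ∈ 𝔑.Ps.Fl u i b) (c l))
    {w NN : ℕ} (hw : 𝔑.en + 1 ≤ w) (hN : 𝔑.Ps.J * g ≤ NN)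
    (hnb : ¬ PvaaBad (pvx2T (cfSites (pvConf ω))) Subtype.val C0 (𝔑.Ps.L * u) w mt NN q
      (fun e b s => (H b).sel F 𝔑.Ps.L w 𝔑.en 𝔑.Ps.J e b s) (fun v => cfCol (pvConf ω) v == bc) e (pv5Blk (𝔑.Ps.L * u) (P.v (s + j)))) :
    ∃ τ p, j ≤ τ ∧ τ ≤ j' ∧ PvX2At g (fun k => 𝔑.N.r0 k / 2) (fun k => 5 / 8 * 𝔑.N.r3 k) (2 * u) ω (pvx2Sub P s n) τ p := by
  have hPs := 𝔑.wf
  have hLpos : (0 : ℝ) < 𝔑.Ps.L := by exact_mod_cast hPs.L_pos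
  have hℓ : 0 < (𝔑.Ps.L : ℝ) * u := by positivity
  obtain ⟨k₀, hk₀⟩ := pvago_infix hR hM hP hcar
  have hstepP : ∀ t, j ≤ t → t < j' → ‖P.v (s + (t + 1)) - P.v (s + t)‖ ≤ μ := fun t h1 h2 => by
    have := pvx2e_mesh hR hμR hfine hP (s + t) (by omega) (by have := hin t h1 h2.le; linarith)
    rwa [add_assoc] at this
  have huℓ : u ≤ (𝔑.Ps.L : ℝ) * u := by
    have : (1 : ℝ) ≤ 𝔑.Ps.L := by exact_mod_cast hPs.L_pos
    nlinarith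
  obtain ⟨j'', a1, a2, a3, a4, a5⟩ := pvago_passage (pvafGam (pvx2T (cfSites (pvConf ω))) C0.Left e (fun v => cfCol (pvConf ω) v == bc))
    (fun d => (((pvx2T (cfSites (pvConf ω))).src d : ↥(cfSites (pvConf ω))) : ℂ)) (fun t => P.v (s + t)) (k₀ := k₀) (n := n)
    (fun t ht => by obtain ⟨f, f1, f2, -⟩ := hk₀ t ht; exact ⟨f, f1, f2⟩) hℓ hjj hj' (fun t h1 h2 => (hstepP t h1 h2).trans (hμu.trans huℓ)) 𝔑.en hfar
  have hpos : ∀ t d, k₀ + j ≤ t → t ≤ k₀ + j'' → (pvafGam (pvx2T (cfSites (pvConf ω))) C0.Left e (fun v => cfCol (pvConf ω) v == bc))[t]? = some d →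
      (((pvx2T (cfSites (pvConf ω))).src d : ↥(cfSites (pvConf ω))) : ℂ) = P.v (s + (t - k₀)) := fun t d h1 h2 h3 => (a5 t d h1 h2 h3).1
  obtain ⟨τ, d, t1, t2, t3, p, t4, t5⟩ := (H (pv5Blk (𝔑.Ps.L * u) (P.v (s + j)))).DI F (delbPl (cfSites (pvConf ω))).toMap_simple hM.geo.2.2.1 𝔑.Ps.n0
    (M := fun _ => 𝔑.Ps.Mc) (Nn := 𝔑.Ps.N) (Lu := 𝔑.Ps.L) (en := 𝔑.en) (w := w) (J := 𝔑.Ps.J) (dd := 𝔑.Ps.d)
    (fun i hi => ⟨hPs.Mc_pos, by rw [𝔑.A_eq]; exact 𝔑.hsc i hi⟩) hPs.L_pos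
    (fun i hi => ⟨hPs.N_pos i (by rw [𝔑.n_eq]; exact hi), by rw [𝔑.A_eq]; exact hPs.L_eq i (by rw [𝔑.n_eq]; exact hi)⟩)
    (by have := 𝔑.en11; omega) (by rw [𝔑.A_eq]; exact 𝔑.hA) 𝔑.hr hw 𝔑.en_d hcar.2.1 (fun i _ b' => pvConf ω ∈ 𝔑.Ps.Fl u i b')
    (fun i hi z hz Q b' hF hQ hb' => by
      have hi' : i < 𝔑.Ps.n := by rw [𝔑.n_eq]; exact hi
      have hrb := hPs.reach_of_box hi' hz.2 hQ (by rw [← 𝔑.A_eq]; exact hb')
      have h5 := hPs.five_plane hu _ hM.good hU.1 hi' hrb.1 hrb.2 hF bc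
      have h6 := pvx2e_nf h5
      rw [𝔑.A_eq, 𝔑.ri_eq, 𝔑.ro_eq]
      convert h6 using 1 <;> ring)
    (pv5Blk (𝔑.Ps.L * u) (P.v (s + j))) (hPs.hJ_plane hu _ hM.good hU.1 hU.2.1 C0.Left e bc _ (fun d => rfl) 𝔑.en11) (j := k₀ + j) (j' := k₀ + j'') (by omega) a3 a4
    (fun t d d' h1 h2 h3 h4 => by
      rw [hpos t d h1 h2.le h3, hpos (t + 1) d' (by omega) (by omega) h4]
      have e1 : t + 1 - k₀ = (t - k₀) + 1 := by omega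
      rw [e1]
      exact (hstepP (t - k₀) (by omega) (by omega)).trans hμu)
    (fun t d h1 h2 h3 => by
      refine ⟨?_, ?_⟩
      · have h4 := pvags_Z_near hu (((pvx2T (cfSites (pvConf ω))).src d : ↥(cfSites (pvConf ω))) : ℂ)
        have h5 : ‖(((pvx2T (cfSites (pvConf ω))).src d : ↥(cfSites (pvConf ω))) : ℂ) - y‖ ≤ ρ := by
          rw [hpos t d h1 h2 h3]
          exact hcar.1 (t - k₀) (by show t - k₀ ≤ n; omega)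
        rw [norm_sub_rev] at h4
        exact (pvags_tri _ (((pvx2T (cfSites (pvConf ω))).src d : ↥(cfSites (pvConf ω))) : ℂ) _).trans (by linarith)
      · rw [← pvtd_blk_cg hu hPs.L_pos, pvtd_dist_comm]
        exact ((a5 t d h1 h2 h3).2).trans (by exact_mod_cast 𝔑.en_d))
    (fun t d h1 h2 h3 => by
      rw [pvtd_dist_comm]
      exact (a5 t d h1 h2 h3).2)
    (fun i hi c hc h0 => hU.2.2 i (by rw [𝔑.n_eq]; exact hi) c hc h0)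
    hN hnb
  refine ⟨τ - k₀, p, by omega, by omega, ?_, fun k hk => ?_⟩
  · show ‖P.v (s + (τ - k₀)) - l9Pt (2 * u) p‖ ≤ 2 * u
    rw [← hpos τ d t1 t2 t3]
    exact t4
  · obtain ⟨G', X, hg⟩ := t5 k hk
    have hcol : cfCol (pvConf ω) (P.v (s + (τ - k₀))) = bc := by
      have h1 := pvaf_gam_black (List.mem_of_getElem? t3)
      rw [← hpos τ d t1 t2 t3]
      simpa using h1
    show PvdaGate (cfSites (pvConf ω)) (cfCol (pvConf ω)) (cfCol (pvConf ω) (P.v (s + (τ - k₀)))) (l9Pt (2 * u) p) (𝔑.N.r0 k / 2 * (2 * u)) (5 / 8 * 𝔑.N.r3 k * (2 * u))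
    rw [hcol, show 𝔑.N.r0 k / 2 * (2 * u) = 𝔑.N.r0 k * u by ring, show 5 / 8 * 𝔑.N.r3 k * (2 * u) = 5 / 4 * (𝔑.N.r3 k * u) by ring]
    exact pvx2e_gate hM.good hg

end det

/-! ## 3. the numbers of 149, the micro frame of one patch -/

/-- all the radii of the micro geometry are positive -/
theorem pvx2e_Rs_pos {g mt : ℕ} (N : PvagsNum g mt) : ∀ r ∈ N.Rs, 0 < r := by
  classical
  intro r hr
  unfold PvagsNum.Rs at hr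
  obtain ⟨k, hk, hr⟩ := Finset.mem_biUnion.1 hr
  have hk' := Finset.mem_range.1 hk
  rcases Finset.mem_union.1 hr with h | h
  · simp only [Finset.mem_insert, Finset.mem_singleton] at h
    rcases h with rfl | rfl | rfl | rfl
    · exact PvagsNum.r0_pos hk'
    · exact PvagsNum.r1_pos hk'
    · exact PvagsNum.r2_pos hk'
    · have h1 := PvagsNum.le23 (N := N) hk'
      have h2 := PvagsNum.r2_pos (N := N) hk'
      linarith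
  · obtain ⟨j, -, rfl⟩ := Finset.mem_image.1 h
    have := PvagsNum.t_pos (N := N) hk'
    positivity

/-- **the numbers of 149 fit** (passage `en + 1 = 12`) -/
noncomputable def pvx2eOf {a0 S : ℝ} {g Cw : ℕ} {q5 qT : ℝ} (𝔑 : Pvx8Num a0 S g Cw q5 qT) : Pvx2eNum g 𝔑.mt where
  Ps := 𝔑.P
  N := 𝔑.Nm
  en := 11
  wf := 𝔑.wf
  n_eq := 𝔑.n_eq
  A_eq := 𝔑.A_eq
  ri_eq := 𝔑.ri_eq
  ro_eq := 𝔑.ro_eq
  en11 := le_rfl
  en_d := by rw [𝔑.d_eq]; norm_num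
  hsc := fun i _ => 𝔑.sc i
  hA := by rw [← 𝔑.L_A]; omega
  hr := 𝔑.r2_le

/-- the centres of the micro frame of a patch -/
noncomputable def pvx2eZ (u : ℝ) (y : ℂ) (ρ : ℝ) : Finset ℂ := if hu : 0 < u then (pvags_Z_finite hu y (ρ + 2 * u)).toFinset else ∅

open Classical in
/-- the radii of the micro frame of a patch -/
noncomputable def pvx2eRs {g mt : ℕ} (N : PvagsNum g mt) (u : ℝ) : Finset ℝ := N.Rs.image fun r => r * u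

theorem pvx2e_eqns_cite2 : True := by
  have := @pvx2eOf.eq_1; have := @pvx2eZ.eq_1; have := @pvx2eRs.eq_1
  trivial

theorem pvx2e_Rs_pos' {g mt : ℕ} (N : PvagsNum g mt) {u : ℝ} (hu : 0 < u) : ∀ r ∈ pvx2eRs N u, 0 < r := by
  classical
  intro r hr
  obtain ⟨r', hr', rfl⟩ := Finset.mem_image.1 hr
  exact mul_pos (pvx2e_Rs_pos N r' hr') hu

section patch

variable [∀ Y : Set ℂ, DecidableEq ↥Y]

/-- **the frame event of 54 gives the fit of `Arm/GateS`** -/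
theorem pvx2e_fit {g mt : ℕ} (N : PvagsNum g mt) {u : ℝ} (hu : 0 < u) {y : ℂ} {ρ : ℝ} {E : Set ℂ → Prop} {Y : Set ℂ} (hG : PvklPG y ρ (pvx2eZ u y ρ) (pvx2eRs N u) E Y)
    {Lu : ℕ} (hc : (2 + (Lu : ℝ)) * u ≤ 3 * ρ / 5) (h3 : ∀ k < g, 5 / 4 * N.r3 k ≤ Lu) (d : ℕ) (b : ℤ × ℤ) :
    PvagsFit N u (pvx2T Y) Subtype.val hG.C0 (↑(pvx2eZ u y ρ) : Set ℂ) (↑(pvx2eRs N u) : Set ℝ) (pvx2eZs u y ρ Lu d b) y (8 * ρ / 5) where
  u0 := hu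
  sph := hG.isSph
  hZ := fun z hz => by
    unfold pvx2eZ
    rw [dif_pos hu]
    exact Finset.mem_coe.2 ((Set.Finite.mem_toFinset _).2 ⟨⟨z, rfl⟩, hz.1⟩)
  hRs := fun r hr => by
    classical
    exact Finset.mem_coe.2 (Finset.mem_image.2 ⟨r, hr, rfl⟩)
  hC0 := fun v hv => hG.C0_at.inn v hv
  hZs := fun z hz k hk => by
    have h1 := hz.1
    have h2 := h3 k hk
    have h4 : 5 / 4 * (N.r3 k * u) ≤ Lu * u := by nlinarith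
    linarith

/-- the frame function of the patch -/
noncomputable def pvx2eFn {g mt : ℕ} (N : PvagsNum g mt) {u : ℝ} (hu : 0 < u) {y : ℂ} {ρ : ℝ} {E : Set ℂ → Prop} {Y : Set ℂ} (hG : PvklPG y ρ (pvx2eZ u y ρ) (pvx2eRs N u) E Y) :
    PvagsFr (pvx2T Y) Subtype.val pvklQ (↑(pvx2eZ u y ρ) : Set ℂ) (↑(pvx2eRs N u) : Set ℝ) :=
  Classical.choice (pvags_fr_model (hG.pvax fun r hr => (pvx2e_Rs_pos' N hu r hr).le) hG.C0)

/-- the event of the site set of a patch: the level is fine enough, the sites are dense -/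
def pvx2eE (Lu : ℕ) (x : ℂ) (R u : ℝ) (Y : Set ℂ) : Prop := (2 + (Lu : ℝ)) * u ≤ 3 * R / 5 ∧ L9Fine Y (Metric.closedBall x (6 * R)) (min u R)

omit [∀ Y : Set ℂ, DecidableEq ↥Y] in
theorem pvx2e_eqns_cite3 : True := by
  have := @pvx2eFn.eq_1; have := @pvx2eE.eq_1
  trivial

omit [∀ Y : Set ℂ, DecidableEq ↥Y] in
theorem pvx2e_E_ord (Lu : ℕ) (x : ℂ) {R : ℝ} (hR : 0 < R) {h : ℕ → ℝ} (h0 : ∀ m, 0 < h m) (hlim : Tendsto h atTop (𝓝 0)) :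
    PvhbOrd fun m ε => ((pvhbUp ε).P {p | ¬ pvx2eE Lu x R (h m / 2) (cfSites (pvConf (pvMerge p)))}).toReal := by
  have h1 : Tendsto (fun m => (2 + (Lu : ℝ)) * (h m / 2)) atTop (𝓝 0) := by
    have := (hlim.div_const 2).const_mul (2 + (Lu : ℝ))
    simpa using this
  have h2 : ∀ᶠ m in atTop, (2 + (Lu : ℝ)) * (h m / 2) ≤ 3 * R / 5 := h1.eventually (ge_mem_nhds (by positivity))
  exact pvkl_ev_ord (c := fun m => (2 + (Lu : ℝ)) * (h m / 2) ≤ 3 * R / 5) h2 (E := fun m Y => L9Fine Y (Metric.closedBall x (6 * R)) (min (h m / 2) R))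
    (pvx2e_fine x hR (fun m => min (h m / 2) R) fun m => lt_min (half_pos (h0 m)) hR)

variable {a0 S : ℝ} {g Cw : ℕ} {q5 : ℝ} (𝔑 : Pvx8Num a0 S g Cw q5 pvklQ) {h : ℕ → ℝ} (h0 : ∀ m, 0 < h m) (hlim : Tendsto h atTop (𝓝 0)) {x : ℂ} {R : ℝ} (hR : 0 < R) {y : ℂ} (hy : ‖y - x‖ ≤ 2 * R)

/-- **THE FRAME EVENTS OF ONE PATCH** (core radius `R`, unit `u = h m / 2`) -/
noncomputable def pvx2eFr : PvX2Fr x R y R :=
  pvklFr hR (by linarith) (fun m => pvx2eZ (h m / 2) y R) (fun m => pvx2eRs 𝔑.Nm (h m / 2)) (fun m => pvx2e_Rs_pos' 𝔑.Nm (half_pos (h0 m))) (fun m => pvx2eE 𝔑.P.L x R (h m / 2))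
    (pvx2e_E_ord 𝔑.P.L x hR h0 hlim)

/-- **THE ADAPTIVE DATA OF ONE PATCH** -/
noncomputable def pvx2eAd : PvX2Ad (pvx2eFr 𝔑 h0 hlim hR hy) where
  q := pvklQ
  q_le := pvkl_Q_lt.le
  w := 13
  mt := fun _ => 𝔑.mt
  N := fun _ => 𝔑.P.J * g
  hp := Eventually.of_forall fun _ => 𝔑.hp
  Sel := fun m Y hG e b s => (pvx2e_fit 𝔑.Nm (half_pos (h0 m)) hG hG.ev.1 𝔑.r3_le 𝔑.P.d b).sel (pvx2eFn 𝔑.Nm (half_pos (h0 m)) hG) 𝔑.P.L 13 11 𝔑.P.J e b s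
  hSel := fun m Y hG e he he' b => PvagsFit.sel_meas _ _ _ _ _ _ (PvklPG.C0_at hG).fin he he' b

omit [∀ Y : Set ℂ, DecidableEq ↥Y] in
theorem pvx2e_eqns_cite4 : True := by
  have := @pvx2eFr.eq_1; have := @pvx2eAd.eq_1
  trivial

/-! ## 4. (D) -/

/-- **(DI) IN ONE PATCH** for all the sub-arcs of the rims of the completions -/
theorem pvx2e_di_patch (h5 : 0 < q5) (hFr : PvdsFr q5) (m : ℕ) (p : PvGeoT × PvColT) {P : PvbRim} (hP : P ∈ pvhbAll x R (pvMerge p)) {s n : ℕ} (hsn : s + n ≤ P.len) :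
    PvtdDI ((𝔑.Gl h5 hFr).L * h m) (𝔑.Gl h5 hFr).ae x R (pvx2Sub P s n) (pvx2Pl g (𝔑.Gl h5 hFr).a (𝔑.Gl h5 hFr).b (h m) (pvMerge p) (pvx2Sub P s n))
      (fun b => pvConf (pvMerge p) ∈ (𝔑.Gl h5 hFr).SB (h m) b) ((pvx2eAd 𝔑 h0 hlim hR hy).AB (fun m => (𝔑.Gl h5 hFr).L * h m) m p (pvx2Sub P s n)) := by
  intro i i' hii hi' hin hfar hS hA
  have hun : ((𝔑.Gl h5 hFr).L : ℝ) * h m = (𝔑.P.L : ℝ) * (h m / 2) := (𝔑.unit (h m)).symm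
  have hA' : ¬ ∀ (hG : (pvx2eFr 𝔑 h0 hlim hR hy).G m (cfSites (pvConf (pvMerge p)))) (b : Bool) (e : (delbPl (cfSites (pvConf (pvMerge p)))).Dart),
      (pvx2eFr 𝔑 h0 hlim hR hy).car m p (pvx2Sub P s n) b e → PvaaBad (pvx2T (cfSites (pvConf (pvMerge p)))) Subtype.val ((pvx2eFr 𝔑 h0 hlim hR hy).C0 m _ hG) (((𝔑.Gl h5 hFr).L : ℝ) * h m) 13 𝔑.mt (𝔑.P.J * g) pvklQ
        ((pvx2eAd 𝔑 h0 hlim hR hy).Sel m _ hG) (fun v => cfCol (pvConf (pvMerge p)) v == b) e (pv5Blk (((𝔑.Gl h5 hFr).L : ℝ) * h m) ((pvx2Sub P s n).v i)) := hA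
  simp only [hun] at hfar hS hA'
  push Not at hA'
  obtain ⟨hG, bc, e, ⟨hG2, hcar⟩, hnb⟩ := hA'
  have hG' : PvklPG y R (pvx2eZ (h m / 2) y R) (pvx2eRs 𝔑.Nm (h m / 2)) (pvx2eE 𝔑.P.L x R (h m / 2)) (cfSites (pvConf (pvMerge p))) := hG
  have hy4 : ‖y - x‖ + 2 * R ≤ 4 * R := by linarith
  obtain ⟨τ, z, t1, t2, t3⟩ := pvx2e_det (pvx2eOf 𝔑) (half_pos (h0 m)) hR (hG'.mac hR hy4) (pvx2eFn 𝔑.Nm (half_pos (h0 m)) hG')
    (fun b => pvx2e_fit 𝔑.Nm (half_pos (h0 m)) hG' hG'.ev.1 𝔑.r3_le 𝔑.P.d b) hG'.ev.2 (min_le_left _ _) (min_le_right _ _) hP hsn hcar hii hi' hin hfar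
    (PvdsPar.use hS) (w := 13) (NN := 𝔑.P.J * g) (by show 11 + 1 ≤ 13; norm_num) le_rfl hnb
  rw [show 2 * (h m / 2) = h m by ring] at t3
  exact ⟨⟨τ, l9Pt (h m) z, z⟩, ⟨rfl, t3⟩, t1, t2⟩

end patch

/-- **(D) THE DI PACKAGE** = `exit_pvx2_di` of `Exit/PinsA6X.lean`, verbatim -/
theorem pvx2e_di [∀ Y : Set ℂ, DecidableEq ↥Y] (a0 S : ℝ) (g Cw : ℕ) : ∃ Gl : PvX2Glob g, Cw + (Gl.ae + 1) ≤ Gl.aw ∧ (∀ j < g, a0 ≤ Gl.a j ∧ S * Gl.a j ≤ Gl.b j ∧ S * Gl.b j ≤ Gl.L) ∧ (∀ j, j + 1 < g → S * Gl.b j ≤ Gl.a (j + 1)) ∧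
    ∀ h : ℕ → ℝ, (∀ m, 0 < h m) → Tendsto h atTop (𝓝 0) → ∀ (x : ℂ) (R : ℝ), 0 < R →
      ∃ (𝔓 : PvX2Pat x R) (Ex : ℕ → ℝ → Set (PvGeoT × PvColT)), PvhbOrd (fun m ε => ((pvhbUp ε).P (Ex m ε)).toReal) ∧
        ∀ m ε, ∀ p ∉ Ex m ε, ∀ j, ∀ P ∈ pvhbAll x R (pvMerge p), ∀ s n, s + n ≤ P.len →
          PvtdDI (Gl.L * h m) Gl.ae x R (pvx2Sub P s n) (pvx2Pl g Gl.a Gl.b (h m) (pvMerge p) (pvx2Sub P s n))
            (fun b => pvConf (pvMerge p) ∈ Gl.SB (h m) b) ((𝔓.A j).AB (fun m => Gl.L * h m) m p (pvx2Sub P s n)) := by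
  obtain ⟨q5, h5, h5', hFr⟩ := pvds_fr_exists
  obtain ⟨𝔑⟩ := pvx8_num_exists a0 S g Cw h5 h5' pvkl_Q_pos pvkl_Q_lt.le
  refine ⟨𝔑.Gl h5 hFr, 𝔑.Gl_Cw h5 hFr, 𝔑.Gl_ab h5 hFr, 𝔑.Gl_next h5 hFr, fun h h0 hlim x R hR => ?_⟩
  obtain ⟨nJ, ctr, hctr, hnet⟩ := pvkl_net x hR
  refine ⟨⟨nJ, ctr, R, hR, hnet, fun j => pvx2eFr 𝔑 h0 hlim hR (hctr j), fun j => pvx2eAd 𝔑 h0 hlim hR (hctr j)⟩, fun _ _ => ∅, ?_, ?_⟩
  · intro η hη
    refine Eventually.of_forall fun m => Eventually.of_forall fun ε => ?_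
    simp only [PvUp.P_empty, ENNReal.toReal_zero]
    exact hη.le
  · intro m ε p _ j P hP s n hsn
    exact pvx2e_di_patch 𝔑 h0 hlim hR (hctr j) h5 hFr m p hP hsn

end Claimed.Agent.R289
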