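import Claimed.Agent.R289.Tr.DenseU
import Claimed.Agent.R289.Arm.GateFrM
import Claimed.Agent.R289.Arm.GateO
import Claimed.Agent.R289.Arm.GateM
import Claimed.Agent.R289.Arm.GateS

/-!
# Row 289 (S0537), THE WALL, roof PINS, sub-exit (X2), file Exit/PinsA6R : LEAF (D) = THE DI PACKAGE, SPARE ROPE (the exit is wired through `Exit/PinsA6D.lean` of 116; nothing imports this file)      (helper101; prefix `pvduz_`, `Pvduz`, `pvduz`)

Road B54 of 116: the level of 54 (`Arm/GateFrM.lean`: `PvklPar`, event `P.G q Y`, cycles, towers, `pvkl_buf`, `pvkl_gate_disc`, `pvkl_G_ord`) feeds the plane-only (DI) of 281 (`Arm/GateB.lean`: `pvagb_DI`);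
flags, `hlight`, `hJ` = the static bad block of 101 (`Tr/DenseS.lean`, `Tr/DenseU.lean`);   arcs of actual rims = infixes of the plane `Γ(χ_e)`: `pvago_infix`, `pvago_passage` of 105 (`Arm/GateO.lean`).

* sec. 1  the numbers: `PvduzNum Ps g mt`, the level `pvduzLev`, `pvduz_lev_ok`
* sec. 2  kit: `pvduz_ctr_dist`, `pvduz_box_blk`, `pvduz_far`, `pvduz_gate_conv`
* sec. 3  **`pvduz_det`**: (DI) on the plane `Γ(χ_e)`, all hypotheses of `pvagb_DI` discharged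
* sec. 4  the frame and the adaptive data of a patch, **`pvduz_di`**: (DI) for the sub-arcs of the rims of the completions
* sec. 5  the numbers exist
* sec. 6  **`pvduz_exit`** = `exit_pvx2_di`
-/

set_option autoImplicit false
set_option linter.unusedSectionVars false
set_option linter.unusedVariables false

namespace Claimed.Agent.R289

open MeasureTheory Filter Topology Set Metric Claims.C0465
open scoped ENNReal

/-! ## 1. the numbers -/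

/-- the factor of the outer radius of a buffer -/
noncomputable def pvduzLam (Ps : PvdsPar) : ℝ := 4 + 6 * pvdsLam Ps.Mc

/-- **the numbers of (D)**: the record of 101 with `2 g` levels, inner radius of the flags `6 A i`, growth of the sides, room for the towers of `mt` annuli -/
structure PvduzNum (Ps : PvdsPar) (g mt : ℕ) : Prop where
  wf : Ps.Wf
  hn : Ps.n = 2 * g
  hw : Ps.w = 6
  hρ : Ps.ρ = 1
  hd : Ps.d = 12
  hA : ∀ i < 2 * g, (Ps.n0 + 4) * (Ps.Mc * Ps.A i) ≤ Ps.A (i + 1)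
  hL : Ps.L = Ps.A (2 * g)
  hT : ∀ k < g, 125 / 64 * (pvduzLam Ps * Ps.A (2 * k)) * 4 ^ mt ≤ 2 * (Ps.A (2 * k + 1) : ℝ)

/-- **the level** (54) of the patch `(y, Rp)` at the scale `h` -/
noncomputable def pvduzLev (Ps : PvdsPar) (g mt : ℕ) (y : ℂ) (Rp h : ℝ) : PvklPar where
  x := y
  R := Rp
  h := h
  g := g
  mt := mt
  r0 := fun k => Ps.A (2 * k) * h
  r1 := fun k => pvduzLam Ps * (Ps.A (2 * k) * h)
  r2 := fun k => 25 / 16 * (pvduzLam Ps * (Ps.A (2 * k) * h)) * 4 ^ mt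
  r3 := fun k => pvduzLam Ps * (Ps.A (2 * k + 1) * h)
  t := fun k j => 5 / 4 * (pvduzLam Ps * (Ps.A (2 * k) * h)) * 2 ^ j

theorem pvduz_eqns_cite : True := by
  have := @pvduzLam.eq_1; have := @pvduzLev.eq_1
  trivial

theorem pvduz_lam_ge (Ps : PvdsPar) : 10 ≤ pvduzLam Ps := by
  unfold pvduzLam
  linarith [pvds_lam_one Ps.Mc]

namespace PvduzNum

variable {Ps : PvdsPar} {g mt : ℕ}

theorem A_pos (hN : PvduzNum Ps g mt) {i : ℕ} (hi : i < 2 * g) : 0 < Ps.A i := hN.wf.A_pos i (by rw [hN.hn]; exact hi)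

theorem A_step (hN : PvduzNum Ps g mt) {i : ℕ} (hi : i < 2 * g) : Ps.A i ≤ Ps.A (i + 1) := by
  refine le_trans ?_ (hN.hA i hi)
  have h1 : 0 < Ps.Mc := hN.wf.Mc_pos
  calc Ps.A i = 1 * (1 * Ps.A i) := by ring
    _ ≤ (Ps.n0 + 4) * (Ps.Mc * Ps.A i) := Nat.mul_le_mul (by omega) (Nat.mul_le_mul h1 le_rfl)

theorem A_step4 (hN : PvduzNum Ps g mt) {i : ℕ} (hi : i < 2 * g) : 4 * Ps.A i ≤ Ps.A (i + 1) := by
  refine le_trans ?_ (hN.hA i hi)
  have h1 : 0 < Ps.Mc := hN.wf.Mc_pos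
  calc 4 * Ps.A i = 4 * (1 * Ps.A i) := by ring
    _ ≤ (Ps.n0 + 4) * (Ps.Mc * Ps.A i) := Nat.mul_le_mul (by omega) (Nat.mul_le_mul h1 le_rfl)

theorem A_le_L (hN : PvduzNum Ps g mt) : ∀ {i : ℕ}, i ≤ 2 * g → Ps.A i ≤ Ps.L := by
  have key : ∀ n, n ≤ 2 * g → Ps.A (2 * g - n) ≤ Ps.L := by
    intro n
    induction n with
    | zero => intro _; rw [hN.hL]; exact le_rfl
    | succ n ih =>
      intro hn
      have h1 := hN.A_step (i := 2 * g - (n + 1)) (by omega)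
      rw [show 2 * g - (n + 1) + 1 = 2 * g - n by omega] at h1
      exact h1.trans (ih (by omega))
  intro i hi
  have := key (2 * g - i) (by omega)
  rwa [show 2 * g - (2 * g - i) = i by omega] at this

end PvduzNum

/-- **the numbers of the level are in order** as soon as `h` is small -/
theorem pvduz_lev_ok {Ps : PvdsPar} {g mt : ℕ} (hN : PvduzNum Ps g mt) (y : ℂ) {Rp h : ℝ} (hR : 0 < Rp) (hh : 0 < h) (h1 : h + 5 * (pvduzLam Ps * (Ps.L * h)) / 4 ≤ 6 * Rp / 5) (h2 : h ≤ Rp / 2) :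
    (pvduzLev Ps g mt y Rp h).Ok := by
  have hΛ := pvduz_lam_ge Ps
  have hA : ∀ i < 2 * g, (1 : ℝ) ≤ Ps.A i := fun i hi => by exact_mod_cast hN.A_pos hi
  have h4 : (1 : ℝ) ≤ 4 ^ mt := one_le_pow₀ (by norm_num)
  refine ⟨hR, hh, fun k hk => ?_, fun k hk => ?_, fun k hk => ?_, fun k hk => ?_, fun k hk j hj => ?_, fun k hk j hj => ?_, fun k hk j hj => ?_, fun k hk => ?_, h2⟩
  · show h ≤ Ps.A (2 * k) * h
    have := hA (2 * k) (by have : k < g := hk; omega)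
    nlinarith
  · show 5 * (Ps.A (2 * k) * h) / 4 ≤ pvduzLam Ps * (Ps.A (2 * k) * h)
    have := hA (2 * k) (by have : k < g := hk; omega)
    have h3 : 0 < (Ps.A (2 * k) : ℝ) * h := by positivity
    nlinarith
  · show 5 * (pvduzLam Ps * (Ps.A (2 * k) * h)) / 4 ≤ 25 / 16 * (pvduzLam Ps * (Ps.A (2 * k) * h)) * 4 ^ mt
    have := hA (2 * k) (by have : k < g := hk; omega)
    have h3 : 0 < pvduzLam Ps * ((Ps.A (2 * k) : ℝ) * h) := by positivity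
    nlinarith
  · show 5 * (25 / 16 * (pvduzLam Ps * (Ps.A (2 * k) * h)) * 4 ^ mt) / 4 ≤ pvduzLam Ps * (Ps.A (2 * k + 1) * h)
    have e1 := hN.hT k hk
    have e2 := hA (2 * k + 1) (by have : k < g := hk; omega)
    have e3 : 5 * (25 / 16 * (pvduzLam Ps * (Ps.A (2 * k) * h)) * 4 ^ mt) / 4 = (125 / 64 * (pvduzLam Ps * Ps.A (2 * k)) * 4 ^ mt) * h := by ring
    rw [e3]
    have e4 : (125 / 64 * (pvduzLam Ps * Ps.A (2 * k)) * 4 ^ mt) * h ≤ 2 * (Ps.A (2 * k + 1) : ℝ) * h := mul_le_mul_of_nonneg_right e1 hh.le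
    have e5 : 0 < (Ps.A (2 * k + 1) : ℝ) * h := by positivity
    nlinarith
  · show 5 * (pvduzLam Ps * (Ps.A (2 * k) * h)) / 4 ≤ 5 / 4 * (pvduzLam Ps * (Ps.A (2 * k) * h)) * 2 ^ j
    have := hA (2 * k) (by have : k < g := hk; omega)
    have h3 : 0 < pvduzLam Ps * ((Ps.A (2 * k) : ℝ) * h) := by positivity
    have h5 : (1 : ℝ) ≤ 2 ^ j := one_le_pow₀ (by norm_num)
    nlinarith
  · show 8 * (5 / 4 * (pvduzLam Ps * (Ps.A (2 * k) * h)) * 2 ^ j) / 5 ≤ 5 / 4 * (pvduzLam Ps * (Ps.A (2 * k) * h)) * 2 ^ (j + 1)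
    have := hA (2 * k) (by have : k < g := hk; omega)
    have h3 : 0 < pvduzLam Ps * ((Ps.A (2 * k) : ℝ) * h) := by positivity
    have h5 : (0 : ℝ) < 2 ^ j := by positivity
    rw [pow_succ]
    nlinarith [mul_pos h3 h5]
  · show 5 * (5 / 4 * (pvduzLam Ps * (Ps.A (2 * k) * h)) * 2 ^ j) / 4 ≤ 25 / 16 * (pvduzLam Ps * (Ps.A (2 * k) * h)) * 4 ^ mt
    have := hA (2 * k) (by have : k < g := hk; omega)
    have h3 : 0 < pvduzLam Ps * ((Ps.A (2 * k) : ℝ) * h) := by positivity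
    have h5 : (2 : ℝ) ^ j ≤ 4 ^ mt := by
      have : (4 : ℝ) ^ mt = 2 ^ (2 * mt) := by rw [pow_mul]; norm_num
      rw [this]
      exact pow_le_pow_right₀ (by norm_num) (le_of_lt hj)
    nlinarith
  · show h + 5 * (pvduzLam Ps * (Ps.A (2 * k + 1) * h)) / 4 ≤ 6 * Rp / 5
    have e1 : (Ps.A (2 * k + 1) : ℝ) ≤ Ps.L := by exact_mod_cast hN.A_le_L (by have : k < g := hk; omega)
    have e2 : pvduzLam Ps * (Ps.A (2 * k + 1) * h) ≤ pvduzLam Ps * (Ps.L * h) := by gcongr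
    linarith

/-! ## 2. kit -/

/-- the grid point `z` is within `4 A h` of the corner of every box of side `A h` next to its box -/
theorem pvduz_ctr_dist {h : ℝ} (hh : 0 < h) {A : ℕ} (hA : 0 < A) {z b : ℤ × ℤ} (hb : PvagNear 1 (pvagCg A z) b) : ‖l9Pt h z - pv5Ctr (A * h) b‖ ≤ 4 * (A * h) := by
  have key : ∀ u v : ℤ, |u / (A : ℤ) - v| ≤ 1 → |(u : ℝ) * h - A * h * v| ≤ 2 * (A * h) := by
    intro u v huv
    have hA' : (0 : ℤ) < A := by exact_mod_cast hA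
    have e1 := Int.mul_ediv_add_emod u A
    have e2 := Int.emod_nonneg u hA'.ne'
    have e3 := Int.emod_lt_of_pos u hA'
    obtain ⟨l1, l2⟩ := abs_le.1 huv
    have i1 : -(A : ℤ) ≤ u - A * v := by nlinarith
    have i2 : u - A * v ≤ 2 * A := by nlinarith
    have r1 : -(A : ℝ) ≤ (u : ℝ) - A * v := by exact_mod_cast i1
    have r2 : (u : ℝ) - A * v ≤ 2 * A := by exact_mod_cast i2
    have e : (u : ℝ) * h - A * h * v = ((u : ℝ) - A * v) * h := by ring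
    have hAr : (0 : ℝ) < A := by exact_mod_cast hA
    rw [e, abs_le]
    constructor <;> nlinarith
  refine (Complex.norm_le_abs_re_add_abs_im _).trans ?_
  have e1 : (l9Pt h z - pv5Ctr (A * h) b).re = (z.1 : ℝ) * h - A * h * b.1 := by simp [l9Pt, pv5Ctr]
  have e2 : (l9Pt h z - pv5Ctr (A * h) b).im = (z.2 : ℝ) * h - A * h * b.2 := by simp [l9Pt, pv5Ctr]
  rw [e1, e2]
  linarith [key z.1 b.1 hb.1, key z.2 b.2 hb.2]

/-- the block of the box of a point is next to the block of the point -/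
theorem pvduz_box_blk {h : ℝ} (hh : 0 < h) {L : ℕ} (hL : 0 < L) (w : ℂ) : pv5Dist (pvagCg L (pvklBox h w)) (pv5Blk (L * h) w) ≤ 1 := by
  have hLr : (1 : ℝ) ≤ L := by exact_mod_cast hL
  unfold pvklBox
  rw [← pvtd_blk_cg hh hL]
  have : pv5Dist (pv5Blk (L * h) (w + ⟨h / 2, h / 2⟩)) (pv5Blk (L * h) w) ≤ ((1 : ℕ) : ℤ) := by
    refine pvtd_blk_close (by positivity) ?_
    rw [add_sub_cancel_left]
    refine (Complex.norm_le_abs_re_add_abs_im _).trans ?_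
    simp only [abs_of_pos (half_pos hh)]
    push_cast
    nlinarith
  simpa using this

/-- the block of the grid point of the box of a point is next to the block of the point -/
theorem pvduz_pt_blk {h : ℝ} (hh : 0 < h) {L : ℕ} (hL : 0 < L) (w : ℂ) : pv5Dist (pv5Blk (L * h) (l9Pt h (pvklBox h w))) (pv5Blk (L * h) w) ≤ 1 := by
  have hLr : (1 : ℝ) ≤ L := by exact_mod_cast hL
  have : pv5Dist (pv5Blk (L * h) (l9Pt h (pvklBox h w))) (pv5Blk (L * h) w) ≤ ((1 : ℕ) : ℤ) := by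
    refine pvtd_blk_close (by positivity) ?_
    rw [norm_sub_rev]
    have := pvkl_box_near hh w
    push_cast
    nlinarith
  simpa using this

/-- far blocks: far boxes -/
theorem pvduz_far {h : ℝ} (hh : 0 < h) {L : ℕ} (hL : 0 < L) {w w' : ℂ} (hd : (11 : ℤ) ≤ pv5Dist (pv5Blk (L * h) w) (pv5Blk (L * h) w')) : PvagFar L (pvklBox h w) (pvklBox h w') := by
  refine pvags_far hL (en := 9) (by norm_num) (by omega) ?_
  have h1 := pvduz_box_blk hh hL w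
  have h2 := pvduz_box_blk hh hL w'
  have h3 := pv5_dist_triangle (pv5Blk (L * h) w) (pvagCg L (pvklBox h w)) (pv5Blk (L * h) w')
  have h4 := pv5_dist_triangle (pvagCg L (pvklBox h w)) (pvagCg L (pvklBox h w')) (pv5Blk (L * h) w')
  rw [pvtd_dist_comm] at h1
  push_cast
  linarith

/-- the gate of 281 (total plane, colouring `σ == col`, colour `true`) is the family free gate of 212 -/
theorem pvduz_gate_conv {Y : Set ℂ} (hg : DelGood Y) {σ : ℂ → Bool} {col : Bool} {z : ℂ} {a b : ℝ} {G : Set (delbPl Y).Dart} {X : Finset ↥Y}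
    (h : PvgGate (pvx2T Y) (fun v : ↥Y => σ v == col) true (pvdiB (pvx2T Y) Subtype.val z a) (pvdiB (pvx2T Y) Subtype.val z b) G X) : PvdaGate Y σ col z a b := by
  have key : ∀ (Pl : PlTri ↥Y), Pl = delPl hg → ∀ (G : Set Pl.Dart), PvgGate Pl.toMap (fun v : ↥Y => σ v == col) true (pvdiB Pl.toMap Subtype.val z a) (pvdiB Pl.toMap Subtype.val z b) G X →
      PvdaGate Y σ col z a b := by
    rintro Pl rfl G hG
    refine ⟨hg, G, X, hG.face, hG.inner, hG.outer, hG.card, fun v hv => ?_, fun v hv => ?_⟩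
    · simpa using hG.col v hv
    · rcases hG.other v hv with h1 | h1
      · left
        simpa using h1
      · exact Or.inr h1
  exact key (delbPl Y) (delb_pl_eq hg) G h

/-! ## 3. (DI) on the plane `Γ(χ_e)` -/

section det

variable [∀ Y : Set ℂ, DecidableEq ↥Y]

/-- the block of a dart of the total plane -/
noncomputable def pvduzBlk (Y : Set ℂ) (ℓ : ℝ) (d : (delbPl Y).Dart) : ℤ × ℤ := pv5Blk ℓ ((pvx2T Y).src d : ℂ)

omit [∀ Y : Set ℂ, DecidableEq ↥Y] in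
theorem pvduz_eqns_cite2 : True := by
  have := @pvduzBlk.eq_1
  trivial

variable {Ps : PvdsPar} {g mt : ℕ}

/-- **the buffer** at the level `i ∈ {2k, 2k+1}`: not flagged ⟹ no five arms (density of the level) -/
theorem pvduz_five (hN : PvduzNum Ps g mt) {y : ℂ} {Rp h q : ℝ} {η : Conf PvPt} (hG : (pvduzLev Ps g mt y Rp h).G q (cfSites η)) (col : Bool) {k : ℕ} (hk : k < g) {i : ℕ} (hi : i = 2 * k ∨ i = 2 * k + 1)
    {z b : ℤ × ℤ} (hz : z ∈ (pvduzLev Ps g mt y Rp h).Zs) (hb : PvagNear 1 (pvagCg (Ps.A i) z) b) (hF : η ∉ Ps.Fl h i b) :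
    ¬ PvdnFive (pvx2T (cfSites η)) Subtype.val (fun v => cfCol η v == col) (pv5Ctr (Ps.A i * h) b) (6 * (Ps.A i * h)) (pvdsLam Ps.Mc * (6 * (Ps.A i * h))) := by
  have hh : 0 < h := hG.ok.h0
  have hi2 : i < 2 * g := by rcases hi with rfl | rfl <;> omega
  have hA0 := hN.A_pos hi2
  have hA : (1 : ℝ) ≤ Ps.A i := by exact_mod_cast hA0
  have hAi : (Ps.A i : ℝ) ≤ Ps.A (2 * k + 1) := by
    rcases hi with rfl | rfl
    · exact_mod_cast hN.A_step (by omega)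
    · exact le_rfl
  have hΛ := pvds_lam_one Ps.Mc
  have hΛ' : (1310720 : ℝ) ≤ pvdsLam Ps.Mc := by
    unfold pvdsLam
    have : (0 : ℝ) ≤ Ps.Mc := Nat.cast_nonneg _
    linarith
  have h3R : h + 5 * (pvduzLam Ps * (Ps.A (2 * k + 1) * h)) / 4 ≤ 6 * Rp / 5 := hG.ok.h3R k hk
  have hzz : ‖l9Pt h z - y‖ ≤ 2 * Rp + h := hz
  have hdist := pvduz_ctr_dist hh hA0 hb
  have key := hN.wf.five_dense hh hG.good (by rw [hN.hn]; exact hi2) b hG.dense (r := h / 2) ?_ ?_ hF col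
  · rw [hN.hw] at key
    push_cast at key
    exact key
  · rw [hN.hρ, hN.hw]
    push_cast
    nlinarith
  · rw [hN.hρ, hN.hw]
    push_cast
    intro p hp
    rw [mem_closedBall, dist_eq_norm] at hp ⊢
    show ‖p - y‖ ≤ 5 * Rp
    have t1 := norm_add₃_le (a := p - pv5Ctr (Ps.A i * h) b) (b := pv5Ctr (Ps.A i * h) b - l9Pt h z) (c := l9Pt h z - y)
    rw [show p - pv5Ctr (Ps.A i * h) b + (pv5Ctr (Ps.A i * h) b - l9Pt h z) + (l9Pt h z - y) = p - y by ring, norm_sub_rev (pv5Ctr (Ps.A i * h) b)] at t1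
    have t2 : (Ps.A i : ℝ) * h ≤ Ps.A (2 * k + 1) * h := mul_le_mul_of_nonneg_right hAi hh.le
    have t3 : 0 < (Ps.A i : ℝ) * h := by positivity
    have t4 : (pvdsLam Ps.Mc + 3 * 1) * (6 * (Ps.A i * h)) + 4 * (Ps.A i * h) ≤ 2 * (pvduzLam Ps * (Ps.A (2 * k + 1) * h)) := by
      unfold pvduzLam
      nlinarith
    have hRp := hG.ok.R0
    have hRp' : 0 < Rp := hRp
    linarith

/-- **(DI) ON THE PLANE `Γ(χ_e)`**: all the hypotheses of `pvagb_DI` (281) from the event of the level (54) and the complement of the static bad block (101) -/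
theorem pvduz_det (hN : PvduzNum Ps g mt) {y : ℂ} {Rp h q : ℝ} {η : Conf PvPt} (hG : (pvduzLev Ps g mt y Rp h).G q (cfSites η)) (col : Bool) {e : (delbPl (cfSites η)).Dart}
    (he : pvasIn (pvx2T (cfSites η)) hG.C0.Left (fun v => cfCol η v == col) e) (x : ℤ × ℤ) (hη : η ∉ Ps.SB h x) {j j' : ℕ} (hjj : j ≤ j')
    (hj : PvafIn (pvafGam (pvx2T (cfSites η)) hG.C0.Left e (fun v => cfCol η v == col)) (pvduzBlk (cfSites η) (Ps.L * h)) x j)
    (hj' : PvafFar (pvafGam (pvx2T (cfSites η)) hG.C0.Left e (fun v => cfCol η v == col)) (pvduzBlk (cfSites η) (Ps.L * h)) 11 x j')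
    (hin : ∀ t d, j ≤ t → t ≤ j' → (pvafGam (pvx2T (cfSites η)) hG.C0.Left e (fun v => cfCol η v == col))[t]? = some d → ‖((pvx2T (cfSites η)).src d : ℂ) - y‖ ≤ 2 * Rp)
    (hstay : ∀ t d, j ≤ t → t ≤ j' → (pvafGam (pvx2T (cfSites η)) hG.C0.Left e (fun v => cfCol η v == col))[t]? = some d → pv5Dist x (pvduzBlk (cfSites η) (Ps.L * h) d) ≤ 11)
    {N : ℕ} (hNJ : Ps.J * g ≤ N)
    (hnb : ¬ PvaaBad (pvx2T (cfSites η)) Subtype.val hG.C0 (Ps.L * h) 13 mt N q (pvagbSel hG.tri hG.a hG.o Subtype.val (Ps.L * h) 13 mt q (pvduzBlk (cfSites η) (Ps.L * h)) 11 Ps.J)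
      (fun v => cfCol η v == col) e x) :
    ∃ τ d, j ≤ τ ∧ τ ≤ j' ∧ (pvafGam (pvx2T (cfSites η)) hG.C0.Left e (fun v => cfCol η v == col))[τ]? = some d ∧
      ∀ k < g, PvdaGate (cfSites η) (cfCol η) col (l9Pt h (pvklBox h ((pvx2T (cfSites η)).src d : ℂ))) (Ps.A (2 * k) * h) (5 / 4 * pvduzLam Ps * Ps.A (2 * k + 1) * h) := by
  have hh : 0 < h := hG.ok.h0
  have hRp : 0 < Rp := hG.ok.R0
  have hL0 : 0 < Ps.L := hN.wf.L_pos
  have hLr : (1 : ℝ) ≤ Ps.L := by exact_mod_cast hL0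
  have hℓ : 0 < (Ps.L : ℝ) * h := by positivity
  have hΛ := pvduz_lam_ge Ps
  obtain ⟨hmesh, hnJ, hlight⟩ := PvdsPar.use hη
  have hbox : ∀ t d, j ≤ t → t ≤ j' → (pvafGam (pvx2T (cfSites η)) hG.C0.Left e (fun v => cfCol η v == col))[t]? = some d →
      pv5Dist (pvagCg Ps.L (pvklBox h ((pvx2T (cfSites η)).src d : ℂ))) x ≤ 12 := by
    intro t d a1 a2 a3
    have e1 := pvduz_box_blk hh hL0 ((pvx2T (cfSites η)).src d : ℂ)
    have e2 := hstay t d a1 a2 a3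
    rw [pvtd_dist_comm] at e2
    have e3 := pv5_dist_triangle (pvagCg Ps.L (pvklBox h ((pvx2T (cfSites η)).src d : ℂ))) (pv5Blk (Ps.L * h) ((pvx2T (cfSites η)).src d : ℂ)) x
    have e2' : pv5Dist (pv5Blk (Ps.L * h) ((pvx2T (cfSites η)).src d : ℂ)) x ≤ 11 := e2
    linarith
  have H := pvagb_DI hG.tri hG.a hG.o Subtype.val (Ps.L * h) 13 mt q (pvduzBlk (cfSites η) (Ps.L * h)) 11 Ps.J hG.isSph (delbPl (cfSites η)).toMap_simple hG.C0_at.fin Ps.n0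
    (A := Ps.A) (M := fun _ => Ps.Mc) (fun i hi => ⟨hN.A_pos hi, hN.wf.Mc_pos, hN.hA i hi⟩) he (fun i _ b => η ∈ Ps.Fl h i b)
    (fun z hz k hk Q b hF hQ hb => ?_) (fun z hz k hk Q b hF hQ hb => ?_) (by norm_num) x
    (hN.wf.hJ_plane hh x hG.good hmesh hnJ _ e col _ (fun _ => rfl) le_rfl) hjj hj hj'
    (fun t d d' a1 a2 a3 a4 => ?_) (fun t d a1 a2 a3 => PvklPar.box_mem hG.ok (hin t d a1 a2 a3)) (fun d d' hd hd' => ?_) (fun i hi c hc hv => ?_) hG.htow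
    (fun t d a1 a2 a3 k hk => ?_) hNJ hnb
  · obtain ⟨τ, d, t1, t2, t3, t4, t5⟩ := H
    refine ⟨τ, d, t1, t2, t3, fun k hk => ?_⟩
    obtain ⟨G', X, hgate⟩ := t5 k hk
    have hc := PvklPar.ctr_mem hG.ok t4
    have h0 := hG.cy_at hc (PvklPar.r0_mem (P := pvduzLev Ps g mt y Rp h) hk)
    have h3 := hG.cy_at hc (PvklPar.r3_mem (P := pvduzLev Ps g mt y Rp h) hk)
    refine pvduz_gate_conv hG.good (G := G') (X := X) (pvkl_gate_disc h0 h3 hgate ?_ ?_)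
    · show ‖l9Pt h (pvklBox h ((pvx2T (cfSites η)).src d : ℂ)) - l9Pt h (pvklBox h ((pvx2T (cfSites η)).src d : ℂ))‖ + Ps.A (2 * k) * h ≤ Ps.A (2 * k) * h
      rw [sub_self, norm_zero, zero_add]
    · show ‖l9Pt h (pvklBox h ((pvx2T (cfSites η)).src d : ℂ)) - l9Pt h (pvklBox h ((pvx2T (cfSites η)).src d : ℂ))‖ + 5 * (pvduzLam Ps * (Ps.A (2 * k + 1) * h)) / 4
        ≤ 5 / 4 * pvduzLam Ps * Ps.A (2 * k + 1) * h
      rw [sub_self, norm_zero, zero_add]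
      exact le_of_eq (by ring)
  · -- hbuf
    have hk : k < g := hk
    have hc := PvklPar.ctr_mem hG.ok hz
    have hA0 := hN.A_pos (i := 2 * k) (by omega)
    have hdist := pvduz_ctr_dist hh hA0 hb
    have hAr : (0 : ℝ) < Ps.A (2 * k) := by exact_mod_cast hA0
    have hAh : 0 < (Ps.A (2 * k) : ℝ) * h := by positivity
    refine pvkl_buf (hG.cy_at hc (PvklPar.r0_mem (P := pvduzLev Ps g mt y Rp h) hk)) (hG.cy_at hc (PvklPar.r1_mem (P := pvduzLev Ps g mt y Rp h) hk))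
      (pvduz_five hN hG col hk (Or.inl rfl) hz hb hF) ?_ ?_
    · show ‖l9Pt h z - pv5Ctr (Ps.A (2 * k) * h) b‖ + 5 * (Ps.A (2 * k) * h) / 4 ≤ 6 * (Ps.A (2 * k) * h)
      linarith
    · show ‖l9Pt h z - pv5Ctr (Ps.A (2 * k) * h) b‖ + pvdsLam Ps.Mc * (6 * (Ps.A (2 * k) * h)) ≤ pvduzLam Ps * (Ps.A (2 * k) * h)
      unfold pvduzLam
      linarith
  · -- hbuf'
    have hk : k < g := hk
    have hc := PvklPar.ctr_mem hG.ok hz
    have hA0 := hN.A_pos (i := 2 * k + 1) (by omega)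
    have hdist := pvduz_ctr_dist hh hA0 hb
    have hAr : (0 : ℝ) < Ps.A (2 * k + 1) := by exact_mod_cast hA0
    have hAh : 0 < (Ps.A (2 * k + 1) : ℝ) * h := by positivity
    refine pvkl_buf (hG.cy_at hc (PvklPar.r2_mem (P := pvduzLev Ps g mt y Rp h) hk)) (hG.cy_at hc (PvklPar.r3_mem (P := pvduzLev Ps g mt y Rp h) hk))
      (pvduz_five hN hG col hk (Or.inr rfl) hz hb hF) ?_ ?_
    · show ‖l9Pt h z - pv5Ctr (Ps.A (2 * k + 1) * h) b‖ + 5 * (25 / 16 * (pvduzLam Ps * (Ps.A (2 * k) * h)) * 4 ^ mt) / 4 ≤ 6 * (Ps.A (2 * k + 1) * h)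
      have e1 := hN.hT k hk
      have e3 : 5 * (25 / 16 * (pvduzLam Ps * (Ps.A (2 * k) * h)) * 4 ^ mt) / 4 = (125 / 64 * (pvduzLam Ps * Ps.A (2 * k)) * 4 ^ mt) * h := by ring
      have e4 : (125 / 64 * (pvduzLam Ps * Ps.A (2 * k)) * 4 ^ mt) * h ≤ 2 * (Ps.A (2 * k + 1) : ℝ) * h := mul_le_mul_of_nonneg_right e1 hh.le
      rw [e3]
      linarith
    · show ‖l9Pt h z - pv5Ctr (Ps.A (2 * k + 1) * h) b‖ + pvdsLam Ps.Mc * (6 * (Ps.A (2 * k + 1) * h)) ≤ pvduzLam Ps * (Ps.A (2 * k + 1) * h)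
      unfold pvduzLam
      linarith
  · -- hwalk
    have e1 : (pvx2T (cfSites η)).src d' = (pvx2T (cfSites η)).tgt d := pvagm_walk_get (pvaf_gam_path e).1 a3 a4
    have e2 := hG.mesh ((pvx2T (cfSites η)).src d) ((pvx2T (cfSites η)).tgt d) ⟨d, rfl, rfl⟩ (by
      have := hin t d a1 a2.le a3
      show ‖((pvx2T (cfSites η)).src d : ℂ) - y‖ ≤ 4 * Rp
      linarith)
    show PvagNear 1 (pvklBox h ((pvx2T (cfSites η)).src d : ℂ)) (pvklBox h ((pvx2T (cfSites η)).src d' : ℂ))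
    rw [e1]
    exact pvkl_box_step hh e2
  · -- hfar
    show PvagFar (Ps.A (2 * g)) (pvklBox h ((pvx2T (cfSites η)).src d : ℂ)) (pvklBox h ((pvx2T (cfSites η)).src d' : ℂ))
    rw [← hN.hL]
    show PvagFar Ps.L (pvklBox h ((pvx2T (cfSites η)).src d : ℂ)) (pvklBox h ((pvx2T (cfSites η)).src d' : ℂ))
    refine pvduz_far hh hL0 ?_
    have hd1 : pv5Blk (Ps.L * h) ((pvx2T (cfSites η)).src d : ℂ) = x := hd
    rw [hd1]
    exact_mod_cast hd'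
  · -- hlight
    have hi : i < 2 * g := hi
    obtain ⟨t, d, a1, a2, a3, a4⟩ := hv 0 (Nat.zero_le _)
    have hi' : i < Ps.n := by rw [hN.hn]; exact hi
    refine hlight i hi' c hc ?_
    rw [a4]
    refine hN.wf.cell_of_box hi' ?_
    rw [hN.hd]
    exact_mod_cast hbox t d a1 a2 a3
  · -- hAdm
    have hk : k < g := hk
    have hz := PvklPar.box_mem hG.ok (hin t d a1 a2 a3)
    refine hG.adm (w := 12) hz hk hℓ ?_ ?_
    · show 25 / 16 * (pvduzLam Ps * (Ps.A (2 * k) * h)) * 4 ^ mt ≤ Ps.L * h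
      have e1 := hN.hT k hk
      have e2 : 4 * (Ps.A (2 * k + 1) : ℝ) ≤ Ps.L := by exact_mod_cast (hN.A_step4 (i := 2 * k + 1) (by omega)).trans (hN.A_le_L (by omega))
      have e3 : 25 / 16 * (pvduzLam Ps * (Ps.A (2 * k) * h)) * 4 ^ mt = 4 / 5 * ((125 / 64 * (pvduzLam Ps * Ps.A (2 * k)) * 4 ^ mt) * h) := by ring
      have e4 : (125 / 64 * (pvduzLam Ps * Ps.A (2 * k)) * 4 ^ mt) * h ≤ 2 * (Ps.A (2 * k + 1) : ℝ) * h := mul_le_mul_of_nonneg_right e1 hh.le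
      have e5 : 4 * (Ps.A (2 * k + 1) : ℝ) * h ≤ Ps.L * h := mul_le_mul_of_nonneg_right e2 hh.le
      have e6 : (0 : ℝ) ≤ (Ps.A (2 * k + 1) : ℝ) * h := by positivity
      rw [e3]
      linarith
    · have e1 := pvduz_pt_blk hh hL0 ((pvx2T (cfSites η)).src d : ℂ)
      have e2 := hstay t d a1 a2 a3
      rw [pvtd_dist_comm] at e2
      have e2' : pv5Dist (pv5Blk (Ps.L * h) ((pvx2T (cfSites η)).src d : ℂ)) x ≤ 11 := e2
      have e3 := pv5_dist_triangle (pv5Blk (Ps.L * h) (l9Pt h (pvklBox h ((pvx2T (cfSites η)).src d : ℂ)))) (pv5Blk (Ps.L * h) ((pvx2T (cfSites η)).src d : ℂ)) x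
      push_cast
      show pv5Dist (pv5Blk (Ps.L * h) (l9Pt h (pvklBox h ((pvx2T (cfSites η)).src d : ℂ)))) x ≤ 12
      linarith

end det

/-! ## 4. the frame and the adaptive data of a patch; (DI) for the sub-arcs of the rims of the completions -/

section patch

variable [∀ Y : Set ℂ, DecidableEq ↥Y]

/-- the property of the constant `q` of 54 (`pvkl_G_ord`) -/
def PvduzQ (q : ℝ) : Prop := ∀ P : ℕ → PvklPar, (∀ᶠ m in atTop, (P m).Ok) → PvhbOrd fun m ε => ((pvhbUp ε).P {p | ¬ (P m).G q (cfSites (pvConf (pvMerge p)))}).toReal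

omit [∀ Y : Set ℂ, DecidableEq ↥Y] in
theorem pvduz_eqns_cite3 : True := by
  have := @PvduzQ.eq_1
  trivial

variable {Ps : PvdsPar} {g mt : ℕ}

omit [∀ Y : Set ℂ, DecidableEq ↥Y] in
/-- the numbers of the levels are eventually in order -/
theorem pvduz_lev_ev (hN : PvduzNum Ps g mt) (y : ℂ) {Rp : ℝ} (hR : 0 < Rp) {h : ℕ → ℝ} (h0 : ∀ m, 0 < h m) (hlim : Tendsto h atTop (𝓝 0)) : ∀ᶠ m in atTop, (pvduzLev Ps g mt y Rp (h m)).Ok := by
  have hΛ := pvduz_lam_ge Ps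
  have hc : 0 < 1 + 5 * (pvduzLam Ps * Ps.L) / 4 := by positivity
  have h1 : Tendsto (fun m => (1 + 5 * (pvduzLam Ps * Ps.L) / 4) * h m) atTop (𝓝 0) := by simpa using hlim.const_mul (1 + 5 * (pvduzLam Ps * Ps.L) / 4)
  filter_upwards [h1.eventually (ge_mem_nhds (by positivity : 0 < 6 * Rp / 5)), hlim.eventually (ge_mem_nhds (by positivity : 0 < Rp / 2))] with m a1 a2
  exact pvduz_lev_ok hN y hR (h0 m) (by linarith) a2

/-- **the frame events of the patch** `(y, R / 4)`, core radius `R / 2` -/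
noncomputable def pvduzFr (hN : PvduzNum Ps g mt) {q : ℝ} (hq0 : 0 < q) (hq1 : q < 1) (hq : PvduzQ q) {h : ℕ → ℝ} (h0 : ∀ m, 0 < h m) (hlim : Tendsto h atTop (𝓝 0)) {x : ℂ} {R : ℝ} (hR : 0 < R)
    {y : ℂ} (hy : ‖y - x‖ ≤ 3 * R) : PvX2Fr x R y (R / 2) where
  q0 := q
  q0_pos := hq0
  q0_le := hq1.le
  G := fun m Y => (pvduzLev Ps g mt y (R / 4) (h m)).G q Y
  C0 := fun m Y hG => PvklPar.G.C0 hG
  C1 := fun m Y hG => PvklPar.G.C1 hG
  mac := fun m Y hG => ⟨PvklPar.G.good hG, PvklPar.G.geo hG, fun v hv => PvklPar.G.C1_int hG (by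
      show ‖(v : ℂ) - y‖ ≤ 2 * (R / 4)
      linarith), fun v hv => by
      have e1 : ‖(v : ℂ) - y‖ < 4 * (R / 4) := PvklPar.G.C0_lt hG hv
      have e2 := norm_add_le ((v : ℂ) - y) (y - x)
      rw [sub_add_sub_cancel] at e2
      linarith⟩
  G_ord := hq (fun m => pvduzLev Ps g mt y (R / 4) (h m)) (pvduz_lev_ev hN y (by positivity) h0 hlim)

/-- **the adaptive data of the patch**: the selection of record of 281 -/
noncomputable def pvduzAd (hN : PvduzNum Ps g mt) {q : ℝ} (hq0 : 0 < q) (hq1 : q < 1) (hq : PvduzQ q) {h : ℕ → ℝ} (h0 : ∀ m, 0 < h m) (hlim : Tendsto h atTop (𝓝 0)) {x : ℂ} {R : ℝ} (hR : 0 < R)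
    {y : ℂ} (hy : ‖y - x‖ ≤ 3 * R) (N : ℕ) (hp : ENNReal.ofReal (N * (1 - q) ^ mt) ≤ pvtdQ 13) : PvX2Ad (pvduzFr hN hq0 hq1 hq h0 hlim hR hy) where
  q := q
  q_le := hq1.le
  w := 13
  mt := fun _ => mt
  N := fun _ => N
  hp := Eventually.of_forall fun _ => hp
  Sel := fun m Y hG => pvagbSel (PvklPar.G.tri hG) (PvklPar.G.a hG) (PvklPar.G.o hG) Subtype.val (Ps.L * h m) 13 mt q (pvduzBlk Y (Ps.L * h m)) 11 Ps.J
  hSel := fun m Y hG e he he' b => pvagb_sel_meas (PvklPar.G.tri hG) (PvklPar.G.a hG) (PvklPar.G.o hG) Subtype.val (Ps.L * h m) 13 mt q (pvduzBlk Y (Ps.L * h m)) 11 Ps.J (PvklPar.G.C0_at hG).fin he he' b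

theorem pvduz_eqns_cite4 : True := by
  have := @pvduzFr.eq_1; have := @pvduzAd.eq_1
  trivial

/-- **(DI) IN ONE PATCH, FOR ALL THE SUB-ARCS OF THE RIMS OF THE COMPLETIONS** -/
theorem pvduz_di (hN : PvduzNum Ps g mt) {q : ℝ} (hq0 : 0 < q) (hq1 : q < 1) (hq : PvduzQ q) {h : ℕ → ℝ} (h0 : ∀ m, 0 < h m) (hlim : Tendsto h atTop (𝓝 0)) {x : ℂ} {R : ℝ} (hR : 0 < R)
    {y : ℂ} (hy : ‖y - x‖ ≤ 3 * R) {N : ℕ} (hp : ENNReal.ofReal (N * (1 - q) ^ mt) ≤ pvtdQ 13) (hNJ : Ps.J * g ≤ N) (m : ℕ) (p : PvGeoT × PvColT) {P : PvbRim} (hP : P ∈ pvhbAll x R (pvMerge p))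
    (s n : ℕ) (hsn : s + n ≤ P.len) :
    PvtdDI (Ps.L * h m) 12 x R (pvx2Sub P s n) (pvx2Pl g (fun k => (Ps.A (2 * k) : ℝ)) (fun k => 5 / 4 * pvduzLam Ps * Ps.A (2 * k + 1)) (h m) (pvMerge p) (pvx2Sub P s n))
      (fun b => pvConf (pvMerge p) ∈ Ps.SB (h m) b) ((pvduzAd hN hq0 hq1 hq h0 hlim hR hy N hp).AB (fun m => Ps.L * h m) m p (pvx2Sub P s n)) := by
  intro j j' hjj hj' hin hfar hS hA
  have hj'n : j' ≤ n := hj'
  have hh := h0 m
  have hL0 : 0 < Ps.L := hN.wf.L_pos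
  have hLr : (1 : ℝ) ≤ Ps.L := by exact_mod_cast hL0
  have hℓ : 0 < (Ps.L : ℝ) * h m := by positivity
  unfold PvX2Ad.AB pvaaAB at hA
  push Not at hA
  obtain ⟨hG, col, e, ⟨hG2, hcar⟩, hnb⟩ := hA
  have hG' : (pvduzLev Ps g mt y (R / 4) (h m)).G q (cfSites (pvConf (pvMerge p))) := hG
  have hM := (pvduzFr hN hq0 hq1 hq h0 hlim hR hy).mac m _ hG
  obtain ⟨k₀, hk⟩ := pvago_infix hR hM hP hcar
  have hcore : ∀ t ≤ n, ‖P.v (s + t) - y‖ ≤ R / 2 := hcar.1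
  have hstep : ∀ t, j ≤ t → t < j' → ‖P.v (s + (t + 1)) - P.v (s + t)‖ ≤ Ps.L * h m := by
    intro t a1 a2
    obtain ⟨f, -, f2, f3⟩ := hk t (by omega)
    have e2 := hG'.mesh ((pvx2T _).src f) ((pvx2T _).tgt f) ⟨f, rfl, rfl⟩ (by
      show ‖((pvx2T _).src f : ℂ) - y‖ ≤ 4 * (R / 4)
      rw [f2]
      linarith [hcore t (by omega)])
    have e3 : ‖((pvx2T _).tgt f : ℂ) - ((pvx2T _).src f : ℂ)‖ ≤ h m := e2
    rw [f2, f3] at e3
    rw [← add_assoc]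
    nlinarith
  obtain ⟨j'', b1, b2, hIn, hFar, hall⟩ := pvago_passage (pvafGam (pvx2T _) hG'.C0.Left e (fun v => cfCol (pvConf (pvMerge p)) v == col)) (fun d => ((pvx2T _).src d : ℂ)) (fun t => P.v (s + t))
    (k₀ := k₀) (n := n) (fun t ht => by
      obtain ⟨f, f1, f2, -⟩ := hk t ht
      exact ⟨f, f1, f2⟩) hℓ hjj hj'n hstep 11 hfar
  obtain ⟨τ, d, c1, c2, c3, c4⟩ := pvduz_det hN hG' col hcar.2.1 (pv5Blk (Ps.L * h m) (P.v (s + j))) hS (Nat.add_le_add_left b1 k₀) hIn hFar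
    (fun t d a1 a2 a3 => by
      rw [(hall t d a1 a2 a3).1]
      have := hcore (t - k₀) (by omega)
      linarith) (fun t d a1 a2 a3 => (hall t d a1 a2 a3).2) hNJ hnb
  have hpos : ((pvx2T _).src d : ℂ) = P.v (s + (τ - k₀)) := (hall τ d c1 c2 c3).1
  have hcol : cfCol (pvConf (pvMerge p)) ((pvx2T _).src d : ℂ) = col := by
    have := pvaf_gam_black (List.mem_of_getElem? c3)
    simpa using this
  refine ⟨⟨τ - k₀, l9Pt (h m) (pvklBox (h m) ((pvx2T _).src d : ℂ)), pvklBox (h m) ((pvx2T _).src d : ℂ)⟩, ⟨rfl, ⟨?_, fun k hk => ?_⟩⟩, ?_, ?_⟩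
  · show ‖P.v (s + (τ - k₀)) - l9Pt (h m) (pvklBox (h m) ((pvx2T _).src d : ℂ))‖ ≤ h m
    rw [← hpos]
    exact pvkl_box_near hh _
  · show PvdaGate _ _ (cfCol (pvConf (pvMerge p)) (P.v (s + (τ - k₀)))) _ _ _
    rw [← hpos, hcol]
    exact c4 k hk
  · show j ≤ τ - k₀
    omega
  · show τ - k₀ ≤ j'
    omega

end patch

/-! ## 5. the numbers exist -/

theorem pvduz_lam_le {Ps : PvdsPar} (h : 1310723 ≤ Ps.Mc) : pvduzLam Ps ≤ 1543 * Ps.Mc := by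
  unfold pvduzLam pvdsLam
  have : (1310723 : ℝ) ≤ Ps.Mc := by exact_mod_cast h
  linarith

/-- the numbers of record of 101 (`pvduPar`) with a constant ratio `K` -/
theorem pvduz_num {g mt Cw J A0 K Mc : ℕ} (hA : 0 < A0) (hK1 : pvduN0 (2 * g) 6 + (257 * 6 + 1) ≤ K) (hK2 : 1543 * 4 ^ mt ≤ K) (hMc : 1310723 ≤ Mc) :
    PvduzNum (pvduPar (2 * g) 6 12 (Cw + 16) J A0 (fun _ => K) Mc) g mt where
  wf := pvdu_par_wf (by norm_num) (by omega) (by omega) hA (fun _ _ => hK1) hMc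
  hn := rfl
  hw := rfl
  hρ := rfl
  hd := rfl
  hA := fun i _ => by
    show (pvduN0 (2 * g) 6 + 4) * (Mc * pvduA A0 Mc (fun _ => K) i) ≤ K * Mc * pvduA A0 Mc (fun _ => K) i
    rw [mul_assoc]
    exact Nat.mul_le_mul_right _ (by omega)
  hL := rfl
  hT := fun k _ => by
    have e1 : pvduzLam (pvduPar (2 * g) 6 12 (Cw + 16) J A0 (fun _ => K) Mc) ≤ 1543 * Mc := pvduz_lam_le hMc
    have e0 : 0 ≤ pvduzLam (pvduPar (2 * g) 6 12 (Cw + 16) J A0 (fun _ => K) Mc) := by linarith [pvduz_lam_ge (pvduPar (2 * g) 6 12 (Cw + 16) J A0 (fun _ => K) Mc)]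
    have e2 : (1543 : ℝ) * 4 ^ mt ≤ K := by exact_mod_cast hK2
    show 125 / 64 * (pvduzLam (pvduPar (2 * g) 6 12 (Cw + 16) J A0 (fun _ => K) Mc) * ((pvduA A0 Mc (fun _ => K) (2 * k) : ℕ) : ℝ)) * 4 ^ mt ≤ 2 * ((K * Mc * pvduA A0 Mc (fun _ => K) (2 * k) : ℕ) : ℝ)
    push_cast
    set a : ℝ := ((pvduA A0 Mc (fun _ => K) (2 * k) : ℕ) : ℝ) with ha
    have ha0 : 0 ≤ a := Nat.cast_nonneg _
    have hM0 : (0 : ℝ) ≤ Mc := Nat.cast_nonneg _
    have h40 : (0 : ℝ) < 4 ^ mt := by positivity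
    calc 125 / 64 * (pvduzLam (pvduPar (2 * g) 6 12 (Cw + 16) J A0 (fun _ => K) Mc) * a) * 4 ^ mt ≤ 125 / 64 * (1543 * Mc * a) * 4 ^ mt := by gcongr
      _ = 125 / 64 * ((1543 * 4 ^ mt) * (Mc * a)) := by ring
      _ ≤ 2 * ((1543 * 4 ^ mt) * (Mc * a)) := by
        have : 0 ≤ (1543 * 4 ^ mt) * ((Mc : ℝ) * a) := by positivity
        linarith
      _ ≤ 2 * (K * (Mc * a)) := by gcongr
      _ = 2 * (K * Mc * a) := by ring

/-- `pvdu_exists` for the family `SB h x` -/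
theorem pvduz_exists (n w d a' : ℕ) (hw : 0 < w) (hd : d + 1 ≤ a') (ha : 16 ≤ a') {τ : ℝ≥0∞} (hτ : 0 < τ) :
    ∃ J0 : ℕ, ∀ J ≥ J0, ∀ (A0 : ℕ) (κ : ℕ → ℕ), 0 < A0 → (∀ i < n, pvduN0 n w + (257 * w + 1) ≤ κ i) → ∃ M0 : ℕ, ∀ Mc ≥ M0,
      1310723 ≤ Mc ∧ ∀ h : ℝ, 0 < h → ∀ x, ∀ᶠ ε in 𝓝[>] (0 : ℝ), pvP ε ((pvduPar n w d a' J A0 κ Mc).SB h x) ≤ τ := by
  obtain ⟨q, hq, hq1, hFr⟩ := pvds_fr_exists
  have hτ3 : 0 < τ / 3 := ENNReal.div_pos hτ.ne' (by norm_num)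
  obtain ⟨J0, hJ0⟩ := pvds_choose_J hq hq1 hτ3
  refine ⟨J0, fun J hJ A0 κ hA hκ => ?_⟩
  obtain ⟨M0, hM0⟩ := pvds_choose_Mc (n * ((2 * d + 1) * ∏ j ∈ Finset.range n, κ j) ^ 2 * 8 ^ pvduN0 n w * pvdsK q w ^ (2 * n + 1)) hτ3
  refine ⟨max M0 (max 1310723 (pvdsK q w)), fun Mc hMc => ?_⟩
  have h1 : M0 ≤ Mc := (le_max_left _ _).trans hMc
  have h2 : 1310723 ≤ Mc := ((le_max_left _ _).trans (le_max_right _ _)).trans hMc
  have h3 : pvdsK q w ≤ Mc := ((le_max_right _ _).trans (le_max_right _ _)).trans hMc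
  have hW := pvdu_par_wf (J := J) hw hd ha hA hκ h2
  refine ⟨h2, fun h hh x => ?_⟩
  filter_upwards [hW.sb_le hq hFr h3 hh x hτ3] with ε hε
  refine hε.trans ?_
  have e1 : ((pvduPar n w d a' J A0 κ Mc).cbNum q : ℝ≥0∞) / ((pvduPar n w d a' J A0 κ Mc).Mc : ℝ≥0∞) ≤ τ / 3 := hM0 Mc h1
  have e2 : ENNReal.ofReal (2 * (1 - q) ^ (pvduPar n w d a' J A0 κ Mc).J) ≤ τ / 3 := hJ0 J hJ
  calc _ ≤ τ / 3 + τ / 3 + τ / 3 := add_le_add (add_le_add e1 e2) le_rfl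
    _ = τ := ENNReal.add_thirds τ

/-- the height of the towers -/
theorem pvduz_choose_mt {q : ℝ} (hq : 0 < q) (hq1 : q < 1) (N : ℕ) {τ : ℝ≥0∞} (hτ : 0 < τ) : ∃ mt : ℕ, ENNReal.ofReal (N * (1 - q) ^ mt) ≤ τ := by
  have h1 : Tendsto (fun J : ℕ => (N : ℝ) * (1 - q) ^ J) atTop (𝓝 0) := by
    simpa using (tendsto_pow_atTop_nhds_zero_of_lt_one (by linarith : (0 : ℝ) ≤ 1 - q) (by linarith)).const_mul (N : ℝ)
  have h2 : Tendsto (fun J : ℕ => ENNReal.ofReal ((N : ℝ) * (1 - q) ^ J)) atTop (𝓝 0) := by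
    simpa using ENNReal.tendsto_ofReal h1
  exact (h2.eventually (Iic_mem_nhds hτ)).exists

/-! ## 6. THE EXIT -/

/-- **(D) THE DI PACKAGE** = `exit_pvx2_di` of `Exit/PinsA6X.lean` -/
theorem pvduz_exit [∀ Y : Set ℂ, DecidableEq ↥Y] (a0 S : ℝ) (g Cw : ℕ) : ∃ Gl : PvX2Glob g, Cw + (Gl.ae + 1) ≤ Gl.aw ∧ (∀ j < g, a0 ≤ Gl.a j ∧ S * Gl.a j ≤ Gl.b j ∧ S * Gl.b j ≤ Gl.L) ∧
    (∀ j, j + 1 < g → S * Gl.b j ≤ Gl.a (j + 1)) ∧
    ∀ h : ℕ → ℝ, (∀ m, 0 < h m) → Tendsto h atTop (𝓝 0) → ∀ (x : ℂ) (R : ℝ), 0 < R →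
      ∃ (𝔓 : PvX2Pat x R) (Ex : ℕ → ℝ → Set (PvGeoT × PvColT)), PvhbOrd (fun m ε => ((pvhbUp ε).P (Ex m ε)).toReal) ∧
        ∀ m ε, ∀ p ∉ Ex m ε, ∀ j, ∀ P ∈ pvhbAll x R (pvMerge p), ∀ s n, s + n ≤ P.len →
          PvtdDI (Gl.L * h m) Gl.ae x R (pvx2Sub P s n) (pvx2Pl g Gl.a Gl.b (h m) (pvMerge p) (pvx2Sub P s n))
            (fun b => pvConf (pvMerge p) ∈ Gl.SB (h m) b) ((𝔓.A j).AB (fun m => Gl.L * h m) m p (pvx2Sub P s n)) := by
  obtain ⟨q, hq0, hq1, hq⟩ := pvkl_G_ord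
  have hτ : 0 < pvtdQ (Cw + 16) / 2 := ENNReal.div_pos (pvtd_Q_pos _).ne' (by norm_num)
  obtain ⟨J0, hJ⟩ := pvduz_exists (2 * g) 6 12 (Cw + 16) (by norm_num) (by omega) (by omega) hτ
  obtain ⟨mt, hmt⟩ := pvduz_choose_mt hq0 hq1 (J0 * g) (pvtd_Q_pos 13)
  obtain ⟨A0, hA0⟩ : ∃ A0 : ℕ, A0 = ⌈max a0 1⌉₊ := ⟨_, rfl⟩
  obtain ⟨Sn, hSn⟩ : ∃ Sn : ℕ, Sn = ⌈max S 1⌉₊ := ⟨_, rfl⟩
  obtain ⟨K, hK⟩ : ∃ K : ℕ, K = pvduN0 (2 * g) 6 + (257 * 6 + 1) + 1543 * 4 ^ mt + 1929 * Sn := ⟨_, rfl⟩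
  have hA0p : 0 < A0 := by rw [hA0]; exact Nat.ceil_pos.2 (lt_of_lt_of_le one_pos (le_max_right _ _))
  have ha0 : a0 ≤ A0 := by rw [hA0]; exact (le_max_left _ _).trans (Nat.le_ceil _)
  have hS : S ≤ Sn := by rw [hSn]; exact (le_max_left _ _).trans (Nat.le_ceil _)
  obtain ⟨M0, hM⟩ := hJ J0 le_rfl A0 (fun _ => K) hA0p (fun _ _ => by omega)
  obtain ⟨hMc, hsmall⟩ := hM M0 le_rfl
  have hN : PvduzNum (pvduPar (2 * g) 6 12 (Cw + 16) J0 A0 (fun _ => K) M0) g mt := pvduz_num hA0p (by omega) (by omega) hMc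
  obtain ⟨Ps, hPs⟩ : ∃ Ps : PvdsPar, Ps = pvduPar (2 * g) 6 12 (Cw + 16) J0 A0 (fun _ => K) M0 := ⟨_, rfl⟩
  have hstep : ∀ i, (Ps.A (i + 1) : ℝ) = K * M0 * Ps.A i := by
    intro i
    rw [hPs]
    show ((K * M0 * pvduA A0 M0 (fun _ => K) i : ℕ) : ℝ) = K * M0 * ((pvduA A0 M0 (fun _ => K) i : ℕ) : ℝ)
    push_cast
    ring
  have hA0le : ∀ i, (A0 : ℝ) ≤ Ps.A i := by
    intro i
    rw [hPs]
    show (A0 : ℝ) ≤ ((pvduA A0 M0 (fun _ => K) i : ℕ) : ℝ)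
    have e := pvdu_A_prod A0 M0 (fun _ => K) (Nat.zero_le i)
    have hpos : 0 < ∏ j ∈ Finset.Ico 0 i, (K * M0) := Finset.prod_pos fun _ _ => Nat.mul_pos (by omega) (by omega)
    have : A0 ≤ pvduA A0 M0 (fun _ => K) i := by
      rw [e]
      exact Nat.le_mul_of_pos_left _ hpos
    exact_mod_cast this
  rw [← hPs] at hN hsmall
  have hMcP : Ps.Mc = M0 := by rw [hPs]; rfl
  have hΛ1 := pvduz_lam_ge Ps
  have hΛ2 : pvduzLam Ps ≤ 1543 * M0 := by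
    have := pvduz_lam_le (Ps := Ps) (by rw [hMcP]; exact hMc)
    rwa [hMcP] at this
  have hM1 : (1 : ℝ) ≤ M0 := by exact_mod_cast (by omega : 1 ≤ M0)
  have hKS : (1929 : ℝ) * Sn ≤ K := by exact_mod_cast (by omega : 1929 * Sn ≤ K)
  have hSn0 : (0 : ℝ) ≤ Sn := Nat.cast_nonneg _
  have hApos : ∀ i, (0 : ℝ) < Ps.A i := fun i => lt_of_lt_of_le (by exact_mod_cast hA0p) (hA0le i)
  have hb1 : ∀ j, S * (Ps.A (2 * j) : ℝ) ≤ 5 / 4 * pvduzLam Ps * Ps.A (2 * j + 1) := by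
    intro j
    have e1 := hApos (2 * j)
    have e2 : S * (Ps.A (2 * j) : ℝ) ≤ Sn * Ps.A (2 * j) := mul_le_mul_of_nonneg_right hS e1.le
    have e3 : (Sn : ℝ) * Ps.A (2 * j) ≤ K * M0 * Ps.A (2 * j) := by
      refine mul_le_mul_of_nonneg_right ?_ e1.le
      nlinarith
    have e4 := hApos (2 * j + 1)
    rw [← hstep] at e3
    nlinarith
  have hb2 : ∀ j, S * (5 / 4 * pvduzLam Ps * Ps.A (2 * j + 1)) ≤ (Ps.A (2 * j + 2) : ℝ) := by
    intro j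
    have e1 := hApos (2 * j + 1)
    have e0 : 0 ≤ 5 / 4 * pvduzLam Ps * Ps.A (2 * j + 1) := by positivity
    have e2 : S * (5 / 4 * pvduzLam Ps * Ps.A (2 * j + 1)) ≤ Sn * (5 / 4 * pvduzLam Ps * Ps.A (2 * j + 1)) := mul_le_mul_of_nonneg_right hS e0
    have e3 : 5 / 4 * pvduzLam Ps * Ps.A (2 * j + 1) ≤ 1929 * (M0 * Ps.A (2 * j + 1)) := by
      have : 5 / 4 * pvduzLam Ps ≤ 1929 * M0 := by linarith
      calc 5 / 4 * pvduzLam Ps * Ps.A (2 * j + 1) ≤ 1929 * M0 * Ps.A (2 * j + 1) := mul_le_mul_of_nonneg_right this e1.le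
        _ = 1929 * (M0 * Ps.A (2 * j + 1)) := by ring
    have e4 : (Sn : ℝ) * (5 / 4 * pvduzLam Ps * Ps.A (2 * j + 1)) ≤ Sn * (1929 * (M0 * Ps.A (2 * j + 1))) := mul_le_mul_of_nonneg_left e3 hSn0
    have e5 : (Sn : ℝ) * (1929 * (M0 * Ps.A (2 * j + 1))) ≤ K * (M0 * Ps.A (2 * j + 1)) := by
      have : 0 ≤ (M0 : ℝ) * Ps.A (2 * j + 1) := by positivity
      calc (Sn : ℝ) * (1929 * (M0 * Ps.A (2 * j + 1))) = (1929 * Sn) * (M0 * Ps.A (2 * j + 1)) := by ring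
        _ ≤ K * (M0 * Ps.A (2 * j + 1)) := mul_le_mul_of_nonneg_right hKS this
    have e6 := hstep (2 * j + 1)
    rw [show 2 * j + 2 = (2 * j + 1) + 1 by ring, e6]
    linarith
  have ha' : Ps.a' = Cw + 16 := by rw [hPs]; rfl
  refine ⟨⟨fun k => (Ps.A (2 * k) : ℝ), fun k => 5 / 4 * pvduzLam Ps * Ps.A (2 * k + 1), Ps.L, hN.wf.L_pos, 12, Cw + 16, Ps.SB, fun h hh b => ha' ▸ hN.wf.sb_reads hh b, hsmall⟩, ?_, fun j hj => ⟨?_, ?_, ?_⟩, fun j hj => ?_,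
    fun h h0 hlim x R hR => ?_⟩
  · show Cw + (12 + 1) ≤ Cw + 16
    omega
  · exact ha0.trans (hA0le _)
  · exact hb1 j
  · refine (hb2 j).trans ?_
    exact_mod_cast hN.A_le_L (by omega)
  · exact hb2 j
  · obtain ⟨t, hts, htf, hcov⟩ := (isCompact_closedBall x (2 * R)).finite_cover_balls (e := R / 4) (by positivity)
    obtain ⟨nJ, f, hf⟩ := htf.fin_embedding
    have hctr : ∀ j, ‖f j - x‖ ≤ 3 * R := by
      intro j
      have : f j ∈ closedBall x (2 * R) := hts (hf ▸ mem_range_self j)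
      rw [mem_closedBall, dist_eq_norm] at this
      linarith
    refine ⟨⟨nJ, f, R / 2, by positivity, fun z hz => ?_, fun j => pvduzFr hN hq0 hq1 hq h0 hlim hR (hctr j), fun j => pvduzAd hN hq0 hq1 hq h0 hlim hR (hctr j) (J0 * g) hmt⟩, fun _ _ => ∅, ?_,
      fun m ε p _ j P hP s n hsn => ?_⟩
    · have hz' : z ∈ closedBall x (2 * R) := by rwa [mem_closedBall, dist_eq_norm]
      obtain ⟨c, hc, hzc⟩ := mem_iUnion₂.1 (hcov hz')
      rw [← hf] at hc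
      obtain ⟨j, rfl⟩ := hc
      refine ⟨j, ?_⟩
      rw [mem_ball, dist_eq_norm] at hzc
      linarith
    · intro η hη
      refine Eventually.of_forall fun m => Eventually.of_forall fun ε => ?_
      show ((pvhbUp ε).P ∅).toReal ≤ η
      rw [PvUp.P_empty]
      simpa using hη.le
    · have hJP : Ps.J * g ≤ J0 * g := by rw [hPs]; exact le_rfl
      exact pvduz_di hN hq0 hq1 hq h0 hlim hR (hctr j) hmt hJP m p hP s n hsn

end Claimed.Agent.R289
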