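-- KEEP
import Claimed.Agent.R289.Tr.PinEK
import Claimed.Agent.R289.Tr.Shield

/-!
# Row 289 (S0537, Cardy for Poisson-Voronoi), THE WALL, road E, X3 = PIN EXISTS, file Exit/PinsDJ : AT A RIM THE BANKS OF THE TWO STUBS ARE DISJOINT      (helper235, order of 234 id 85544; prefix `pvdj_`)

WHAT.  FLAG4 (E16) separates the two erased banks only when they are VERTEX DISJOINT (bead of 98 131 175 269).      For an ACTUAL pin the disjointness is paid by the rim.      Here it is proved AT THE LEVEL OF THE BANKS (stronger than the erasures):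
with `a` = the rim time of the first dart of the inner arc, `τ` = the rim clock of 42, NT of 64 in the form `pvsh_nt` of 165:
two visits `t < P - t'` of one vertex which enclose the rim time of a rim vertex NOT visited by the two stubs enclose ALL rim times, so `t ≤ τ 0 = 0`.

* sec. 1  ONE MAP, on the clock: `pvdj_nt0` (forward time against backward time), `pvdj_rim_bk` (a rim vertex after the gate entrance against the backward bank), `pvdj_rim_fw` (a rim vertex before the gate exit against the forward bank)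
* sec. 2  TWO MAPS (`PvekG` of 152: rim in a completion, strands in the plane): `pvdj_v`, **`pvdj_banks`** (K4a), **`pvdj_inn_bk`** (K4b), **`pvdj_inn_fw`** (K4c)
* sec. 3  THE MODEL (`PvekM` of 152): `PvekM.banks`, `PvekM.inn_bk`, `PvekM.inn_fw`
* sec. 4  STATES (`Tr/Defs` v3): `pvdj_le_sub`, `pvdj_inst` (gate + run of the encoded rim + box ⟹ `PvekM`), **`pvdj_state`** = the three clauses of `PvpeDisj` (126, `Tr/PinE`) for a plane state with its two stubs in a box `BK ⊆ ball x (4R)`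
-/

set_option autoImplicit false
set_option linter.unusedSectionVars false
set_option linter.unusedVariables false

namespace Claimed.Agent.R289

open Set Claims.C0465

/-! ## 1. one map, on the clock -/

section clock

variable {V D : Type} {T : PvMap V D} {s : V → Bool} {c : T.Cyc} {j P : ℕ} {τ : ℕ → ℕ}

/-- **a forward time and a backward time with the same black end**, on the two sides of the rim time of `kb`: the forward time is `0` -/
theorem pvdj_nt0 (hT : T.IsSph) (hS : T.Simple) (hc : c.IsRim s) (hb : s (T.src (c.e 0)) = true) (H : PvshClock T s c j P τ) {kb t t' : ℕ} (hkb : kb < c.n) (h1 : t ≤ τ kb) (h2 : τ kb + t' < P)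
    (e : T.src (pvasIt T s (T.rotInv (c.e j)) t) = T.src ((pvasBack T s)^[t'] (T.rotInv (c.e j)))) : t = 0 := by
  rw [H.back (by omega)] at e
  have h3 := pvsh_nt hT hS hc hb H (k := t) (k' := P - t') (by omega) (by omega) e.symm hkb (show 0 < c.n by omega) h1 (by omega)
  rw [H.zero] at h3
  omega

/-- a rim vertex strictly after the place `j`, before `kb`, is not a black end of the backward strand -/
theorem pvdj_rim_bk (hT : T.IsSph) (hS : T.Simple) (hc : c.IsRim s) (hb : s (T.src (c.e 0)) = true) (H : PvshClock T s c j P τ) {kb i t' : ℕ} (hkb : kb < c.n) (hi0 : 0 < i) (hi : i ≤ kb) (h2 : τ kb + t' < P) :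
    T.src (c.e (j + i)) ≠ T.src ((pvasBack T s)^[t'] (T.rotInv (c.e j))) := by
  intro e
  have hi' : i < c.n := by omega
  have h1 : τ i ≤ τ kb := by
    rcases Nat.eq_or_lt_of_le hi with e' | e'
    · rw [e']
    · exact (H.mono e' hkb).le
  have h3 := pvdj_nt0 hT hS hc hb H hkb h1 h2 (by rw [H.src hi']; exact e)
  have h4 := H.mono hi0 hi'
  rw [H.zero] at h4
  omega

/-- a rim vertex strictly before the place `j + q` is not a black end of the forward strand after a visit `δ > 0` of the vertex number `j + q`, before the rim time of `kb` -/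
theorem pvdj_rim_fw (hT : T.IsSph) (hS : T.Simple) (hc : c.IsRim s) (hb : s (T.src (c.e 0)) = true) (H : PvshClock T s c j P τ) {kb q δ i t : ℕ} (hkb : kb < c.n) (hq : q < c.n) (hδ0 : 0 < δ)
    (hδ : T.src (pvasIt T s (T.rotInv (c.e j)) δ) = T.src (c.e (j + q))) (hi : i < q) (h1 : δ ≤ t) (h2 : t < τ kb) :
    T.src (c.e (j + i)) ≠ T.src (pvasIt T s (T.rotInv (c.e j)) t) := by
  intro e
  have hi' : i < c.n := by omega
  have hP := (H.time kb hkb).1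
  rcases Nat.lt_or_ge (τ i) t with h | h
  · have h3 := pvsh_nt hT hS hc hb H (k := τ i) (k' := t) h.le (by omega) (by rw [H.src hi']; exact e.symm) hi' hkb le_rfl h
    omega
  · have h4 := H.mono hi hq
    have h3 := pvsh_nt hT hS hc hb H (k := δ) (k' := τ q) (by omega) (H.time q hq).1.le (by rw [H.src hq, hδ]) hi' (show 0 < c.n by omega) (by omega) h4
    rw [H.zero] at h3
    omega

end clock

/-! ## 2. two maps -/

section gate

variable {V D V' D' : Type} {T : PvMap V D} {T' : PvMap V' D'} {Rl : D → D' → Prop} {pos : V → ℂ} {pos' : V' → ℂ} {s : V → Bool} {s' : V' → Bool} {K5 : Set ℂ}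
  {c : T.Cyc} {dm dp : D'} {n₀ : ℕ} {inn : T'.Pth} {j : ℕ} {BK : Set ℂ}

/-- a vertex of the completion placed in the deep region is the twin of the vertex of the plane with the same position -/
theorem pvdj_v (L : PvekL T T' Rl pos pos' s s' K5) (hinj : Function.Injective pos') {d : D} {v' : V'} (hK : pos (T.src d) ∈ K5) (e : pos (T.src d) = pos' v') : pvlocV T T' Rl (T.src d) v' := by
  obtain ⟨d', hd'⟩ := pvek_dart L hK
  exact ⟨d, d', hd', rfl, hinj (by rw [← L.pos_eq _ _ hd', e])⟩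

/-- the rim vertex number `j + i` is the twin of the vertex number `i` of the inner arc -/
theorem pvdj_inn_v (G : PvekG T T' Rl pos pos' s s' K5 c dm dp n₀ inn j BK) {i : ℕ} (hi : i ≤ inn.n) : pvlocV T T' Rl (T.src (c.e (j + i))) (inn.v i) :=
  pvdj_v G.L G.inj' (by rw [G.run i hi]; exact G.sub (G.inn_mem hi)) (G.run i hi)

/-- **THE FRAME OF THE PROOFS**: the clock started at the gate, the twins of the two strands, the rim time of the cut vertex is not reached on either side -/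
theorem pvdj_frame (G : PvekG T T' Rl pos pos' s s' K5 c dm dp n₀ inn j BK) {Mp Mm : ℕ} (hp : ∀ u, u ≤ Mp → pos' (T'.src (pvasIt T' s' dp u)) ∈ BK)
    (hm : ∀ t, t ≤ Mm → pos' (T'.src ((pvasBack T' s')^[t] dm)) ∈ BK) :
    ∃ (δ' δ Per : ℕ) (τ : ℕ → ℕ), 0 < δ ∧ PvshClock T s c j Per τ ∧ δ + Mp < τ (c.n - j) ∧ τ (c.n - j) + (δ' + Mm) < Per ∧
      (∀ u, u ≤ Mp → pvlocV T T' Rl (T.src (pvasIt T s (T.rotInv (c.e j)) (δ + u))) (T'.src (pvasIt T' s' dp u))) ∧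
      ∀ t, t ≤ Mm → pvlocV T T' Rl (T.src ((pvasBack T s)^[t + δ'] (T.rotInv (c.e j)))) (T'.src ((pvasBack T' s')^[t] dm)) := by
  obtain ⟨δ', δ, Per, τ, h1, h2, h3, h4, h5, h6, h7⟩ := pvek_clock G
  have hj := G.j_pos
  have hjl := G.jl
  have hW := pvek_W G h1 hp
  have hWb := pvek_Wb G h1 hm
  have hk0 := (h7 (c.n - j) (by omega)).2
  have e0 : j + (c.n - j) = 0 + c.n := by omega
  rw [e0, c.per] at hk0
  have hPer : τ (c.n - j) < Per := (h7 (c.n - j) (by omega)).1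
  have hk0' : (pvasBack T s)^[Per - τ (c.n - j)] (T.rotInv (c.e j)) = T.rotInv (c.e 0) := by
    rw [pvzm_per_back h4 (by omega), ← hk0]
    congr 1
    omega
  have hlt : δ + Mp < τ (c.n - j) := pvek_lt G h3 hk0 hW
  have hltb : δ' + Mm < Per - τ (c.n - j) := pvek_lt_bk G h3 hk0' hWb
  have htw := pvek_it G.L h3 (n := δ + Mp) (fun i hi => G.sub (hW i (by omega)))
  have htwb := pvek_bk G.L h3 (n := δ' + Mm) (fun i hi => G.sub (hWb i (by omega)))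
  refine ⟨δ', δ, Per, τ, h2, ⟨h4, h5, h6, h7⟩, hlt, by omega, fun u hu => ?_, fun t ht => ?_⟩
  · have b1 := pvloc_v_src (T := T) (T' := T') (htw (δ + u) (by omega))
    have b2 : pvasIt T' s' (pvasIt T' s' dm δ') (δ + u) = pvasIt T' s' dp u := by
      rw [← pvas_it_add, ← Nat.add_assoc, h1, pvas_it_add, G.it]
    rwa [b2] at b1
  · have b1 := pvloc_v_src (T := T) (T' := T') (htwb (t + δ') (by omega))
    have b2 : (pvasBack T' s')^[t + δ'] (pvasIt T' s' dm δ') = (pvasBack T' s')^[t] dm := by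
      rw [Function.iterate_add_apply, pvek_bk_it G.bw le_rfl, Nat.sub_self]
      rfl
    rwa [b2] at b1

/-- **(K4a) THE BLACK BANKS OF THE TWO STUBS ARE DISJOINT** -/
theorem pvdj_banks (G : PvekG T T' Rl pos pos' s s' K5 c dm dp n₀ inn j BK) {Mp Mm : ℕ} (hp : ∀ u, u ≤ Mp → pos' (T'.src (pvasIt T' s' dp u)) ∈ BK)
    (hm : ∀ t, t ≤ Mm → pos' (T'.src ((pvasBack T' s')^[t] dm)) ∈ BK) : ∀ u, u ≤ Mp → ∀ t, t ≤ Mm → T'.src (pvasIt T' s' dp u) ≠ T'.src ((pvasBack T' s')^[t] dm) := by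
  intro u hu t ht e
  obtain ⟨δ', δ, Per, τ, h0, H, h1, h2, h3, h4⟩ := pvdj_frame G hp hm
  have hj := G.j_pos
  have hjl := G.jl
  have e1 := pvloc_v_inj G.L.loc (h3 u hu) (e ▸ h4 t ht)
  have := pvdj_nt0 G.sph G.simple G.rim (pvek_black G 0) H (kb := c.n - j) (by omega) (by omega) (by omega) e1
  omega

/-- **(K4b)** a vertex of the inner arc other than `g⁻` is not on the black bank of the entrance stub -/
theorem pvdj_inn_bk (G : PvekG T T' Rl pos pos' s s' K5 c dm dp n₀ inn j BK) {Mm : ℕ} (hm : ∀ t, t ≤ Mm → pos' (T'.src ((pvasBack T' s')^[t] dm)) ∈ BK) :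
    ∀ i, 0 < i → i ≤ inn.n → ∀ t, t ≤ Mm → inn.v i ≠ T'.src ((pvasBack T' s')^[t] dm) := by
  intro i hi0 hi t ht e
  have hp0 : ∀ u, u ≤ 0 → pos' (T'.src (pvasIt T' s' dp u)) ∈ BK := by
    intro u hu
    obtain rfl : u = 0 := by omega
    show pos' (T'.src dp) ∈ BK
    rw [← G.vn]
    exact G.inn_mem le_rfl
  obtain ⟨δ', δ, Per, τ, h0, H, h1, h2, h3, h4⟩ := pvdj_frame G hp0 hm
  have hj := G.j_pos
  have hjl := G.jl
  have e1 := pvloc_v_inj G.L.loc (pvdj_inn_v G hi) (e ▸ h4 t ht)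
  exact pvdj_rim_bk G.sph G.simple G.rim (pvek_black G 0) H (kb := c.n - j) (by omega) hi0 (by omega) (by omega) e1

/-- **(K4c)** a vertex of the inner arc other than `g⁺` is not on the black bank of the exit stub -/
theorem pvdj_inn_fw (G : PvekG T T' Rl pos pos' s s' K5 c dm dp n₀ inn j BK) {Mp : ℕ} (hp : ∀ u, u ≤ Mp → pos' (T'.src (pvasIt T' s' dp u)) ∈ BK) :
    ∀ i, i < inn.n → ∀ u, u ≤ Mp → inn.v i ≠ T'.src (pvasIt T' s' dp u) := by
  intro i hi u hu e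
  have hm0 : ∀ t, t ≤ 0 → pos' (T'.src ((pvasBack T' s')^[t] dm)) ∈ BK := by
    intro t ht
    obtain rfl : t = 0 := by omega
    show pos' (T'.src dm) ∈ BK
    rw [← G.v0]
    exact G.inn_mem (Nat.zero_le _)
  obtain ⟨δ', δ, Per, τ, h0, H, h1, h2, h3, h4⟩ := pvdj_frame G hp hm0
  have hj := G.j_pos
  have hjl := G.jl
  have e1 := pvloc_v_inj G.L.loc (pvdj_inn_v G hi.le) (e ▸ h3 u hu)
  have e2 : T.src (pvasIt T s (T.rotInv (c.e j)) δ) = T.src (c.e (j + inn.n)) := by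
    have a1 := h3 0 (Nat.zero_le _)
    have a2 := pvdj_inn_v G (le_refl inn.n)
    rw [G.vn] at a2
    exact pvloc_v_inj G.L.loc a1 a2
  exact pvdj_rim_fw G.sph G.simple G.rim (pvek_black G 0) H (kb := c.n - j) (q := inn.n) (by omega) (by omega) h0 e2 hi (by omega) (by omega) e1

end gate

/-! ## 3. the model -/

section model

variable {x : ℂ} {R μ : ℝ} {ω : PVSample} {P : PvbRim} {b : Bool} {dm dp : (delbPl (pvxY ω)).Dart} {n₀ : ℕ} {inn : (pvxT ω).Pth} {j : ℕ} {BK : Set ℂ}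

/-- **(K4a) AT THE MODEL** -/
theorem pvdj_m_banks (H : PvekM x R μ ω P b dm dp n₀ inn j BK) {Mp Mm : ℕ} (hp : ∀ u, u ≤ Mp → pvxPos ω ((pvxT ω).src (pvasIt (pvxT ω) (pvxCol ω b) dp u)) ∈ BK)
    (hm : ∀ t, t ≤ Mm → pvxPos ω ((pvxT ω).src ((pvasBack (pvxT ω) (pvxCol ω b))^[t] dm)) ∈ BK) :
    ∀ u, u ≤ Mp → ∀ t, t ≤ Mm → (pvxT ω).src (pvasIt (pvxT ω) (pvxCol ω b) dp u) ≠ (pvxT ω).src ((pvasBack (pvxT ω) (pvxCol ω b))^[t] dm) := by
  obtain ⟨V, D, T, Rl, pos, s, c, -, -, -, G⟩ := H.inst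
  exact pvdj_banks G hp hm

/-- **(K4b) AT THE MODEL** -/
theorem pvdj_m_inn_bk (H : PvekM x R μ ω P b dm dp n₀ inn j BK) {Mm : ℕ} (hm : ∀ t, t ≤ Mm → pvxPos ω ((pvxT ω).src ((pvasBack (pvxT ω) (pvxCol ω b))^[t] dm)) ∈ BK) :
    ∀ i, 0 < i → i ≤ inn.n → ∀ t, t ≤ Mm → inn.v i ≠ (pvxT ω).src ((pvasBack (pvxT ω) (pvxCol ω b))^[t] dm) := by
  obtain ⟨V, D, T, Rl, pos, s, c, -, -, -, G⟩ := H.inst
  exact pvdj_inn_bk G hm

/-- **(K4c) AT THE MODEL** -/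
theorem pvdj_m_inn_fw (H : PvekM x R μ ω P b dm dp n₀ inn j BK) {Mp : ℕ} (hp : ∀ u, u ≤ Mp → pvxPos ω ((pvxT ω).src (pvasIt (pvxT ω) (pvxCol ω b) dp u)) ∈ BK) :
    ∀ i, i < inn.n → ∀ u, u ≤ Mp → inn.v i ≠ (pvxT ω).src (pvasIt (pvxT ω) (pvxCol ω b) dp u) := by
  obtain ⟨V, D, T, Rl, pos, s, c, -, -, -, G⟩ := H.inst
  exact pvdj_inn_fw G hp

end model

/-! ## 4. states -/

/-- the vertices of a loop erasure are vertices of the walk -/
theorem pvdj_le_sub {V D : Type} {T : PvMap V D} {b : ℕ → V} {n : ℕ} {y : T.Pth} (h : PvwLE T b n y) {v : V} (hv : v ∈ y.verts) : ∃ i, i ≤ n ∧ v = b i := by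
  obtain ⟨jj, -, -, h3, -⟩ := h
  obtain ⟨i, hi, rfl⟩ := hv
  exact ⟨jj i, (h3 i hi).1, (h3 i hi).2.1⟩

section state

variable {x z : ℂ} {R μ h : ℝ} {ω : PVSample} {P : PvbRim} {b : Bool} {j : ℕ} {BK Bx : Set ℂ} {τ : PvwTy} {𝔖 : PvwSt (pvxT ω)}

/-- **a gate of the plane on an encoded rim is an instance of `PvekM`** (152): `BK ⊆ ball x (4R)` contains the core -/
theorem pvdj_inst (hR : 0 < R) (hμ : μ ≤ R) (hG : DelGood (pvxY ω)) (hF : L9Fine (pvxY ω) (Metric.closedBall x (6 * R)) μ) (hP : P ∈ pvhbAll x R ω)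
    (hg : 𝔖.Gate (pvxPos ω) h z τ (pvxCol ω b)) (hjl : j + 𝔖.inn.n < P.len) (hrun : ∀ i, i ≤ 𝔖.inn.n → P.v (j + i) = pvxPos ω (𝔖.inn.v i))
    (hsub : BK ⊆ Metric.ball x (4 * R)) (hcore : ∀ v ∈ 𝔖.core, pvxPos ω v ∈ BK) : ∃ n₀, PvekM x R μ ω P b 𝔖.dm 𝔖.dp n₀ 𝔖.inn j BK := by
  have hT : (pvxT ω).IsSph := delb_plane_isSph hG
  obtain ⟨n₀, hn₀, hin₀, hle⟩ := hg.strand
  have hinn : 0 < 𝔖.inn.n := by
    rcases Nat.eq_zero_or_pos 𝔖.inn.n with e | e
    · exfalso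
      have h1 := pvt_sd_v0 hle
      have h2 := pvt_sd_vn hle
      rw [e, h1, hn₀] at h2
      exact hg.ne h2.symm
    · exact e
  refine ⟨n₀, hR, hμ, hG, hF, hP, hg.bw_m, hn₀, hle, hinn, hjl, hrun, hsub, fun i hi => ?_⟩
  rcases Nat.lt_or_ge i n₀ with h1 | h1
  · exact hcore _ (pvwk_ins_sub_core hg ⟨_, hin₀ i h1, rfl⟩)
  · obtain rfl : i = n₀ := le_antisymm hi h1
    rw [hn₀]
    exact hcore _ (pvwk_ins_sub_core hg (pvwk_gate_ends hT hg).1)

/-- **AT A RIM THE BLACK BANKS OF THE TWO STUBS AND THE INNER ARC MEET AT `g⁻`, `g⁺` ONLY** (bank form) -/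
theorem pvdj_state_banks (hR : 0 < R) (hμ : μ ≤ R) (hG : DelGood (pvxY ω)) (hF : L9Fine (pvxY ω) (Metric.closedBall x (6 * R)) μ) (hP : P ∈ pvhbAll x R ω)
    (hg : 𝔖.Gate (pvxPos ω) h z τ (pvxCol ω b)) (hjl : j + 𝔖.inn.n < P.len) (hrun : ∀ i, i ≤ 𝔖.inn.n → P.v (j + i) = pvxPos ω (𝔖.inn.v i))
    (hsub : BK ⊆ Metric.ball x (4 * R)) (hcore : ∀ v ∈ 𝔖.core, pvxPos ω v ∈ BK) (hsp : 𝔖.StubP (pvxPos ω) Bx (pvxCol ω b)) (hsm : 𝔖.StubM (pvxPos ω) Bx (pvxCol ω b)) (hBx : Bx ⊆ BK) :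
    (∀ u ∈ 𝔖.bkP, u ∉ 𝔖.bkM) ∧ (∀ u ∈ 𝔖.bkP, ∀ i, i < 𝔖.inn.n → u ≠ 𝔖.inn.v i) ∧ ∀ u ∈ 𝔖.bkM, ∀ i, 0 < i → i ≤ 𝔖.inn.n → u ≠ 𝔖.inn.v i := by
  obtain ⟨n₀, H⟩ := pvdj_inst hR hμ hG hF hP hg hjl hrun hsub hcore
  have hp : ∀ u, u ≤ 𝔖.np → pvxPos ω ((pvxT ω).src (pvasIt (pvxT ω) (pvxCol ω b) 𝔖.dp u)) ∈ BK := fun u hu => by
    rw [← hsp.ep_it u hu]; exact hBx (hsp.ep_in u hu).1
  have hm : ∀ t, t ≤ 𝔖.nm → pvxPos ω ((pvxT ω).src ((pvasBack (pvxT ω) (pvxCol ω b))^[t] 𝔖.dm)) ∈ BK := fun t ht => by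
    rw [← hsm.em_it t ht]; exact hBx (hsm.em_in t ht).1
  refine ⟨?_, ?_, ?_⟩
  · rintro u ⟨i, hi, rfl⟩ ⟨i', hi', e⟩
    rw [hsp.ep_it i hi, hsm.em_it i' hi'] at e
    exact pvdj_m_banks H hp hm i hi i' hi' e.symm
  · rintro u ⟨i, hi, rfl⟩ k hk e
    rw [hsp.ep_it i hi] at e
    exact pvdj_m_inn_fw H hp k hk i hi e.symm
  · rintro u ⟨i, hi, rfl⟩ k hk0 hk e
    rw [hsm.em_it i hi] at e
    exact pvdj_m_inn_bk H hm k hk0 hk i hi e.symm

/-- **AT A RIM THE THREE ARCS `LE(LB Σ⁻)`, INNER ARC, `LE(LB Σ⁺)` CHAIN UP TO A SIMPLE PATH** = the body of `PvpeDisj` of 126 (`Tr/PinE`), verbatim -/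
theorem pvdj_state (hR : 0 < R) (hμ : μ ≤ R) (hG : DelGood (pvxY ω)) (hF : L9Fine (pvxY ω) (Metric.closedBall x (6 * R)) μ) (hP : P ∈ pvhbAll x R ω)
    (hg : 𝔖.Gate (pvxPos ω) h z τ (pvxCol ω b)) (hjl : j + 𝔖.inn.n < P.len) (hrun : ∀ i, i ≤ 𝔖.inn.n → P.v (j + i) = pvxPos ω (𝔖.inn.v i))
    (hsub : BK ⊆ Metric.ball x (4 * R)) (hcore : ∀ v ∈ 𝔖.core, pvxPos ω v ∈ BK) (hsp : 𝔖.StubP (pvxPos ω) Bx (pvxCol ω b)) (hsm : 𝔖.StubM (pvxPos ω) Bx (pvxCol ω b)) (hBx : Bx ⊆ BK) :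
    ∀ yp ym : (pvxT ω).Pth, PvwLE (pvxT ω) (fun i => (pvxT ω).src (𝔖.ep i)) 𝔖.np yp → PvwLE (pvxT ω) (fun i => (pvxT ω).src (𝔖.em i)) 𝔖.nm ym →
      (∀ u ∈ yp.verts, u ∉ ym.verts) ∧ (∀ u ∈ yp.verts, ∀ i, i < 𝔖.inn.n → u ≠ 𝔖.inn.v i) ∧ ∀ u ∈ ym.verts, ∀ i, 0 < i → i ≤ 𝔖.inn.n → u ≠ 𝔖.inn.v i := by
  obtain ⟨h1, h2, h3⟩ := pvdj_state_banks hR hμ hG hF hP hg hjl hrun hsub hcore hsp hsm hBx
  intro yp ym hyp hym
  have hP' : ∀ u ∈ yp.verts, u ∈ 𝔖.bkP := fun u hu => by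
    obtain ⟨i, hi, e⟩ := pvdj_le_sub hyp hu
    exact ⟨i, hi, e.symm⟩
  have hM' : ∀ u ∈ ym.verts, u ∈ 𝔖.bkM := fun u hu => by
    obtain ⟨i, hi, e⟩ := pvdj_le_sub hym hu
    exact ⟨i, hi, e.symm⟩
  exact ⟨fun u hu hu' => h1 u (hP' u hu) (hM' u hu'), fun u hu => h2 u (hP' u hu), fun u hu => h3 u (hM' u hu)⟩

end state

end Claimed.Agent.R289
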