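import Claimed.Agent.R289.Tr.StSch
import Claimed.Agent.R289.Tr.FlagAM
import Claimed.Agent.R289.Tr.GateFr
import Claimed.Agent.R289.Exit.Qbx

/-!
# Row 289 (S0537, Cardy for Poisson-Voronoi), THE WALL, Exit/PinsF2 : THE SEAM OF (F2) = `exit_pinsE_f2` of `Exit/PinsE.lean`      (helper137, post Z of 82: second of 121; prefix `pvkg_`, `Pvkg`, `pvkg`)

COMPILED GLUE.   `pvss_unit`, `pvss_model_out`, `pvss_model_in`, `pvss_hall` (233 + 153 177 181 117 69, `Tr/StSch`)  +  FLAG0, `pvfam_of_unit` (235, `Tr/FlagAM`)  +  `pvgy_m_frame` (150)   ⟹   **`pvkg_f2`** = (F2) in the form W-6 (SHIELD) of `Exit/PinsE` v2,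
stated with PLAIN NUMBERS (`a b B2 ρ₁ K0 w`: no `PvxNums`, no `PvxpNum`): for every half state of level `≤ K0` (any colour, any `N : PvwNum` with `rho = ρ`, `rho1 = ρ₁`, any type with `a b b2` as prescribed) off the flag:
a circuit round the grid centre `τ.cp h z` (`τ.cm h z`) of its tip cell, at a radius `(r, R')`, `2 ρ h ≤ r`, `R' ≤ h`, whose fresh vertices are WHITE;   and one whose fresh vertices are BLACK.
NUMBERS (units of `h`).   `J` from the budget: `(K0+1) · 8 (1 - q²)^J < ζ`;   `ρ := ρ₁ / (8 · 16^(4J))`;   innermost radius of the blocks `4 ρ`;   cells of the scheme = the squares of side `ρ/4` of the grid;   mesh `μ = 1/100`;   `W = 4 b₂ + 6`, `rE = W + 1 ≤ w`.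
-/

set_option autoImplicit false
set_option linter.unusedSectionVars false
set_option linter.unusedVariables false

namespace Claimed.Agent.R289

open MeasureTheory Filter Topology Set Metric Claims.C0465
open scoped ENNReal

/-! ## 1. circuits at a radius: change of centre, the big disc -/

section det

variable {V D : Type} {T : PvMap V D} {pos : V → ℂ}

/-- change of centre -/
theorem pvkg_at_move {y y' : ℂ} {r r' η : ℝ} {c : T.Cyc} (h : PvaxAt T pos y r r' c) (hy : ‖y - y'‖ ≤ η) : PvaxAt T pos y' (r - η) (r' + η) c where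
  fin := h.fin
  inn := fun v hv => h.inn v (by
    have e : pos v - y = (pos v - y') - (y - y') := by ring
    rw [e]
    exact (norm_sub_le _ _).trans (by linarith))
  out := fun v hv => by
    have e : pos v - y' = (pos v - y) + (y - y') := by ring
    rw [e]
    exact lt_of_le_of_lt (norm_add_le _ _) (by linarith [h.out v hv])

end det

section model

variable {Y : Set ℂ}

theorem pvkg_core {z v : ℂ} {ρ rE : ℝ} (hv : ‖v - z‖ + 3 * ρ ≤ rE) : v ∈ pvtrCore (3 * ρ) (closedBall z rE) := by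
  intro x hx
  rw [mem_closedBall, dist_eq_norm] at hx ⊢
  have e : x - z = (x - v) + (v - z) := by ring
  rw [e]
  exact (norm_add_le _ _).trans (by linarith)

/-- the three sides of a face with a vertex in the window are short -/
theorem pvkg_short {z : ℂ} {ρ rE : ℝ} (hρ : 0 < ρ) (hm : PvtrMesh ρ (closedBall z rE) Y) (d : (delbPl Y).Dart) (hv : ‖((delbPl Y).toMap.src d : ℂ) - z‖ + 3 * ρ ≤ rE) :
    ‖((delbPl Y).toMap.src d : ℂ) - ((delbPl Y).toMap.tgt d : ℂ)‖ ≤ 2 * ρ ∧ ‖((delbPl Y).toMap.src d : ℂ) - ((delbPl Y).toMap.apex d : ℂ)‖ ≤ 2 * ρ := by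
  have ht := delb_plane_face d
  exact ⟨pvge_adj_short hρ hm (pvkg_core hv) ht.adj, pvge_adj_short hρ hm (pvkg_core hv) (del_tri_cyc (del_tri_cyc ht)).adj.symm⟩

theorem pvkg_sq_out {z w : ℂ} {r : ℝ} (h : w ∉ pvwSq z r) : r < ‖w - z‖ := by
  by_contra hc
  rw [not_lt] at hc
  exact h ⟨(Complex.abs_re_le_norm _).trans hc, (Complex.abs_im_le_norm _).trans hc⟩

theorem pvkg_sq_in {z w : ℂ} {r : ℝ} (h : w ∈ pvwSq z r) : ‖w - z‖ ≤ 2 * r :=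
  (Complex.norm_le_abs_re_add_abs_im _).trans (by linarith [h.1, h.2])

end model

/-! ## 2. the parameters of the schemes of 233 -/

/-- the tip cells: the squares of side `l` of the grid in the box `vormBx M` whose corner is at distance `≥ b + 2` from the centre -/
def PvkgZ (l : ℝ) (M : ℕ) (b : ℝ) : Type := {g : ℤ × ℤ // g ∈ vormBx M ∧ b + 2 ≤ ‖pvfaPl l g‖}

theorem pvkg_Z_finite (l : ℝ) (M : ℕ) (b : ℝ) : Finite (PvkgZ l M b) :=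
  Finite.of_injective (fun y : PvkgZ l M b => (⟨y.1, y.2.1⟩ : ↥(vormBx M))) fun y y' hyy => Subtype.ext (congrArg (fun t : ↥(vormBx M) => t.1) hyy)

/-- the scheme of the box of half side `r` -/
noncomputable def pvkgPar (a b r l ρb W : ℝ) (M : ℕ) : PvssPar (PvkgZ l M b) where
  τ := { a := a, b := b, a2 := 0, b2 := 0, k := 0, o := true, yp := 0, ym := 0 }
  r := r
  cell := fun y => {w | pvplGrid l w = y.1}
  ctr := fun y => pvfaPl l y.1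
  ρ := ρb
  W := W

theorem pvkg_eqns_cite : True := by
  have := @PvkgZ.eq_1; have := @pvkgPar.eq_1
  trivial

theorem pvkg_par_wf {a b r l ρb W : ℝ} {M J : ℕ} (ha : 0 < a) (hab : a ≤ b) (hbW : b ≤ W) (hr : 2 * r ≤ W) (hl : 0 ≤ l) (hρ : 0 < ρb) (hB : 5 / 4 * ((16 : ℝ) ^ (4 * J) * ρb) ≤ 1)
    (hM : 2 * (l * M) + 1 ≤ W) : (pvkgPar a b r l ρb W M).Wf J where
  a0 := ha
  ab := hab
  bW := hbW
  box := fun w hw => by
    rw [mem_closedBall, dist_eq_norm]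
    exact (pvkg_sq_in hw).trans hr
  rho := hρ
  blk := fun y w hw => by
    rw [mem_closedBall, dist_eq_norm] at hw ⊢
    have h1 : ‖pvfaPl l y.1‖ ≤ 2 * (l * M) := pvfam_pl_norm hl y.2.1
    have hw' : ‖w - pvfaPl l y.1‖ ≤ 5 / 4 * ((16 : ℝ) ^ (4 * J) * ρb) := hw
    have e : w - 0 = (w - pvfaPl l y.1) + pvfaPl l y.1 := by ring
    rw [e]
    show _ ≤ W
    exact (norm_add_le _ _).trans (by linarith)
  far := fun y => by
    rw [Set.disjoint_left]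
    intro w hw hw0
    rw [mem_closedBall, dist_eq_norm] at hw hw0
    have h1 : b + 2 ≤ ‖pvfaPl l y.1‖ := y.2.2
    have hw' : ‖w - pvfaPl l y.1‖ ≤ 5 / 4 * ((16 : ℝ) ^ (4 * J) * ρb) := hw
    have hw0' : ‖w - 0‖ ≤ b := hw0
    have e : pvfaPl l y.1 = (w - 0) - (w - pvfaPl l y.1) := by ring
    have := norm_sub_le (w - 0) (w - pvfaPl l y.1)
    rw [← e] at this
    linarith
  meas := fun y => pvplb_grid_measurable l (measurableSet_singleton y.1)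
  disj := fun y y' p hp hp' => Subtype.ext ((show pvplGrid l p = y.1 from hp).symm.trans hp')

/-- the cell of a point of the ring -/
theorem pvkg_cell {b r l : ℝ} {M : ℕ} (hl : 0 < l) (hM : r ≤ l * M) {z u : ℂ} {h : ℝ} (hh : 0 < h) (hu : u ∈ pvwSq z (r * h)) (hfar : (b + 2 + 2 * l) * h ≤ ‖u - z‖) :
    ∃ y : PvkgZ l M b, u ∈ (fun w : ℂ => z + (h : ℂ) * w) '' {w | pvplGrid l w = y.1} ∧ ‖u - (z + (h : ℂ) * pvfaPl l y.1)‖ ≤ 2 * l * h := by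
  have hc : (h : ℂ) ≠ 0 := Complex.ofReal_ne_zero.2 hh.ne'
  obtain ⟨p, hp⟩ : ∃ p : ℂ, p = (h : ℂ)⁻¹ * (u - z) := ⟨_, rfl⟩
  have hup : u = z + (h : ℂ) * p := by rw [hp]; field_simp; ring
  have hre : p.re = (u - z).re / h := by rw [hp, ← Complex.ofReal_inv, Complex.re_ofReal_mul]; ring
  have him : p.im = (u - z).im / h := by rw [hp, ← Complex.ofReal_inv, Complex.im_ofReal_mul]; ring
  have h1 : |p.re| ≤ r := by rw [hre, abs_div, abs_of_pos hh, div_le_iff₀ hh]; exact hu.1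
  have h2 : |p.im| ≤ r := by rw [him, abs_div, abs_of_pos hh, div_le_iff₀ hh]; exact hu.2
  have hnear : ‖p - pvfaPl l (pvplGrid l p)‖ ≤ 2 * l := by
    rw [← dist_eq_norm]; exact pvfa_grid_near hl p _ (by rw [dist_self])
  have hn : ‖p‖ = ‖u - z‖ / h := by
    rw [hp, norm_mul, norm_inv, Complex.norm_real, Real.norm_of_nonneg hh.le]; field_simp
  have hpf : b + 2 + 2 * l ≤ ‖p‖ := by rw [hn, le_div_iff₀ hh]; exact hfar
  have hfar' : b + 2 ≤ ‖pvfaPl l (pvplGrid l p)‖ := by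
    have e : p = (p - pvfaPl l (pvplGrid l p)) + pvfaPl l (pvplGrid l p) := by ring
    have := norm_add_le (p - pvfaPl l (pvplGrid l p)) (pvfaPl l (pvplGrid l p))
    rw [← e] at this
    linarith
  refine ⟨⟨pvplGrid l p, pvfam_grid_mem hl hM h1 h2, hfar'⟩, ⟨p, rfl, hup.symm⟩, ?_⟩
  have e : u - (z + (h : ℂ) * pvfaPl l (pvplGrid l p)) = (h : ℂ) * (p - pvfaPl l (pvplGrid l p)) := by rw [hup]; ring
  show ‖u - (z + (h : ℂ) * pvfaPl l (pvplGrid l p))‖ ≤ 2 * l * h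
  rw [e, norm_mul, Complex.norm_real, Real.norm_of_nonneg hh.le]
  nlinarith

/-! ## 3. off the flag: the seals -/

section sealing

variable {a b B2 ρ₁ ρ r : ℝ} {J M : ℕ} {zi : ℂ} {𝔹 : Set (Conf PvPt)} {h : ℝ} {z : ℂ} {ω : PVSample} {N : PvwNum} {τ : PvwTy} {𝔖 : PvwSt (pvxT ω)} {c : Bool}

/-- neighbours in the window -/
theorem pvkg_sep (hh : 0 < h) (hB : 0 ≤ B2) (hm : PvtrMesh (1 / 100 * h) (closedBall z ((4 * B2 + 7) * h)) (pvxY ω)) {ra rb : ℝ} (h1 : ra + 1 ≤ rb) (h2 : ra ≤ 4 * B2 + 6) :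
    ∀ u v : ↥(pvxY ω), (delbPl (pvxY ω)).toMap.Adj u v → ‖(u : ℂ) - z‖ < ra * h → ‖(v : ℂ) - z‖ < rb * h := by
  rintro u v ⟨d, rfl, rfl⟩ hu
  have hs := (pvkg_short (by positivity) hm d (by nlinarith)).1
  have e : (((delbPl (pvxY ω)).toMap.tgt d : ↥(pvxY ω)) : ℂ) - z = (((delbPl (pvxY ω)).toMap.src d : ↥(pvxY ω)) - z) - (((delbPl (pvxY ω)).toMap.src d : ↥(pvxY ω)) - ((delbPl (pvxY ω)).toMap.tgt d : ↥(pvxY ω))) := by ring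
  rw [e]
  exact lt_of_le_of_lt (norm_sub_le _ _) (by nlinarith)

/-- the rule lies inside every gate, at the model, on the mesh event -/
theorem pvkg_hall (hg : DelGood (pvxY ω)) (hh : 0 < h) (hB : 0 ≤ B2) (hm : PvtrMesh (1 / 100 * h) (closedBall z ((4 * B2 + 7) * h)) (pvxY ω)) (ha : 1 < τ.a) (hab : τ.a + 1 ≤ τ.b) (haB : τ.a ≤ 4 * B2 + 6)
    (hgate : 𝔖.Gate (pvxPos ω) h z τ (pvxCol ω c)) (hin : 𝔖.Inmost (pvxPos ω) h z τ (pvxCol ω c)) {o : (delbPl (pvxY ω)).Dart} (ho : τ.b * h ≤ ‖pvxPos ω ((pvxT ω).src o) - z‖) :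
    ∀ (𝔖' : PvwSt (pvxT ω)) (o' : Bool), 𝔖'.Gate (pvxPos ω) h z { τ with o := o' } (pvxCol ω c) → 𝔖.S.Left ⊆ 𝔖'.S.Left := by
  have hT : (pvxT ω).IsSph := delb_plane_isSph hg
  obtain ⟨d₀, -, hd₀⟩ := hgate.round (𝔖.inn.v 𝔖.ip) (lt_of_le_of_lt hgate.ip_near (by nlinarith))
  have hd₀' : ‖((delbPl (pvxY ω)).toMap.src d₀ : ℂ) - z‖ < τ.a * h := by
    have : (pvxT ω).src d₀ = 𝔖.inn.v 𝔖.ip := hd₀
    show ‖pvxPos ω ((pvxT ω).src d₀) - z‖ < τ.a * h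
    rw [this]
    exact lt_of_le_of_lt hgate.ip_near (by nlinarith)
  have hF : PvgnFr (pvxT ω) (pvwI (pvxT ω) (pvxPos ω) z (τ.a * h)) (pvwO (pvxT ω) (pvxPos ω) z (τ.b * h)) o :=
    pvgy_m_frame hg (by nlinarith) (pvkg_sep hh hB hm hab haB) hd₀' ho
  exact fun 𝔖' o' hg' => pvss_hall hT hF hin 𝔖' o' hg'

/-- the numbers, multiplied by `h` -/
theorem pvkg_nums (hbB : b + 3 ≤ 2 * B2) (hρ0 : 0 < ρ) (hρs : ρ ≤ 1 / 8) (hr1 : 2 * B2 ≤ r) (hr2 : r ≤ 2 * B2 + 1) (hh : 0 < h) :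
    2 * (B2 * h) ≤ r * h ∧ r * h ≤ 2 * (B2 * h) + h ∧ b * h + 3 * h ≤ 2 * (B2 * h) ∧ ρ * h ≤ h / 8 ∧ 0 < ρ * h := by
  have a1 := mul_le_mul_of_nonneg_right hr1 hh.le
  have a2 := mul_le_mul_of_nonneg_right hr2 hh.le
  have a3 := mul_le_mul_of_nonneg_right hbB hh.le
  have a6 := mul_le_mul_of_nonneg_right hρs hh.le
  have a7 : 0 < ρ * h := by positivity
  refine ⟨by linarith, by linarith, by linarith, by linarith, a7⟩

/-- **THE TWO CIRCUITS OF A BLOCK, RECENTRED**: block round the corner `yc` of a cell of the scheme (innermost radius `4 ρ h`), `x` within `3 ρ h / 4` of `yc` -/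
theorem pvkg_shield {V D : Type} {T : PvMap V D} {pos : V → ℂ} {X : Set V} {s : V → Bool} {yc x : ℂ} {j : ℕ} (hh : 0 < h) (hρ0 : 0 < ρ) (hj : j < J)
    (hR : 5 / 4 * ((16 : ℝ) ^ (4 * J) * (4 * ρ)) + 3 / 4 * ρ ≤ 1) (hx : ‖yc - x‖ ≤ 3 / 4 * ρ * h) (hb : PvbpGBlock T pos X yc (4 * ρ * h) j s) :
    ∀ e : Bool, ∃ r R' : ℝ, 2 * ρ * h ≤ r ∧ R' ≤ h ∧ PvbpCirc T pos X x r R' e s := by
  obtain ⟨⟨c₁, a1, b1⟩, c₂, a2, b2⟩ := hb
  have hρh : 0 < ρ * h := by positivity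
  have p1 : ∀ n : ℕ, (1 : ℝ) ≤ (16 : ℝ) ^ n := fun n => one_le_pow₀ (by norm_num)
  have p2 : ∀ n : ℕ, n ≤ 4 * J → (16 : ℝ) ^ n ≤ (16 : ℝ) ^ (4 * J) := fun n hn => pow_le_pow_right₀ (by norm_num) hn
  have hRh := mul_le_mul_of_nonneg_right hR hh.le
  have q1 : ∀ n : ℕ, 2 * ρ * h ≤ (16 : ℝ) ^ n * (4 * ρ * h) - 3 / 4 * ρ * h := fun n => by nlinarith [p1 n]
  have q2 : ∀ n : ℕ, n ≤ 4 * J → 5 / 4 * ((16 : ℝ) ^ n * (4 * ρ * h)) + 3 / 4 * ρ * h ≤ h := fun n hn => by nlinarith [p2 n hn]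
  intro e
  cases e
  · exact ⟨_, _, q1 _, q2 _ (by omega), c₂, pvkg_at_move a2 hx, b2⟩
  · exact ⟨_, _, q1 _, q2 _ (by omega), c₁, pvkg_at_move a1 hx, b1⟩

/-- **OFF THE FLAG, EXIT HALF**: the exit half state of the box of half side `r h` is shielded round the grid centre of its tip cell -/
theorem pvkg_out (ha : 1 < a) (hab : a + 1 ≤ b) (hbB : b + 3 ≤ 2 * B2) (hρ0 : 0 < ρ) (hρs : ρ ≤ 1 / 8) (hR : 5 / 4 * ((16 : ℝ) ^ (4 * J) * (4 * ρ)) + 3 / 4 * ρ ≤ 1)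
    (hr1 : 2 * B2 ≤ r) (hr2 : r ≤ 2 * B2 + 1) (hM1 : 2 * B2 + 1 ≤ ρ / 4 * M) (hM2 : ρ / 4 * M ≤ 2 * B2 + 2) (hzi : zi ∉ closedBall (0 : ℂ) (4 * B2 + 6))
    (hrep : PvplRep (pvssTh (pvssA (pvkgPar a b r (ρ / 4) (4 * ρ) (4 * B2 + 6) M) J)) (pvbfSat (pvssFlag4 (pvkgPar a b r (ρ / 4) (4 * ρ) (4 * B2 + 6) M) J zi) (pvssK (PvkgZ (ρ / 4) M b) J))
      (pvssK (PvkgZ (ρ / 4) M b) J) (closedBall 0 (4 * B2 + 7)) (1 / 100) 𝔹)
    (hh : 0 < h) (hg : DelGood (pvxY ω)) (hm : PvtrMesh (1 / 100 * h) (closedBall z ((4 * B2 + 7) * h)) (pvxY ω)) (hno : pvConf ω ∉ pvssCopy 𝔹 z h)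
    (hN0 : N.rho = ρ) (hτa : τ.a = a) (hτb : τ.b = b) (hr : pvwRad N h τ τ.k = r * h) (hat : 𝔖.AtOut (pvxPos ω) N h z τ (pvxCol ω c)) :
    ∀ e : Bool, ∃ r R' : ℝ, 2 * ρ * h ≤ r ∧ R' ≤ h ∧ PvbpCirc (pvxT ω) (pvxPos ω) 𝔖.fzOutᶜ (τ.cp h z) r R' e (pvxCol ω c) := by
  have hB : 0 ≤ B2 := by linarith
  obtain ⟨n1, n2, n3, n6, n7⟩ := pvkg_nums hbB hρ0 hρs hr1 hr2 hh
  -- the black end of the tip dart
  obtain ⟨u, hu⟩ : ∃ u, u = pvxPos ω ((pvxT ω).src (𝔖.ep 𝔖.np)) := ⟨_, rfl⟩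
  have hu_in : u ∈ pvwSq z (r * h) := by rw [hu, ← hr]; exact (hat.stub.ep_in 𝔖.np le_rfl).1
  have hu2 : ‖u - z‖ ≤ 2 * (r * h) := pvkg_sq_in hu_in
  have hap : r * h < ‖pvxPos ω 𝔖.ap - z‖ := by rw [← hr]; exact pvkg_sq_out hat.stub.ep_out
  have hsh : ‖u - pvxPos ω 𝔖.ap‖ ≤ 2 * (1 / 100 * h) := by
    rw [hu]
    refine (pvkg_short (by positivity) hm (𝔖.ep 𝔖.np) ?_).2
    have : ‖((delbPl (pvxY ω)).toMap.src (𝔖.ep 𝔖.np) : ℂ) - z‖ ≤ 2 * (r * h) := by rw [hu] at hu2; exact hu2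
    linarith
  have hu1 : r * h - 2 * (1 / 100 * h) < ‖u - z‖ := by
    have e : pvxPos ω 𝔖.ap - z = (u - z) - (u - pvxPos ω 𝔖.ap) := by ring
    have := norm_sub_le (u - z) (u - pvxPos ω 𝔖.ap)
    rw [← e] at this
    linarith
  -- its cell
  obtain ⟨y, hy, hyc⟩ := pvkg_cell (b := b) (r := r) (l := ρ / 4) (M := M) (by positivity) (by linarith) hh hu_in (by linarith)
  -- the block
  have h𝔭 : (pvkgPar a b r (ρ / 4) (4 * ρ) (4 * B2 + 6) M).Wf J :=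
    pvkg_par_wf (by linarith) (by linarith) (by linarith) (by linarith) (by positivity) (by positivity) (by linarith) (by linarith)
  have hall := pvkg_hall (c := c) hg hh hB hm (by rw [hτa]; exact ha) (by rw [hτa, hτb]; exact hab) (by rw [hτa]; linarith) hat.gate hat.inmost (o := 𝔖.ep 𝔖.np)
    (by rw [← hu, hτb]; linarith)
  obtain ⟨j, hj, hblk⟩ := pvss_model_out h𝔭 hzi (μ := 1 / 100) (rE := 4 * B2 + 7) (by norm_num) (by show 4 * B2 + 6 + 3 * (1 / 100) ≤ 4 * B2 + 7; linarith) hrep hh z hg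
    (pvfam_fin hg.lf isBounded_closedBall) hm hno c hτa hτb hr hat hall (y := y) (by rw [← hu]; exact hy)
  -- the grid centre of the type
  have t1 := hat.good.tip_p.1
  rw [hN0, ← hu] at t1
  have hx : ‖(z + (h : ℂ) * pvfaPl (ρ / 4) y.1) - τ.cp h z‖ ≤ 3 / 4 * ρ * h := by
    have e : (z + (h : ℂ) * pvfaPl (ρ / 4) y.1) - τ.cp h z = -(u - (z + (h : ℂ) * pvfaPl (ρ / 4) y.1)) + (u - τ.cp h z) := by ring
    rw [e]
    refine (norm_add_le _ _).trans ?_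
    rw [norm_neg]
    linarith
  exact pvkg_shield hh hρ0 hj hR hx hblk

/-- **OFF THE FLAG, ENTRANCE HALF** -/
theorem pvkg_in (ha : 1 < a) (hab : a + 1 ≤ b) (hbB : b + 3 ≤ 2 * B2) (hρ0 : 0 < ρ) (hρs : ρ ≤ 1 / 8) (hR : 5 / 4 * ((16 : ℝ) ^ (4 * J) * (4 * ρ)) + 3 / 4 * ρ ≤ 1)
    (hr1 : 2 * B2 ≤ r) (hr2 : r ≤ 2 * B2 + 1) (hM1 : 2 * B2 + 1 ≤ ρ / 4 * M) (hM2 : ρ / 4 * M ≤ 2 * B2 + 2) (hzi : zi ∉ closedBall (0 : ℂ) (4 * B2 + 6))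
    (hrep : PvplRep (pvssTh (pvssA (pvkgPar a b r (ρ / 4) (4 * ρ) (4 * B2 + 6) M) J)) (pvbfSat (pvssFlag4 (pvkgPar a b r (ρ / 4) (4 * ρ) (4 * B2 + 6) M) J zi) (pvssK (PvkgZ (ρ / 4) M b) J))
      (pvssK (PvkgZ (ρ / 4) M b) J) (closedBall 0 (4 * B2 + 7)) (1 / 100) 𝔹)
    (hh : 0 < h) (hg : DelGood (pvxY ω)) (hm : PvtrMesh (1 / 100 * h) (closedBall z ((4 * B2 + 7) * h)) (pvxY ω)) (hno : pvConf ω ∉ pvssCopy 𝔹 z h)
    (hN0 : N.rho = ρ) (hτa : τ.a = a) (hτb : τ.b = b) (hr : pvwRad N h τ τ.k = r * h) (hat : 𝔖.AtIn (pvxPos ω) N h z τ (pvxCol ω c)) :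
    ∀ e : Bool, ∃ r R' : ℝ, 2 * ρ * h ≤ r ∧ R' ≤ h ∧ PvbpCirc (pvxT ω) (pvxPos ω) 𝔖.fzInᶜ (τ.cm h z) r R' e (pvxCol ω c) := by
  have hB : 0 ≤ B2 := by linarith
  obtain ⟨n1, n2, n3, n6, n7⟩ := pvkg_nums hbB hρ0 hρs hr1 hr2 hh
  -- the two ends of the tip dart
  obtain ⟨u, hu⟩ : ∃ u, u = pvxPos ω ((pvxT ω).src (𝔖.em 𝔖.nm)) := ⟨_, rfl⟩
  obtain ⟨w, hw⟩ : ∃ w, w = pvxPos ω ((pvxT ω).tgt (𝔖.em 𝔖.nm)) := ⟨_, rfl⟩
  have hu_in : u ∈ pvwSq z (r * h) := by rw [hu, ← hr]; exact (hat.stub.em_in 𝔖.nm le_rfl).1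
  have hw_in : w ∈ pvwSq z (r * h) := by rw [hw, ← hr]; exact (hat.stub.em_in 𝔖.nm le_rfl).2
  have hu2 : ‖u - z‖ ≤ 2 * (r * h) := pvkg_sq_in hu_in
  have hw2 : ‖w - z‖ ≤ 2 * (r * h) := pvkg_sq_in hw_in
  have hap : r * h < ‖pvxPos ω 𝔖.am - z‖ := by rw [← hr]; exact pvkg_sq_out hat.stub.em_out
  have hsh1 : ‖u - w‖ ≤ 2 * (1 / 100 * h) := by
    rw [hu, hw]
    refine (pvkg_short (by positivity) hm (𝔖.em 𝔖.nm) ?_).1
    have : ‖((delbPl (pvxY ω)).toMap.src (𝔖.em 𝔖.nm) : ℂ) - z‖ ≤ 2 * (r * h) := by rw [hu] at hu2; exact hu2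
    linarith
  have hsh2 : ‖w - pvxPos ω 𝔖.am‖ ≤ 2 * (1 / 100 * h) := by
    have e : w = pvxPos ω ((pvxT ω).src ((pvxT ω).opp (𝔖.em 𝔖.nm))) := by rw [hw, (pvxT ω).src_opp']
    rw [e]
    refine (pvkg_short (by positivity) hm ((pvxT ω).opp (𝔖.em 𝔖.nm)) ?_).2
    have : ‖((delbPl (pvxY ω)).toMap.src ((pvxT ω).opp (𝔖.em 𝔖.nm)) : ℂ) - z‖ ≤ 2 * (r * h) := by rw [e] at hw2; exact hw2
    linarith
  have hu1 : r * h - 4 * (1 / 100 * h) < ‖u - z‖ := by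
    have e : pvxPos ω 𝔖.am - z = (u - z) - (u - w) - (w - pvxPos ω 𝔖.am) := by ring
    have h1 := norm_sub_le ((u - z) - (u - w)) (w - pvxPos ω 𝔖.am)
    have h2 := norm_sub_le (u - z) (u - w)
    rw [← e] at h1
    linarith
  -- its cell
  obtain ⟨y, hy, hyc⟩ := pvkg_cell (b := b) (r := r) (l := ρ / 4) (M := M) (by positivity) (by linarith) hh hu_in (by linarith)
  -- the block
  have h𝔭 : (pvkgPar a b r (ρ / 4) (4 * ρ) (4 * B2 + 6) M).Wf J :=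
    pvkg_par_wf (by linarith) (by linarith) (by linarith) (by linarith) (by positivity) (by positivity) (by linarith) (by linarith)
  have hall := pvkg_hall (c := c) hg hh hB hm (by rw [hτa]; exact ha) (by rw [hτa, hτb]; exact hab) (by rw [hτa]; linarith) hat.gate hat.inmost (o := 𝔖.em 𝔖.nm)
    (by rw [← hu, hτb]; linarith)
  obtain ⟨j, hj, hblk⟩ := pvss_model_in h𝔭 hzi (μ := 1 / 100) (rE := 4 * B2 + 7) (by norm_num) (by show 4 * B2 + 6 + 3 * (1 / 100) ≤ 4 * B2 + 7; linarith) hrep hh z hg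
    (pvfam_fin hg.lf isBounded_closedBall) hm hno c hτa hτb hr hat hall (y := y) (by rw [← hu]; exact hy)
  -- the grid centre of the type
  have t1 := hat.good.tip_m.1
  rw [hN0, ← hu] at t1
  have hx : ‖(z + (h : ℂ) * pvfaPl (ρ / 4) y.1) - τ.cm h z‖ ≤ 3 / 4 * ρ * h := by
    have e : (z + (h : ℂ) * pvfaPl (ρ / 4) y.1) - τ.cm h z = -(u - (z + (h : ℂ) * pvfaPl (ρ / 4) y.1)) + (u - τ.cm h z) := by ring
    rw [e]
    refine (norm_add_le _ _).trans ?_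
    rw [norm_neg]
    linarith
  exact pvkg_shield hh hρ0 hj hR hx hblk

end sealing

/-! ## 4. the flag;  THE SEAM -/

/-- **(F2), PLAIN NUMBERS**.   Gate annulus `[a, b]`, outer radius `B2 = b₂` (boxes of half side `2 b₂ + k ρ₁`, `k ≤ K0`), range `w` of the flags, budget `ζ`. -/
theorem pvkg_f2 {a b B2 ρ₁ : ℝ} {K w : ℕ} (ha : 1 < a) (hab : a + 1 ≤ b) (hbB : b + 3 ≤ 2 * B2) (h0 : 0 < ρ₁) (h1 : ρ₁ ≤ 1) (hK : K * ρ₁ ≤ 1) (hw : 4 * B2 + 7 ≤ w) {ζ : ℝ≥0∞} (hζ : 0 < ζ) :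
    ∃ (ρ : ℝ) (Fl : ℕ → ℤ × ℤ → Set (Conf PvPt)), 0 < ρ ∧ 8 * ρ ≤ ρ₁ ∧ PvxpFlag pvlmH w ζ Fl ∧
      ∀ (m : ℕ) (p : ℤ × ℤ) (ω : PVSample), DelGood (pvxY ω) → pvConf ω ∉ Fl m p → ∀ (c : Bool) (N : PvwNum) (τ : PvwTy) (𝔖 : PvwSt (pvxT ω)),
        N.rho = ρ → N.rho1 = ρ₁ → τ.a = a → τ.b = b → τ.b2 = B2 → τ.k ≤ K →
        (𝔖.AtOut (pvxPos ω) N (pvlmH m) (l9Pt (pvlmH m) p) τ (pvxCol ω c) →
          ∀ e : Bool, ∃ r R' : ℝ, 2 * ρ * pvlmH m ≤ r ∧ R' ≤ pvlmH m ∧ PvbpCirc (pvxT ω) (pvxPos ω) 𝔖.fzOutᶜ (τ.cp (pvlmH m) (l9Pt (pvlmH m) p)) r R' e (pvxCol ω c)) ∧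
        (𝔖.AtIn (pvxPos ω) N (pvlmH m) (l9Pt (pvlmH m) p) τ (pvxCol ω c) →
          ∀ e : Bool, ∃ r R' : ℝ, 2 * ρ * pvlmH m ≤ r ∧ R' ≤ pvlmH m ∧ PvbpCirc (pvxT ω) (pvxPos ω) 𝔖.fzInᶜ (τ.cm (pvlmH m) (l9Pt (pvlmH m) p)) r R' e (pvxCol ω c)) := by
  classical
  have hB0 : 0 < B2 := by linarith
  -- QBX, the number of blocks
  obtain ⟨q₀, hq₀, hQ₀⟩ := exit_pv_qbx
  obtain ⟨q, hqdef⟩ : ∃ q, q = min q₀ (1 / 2) := ⟨_, rfl⟩
  have hq : 0 < q := hqdef ▸ lt_min hq₀ (by norm_num)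
  have hq1 : q ≤ 1 := by rw [hqdef]; exact (min_le_right _ _).trans (by norm_num)
  have hQ : PvaxQbx q := hqdef ▸ pvax_qbx_mono hQ₀ (min_le_left _ _)
  obtain ⟨J, hJ, hbud⟩ := pvfam_budget (q := q ^ 2) (by positivity) (by nlinarith) (((K : ℝ) + 1) * 8) hζ
  -- the mouth
  have hP : (0 : ℝ) < (16 : ℝ) ^ (4 * J) := by positivity
  have hP1 : (1 : ℝ) ≤ (16 : ℝ) ^ (4 * J) := one_le_pow₀ (by norm_num)
  obtain ⟨ρ, hρdef⟩ : ∃ ρ, ρ = ρ₁ / (8 * (16 : ℝ) ^ (4 * J)) := ⟨_, rfl⟩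
  have hρ0 : 0 < ρ := by rw [hρdef]; positivity
  have hρP : (16 : ℝ) ^ (4 * J) * ρ = ρ₁ / 8 := by rw [hρdef]; field_simp
  have hρ8 : ρ ≤ ρ₁ / 8 := by nlinarith
  have hρs : ρ ≤ 1 / 8 := by linarith
  have hR : 5 / 4 * ((16 : ℝ) ^ (4 * J) * (4 * ρ)) + 3 / 4 * ρ ≤ 1 := by
    have : (16 : ℝ) ^ (4 * J) * (4 * ρ) = 4 * (ρ₁ / 8) := by rw [← hρP]; ring
    rw [this]
    linarith
  -- the grid
  have hl : 0 < ρ / 4 := by positivity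
  obtain ⟨M, hMdef⟩ : ∃ M : ℕ, M = ⌈(2 * B2 + 1) / (ρ / 4)⌉₊ := ⟨_, rfl⟩
  have hM1 : 2 * B2 + 1 ≤ ρ / 4 * M := by
    have := Nat.le_ceil ((2 * B2 + 1) / (ρ / 4))
    rw [← hMdef, div_le_iff₀ hl] at this
    linarith
  have hM2 : ρ / 4 * M ≤ 2 * B2 + 2 := by
    have h2 : (M : ℝ) ≤ (2 * B2 + 1) / (ρ / 4) + 1 := by rw [hMdef]; exact (Nat.ceil_lt_add_one (by positivity)).le
    have h3 : ρ / 4 * ((2 * B2 + 1) / (ρ / 4) + 1) = 2 * B2 + 1 + ρ / 4 := by field_simp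
    have h4 := mul_le_mul_of_nonneg_left h2 hl.le
    rw [h3] at h4
    linarith
  obtain ⟨zi, hzidef⟩ : ∃ zi : ℂ, zi = ((4 * B2 + 7 : ℝ) : ℂ) := ⟨_, rfl⟩
  have hzi : zi ∉ closedBall (0 : ℂ) (4 * B2 + 6) := by
    rw [mem_closedBall, dist_zero_right, hzidef, Complex.norm_real, Real.norm_of_nonneg (by linarith)]
    linarith
  have := pvkg_Z_finite (ρ / 4) M b
  -- the levels
  have hlev : ∀ k : ℕ, k ≤ K → 2 * B2 ≤ 2 * B2 + k * ρ₁ ∧ 2 * B2 + k * ρ₁ ≤ 2 * B2 + 1 := by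
    intro k hk
    have hk' : (k : ℝ) ≤ K := by exact_mod_cast hk
    have := mul_le_mul_of_nonneg_right hk' h0.le
    have h2 : (0 : ℝ) ≤ k * ρ₁ := by positivity
    constructor <;> linarith
  have H : ∀ k : ℕ, ∃ (𝔹 : Set (Conf PvPt)) (er : ℝ → ℝ≥0∞), k ≤ K → MeasurableSet 𝔹 ∧ Conf.ReadsSet (closedBall (0 : ℂ) (4 * B2 + 7) ×ˢ (univ : Set Bool)) 𝔹 ∧
      PvplRep (pvssTh (pvssA (pvkgPar a b (2 * B2 + k * ρ₁) (ρ / 4) (4 * ρ) (4 * B2 + 6) M) J)) (pvbfSat (pvssFlag4 (pvkgPar a b (2 * B2 + k * ρ₁) (ρ / 4) (4 * ρ) (4 * B2 + 6) M) J zi) (pvssK (PvkgZ (ρ / 4) M b) J))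
        (pvssK (PvkgZ (ρ / 4) M b) J) (closedBall 0 (4 * B2 + 7)) (1 / 100) 𝔹 ∧
      Tendsto er (𝓝[>] 0) (𝓝 0) ∧ ∀ ε, 0 < ε → pvP ε 𝔹 ≤ ENNReal.ofReal (8 * (1 - q ^ 2) ^ J) + er ε := by
    intro k
    by_cases hk : k ≤ K
    · have h𝔭 : (pvkgPar a b (2 * B2 + k * ρ₁) (ρ / 4) (4 * ρ) (4 * B2 + 6) M).Wf J :=
        pvkg_par_wf (by linarith) (by linarith) (by linarith) (by linarith [(hlev k hk).2]) hl.le (by positivity) (by linarith) (by linarith)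
      obtain ⟨𝔹, c1, c2, c3, er, c4, c5⟩ := pvss_unit hq hq1 hQ h𝔭 hJ hzi (μ := 1 / 100) (rE := 4 * B2 + 7) (by norm_num) (by show 4 * B2 + 6 + 3 * (1 / 100) ≤ 4 * B2 + 7; linarith)
      exact ⟨𝔹, er, fun _ => ⟨c1, c2, c3, c4, c5⟩⟩
    · exact ⟨∅, 0, fun h => absurd h hk⟩
  choose 𝔹 er H using H
  have hmem : ∀ k ∈ Finset.range (K + 1), k ≤ K := fun k hk => Nat.lt_succ_iff.1 (Finset.mem_range.1 hk)
  -- the event of unit scale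
  obtain ⟨𝔽, h𝔽def⟩ : ∃ 𝔽 : Set (Conf PvPt), 𝔽 = (⋃ k ∈ Finset.range (K + 1), 𝔹 k) ∪ pvfamMesh (1 / 100) (4 * B2 + 7) := ⟨_, rfl⟩
  have hmeas : MeasurableSet 𝔽 := by
    rw [h𝔽def]
    exact (Finset.measurableSet_biUnion _ fun k hk => (H k (hmem k hk)).1).union (pvfam_mesh_meas _ _)
  have hreads : Conf.ReadsSet (closedBall (0 : ℂ) (4 * B2 + 7) ×ˢ (univ : Set Bool)) 𝔽 := by
    rw [h𝔽def]
    exact (Conf.ReadsSet.iUnion fun k => Conf.ReadsSet.iUnion fun hk => (H k (hmem k hk)).2.1).union (pvfam_mesh_reads _ _)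
  have hcost : ∀ ε, 0 < ε → pvP ε 𝔽 ≤ ENNReal.ofReal (((K : ℝ) + 1) * 8 * (1 - q ^ 2) ^ J) + ((∑ k ∈ Finset.range (K + 1), er k ε) + pvP ε (pvfamMesh (1 / 100) (4 * B2 + 7))) := by
    intro ε hε
    have e : ENNReal.ofReal (((K : ℝ) + 1) * 8 * (1 - q ^ 2) ^ J) = ∑ _k ∈ Finset.range (K + 1), ENNReal.ofReal (8 * (1 - q ^ 2) ^ J) := by
      rw [Finset.sum_const, Finset.card_range, nsmul_eq_mul, mul_assoc, ENNReal.ofReal_mul (by positivity)]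
      congr 1
      rw [← Nat.cast_succ, ENNReal.ofReal_natCast]
    rw [h𝔽def, e, ← add_assoc, ← Finset.sum_add_distrib]
    refine (measure_union_le _ _).trans (add_le_add_left ((measure_biUnion_finset_le _ _).trans (Finset.sum_le_sum fun k hk => (H k (hmem k hk)).2.2.2.2 ε hε)) _)
  have hlim : Tendsto (fun ε => (∑ k ∈ Finset.range (K + 1), er k ε) + pvP ε (pvfamMesh (1 / 100) (4 * B2 + 7))) (𝓝[>] 0) (𝓝 0) := by
    have h1 : Tendsto (fun ε => ∑ k ∈ Finset.range (K + 1), er k ε) (𝓝[>] 0) (𝓝 (∑ _k ∈ Finset.range (K + 1), (0 : ℝ≥0∞))) :=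
      tendsto_finsetSum _ fun k hk => (H k (hmem k hk)).2.2.2.1
    rw [Finset.sum_const_zero] at h1
    have := h1.add (pvfam_mesh_tendsto (ρ := 1 / 100) (by norm_num) (4 * B2 + 7))
    rwa [add_zero] at this
  refine ⟨ρ, pvfamAt pvlmH 𝔽, hρ0, by linarith, pvfam_of_unit hmeas hreads hw hbud hlim hcost pvlm_H_pos, ?_⟩
  intro m p ω hg hn c N τ 𝔖 hN0 hN1 hτa hτb hτ2 hk
  have hh := pvlm_H_pos m
  have hn' : cfMap (pvfamSim (pvlmH m) (l9Pt (pvlmH m) p)) (pvConf ω) ∉ 𝔽 := hn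
  rw [h𝔽def] at hn'
  have hm : PvtrMesh (1 / 100 * pvlmH m) (closedBall (l9Pt (pvlmH m) p) ((4 * B2 + 7) * pvlmH m)) (pvxY ω) := pvfam_mesh_use (by norm_num) hh _ fun hc => hn' (Or.inr hc)
  have hno : pvConf ω ∉ pvssCopy (𝔹 τ.k) (l9Pt (pvlmH m) p) (pvlmH m) := fun hc =>
    hn' (Or.inl (mem_biUnion (Finset.mem_coe.2 (Finset.mem_range.2 (Nat.lt_succ_of_le hk))) hc))
  have hr : pvwRad N (pvlmH m) τ τ.k = (2 * B2 + τ.k * ρ₁) * pvlmH m := by unfold pvwRad; rw [hτ2, hN1]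
  exact ⟨fun hat => pvkg_out ha hab hbB hρ0 hρs hR (hlev _ hk).1 (hlev _ hk).2 hM1 hM2 hzi (H _ hk).2.2.1 hh hg hm hno hN0 hτa hτb hr hat,
    fun hat => pvkg_in ha hab hbB hρ0 hρs hR (hlev _ hk).1 (hlev _ hk).2 hM1 hM2 hzi (H _ hk).2.2.1 hh hg hm hno hN0 hτa hτb hr hat⟩

end Claimed.Agent.R289
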