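import Claimed.Agent.R289.Exit.Pins
import Claimed.Agent.R289.Tr.Flag4D
import Claimed.Agent.R289.Tr.LocalF
import Claimed.Agent.R289.Tr.RetMeas
import Claimed.Agent.R289.Tr.C12

/-!
# Row 289 (S0537, Cardy for Poisson-Voronoi), THE WALL, roof PINS, road E, file Exit/PinsF4 : FLAG4 (E16) AS A STATIC LOCAL FLAG      (helper100; node `exit_pinsE_f4` of `Exit/PinsE.lean`, 121; prefix `pvpf4_`, `Pvpf4`, `pvpf4`)

WHAT.   `Tr/Flag4` (71) = the event `pvf4N` (union of the near-return events `armtN` over a net) and its cost `pvf4_small`.      `Tr/Flag4D` (98) = DET `pvf4d_det`: a state whose erased banks are vertex disjoint and close carries an `ArmtNR`.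
THIS FILE = THE TRANSFER to the shape consumed by the roof of the pins (`PvxpFlag h w ζ Flag`, 12), in the style of `pvflm_flag1` (276): NO HYPOTHESIS ON THE SAMPLE.      0 sorry, axioms clean (`Tr/Flag4D`, `Tr/FanRim` of 98 are closed).
* the flag `pvpf4Fl` = {no mesh in the window} ∪ {`ArmtNR` at a point of the net}, WITHOUT the cut by the nice site sets (`armtN` is cut by `PvatNice`, a GLOBAL event: it reads no window)
* sec.1  `pvpf4_nr_not` : `ArmtNR` is COLOUR SYMMETRIC (`pvlf_rim_not`)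
* sec.2  `pvpf4_nr_loc` : `ArmtNR` is LOCAL on the mesh event (`armt_nr_iso` + `pvat_iso_loc` of 98: neither needs `PvatNice`);   **`pvpf4_reads`**
* sec.3  `pvpf4_win` (ball ⊆ window of blocks), `pvpf4_mesh_tendsto`, `pvpf4_N_ae` (cost without the cut = cost of `pvf4N`), **`pvpf4_cost`**
* sec.4  the consequence of "not flagged": `Pvpf4Sep T pos s h z bb ρ sep` = SEP for ALL numbers `N` and types `τ` with `ρ ≤ N.rho`, `ρ/50 + 1 ≤ τ.a`, `τ.b h ≤ r_k ≤ bb h`, all full states, WITH THE HYPOTHESIS "the two erased banks are vertex disjoint"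
         (without it the statement is false: bead, probability of order 1: 98 131 175 269);   **`pvpf4_sep`** (both colours)
* sec.5  **`pvpf4_flag`** : `bb ρ w ζ`, `2 bb + ρ ≤ w`  ⟹  `sep ∈ (0, ρ/100]`, and for all scales `h : ℕ → ℝ` a flag `Fl` with `PvxpFlag h w ζ Fl` and  not flagged ⟹ `Pvpf4Sep` for both colours
* sec.6  **`pvpf4_flag2`** : THE SAME FLAG; not flagged ⟹ `Pvpf4Sep` AND `Pvpf4Sep2` = SEP WITH THE INNER HALVES (R17 (a) of 234; `pvf4d_det2` of 98): `∀ u ∈ pvpf4Xp .. ((N.m - 1) h) 𝔖, ∀ v ∈ pvpf4Xm .., sep h < ‖pos u - pos v‖`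
         (`pvpf4Xp = pvpeXp` of 126 by `rfl`; positions `= pvpnXp` of 66): = `PvpeNF4` of `Tr/PinE`, `PvpnSep` of `Tr/PinEnc`, `hfar` of `pvxo_cover` (73).      The hypothesis is ONLY the first clause of `PvpeDisj` (the two erasures are vertex disjoint).
USE (121 126 199): `bb := 2 b₂ + K ρ₁` (or `2 b₂ + 1`), `ρ := N.rho`, `w := pvxpW 𝔑`, budget `ζ/3`;   `ρ₃ := sep / 12` resp. `𝔑.sep := sep`;   the vertex disjointness is paid by (R4) from the rim (both erasures are sub-arcs of the simple cycle).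
-/

set_option autoImplicit false
set_option linter.unusedSectionVars false
set_option linter.unusedVariables false

namespace Claimed.Agent.R289

open MeasureTheory Set Filter Topology Metric Claims.C0465
open scoped ENNReal

/-! ## 1. colour symmetry -/

/-- **`ArmtNR` is colour symmetric** -/
theorem pvpf4_nr_not {Y : Set ℂ} {σ : ℂ → Bool} {z : ℂ} {s S R : ℝ} (h : ArmtNR Y σ z s S R) : ArmtNR Y (fun p => !σ p) z s S R := by
  obtain ⟨V, D, T, lab, col, hL, hc, c, hrim, hret⟩ := h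
  exact ⟨V, D, T, lab, pvasNot col, hL, fun v p hv => by show (!col v) = !σ p; rw [hc v p hv], c, pvlf_rim_not.2 hrim, hret⟩

/-! ## 2. locality -/

theorem pvpf4_nbd_ball (y : ℂ) (r a : ℝ) : vorNbd (closedBall y r) a ⊆ closedBall y (r + a) := by
  rintro w ⟨u, hu, h1⟩
  rw [mem_closedBall, dist_eq_norm] at hu ⊢
  have e : w - y = (w - u) + (u - y) := by ring
  rw [e]
  exact (norm_add_le _ _).trans (by linarith)

/-- on the mesh event the Delaunay neighbours of a site are within `2 μ` -/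
theorem pvpf4_tri_near {Y : Set ℂ} {μ : ℝ} (hμ : 0 < μ) {a b c : ℂ} (hd : VorDense Y (closedBall a (2 * μ)) μ) (ht : DelTri Y a b c) : ‖b - a‖ ≤ 2 * μ ∧ ‖c - a‖ ≤ 2 * μ := by
  have h1 : vorCell Y a ⊆ closedBall a μ := vor_cell_subset_ball hμ.le (by linarith) hd
  have hO : ‖delO a b c - a‖ ≤ μ := by
    have := h1 ht.O_mem_a
    rwa [mem_closedBall, dist_eq_norm] at this
  have e2 : ‖delO a b c - b‖ ≤ μ := by rw [← del_O_ab]; exact hO
  have e3 : ‖delO a b c - c‖ ≤ μ := by rw [← del_O_ac ht.left.ne']; exact hO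
  constructor
  · have e : b - a = (delO a b c - a) - (delO a b c - b) := by ring
    rw [e]
    exact (norm_sub_le _ _).trans (by linarith)
  · have e : c - a = (delO a b c - a) - (delO a b c - c) := by ring
    rw [e]
    exact (norm_sub_le _ _).trans (by linarith)

/-- **LOC**: two coloured site sets which agree on `closedBall y (4R + 5μ)`, `μ`-dense on `closedBall y (4R + 4μ)` -/
theorem pvpf4_nr_loc {Y Y' : Set ℂ} {σ σ' : ℂ → Bool} {y : ℂ} {s S R μ : ℝ} (hμ : 0 < μ) (hR : 0 ≤ R) (hs : s ≤ 4 * R + 2 * μ)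
    (hd : VorDense Y (closedBall y (4 * R + 4 * μ)) μ) (hYY : Y ∩ closedBall y (4 * R + 5 * μ) = Y' ∩ closedBall y (4 * R + 5 * μ))
    (hσ : ∀ a ∈ Y ∩ closedBall y (4 * R + 5 * μ), σ' a = σ a) (hN : ArmtNR Y σ y s S R) : ArmtNR Y' σ' y s S R := by
  set W : Set ℂ := closedBall y (4 * R + 2 * μ) with hW
  have hW2 : vorNbd W (2 * μ) ⊆ closedBall y (4 * R + 4 * μ) := (pvpf4_nbd_ball y _ _).trans (closedBall_subset_closedBall (by linarith))
  have hW3 : vorNbd W (3 * μ) ⊆ closedBall y (4 * R + 5 * μ) := (pvpf4_nbd_ball y _ _).trans (closedBall_subset_closedBall (by linarith))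
  have hWW : W ⊆ closedBall y (4 * R + 5 * μ) := closedBall_subset_closedBall (by linarith)
  have hsub : ∀ O : Set ℂ, O ⊆ closedBall y (4 * R + 5 * μ) → Y ∩ O = Y' ∩ O := by
    intro O hO
    ext z
    have := Set.ext_iff.1 hYY z
    simp only [mem_inter_iff] at this ⊢
    exact ⟨fun h => ⟨(this.1 ⟨h.1, hO h.2⟩).1, h.2⟩, fun h => ⟨(this.2 ⟨h.1, hO h.2⟩).1, h.2⟩⟩
  have hd2 : VorDense Y (vorNbd W (2 * μ)) μ := hd.mono Subset.rfl hW2 le_rfl
  have hd' : VorDense Y' (closedBall y (4 * R + 4 * μ)) μ :=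
    vor_dense_transfer hd (hsub _ ((pvpf4_nbd_ball y _ _).trans (closedBall_subset_closedBall (by linarith))))
  have hiso : PvatIso W (armtReg y s S R) Y σ W (armtReg y s S R) Y' σ' id :=
    pvat_iso_loc (armtReg y s S R) hμ hd2 (hsub _ hW3) fun a ha => hσ a ⟨ha.1, hWW ha.2⟩
  have hcl : ∀ Y₀ : Set ℂ, VorDense Y₀ (closedBall y (4 * R + 4 * μ)) μ → ∀ a b c, DelTri Y₀ a b c → ‖a - y‖ ≤ 4 * R → b ∈ W ∧ c ∈ W := by
    intro Y₀ h0 a b c ht ha
    have hda : VorDense Y₀ (closedBall a (2 * μ)) μ := by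
      refine h0.mono Subset.rfl ?_ le_rfl
      intro w hw
      rw [mem_closedBall, dist_eq_norm] at hw ⊢
      have e : w - y = (w - a) + (a - y) := by ring
      rw [e]
      exact (norm_add_le _ _).trans (by linarith)
    obtain ⟨h1, h2⟩ := pvpf4_tri_near hμ hda ht
    constructor
    · rw [hW, mem_closedBall, dist_eq_norm]
      have e : b - y = (b - a) + (a - y) := by ring
      rw [e]
      exact (norm_add_le _ _).trans (by linarith)
    · rw [hW, mem_closedBall, dist_eq_norm]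
      have e : c - y = (c - a) + (a - y) := by ring
      rw [e]
      exact (norm_add_le _ _).trans (by linarith)
  exact armt_nr_iso hiso (fun p hp => by rw [hW, mem_closedBall, dist_eq_norm]; linarith) (fun p hp => by rw [hW, mem_closedBall, dist_eq_norm]; linarith)
    (hcl Y hd) (hcl Y' hd') hN

/-- the near-return event of a net, WITHOUT the cut by the nice site sets -/
def pvpf4N (z : ℂ) (t : ℝ) (L : ℕ) (s S R : ℝ) : Set (Conf PvPt) := {η | ∃ p ∈ armtBox L, ArmtNR (cfSites η) (cfCol η) (armtCtr z t p) s S R}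

/-- **FLAG4**: no mesh `μ` in the window `closedBall z rE`, or a near return at a point of the net -/
def pvpf4Fl (z : ℂ) (μ rE t : ℝ) (L : ℕ) (s S R : ℝ) : Set (Conf PvPt) := {η | ¬ PvtrMesh μ (closedBall z rE) (cfSites η)} ∪ pvpf4N z t L s S R

theorem pvpf4_eqns_cite : True := by
  have := @pvpf4N.eq_1; have := @pvpf4Fl.eq_1
  trivial

/-- the mesh event gives the density in the smaller balls -/
theorem pvpf4_mesh_dense {Y : Set ℂ} {z y : ℂ} {μ rE r : ℝ} (hm : PvtrMesh μ (closedBall z rE) Y) (hr : ‖y - z‖ + r + μ ≤ rE) : VorDense Y (closedBall y r) μ := by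
  refine hm.mono Subset.rfl ?_ le_rfl
  intro w hw u hu
  rw [mem_closedBall, dist_eq_norm] at hw hu ⊢
  have e : u - z = (u - w) + (w - y) + (y - z) := by ring
  rw [e]
  exact (norm_add₃_le).trans (by linarith)

/-- **the flag reads the window** -/
theorem pvpf4_reads {z : ℂ} {μ rE t : ℝ} {L : ℕ} {s S R : ℝ} (hμ : 0 < μ) (hR : 0 ≤ R) (hs : s ≤ 4 * R + 2 * μ)
    (hE : ∀ p ∈ armtBox L, ‖armtCtr z t p - z‖ + 4 * R + 5 * μ ≤ rE) : Conf.ReadsSet (closedBall z rE ×ˢ univ) (pvpf4Fl z μ rE t L s S R) := by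
  intro η
  set E : Set ℂ := closedBall z rE with hEdef
  set η' := Conf.restr (E ×ˢ univ) η with hη'
  have hmesh : PvtrMesh μ E (cfSites η') ↔ PvtrMesh μ E (cfSites η) := iff_of_eq (pvtr_reads_mesh μ E η)
  have hsites : cfSites η' = cfSites η ∩ E := pvtr_sites_restr E η
  have hrr : Conf.restr (E ×ˢ univ) η = Conf.restr (E ×ˢ univ) η' := by
    rw [hη']
    show (⟨η.pts ∩ E ×ˢ univ⟩ : Conf PvPt) = ⟨(η.pts ∩ E ×ˢ univ) ∩ E ×ˢ univ⟩
    rw [inter_assoc, inter_self]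
  have hcol : ∀ a ∈ E, cfCol η' a = cfCol η a := fun a ha => pvat_restr_col hrr ha
  by_cases hm : PvtrMesh μ E (cfSites η)
  · have hm' := hmesh.2 hm
    have key : ∀ p ∈ armtBox L, (ArmtNR (cfSites η') (cfCol η') (armtCtr z t p) s S R ↔ ArmtNR (cfSites η) (cfCol η) (armtCtr z t p) s S R) := by
      intro p hp
      have hb : closedBall (armtCtr z t p) (4 * R + 5 * μ) ⊆ E := by
        intro w hw
        rw [hEdef]
        rw [mem_closedBall, dist_eq_norm] at hw ⊢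
        have e : w - z = (w - armtCtr z t p) + (armtCtr z t p - z) := by ring
        rw [e]
        exact (norm_add_le _ _).trans (by linarith [hE p hp])
      have hYY : cfSites η ∩ closedBall (armtCtr z t p) (4 * R + 5 * μ) = cfSites η' ∩ closedBall (armtCtr z t p) (4 * R + 5 * μ) := by
        rw [hsites, inter_assoc, inter_eq_self_of_subset_right hb]
      constructor
      · exact pvpf4_nr_loc hμ hR hs (pvpf4_mesh_dense hm' (by linarith [hE p hp])) hYY.symm fun a ha => (hcol a (hb ha.2)).symm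
      · exact pvpf4_nr_loc hμ hR hs (pvpf4_mesh_dense hm (by linarith [hE p hp])) hYY fun a ha => hcol a (hb ha.2)
    constructor
    · rintro (h | ⟨p, hp, h⟩)
      · exact absurd hm' h
      · exact Or.inr ⟨p, hp, (key p hp).1 h⟩
    · rintro (h | ⟨p, hp, h⟩)
      · exact absurd hm h
      · exact Or.inr ⟨p, hp, (key p hp).2 h⟩
  · exact ⟨fun _ => Or.inl hm, fun _ => Or.inl fun h => hm (hmesh.1 h)⟩

/-! ## 3. window, mesh, cost -/

/-- a ball of radius `≤ w h` round the grid centre lies in the window of range `w` of the block -/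
theorem pvpf4_win {h : ℝ} (hh : 0 < h) {rE : ℝ} {w : ℕ} (p : ℤ × ℤ) (hr : rE ≤ w * h) : closedBall (l9Pt h p) rE ×ˢ (univ : Set Bool) ⊆ pvtdWin h w p := by
  rintro ⟨z, b⟩ ⟨hz, -⟩
  rw [mem_closedBall, dist_eq_norm] at hz
  show pv5Dist (pv5Blk h z) p ≤ w
  have k : ∀ (u : ℝ) (a : ℤ), |u - a * h| ≤ ‖z - l9Pt h p‖ → |⌊u / h⌋ - a| ≤ (w : ℤ) := by
    intro u a hu
    have h1 : |u / h - (a : ℝ)| ≤ w := by
      have e : u / h - (a : ℝ) = (u - a * h) / h := by field_simp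
      rw [e, abs_div, abs_of_pos hh, div_le_iff₀ hh]
      linarith
    have := pvtd_floor_close h1
    rwa [Int.floor_intCast] at this
  refine max_le (k _ _ ?_) (k _ _ ?_)
  · have := Complex.abs_re_le_norm (z - l9Pt h p)
    simpa [l9Pt] using this
  · have := Complex.abs_im_le_norm (z - l9Pt h p)
    simpa [l9Pt] using this

/-- the mesh fails with small probability, in the law of the configuration (any centre) -/
theorem pvpf4_mesh_tendsto {ρ : ℝ} (hρ : 0 < ρ) (z : ℂ) (rE : ℝ) :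
    Tendsto (fun ε : ℝ => pvP ε {η | ¬ PvtrMesh ρ (closedBall z rE) (cfSites η)}) (𝓝[>] 0) (𝓝 0) := by
  have hb : Bornology.IsBounded (pvtrCore ρ (closedBall z rE)) :=
    isBounded_closedBall.subset fun x hx => hx (mem_closedBall_self hρ.le)
  refine (pvax_dense hb hρ).congr fun ε => ?_
  have hn : NullMeasurableSet {η : Conf PvPt | ¬ PvtrMesh ρ (closedBall z rE) (cfSites η)} (pvP ε) := (pvtm_null_mesh ρ _ ε).compl
  unfold pvP at hn ⊢
  rw [Measure.map_apply₀ measurable_pvConf.aemeasurable hn]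
  rfl

/-- the cut by the nice site sets costs nothing -/
theorem pvpf4_N_ae {ε : ℝ} (hε : ε ≠ 0) (z : ℂ) (t : ℝ) (L : ℕ) (s S R : ℝ) : pvP ε (pvpf4N z t L s S R) = pvP ε (pvf4N z t L s S R) := by
  have h1 := pvat_ev_apply hε fun Y σ => ∃ p ∈ armtBox L, ArmtNR Y σ (armtCtr z t p) s S R
  have e : pvatEv (fun Y σ => ∃ p ∈ armtBox L, ArmtNR Y σ (armtCtr z t p) s S R) = pvf4N z t L s S R := by
    ext η
    simp only [pvatEv, pvf4N, armtN, mem_ofPred_eq, mem_iUnion₂]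
    constructor
    · rintro ⟨⟨p, hp, h⟩, hn⟩
      exact ⟨p, hp, h, hn⟩
    · rintro ⟨p, hp, h, hn⟩
      exact ⟨⟨p, hp, h⟩, hn⟩
  rw [← e, ← h1]
  rfl

/-- **THE COST OF THE FLAG** at one centre -/
theorem pvpf4_cost (B ρ : ℝ) (hB : 0 < B) (hρ : 0 < ρ) {ζ : ℝ≥0∞} (hζ : 0 < ζ) : ∃ r₀ : ℝ, 0 < r₀ ∧ ∀ r : ℝ, 0 < r → r ≤ r₀ → ∀ (z : ℂ) (h μ rE : ℝ), 0 < h → 0 < μ →
    ∀ᶠ ε in 𝓝[>] (0 : ℝ), pvP ε (pvpf4Fl z μ rE (r * h) ⌈B / r⌉₊ (2 * r * h) (ρ * h) (ρ * h)) ≤ ζ := by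
  set ζ₁ : ℝ≥0∞ := min (ζ / 2) 1 with hζ₁
  have hζ2 : 0 < ζ / 2 := ENNReal.half_pos hζ.ne'
  have h1top : ζ₁ ≠ ⊤ := ne_top_of_le_ne_top ENNReal.one_ne_top (min_le_right _ _)
  have h1pos : 0 < ζ₁ := lt_min hζ2 one_pos
  have h1r : 0 < ζ₁.toReal := ENNReal.toReal_pos h1pos.ne' h1top
  obtain ⟨r₀, hr₀, H⟩ := pvf4_small 2 B ρ ζ₁.toReal (by norm_num) hB hρ h1r
  refine ⟨r₀, hr₀, fun r hr hle z h μ rE hh hμ => ?_⟩
  filter_upwards [H r hr hle z h hh, (ENNReal.tendsto_nhds_zero.1 (pvpf4_mesh_tendsto hμ z rE)) (ζ / 2) hζ2, self_mem_nhdsWithin] with ε h1 h2 h3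
  have h3' : ε ≠ 0 := (ne_of_gt h3)
  have h4 : pvP ε (pvf4N z (r * h) ⌈B / r⌉₊ (2 * r * h) (ρ * h) (ρ * h)) ≤ ζ₁ := (ENNReal.toReal_le_toReal (measure_ne_top _ _) h1top).1 h1
  calc pvP ε (pvpf4Fl z μ rE (r * h) ⌈B / r⌉₊ (2 * r * h) (ρ * h) (ρ * h))
      ≤ pvP ε {η | ¬ PvtrMesh μ (closedBall z rE) (cfSites η)} + pvP ε (pvpf4N z (r * h) ⌈B / r⌉₊ (2 * r * h) (ρ * h) (ρ * h)) := measure_union_le _ _
    _ ≤ ζ / 2 + ζ / 2 := add_le_add h2 (by rw [pvpf4_N_ae h3']; exact h4.trans (min_le_left _ _))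
    _ = ζ := ENNReal.add_halves ζ

/-- the points of the net stay in the ball of radius `2 L t` -/
theorem pvpf4_ctr_norm (z : ℂ) {t : ℝ} (ht : 0 ≤ t) {L : ℕ} {p : ℤ × ℤ} (hp : p ∈ armtBox L) : ‖armtCtr z t p - z‖ ≤ 2 * (L * t) := by
  unfold armtBox at hp
  simp only [Finset.mem_product, Finset.mem_Icc] at hp
  obtain ⟨⟨a1, a2⟩, b1, b2⟩ := hp
  have e : armtCtr z t p - z = l9Pt t p := by unfold armtCtr; ring
  rw [e]
  refine (Complex.norm_le_abs_re_add_abs_im _).trans ?_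
  have k : ∀ a : ℤ, -(L : ℤ) ≤ a → a ≤ (L : ℤ) → |(a : ℝ) * t| ≤ L * t := by
    intro a h1 h2
    rw [abs_mul, abs_of_nonneg ht]
    refine mul_le_mul_of_nonneg_right (abs_le.2 ⟨?_, ?_⟩) ht
    · exact_mod_cast h1
    · exact_mod_cast h2
  have h1 : |(l9Pt t p).re| ≤ L * t := k _ a1 a2
  have h2 : |(l9Pt t p).im| ≤ L * t := k _ b1 b2
  linarith

theorem pvpf4_grid_fin {h : ℝ} (h0 : 0 < h) (x : ℂ) (R : ℝ) : {p : ℤ × ℤ | ‖l9Pt h p - x‖ ≤ R}.Finite := by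
  refine ((finite_Icc ⌊(x.re - R) / h⌋ ⌈(x.re + R) / h⌉).prod (finite_Icc ⌊(x.im - R) / h⌋ ⌈(x.im + R) / h⌉)).subset ?_
  intro p hp
  have hp' : ‖l9Pt h p - x‖ ≤ R := hp
  have h1 := (Complex.abs_re_le_norm (l9Pt h p - x)).trans hp'
  have h2 := (Complex.abs_im_le_norm (l9Pt h p - x)).trans hp'
  simp only [l9Pt, Complex.sub_re, Complex.sub_im] at h1 h2
  rw [abs_le] at h1 h2
  refine ⟨⟨?_, ?_⟩, ⟨?_, ?_⟩⟩
  · exact Int.floor_le_iff.2 (by rw [div_lt_iff₀ h0]; nlinarith)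
  · exact Int.le_ceil_iff.2 (by rw [lt_div_iff₀ h0]; nlinarith)
  · exact Int.floor_le_iff.2 (by rw [div_lt_iff₀ h0]; nlinarith)
  · exact Int.le_ceil_iff.2 (by rw [lt_div_iff₀ h0]; nlinarith)

/-! ## 4. the consequence of "not flagged" -/

/-- **SEP AT ONE CENTRE**, for ALL the numbers and types with mouth radius `≥ ρ h`, gate radius `≥ (1 + ρ/50) h`, box of half side `≤ bb h`: the two erased black banks of a full state, IF VERTEX DISJOINT (no bead: 98 131 175 269), stay at distance `> sep h` -/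
def Pvpf4Sep {V D : Type} (T : PvMap V D) (pos : V → ℂ) (s : V → Bool) (h : ℝ) (z : ℂ) (bb ρ sep : ℝ) : Prop :=
  ∀ (N : PvwNum) (τ : PvwTy) (𝔖 : PvwSt T), ρ ≤ N.rho → ρ / 50 + 1 ≤ τ.a → τ.b * h ≤ pvwRad N h τ τ.k → pvwRad N h τ τ.k ≤ bb * h → 𝔖.At pos N h z τ s →
    ∀ yp ym : T.Pth, PvwLE T (fun i => T.src (𝔖.ep i)) 𝔖.np yp → PvwLE T (fun i => T.src (𝔖.em i)) 𝔖.nm ym → (∀ v ∈ yp.verts, v ∉ ym.verts) →
      ∀ u ∈ yp.verts, ∀ v ∈ ym.verts, sep * h < ‖pos u - pos v‖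

theorem pvpf4_eqns_cite2 : True := by
  have := @Pvpf4Sep.eq_1
  trivial

/-- the square lies in the ball -/
theorem pvpf4_sq_ball {z w : ℂ} {r : ℝ} (hw : w ∈ pvwSq z r) : ‖w - z‖ ≤ 2 * r := by
  obtain ⟨h1, h2⟩ := hw
  exact (Complex.norm_le_abs_re_add_abs_im _).trans (by linarith)

/-- DET of 98 on any presentation of the Delaunay plane -/
theorem pvpf4_det_pl {Y : Set ℂ} (hY : DelGood Y) (Pl : PlTri ↥Y) (hPl : Pl = delPl hY) (σ : ℂ → Bool) (b : Bool) {𝔖 : PvwSt Pl.toMap} {N : PvwNum} {h : ℝ} {z : ℂ} {τ : PvwTy}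
    (hAt : 𝔖.At Subtype.val N h z τ (fun v : Y => σ v == b)) {μ R t S : ℝ} (hμ : 0 < μ) (hR : 0 ≤ R) (ht : t ≤ 4 * R) (htS : t < S) (hh : 0 < h)
    (hd : VorDense Y (vorNbd (pvwSq z (pvwRad N h τ τ.k)) (4 * R + 6 * μ)) μ) (hb : τ.b * h ≤ pvwRad N h τ τ.k)
    (hρ : 3 * (4 * R + 3 * μ) + 3 * μ + t ≤ N.rho * h) (hS : S + h ≤ τ.a * h)
    {yp ym : Pl.toMap.Pth} (hyp : PvwLE Pl.toMap (fun i => Pl.toMap.src (𝔖.ep i)) 𝔖.np yp) (hym : PvwLE Pl.toMap (fun i => Pl.toMap.src (𝔖.em i)) 𝔖.nm ym)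
    (hdis : ∀ v ∈ yp.verts, v ∉ ym.verts) {v w : Y} (hv : v ∈ yp.verts) (hw : w ∈ ym.verts) (hvw : ‖(v : ℂ) - w‖ ≤ t) : ArmtNR Y σ v t S R := by
  subst hPl
  exact pvf4d_det hY σ b hAt hμ hR ht htS hh hd hb hρ hS hyp hym hdis hv hw hvw

/-- **not flagged ⟹ SEP** (both colours; no hypothesis on the sample) -/
theorem pvpf4_sep {bb ρ r h : ℝ} (hbb : 0 < bb) (hρ : 0 < ρ) (hr : 0 < r) (hrρ : r ≤ ρ / 100) (hh : 0 < h) {w : ℕ} (hw : 2 * bb + ρ ≤ w) (z : ℂ) (ω : PVSample)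
    (hout : pvConf ω ∉ pvpf4Fl z (ρ / 100 * h) (w * h) (r * h) ⌈bb / r⌉₊ (2 * r * h) (ρ / 100 * h) (ρ / 100 * h)) (b : Bool) :
    Pvpf4Sep (pvxT ω) (pvxPos ω) (pvxCol ω b) h z bb ρ r := by
  intro N τ 𝔖 hN ha hb hrad hAt yp ym hyp hym hdis u hu v hv
  by_contra hcon
  rw [not_lt] at hcon
  have hY : DelGood (pvxY ω) := 𝔖.dp.2.1
  have hmesh : PvtrMesh (ρ / 100 * h) (closedBall z (w * h)) (pvxY ω) := by
    by_contra hc
    exact hout (Or.inl hc)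
  have hρh : 0 < ρ * h := mul_pos hρ hh
  have hrh : 0 < r * h := mul_pos hr hh
  have hrρh : r * h ≤ ρ / 100 * h := mul_le_mul_of_nonneg_right hrρ hh.le
  have hwh : (2 * bb + ρ) * h ≤ w * h := mul_le_mul_of_nonneg_right hw hh.le
  have hNh : ρ * h ≤ N.rho * h := mul_le_mul_of_nonneg_right hN hh.le
  have hah : (ρ / 50 + 1) * h ≤ τ.a * h := mul_le_mul_of_nonneg_right ha hh.le
  -- the density wanted by DET
  have hd : VorDense (pvxY ω) (vorNbd (pvwSq z (pvwRad N h τ τ.k)) (4 * (ρ / 50 * h) + 6 * (ρ / 100 * h))) (ρ / 100 * h) := by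
    refine hmesh.mono Subset.rfl ?_ le_rfl
    rintro x ⟨x', hx', hxx⟩ y hy
    rw [mem_closedBall, dist_eq_norm] at hy ⊢
    have h1 := pvpf4_sq_ball hx'
    have e : y - z = (y - x) + (x - x') + (x' - z) := by ring
    rw [e]
    refine (norm_add₃_le).trans ?_
    nlinarith
  have hnr : ArmtNR (pvxY ω) (cfCol (pvConf ω)) u (r * h) (ρ / 50 * h) (ρ / 50 * h) :=
    pvpf4_det_pl hY (delbPl (pvxY ω)) (delb_pl_eq hY) (cfCol (pvConf ω)) b hAt (μ := ρ / 100 * h) (by positivity) (by positivity) (by nlinarith) (by nlinarith) hh hd hb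
      (by nlinarith) (by nlinarith) hyp hym hdis hu hv hcon
  -- the centre lies in the box
  have hubox : (u : ℂ) ∈ pvwSq z (pvwRad N h τ τ.k) := by
    obtain ⟨jj, -, -, h3, -⟩ := hyp
    obtain ⟨i, hi, rfl⟩ := hu
    rw [(h3 i hi).2.1]
    exact (hAt.out.stub.ep_in (jj i) (h3 i hi).1).1
  have hL : bb * h ≤ (⌈bb / r⌉₊ : ℝ) * (r * h) := by
    have := Nat.le_ceil (bb / r)
    rw [div_le_iff₀ hr] at this
    nlinarith
  obtain ⟨q, hq, hqu⟩ := pvf4_snap (z := z) (w := (u : ℂ)) hrh ⌈bb / r⌉₊ (hubox.1.trans (hrad.trans hL)) (hubox.2.trans (hrad.trans hL))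
  refine hout (Or.inr ⟨q, hq, pvf4_nr_move hnr hqu ?_ ?_ ?_ ?_⟩)
  · linarith
  · nlinarith
  · nlinarith
  · nlinarith

/-! ## 5. FLAG4 in the shape consumed by the roof of the pins -/

/-- **FLAG4** (E16).      `bb` = half side of the largest box, `ρ` = the mouth radius (both in units of `h`), `w` = range of the flag, `ζ` = the budget.      `sep` depends on `bb ρ ζ` only. -/
theorem pvpf4_flag {bb ρ : ℝ} (hbb : 0 < bb) (hρ : 0 < ρ) {w : ℕ} (hw : 2 * bb + ρ ≤ w) {ζ : ℝ≥0∞} (hζ : 0 < ζ) :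
    ∃ sep : ℝ, 0 < sep ∧ sep ≤ ρ / 100 ∧ ∀ h : ℕ → ℝ, (∀ m, 0 < h m) → ∃ Fl : ℕ → ℤ × ℤ → Set (Conf PvPt), PvxpFlag h w ζ Fl ∧
      ∀ (m : ℕ) (p : ℤ × ℤ) (ω : PVSample), pvConf ω ∉ Fl m p → ∀ b : Bool, Pvpf4Sep (pvxT ω) (pvxPos ω) (pvxCol ω b) (h m) (l9Pt (h m) p) bb ρ sep := by
  obtain ⟨r₀, hr₀, H⟩ := pvpf4_cost bb (ρ / 100) hbb (by positivity) hζ
  set r := min r₀ (ρ / 100) with hr
  have hr0 : 0 < r := lt_min hr₀ (by positivity)
  have hr1 : r ≤ r₀ := min_le_left _ _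
  have hr2 : r ≤ ρ / 100 := min_le_right _ _
  refine ⟨r, hr0, hr2, fun h hh => ⟨fun m p => pvpf4Fl (l9Pt (h m) p) (ρ / 100 * h m) (w * h m) (r * h m) ⌈bb / r⌉₊ (2 * r * h m) (ρ / 100 * h m) (ρ / 100 * h m), ⟨fun m p => ?_, fun x R => ?_⟩,
    fun m p ω hout b => pvpf4_sep hbb hρ hr0 hr2 (hh m) hw _ ω hout b⟩⟩
  · have h0 := hh m
    have hρh : 0 < ρ * h m := mul_pos hρ h0
    have hrh : r * h m ≤ ρ / 100 * h m := mul_le_mul_of_nonneg_right hr2 h0.le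
    have hwh : (2 * bb + ρ) * h m ≤ w * h m := mul_le_mul_of_nonneg_right hw h0.le
    refine (pvpf4_reads (by positivity) (by positivity) (by nlinarith) fun q hq => ?_).mono (pvpf4_win h0 p le_rfl)
    have h1 := pvpf4_ctr_norm (l9Pt (h m) p) (t := r * h m) (by positivity) hq
    have hL : (⌈bb / r⌉₊ : ℝ) * r ≤ bb + r := by
      have := (Nat.ceil_lt_add_one (div_nonneg hbb.le hr0.le)).le
      have h2 : (⌈bb / r⌉₊ : ℝ) * r ≤ (bb / r + 1) * r := mul_le_mul_of_nonneg_right this hr0.le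
      have h3 : (bb / r + 1) * r = bb + r := by field_simp
      linarith
    have hL' : (⌈bb / r⌉₊ : ℝ) * (r * h m) ≤ (bb + r) * h m := by
      rw [← mul_assoc]
      exact mul_le_mul_of_nonneg_right hL h0.le
    nlinarith
  · refine Eventually.of_forall fun m => ?_
    exact (eventually_all_finite (pvpf4_grid_fin (hh m) x R)).2 fun p _ => H r hr0 hr1 _ (h m) _ _ (hh m) (by have := hh m; positivity)

/-! ## 6. SEP WITH THE INNER HALVES (R17 (a) of 234; masks of `PvxAt` v4; `pvf4d_det2` of 98) -/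

section sep2

variable {V D : Type} (T : PvMap V D) (pos : V → ℂ)

/-- the vertices of the EXIT HALF of the rim carried by the state: `LE(LB Σ⁺)` and the half of the inner arc AFTER the mark, off `closedBall z r`      (`= pvpeXp` of 126, `Tr/PinE`;   positions `= pvpnXp` of 66, `Tr/PinEnc`) -/
def pvpf4Xp (z : ℂ) (r : ℝ) (𝔖 : PvwSt T) : Set V :=
  {v | (∃ y : T.Pth, PvwLE T (fun i => T.src (𝔖.ep i)) 𝔖.np y ∧ v ∈ y.verts) ∨ ∃ i, 𝔖.ip ≤ i ∧ i ≤ 𝔖.inn.n ∧ r < ‖pos (𝔖.inn.v i) - z‖ ∧ v = 𝔖.inn.v i}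

/-- the vertices of the ENTRANCE HALF -/
def pvpf4Xm (z : ℂ) (r : ℝ) (𝔖 : PvwSt T) : Set V :=
  {v | (∃ y : T.Pth, PvwLE T (fun i => T.src (𝔖.em i)) 𝔖.nm y ∧ v ∈ y.verts) ∨ ∃ i, i ≤ 𝔖.ip ∧ r < ‖pos (𝔖.inn.v i) - z‖ ∧ v = 𝔖.inn.v i}

/-- **SEP2 AT ONE CENTRE**, for ALL the numbers and types with mouth radius `≥ ρ h`, gate radius `≥ (1 + ρ/50) h`, cut-off radius `m ≥ 2 + ρ/50`, box of half side `≤ bb h`:
the two halves of the rim carried by a full state whose two erased banks are VERTEX DISJOINT stay at distance `> sep h` -/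
def Pvpf4Sep2 (s : V → Bool) (h : ℝ) (z : ℂ) (bb ρ sep : ℝ) : Prop :=
  ∀ (N : PvwNum) (τ : PvwTy) (𝔖 : PvwSt T), ρ ≤ N.rho → ρ / 50 + 1 ≤ τ.a → ρ / 50 + 2 ≤ N.m → τ.b * h ≤ pvwRad N h τ τ.k → pvwRad N h τ τ.k ≤ bb * h → 𝔖.At pos N h z τ s →
    (∀ yp ym : T.Pth, PvwLE T (fun i => T.src (𝔖.ep i)) 𝔖.np yp → PvwLE T (fun i => T.src (𝔖.em i)) 𝔖.nm ym → ∀ v ∈ yp.verts, v ∉ ym.verts) →
      ∀ u ∈ pvpf4Xp T pos z ((N.m - 1) * h) 𝔖, ∀ v ∈ pvpf4Xm T pos z ((N.m - 1) * h) 𝔖, sep * h < ‖pos u - pos v‖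

theorem pvpf4_eqns_cite3 : True := by
  have := @pvpf4Xp.eq_1; have := @pvpf4Xm.eq_1; have := @Pvpf4Sep2.eq_1
  trivial

variable {T pos}

/-- the black bank of the exit stub has a loop erasure -/
theorem pvpf4_le_p {𝔖 : PvwSt T} {B : Set ℂ} {s : V → Bool} (hP : 𝔖.StubP pos B s) : ∃ y : T.Pth, PvwLE T (fun i => T.src (𝔖.ep i)) 𝔖.np y := by
  have : Nonempty D := ⟨𝔖.dp⟩
  refine pvwc_le_exists (T := T) _ _ fun i hi => ?_
  show T.src (𝔖.ep (i + 1)) = T.src (𝔖.ep i) ∨ T.Adj (T.src (𝔖.ep i)) (T.src (𝔖.ep (i + 1)))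
  rw [pvwk_ep_succ hP hi]
  rcases pvas_layB_step s (𝔖.ep i) 0 with e | ⟨f, -, e1, e2⟩
  · exact Or.inl e
  · exact Or.inr ⟨f, e1, e2⟩

/-- the black bank of the entrance stub has a loop erasure -/
theorem pvpf4_le_m {𝔖 : PvwSt T} {B : Set ℂ} {s : V → Bool} (hM : 𝔖.StubM pos B s) (hb : pvasBW T s 𝔖.dm) : ∃ y : T.Pth, PvwLE T (fun i => T.src (𝔖.em i)) 𝔖.nm y := by
  have : Nonempty D := ⟨𝔖.dm⟩
  refine pvwc_le_exists (T := T) _ _ fun i hi => ?_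
  show T.src (𝔖.em (i + 1)) = T.src (𝔖.em i) ∨ T.Adj (T.src (𝔖.em i)) (T.src (𝔖.em (i + 1)))
  have e0 : 𝔖.em i = pvasStep T s (𝔖.em (i + 1)) := by
    rw [pvwk_em_succ hM hi, pvas_step_back (pvwk_em_bw hM hb hi.le)]
  rcases pvas_layB_step s (𝔖.em (i + 1)) 0 with e | ⟨f, -, e1, e2⟩
  · left
    have e' : T.src (pvasStep T s (𝔖.em (i + 1))) = T.src (𝔖.em (i + 1)) := e
    rw [e0, e']
  · right
    have e1' : T.src f = T.src (𝔖.em (i + 1)) := e1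
    have e2' : T.tgt f = T.src (pvasStep T s (𝔖.em (i + 1))) := e2
    exact ⟨T.opp f, by rw [T.src_opp', e2', ← e0], by rw [T.tgt_opp, e1']⟩

end sep2

/-- DET2 of 98 on any presentation of the Delaunay plane -/
theorem pvpf4_det2_pl {Y : Set ℂ} (hY : DelGood Y) (Pl : PlTri ↥Y) (hPl : Pl = delPl hY) (σ : ℂ → Bool) (b : Bool) {𝔖 : PvwSt Pl.toMap} {N : PvwNum} {h : ℝ} {z : ℂ} {τ : PvwTy}
    (hAt : 𝔖.At Subtype.val N h z τ (fun v : Y => σ v == b)) {μ R t S : ℝ} (hμ : 0 < μ) (hR : 0 ≤ R) (ht : t ≤ 4 * R) (htS : t < S) (hh : 0 < h)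
    (hd : VorDense Y (vorNbd (pvwSq z (pvwRad N h τ τ.k)) (4 * R + 6 * μ)) μ) (hb : τ.b * h ≤ pvwRad N h τ τ.k)
    (hρ : 3 * (4 * R + 3 * μ) + 3 * μ + t ≤ N.rho * h)
    {yp ym : Pl.toMap.Pth} (hyp : PvwLE Pl.toMap (fun i => Pl.toMap.src (𝔖.ep i)) 𝔖.np yp) (hym : PvwLE Pl.toMap (fun i => Pl.toMap.src (𝔖.em i)) 𝔖.nm ym)
    (hdis : ∀ v ∈ yp.verts, v ∉ ym.verts) {v w : Y} (hv : v ∈ yp.verts ∨ ∃ j, 𝔖.ip ≤ j ∧ j ≤ 𝔖.inn.n ∧ 𝔖.inn.v j = v) (hw : w ∈ ym.verts ∨ ∃ j, j ≤ 𝔖.ip ∧ 𝔖.inn.v j = w)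
    (hvw : ‖(v : ℂ) - w‖ ≤ t) (hvz : S + h ≤ ‖(v : ℂ) - z‖) : ArmtNR Y σ v t S R := by
  subst hPl
  exact pvf4d_det2 hY σ b hAt hμ hR ht htS hh hd hb hρ hyp hym hdis hv hw hvw hvz

/-- **not flagged ⟹ SEP2** (both colours; no hypothesis on the sample) -/
theorem pvpf4_sep2 {bb ρ r h : ℝ} (hbb : 0 < bb) (hρ : 0 < ρ) (hr : 0 < r) (hrρ : r ≤ ρ / 100) (hh : 0 < h) {w : ℕ} (hw : 2 * bb + ρ ≤ w) (z : ℂ) (ω : PVSample)
    (hout : pvConf ω ∉ pvpf4Fl z (ρ / 100 * h) (w * h) (r * h) ⌈bb / r⌉₊ (2 * r * h) (ρ / 100 * h) (ρ / 100 * h)) (b : Bool) :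
    Pvpf4Sep2 (pvxT ω) (pvxPos ω) (pvxCol ω b) h z bb ρ r := by
  intro N τ 𝔖 hN ha hm hb hrad hAt hdis u hu v hv
  by_contra hcon
  rw [not_lt] at hcon
  have hY : DelGood (pvxY ω) := 𝔖.dp.2.1
  have hT : (pvxT ω).IsSph := delb_plane_isSph hY
  have hmesh : PvtrMesh (ρ / 100 * h) (closedBall z (w * h)) (pvxY ω) := by
    by_contra hc
    exact hout (Or.inl hc)
  have hρh : 0 < ρ * h := mul_pos hρ hh
  have hrh : 0 < r * h := mul_pos hr hh
  have hrρh : r * h ≤ ρ / 100 * h := mul_le_mul_of_nonneg_right hrρ hh.le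
  have hwh : (2 * bb + ρ) * h ≤ w * h := mul_le_mul_of_nonneg_right hw hh.le
  have hNh : ρ * h ≤ N.rho * h := mul_le_mul_of_nonneg_right hN hh.le
  have hah : (ρ / 50 + 1) * h ≤ τ.a * h := mul_le_mul_of_nonneg_right ha hh.le
  have hmh : (ρ / 50 + 2) * h ≤ N.m * h := mul_le_mul_of_nonneg_right hm hh.le
  have hd : VorDense (pvxY ω) (vorNbd (pvwSq z (pvwRad N h τ τ.k)) (4 * (ρ / 50 * h) + 6 * (ρ / 100 * h))) (ρ / 100 * h) := by
    refine hmesh.mono Subset.rfl ?_ le_rfl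
    rintro x ⟨x', hx', hxx⟩ y hy
    rw [mem_closedBall, dist_eq_norm] at hy ⊢
    have h1 := pvpf4_sq_ball hx'
    have e : y - z = (y - x) + (x - x') + (x' - z) := by ring
    rw [e]
    refine (norm_add₃_le).trans ?_
    nlinarith
  -- two loop erasures which carry `u`, `v` if these are on the stubs
  obtain ⟨yp, hyp, hu'⟩ : ∃ yp : (pvxT ω).Pth, PvwLE (pvxT ω) (fun i => (pvxT ω).src (𝔖.ep i)) 𝔖.np yp ∧ (u ∈ yp.verts ∨ ∃ j, 𝔖.ip ≤ j ∧ j ≤ 𝔖.inn.n ∧ 𝔖.inn.v j = u) := by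
    rcases hu with ⟨y, hy, huy⟩ | ⟨i, h1, h2, -, rfl⟩
    · exact ⟨y, hy, Or.inl huy⟩
    · obtain ⟨y, hy⟩ := pvpf4_le_p hAt.out.stub
      exact ⟨y, hy, Or.inr ⟨i, h1, h2, rfl⟩⟩
  obtain ⟨ym, hym, hv'⟩ : ∃ ym : (pvxT ω).Pth, PvwLE (pvxT ω) (fun i => (pvxT ω).src (𝔖.em i)) 𝔖.nm ym ∧ (v ∈ ym.verts ∨ ∃ j, j ≤ 𝔖.ip ∧ 𝔖.inn.v j = v) := by
    rcases hv with ⟨y, hy, hvy⟩ | ⟨i, h1, -, rfl⟩
    · exact ⟨y, hy, Or.inl hvy⟩
    · obtain ⟨y, hy⟩ := pvpf4_le_m hAt.inn.stub hAt.inn.gate.bw_m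
      exact ⟨y, hy, Or.inr ⟨i, h1, rfl⟩⟩
  -- `u` is far from the centre
  have huz : ρ / 50 * h + h ≤ ‖(u : ℂ) - z‖ := by
    rcases hu with ⟨y, hy, huy⟩ | ⟨i, -, -, h3, rfl⟩
    · have := pvf4d_off hT hAt (v := u) (Or.inl (pvf4d_le_verts hy huy))
      have e : pvxPos ω u = (u : ℂ) := rfl
      rw [e] at this
      linarith
    · have e : pvxPos ω (𝔖.inn.v i) = ((𝔖.inn.v i : ↥(pvxY ω)) : ℂ) := rfl
      rw [e] at h3
      nlinarith
  have hnr : ArmtNR (pvxY ω) (cfCol (pvConf ω)) u (r * h) (ρ / 50 * h) (ρ / 50 * h) :=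
    pvpf4_det2_pl hY (delbPl (pvxY ω)) (delb_pl_eq hY) (cfCol (pvConf ω)) b hAt (μ := ρ / 100 * h) (by positivity) (by positivity) (by nlinarith) (by nlinarith) hh hd hb
      (by nlinarith) hyp hym (hdis yp ym hyp hym) hu' hv' hcon huz
  -- the centre lies in the box
  have hubox : (u : ℂ) ∈ pvwSq z (pvwRad N h τ τ.k) := by
    rcases hu' with huy | ⟨j, -, hj, rfl⟩
    · obtain ⟨i, hi, rfl⟩ := pvf4d_le_verts hyp huy
      exact (hAt.out.stub.ep_in i hi).1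
    · obtain ⟨ni, e1, e2, e3⟩ := hAt.out.gate.strand
      obtain ⟨i, hi, e⟩ := pvf4d_le_verts e3 ⟨j, hj, rfl⟩
      refine pvwk_core_sq hAt.out.gate hb _ (pvwk_ins_sub_core hAt.out.gate ?_)
      rw [← e]
      rcases Nat.lt_or_ge i ni with hlt | hge
      · exact ⟨_, e2 i hlt, rfl⟩
      · have : i = ni := le_antisymm hi hge
        subst this
        show (pvxT ω).src (pvasIt _ _ 𝔖.dm i) ∈ 𝔖.ins
        rw [e1]
        exact (pvwk_gate_ends hT hAt.out.gate).1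
  have hL : bb * h ≤ (⌈bb / r⌉₊ : ℝ) * (r * h) := by
    have := Nat.le_ceil (bb / r)
    rw [div_le_iff₀ hr] at this
    nlinarith
  obtain ⟨q, hq, hqu⟩ := pvf4_snap (z := z) (w := (u : ℂ)) hrh ⌈bb / r⌉₊ (hubox.1.trans (hrad.trans hL)) (hubox.2.trans (hrad.trans hL))
  refine hout (Or.inr ⟨q, hq, pvf4_nr_move hnr hqu ?_ ?_ ?_ ?_⟩)
  · linarith
  · nlinarith
  · nlinarith
  · nlinarith

/-- **FLAG4 WITH THE INNER HALVES**: the SAME flag as in `pvpf4_flag`; not flagged ⟹ `Pvpf4Sep` and `Pvpf4Sep2`, both colours -/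
theorem pvpf4_flag2 {bb ρ : ℝ} (hbb : 0 < bb) (hρ : 0 < ρ) {w : ℕ} (hw : 2 * bb + ρ ≤ w) {ζ : ℝ≥0∞} (hζ : 0 < ζ) :
    ∃ sep : ℝ, 0 < sep ∧ sep ≤ ρ / 100 ∧ ∀ h : ℕ → ℝ, (∀ m, 0 < h m) → ∃ Fl : ℕ → ℤ × ℤ → Set (Conf PvPt), PvxpFlag h w ζ Fl ∧
      ∀ (m : ℕ) (p : ℤ × ℤ) (ω : PVSample), pvConf ω ∉ Fl m p → ∀ b : Bool,
        Pvpf4Sep (pvxT ω) (pvxPos ω) (pvxCol ω b) (h m) (l9Pt (h m) p) bb ρ sep ∧ Pvpf4Sep2 (pvxT ω) (pvxPos ω) (pvxCol ω b) (h m) (l9Pt (h m) p) bb ρ sep := by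
  obtain ⟨r₀, hr₀, H⟩ := pvpf4_cost bb (ρ / 100) hbb (by positivity) hζ
  set r := min r₀ (ρ / 100) with hr
  have hr0 : 0 < r := lt_min hr₀ (by positivity)
  have hr1 : r ≤ r₀ := min_le_left _ _
  have hr2 : r ≤ ρ / 100 := min_le_right _ _
  refine ⟨r, hr0, hr2, fun h hh => ⟨fun m p => pvpf4Fl (l9Pt (h m) p) (ρ / 100 * h m) (w * h m) (r * h m) ⌈bb / r⌉₊ (2 * r * h m) (ρ / 100 * h m) (ρ / 100 * h m), ⟨fun m p => ?_, fun x R => ?_⟩,
    fun m p ω hout b => ⟨pvpf4_sep hbb hρ hr0 hr2 (hh m) hw _ ω hout b, pvpf4_sep2 hbb hρ hr0 hr2 (hh m) hw _ ω hout b⟩⟩⟩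
  · have h0 := hh m
    have hρh : 0 < ρ * h m := mul_pos hρ h0
    have hrh : r * h m ≤ ρ / 100 * h m := mul_le_mul_of_nonneg_right hr2 h0.le
    have hwh : (2 * bb + ρ) * h m ≤ w * h m := mul_le_mul_of_nonneg_right hw h0.le
    refine (pvpf4_reads (by positivity) (by positivity) (by nlinarith) fun q hq => ?_).mono (pvpf4_win h0 p le_rfl)
    have h1 := pvpf4_ctr_norm (l9Pt (h m) p) (t := r * h m) (by positivity) hq
    have hL : (⌈bb / r⌉₊ : ℝ) * r ≤ bb + r := by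
      have := (Nat.ceil_lt_add_one (div_nonneg hbb.le hr0.le)).le
      have h2 : (⌈bb / r⌉₊ : ℝ) * r ≤ (bb / r + 1) * r := mul_le_mul_of_nonneg_right this hr0.le
      have h3 : (bb / r + 1) * r = bb + r := by field_simp
      linarith
    have hL' : (⌈bb / r⌉₊ : ℝ) * (r * h m) ≤ (bb + r) * h m := by
      rw [← mul_assoc]
      exact mul_le_mul_of_nonneg_right hL h0.le
    nlinarith
  · refine Eventually.of_forall fun m => ?_
    exact (eventually_all_finite (pvpf4_grid_fin (hh m) x R)).2 fun p _ => H r hr0 hr1 _ (h m) _ _ (hh m) (by have := hh m; positivity)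

end Claimed.Agent.R289
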