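import Claimed.Agent.R289.Exit.Pins
import Claimed.Agent.R289.Tr.BlockP
import Claimed.Agent.R289.Tr.FlagM
import Claimed.Agent.R289.Tr.FlagNR
import Claimed.Agent.R289.Tr.Flag4
import Claimed.Agent.R289.Exit.PinsF2
import Claimed.Agent.R289.Exit.PinsF4

/-!
# Row 289 (S0537, Cardy for Poisson-Voronoi), THE WALL, Exit/PinsE : LEVEL 2 OF THE ROOF OF THE PINS, ROAD E = THE CUT OF `exit_pins_roadE`      (helper121, post of 24 10:13Z, pen by ruling of 243; prefix `pvpj_`, `Pvpj`, `pvpj`, exits `exit_pinsE_*`)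

**v2.2 (11:55Z)**.   TARGET `pvpj_roadE` = the statement of `exit_pins_roadE` (`Exit/Pins.lean` v4, retyped by 243 at 11:00Z: NUMBERS `N : PvxNums` only, parameters `pvxParOf N hN c` of 73) VERBATIM = COMPILED GLUE.
CHANGES AGAINST v1.1: T2bis (no `exit_pinsE_par`: the menu is explicit);   M1-M7 of 199 (numbers, levels `k ≤ N.K0`, annuli `± 1`, `8 ρ ≤ ρ₁`);   W-6 of 208 (NOT FLAG2 = a SHIELD, `PvbpCirc` with white fresh vertices: `Tr/Shield` of 165, `pvzg_e15` of 112);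
ADV of 175 234 71 (SEP is false for beads): NOT FLAG4 = the record `PvpjNF4`: the STATIC statement "no near return `(12 ρ₃ h; ρ h/32, ρ h/16)` in any local model centred in the window" (radii of 98), density, SEP under vertex disjointness (100, `Exit/PinsF4.lean`).
**v2.3 (12:25Z): 0 SORRY HERE, NO IMPORT OF A PROVER OF (R4).   `pvpj_roadE_of` takes (R4) as the hypothesis `PvpjDIAll c`; the exit `exit_pinsE_di` (proved by 199 from `pvuj_di_raw`) and `pvpj_roadE` moved to `Exit/PinsEU.lean`**   (`exit_pinsE_f2` := `pvkg_f2` of 137, `Exit/PinsF2.lean`, over `Tr/StSch` of 233).      PROVED HERE: (N) `pvxp_near_cap` of 12 (also `pvrn_near` of 239);   (F1) `pvpj_f1` from `pvflm_flag1` of 276;   (F4) `pvpj_f4` from the local near-return tests of 36 (`Tr/FlagNR`) + `pvf4_nr_move` of 71 + `pvpf4_flag` of 100 (over `Tr/Flag4D` of 98).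

THE EXCEPTIONAL EVENT `Ex` (misfit of 150, 10:06Z; ruling 13 (4)): the gates of A6 are circuits with AT MOST two black sites; the gate of record wants a white site on both arcs; `g⁺ ~ g⁻` adjacent = a near return of the RIM at the scale of the mesh.
   This is NOT a static local event: `Ex m` = the complement of the GOOD SAMPLES `PvpjGood` (fine mesh + no `(s, h)` near return of a rim of the patch at a centre of `clB(x,3R)`).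
ORDER OF THE CONSTANTS (v2.1: `PvxNums.Ok` of `Exit/Par.lean` v2, 73).   A6: `𝔑` (annuli `0`, `1`; `L`), `ζ`   →   `a₁ = a 0 - 1`, `b₁ = b 0 + 1`, `a₂ = a 1 - 1`, `b₂ = b 1 + 1`, `m = 101`, `B = 1011`, `ρ₂ := 1/8`, `K0 ρ₁ := 1/8` (so the box of FLAG1 is fixed BEFORE `n₁`: BEWARE of 276)   →   (F1) `n₁`
   →   `K0 := 8 n₁`, `ρ₁ := 1/(64 n₁)`, `K := 64 n₁` (`K ρ₁ = 1`; `K0 ρ₁ + 3 ρ₂ = 1/2 ≤ K ρ₁`)   →   (F2) `ρ`, `8 ρ ≤ ρ₁`   →   (F4) `ρ₃ = ρ''`, `600 ρ₃ ≤ ρ`, `g := 5` (`2 (g+1) = 12`)   →   (R4) `κ`   →   per ball: (N) `s m ≤ κ h_m`, mesh `μ m := s m`.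
SHAPE OF A FLAG: "∃ Fl, `PvxpFlag` with budget `ζ/3` ∧ ∀ m p ω, `DelGood` → not flagged → the consequence `PvpjNFi`": the failure of the local mesh sits INSIDE the flag (shape of `pvflm_flag1`).
* (F2) `exit_pinsE_f2`     [137 seam `Exit/PinsF2.lean`; 233 `Tr/StSch`, 248 `Tr/BlockF`]      E13 E14 in the form W-6
* (R4) `exit_pinsE_di`     [199 seam `Exit/PinsDI.lean`; 126 184 157 `Tr/PinE`; 66 `Tr/PinEnc`; 3 150 190 gates; 112 165 80 E15 (`pvzg_e15_net`); 98 100 DET of FLAG4; 66 73 285 menu]      DETERMINISTIC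
-/

set_option autoImplicit false

namespace Claimed.Agent.R289

open MeasureTheory Filter Topology Set Claims.C0465
open scoped ENNReal

/-! ## 0. flags: unions -/

theorem pvpj_reads_union {W : Set PvPt} {A B : Set (Conf PvPt)} (hA : Conf.ReadsSet W A) (hB : Conf.ReadsSet W B) : Conf.ReadsSet W (A ∪ B) := fun η => by
  simp only [mem_union, hA η, hB η]

theorem PvxpFlag.pvpj_union {h : ℕ → ℝ} {w : ℕ} {ζ₁ ζ₂ : ℝ≥0∞} {F₁ F₂ : ℕ → ℤ × ℤ → Set (Conf PvPt)} (h₁ : PvxpFlag h w ζ₁ F₁) (h₂ : PvxpFlag h w ζ₂ F₂) :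
    PvxpFlag h w (ζ₁ + ζ₂) fun m p => F₁ m p ∪ F₂ m p where
  reads := fun m p => pvpj_reads_union (h₁.reads m p) (h₂.reads m p)
  small := fun x R => by
    filter_upwards [h₁.small x R, h₂.small x R] with m a1 a2
    filter_upwards [a1, a2] with ε b1 b2 p hp
    exact (measure_union_le _ _).trans (add_le_add (b1 p hp) (b2 p hp))

/-! ## 1. the good samples -/

/-- **THE GOOD SAMPLES OF THE PINS**: fine mesh on the ball of agreement, no `(s,S)` near return of a rim of the patch at a centre of `clB(x,3R)`      (`PvbNearRet P w s S`: `k < i < k'`, `P.v k`, `P.v k'` within `s` of `w`, `S < ‖P.v i - w‖`) -/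
def PvpjGood (x : ℂ) (R μ s S : ℝ) (ω : PVSample) : Prop :=
  L9Fine (pvxY ω) (Metric.closedBall x (6 * R)) μ ∧ ∀ P ∈ pvhbAll x R ω, ∀ w : ℂ, ‖w - x‖ ≤ 3 * R → ¬ PvbNearRet P w s S

/-! ## 2. the numbers, the consequences of "no flag" -/

/-- the type of level `k`, orientation bit `o`, centres `yp ym` of the tip cells      (`pvxoTy t = pvpjTy N (pvxoK t) (pvxoO t) (pvxoYp t) (pvxoYm t)` by `rfl`) -/
def pvpjTy (N : PvxNums) (k : ℕ) (o : Bool) (yp ym : ℂ) : PvwTy := ⟨N.a1, N.b1, N.a2, N.b2, k, o, yp, ym⟩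

/-- the numbers which are fixed BEFORE the mouth radius `ρ` and the mesh `ρ₃` of the masks;   `N.K0` = the number of levels in use, `n1` = the threshold of FLAG1 -/
structure PvpjPre (𝔑 : PvxpNum) (N : PvxNums) (n1 : ℕ) : Prop where
  m : N.m = 101
  B : N.B = 1011
  a1 : N.a1 = 𝔑.a 0 - 1
  b1 : N.b1 = 𝔑.b 0 + 1
  a2 : N.a2 = 𝔑.a 1 - 1
  b2 : N.b2 = 𝔑.b 1 + 1
  /-- the trap radius of the MENU (`PvbMenu.L`): of the order of the boxes (ruling 19 (3) of 234, `PvxNums.Ok.L_le`); the block side `𝔑.L` of A6 is not a number of the menu -/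
  L : N.L = 𝔑.b 1 + 1
  g : N.g = 5
  rho1 : 0 < N.rho1
  rho2 : 8 * N.rho1 ≤ N.rho2
  rho2' : 8 * N.rho2 ≤ 1
  K0_le : N.K0 ≤ N.K
  /-- room beyond the levels in use (199 (M1), 126, 136 (D2)) -/
  lev : N.K0 * N.rho1 + 3 * N.rho2 ≤ N.K * N.rho1
  shell : N.K * N.rho1 ≤ 1
  /-- FLAG1 against the pigeonhole of E11 -/
  cnt : 2 * n1 ≤ N.K0
  cnt0 : 0 < n1

/-- all the numbers -/
structure PvpjNumOK (𝔑 : PvxpNum) (N : PvxNums) (n1 : ℕ) : Prop extends PvpjPre 𝔑 N n1 where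
  rho0 : 0 < N.rho
  rho : 8 * N.rho ≤ N.rho1
  rho3 : 0 < N.rho3
  msk : 600 * N.rho3 ≤ N.rho

section nf

variable (N : PvxNums) (m : ℕ) (p : ℤ × ℤ) (ω : PVSample)

/-- **NO FLAG1** (E12, shape of 16 276 126): no strand of either colour which starts in the box of half side `rb h` makes `n₁` steps of size `a₀ h` before its first exit of the box.      In (R4): `rb = 2 b₂ + K0 ρ₁` (the box of level `K0`), `a₀ = ρ₂ / 4`. -/
def PvpjNF1 (rb a₀ : ℝ) (n1 : ℕ) : Prop :=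
  ∀ b : Bool, ¬ PvflStub (pvxT ω) (pvxPos ω) (l9Pt (pvlmH m) p) (rb * pvlmH m) (a₀ * pvlmH m) n1 (pvxCol ω b)

/-- **NO FLAG2** (E13 + E14 in the form W-6 of 208 = `PvzgShP`, `PvzgShM` of 112 at the plane map): every half state at the centre (any colour, orientation, level `k ≤ K0`, centres of the tip cells) has a SHIELD:
a circuit round the centre of its tip cell, beyond the mouth (`2 ρ h ≤ r`), inside the radius `h`, all of whose FRESH vertices are WHITE -/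
def PvpjNF2 : Prop :=
  ∀ (b o : Bool) (k : ℕ) (yp ym : ℂ) (𝔖 : PvwSt (pvxT ω)), k ≤ N.K0 →
    (𝔖.AtOut (pvxPos ω) N.num (pvlmH m) (l9Pt (pvlmH m) p) (pvpjTy N k o yp ym) (pvxCol ω b) →
      ∃ r R' : ℝ, 2 * N.rho * pvlmH m ≤ r ∧ R' ≤ pvlmH m ∧ PvbpCirc (pvxT ω) (pvxPos ω) (𝔖.fzOut)ᶜ (l9Pt (pvlmH m) p + (pvlmH m : ℂ) * yp) r R' false (pvxCol ω b)) ∧
    (𝔖.AtIn (pvxPos ω) N.num (pvlmH m) (l9Pt (pvlmH m) p) (pvpjTy N k o yp ym) (pvxCol ω b) →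
      ∃ r R' : ℝ, 2 * N.rho * pvlmH m ≤ r ∧ R' ≤ pvlmH m ∧ PvbpCirc (pvxT ω) (pvxPos ω) (𝔖.fzIn)ᶜ (l9Pt (pvlmH m) p + (pvlmH m : ℂ) * ym) r R' false (pvxCol ω b))

/-- **NO FLAG4** (E16).      A RECORD: fields may be ADDED (use the projections).
* `nr` STATIC FORM (98 71 36): no near return `(12 ρ₃ h; ρ h / 32, ρ h / 16)` in ANY local model (`ArmtNR` of 186) centred in `clB(z, (3 b₂ + 2) h)` (which contains the largest box and its collar).      Radii of 98 (11:50Z): DET `pvf4d_det`, `pvf4d_det2`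
  (`Tr/Flag4D`) feeds `ArmtNR .. t S R` only under `3 (4 R + 3 μ) + 3 μ + t ≤ ρ h` (the ball of the local model stays away from the two tips).      `IsRim` is colour symmetric (`pvpf4_nr_not`): both colours.
* `dense` the sites are `ρ h / 100`-dense in `clB(z, (3 b₂ + 2) h)` (`L9Fine` does not give `VorDense`).
* `sep` SEP for the erased banks of every full state, UNDER VERTEX DISJOINTNESS (`Pvpf4Sep` of 100, `Exit/PinsF4.lean`).      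
* `sep2` SEP WITH THE INNER HALVES (R17 (a)), under the same hypothesis (`Pvpf4Sep2` of 100: `pvpf4Xp = pvpeXp` of 126 by `rfl`) = `PvpeNF4` of `Tr/PinE`, `PvpnSep` of `Tr/PinEnc`, `hfar` of `pvxo_cover`. -/
structure PvpjNF4 : Prop where
  nr : ∀ y₀ : ℂ, ‖y₀ - l9Pt (pvlmH m) p‖ ≤ (3 * N.b2 + 2) * pvlmH m → ¬ ArmtNR (pvxY ω) (cfCol (pvConf ω)) y₀ (12 * N.rho3 * pvlmH m) (N.rho / 32 * pvlmH m) (N.rho / 16 * pvlmH m)
  dense : VorDense (pvxY ω) (Metric.closedBall (l9Pt (pvlmH m) p) ((3 * N.b2 + 2) * pvlmH m)) (N.rho / 100 * pvlmH m)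
  sep : ∀ b : Bool, Pvpf4Sep (pvxT ω) (pvxPos ω) (pvxCol ω b) (pvlmH m) (l9Pt (pvlmH m) p) (2 * N.b2 + 1) N.rho (12 * N.rho3)
  sep2 : ∀ b : Bool, Pvpf4Sep2 (pvxT ω) (pvxPos ω) (pvxCol ω b) (pvlmH m) (l9Pt (pvlmH m) p) (2 * N.b2 + 1) N.rho (12 * N.rho3)

end nf

/-- **(DI) AT ONE LEVEL**, as produced by (R4): mesh `μ`, near returns `(s, h)` -/
def PvpjDI (𝔑 : PvxpNum) (N : PvxNums) (hN : N.Ok) (c : ℝ) (n1 : ℕ) (x : ℂ) (R : ℝ) (m : ℕ) (μ s : ℝ) : Prop :=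
  ∀ ω, PvpjGood x R μ s (pvlmH m) ω → ∀ P ∈ pvhbAll x R ω, ∀ (k : ℕ) (p : ℤ × ℤ), k ≤ P.len → ‖P.v k - x‖ ≤ 2 * R → ‖P.v k - l9Pt (pvlmH m) p‖ ≤ pvlmH m →
    PvpjNF1 m p ω (2 * N.b2 + N.K0 * N.rho1) (N.rho2 / 4) n1 → PvpjNF2 N m p ω → PvpjNF4 N m p ω →
    (∀ j < 𝔑.g, PvxpGate ω (cfCol (pvConf ω) (P.v k)) (l9Pt (pvlmH m) p) (𝔑.a j * pvlmH m) (𝔑.b j * pvlmH m)) →
    ∃ s ∈ pvxPins (pvxParOf N hN c) x R m ω P, ∀ i, (s.idx ≤ i ∧ i ≤ k ∨ k ≤ i ∧ i ≤ s.idx) → ‖P.v i - l9Pt (pvlmH m) p‖ ≤ 𝔑.L * pvlmH m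

theorem pvpj_eqns_cite : True := by
  have := @PvpjGood.eq_1; have := @pvpjTy.eq_1; have := @PvpjNF1.eq_1; have := @PvpjNF2.eq_1; have := @PvpjDI.eq_1
  trivial

/-! ## 3. THE SUB-EXITS -/

/-- **(F2) FLAG2** = E13 + E14, form W-6      [137; 233 248].      `ρ` is chosen here (`J ~ log (1/ρ)` dyadic annuli between `2 ρ h` and `h`, union over the levels `k ≤ K0`, two signs, two colours, two orientations).
`N₀` carries the numbers fixed before (`PvpjPre`); its fields `rho`, `rho3` are not read. -/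
theorem exit_pinsE_f2 (𝔑 : PvxpNum) (h𝔑 : 𝔑.Wf (10 ^ 6) 4 2) (ζ : ℝ≥0∞) (hζ : 0 < ζ) (N₀ : PvxNums) (n1 : ℕ) (hpre : PvpjPre 𝔑 N₀ n1) :
    ∃ (ρ : ℝ) (Fl : ℕ → ℤ × ℤ → Set (Conf PvPt)), 0 < ρ ∧ 8 * ρ ≤ N₀.rho1 ∧ PvxpFlag pvlmH (pvxpW 𝔑) ζ Fl ∧
      ∀ (ρ₃ : ℝ) m p ω, DelGood (pvxY ω) → pvConf ω ∉ Fl m p → PvpjNF2 { N₀ with rho := ρ, rho3 := ρ₃ } m p ω := by
  have h0g : 0 < 𝔑.g := lt_of_lt_of_le (by norm_num) h𝔑.g_ge
  have h1g : 1 < 𝔑.g := lt_of_lt_of_le (by norm_num) h𝔑.g_ge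
  have e1 := h𝔑.a_ge 0 h0g
  have e2 := h𝔑.ab 0 h0g
  have e3 := h𝔑.nest 0 h1g
  have e4 := h𝔑.ab 1 h1g
  have e5 := h𝔑.bL 1 h1g
  simp only [zero_add] at e3
  have hK : (N₀.K0 : ℝ) * N₀.rho1 ≤ 1 := by linarith [hpre.lev, hpre.shell, hpre.rho2, hpre.rho1]
  have hw : 4 * N₀.b2 + 7 ≤ ((pvxpW 𝔑 : ℕ) : ℝ) := by
    have := Nat.le_ceil (4 * 𝔑.L)
    unfold pvxpW
    rw [hpre.b2]
    linarith
  obtain ⟨ρ, Fl, h1, h2, h3, h4⟩ := pvkg_f2 (a := N₀.a1) (b := N₀.b1) (B2 := N₀.b2) (ρ₁ := N₀.rho1) (K := N₀.K0) (w := pvxpW 𝔑) (by rw [hpre.a1]; linarith) (by rw [hpre.a1, hpre.b1]; linarith)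
    (by rw [hpre.b1, hpre.b2]; linarith) hpre.rho1 (by linarith [hpre.rho2, hpre.rho2']) hK hw hζ
  refine ⟨ρ, Fl, h1, h2, h3, fun ρ₃ m p ω hg hn b o k yp ym 𝔖 hk => ?_⟩
  obtain ⟨k1, k2⟩ := h4 m p ω hg hn b (PvxNums.num { N₀ with rho := ρ, rho3 := ρ₃ }) (pvpjTy { N₀ with rho := ρ, rho3 := ρ₃ } k o yp ym) 𝔖 rfl rfl rfl rfl rfl hk
  exact ⟨fun hat => k1 hat false, fun hat => k2 hat false⟩

/-- **THE STATEMENT OF (R4) (DI), DETERMINISTIC**      [199 `Exit/PinsDI.lean` : `pvuj_di_raw`; 126 `Exit/PinsDG.lean` : `pvdg_di`; 12 `Exit/PinsDC.lean`].      `κ` = how fine the mesh and the near returns have to be, in units of `h`.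
The EXIT `exit_pinsE_di` (same statement, under `0 < c`) and the roof `pvpj_roadE` live in `Exit/PinsEU.lean`, ABOVE the files which prove it (so those files, and the files below them, MAY import this one for the vocabulary). -/
def PvpjDIAll (c : ℝ) : Prop :=
  ∀ (𝔑 : PvxpNum), 𝔑.Wf (10 ^ 6) 4 2 → ∀ (N : PvxNums) (hN : N.Ok) (n1 : ℕ), PvpjNumOK 𝔑 N n1 →
    ∃ κ : ℝ, 0 < κ ∧ κ ≤ 1 ∧ ∀ (x : ℂ) (R : ℝ), 0 < R → ∀ᶠ m in atTop, ∀ μ s : ℝ, 0 < μ → μ ≤ s → s ≤ κ * pvlmH m → PvpjDI 𝔑 N hN c n1 x R m μ s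

/-! ## 4. the flags which are closed -/

/-- **(F1) FLAG1** = E12, from `pvflm_flag1` of 276 (`Tr/FlagM`) -/
theorem pvpj_f1 {rb a₀ : ℝ} (hrb : 0 < rb) (ha₀ : 0 < a₀) {w : ℕ} (hw : 2 * rb + a₀ ≤ w) {ζ : ℝ≥0∞} (hζ : 0 < ζ) :
    ∃ (n1 : ℕ) (Fl : ℕ → ℤ × ℤ → Set (Conf PvPt)), 0 < n1 ∧ PvxpFlag pvlmH w ζ Fl ∧ ∀ m p ω, pvConf ω ∉ Fl m p → PvpjNF1 m p ω rb a₀ n1 := by
  obtain ⟨n, hn, H⟩ := pvflm_flag1 hrb ha₀ hw hζ
  obtain ⟨Fl, h1, h2, h3⟩ := H pvlmH pvlm_H_pos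
  exact ⟨n, Fl, hn, ⟨h1, h2⟩, fun m p ω ho b => h3 m p ω ho b⟩

/-- **STATIC LOCAL FLAG "NEAR RETURN IN SOME LOCAL MODEL"**: the tests of 36 (`pvnfFlag`, `Tr/FlagNR`: read LITERALLY in the window, failure of the density at the scale `κ h` inside the test) on the `d h`-grid of `clB(z, rw h)`.
Off the flag there is no near return `(d h; e h / 2, e h)` in any local model centred in `clB(z, rw h)`, and the sites are `κ h`-dense in `clB(z, rw h)`.      No hypothesis on the sample. -/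
theorem pvpj_flag_nr {w : ℕ} {rw e κ : ℝ} (hrw : 0 < rw) (he : 0 < e) (hκ : 0 < κ) (hκ1 : κ ≤ 1) (hw : 2 * (rw + 2 * e) + 2 * e + 5 ≤ w) {ζ : ℝ≥0∞} (hζ : 0 < ζ) :
    ∃ d₀ : ℝ, 0 < d₀ ∧ ∀ d, 0 < d → d ≤ d₀ → ∃ Fl : ℕ → ℤ × ℤ → Set (Conf PvPt), PvxpFlag pvlmH w ζ Fl ∧
      ∀ m p ω, pvConf ω ∉ Fl m p →
        (∀ y₀ : ℂ, ‖y₀ - l9Pt (pvlmH m) p‖ ≤ rw * pvlmH m → ¬ ArmtNR (pvxY ω) (cfCol (pvConf ω)) y₀ (d * pvlmH m) (e / 2 * pvlmH m) (e * pvlmH m)) ∧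
        VorDense (pvxY ω) (Metric.closedBall (l9Pt (pvlmH m) p) (rw * pvlmH m)) (κ * pvlmH m) := by
  obtain ⟨c, C, M₀, hc, hC, hM, hsmall⟩ := pvnf_flag_small
  obtain ⟨ζ', hζ'0, hζ'⟩ : ∃ ζ' : ℝ, 0 < ζ' ∧ ENNReal.ofReal ζ' ≤ ζ := by
    refine ⟨(min ζ 1).toReal, ENNReal.toReal_pos (lt_min hζ one_pos).ne' (ne_top_of_le_ne_top ENNReal.one_ne_top (min_le_right _ _)), ?_⟩
    rw [ENNReal.ofReal_toReal (ne_top_of_le_ne_top ENNReal.one_ne_top (min_le_right _ _))]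
    exact min_le_left _ _
  have hnum := pvnf_num hc hC hrw he (half_pos hζ'0)
  obtain ⟨u, hu, hsub⟩ := mem_nhdsGT_iff_exists_Ioc_subset.1 hnum
  have hu0 : (0 : ℝ) < u := hu
  have hM1 : (0 : ℝ) < 2 * (2 * M₀ + 1) := by linarith
  refine ⟨min u (e / (2 * (2 * M₀ + 1))), lt_min hu0 (div_pos he hM1), fun d hd hdd => ?_⟩
  have hdu : d ≤ u := hdd.trans (min_le_left _ _)
  have hde : d * (2 * (2 * M₀ + 1)) ≤ e := (le_div_iff₀ hM1).1 (hdd.trans (min_le_right _ _))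
  have hde' : d ≤ e := by nlinarith
  have hcost : (pvnfCard rw d : ℝ) * pvnfA c C d e (e / 2) ≤ ζ' / 2 := hsub ⟨hd, hdu⟩ (e / 2) (by linarith)
  set δ : ℝ := ζ' / (2 * ((pvnfCard rw d : ℝ) + 1)) with hδ
  have hcard : (0 : ℝ) ≤ (pvnfCard rw d : ℝ) := Nat.cast_nonneg _
  have hδ0 : 0 < δ := by positivity
  have hδc : (pvnfCard rw d : ℝ) * δ ≤ ζ' / 2 := by
    rw [hδ, mul_div_assoc', div_le_div_iff₀ (by positivity) (by norm_num)]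
    nlinarith
  have hμ : ∀ m, 0 < κ * pvlmH m := fun m => mul_pos hκ (pvlm_H_pos m)
  refine ⟨pvnfFlag pvlmH (fun m => κ * pvlmH m) rw d e (e / 2), ⟨fun m p => ?_, fun x R => Eventually.of_forall fun m => ?_⟩, fun m p ω hout => ⟨fun y₀ hy₀ hnr => hout ?_, fun a ha => ?_⟩⟩
  · exact pvnf_flag_reads pvlm_H_pos (fun m => ⟨hμ m, by have := pvlm_H_pos m; nlinarith⟩) hd hrw.le (by linarith) (by linarith) m p
  · filter_upwards [hsmall pvlmH (fun m => κ * pvlmH m) rw d e (e / 2) δ pvlm_H_pos hμ hd (by nlinarith) (by linarith) hδ0 m] with ε hε p _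
    refine (hε p).trans (le_trans (ENNReal.ofReal_le_ofReal ?_) hζ')
    nlinarith
  · have hh := pvlm_H_pos m
    obtain ⟨y, hy, hyy⟩ := pvnf_grid_cover (g := d * pvlmH m) (mul_pos hd hh) hy₀
    have h1 : ArmtNR (pvxY ω) (cfCol (pvConf ω)) y (2 * (d * pvlmH m)) (e * pvlmH m / 2 - d * pvlmH m) (e / 2 * pvlmH m) :=
      pvf4_nr_move hnr (t := d * pvlmH m) (by rw [norm_sub_rev]; exact hyy) (by linarith) (by linarith) (by nlinarith) (by nlinarith)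
    exact mem_iUnion₂.2 ⟨y, hy, Or.inr h1⟩
  · have hh := pvlm_H_pos m
    rw [mem_closedBall_iff_norm] at ha
    obtain ⟨y, hy, hyy⟩ := pvnf_grid_cover (g := d * pvlmH m) (mul_pos hd hh) ha
    by_contra hcon
    refine hout (mem_iUnion₂.2 ⟨y, hy, Or.inl fun hdense => hcon (hdense a (vor_subset_nbd _ (by have := hμ m; linarith) ?_))⟩)
    unfold pvnfW
    rw [mem_closedBall_iff_norm, norm_sub_rev]
    have := hμ m
    nlinarith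

theorem pvpj_sep_mono {V D : Type} {T : PvMap V D} {pos : V → ℂ} {s : V → Bool} {h : ℝ} {z : ℂ} {bb ρ sep sep' : ℝ} (hh : 0 ≤ h) (hs : sep' ≤ sep) (H : Pvpf4Sep T pos s h z bb ρ sep) :
    Pvpf4Sep T pos s h z bb ρ sep' := fun N τ 𝔖 h1 h2 h3 h4 h5 yp ym h6 h7 h8 u hu v hv =>
  lt_of_le_of_lt (mul_le_mul_of_nonneg_right hs hh) (H N τ 𝔖 h1 h2 h3 h4 h5 yp ym h6 h7 h8 u hu v hv)

theorem pvpj_sep2_mono {V D : Type} {T : PvMap V D} {pos : V → ℂ} {s : V → Bool} {h : ℝ} {z : ℂ} {bb ρ sep sep' : ℝ} (hh : 0 ≤ h) (hs : sep' ≤ sep) (H : Pvpf4Sep2 T pos s h z bb ρ sep) :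
    Pvpf4Sep2 T pos s h z bb ρ sep' := fun N τ 𝔖 h1 h2 h3 h4 h5 h6 h7 u hu v hv =>
  lt_of_le_of_lt (mul_le_mul_of_nonneg_right hs hh) (H N τ 𝔖 h1 h2 h3 h4 h5 h6 h7 u hu v hv)

/-- **(F4) FLAG4** = E16.      `ρ₃ = ρ''` is chosen here, AFTER `ρ`. -/
theorem pvpj_f4 {w : ℕ} {b2 ρ : ℝ} (hb2 : 0 < b2) (hρ : 0 < ρ) (hρ1 : ρ ≤ 1) (hw : 6 * b2 + 21 ≤ w) {ζ : ℝ≥0∞} (hζ : 0 < ζ) {cap : ℝ} (hcap : 0 < cap) :
    ∃ (ρ₃ : ℝ) (Fl : ℕ → ℤ × ℤ → Set (Conf PvPt)), 0 < ρ₃ ∧ ρ₃ ≤ cap ∧ PvxpFlag pvlmH w ζ Fl ∧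
      ∀ N : PvxNums, N.b2 = b2 → N.rho = ρ → N.rho3 = ρ₃ → ∀ m p ω, pvConf ω ∉ Fl m p → PvpjNF4 N m p ω := by
  have hζ2 : 0 < ζ / 2 := ENNReal.half_pos hζ.ne'
  obtain ⟨d₀, hd₀, H⟩ := pvpj_flag_nr (w := w) (rw := 3 * b2 + 2) (e := ρ / 16) (κ := ρ / 100) (by linarith) (by positivity) (by positivity) (by linarith) (by linarith) hζ2
  obtain ⟨sep, hsep, -, H'⟩ := pvpf4_flag2 (bb := 2 * b2 + 1) (ρ := ρ) (by linarith) hρ (w := w) (by linarith) hζ2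
  obtain ⟨Flb, hFlb, hdetb⟩ := H' pvlmH pvlm_H_pos
  obtain ⟨d, hd⟩ : ∃ d : ℝ, d = min (min d₀ sep) (12 * cap) := ⟨_, rfl⟩
  have hd0 : 0 < d := by rw [hd]; exact lt_min (lt_min hd₀ hsep) (by positivity)
  have hd1 : d ≤ d₀ := by rw [hd]; exact (min_le_left _ _).trans (min_le_left _ _)
  have hd2 : d ≤ sep := by rw [hd]; exact (min_le_left _ _).trans (min_le_right _ _)
  have hd3 : d ≤ 12 * cap := by rw [hd]; exact min_le_right _ _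
  obtain ⟨Fla, hFla, hdeta⟩ := H d hd0 hd1
  have hFl := hFla.pvpj_union hFlb
  rw [ENNReal.add_halves] at hFl
  refine ⟨d / 12, _, by positivity, by linarith, hFl, fun N h1 h2 h3 m p ω hout => ?_⟩
  have e12 : 12 * N.rho3 = d := by rw [h3]; ring
  obtain ⟨ha1, ha2⟩ := hdeta m p ω fun h => hout (Or.inl h)
  refine ⟨fun y₀ hy₀ => ?_, ?_, fun b => ?_, fun b => ?_⟩
  · rw [h1] at hy₀
    have := ha1 y₀ hy₀
    rwa [e12, h2, show ρ / 32 = ρ / 16 / 2 by ring]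
  · rw [h1, h2]; exact ha2
  · rw [h1, h2, e12]
    exact pvpj_sep_mono (pvlm_H_pos m).le hd2 (hdetb m p ω (fun h => hout (Or.inr h)) b).1
  · rw [h1, h2, e12]
    exact pvpj_sep2_mono (pvlm_H_pos m).le hd2 (hdetb m p ω (fun h => hout (Or.inr h)) b).2

/-! ## 5. THE GLUE -/

/-- the complement of the good samples is negligible -/
theorem pvpj_good_small (x : ℂ) {R : ℝ} (hR : 0 < R) (μ s : ℕ → ℝ) (hμ : ∀ m, 0 < μ m)
    (hNR : PvxpSmall pvhbUp fun m _ => {q | ∃ P ∈ pvhbAll x R (pvMerge q), ∃ w : ℂ, ‖w - x‖ ≤ 3 * R ∧ PvbNearRet P w (s m) (pvlmH m)}) :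
    PvxpSmall pvhbUp fun m _ => {q | ¬ PvpjGood x R (μ m) (s m) (pvlmH m) (pvMerge q)} := by
  refine ((pvxp_fine x hR μ hμ).union hNR).mono fun m _ q hq => ?_
  by_cases hf : L9Fine (pvxY (pvMerge q)) (Metric.closedBall x (6 * R)) (μ m)
  · refine Or.inr (by_contra fun hn => hq ⟨hf, fun P hP w hw hnr => hn ⟨P, hP, w, hw, hnr⟩⟩)
  · exact Or.inl hf

/-- the numbers of record before `ρ`, `ρ₃` -/
noncomputable def pvpjN0 (𝔑 : PvxpNum) (n1 : ℕ) : PvxNums where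
  m := 101
  B := 1011
  a1 := 𝔑.a 0 - 1
  b1 := 𝔑.b 0 + 1
  a2 := 𝔑.a 1 - 1
  b2 := 𝔑.b 1 + 1
  L := 𝔑.b 1 + 1
  K0 := 8 * n1
  K := 64 * n1
  rho := 1
  rho1 := 1 / (64 * (n1 : ℝ))
  rho2 := 1 / 8
  rho3 := 1
  g := 5

theorem pvpj_eqns_cite2 : True := by
  have := @pvpjN0.eq_1
  trivial

theorem pvpj_pre (𝔑 : PvxpNum) {n1 : ℕ} (hn : 0 < n1) : PvpjPre 𝔑 (pvpjN0 𝔑 n1) n1 := by
  have hn' : (0 : ℝ) < (n1 : ℝ) := by exact_mod_cast hn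
  have hn1 : (1 : ℝ) ≤ (n1 : ℝ) := by exact_mod_cast hn
  have e1 : ((8 * n1 : ℕ) : ℝ) * (1 / (64 * (n1 : ℝ))) = 1 / 8 := by push_cast; field_simp; ring
  have e2 : ((64 * n1 : ℕ) : ℝ) * (1 / (64 * (n1 : ℝ))) = 1 := by push_cast; field_simp
  refine ⟨rfl, rfl, rfl, rfl, rfl, rfl, rfl, rfl, ?_, ?_, ?_, ?_, ?_, ?_, ?_, hn⟩
  · show (0 : ℝ) < 1 / (64 * (n1 : ℝ))
    positivity
  · show 8 * ((1 : ℝ) / (64 * (n1 : ℝ))) ≤ 1 / 8
    rw [mul_one_div, div_le_iff₀ (by positivity)]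
    linarith
  · show 8 * ((1 : ℝ) / 8) ≤ 1
    norm_num
  · show 8 * n1 ≤ 64 * n1
    omega
  · show ((8 * n1 : ℕ) : ℝ) * (1 / (64 * (n1 : ℝ))) + 3 * (1 / 8) ≤ ((64 * n1 : ℕ) : ℝ) * (1 / (64 * (n1 : ℝ)))
    rw [e1, e2]; norm_num
  · show ((64 * n1 : ℕ) : ℝ) * (1 / (64 * (n1 : ℝ))) ≤ 1
    rw [e2]
  · show 2 * n1 ≤ 8 * n1
    omega

/-- `PvxNums.Ok` (73, `Exit/Par.lean` v2) for the numbers of the pins -/
theorem pvpj_ok {𝔑 : PvxpNum} (h𝔑 : 𝔑.Wf (10 ^ 6) 4 2) {N : PvxNums} {n1 : ℕ} (h : PvpjNumOK 𝔑 N n1) : N.Ok := by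
  have hg := h𝔑.g_ge
  have e1 := h𝔑.a_ge 0 (by omega)
  have e2 := h𝔑.ab 0 (by omega)
  have e3 := h𝔑.nest 0 (by omega)
  have e4 := h𝔑.ab 1 (by omega)
  have e5 := h𝔑.bL 1 (by omega)
  simp only [zero_add] at e3
  have r0 := h.rho0
  have r1 := h.rho1
  have r2 := h.rho2
  have r2' := h.rho2'
  exact {
    m_gt := by rw [h.m]; norm_num
    m_lt := by rw [h.m, h.B]; norm_num
    B_lt := by rw [h.B, h.a1]; linarith
    ab1 := by rw [h.a1, h.b1]; linarith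
    gap := by rw [h.b1, h.a2]; linarith
    ab2 := by rw [h.a2, h.b2]; linarith
    b2_le := by rw [h.b2, h.L]
    L_le := by rw [h.b2, h.L]; linarith
    rho0 := r0
    rho1 := by linarith [h.rho]
    rho2 := by linarith
    rho3 := by linarith
    msk0 := h.rho3
    msk := by rw [h.g]; push_cast; linarith [h.msk]
    g2 := by rw [h.g]; norm_num
    K0_le := h.K0_le
    room := by linarith [h.lev]
    shell := by linarith [h.shell] }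

/-- **THE CUT OF `exit_pins_roadE`** (statement of `Exit/Pins.lean` v4, verbatim), GIVEN (R4).      0 sorry below this theorem. -/
theorem pvpj_roadE_of {c : ℝ} (hdi : PvpjDIAll c) (𝔑 : PvxpNum) (h𝔑 : 𝔑.Wf (10 ^ 6) 4 2) (ζ : ℝ≥0∞) (hζ : 0 < ζ) :
    ∃ (N : PvxNums) (hN : N.Ok) (Flag : ℕ → ℤ × ℤ → Set (Conf PvPt)),
      PvxpFlag pvlmH (pvxpW 𝔑) ζ Flag ∧
      ∀ (x : ℂ) (R : ℝ), 0 < R → ∃ Ex : ℕ → ℝ → Set (PvGeoT × PvColT), PvxpSmall pvhbUp Ex ∧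
        ∀ᶠ m in atTop, ∀ ε, ∀ q ∉ Ex m ε, PvxpDIH 𝔑 (pvlmH m) x R (Flag m) (pvxPins (pvxParOf N hN c) x R m) (pvMerge q) := by
  have hζ3 : 0 < ζ / 3 := ENNReal.div_pos hζ.ne' (by norm_num)
  have hg := h𝔑.g_ge
  have e1 := h𝔑.a_ge 1 (by omega)
  have e4 := h𝔑.ab 1 (by omega)
  have e5 := h𝔑.bL 1 (by omega)
  have hwL : 4 * 𝔑.L ≤ ((pvxpW 𝔑 : ℕ) : ℝ) := Nat.le_ceil _
  -- the constants, in order
  obtain ⟨n1, Fl1, hn1, hF1, hN1⟩ := pvpj_f1 (rb := 2 * (𝔑.b 1 + 1) + 1 / 8) (a₀ := 1 / 32) (by linarith) (by norm_num) (w := pvxpW 𝔑) (by linarith) hζ3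
  have hpre := pvpj_pre 𝔑 hn1
  obtain ⟨ρ, Fl2, hρ0, hρ1, hF2, hN2⟩ := exit_pinsE_f2 𝔑 h𝔑 (ζ / 3) hζ3 (pvpjN0 𝔑 n1) n1 hpre
  have hρle : ρ ≤ 1 := by
    have h1 := hpre.rho2
    have h2 := hpre.rho2'
    linarith
  obtain ⟨ρ₃, Fl4, hρ3, hρ3', hF4, hN4⟩ := pvpj_f4 (w := pvxpW 𝔑) (b2 := 𝔑.b 1 + 1) (ρ := ρ) (by linarith) hρ0 hρle (by linarith) hζ3 (cap := ρ / 600) (by positivity)
  obtain ⟨N, hNdef⟩ : ∃ N : PvxNums, N = { pvpjN0 𝔑 n1 with rho := ρ, rho3 := ρ₃ } := ⟨_, rfl⟩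
  have hOK : PvpjNumOK 𝔑 N n1 := by
    subst hNdef
    exact ⟨⟨hpre.m, hpre.B, hpre.a1, hpre.b1, hpre.a2, hpre.b2, hpre.L, hpre.g, hpre.rho1, hpre.rho2, hpre.rho2', hpre.K0_le, hpre.lev, hpre.shell, hpre.cnt, hpre.cnt0⟩, hρ0, hρ1, hρ3,
      by show 600 * ρ₃ ≤ ρ; linarith⟩
  have hN : N.Ok := pvpj_ok h𝔑 hOK
  obtain ⟨κ, hκ0, hκ1, hDI⟩ := hdi 𝔑 h𝔑 N hN n1 hOK
  -- the static flags
  have hFl : PvxpFlag pvlmH (pvxpW 𝔑) ζ fun m p => Fl1 m p ∪ Fl2 m p ∪ Fl4 m p := by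
    have := (hF1.pvpj_union hF2).pvpj_union hF4
    rwa [ENNReal.add_thirds] at this
  refine ⟨N, hN, _, hFl, fun x R hR => ?_⟩
  -- the scales of the ball
  obtain ⟨s, hs, hNR⟩ := pvxp_near_cap x R hR (fun m => κ * pvlmH m) (fun m => mul_pos hκ0 (pvlm_H_pos m))
  refine ⟨fun m _ => {q | ¬ PvpjGood x R (s m) (s m) (pvlmH m) (pvMerge q)}, pvpj_good_small x hR s s (fun m => (hs m).1) hNR, ?_⟩
  filter_upwards [hDI x R hR] with m hm ε q hq P hP' k p hk hkx hnear hfl hgate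
  have hgood : PvpjGood x R (s m) (s m) (pvlmH m) (pvMerge q) := not_not.1 hq
  have hdel : DelGood (pvxY (pvMerge q)) := (hgate 0 (lt_of_lt_of_le (by norm_num) h𝔑.g_ge)).1
  have hn' : (0 : ℝ) < (n1 : ℝ) := by exact_mod_cast hn1
  have er : 2 * N.b2 + (N.K0 : ℝ) * N.rho1 = 2 * (𝔑.b 1 + 1) + 1 / 8 := by
    rw [hNdef]
    show 2 * (𝔑.b 1 + 1) + ((8 * n1 : ℕ) : ℝ) * (1 / (64 * (n1 : ℝ))) = _
    push_cast; field_simp; ring
  have ea : N.rho2 / 4 = 1 / 32 := by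
    rw [hNdef]
    show (1 : ℝ) / 8 / 4 = 1 / 32
    norm_num
  refine hm (s m) (s m) (hs m).1 le_rfl (hs m).2 (pvMerge q) hgood P hP' k p hk hkx hnear ?_ ?_ ?_ hgate
  · rw [er, ea]; exact hN1 m p _ fun h => hfl (Or.inl (Or.inl h))
  · rw [hNdef]; exact hN2 ρ₃ m p _ hdel fun h => hfl (Or.inl (Or.inr h))
  · exact hN4 N (by rw [hNdef]; rfl) (by rw [hNdef]) (by rw [hNdef]) m p _ fun h => hfl (Or.inr h)

end Claimed.Agent.R289
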