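import Claimed.Agent.R289.Exit.PinsE
import Claimed.Agent.R289.Exit.PinsDJ
import Claimed.Agent.R289.Tr.ShieldW
import Claimed.Agent.R289.Tr.GoodRimE
import Claimed.Agent.R289.Tr.PinEncP

/-!
# Row 289 (S0537, Cardy for Poisson-Voronoi), THE WALL, road E, file Exit/PinsDC : (DI) THROUGH THE COMPLETION = `exit_pinsE_di`      (helper12, roof of the pins; prefix `pvpc_`)

SECOND ROPE (12:30Z): the exit is closed on main by the plane road of 199 (`Exit/PinsDI.lean`, wired in `Exit/PinsEU.lean` by 121).   This file is an INDEPENDENT proof of the same statement (`pvpc_di`, 0 sorry, axioms clean), imported by nobody: to switch, cite `pvpc_di` in `Exit/PinsEU.lean`.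
GLUE ONLY, over closed pieces:
(1) `pvsea_all` (45) : the encoded rim is the rim `c` of a completion;
(2) `pvku_model` (83), twice : the two gates of A6 (plane) give, ON THE COMPLETION, gate + fixed rule + the record `PvzcRim`, and the second gate;
(3) `pvzy_e15_bulk` (112, over `pvn7_e15_bulk` of 17, `pvzw_e15` of 112, `Tr/Shield` of 165) : NOT FLAG1, NOT FLAG2 (read on the plane) give a level `k ≤ K0` and a state which is `At` + `PinOf` for all admissible tip centres;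
(4) tip centres := the centres of the cells of the black ends of the tip darts (`pvpnCtr` of 66; `pvpo_ctr_near`, `pvn7_tipP_b`);
(5) `pvpn_enc` (66) : plane twin, encoded pin;   `pvdj_state` (235) : the three arcs are disjoint;   `Pvpf4Sep2` (100) : SEP;   `pvpn_menu`, `pvpo_has` (66, 73, 285) : the type of record.
-/

set_option autoImplicit false

namespace Claimed.Agent.R289

open Filter Topology Set Claims.C0465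

/-- SEP in the vertex form of 100 gives SEP in the metric form of 66 -/
theorem pvpc_sep {V D : Type} {T : PvMap V D} {pos : V → ℂ} {z : ℂ} {r d : ℝ} {𝔖 : PvwSt T}
    (H : ∀ u ∈ pvpf4Xp T pos z r 𝔖, ∀ v ∈ pvpf4Xm T pos z r 𝔖, d < ‖pos u - pos v‖) : PvpnSep 𝔖 pos z r d := by
  intro a ha b hb
  have h1 : ∃ u ∈ pvpf4Xp T pos z r 𝔖, pos u = a := by
    rcases ha with ⟨y, hy, v, hv, rfl⟩ | ⟨i, i1, i2, i3, rfl⟩
    · exact ⟨v, Or.inl ⟨y, hy, hv⟩, rfl⟩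
    · exact ⟨_, Or.inr ⟨i, i1, i2, i3, rfl⟩, rfl⟩
  have h2 : ∃ u ∈ pvpf4Xm T pos z r 𝔖, pos u = b := by
    rcases hb with ⟨y, hy, v, hv, rfl⟩ | ⟨i, i1, i3, rfl⟩
    · exact ⟨v, Or.inl ⟨y, hy, hv⟩, rfl⟩
    · exact ⟨_, Or.inr ⟨i, i1, i3, rfl⟩, rfl⟩
  obtain ⟨u, hu, rfl⟩ := h1
  obtain ⟨v, hv, rfl⟩ := h2
  exact H u hu v hv

set_option maxHeartbeats 1600000 in
/-- **(DI) AT ONE LEVEL** -/
theorem pvpc_di_at {c₀ : ℝ} (𝔑 : PvxpNum) (h𝔑 : 𝔑.Wf (10 ^ 6) 4 2) (N : PvxNums) (hN : N.Ok) (n1 : ℕ) (hOK : PvpjNumOK 𝔑 N n1) {x : ℂ} {R : ℝ} (hR : 0 < R) {m : ℕ} (hm0 : N.m0 ≤ m)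
    (hsm : 8 * (N.big + 1) * pvlmH m ≤ R) {μ s : ℝ} (hμ0 : 0 < μ) (hμs : μ ≤ s) (hs : s ≤ N.rho / 100 * pvlmH m) : PvpjDI 𝔑 N hN c₀ n1 x R m μ s := by
  intro ω hgood P hP k p hk hkx hkz hF1 hF2 hF4 hgate
  have hh := pvlm_H_pos m
  have h0g : 0 < 𝔑.g := lt_of_lt_of_le (by norm_num) h𝔑.g_ge
  have h1g : 1 < 𝔑.g := lt_of_lt_of_le (by norm_num) h𝔑.g_ge
  have w1 := h𝔑.a_ge 0 h0g
  have w2 := h𝔑.ab 0 h0g
  have w3 := h𝔑.nest 0 h1g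
  have w4 := h𝔑.ab 1 h1g
  have w5 := h𝔑.bL 1 h1g
  simp only [zero_add] at w3
  have hG : DelGood (pvxY ω) := (hgate 0 h0g).1
  have hF := hgood.1
  have r0 := hN.rho0
  have r1 := hN.rho_lt_one
  have hb2 := hN.b2_pos
  have hbig : N.big = 2 * N.b2 + 4 := rfl
  have hμρ : μ ≤ N.rho / 100 * pvlmH m := hμs.trans hs
  have hρh : 0 < N.rho * pvlmH m := mul_pos r0 hh
  have hμh : μ < pvlmH m := by nlinarith
  have hbh : 0 < N.b2 * pvlmH m := mul_pos hb2 hh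
  have hhR : 8 * (2 * (N.b2 * pvlmH m) + 5 * pvlmH m) ≤ R := by rw [hbig] at hsm; linarith
  have hzx : ‖l9Pt (pvlmH m) p - x‖ ≤ 3 * R := by
    have e2 := norm_add_le (-(P.v k - l9Pt (pvlmH m) p)) (P.v k - x)
    rw [show -(P.v k - l9Pt (pvlmH m) p) + (P.v k - x) = l9Pt (pvlmH m) p - x by ring, norm_neg] at e2
    linarith
  -- (1) the completion
  obtain ⟨X, 𝔅, ξ, c, B, rfl⟩ := pvsea_all hR hG hP
  have hOk := B.ok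
  have h4 := B.cut
  have hNR : ∀ i i', i ≤ i' → i' ≤ c.n → ‖𝔅.posF (pvxY ω) (x + 7 * R) ((𝔅.T (pvxY ω)).src (c.e i)) - x‖ ≤ 3 * R →
      ‖𝔅.posF (pvxY ω) (x + 7 * R) ((𝔅.T (pvxY ω)).src (c.e i')) - 𝔅.posF (pvxY ω) (x + 7 * R) ((𝔅.T (pvxY ω)).src (c.e i))‖ ≤ μ →
      ∀ l, i ≤ l → l ≤ i' → ‖𝔅.posF (pvxY ω) (x + 7 * R) ((𝔅.T (pvxY ω)).src (c.e l)) - 𝔅.posF (pvxY ω) (x + 7 * R) ((𝔅.T (pvxY ω)).src (c.e i))‖ ≤ pvlmH m := by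
    intro i i' h1 h2 h3 h5 l l1 l2
    by_contra hcon
    have hl := not_le.1 hcon
    have hil : i ≠ l := by rintro rfl; rw [sub_self, norm_zero] at hl; linarith
    have hli : l ≠ i' := by rintro rfl; linarith
    exact hgood.2 _ hP _ h3 ⟨i, l, i', by omega, by omega, h2, by
      show ‖𝔅.posF (pvxY ω) (x + 7 * R) ((𝔅.T (pvxY ω)).src (c.e i)) - 𝔅.posF (pvxY ω) (x + 7 * R) ((𝔅.T (pvxY ω)).src (c.e i))‖ ≤ s
      rw [sub_self, norm_zero]; exact hμ0.le.trans hμs, h5.trans hμs, hl⟩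
  -- (2) the two gates on the completion
  obtain ⟨b, hb⟩ : ∃ b : Bool, b = cfCol (pvConf ω) (𝔅.posF (pvxY ω) (x + 7 * R) ((𝔅.T (pvxY ω)).src (c.e k))) := ⟨_, rfl⟩
  have hgate' : ∀ j < 𝔑.g, PvxpGate ω b (l9Pt (pvlmH m) p) (𝔑.a j * pvlmH m) (𝔑.b j * pvlmH m) := fun j hj => by rw [hb]; exact hgate j hj
  have q1 := hOK.a1
  have q2 := hOK.b1
  have q3 := hOK.a2
  have q4 := hOK.b2
  obtain ⟨𝔊, o, j, hg1, hrim, -, -, hjk, hkj, hjn, -, -⟩ := pvku_model (z := l9Pt (pvlmH m) p) (h := pvlmH m) (μ := μ) B (b := b) (a := N.a1) (b' := N.b1) (α := 𝔑.a 0) (β := 𝔑.b 0) hR hh hμ0.le hμh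
    (by linarith) (by linarith) (by linarith) (by linarith) (by linarith) (by nlinarith) hG hF hNR hk hkx hkz hb (hgate' 0 h0g).2
  obtain ⟨𝔊₂, o2, j2, hg2, -⟩ := pvku_model (z := l9Pt (pvlmH m) p) (h := pvlmH m) (μ := μ) B (b := b) (a := N.a2) (b' := N.b2) (α := 𝔑.a 1) (β := 𝔑.b 1) hR hh hμ0.le hμh
    (by linarith) (by linarith) (by linarith) (by linarith) (by linarith) (by nlinarith) hG hF hNR hk hkx hkz hb (hgate' 1 h1g).2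
  -- (3) E15
  have hradK : N.rad N.K * pvlmH m ≤ (2 * N.b2 + 3) * pvlmH m := mul_le_mul_of_nonneg_right (hN.rad_le le_rfl) hh.le
  have hBK : pvwSq (l9Pt (pvlmH m) p) (N.rad N.K * pvlmH m) ⊆ Metric.ball x (4 * R) := pvpn_sq_sub_ball hzx (by nlinarith)
  obtain ⟨k', hk', 𝔖, -, -, -, -, einn, eip, hst, hall⟩ := pvzy_e15_bulk N hN hR hG hOk ξ b hF hμ0.le (by nlinarith [hN.rho1]) hzx (by rw [hbig]; nlinarith) (k' := 0) (o := o) (y0 := 0) (y1 := 0)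
    (hg1 (pvn7Ty N 0 o 0 0) rfl rfl rfl).1 (hg1 (pvn7Ty N 0 o 0 0) rfl rfl rfl).2 (hrim _ hBK) hOK.cnt0 (by have := hOK.cnt; omega) hF1 hF2
  -- (4) the centres of the tip cells
  have hk'K : k' ≤ N.K := hk'.trans hN.K0_le
  have hradk : N.rad k' * pvlmH m ≤ (2 * N.b2 + 3) * pvlmH m := mul_le_mul_of_nonneg_right (hN.rad_le hk'K) hh.le
  have hM : PvzcMesh (𝔅.T (pvxY ω)) (𝔅.posF (pvxY ω) (x + 7 * R)) (l9Pt (pvlmH m) p) (N.rad k' * pvlmH m) μ := pvn7_mesh_bulk hR hOk hF hzx (by nlinarith)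
  obtain ⟨yp, hyp⟩ : ∃ yp : ℂ, yp = pvpnCtr N.e1 (pvlmH m) (l9Pt (pvlmH m) p) (pvpnTp 𝔖 (𝔅.posF (pvxY ω) (x + 7 * R))) := ⟨_, rfl⟩
  obtain ⟨ym, hym⟩ : ∃ ym : ℂ, ym = pvpnCtr N.e1 (pvlmH m) (l9Pt (pvlmH m) p) (pvpnTm 𝔖 (𝔅.posF (pvxY ω) (x + 7 * R))) := ⟨_, rfl⟩
  have hnum : N.num.rho = N.rho := rfl
  have tP : PvzcTipP 𝔖 (𝔅.posF (pvxY ω) (x + 7 * R)) N.num (pvlmH m) (l9Pt (pvlmH m) p + (pvlmH m : ℂ) * yp) :=
    pvn7_tipP_b hM hst.1 hμ0.le (η := N.rho / 10 * pvlmH m) (by rw [hyp]; exact pvpo_ctr_near hN hh) (by rw [hnum]; nlinarith)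
  have tM : PvzcTipM 𝔖 (𝔅.posF (pvxY ω) (x + 7 * R)) N.num (pvlmH m) (l9Pt (pvlmH m) p + (pvlmH m : ℂ) * ym) :=
    pvn7_tipM_b hM hst.2 hμ0.le (η := N.rho / 10 * pvlmH m) (by rw [hym]; exact pvpo_ctr_near hN hh) (by rw [hnum]; nlinarith)
  obtain ⟨hat, hp⟩ := hall yp ym tP tM
  obtain ⟨τ₀, hτ₀⟩ : ∃ τ₀ : PvwTy, τ₀ = ⟨N.a1, N.b1, N.a2, N.b2, k', o, yp, ym⟩ := ⟨_, rfl⟩
  have hat' : 𝔖.At (𝔅.posF (pvxY ω) (x + 7 * R)) N.num (pvlmH m) (l9Pt (pvlmH m) p) τ₀ (pvlfFl b (𝔅.col (pvConf ω) ξ)) := by rw [hτ₀]; exact hat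
  have hp' : 𝔖.PinOf (𝔅.posF (pvxY ω) (x + 7 * R)) N.num (pvlmH m) (τ₀.cp (pvlmH m) (l9Pt (pvlmH m) p)) (τ₀.cm (pvlmH m) (l9Pt (pvlmH m) p)) (pvwSq (l9Pt (pvlmH m) p) (N.rad N.K * pvlmH m)) c j := by
    rw [hτ₀]; exact hp
  have hap : ‖𝔅.posF (pvxY ω) (x + 7 * R) 𝔖.ap - pvpnTp 𝔖 (𝔅.posF (pvxY ω) (x + 7 * R))‖ ≤ N.rho / 20 * pvlmH m := by
    have h1 := pvzw_mesh_apex hM (hst.1.ep_in _ le_rfl).1
    rw [Complex.dist_eq] at h1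
    exact h1.trans (by nlinarith)
  have ham : ‖𝔅.posF (pvxY ω) (x + 7 * R) 𝔖.am - pvpnTm 𝔖 (𝔅.posF (pvxY ω) (x + 7 * R))‖ ≤ N.rho / 20 * pvlmH m := by
    have h1 := pvzw_mesh_apex hM (d := (𝔅.T (pvxY ω)).opp (𝔖.em 𝔖.nm)) (by rw [(𝔅.T (pvxY ω)).src_opp']; exact (hst.2.em_in _ le_rfl).2)
    have h2 := hM _ (hst.2.em_in _ le_rfl).1
    rw [(𝔅.T (pvxY ω)).src_opp'] at h1
    have h3 := dist_triangle (𝔅.posF (pvxY ω) (x + 7 * R) 𝔖.am) (𝔅.posF (pvxY ω) (x + 7 * R) ((𝔅.T (pvxY ω)).tgt (𝔖.em 𝔖.nm))) (𝔅.posF (pvxY ω) (x + 7 * R) ((𝔅.T (pvxY ω)).src (𝔖.em 𝔖.nm)))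
    rw [Complex.dist_eq] at h3
    have h1' : dist (𝔅.posF (pvxY ω) (x + 7 * R) 𝔖.am) (𝔅.posF (pvxY ω) (x + 7 * R) ((𝔅.T (pvxY ω)).tgt (𝔖.em 𝔖.nm))) ≤ μ := h1
    exact h3.trans (by nlinarith)
  have n1' : |pvccN yp - N.rad k'| ≤ N.rho / 10 := by
    rw [hyp]
    exact pvpo_nd hN hh (hst.1.ep_in _ le_rfl).1 hst.1.ep_out hap
  have n2' : |pvccN ym - N.rad k'| ≤ N.rho / 10 := by
    rw [hym]
    exact pvpo_nd hN hh (hst.2.em_in _ le_rfl).1 hst.2.em_out ham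
  have n3' : 7 / 4 * N.rho ≤ ‖yp - ym‖ := pvpo_far hh hat
  -- (5) back to the plane
  have hb12 : N.b1 ≤ N.b2 := by linarith [hN.gap, hN.ab2]
  have eb : τ₀.b = N.b1 := by rw [hτ₀]
  have erad : ∀ i : ℕ, pvwRad N.num (pvlmH m) τ₀ i = N.rad i * pvlmH m := fun i => by rw [hτ₀]; rfl
  have ek : τ₀.k = k' := by rw [hτ₀]
  have hle_rad : ∀ i : ℕ, N.b1 * pvlmH m ≤ N.rad i * pvlmH m := fun i => mul_le_mul_of_nonneg_right (by linarith [hN.le_rad i]) hh.le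
  have hmono : N.rad k' * pvlmH m ≤ N.rad N.K * pvlmH m := by
    have := pvpn_rad_mono (N := N.num) (h := pvlmH m) τ₀ hN.rho1_pos.le hh.le hk'K
    rwa [erad, erad] at this
  have hB : pvwSq (l9Pt (pvlmH m) p) (pvwRad N.num (pvlmH m) τ₀ τ₀.k) ⊆ pvwSq (l9Pt (pvlmH m) p) (N.rad N.K * pvlmH m) := by
    rw [erad, ek]; exact pvpn_sq_mono _ hmono
  obtain ⟨𝔖', 𝔖₂', e1, e2, x1, x2, e3, e4, e5⟩ := pvpn_enc hR hG hOk ξ h4 (τ := τ₀) (τ₂ := τ₀.outer o2) (BK := pvwSq (l9Pt (pvlmH m) p) (N.rad N.K * pvlmH m))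
    (pvpn_ball_sub_sq _ (by rw [eb]; exact hle_rad _)) hB hBK (pvpn_ball_sub_ball hzx (by
      show τ₀.b2 * pvlmH m ≤ 3 * R
      rw [hτ₀]
      show N.b2 * pvlmH m ≤ 3 * R
      nlinarith)) hat' hp' (hg2 (τ₀.outer o2) (by rw [hτ₀]; rfl) (by rw [hτ₀]; rfl) rfl).1
  have hjmod : j % c.n = j := Nat.mod_eq_of_lt (by omega)
  rw [hjmod] at e4
  have hdj := pvdj_state (BK := pvwSq (l9Pt (pvlmH m) p) (N.rad N.K * pvlmH m)) hR (by nlinarith : μ ≤ R) hG hF hP e3.out.gate e4.le e4.run hBK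
    (pvwk_core_sq e3.out.gate (by rw [eb]; exact hle_rad _)) e3.out.stub e3.inn.stub hB
  have hsep : PvpnSep 𝔖' (pvxPos ω) (l9Pt (pvlmH m) p) ((N.num.m - 1) * pvlmH m) (2 * ((N.g : ℝ) + 1) * N.rho3 * pvlmH m) := by
    have e : 2 * ((N.g : ℝ) + 1) * N.rho3 * pvlmH m = 12 * N.rho3 * pvlmH m := by rw [hOK.g]; push_cast; ring
    rw [e]
    refine pvpc_sep (hF4.sep2 b N.num τ₀ 𝔖' le_rfl ?_ ?_ ?_ ?_ e3 fun y1 y2 a1 a2 => (hdj y1 y2 a1 a2).1)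
    · rw [hτ₀]; show N.rho / 50 + 1 ≤ N.a1; linarith
    · show N.rho / 50 + 2 ≤ N.m; linarith [hN.m_gt]
    · rw [eb, erad]; exact hle_rad _
    · rw [erad, ek]
      refine mul_le_mul_of_nonneg_right ?_ hh.le
      have h1 : (k' : ℝ) * N.rho1 ≤ N.K0 * N.rho1 := mul_le_mul_of_nonneg_right (by exact_mod_cast hk') hN.rho1_pos.le
      have h2 := hOK.lev
      have h3 := hOK.shell
      have h4 := hN.rho2_pos
      show 2 * N.b2 + (k' : ℝ) * N.rho1 ≤ 2 * N.b2 + 1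
      linarith
  obtain ⟨t, t1, t2, t3, t4⟩ := pvpn_menu (pvxParOf N hN c₀) (τ₀ := τ₀) (τ₂ := τ₀.outer o2) (r := N.big) (by rw [hτ₀]; exact pvpo_has N hN c₀ hk' b o o2 n1' n2' n3') hN.e1_pos hN.msk0 hN.big_le_n1 hN.big_le_n2 (m := m) hm0
    (by
      show pvwRad N.num (pvlmH m) τ₀ τ₀.k ≤ N.big * pvlmH m
      rw [erad, ek, hbig]; exact hradk.trans (mul_le_mul_of_nonneg_right (by linarith) hh.le)) (by rw [eb, hbig]; linarith) hG e3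
    (by rw [x1, ← hyp, hτ₀]) (by rw [x2, ← hym, hτ₀]) hsep
  have hip : 𝔖.ip ≤ 𝔖.inn.n := hat.out.gate.ip_le
  refine ⟨⟨j + 𝔖.ip, l9Pt (pvlmH m) p, t⟩, ⟨hzx, ⟨p, rfl⟩, 𝔖', j, t4, ?_, by rw [e1], 𝔖₂', ?_⟩, fun i hor => ?_⟩
  · show PvxPinOf 𝔖' (pvxParOf N hN c₀).num (pvlmH m) (((pvxParOf N hN c₀).ty t).cp (pvlmH m) (l9Pt (pvlmH m) p)) (((pvxParOf N hN c₀).ty t).cm (pvlmH m) (l9Pt (pvlmH m) p)) ((pvxParOf N hN c₀).box m (l9Pt (pvlmH m) p) t) _ _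
    unfold PvxPar.box
    rw [t1]
    have : pvwRad (pvxParOf N hN c₀).num (pvlmH m) τ₀ (pvxParOf N hN c₀).num.K = N.rad N.K * pvlmH m := erad N.K
    rw [this]
    exact e4
  · show 𝔖₂'.Gate (pvxPos ω) (pvlmH m) (l9Pt (pvlmH m) p) ((pvxParOf N hN c₀).ty2 t) (pvxCol ω ((pvxParOf N hN c₀).col t))
    rw [t2, t3]
    exact e5
  · have hidx : (⟨j + 𝔖.ip, l9Pt (pvlmH m) p, t⟩ : PvbPin (pvxTau N)).idx = j + 𝔖.ip := rfl
    rw [hidx] at hor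
    have hn : 𝔖'.inn.n = 𝔊.inn.n := by rw [e2, einn]
    have hn2 : 𝔖.inn.n = 𝔊.inn.n := by rw [einn]
    have h1 := pvpn_join e3.out.gate e4 (i := i) (by rcases hor with ⟨a1, -⟩ | ⟨a1, -⟩ <;> omega) (by rcases hor with ⟨-, a2⟩ | ⟨-, a2⟩ <;> omega)
    rw [eb] at h1
    exact h1.trans (mul_le_mul_of_nonneg_right (by linarith) hh.le)

/-- **(R4) (DI), DETERMINISTIC** = the statement `exit_pinsE_di` of `Exit/PinsE.lean` (121) -/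
theorem pvpc_di {c : ℝ} (𝔑 : PvxpNum) (h𝔑 : 𝔑.Wf (10 ^ 6) 4 2) (N : PvxNums) (hN : N.Ok) (n1 : ℕ) (hOK : PvpjNumOK 𝔑 N n1) :
    ∃ κ : ℝ, 0 < κ ∧ κ ≤ 1 ∧ ∀ (x : ℂ) (R : ℝ), 0 < R → ∀ᶠ m in atTop, ∀ μ s : ℝ, 0 < μ → μ ≤ s → s ≤ κ * pvlmH m → PvpjDI 𝔑 N hN c n1 x R m μ s := by
  refine ⟨N.rho / 100, by have := hN.rho0; positivity, by linarith [hN.rho_lt_one], fun x R hR => ?_⟩
  have hC : 0 < 8 * (N.big + 1) := by have := hN.big_pos; positivity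
  have h1 : ∀ᶠ m in atTop, pvlmH m < R / (8 * (N.big + 1)) := pvlm_H_lim.eventually (gt_mem_nhds (div_pos hR hC))
  filter_upwards [h1, eventually_ge_atTop N.m0] with m a1 a2 μ s hμ hμs hs
  exact pvpc_di_at 𝔑 h𝔑 N hN n1 hOK hR a2 (by rw [lt_div_iff₀ hC] at a1; linarith) hμ hμs hs

end Claimed.Agent.R289
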