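-- KEEP
import Claimed.Agent.R289.Exit.PinsDJ
import Claimed.Agent.R289.Tr.GoodAll

/-!
# Row 289 (S0537, Cardy for Poisson-Voronoi), THE WALL, road E, X3 = PIN EXISTS, file Exit/PinsDM : THE SHIELD (W-6) FOR A PLANE STATE AND AN ENCODED RIM      (helper235, second cutter of `exit_pinsE_di`; prefix `pvdk_`)

WHAT.  NOT FLAG2 in the form W-6 of 208 (`PvpjNF2` of 121, producer `pvkg_f2` of 137) gives, ON THE PLANE MAP `pvxT ω`, one circuit round the centre of each tip all of whose fresh vertices are white.      `pvsh_state` of 165 (`Tr/Shield`) wants the circuit, the strands and the rim IN ONE MAP.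
The rim lives in a completion.      Here the circuit of the plane is carried to the completion (`pvdk_circ`), the strands are twins (`PvekG` of 152), the four clauses come back as statements on positions:
(g3) `far_p far_m` for the PLANE state, `mouth_p mouth_m` in the ENCODED CUT form of `PvxPinOf` (`Defs/TrModel` v4).

* sec. 1  `pvdk_circ` (twin circuit, `PvaxAt` carried over), `pvdk_bank_p`, `pvdk_bank_m` (the black vertices of the twin circuit lie on the twin bank)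
* sec. 2  TWO MAPS: `pvdk_link` (frame), **`pvdk_mouth_p`**, **`pvdk_mouth_m`**, **`pvdk_far_p`**, **`pvdk_far_m`**
* sec. 3  THE MODEL: `pvdk_bulk`, `pvdk_inst` (`PvekM` of 152 ⟹ `PvekG` + finite completion + full plane), `pvdk_m_mouth_p`, `pvdk_m_mouth_m`, `pvdk_m_far_p`, `pvdk_m_far_m`
* sec. 4  STATES (`Tr/Defs` v3): **`pvdk_state`** = `pvsh_state` for a plane state and an encoded rim
* sec. 5  **`pvdk_at_pin`** = (M) of the last glue of 199: `AtOut` + `AtIn` + the two shields of `PvpjNF2` ⟹ `At` ∧ `PvxPinOf` (TrModel v4)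
-/

set_option autoImplicit false
set_option linter.unusedSectionVars false
set_option linter.unusedVariables false

namespace Claimed.Agent.R289

open Set Claims.C0465

/-! ## 1. the twin circuit -/

section circ

variable {V D V' D' : Type} {T : PvMap V D} {T' : PvMap V' D'} {Rl : D → D' → Prop} {pos : V → ℂ} {pos' : V' → ℂ} {s : V → Bool} {s' : V' → Bool} {K5 : Set ℂ}

/-- **THE TWIN OF A CIRCUIT OF THE PLANE** at radius `(r, R)` round `y`, `B(y, R)` in the deep region -/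
theorem pvdk_circ (L : PvekL T T' Rl pos pos' s s' K5) (hT' : T'.IsSph) (hD : Finite D) (hfull' : ∀ v', pos' v' ∈ K5 → v' ∈ T'.Int (plRan Rl)) {y : ℂ} {r R : ℝ} (hrR : r < R)
    (hball : ∀ w : ℂ, ‖w - y‖ < R → w ∈ K5) {C' : T'.Cyc} (hat : PvaxAt T' pos' y r R C') : ∃ C : T.Cyc, PvLocCyc (fun d' d => Rl d d') C' C ∧ PvaxAt T pos y r R C := by
  have hL : C'.Left ⊆ plDom (fun d' d => Rl d d') := by
    intro d' hd'
    have h1 : pos' (T'.src d') ∈ K5 := hball _ (hat.out _ ⟨d', hd', rfl⟩)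
    exact hfull' _ h1 d' rfl
  obtain ⟨C, hP⟩ := pvloc_cyc_exists L.loc.symm C' (fun k => hL ((pl_cyc_darts_iff hT' C' _).1 ⟨k, rfl⟩).1)
  refine ⟨C, hP, Set.toFinite _, fun v hv d hd => ?_, ?_⟩
  · subst hd
    have hK : pos (T.src d) ∈ K5 := hball _ (lt_of_le_of_lt hv hrR)
    obtain ⟨d', hd'⟩ := pvek_dart L hK
    have h1 : T'.src d' ∈ T'.Int C'.Left := hat.inn _ (by rw [← L.pos_eq _ _ hd']; exact hv)
    exact (pvloc_left L.loc.symm hP hL hd').1 (h1 d' rfl)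
  · rintro v ⟨d, hd, rfl⟩
    obtain ⟨d', h1, h2⟩ := pvloc_left_bwd L.loc.symm hP hL hd
    rw [L.pos_eq _ _ h1]
    exact hat.out _ ⟨d', h2, rfl⟩

/-- the black vertices of the twin circuit: from a family of twin darts -/
theorem pvdk_bank (L : PvekL T T' Rl pos pos' s s' K5) {C' : T'.Cyc} {C : T.Cyc} (hP : PvLocCyc (fun d' d => Rl d d') C' C) {n : ℕ} {f : ℕ → D} {f' : ℕ → D'} (hf : ∀ i, i ≤ n → Rl (f i) (f' i))
    (hC' : ∀ v' ∈ C'.verts, s' v' = true → ∃ i, i ≤ n ∧ T'.src (f' i) = v') : ∀ v ∈ C.verts, s v = true → ∃ i, i ≤ n ∧ T.src (f i) = v := by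
  rintro v ⟨k, rfl⟩ hb
  have h1 : Rl (C.e k) (C'.e k) := hP.e_rel k
  obtain ⟨i, hi, e⟩ := hC' _ ⟨k, rfl⟩ (by rw [← L.col _ _ h1]; exact hb)
  exact ⟨i, hi, L.loc.vinj (hf i hi) h1 e⟩

end circ

/-! ## 2. two maps -/

section gate

variable {V D V' D' : Type} {T : PvMap V D} {T' : PvMap V' D'} {Rl : D → D' → Prop} {pos : V → ℂ} {pos' : V' → ℂ} {s : V → Bool} {s' : V' → Bool} {K5 : Set ℂ}
  {c : T.Cyc} {dm dp : D'} {n₀ : ℕ} {inn : T'.Pth} {j : ℕ} {BK : Set ℂ}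

/-- **THE FRAME**: the twins of the positions of the two strands, dart form -/
theorem pvdk_link (G : PvekG T T' Rl pos pos' s s' K5 c dm dp n₀ inn j BK) {Mp Mm : ℕ} (hp : ∀ u, u ≤ Mp → pos' (T'.src (pvasIt T' s' dp u)) ∈ BK)
    (hm : ∀ t, t ≤ Mm → pos' (T'.src ((pvasBack T' s')^[t] dm)) ∈ BK) :
    ∃ δ' δ : ℕ, 0 < δ ∧ (∀ u, u ≤ Mp → Rl (pvasIt T s (pvasIt T s (T.rotInv (c.e j)) δ) u) (pvasIt T' s' dp u)) ∧
      (∀ t, t ≤ Mm → Rl ((pvasBack T s)^[t] ((pvasBack T s)^[δ'] (T.rotInv (c.e j)))) ((pvasBack T' s')^[t] dm)) ∧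
      (∀ t, t ≤ δ + Mp → pos (T.src (pvasIt T s (T.rotInv (c.e j)) t)) ∈ BK) ∧ (∀ t, t ≤ δ' + Mm → pos (T.src ((pvasBack T s)^[t] (T.rotInv (c.e j)))) ∈ BK) ∧
      T.src (pvasIt T s (T.rotInv (c.e j)) δ) = T.src (c.e (j + inn.n)) := by
  obtain ⟨δ', δ, h1, h2, h3⟩ := pvek_link G
  have hW := pvek_W G h1 hp
  have hWb := pvek_Wb G h1 hm
  have htw := pvek_it G.L h3 (n := δ + Mp) (fun i hi => G.sub (hW i (by omega)))
  have htwb := pvek_bk G.L h3 (n := δ' + Mm) (fun i hi => G.sub (hWb i (by omega)))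
  have hA : ∀ u, u ≤ Mp → Rl (pvasIt T s (pvasIt T s (T.rotInv (c.e j)) δ) u) (pvasIt T' s' dp u) := by
    intro u hu
    have b1 := htw (δ + u) (by omega)
    have b2 : pvasIt T' s' (pvasIt T' s' dm δ') (δ + u) = pvasIt T' s' dp u := by
      rw [← pvas_it_add, ← Nat.add_assoc, h1, pvas_it_add, G.it]
    rwa [b2, pvas_it_add] at b1
  refine ⟨δ', δ, h2, hA, fun t ht => ?_, fun t ht => ?_, fun t ht => ?_, ?_⟩
  · have b1 := htwb (t + δ') (by omega)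
    have b2 : (pvasBack T' s')^[t + δ'] (pvasIt T' s' dm δ') = (pvasBack T' s')^[t] dm := by
      rw [Function.iterate_add_apply, pvek_bk_it G.bw le_rfl, Nat.sub_self]
      rfl
    rwa [b2, Function.iterate_add_apply] at b1
  · rw [G.L.pos_eq _ _ (htw t ht)]; exact hW t ht
  · rw [G.L.pos_eq _ _ (htwb t ht)]; exact hWb t ht
  · have a1 := pvloc_v_src (T := T) (T' := T') (hA 0 (Nat.zero_le _))
    have a2 := pvdj_inn_v G (le_refl inn.n)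
    rw [G.vn] at a2
    exact pvloc_v_inj G.L.loc a1 a2

/-- the positions `≤ 0` of the exit side -/
theorem pvdk_p0 (G : PvekG T T' Rl pos pos' s s' K5 c dm dp n₀ inn j BK) : ∀ u, u ≤ 0 → pos' (T'.src (pvasIt T' s' dp u)) ∈ BK := by
  intro u hu
  obtain rfl : u = 0 := by omega
  show pos' (T'.src dp) ∈ BK
  rw [← G.vn]
  exact G.inn_mem le_rfl

/-- the positions `≤ 0` of the entrance side -/
theorem pvdk_m0 (G : PvekG T T' Rl pos pos' s s' K5 c dm dp n₀ inn j BK) : ∀ t, t ≤ 0 → pos' (T'.src ((pvasBack T' s')^[t] dm)) ∈ BK := by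
  intro t ht
  obtain rfl : t = 0 := by omega
  show pos' (T'.src dm) ∈ BK
  rw [← G.v0]
  exact G.inn_mem (Nat.zero_le _)

theorem pvdk_run0 (G : PvekG T T' Rl pos pos' s s' K5 c dm dp n₀ inn j BK) : pos (T.src (c.e j)) = pos' (inn.v 0) := by
  have := G.run 0 (Nat.zero_le _)
  rwa [Nat.add_zero] at this

/-- **`mouth_p` FROM A SHIELD OF THE PLANE**, cut form -/
theorem pvdk_mouth_p (G : PvekG T T' Rl pos pos' s s' K5 c dm dp n₀ inn j BK) (hT' : T'.IsSph) (hD : Finite D) (hfull' : ∀ v', pos' v' ∈ K5 → v' ∈ T'.Int (plRan Rl))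
    {M : ℕ} (hM : ∀ u, u ≤ M → pos' (T'.src (pvasIt T' s' dp u)) ∈ BK) {y : ℂ} {r R : ℝ} (hrR : r < R) (hball : ∀ w : ℂ, ‖w - y‖ < R → w ∈ K5) {C' : T'.Cyc} (hat : PvaxAt T' pos' y r R C')
    (hC' : ∀ v' ∈ C'.verts, s' v' = true → ∃ i, i ≤ M ∧ T'.src (pvasIt T' s' dp i) = v') (hA : R ≤ ‖pos' (inn.v 0) - y‖) :
    ∃ B, j + inn.n + B < c.n ∧ (∀ i, i ≤ B → pos (T.src (c.e (j + inn.n + i))) ∈ BK) ∧ ∀ l, l ≤ c.n → (l ≤ j ∨ j + inn.n + B < l) → r < ‖pos (T.src (c.e l)) - y‖ := by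
  classical
  obtain ⟨δ', δ, h0, h1, -, h3, -, h5⟩ := pvdk_link G hM (pvdk_m0 G)
  obtain ⟨C, hP, hatC⟩ := pvdk_circ G.L hT' hD hfull' hrR hball hat
  have hjl := G.jl
  obtain ⟨B, b1, b2, b3⟩ := pvsh_exit_metric (q := inn.n) (BK := BK) G.sph G.simple G.rim (pvek_black G 0) G.fin (by omega) rfl h5 hatC (pvdk_bank G.L hP h1 hC') (by rw [pvdk_run0 G]; exact hA) h3
  have hB : j + inn.n + B < c.n := by
    by_contra hcon
    apply G.far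
    have := b2 (c.n - j - inn.n) (by omega)
    rwa [show j + inn.n + (c.n - j - inn.n) = 0 + c.n by omega, c.per] at this
  refine ⟨B, hB, b2, fun l hl hcase => ?_⟩
  rcases hcase with h | h
  · have := b3 (l + c.n - j) (by omega) (by omega)
    rwa [show j + (l + c.n - j) = l + c.n by omega, c.per] at this
  · have := b3 (l - j) (by omega) (by omega)
    rwa [show j + (l - j) = l by omega] at this

/-- **`mouth_m` FROM A SHIELD OF THE PLANE**, cut form -/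
theorem pvdk_mouth_m (G : PvekG T T' Rl pos pos' s s' K5 c dm dp n₀ inn j BK) (hT' : T'.IsSph) (hD : Finite D) (hfull' : ∀ v', pos' v' ∈ K5 → v' ∈ T'.Int (plRan Rl))
    {M : ℕ} (hM : ∀ t, t ≤ M → pos' (T'.src ((pvasBack T' s')^[t] dm)) ∈ BK) {y : ℂ} {r R : ℝ} (hrR : r < R) (hball : ∀ w : ℂ, ‖w - y‖ < R → w ∈ K5) {C' : T'.Cyc} (hat : PvaxAt T' pos' y r R C')
    (hC' : ∀ v' ∈ C'.verts, s' v' = true → ∃ i, i ≤ M ∧ T'.src ((pvasBack T' s')^[i] dm) = v') (hQ : R ≤ ‖pos' (inn.v inn.n) - y‖) :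
    ∃ A, A < j ∧ (∀ i, i ≤ A → pos (T.src (c.e (j - i))) ∈ BK) ∧ ∀ l, l ≤ c.n → (l + A < j ∨ j + inn.n ≤ l) → r < ‖pos (T.src (c.e l)) - y‖ := by
  classical
  obtain ⟨δ', δ, h0, -, h2, -, h4, -⟩ := pvdk_link G (pvdk_p0 G) hM
  obtain ⟨C, hP, hatC⟩ := pvdk_circ G.L hT' hD hfull' hrR hball hat
  have hjl := G.jl
  have hj := G.j_pos
  obtain ⟨A, a1, a2, a3⟩ := pvsh_entr_metric (q := inn.n) (BK := BK) G.sph G.simple G.rim (pvek_black G 0) G.fin (by omega) rfl hatC (pvdk_bank G.L hP h2 hC')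
    (by rw [G.run inn.n le_rfl]; exact hQ) h4 ⟨0, G.far⟩
  have hA : A < j := by
    by_contra hcon
    apply G.far
    have := a2 j (by omega)
    rwa [show j + c.n - j = 0 + c.n by omega, c.per] at this
  refine ⟨A, hA, fun i hi => ?_, fun l hl hcase => ?_⟩
  · have := a2 i hi
    rwa [show j + c.n - i = (j - i) + c.n by omega, c.per] at this
  · rcases hcase with h | h
    · have := a3 (l + c.n - j) (by omega) (by omega)
      rwa [show j + (l + c.n - j) = l + c.n by omega, c.per] at this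
    · have := a3 (l - j) (by omega) (by omega)
      rwa [show j + (l - j) = l by omega] at this

/-- **(g3) AT THE EXIT TIP FROM A SHIELD OF THE PLANE**: the two ends of the positions of the entrance stub are beyond the inner radius of the shield of the exit tip -/
theorem pvdk_far_p (G : PvekG T T' Rl pos pos' s s' K5 c dm dp n₀ inn j BK) (hT' : T'.IsSph) (hD : Finite D) (hfull' : ∀ v', pos' v' ∈ K5 → v' ∈ T'.Int (plRan Rl))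
    {Mp Mm : ℕ} (hp : ∀ u, u ≤ Mp → pos' (T'.src (pvasIt T' s' dp u)) ∈ BK) (hm : ∀ t, t ≤ Mm → pos' (T'.src ((pvasBack T' s')^[t] dm)) ∈ BK)
    {y : ℂ} {r R : ℝ} (hrR : r < R) (hball : ∀ w : ℂ, ‖w - y‖ < R → w ∈ K5) {C' : T'.Cyc} (hat : PvaxAt T' pos' y r R C')
    (hC' : ∀ v' ∈ C'.verts, s' v' = true → ∃ i, i ≤ Mp ∧ T'.src (pvasIt T' s' dp i) = v') (hA : R ≤ ‖pos' (inn.v 0) - y‖) :
    ∀ t, t ≤ Mm → r < ‖pos' (T'.src ((pvasBack T' s')^[t] dm)) - y‖ ∧ r < ‖pos' (T'.tgt ((pvasBack T' s')^[t] dm)) - y‖ := by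
  classical
  obtain ⟨δ', δ, h0, h1, h2, h3, h4, h5⟩ := pvdk_link G hp hm
  obtain ⟨C, hP, hatC⟩ := pvdk_circ G.L hT' hD hfull' hrR hball hat
  intro t ht
  have key := pvsh_g3_p_metric (L := δ' + Mm) (BK := BK) G.sph G.simple G.rim (pvek_black G 0) G.fin rfl hatC (pvdk_bank G.L hP h1 hC') (by rw [pvdk_run0 G]; exact hA) h3 h4 ⟨0, G.far⟩ (t + δ') (by omega)
  rw [Function.iterate_add_apply, G.L.pos_eq _ _ (h2 t ht), pvek_tgt G.L (h2 t ht)] at key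
  exact key

/-- **(g3) AT THE ENTRANCE TIP FROM A SHIELD OF THE PLANE** -/
theorem pvdk_far_m (G : PvekG T T' Rl pos pos' s s' K5 c dm dp n₀ inn j BK) (hT' : T'.IsSph) (hD : Finite D) (hfull' : ∀ v', pos' v' ∈ K5 → v' ∈ T'.Int (plRan Rl))
    {Mp Mm : ℕ} (hp : ∀ u, u ≤ Mp → pos' (T'.src (pvasIt T' s' dp u)) ∈ BK) (hm : ∀ t, t ≤ Mm → pos' (T'.src ((pvasBack T' s')^[t] dm)) ∈ BK)
    {y : ℂ} {r R : ℝ} (hrR : r < R) (hball : ∀ w : ℂ, ‖w - y‖ < R → w ∈ K5) {C' : T'.Cyc} (hat : PvaxAt T' pos' y r R C')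
    (hC' : ∀ v' ∈ C'.verts, s' v' = true → ∃ i, i ≤ Mm ∧ T'.src ((pvasBack T' s')^[i] dm) = v') (hA : R ≤ ‖pos' (inn.v 0) - y‖) :
    ∀ u, u ≤ Mp → r < ‖pos' (T'.src (pvasIt T' s' dp u)) - y‖ ∧ r < ‖pos' (T'.tgt (pvasIt T' s' dp u)) - y‖ := by
  classical
  obtain ⟨δ', δ, h0, h1, h2, h3, h4, h5⟩ := pvdk_link G hp hm
  obtain ⟨C, hP, hatC⟩ := pvdk_circ G.L hT' hD hfull' hrR hball hat
  intro u hu
  have key := pvsh_g3_m_metric (L := δ + Mp) (BK := BK) G.sph G.simple G.rim (pvek_black G 0) G.fin rfl hatC (pvdk_bank G.L hP h2 hC') (by rw [pvdk_run0 G]; exact hA) h4 h3 ⟨0, G.far⟩ (δ + u) (by omega)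
  rw [pvas_it_add, G.L.pos_eq _ _ (h1 u hu), pvek_tgt G.L (h1 u hu)] at key
  exact key

end gate

/-! ## 3. the model -/

section model

variable {x : ℂ} {R μ : ℝ} {ω : PVSample}

/-- a completion against the plane of record: deep on `closedBall x (5R)`, and the sites of the plane in this ball are full -/
theorem pvdk_bulk {X : Type} {𝔅 : PvBulk X} (hR : 0 < R) (hμ : μ ≤ R) (hG : DelGood (pvxY ω)) (hF : L9Fine (pvxY ω) (Metric.closedBall x (6 * R)) μ)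
    (hOk : 𝔅.Ok (pvxY ω) (Metric.closedBall x (6 * R))) (ξ : X → Bool) (b : Bool) :
    ∃ Rl : 𝔅.D (pvxY ω) → (delbPl (pvxY ω)).Dart → Prop,
      PvekL (𝔅.T (pvxY ω)) (pvxT ω) Rl (𝔅.posF (pvxY ω) (x + 7 * R)) (pvxPos ω) (pvlfFl b (𝔅.col (pvConf ω) ξ)) (pvxCol ω b) (Metric.closedBall x (5 * R)) ∧
      ∀ v', pvxPos ω v' ∈ Metric.closedBall x (5 * R) → v' ∈ (pvxT ω).Int (plRan Rl) := by
  unfold pvxT pvxCol pvxPos
  rw [delb_pl_eq hG]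
  have hlab : ∀ v, 𝔅.posF (pvxY ω) (x + 7 * R) v ∈ Metric.closedBall x (5 * R) →
      𝔅.lab (pvxY ω) v = Sum.inl (𝔅.posF (pvxY ω) (x + 7 * R) v) ∧ 𝔅.posF (pvxY ω) (x + 7 * R) v ∈ Metric.closedBall x (6 * R) := by
    intro v hv
    have h5 : ‖𝔅.posF (pvxY ω) (x + 7 * R) v - x‖ ≤ 5 * R := mem_closedBall_iff_norm.1 hv
    exact ⟨pvloc_posF hR (by linarith), mem_closedBall_iff_norm.2 (by linarith)⟩
  refine ⟨pvlocR 𝔅 hG (Metric.closedBall x (6 * R)), ⟨pvloc_bulk hOk, fun d d' h => pvloc_posF_inl h.1.1, fun d d' hd => ?_, fun v hv => ?_, fun d hd => ?_⟩, fun v' hv' => ?_⟩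
  · unfold pvlfFl
    have e : 𝔅.col (pvConf ω) ξ ((𝔅.T (pvxY ω)).src d) = cfCol (pvConf ω) ((delPl hG).toMap.src d' : ℂ) := pvloc_bulk_col (delb_col 𝔅 (pvConf ω) ξ) d d' hd
    exact congrArg (· == b) e
  · exact pvloc_bulk_int hOk (hlab v hv).1 (hlab v hv).2
  · obtain ⟨h1, h2⟩ := hlab _ hd
    obtain ⟨b', c', hb', -, hD⟩ := hOk.del d _ h1 h2
    have h3 := (hF _ b' c' hD (Or.inl h2)).1
    refine pvloc_bulk_int hOk hb' (mem_closedBall_iff_norm.2 ?_)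
    have h5 : ‖𝔅.posF (pvxY ω) (x + 7 * R) ((𝔅.T (pvxY ω)).src d) - x‖ ≤ 5 * R := mem_closedBall_iff_norm.1 hd
    calc ‖b' - x‖ = ‖(b' - 𝔅.posF (pvxY ω) (x + 7 * R) ((𝔅.T (pvxY ω)).src d)) + (𝔅.posF (pvxY ω) (x + 7 * R) ((𝔅.T (pvxY ω)).src d) - x)‖ := by ring_nf
      _ ≤ ‖b' - 𝔅.posF (pvxY ω) (x + 7 * R) ((𝔅.T (pvxY ω)).src d)‖ + ‖𝔅.posF (pvxY ω) (x + 7 * R) ((𝔅.T (pvxY ω)).src d) - x‖ := norm_add_le _ _
      _ ≤ 6 * R := by linarith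
  · exact pvloc_plane_int hOk (Metric.closedBall_subset_closedBall (by linarith) hv')

variable {P : PvbRim} {b : Bool} {dm dp : (delbPl (pvxY ω)).Dart} {n₀ : ℕ} {inn : (pvxT ω).Pth} {j : ℕ} {BK : Set ℂ}

/-- the model is an instance of `PvekG`, with a FINITE completion and a FULL plane -/
theorem pvdk_inst (H : PvekM x R μ ω P b dm dp n₀ inn j BK) :
    ∃ (V D : Type) (T : PvMap V D) (Rl : D → (delbPl (pvxY ω)).Dart → Prop) (pos : V → ℂ) (s : V → Bool) (c : T.Cyc), P.len = c.n ∧ (∀ k, P.v k = pos (T.src (c.e k))) ∧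
      PvekG T (pvxT ω) Rl pos (pvxPos ω) s (pvxCol ω b) (Metric.closedBall x (5 * R)) c dm dp n₀ inn j BK ∧ Finite D ∧
      ∀ v', pvxPos ω v' ∈ Metric.closedBall x (5 * R) → v' ∈ (pvxT ω).Int (plRan Rl) := by
  obtain ⟨X, _, 𝔅, ξ, hAdm, hOk, c, hc, h4, hPe⟩ := H.mem
  obtain ⟨Rl, L, hfull'⟩ := pvdk_bulk (𝔅 := 𝔅) H.hR H.hμ H.good H.fine hOk ξ b
  have hlen : P.len = c.n := by rw [hPe]; rfl
  have hv : ∀ k, P.v k = 𝔅.posF (pvxY ω) (x + 7 * R) ((𝔅.T (pvxY ω)).src (c.e k)) := fun k => by rw [hPe]; rfl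
  have hfinD : Finite (𝔅.D (pvxY ω)) := hAdm.2
  refine ⟨_, _, 𝔅.T (pvxY ω), Rl, 𝔅.posF (pvxY ω) (x + 7 * R), pvlfFl b (𝔅.col (pvConf ω) ξ), c, hlen, hv, ?_, hfinD, hfull'⟩
  exact
    { L := L
      sph := hOk.sph
      simple := hOk.simple
      simple' := (delbPl (pvxY ω)).toMap_simple
      inj' := Subtype.val_injective
      rim := (pvlf_rim_fl b).2 hc
      fin := Set.toFinite _
      bw := H.bw
      it := H.it
      le := H.le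
      pos_n := H.pos_n
      jl := hlen ▸ H.jl
      run := fun i hi => by rw [← hv]; exact H.run i hi
      sub := H.sub.trans (Metric.ball_subset_closedBall.trans (Metric.closedBall_subset_closedBall (by linarith [H.hR])))
      inner := H.inner
      far := fun hm => by
        have := mem_ball_iff_norm.1 (H.sub hm)
        exact absurd h4 (not_le.2 this) }

/-- **`mouth_p` AT THE MODEL FROM A SHIELD** = `PvxPinOf.mouth_p` for the radius `r` -/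
theorem pvdk_m_mouth_p (H : PvekM x R μ ω P b dm dp n₀ inn j BK) {M : ℕ} (hM : ∀ u, u ≤ M → pvxPos ω ((pvxT ω).src (pvasIt (pvxT ω) (pvxCol ω b) dp u)) ∈ BK) {y : ℂ} {r Rc : ℝ} (hrR : r < Rc)
    (hy : ‖y - x‖ + Rc ≤ 4 * R) {C' : (pvxT ω).Cyc} (hat : PvaxAt (pvxT ω) (pvxPos ω) y r Rc C')
    (hC' : ∀ v' ∈ C'.verts, pvxCol ω b v' = true → ∃ i, i ≤ M ∧ (pvxT ω).src (pvasIt (pvxT ω) (pvxCol ω b) dp i) = v') (hA : Rc ≤ ‖pvxPos ω (inn.v 0) - y‖) :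
    ∃ B, j + inn.n + B < P.len ∧ (∀ i, i ≤ B → P.v (j + inn.n + i) ∈ BK) ∧ ∀ l, l ≤ P.len → (l ≤ j ∨ j + inn.n + B < l) → r < ‖P.v l - y‖ := by
  obtain ⟨V, D, T, Rl, pos, s, c, hlen, hv, G, hD, hfull'⟩ := pvdk_inst H
  obtain ⟨B, h1, h2, h3⟩ := pvdk_mouth_p G (delb_plane_isSph H.good) hD hfull' hM hrR (fun w hw => pvek_ball H.hR hy hw) hat hC' hA
  exact ⟨B, hlen ▸ h1, fun i hi => by rw [hv]; exact h2 i hi, fun l hl hc => by rw [hv]; exact h3 l (hlen ▸ hl) hc⟩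

/-- **`mouth_m` AT THE MODEL FROM A SHIELD** -/
theorem pvdk_m_mouth_m (H : PvekM x R μ ω P b dm dp n₀ inn j BK) {M : ℕ} (hM : ∀ t, t ≤ M → pvxPos ω ((pvxT ω).src ((pvasBack (pvxT ω) (pvxCol ω b))^[t] dm)) ∈ BK) {y : ℂ} {r Rc : ℝ} (hrR : r < Rc)
    (hy : ‖y - x‖ + Rc ≤ 4 * R) {C' : (pvxT ω).Cyc} (hat : PvaxAt (pvxT ω) (pvxPos ω) y r Rc C')
    (hC' : ∀ v' ∈ C'.verts, pvxCol ω b v' = true → ∃ i, i ≤ M ∧ (pvxT ω).src ((pvasBack (pvxT ω) (pvxCol ω b))^[i] dm) = v') (hQ : Rc ≤ ‖pvxPos ω (inn.v inn.n) - y‖) :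
    ∃ A, A < j ∧ (∀ i, i ≤ A → P.v (j - i) ∈ BK) ∧ ∀ l, l ≤ P.len → (l + A < j ∨ j + inn.n ≤ l) → r < ‖P.v l - y‖ := by
  obtain ⟨V, D, T, Rl, pos, s, c, hlen, hv, G, hD, hfull'⟩ := pvdk_inst H
  obtain ⟨A, h1, h2, h3⟩ := pvdk_mouth_m G (delb_plane_isSph H.good) hD hfull' hM hrR (fun w hw => pvek_ball H.hR hy hw) hat hC' hQ
  exact ⟨A, h1, fun i hi => by rw [hv]; exact h2 i hi, fun l hl hc => by rw [hv]; exact h3 l (hlen ▸ hl) hc⟩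

/-- **(g3) AT THE EXIT TIP, AT THE MODEL** -/
theorem pvdk_m_far_p (H : PvekM x R μ ω P b dm dp n₀ inn j BK) {Mp Mm : ℕ} (hp : ∀ u, u ≤ Mp → pvxPos ω ((pvxT ω).src (pvasIt (pvxT ω) (pvxCol ω b) dp u)) ∈ BK)
    (hm : ∀ t, t ≤ Mm → pvxPos ω ((pvxT ω).src ((pvasBack (pvxT ω) (pvxCol ω b))^[t] dm)) ∈ BK) {y : ℂ} {r Rc : ℝ} (hrR : r < Rc)
    (hy : ‖y - x‖ + Rc ≤ 4 * R) {C' : (pvxT ω).Cyc} (hat : PvaxAt (pvxT ω) (pvxPos ω) y r Rc C')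
    (hC' : ∀ v' ∈ C'.verts, pvxCol ω b v' = true → ∃ i, i ≤ Mp ∧ (pvxT ω).src (pvasIt (pvxT ω) (pvxCol ω b) dp i) = v') (hA : Rc ≤ ‖pvxPos ω (inn.v 0) - y‖) :
    ∀ t, t ≤ Mm → r < ‖pvxPos ω ((pvxT ω).src ((pvasBack (pvxT ω) (pvxCol ω b))^[t] dm)) - y‖ ∧ r < ‖pvxPos ω ((pvxT ω).tgt ((pvasBack (pvxT ω) (pvxCol ω b))^[t] dm)) - y‖ := by
  obtain ⟨V, D, T, Rl, pos, s, c, hlen, hv, G, hD, hfull'⟩ := pvdk_inst H
  exact pvdk_far_p G (delb_plane_isSph H.good) hD hfull' hp hm hrR (fun w hw => pvek_ball H.hR hy hw) hat hC' hA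

/-- **(g3) AT THE ENTRANCE TIP, AT THE MODEL** -/
theorem pvdk_m_far_m (H : PvekM x R μ ω P b dm dp n₀ inn j BK) {Mp Mm : ℕ} (hp : ∀ u, u ≤ Mp → pvxPos ω ((pvxT ω).src (pvasIt (pvxT ω) (pvxCol ω b) dp u)) ∈ BK)
    (hm : ∀ t, t ≤ Mm → pvxPos ω ((pvxT ω).src ((pvasBack (pvxT ω) (pvxCol ω b))^[t] dm)) ∈ BK) {y : ℂ} {r Rc : ℝ} (hrR : r < Rc)
    (hy : ‖y - x‖ + Rc ≤ 4 * R) {C' : (pvxT ω).Cyc} (hat : PvaxAt (pvxT ω) (pvxPos ω) y r Rc C')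
    (hC' : ∀ v' ∈ C'.verts, pvxCol ω b v' = true → ∃ i, i ≤ Mm ∧ (pvxT ω).src ((pvasBack (pvxT ω) (pvxCol ω b))^[i] dm) = v') (hA : Rc ≤ ‖pvxPos ω (inn.v 0) - y‖) :
    ∀ u, u ≤ Mp → r < ‖pvxPos ω ((pvxT ω).src (pvasIt (pvxT ω) (pvxCol ω b) dp u)) - y‖ ∧ r < ‖pvxPos ω ((pvxT ω).tgt (pvasIt (pvxT ω) (pvxCol ω b) dp u)) - y‖ := by
  obtain ⟨V, D, T, Rl, pos, s, c, hlen, hv, G, hD, hfull'⟩ := pvdk_inst H
  exact pvdk_far_m G (delb_plane_isSph H.good) hD hfull' hp hm hrR (fun w hw => pvek_ball H.hR hy hw) hat hC' hA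

end model

/-! ## 4. states -/

section state

variable {x z : ℂ} {R μ h : ℝ} {ω : PVSample} {P : PvbRim} {b : Bool} {j : ℕ} {BK Bx : Set ℂ} {τ : PvwTy} {𝔖 : PvwSt (pvxT ω)}

/-- **THE FOUR CLAUSES FOR A PLANE STATE AND AN ENCODED RIM** (= `pvsh_state` of 165 across the two maps): (g3) at the two centres, and the mouth clauses of `PvxPinOf` (`Defs/TrModel` v4), radii `rp`, `rm` = the inner radii of the two shields.
`yp ym` = the centres of the shields (ABSOLUTE), `Rp Rm` = their outer radii: the core is beyond them. -/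
theorem pvdk_state (hR : 0 < R) (hμ : μ ≤ R) (hG : DelGood (pvxY ω)) (hF : L9Fine (pvxY ω) (Metric.closedBall x (6 * R)) μ) (hP : P ∈ pvhbAll x R ω)
    (hg : 𝔖.Gate (pvxPos ω) h z τ (pvxCol ω b)) (hjl : j + 𝔖.inn.n < P.len) (hrun : ∀ i, i ≤ 𝔖.inn.n → P.v (j + i) = pvxPos ω (𝔖.inn.v i))
    (hsub : BK ⊆ Metric.ball x (4 * R)) (hcore : ∀ v ∈ 𝔖.core, pvxPos ω v ∈ BK) (hsp : 𝔖.StubP (pvxPos ω) Bx (pvxCol ω b)) (hsm : 𝔖.StubM (pvxPos ω) Bx (pvxCol ω b)) (hBx : Bx ⊆ BK)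
    {yp ym : ℂ} {rp Rp rm Rm : ℝ} (hrp : rp < Rp) (hrm : rm < Rm) (hyp : ‖yp - x‖ + Rp ≤ 4 * R) (hym : ‖ym - x‖ + Rm ≤ 4 * R)
    (hp : PvbpCirc (pvxT ω) (pvxPos ω) (𝔖.fzOut)ᶜ yp rp Rp false (pvxCol ω b)) (hm : PvbpCirc (pvxT ω) (pvxPos ω) (𝔖.fzIn)ᶜ ym rm Rm false (pvxCol ω b))
    (hcp : ∀ v ∈ 𝔖.core, Rp ≤ ‖pvxPos ω v - yp‖) (hcm : ∀ v ∈ 𝔖.core, Rm ≤ ‖pvxPos ω v - ym‖) :
    (∀ v ∈ 𝔖.fzIn, rp < ‖pvxPos ω v - yp‖) ∧ (∀ v ∈ 𝔖.fzOut, rm < ‖pvxPos ω v - ym‖) ∧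
      (∃ B, j + 𝔖.inn.n + B < P.len ∧ (∀ i, i ≤ B → P.v (j + 𝔖.inn.n + i) ∈ BK) ∧ ∀ l, l ≤ P.len → (l ≤ j ∨ j + 𝔖.inn.n + B < l) → rp < ‖P.v l - yp‖) ∧
      ∃ A, A < j ∧ (∀ i, i ≤ A → P.v (j - i) ∈ BK) ∧ ∀ l, l ≤ P.len → (l + A < j ∨ j + 𝔖.inn.n ≤ l) → rm < ‖P.v l - ym‖ := by
  classical
  have hT : (pvxT ω).IsSph := delb_plane_isSph hG
  obtain ⟨n₀, H⟩ := pvdj_inst hR hμ hG hF hP hg hjl hrun hsub hcore
  have hpB : ∀ u, u ≤ 𝔖.np → pvxPos ω ((pvxT ω).src (pvasIt (pvxT ω) (pvxCol ω b) 𝔖.dp u)) ∈ BK := fun u hu => by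
    rw [← hsp.ep_it u hu]; exact hBx (hsp.ep_in u hu).1
  have hmB : ∀ t, t ≤ 𝔖.nm → pvxPos ω ((pvxT ω).src ((pvasBack (pvxT ω) (pvxCol ω b))^[t] 𝔖.dm)) ∈ BK := fun t ht => by
    rw [← hsm.em_it t ht]; exact hBx (hsm.em_in t ht).1
  obtain ⟨Cp, hatp, hfrp⟩ := hp
  obtain ⟨Cm, hatm, hfrm⟩ := hm
  have hCp := pvsh_circ_bank_p hsp hg.bw_p hfrp fun v hv hc => pvsh_at_not_vof hatp (hcp v hc) (pvsh_verts_vof hT Cp hv)
  have hCm := pvsh_circ_bank_m hsm hg.bw_m hfrm fun v hv hc => pvsh_at_not_vof hatm (hcm v hc) (pvsh_verts_vof hT Cm hv)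
  obtain ⟨g1, -, g3, -⟩ := pvwk_gate_ends hT hg
  have hv0 : 𝔖.inn.v 0 ∈ 𝔖.core := by
    have e : 𝔖.inn.v 0 = (pvxT ω).src 𝔖.dm := pvt_sd_v0 H.le
    rw [e]; exact pvwk_ins_sub_core hg g3
  have hvn : 𝔖.inn.v 𝔖.inn.n ∈ 𝔖.core := by
    have e := pvt_sd_vn H.le
    rw [H.it] at e
    rw [e]; exact pvwk_ins_sub_core hg g1
  have fp := pvdk_m_far_p H hpB hmB hrp hyp hatp hCp (hcp _ hv0)
  have fm := pvdk_m_far_m H hpB hmB hrm hym hatm hCm (hcm _ hv0)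
  refine ⟨?_, ?_, pvdk_m_mouth_p H hpB hrp hyp hatp hCp (hcp _ hv0), pvdk_m_mouth_m H hmB hrm hym hatm hCm (hcm _ hvn)⟩
  · rintro v ((hv | ⟨i, hi, rfl⟩) | ⟨i, hi, rfl⟩)
    · exact pvsh_at_lt' hT hatp (pvsh_at_not_vof hatp (hcp v hv))
    · rw [hsm.em_it i hi]; exact (fp i hi).1
    · rw [hsm.em_it i hi]; exact (fp i hi).2
  · rintro v ((hv | ⟨i, hi, rfl⟩) | ⟨i, hi, rfl⟩)
    · exact pvsh_at_lt' hT hatm (pvsh_at_not_vof hatm (hcm v hv))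
    · rw [hsp.ep_it i hi]; exact (fm i hi).1
    · rw [hsp.ep_it i hi]; exact (fm i hi).2

end state

/-! ## 5. (M) in the shape of the last glue (199) -/

section final

variable {V D : Type} {T : PvMap V D}

/-- the inner radius of a circuit is smaller than its outer radius -/
theorem pvdk_at_lt (hT : T.IsSph) {pos : V → ℂ} {y : ℂ} {r R : ℝ} {C : T.Cyc} (hat : PvaxAt T pos y r R C) : r < R := by
  classical
  have h1 : T.src (T.opp (C.e 0)) ∉ T.Int C.Left := fun hin => ((pl_cyc_darts_iff hT C _).1 ⟨0, rfl⟩).2 (hin _ rfl)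
  have h2 : T.src (T.opp (C.e 0)) ∈ T.VOf C.Left := by
    refine pvsh_verts_vof hT C ⟨1, ?_⟩
    rw [T.src_opp', C.chain]
  exact lt_trans (pvsh_at_lt hat h1) (hat.out _ h2)

variable {x z : ℂ} {R μ h Rm rK : ℝ} {ω : PVSample} {P : PvbRim} {b : Bool} {τ : PvwTy} {N : PvwNum} {𝔖 : PvwSt (pvxT ω)} {j : ℕ}

/-- **(M) = E15, HALF B, AT THE MODEL, FORM W-6**: half states + ONE SHIELD AT EACH TIP (on the plane) + an encoded rim of any completion along the inner arc ⟹ the full state and the pin in encoded form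
(= `pvej_at_pin` of 152 with the two seals replaced by the two shields of `PvpjNF2`) -/
theorem pvdk_at_pin (hR : 0 < R) (hμ0 : 0 ≤ μ) (hμ : μ ≤ R) (hG : DelGood (pvxY ω)) (hF : L9Fine (pvxY ω) (Metric.closedBall x (6 * R)) μ) (hP : P ∈ pvhbAll x R ω) (hzx : ‖z - x‖ ≤ 3 * R)
    (hO : 𝔖.AtOut (pvxPos ω) N h z τ (pvxCol ω b)) (hI : 𝔖.AtIn (pvxPos ω) N h z τ (pvxCol ω b))
    (hjl : j + 𝔖.inn.n < P.len) (hrun : ∀ i, i ≤ 𝔖.inn.n → P.v (j + i) = pvxPos ω (𝔖.inn.v i))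
    (hSp : ∃ r R' : ℝ, 2 * N.rho * h ≤ r ∧ R' ≤ Rm ∧ PvbpCirc (pvxT ω) (pvxPos ω) (𝔖.fzOut)ᶜ (τ.cp h z) r R' false (pvxCol ω b))
    (hSm : ∃ r R' : ℝ, 2 * N.rho * h ≤ r ∧ R' ≤ Rm ∧ PvbpCirc (pvxT ω) (pvxPos ω) (𝔖.fzIn)ᶜ (τ.cm h z) r R' false (pvxCol ω b))
    (hρ0 : 0 ≤ N.rho * h) (hn1 : Rm + τ.b * h + μ + N.rho * h / 4 ≤ pvwRad N h τ τ.k) (hrr : pvwRad N h τ τ.k ≤ rK) (hrK : 2 * rK + Rm + N.rho * h / 4 ≤ R) :
    𝔖.At (pvxPos ω) N h z τ (pvxCol ω b) ∧ PvxPinOf 𝔖 N h (τ.cp h z) (τ.cm h z) (pvwSq z rK) P j := by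
  have hT : (pvxT ω).IsSph := delb_plane_isSph hG
  have hg := hO.gate
  obtain ⟨rp, Rp, p1, p2, p3⟩ := hSp
  obtain ⟨rm, Rm', m1, m2, m3⟩ := hSm
  have hrp : rp < Rp := by obtain ⟨C, hat, -⟩ := p3; exact pvdk_at_lt hT hat
  have hrm : rm < Rm' := by obtain ⟨C, hat, -⟩ := m3; exact pvdk_at_lt hT hat
  have hRm0 : 0 < Rm := by linarith
  have hrK2 : 2 * rK < R := by linarith
  set r := pvwRad N h τ τ.k with hr
  have hsub : pvwSq z rK ⊆ Metric.ball x (4 * R) := by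
    intro w hw
    rw [mem_ball_iff_norm]
    have h1 : ‖w - z‖ ≤ 2 * rK := (Complex.norm_le_abs_re_add_abs_im _).trans (by linarith [hw.1, hw.2])
    calc ‖w - x‖ = ‖(w - z) + (z - x)‖ := by ring_nf
      _ ≤ ‖w - z‖ + ‖z - x‖ := norm_add_le _ _
      _ < 4 * R := by linarith
  have hcore : ∀ v ∈ 𝔖.core, pvxPos ω v ∈ pvwSq z rK := pvwk_core_sq hg (by linarith)
  have h6 : ∀ w ∈ pvwSq z r, w ∈ Metric.closedBall x (6 * R) := fun w hw =>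
    Metric.ball_subset_closedBall (Metric.ball_subset_ball (by linarith) (hsub (pvzm_sq_mono hrr hw)))
  have hμp : ‖pvxPos ω 𝔖.ap - pvxPos ω ((pvxT ω).src (𝔖.ep 𝔖.np))‖ ≤ μ :=
    (hF _ _ _ (delb_plane_face (Y := pvxY ω) (𝔖.ep 𝔖.np)) (Or.inl (h6 _ (hO.stub.ep_in _ le_rfl).1))).2.1
  have hμm : ‖pvxPos ω 𝔖.am - pvxPos ω ((pvxT ω).src (𝔖.em 𝔖.nm))‖ ≤ μ := by
    have h1 := delb_plane_face (Y := pvxY ω) ((pvxT ω).opp (𝔖.em 𝔖.nm))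
    have e : (delbPl (pvxY ω)).toMap.tgt ((pvxT ω).opp (𝔖.em 𝔖.nm)) = (pvxT ω).src (𝔖.em 𝔖.nm) := (pvxT ω).tgt_opp _
    rw [e] at h1
    exact (hF _ _ _ h1 (Or.inr (Or.inl (h6 _ (hI.stub.em_in _ le_rfl).1)))).2.2
  have hcp : ∀ v ∈ 𝔖.core, Rp ≤ ‖pvxPos ω v - τ.cp h z‖ := fun v hv =>
    p2.trans (pvzm_disc_far hO.stub.ep_out hμp hO.good.tip_p.1 (by linarith) (pvwk_core_lt hg hv))
  have hcm : ∀ v ∈ 𝔖.core, Rm' ≤ ‖pvxPos ω v - τ.cm h z‖ := fun v hv =>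
    m2.trans (pvzm_disc_far hI.stub.em_out hμm hI.good.tip_m.1 (by linarith) (pvwk_core_lt hg hv))
  have hyx : ∀ (p y : ℂ), p ∈ pvwSq z r → ‖p - y‖ ≤ N.rho * h / 4 → ‖y - x‖ + Rm ≤ 4 * R := by
    intro p y hp hy
    have h1 : ‖p - z‖ ≤ 2 * r := (Complex.norm_le_abs_re_add_abs_im _).trans (by linarith [hp.1, hp.2])
    have h2 : ‖y - x‖ ≤ ‖p - y‖ + ‖p - z‖ + ‖z - x‖ := by
      have e : y - x = -(p - y) + (p - z) + (z - x) := by ring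
      rw [e]
      have a1 := norm_add_le (-(p - y) + (p - z)) (z - x)
      have a2 := norm_add_le (-(p - y)) (p - z)
      rw [norm_neg] at a2
      linarith
    linarith
  obtain ⟨f1, f2, ⟨B, b1, b2, b3⟩, ⟨A, a1, a2, a3⟩⟩ := pvdk_state (BK := pvwSq z rK) hR hμ hG hF hP hg hjl hrun hsub hcore hO.stub hI.stub (pvzm_sq_mono hrr) hrp hrm
    (by linarith [hyx _ _ (hO.stub.ep_in _ le_rfl).1 hO.good.tip_p.1]) (by linarith [hyx _ _ (hI.stub.em_in _ le_rfl).1 hI.good.tip_m.1]) p3 m3 hcp hcm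
  exact ⟨⟨hO, hI, fun v hv => lt_of_le_of_lt p1 (f1 v hv), fun v hv => lt_of_le_of_lt m1 (f2 v hv)⟩,
    ⟨hjl, hrun, ⟨B, b1, b2, fun l hl hc => lt_of_le_of_lt p1 (b3 l hl hc)⟩, ⟨A, a1, a2, fun l hl hc => lt_of_le_of_lt m1 (a3 l hl hc)⟩⟩⟩

end final

end Claimed.Agent.R289
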