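-- KEEP
import Claimed.Agent.R289.Exit.PinsE
import Claimed.Agent.R289.Tr.PinE
import Claimed.Agent.R289.Tr.GoodAll

/-!
# Row 289 (S0537, Cardy for Poisson-Voronoi), THE WALL, road E, roof PINS, file Exit/PinsDG : THE LAST GLUE OF (DI)      (helper126; prefix `pvdg_`)

`pvdg_di` = the statement of `exit_pinsE_di` (`Exit/PinsE.lean`, 121) VERBATIM   :=   `pvpe_main` (`Tr/PinE.lean`, X3 = PIN EXISTS, shields of ruling W-6) + THE DICTIONARY: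
* `pvdgNum N n1` : the numbers of `Tr/PinE` read off `PvxNums` (73): box of FLAG1 = the box of the last level in use, `sep = 12 ρ₃ = 2 (g + 1) ρ₃`, `cell u` = the centre of the grid cell (mesh `e1 = ρ / 10`) of `u`
* `pvdg_menu` : `PvpeMenu (pvxParOf N hN c) (pvdgNum N n1)` : THE MENU OF RECORD IS COMPLETE (`pvxoMk`, `pvxo_cover_geo`, `pvxo_nd_of` of 73)
* `pvdg_room` : the explicit inequalities `PvpeRoom`
* `pvdg_nf1`, `pvdg_nf2`, `pvdg_nf4` : `PvpjNF1 NF2 NF4` (121; 276; 137 233 248; 100 98 71 36) ⟹ `PvpeNF1 NF2 NF4`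
* `pvdg_noret` : `PvpjGood` ⟹ `PvpeNoRet`
-/

set_option autoImplicit false

namespace Claimed.Agent.R289

open Set Filter Topology Claims.C0465

/-- the numbers of `Tr/PinE` read off the numbers of record -/
noncomputable def pvdgNum (N : PvxNums) (n1 : ℕ) : PvpeNum :=
  ⟨N.a1, N.b1, N.a2, N.b2, N.K0, 2 * N.b2 + N.K0 * N.rho1, n1, 12 * N.rho3, fun u => pvzgCtr N.e1 (pvzgIdx N.e1 u)⟩

theorem pvdg_eqns_cite : True := by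
  have := @pvdgNum.eq_1
  trivial

/-- a set placed at the origin at scale one -/
theorem pvdg_pl_one {S : Set ℂ} {w : ℂ} : w ∈ pvxPl 0 1 S ↔ w ∈ S := by
  rw [pvzg_mem_pl one_pos]
  simp

/-- **THE MENU OF RECORD IS COMPLETE** -/
theorem pvdg_menu (N : PvxNums) (hN : N.Ok) (c : ℝ) (n1 : ℕ) (hg : N.g = 5) : PvpeMenu (pvxParOf N hN c) (pvdgNum N n1) := by
  intro b o o2 k xp xm Ap Am hk hxp hxpn hxm hxmn hfar hAp hAm hS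
  have he := hN.e1_pos
  have hk' : k ≤ N.K0 := hk
  have hρ1 := hN.rho1_pos
  have hkK : (k : ℝ) * N.rho1 ≤ N.K * N.rho1 := mul_le_mul_of_nonneg_right (by exact_mod_cast hk'.trans hN.K0_le) hρ1.le
  have hbig : ∀ r : ℝ, r ≤ 2 * N.b2 + N.K * N.rho1 → pvwSq 0 r ⊆ pvwSq 0 (N.big * 1) := by
    intro r hr w hw
    rw [pvxo_mem_sq] at hw ⊢
    have := hN.shell
    unfold PvxNums.big
    linarith
  have hxp' : xp ∈ pvwSq 0 (2 * N.b2 + k * N.rho1) := hxp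
  have hxm' : xm ∈ pvwSq 0 (2 * N.b2 + k * N.rho1) := hxm
  have hxpn' : xp ∉ pvwSq 0 (2 * N.b2 + k * N.rho1 - N.rho / 20) := hxpn
  have hxmn' : xm ∉ pvwSq 0 (2 * N.b2 + k * N.rho1 - N.rho / 20) := hxmn
  have hAp' : Ap ⊆ pvwSq 0 (2 * N.b2 + N.K * N.rho1) := hAp
  have hAm' : Am ⊆ pvwSq 0 (2 * N.b2 + N.K * N.rho1) := hAm
  have hS' : ∀ u ∈ Ap, ∀ v ∈ Am, 2 * ((N.g : ℝ) + 1) * N.rho3 * 1 < ‖u - v‖ := by
    intro u hu v hv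
    have a1 : 12 * N.rho3 < ‖u - v‖ := hS u hu v hv
    rw [hg]
    push_cast
    linarith
  obtain ⟨G, g1, g2, g3, g4, -, -⟩ := pvxo_cover_geo N hN (z := 0) (h := 1) one_pos (hbig _ (by linarith) hxp') (hbig _ (by linarith) hxm')
    (hAp'.trans (hbig _ le_rfl)) (hAm'.trans (hbig _ le_rfl)) hS'
  have c1 : xp ∈ pvzgCell N.e1 G.yp := pvdg_pl_one.1 g1
  have c2 : xm ∈ pvzgCell N.e1 G.ym := pvdg_pl_one.1 g2
  have i1 : pvzgIdx N.e1 xp = G.yp := (pvzg_mem_cell_iff he).1 c1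
  have i2 : pvzgIdx N.e1 xm = G.ym := (pvzg_mem_cell_iff he).1 c2
  have key : ∀ w : ℂ, w ∈ pvwSq 0 (2 * N.b2 + k * N.rho1) → w ∉ pvwSq 0 (2 * N.b2 + k * N.rho1 - N.rho / 20) → |pvccN w - N.rad k| ≤ N.rho / 20 := by
    intro w h1 h2
    rw [pvxo_mem_sq, sub_zero] at h1 h2
    have h3 := not_le.1 h2
    have h4 := hN.rho0
    unfold PvxNums.rad
    rw [abs_le]
    constructor <;> linarith
  have hp : PvxoNd N k G.yp := pvxo_nd_of c1 (key _ hxp' hxpn')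
  have hm : PvxoNd N k G.ym := pvxo_nd_of c2 (key _ hxm' hxmn')
  have hf : PvxoFar N G.yp G.ym := by
    have a1 : 7 / 4 * N.rho ≤ ‖pvzgCtr N.e1 (pvzgIdx N.e1 xp) - pvzgCtr N.e1 (pvzgIdx N.e1 xm)‖ := hfar
    rw [i1, i2] at a1
    exact a1
  refine ⟨pvxoMk k hk' b o o2 G hp hm hf, rfl, ?_, rfl, rfl, rfl, c1, c2, fun w hw => pvdg_pl_one.1 (g3 hw), fun w hw => pvdg_pl_one.1 (g4 hw)⟩
  show (⟨N.a1, N.b1, N.a2, N.b2, k, o, pvzgCtr N.e1 G.yp, pvzgCtr N.e1 G.ym⟩ : PvwTy) = ⟨N.a1, N.b1, N.a2, N.b2, k, o, pvzgCtr N.e1 (pvzgIdx N.e1 xp), pvzgCtr N.e1 (pvzgIdx N.e1 xm)⟩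
  rw [i1, i2]

/-- **THE EXPLICIT INEQUALITIES** -/
theorem pvdg_room {𝔑 : PvxpNum} (h𝔑 : 𝔑.Wf (10 ^ 6) 4 2) {N : PvxNums} (hN : N.Ok) {n1 : ℕ} (hOK : PvpjNumOK 𝔑 N n1) {h μ R : ℝ} (h0 : 0 < h) (hμ0 : 0 < μ) (hμ : 100 * μ ≤ N.rho * h)
    (hbox : 4 * (2 * N.b2 + N.K * N.rho1 + 1) * h ≤ R) : PvpeRoom N.num (pvdgNum N n1) h μ R where
  h0 := h0
  mu0 := hμ0
  mu_le := hμ
  rho0 := hN.rho0
  rho1 := by
    show 4 * N.rho ≤ N.rho1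
    linarith [hN.rho0, hN.rho1]
  rho2 := by
    show 4 * N.rho1 ≤ N.rho2
    linarith [hN.rho1_pos, hN.rho2]
  rho3 := hN.rho2_lt_one
  a1 := by
    show 10 ≤ N.a1
    linarith [hN.m_gt, hN.m_lt, hN.B_lt]
  ab1 := hN.ab1
  gap := hN.gap
  ab2 := hN.ab2
  K0_le := hN.K0_le
  rF_ge := le_refl _
  rF_le := by
    show 2 * N.b2 + N.K0 * N.rho1 ≤ 2 * N.b2 + N.K * N.rho1
    have : (N.K0 : ℝ) * N.rho1 ≤ N.K * N.rho1 := mul_le_mul_of_nonneg_right (by exact_mod_cast hN.K0_le) hN.rho1_pos.le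
    linarith
  n1 := by
    show 2 * n1 ≤ N.K0 + 2
    have := hOK.cnt
    omega
  sep0 := by
    show 0 < 12 * N.rho3
    linarith [hN.msk0]
  cell := fun u _ => by
    show ‖u - pvzgCtr N.e1 (pvzgIdx N.e1 u)‖ ≤ N.rho / 8
    have a1 := pvzg_ctr_near (pvzg_mem_cell_idx hN.e1_pos u)
    have a2 : N.e1 = N.rho / 10 := rfl
    linarith [hN.rho0]
  box := hbox

section nf

variable {N : PvxNums} {n1 m : ℕ} {p : ℤ × ℤ} {ω : PVSample}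

/-- **NO FLAG1** -/
theorem pvdg_nf1 (H : PvpjNF1 m p ω (2 * N.b2 + N.K0 * N.rho1) (N.rho2 / 4) n1) (b : Bool) :
    PvpeNF1 (pvxT ω) (pvxPos ω) (pvxCol ω b) N.num (pvlmH m) (pvdgNum N n1) (l9Pt (pvlmH m) p) :=
  ⟨H b, by rw [pvflm_col_not]; exact H (!b)⟩

/-- **NO FLAG2** (shields) -/
theorem pvdg_nf2 (H : PvpjNF2 N m p ω) (b : Bool) : PvpeNF2 (pvxT ω) (pvxPos ω) (pvxCol ω b) N.num (pvlmH m) (pvdgNum N n1) (l9Pt (pvlmH m) p) := by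
  intro o k yp ym 𝔖 hk
  obtain ⟨H1, H2⟩ := H b o k yp ym 𝔖 hk
  refine ⟨fun hO => ?_, fun hI => ?_⟩
  · obtain ⟨r, R', h1, h2, h3⟩ := H1 hO
    exact pvzw_circ_mono h1 h2 h3
  · obtain ⟨r, R', h1, h2, h3⟩ := H2 hI
    exact pvzw_circ_mono h1 h2 h3

/-- **NO FLAG4** (SEP of the two halves under vertex disjointness) -/
theorem pvdg_nf4 {𝔑 : PvxpNum} (hN : N.Ok) (hOK : PvpjNumOK 𝔑 N n1) (H : PvpjNF4 N m p ω) (b : Bool) :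
    PvpeNF4 (pvxT ω) (pvxPos ω) (pvxCol ω b) N.num (pvlmH m) (pvdgNum N n1) (l9Pt (pvlmH m) p) := by
  intro o k yp ym 𝔖 hk hAt hD
  have h0 : 0 < pvlmH m := pvlm_H_pos m
  have hk' : k ≤ N.K0 := hk
  have hρ1 := hN.rho1_pos
  have hkρ : 0 ≤ (k : ℝ) * N.rho1 := by positivity
  have hkK : (k : ℝ) * N.rho1 ≤ 1 := by
    have a1 : (k : ℝ) * N.rho1 ≤ N.K * N.rho1 := mul_le_mul_of_nonneg_right (by exact_mod_cast hk'.trans hN.K0_le) hρ1.le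
    linarith [hOK.shell]
  have e : pvwRad N.num (pvlmH m) ((pvdgNum N n1).ty k o yp ym) ((pvdgNum N n1).ty k o yp ym).k = (2 * N.b2 + k * N.rho1) * pvlmH m := rfl
  have hρ := hN.rho_lt_one
  have hρ0 := hN.rho0
  exact H.sep2 b N.num ((pvdgNum N n1).ty k o yp ym) 𝔖 le_rfl
    (by show N.rho / 50 + 1 ≤ N.a1; linarith [hN.m_gt, hN.m_lt, hN.B_lt])
    (by show N.rho / 50 + 2 ≤ N.m; linarith [hN.m_gt])
    (by rw [e]; exact mul_le_mul_of_nonneg_right (by show N.b1 ≤ _; linarith [hN.gap, hN.ab2, hN.a1_pos, hN.ab1]) h0.le)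
    (by rw [e]; exact mul_le_mul_of_nonneg_right (by linarith) h0.le) hAt (fun yp' ym' a1 a2 => (hD yp' ym' a1 a2).1)

end nf

/-- **NO NEAR RETURN** -/
theorem pvdg_noret {x : ℂ} {R μ s S : ℝ} {ω : PVSample} (H : PvpjGood x R μ s S ω) (hμs : μ ≤ s) {P : PvbRim} (hP : P ∈ pvhbAll x R ω) : PvpeNoRet P x R μ S := by
  rintro w hw ⟨k, i, k', h1, h2, h3, h4, h5, h6⟩
  exact H.2 P hP w hw ⟨k, i, k', h1, h2, h3, h4.trans hμs, h5.trans hμs, h6⟩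

/-- **(R4) (DI), DETERMINISTIC** = the statement of `exit_pinsE_di` VERBATIM -/
theorem pvdg_di {c : ℝ} (c0 : 0 < c) (𝔑 : PvxpNum) (h𝔑 : 𝔑.Wf (10 ^ 6) 4 2) (N : PvxNums) (hN : N.Ok) (n1 : ℕ) (hOK : PvpjNumOK 𝔑 N n1) :
    ∃ κ : ℝ, 0 < κ ∧ κ ≤ 1 ∧ ∀ (x : ℂ) (R : ℝ), 0 < R → ∀ᶠ m in atTop, ∀ μ s : ℝ, 0 < μ → μ ≤ s → s ≤ κ * pvlmH m → PvpjDI 𝔑 N hN c n1 x R m μ s := by
  have hρ0 := hN.rho0
  have hρ1 := hN.rho_lt_one
  refine ⟨N.rho / 100, by positivity, by linarith, fun x R hR => ?_⟩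
  have hC : 0 < 4 * (2 * N.b2 + N.K * N.rho1 + 1) := by
    have := hN.b2_pos
    have h2 : 0 ≤ (N.K : ℝ) * N.rho1 := mul_nonneg (Nat.cast_nonneg _) hN.rho1_pos.le
    linarith
  have hev : ∀ᶠ m in atTop, pvlmH m < R / (4 * (2 * N.b2 + N.K * N.rho1 + 1)) := (tendsto_order.1 pvlm_H_lim).2 _ (by positivity)
  filter_upwards [hev, eventually_ge_atTop N.m0] with m hm hm0 μ s hμ0 hμs hs ω hgood P hP k p hk hkx hkz hF1 hF2 hF4 hgates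
  have h0 : 0 < pvlmH m := pvlm_H_pos m
  have hbox : 4 * (2 * N.b2 + N.K * N.rho1 + 1) * pvlmH m ≤ R := by
    rw [lt_div_iff₀ hC] at hm
    linarith
  have h0g : 0 < 𝔑.g := lt_of_lt_of_le (by norm_num) h𝔑.g_ge
  have h1g : 1 < 𝔑.g := lt_of_lt_of_le (by norm_num) h𝔑.g_ge
  have e1 := h𝔑.a_ge 0 h0g
  have e2 := h𝔑.ab 0 h0g
  have e3 := h𝔑.a_ge 1 h1g
  have e4 := h𝔑.ab 1 h1g
  have e5 := h𝔑.bL 0 h0g
  obtain ⟨hG, hA1⟩ := hgates 0 h0g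
  obtain ⟨-, hA2⟩ := hgates 1 h1g
  have hRm := pvdg_room h𝔑 hN hOK h0 hμ0 (by nlinarith) hbox
  obtain ⟨s', hs', -, hs2⟩ := pvpe_main (pvxParOf N hN c) (pvdg_menu N hN c n1 hOK.g) (α1 := 𝔑.a 0) (β1 := 𝔑.b 0) (α2 := 𝔑.a 1) (β2 := 𝔑.b 1)
    (by show N.a1 + 1 ≤ _; rw [hOK.a1]; linarith) (by linarith) (by show _ ≤ N.b1; rw [hOK.b1])
    (by show N.a2 + 1 ≤ _; rw [hOK.a2]; linarith) (by linarith) (by show _ ≤ N.b2; rw [hOK.b2]) hm0 hR hRm hG hgood.1 hP (pvdg_noret hgood hμs hP) hk hkx hkz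
    (pvdg_nf1 hF1 _) (pvdg_nf2 hF2 _) (pvdg_nf4 hN hOK hF4 _) hA1 hA2
  refine ⟨s', hs', fun i hi => (hs2 i hi).trans (mul_le_mul_of_nonneg_right ?_ h0.le)⟩
  show N.b1 ≤ 𝔑.L
  rw [hOK.b1]
  linarith

end Claimed.Agent.R289
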