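-- KEEP
import Claimed.Agent.R289.Tr.PinGate
import Claimed.Agent.R289.Tr.PinKit
import Claimed.Agent.R289.Tr.GoodNumE
import Claimed.Agent.R289.Tr.FlagM
import Claimed.Agent.R289.Exit.PinsDJ
import Claimed.Agent.R289.Exit.PinsDM
import Claimed.Agent.R289.Exit.PinsF4

/-!
# Row 289 (S0537, Cardy for Poisson-Voronoi), THE WALL, roof PINS, road E, file Exit/PinsDI : (R4) = (DI), THE LAST GLUE      (helper199; node `exit_pinsE_di` of `Exit/PinsE.lean`, 121; prefix `pvuj_`)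

DETERMINISTIC.      RAW STATEMENTS (no vocabulary of `Exit/PinsE`: that file imports this one and unfolds its definitions).      EVERYTHING ON THE PLANE MAP `pvxT ω`.
THE CHAIN.   (1) two gates of A6 ⟹ gates of record, fixed rule, run of the rim: `pvqg_gate` (190, `Tr/PinGate`)
(2) not FLAG1 ⟹ a level `k ≤ K0` with its stubs, both half states for EVERY pair of centres of the tips: `pvpy_levels_model` (157, `Tr/PinKit`; 112 106)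
(3) not FLAG2 (shields W-6 of 208; 137 233) + **(M)** ⟹ full state and encoded pin for EVERY pair of centres
(4) the state at the black ends of its tips + the rim (`pvdj_state` of 235) + not FLAG4 (`Pvpf4Sep2` of 100 98) ⟹ SEP of the two halves
(5) the type of record: `pvn7_type` (17, `Tr/GoodNumE`; `pvxo_cover` of 73)      (6) `pvxPins`.
**(M)** = `pvdk_at_pin` of 235 (`Exit/PinsDM.lean`) = `pvej_at_pin` of 152 (`Tr/PinEL`) with the two seals replaced by the two shields.      0 sorry.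
-/

set_option autoImplicit false

namespace Claimed.Agent.R289

open Set Filter Topology Claims.C0465

/-- no `(s, S)` near return ⟹ the hypothesis `hNR` of `pvqg_gate` -/
theorem pvuj_noret {P : PvbRim} {x : ℂ} {R μ s h : ℝ} (hμ0 : 0 ≤ μ) (hμs : μ ≤ s) (hμh : μ < h) (hNR : ∀ w : ℂ, ‖w - x‖ ≤ 3 * R → ¬ PvbNearRet P w s h) :
    ∀ i i', i ≤ i' → i' ≤ P.len → ‖P.v i - x‖ ≤ 3 * R → ‖P.v i' - P.v i‖ ≤ μ → ∀ k, i ≤ k → k ≤ i' → ‖P.v k - P.v i‖ ≤ h := by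
  intro i i' _ hi' hx hii k hik hki
  by_contra hcon
  rw [not_le] at hcon
  have h1 : i ≠ k := by
    rintro rfl
    rw [sub_self, norm_zero] at hcon
    linarith
  have h2 : k ≠ i' := by
    rintro rfl
    linarith
  exact hNR _ hx ⟨i, k, i', by omega, by omega, hi', by rw [sub_self, norm_zero]; linarith, hii.trans hμs, hcon⟩

set_option maxHeartbeats 1000000 in
/-- **(DI), RAW FORM, ONE LEVEL** -/
theorem pvuj_di_raw {c : ℝ} (N : PvxNums) (hN : N.Ok) {n1 : ℕ} {α1 β1 α2 β2 : ℝ} (h1a : N.a1 + 1 ≤ α1) (h1 : α1 < β1) (h1b : β1 + 1 ≤ N.b1) (h2a : N.a2 + 1 ≤ α2) (h2 : α2 < β2) (h2b : β2 + 1 ≤ N.b2)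
    (hn1 : 2 * n1 ≤ N.K0 + 1) (hshell : N.K * N.rho1 ≤ 1) (hg5 : N.g = 5) {x : ℂ} {R μ s : ℝ} {m : ℕ} (hR : 0 < R) (hm0 : N.m0 ≤ m) (hμ0 : 0 < μ) (hμs : μ ≤ s) (hμ : 100 * μ ≤ N.rho * pvlmH m)
    (hbox : 4 * (N.big + 1) * pvlmH m ≤ R) {ω : PVSample} (hF : L9Fine (pvxY ω) (Metric.closedBall x (6 * R)) μ) {P : PvbRim} (hP : P ∈ pvhbAll x R ω)
    (hNR : ∀ w : ℂ, ‖w - x‖ ≤ 3 * R → ¬ PvbNearRet P w s (pvlmH m)) {k : ℕ} {p : ℤ × ℤ} (hk : k ≤ P.len) (hkx : ‖P.v k - x‖ ≤ 2 * R) (hkz : ‖P.v k - l9Pt (pvlmH m) p‖ ≤ pvlmH m)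
    (hF1 : ∀ b : Bool, ¬ PvflStub (pvxT ω) (pvxPos ω) (l9Pt (pvlmH m) p) ((2 * N.b2 + N.K0 * N.rho1) * pvlmH m) (N.rho2 / 4 * pvlmH m) n1 (pvxCol ω b))
    (hF2 : ∀ (b o : Bool) (k : ℕ) (yp ym : ℂ) (𝔖 : PvwSt (pvxT ω)), k ≤ N.K0 →
      (𝔖.AtOut (pvxPos ω) N.num (pvlmH m) (l9Pt (pvlmH m) p) ⟨N.a1, N.b1, N.a2, N.b2, k, o, yp, ym⟩ (pvxCol ω b) →
        ∃ r R' : ℝ, 2 * N.rho * pvlmH m ≤ r ∧ R' ≤ pvlmH m ∧ PvbpCirc (pvxT ω) (pvxPos ω) (𝔖.fzOut)ᶜ (l9Pt (pvlmH m) p + (pvlmH m : ℂ) * yp) r R' false (pvxCol ω b)) ∧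
      (𝔖.AtIn (pvxPos ω) N.num (pvlmH m) (l9Pt (pvlmH m) p) ⟨N.a1, N.b1, N.a2, N.b2, k, o, yp, ym⟩ (pvxCol ω b) →
        ∃ r R' : ℝ, 2 * N.rho * pvlmH m ≤ r ∧ R' ≤ pvlmH m ∧ PvbpCirc (pvxT ω) (pvxPos ω) (𝔖.fzIn)ᶜ (l9Pt (pvlmH m) p + (pvlmH m : ℂ) * ym) r R' false (pvxCol ω b)))
    (hF4 : ∀ b : Bool, Pvpf4Sep2 (pvxT ω) (pvxPos ω) (pvxCol ω b) (pvlmH m) (l9Pt (pvlmH m) p) (2 * N.b2 + 1) N.rho (12 * N.rho3))
    (hA1 : PvxpGate ω (cfCol (pvConf ω) (P.v k)) (l9Pt (pvlmH m) p) (α1 * pvlmH m) (β1 * pvlmH m))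
    (hA2 : PvxpGate ω (cfCol (pvConf ω) (P.v k)) (l9Pt (pvlmH m) p) (α2 * pvlmH m) (β2 * pvlmH m)) :
    ∃ s ∈ pvxPins (pvxParOf N hN c) x R m ω P, s.ctr = l9Pt (pvlmH m) p ∧ ∀ i, (s.idx ≤ i ∧ i ≤ k ∨ k ≤ i ∧ i ≤ s.idx) → ‖P.v i - l9Pt (pvlmH m) p‖ ≤ N.b1 * pvlmH m := by
  set z := l9Pt (pvlmH m) p with hz
  set b := cfCol (pvConf ω) (P.v k) with hb
  set h := pvlmH m with hh
  have h0 : 0 < h := pvlm_H_pos m
  have hG : DelGood (pvxY ω) := hA1.1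
  have hT : (pvxT ω).IsSph := delb_plane_isSph hG
  -- numbers
  have hρ0 := hN.rho0
  have hρ1 := hN.rho1
  have hρ2 := hN.rho2
  have hρ3 := hN.rho3
  have hρle : N.rho ≤ 1 := hN.rho_lt_one.le
  have hb2 := hN.b2_pos
  have ha1 : 10 ≤ N.a1 := by linarith [hN.m_gt, hN.m_lt, hN.B_lt]
  have hab1 := hN.ab1
  have hgap := hN.gap
  have hab2 := hN.ab2
  have hbig : N.big = 2 * N.b2 + 4 := rfl
  have hρh : 0 < N.rho * h := mul_pos hρ0 h0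
  have hρh1 : N.rho * h ≤ h := by nlinarith
  have hμh : μ < h := by linarith
  have hhR : h ≤ R := by nlinarith
  have hμR : μ ≤ R := by linarith
  have hK0ρ : (N.K0 : ℝ) * N.rho1 ≤ 1 := by
    have : (N.K0 : ℝ) * N.rho1 ≤ N.K * N.rho1 := mul_le_mul_of_nonneg_right (by exact_mod_cast hN.K0_le) hN.rho1_pos.le
    linarith
  have hzx : ‖z - x‖ ≤ 3 * R := by
    calc ‖z - x‖ = ‖-(P.v k - z) + (P.v k - x)‖ := by ring_nf
      _ ≤ ‖-(P.v k - z)‖ + ‖P.v k - x‖ := norm_add_le _ _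
      _ ≤ h + 2 * R := by rw [norm_neg]; exact add_le_add hkz hkx
      _ ≤ 3 * R := by linarith
  have hNR' := pvuj_noret hμ0.le hμs hμh hNR
  -- (1) the two gates
  obtain ⟨𝔖₀, o, j, hg0, ⟨hjl, hrun⟩, hjk, hkj, -, hin0⟩ := pvqg_gate (z := z) (b := b) (a := N.a1) (b' := N.b1) hR h0 hμ0 hμh ha1 h1a h1 h1b (by nlinarith) hG hF hP hNR' hk hkx hkz hb hA1.2
  obtain ⟨𝔖₂, o2, -, hg2, -⟩ := pvqg_gate (z := z) (b := b) (a := N.a2) (b' := N.b2) hR h0 hμ0 hμh (by linarith) h2a h2 h2b (by nlinarith) hG hF hP hNR' hk hkx hkz hb hA2.2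
  set τ0 : PvwTy := pvn7Ty N 0 o 0 0 with hτ0
  obtain ⟨hg, hi⟩ := hg0 τ0 rfl rfl rfl
  -- (2) the level
  have erK0 : pvwRad N.num h τ0 N.K0 = (2 * N.b2 + N.K0 * N.rho1) * h := rfl
  have e4 : N.num.rho2 * h / 4 = N.rho2 / 4 * h := by show N.rho2 * h / 4 = _; ring
  obtain ⟨l, hl, hst, hOut, hIn⟩ := pvpy_levels_model (N := N.num) (K0 := N.K0) (n1 := n1) hR hG hF hP hzx (by rw [erK0]; nlinarith) h0 hμ0 hμ hρ0
    (by show 4 * N.rho ≤ N.rho1; linarith) (by show 4 * N.rho1 ≤ N.rho2; linarith [hN.rho1_pos]) (by show N.b1 * h + μ ≤ 2 * N.b2 * h; nlinarith) hN.K0_le hn1 hg hi hjl hrun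
    (by rw [erK0, e4]; exact hF1 b) (by rw [erK0, e4, pvflm_col_not]; exact hF1 (!b))
  set 𝔖 : PvwSt (pvxT ω) := pvzcLv 𝔖₀ (pvxPos ω) N.num h z τ0 (pvxCol ω b) l with h𝔖
  have hlK : l ≤ N.K := hl.trans hN.K0_le
  have hradl : N.rad l * h ≤ N.rad N.K * h := by
    refine mul_le_mul_of_nonneg_right ?_ h0.le
    have : (l : ℝ) * N.rho1 ≤ N.K * N.rho1 := mul_le_mul_of_nonneg_right (by exact_mod_cast hlK) hN.rho1_pos.le
    unfold PvxNums.rad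
    linarith
  have hradK : N.rad N.K * h ≤ (2 * N.b2 + 1) * h := mul_le_mul_of_nonneg_right (by unfold PvxNums.rad; linarith) h0.le
  have hradl0 : 2 * N.b2 * h ≤ N.rad l * h := mul_le_mul_of_nonneg_right (hN.le_rad l) h0.le
  -- (3) full state and pin for every pair of centres
  have hall : ∀ yp ym, PvzcTipP 𝔖 (pvxPos ω) N.num h (z + (h : ℂ) * yp) → PvzcTipM 𝔖 (pvxPos ω) N.num h (z + (h : ℂ) * ym) →
      𝔖.At (pvxPos ω) N.num h z (pvzcTy τ0 l yp ym) (pvxCol ω b) ∧ PvxPinOf 𝔖 N.num h (z + (h : ℂ) * yp) (z + (h : ℂ) * ym) (pvwSq z (N.rad N.K * h)) P j := by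
    intro yp ym tp tm
    have hO := hOut yp ym tp
    have hI := hIn yp ym tm
    obtain ⟨s1, s2⟩ := hF2 b o l yp ym 𝔖 hl
    exact pvdk_at_pin (Rm := h) (τ := pvzcTy τ0 l yp ym) hR hμ0.le hμR hG hF hP hzx hO hI hjl hrun (s1 hO) (s2 hI) hρh.le
      (by show h + N.b1 * h + μ + N.rho * h / 4 ≤ N.rad l * h; nlinarith) hradl (by show 2 * (N.rad N.K * h) + h + N.rho * h / 4 ≤ R; nlinarith)
  -- (4) SEP
  have hM : PvzcMesh (pvxT ω) (pvxPos ω) z (N.rad l * h) μ := pvn7_mesh_plane hF hzx (by nlinarith)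
  have hAt0 := (hall _ _ (pvn7_tipP_bself (N := N.num) h0.ne' hM hst.1 hμ0.le (by show 4 * μ ≤ N.rho * h; linarith)) (pvn7_tipM_bself (N := N.num) h0.ne' hM hst.2 hμ0.le (by show 4 * μ ≤ N.rho * h; linarith))).1
  have hsubK : pvwSq z (N.rad N.K * h) ⊆ Metric.ball x (4 * R) := fun w hw => by
    rw [mem_ball_iff_norm]
    have e1 := pvn7_sq_norm hw
    have e2 : ‖w - x‖ ≤ ‖w - z‖ + ‖z - x‖ := by
      calc ‖w - x‖ = ‖(w - z) + (z - x)‖ := by ring_nf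
        _ ≤ _ := norm_add_le _ _
    nlinarith
  have hcoreK : ∀ v ∈ 𝔖.core, pvxPos ω v ∈ pvwSq z (N.rad N.K * h) := fun v hv => pvwk_core_sq hAt0.out.gate (by show N.b1 * h ≤ _; nlinarith) v hv
  have hdis := pvdj_state hR hμR hG hF hP hAt0.out.gate hjl hrun hsubK hcoreK hst.1 hst.2 (pvn7_sq_mono z hradl)
  have hsep := hF4 b N.num _ 𝔖 le_rfl (by show N.rho / 50 + 1 ≤ N.a1; linarith) (by show N.rho / 50 + 2 ≤ N.m; linarith [hN.m_gt]) (by show N.b1 * h ≤ N.rad l * h; nlinarith)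
    (by show N.rad l * h ≤ _; linarith) hAt0 (fun yp ym a1 a2 => (hdis yp ym a1 a2).1)
  -- (5) the type
  have hinn : ∀ i, i ≤ 𝔖.inn.n → pvxPos ω (𝔖.inn.v i) ∈ pvwSq z (N.big * h) := fun i hi' => by
    have e1 := (hin0 i hi').le
    have e2 : N.b1 * h ≤ N.big * h := mul_le_mul_of_nonneg_right (by linarith) h0.le
    exact ⟨((Complex.abs_re_le_norm _).trans e1).trans e2, ((Complex.abs_im_le_norm _).trans e1).trans e2⟩
  have hlbig : pvwSq z (N.rad l * h) ⊆ pvwSq z (N.big * h) := pvn7_sq_mono z (pvn7_rad_big N hN h0 hlK)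
  obtain ⟨t, -, e2, -, e4', a1, a2, c1, c2, c3, c4⟩ := pvn7_type N hN c h0 hμ0.le (by linarith) hl b o o2 (y0 := 0) (y1 := 0) (k' := 0) hM hst
    (Q := fun yp ym => PvxPinOf 𝔖 N.num h yp ym (pvwSq z (N.rad N.K * h)) P j) hall
    (Xp := pvxPos ω '' pvpf4Xp (pvxT ω) (pvxPos ω) z ((N.m - 1) * h) 𝔖) (Xm := pvxPos ω '' pvpf4Xm (pvxT ω) (pvxPos ω) z ((N.m - 1) * h) 𝔖)
    (by
      rintro _ ⟨v, hv | ⟨i, -, hi', -, rfl⟩, rfl⟩
      · obtain ⟨y, hy, hv⟩ := hv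
        exact hlbig (pvn7_arcP_sq hst.1 hy v hv)
      · exact hinn i hi')
    (by
      rintro _ ⟨v, hv | ⟨i, hi', -, rfl⟩, rfl⟩
      · obtain ⟨y, hy, hv⟩ := hv
        exact hlbig (pvn7_arcM_sq hst.2 hy v hv)
      · exact hinn i (hi'.trans hg.ip_le))
    (by
      rintro _ ⟨u, hu, rfl⟩ _ ⟨v, hv, rfl⟩
      have := hsep u hu v hv
      rw [hg5]
      norm_num
      linarith)
  -- (6) the pin
  refine ⟨⟨j + 𝔖.ip, z, t⟩, ⟨hzx, ⟨p, rfl⟩, 𝔖, j, ⟨hG, ?_, c1, c2, fun y hy v hv => c3 ⟨v, Or.inl ⟨y, hy, hv⟩, rfl⟩, fun y hy v hv => c4 ⟨v, Or.inl ⟨y, hy, hv⟩, rfl⟩,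
    fun i i1 i2 i3 => c3 ⟨_, Or.inr ⟨i, i1, i2, i3, rfl⟩, rfl⟩, fun i i1 i3 => c4 ⟨_, Or.inr ⟨i, i1, i3, rfl⟩, rfl⟩, hm0⟩, a2, rfl, 𝔖₂, ?_⟩, rfl, ?_⟩
  · show 𝔖.At (pvxPos ω) (pvxParOf N hN c).num h z ((pvxParOf N hN c).ty t) (pvxCol ω ((pvxParOf N hN c).col t))
    rw [e2]; exact a1
  · show 𝔖₂.Gate (pvxPos ω) h z ((pvxParOf N hN c).ty2 t) (pvxCol ω ((pvxParOf N hN c).col t))
    rw [e2]; exact (hg2 _ rfl rfl e4').1
  · intro i hi'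
    have hip : 𝔖₀.ip ≤ 𝔖₀.inn.n := hg.ip_le
    have hi'' : j ≤ i ∧ i ≤ j + 𝔖₀.inn.n := by
      have e : (⟨j + 𝔖.ip, z, t⟩ : PvbPin (pvxTau N)).idx = j + 𝔖₀.ip := rfl
      rw [e] at hi'
      omega
    obtain ⟨i', rfl⟩ : ∃ i', i = j + i' := ⟨i - j, by omega⟩
    rw [hrun i' (by omega)]
    exact (hin0 i' (by omega)).le

end Claimed.Agent.R289
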