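import Claimed.Agent.R289.Exit.PinsE
import Claimed.Agent.R289.Exit.PinsDI

/-!
# Row 289 (S0537, Cardy for Poisson-Voronoi), THE WALL, Exit/PinsEU : THE ROOF OF ROAD E OVER (R4)      (helper121; prefix `pvpj_`, exit `exit_pinsE_di`)

`Exit/PinsE.lean` (0 sorry, imports NO prover of (R4)) : vocabulary `Pvpj*`, the flags (F1) (F2) (F4), (N), and `pvpj_roadE_of : PvpjDIAll c → ` the statement of `exit_pins_roadE`.
THIS FILE sits ABOVE the files which prove (R4): `Exit/PinsDI.lean` of 199 (`pvuj_di_raw`, raw form, CITED BELOW; its one open leaf: `exit_pinsDI_m` = (M), shields ⟹ `At` ∧ `PvxPinOf`), `Exit/PinsDG.lean` of 126 (`pvdg_di`), `Exit/PinsDC.lean` of 12.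
So a proof of (M) MAY import `Exit/PinsE.lean` (e.g. through `Tr/ShieldW.lean` of 112) without a cycle.      No mathematics here.
-/

set_option autoImplicit false

namespace Claimed.Agent.R289

open MeasureTheory Filter Topology Set Claims.C0465
open scoped ENNReal

/-- **(R4) (DI), DETERMINISTIC**      [199; 126 184 157 66; 3 150 190; 112 165 80; 98 100; 73 285].      `κ` = how fine the mesh and the near returns have to be, in units of `h`. -/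
theorem exit_pinsE_di {c : ℝ} (c0 : 0 < c) (𝔑 : PvxpNum) (h𝔑 : 𝔑.Wf (10 ^ 6) 4 2) (N : PvxNums) (hN : N.Ok) (n1 : ℕ) (hOK : PvpjNumOK 𝔑 N n1) :
    ∃ κ : ℝ, 0 < κ ∧ κ ≤ 1 ∧ ∀ (x : ℂ) (R : ℝ), 0 < R → ∀ᶠ m in atTop, ∀ μ s : ℝ, 0 < μ → μ ≤ s → s ≤ κ * pvlmH m → PvpjDI 𝔑 N hN c n1 x R m μ s := by
  have h0g : 0 < 𝔑.g := lt_of_lt_of_le (by norm_num) h𝔑.g_ge
  have h1g : 1 < 𝔑.g := lt_of_lt_of_le (by norm_num) h𝔑.g_ge
  have e1 := h𝔑.a_ge 0 h0g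
  have e2 := h𝔑.ab 0 h0g
  have e3 := h𝔑.a_ge 1 h1g
  have e4 := h𝔑.ab 1 h1g
  have e5 := h𝔑.bL 0 h0g
  have hρ0 := hN.rho0
  have hρ1 := hN.rho_lt_one
  have hbig := hN.big_pos
  refine ⟨N.rho / 100, by positivity, by linarith, fun x R hR => ?_⟩
  have hlim : ∀ᶠ m in atTop, 4 * (N.big + 1) * pvlmH m ≤ R := by
    have h1 : Tendsto (fun m => 4 * (N.big + 1) * pvlmH m) atTop (𝓝 (4 * (N.big + 1) * 0)) := pvlm_H_lim.const_mul _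
    rw [mul_zero] at h1
    exact h1.eventually (ge_mem_nhds hR)
  filter_upwards [hlim, eventually_ge_atTop N.m0] with m hm1 hm0 μ s hμ0 hμs hs ω hgood P hP k p hk hkx hkz hF1 hF2 hF4 hgate
  obtain ⟨s', hs', -, hjoin⟩ := pvuj_di_raw (c := c) N hN (n1 := n1) (α1 := 𝔑.a 0) (β1 := 𝔑.b 0) (α2 := 𝔑.a 1) (β2 := 𝔑.b 1) (by rw [hOK.a1]; linarith) (by linarith) (by rw [hOK.b1]) (by rw [hOK.a2]; linarith) (by linarith)
    (by rw [hOK.b2]) (by have := hOK.cnt; omega) hOK.shell hOK.g hR hm0 hμ0 hμs (by linarith) hm1 hgood.1 hP (hgood.2 P hP) hk hkx hkz hF1 hF2 hF4.sep2 (hgate 0 h0g) (hgate 1 h1g)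
  refine ⟨s', hs', fun i hi => (hjoin i hi).trans (mul_le_mul_of_nonneg_right ?_ (pvlm_H_pos m).le)⟩
  rw [hOK.b1]
  linarith

/-- **THE CUT OF `exit_pins_roadE`** (statement of `Exit/Pins.lean` v4, verbatim) -/
theorem pvpj_roadE {c : ℝ} (c0 : 0 < c) (𝔑 : PvxpNum) (h𝔑 : 𝔑.Wf (10 ^ 6) 4 2) (ζ : ℝ≥0∞) (hζ : 0 < ζ) :
    ∃ (N : PvxNums) (hN : N.Ok) (Flag : ℕ → ℤ × ℤ → Set (Conf PvPt)),
      PvxpFlag pvlmH (pvxpW 𝔑) ζ Flag ∧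
      ∀ (x : ℂ) (R : ℝ), 0 < R → ∃ Ex : ℕ → ℝ → Set (PvGeoT × PvColT), PvxpSmall pvhbUp Ex ∧
        ∀ᶠ m in atTop, ∀ ε, ∀ q ∉ Ex m ε, PvxpDIH 𝔑 (pvlmH m) x R (Flag m) (pvxPins (pvxParOf N hN c) x R m) (pvMerge q) :=
  pvpj_roadE_of (fun 𝔑 h𝔑 N hN n1 hOK => exit_pinsE_di c0 𝔑 h𝔑 N hN n1 hOK) 𝔑 h𝔑 ζ hζ

end Claimed.Agent.R289
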