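-- KEEP
import Claimed.Agent.R289.Exit.Pins
import Claimed.Agent.R289.Arm.TopGlue

/-!
# Row 289 (S0537, Cardy for Poisson-Voronoi), THE WALL, Exit/PinsNear : (N) OF THE CUT OF THE PINS = NEAR RETURNS AT A SCALE CHOSEN LEVEL BY LEVEL      (helper239; prefix `pvrn_`)

`exit_pinsE_near` of `Exit/PinsE.lean` (121) := `pvrn_near x R hR cap hcap`   (the set `{q | pvConf (pvMerge q) ∈ pvpjNR x R s S}` is BY DEFINITION the set below: `pvpj_all_eq` is `rfl`).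
PROOF.   At a fixed level `S = h_m ≤ R` the union bound `pvxp_near_union` (12, `Exit/Pins.lean` sec. 2b; ARM: `armt_near`) is `K(R, h_m) s ^ c₁`, `c₁ > 0`: choose `s m ≤ min (cap m) (h_m / 6)` with `K s ^ c₁ ≤ 1 / (m + 1)`.
No sorry.
-/

set_option autoImplicit false

namespace Claimed.Agent.R289

open MeasureTheory Filter Topology Set Claims.C0465
open scoped ENNReal

/-- the bound of `pvxp_near_union` tends to `0` with the small radius, at fixed large radius -/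
theorem pvrn_choose {c₁ : ℝ} (h1 : 0 < c₁) (C R S cap η : ℝ) (hS : 0 < S) (hcap : 0 < cap) (hη : 0 < η) :
    ∃ s : ℝ, 0 < s ∧ s ≤ cap ∧ 6 * s ≤ S ∧ 49 * (3 * R / 2 / s) ^ 2 * (C * (3 * s / (S / 2)) ^ (2 + c₁) * (S / 2 / (R / 2)) ^ c₁) ≤ η := by
  set K : ℝ := 49 * (3 * R / 2) ^ 2 * (C * (6 / S) ^ (2 + c₁) * (S / 2 / (R / 2)) ^ c₁) with hK
  have e : ∀ s : ℝ, 0 < s → 49 * (3 * R / 2 / s) ^ 2 * (C * (3 * s / (S / 2)) ^ (2 + c₁) * (S / 2 / (R / 2)) ^ c₁) = K * s ^ c₁ := by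
    intro s hs
    have e1 : 3 * s / (S / 2) = 6 / S * s := by field_simp; ring
    have e2 : (6 / S * s) ^ (2 + c₁) = (6 / S) ^ (2 + c₁) * (s ^ 2 * s ^ c₁) := by
      rw [Real.mul_rpow (by positivity) hs.le, Real.rpow_add hs, Real.rpow_two]
    rw [e1, e2, hK, div_pow]
    field_simp
  have ht : Tendsto (fun s : ℝ => K * s ^ c₁) (𝓝[>] 0) (𝓝 0) := by
    have h2 : Tendsto (fun s : ℝ => s ^ c₁) (𝓝 0) (𝓝 0) := by
      have := (Real.continuousAt_rpow_const 0 c₁ (Or.inr h1.le)).tendsto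
      rwa [Real.zero_rpow h1.ne'] at this
    have := (h2.mono_left nhdsWithin_le_nhds : Tendsto (fun s : ℝ => s ^ c₁) (𝓝[>] 0) (𝓝 0)).const_mul K
    rwa [mul_zero] at this
  have hm : (0 : ℝ) < min cap (S / 6) := lt_min hcap (by positivity)
  have hI : ∀ᶠ s in 𝓝[>] (0 : ℝ), s ∈ Ioc 0 (min cap (S / 6)) := Ioc_mem_nhdsGT hm
  obtain ⟨s, h3, h4⟩ := ((ht.eventually (ge_mem_nhds hη)).and hI).exists
  have hs : 0 < s := h4.1
  refine ⟨s, hs, h4.2.trans (min_le_left _ _), ?_, ?_⟩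
  · have := h4.2.trans (min_le_right _ _)
    linarith
  · rw [e s hs]
    exact h3

/-- the same with the interface of ARM as a parameter -/
theorem pvrn_near_of {c₁ : ℝ} (h1 : 0 < c₁) (N : PvNearExit c₁) (x : ℂ) (R : ℝ) (hR : 0 < R) (cap : ℕ → ℝ) (hcap : ∀ m, 0 < cap m) :
    ∃ s : ℕ → ℝ, (∀ m, 0 < s m ∧ s m ≤ cap m ∧ 6 * s m ≤ pvlmH m) ∧
      PvxpSmall pvhbUp fun m _ => {q | ∃ P ∈ pvhbAll x R (pvMerge q), ∃ w, ‖w - x‖ ≤ 3 * R ∧ PvbNearRet P w (s m) (pvlmH m)} := by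
  choose s hs0 hscap hs6 hsb using fun m : ℕ =>
    pvrn_choose h1 (max N.C 1) R (pvlmH m) (cap m) (1 / ((m : ℝ) + 1)) (pvlm_H_pos m) (hcap m) (by positivity)
  refine ⟨s, fun m => ⟨hs0 m, hscap m, hs6 m⟩, ?_⟩
  refine PvxpSmall.of_le (pvxp_ord_of_lim tendsto_one_div_add_atTop_nhds_zero_nat) ?_
  filter_upwards [pvlm_H_lim.eventually (ge_mem_nhds hR)] with m hm
  filter_upwards [pvxp_near_union N x hR (hs0 m) (hs6 m) hm] with ε hε
  exact hε.trans (hsb m)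

/-- **(N) NEAR RETURNS AT THE SCALE OF THE MESH**: at every level a radius `s m ≤ cap m` such that, in the ordered limit, no rim of any completion has an `(s m, h_m)` near return centred in `clB(x,3R)` -/
theorem pvrn_near (x : ℂ) (R : ℝ) (hR : 0 < R) (cap : ℕ → ℝ) (hcap : ∀ m, 0 < cap m) :
    ∃ s : ℕ → ℝ, (∀ m, 0 < s m ∧ s m ≤ cap m) ∧
      PvxpSmall pvhbUp fun m _ => {q | ∃ P ∈ pvhbAll x R (pvMerge q), ∃ w, ‖w - x‖ ≤ 3 * R ∧ PvbNearRet P w (s m) (pvlmH m)} := by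
  obtain ⟨c₁, h1, ⟨N⟩⟩ := armt_near
  obtain ⟨s, hs, h⟩ := pvrn_near_of h1 N x R hR cap hcap
  exact ⟨s, fun m => ⟨(hs m).1, (hs m).2.1⟩, h⟩

end Claimed.Agent.R289
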