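-- KEEP
import Claimed.Agent.R289.Exit.TrP
import Claimed.Agent.R289.Exit.Pins
import Claimed.Agent.R289.Tr.Flags
import Claimed.Agent.R289.Tr.FlagP
import Claimed.Agent.R289.Tr.FlagNR

/-!
# Row 289 (S0537), THE WALL, ROAD P, Exit/PinsPG : THE ROOF OF THE PINS OF ROAD P OVER AN ABSTRACT MODEL      (helper36, second pen of `exit_pvrz_pins`; prefix `pvzp_`, `pvzp`, `Pvzp`)

TARGET.   `PvrxPinsOK 𝔓 x R` (79, `Exit/TrP.lean`) for a parameter `𝔓 : PvrxPar τ c` whose model `𝔓.mod : PvspMod τ` is ARBITRARY (185): nothing here knows the menu, the cells, the lanes.      The file survives every port of `Tr/ModP.lean`.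
NO COVARIANCE IS USED: the flags are defined AT THE PLACED CANDIDATES `(l9Pt (h m) p, t)`; all the costs (36 `Tr/FlagP`, `Tr/FlagNR`; 220 `Tr/Flags`) are scale free.
* sec. 0  F2 for centres up to the edge of the patch: `pvzp_det_bulk`, `pvzp_F2_use`, **`pvzp_flag_use`** (`‖z - x‖ + 2 (rw + 2 d) h + 2 R₁ h ≤ 4 R` instead of `.. ≤ 2 R` of `pvnf_flag_use`: the centre of a pin may lie at distance `2 R + h` of `x`).
* sec. 1  ONE PLACED CANDIDATE: `pvzpBad N ε t z h` (the four small propensities of P14 at the events of 185), `pvzpCand : PvfzCand` (220);   **`pvzp_cover`** : `has ∩ L⁺ ∩ L⁻ ∩ QB ⊆ Gq ∪ Bad`;   `pvzp_reg`, `pvzp_loc`, **`pvzp_bad_le`** (`≤ 4 β`), **`pvzp_gam`** (P15: not F3, not F5, STAB ⟹ `Hg` and `γ ≥ 1/2`).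
* sec. 2  THE FLAG `pvzpFl 𝔓 𝔫 m ε p` = F2 (two levels) ∪ ⋃ over the menu (F3 ∪ F5);   `pvzp_fl_reads`, **`pvzp_fl_small`**, `pvzp_fl_use`.
* sec. 3  `PvzpDet 𝔓 𝔫` = WHAT THE MODEL OWES (deterministic): numbers, FIT EXISTS (`pvmh_fit_exists` of 8), STAB (P12 + P11': 97 `Tr/StabInst.lean`, 212, 291);   **`pvzp_di`** = DI-P: an unflagged place of A6 is a qualified pin.
* sec. 4  **`pvzp_pins`** : (X2) of 200 / 281 at the flag + `PvzpDet` + cost of F3 (277) + numbers ⟹ `PvrxPinsOK 𝔓 x R`.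
-/

set_option autoImplicit false
set_option linter.unusedSectionVars false
set_option linter.unusedVariables false

namespace Claimed.Agent.R289

open MeasureTheory Filter Topology Set Metric Claims.C0465
open scoped ENNReal

/-! ## 0. F2 for centres up to the edge of the patch -/

/-- **(DET)** for one bulk family AT THE LOCAL RADIUS `R₁`: the centre only has to satisfy `‖y - x‖ + 2 R₁ ≤ 4 R` -/
theorem pvzp_det_bulk (X : Type) [Fintype X] (𝔅 : PvBulk X) (η : Conf PvPt) (ξ : X → Bool) (x y : ℂ) (s S R₁ R : ℝ) (hy : ‖y - x‖ + 2 * R₁ ≤ 4 * R) (hs : 0 < s) (hsS : s ≤ S) (hSR : S ≤ R₁)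
    (hRR : R₁ ≤ R) (hOk : 𝔅.Ok (cfSites η) (closedBall x (6 * R))) (P : PvbRim) (hP : P ∈ 𝔅.rimsAt (cfSites η) (𝔅.col η ξ) x R) (hret : PvbNearRet P y s S) :
    ArmtNR (cfSites η) (cfCol η) y s S R₁ := by
  obtain ⟨c, hrim, hfar, rfl⟩ := hP
  obtain ⟨k, i, k', hki, hik', hk'n, hk, hk', hi⟩ := hret
  have hR : 0 < R := by linarith
  have hk'n' : k' ≤ c.n := hk'n
  have hk1 : ‖𝔅.posF (cfSites η) (x + 7 * R) ((𝔅.T (cfSites η)).src (c.e k)) - y‖ ≤ s := hk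
  have hk1' : ‖𝔅.posF (cfSites η) (x + 7 * R) ((𝔅.T (cfSites η)).src (c.e k')) - y‖ ≤ s := hk'
  have hi1 : S < ‖𝔅.posF (cfSites η) (x + 7 * R) ((𝔅.T (cfSites η)).src (c.e i)) - y‖ := hi
  have hzi : 3 * R ≤ ‖(x + 7 * R : ℂ) - y‖ := by
    have h1 : (x + 7 * R : ℂ) - y = ((7 * R : ℝ) : ℂ) - (y - x) := by push_cast; ring
    have h2 : ‖((7 * R : ℝ) : ℂ)‖ = 7 * R := by rw [Complex.norm_real, Real.norm_eq_abs, abs_of_pos (by linarith)]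
    have h3 := norm_sub_norm_le ((7 * R : ℝ) : ℂ) (y - x)
    rw [h1]
    linarith
  have hsite : ∀ v, ‖𝔅.posF (cfSites η) (x + 7 * R) v - y‖ ≤ s → ArmtNear (𝔅.labO (cfSites η)) y s v := by
    intro v h1
    rcases hl : 𝔅.lab (cfSites η) v with p | e
    · refine ⟨p, by simp [PvBulk.labO, hl], ?_⟩
      simpa [PvBulk.posF, hl] using h1
    · exfalso
      have : 𝔅.posF (cfSites η) (x + 7 * R) v = x + 7 * R := by simp [PvBulk.posF, hl]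
      rw [this] at h1
      linarith
  have hpos : ∀ v p, 𝔅.labO (cfSites η) v = some p → 𝔅.posF (cfSites η) (x + 7 * R) v = p := by
    intro v p h
    have hl : 𝔅.lab (cfSites η) v = Sum.inl p := by
      simpa [PvBulk.labO, Sum.getLeft?_eq_some_iff] using h
    simp [PvBulk.posF, hl]
  have h0far : 2 * R₁ ≤ ‖𝔅.posF (cfSites η) (x + 7 * R) ((𝔅.T (cfSites η)).src (c.e 0)) - y‖ := by
    have h1 := norm_sub_le_norm_sub_add_norm_sub (𝔅.posF (cfSites η) (x + 7 * R) ((𝔅.T (cfSites η)).src (c.e 0))) y x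
    linarith
  have hn0 : c.e c.n = c.e 0 := by simpa using c.per 0
  have hk0 : 0 < k := by
    rcases Nat.eq_zero_or_pos k with h | h
    · subst h; linarith
    · exact h
  have hk'lt : k' < c.n := by
    rcases Nat.lt_or_ge k' c.n with h | h
    · exact h
    · have : k' = c.n := le_antisymm hk'n' h
      rw [this, hn0] at hk1'
      linarith
  refine ⟨𝔅.V (cfSites η), 𝔅.D (cfSites η), 𝔅.T (cfSites η), 𝔅.labO (cfSites η), 𝔅.col η ξ, ?_, ?_, ?_⟩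
  · refine armt_loc_mono (armt_loc_bulk 𝔅 hOk) ?_
    intro w hw
    rw [mem_closedBall, dist_eq_norm] at hw ⊢
    have := norm_sub_le_norm_sub_add_norm_sub w y x
    linarith
  · intro v p h
    have hl : 𝔅.lab (cfSites η) v = Sum.inl p := by
      simpa [PvBulk.labO, Sum.getLeft?_eq_some_iff] using h
    simp [PvBulk.col, hl]
  · refine ⟨c, hrim, k, i, k', c.n, hki, hik', hk'lt, by omega, hsite _ hk1, hsite _ hk1', ?_, ?_⟩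
    · intro p hp
      rw [hpos _ p hp] at hi1
      exact hi1.le
    · intro p hp
      rw [hn0] at hp
      rw [hpos _ p hp] at h0far
      exact h0far

/-- (DET) for all the completions -/
theorem pvzp_det {x y : ℂ} {s S R₁ R : ℝ} {ω : PVSample} {P : PvbRim} (hP : P ∈ pvhbAll x R ω) (hy : ‖y - x‖ + 2 * R₁ ≤ 4 * R) (hs : 0 < s) (hsS : s ≤ S) (hSR : S ≤ R₁) (hRR : R₁ ≤ R)
    (hret : PvbNearRet P y s S) (ρ : ℝ) : pvConf ω ∈ pvnfTest y s S R₁ ρ := by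
  obtain ⟨X, _, 𝔅, ξ, -, hOk, hP'⟩ := hP
  exact Or.inr (pvzp_det_bulk X 𝔅 (pvConf ω) ξ x y s S R₁ R hy hs hsS hSR hRR hOk P hP' hret)

theorem pvzp_F2_use {x z : ℂ} {rw d e R₁ R ρ : ℝ} {ω : PVSample} {P : PvbRim} (hP : P ∈ pvhbAll x R ω) (hd : 0 < d) (hrw : 0 ≤ rw) (hde : 6 * d ≤ e) (heR : e / 2 - d ≤ R₁) (hRR : R₁ ≤ R)
    (hz : ‖z - x‖ + 2 * (rw + 2 * d) + 2 * R₁ ≤ 4 * R) (hno : pvConf ω ∉ pvnfF2 z rw d e R₁ ρ) : PvtpNR P z rw d e := by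
  refine pvtp_nr_of_not hd.le (by linarith) fun w hw hret => hno ?_
  obtain ⟨y, hy, hyw⟩ := pvnf_grid_cover hd hw
  have h1 : PvbNearRet P y (2 * d) (e / 2 - d) := by
    have := pvnf_shift hret hyw
    rwa [show d + d = 2 * d by ring] at this
  have hyx : ‖y - x‖ + 2 * R₁ ≤ 4 * R := by
    have h2 := pvtp_tri y z x
    have h3 := pvnf_grid_near hd hrw hy
    linarith
  exact mem_iUnion₂.2 ⟨y, hy, pvzp_det hP hyx (by linarith) (by linarith) heR hRR h1 ρ⟩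

/-- **USE OF F2**, units of `h m`, centres up to the edge of the patch -/
theorem pvzp_flag_use {h μ : ℕ → ℝ} {rw d e R₁ R : ℝ} {x : ℂ} {m : ℕ} {p : ℤ × ℤ} {ω : PVSample} {P : PvbRim} (hP : P ∈ pvhbAll x R ω) (hh : 0 < h m) (hd : 0 < d) (hrw : 0 ≤ rw)
    (hde : 6 * d ≤ e) (heR : e / 2 - d ≤ R₁) (hRR : R₁ * h m ≤ R) (hz : ‖l9Pt (h m) p - x‖ + (2 * (rw + 2 * d) + 2 * R₁) * h m ≤ 4 * R) (hno : pvConf ω ∉ pvnfFlag h μ rw d e R₁ m p) :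
    PvtpNR P (l9Pt (h m) p) (rw * h m) (d * h m) (e * h m) :=
  pvzp_F2_use hP (mul_pos hd hh) (mul_nonneg hrw hh.le) (by nlinarith) (by nlinarith) hRR (by nlinarith) hno

/-! ## 1. one placed candidate -/

section cand

variable {N : PvspNum} {t : PvspTy} {z : ℂ} {h : ℝ}

/-- **`Bad` OF P14 AT THE EVENTS OF 185**: `L^±` holds with annealed propensity `< β`, or `L^{±,w}` holds with quenched propensity `< β` -/
noncomputable def pvzpBad (N : PvspNum) (ε : ℝ) (t : PvspTy) (z : ℂ) (h : ℝ) : Set (Conf PvPt) :=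
  pvfxBad (pvP ε) (pvspO N t z h ×ˢ univ) (t.Mp \ pvspO N t z h) (t.Mm \ pvspO N t z h) (!t.col) (pvspLp N t z h) (pvspLm N t z h) (pvspEvt N t z h .pw) (pvspEvt N t z h .mw) N.β

/-- the candidate in the vocabulary of 220 -/
noncomputable def pvzpCand (N : PvspNum) (ε : ℝ) (t : PvspTy) (z : ℂ) (h : ℝ) : PvfzCand := ⟨pvspJ t, !t.col, pvspLane N t h, pvzpBad N ε t z h⟩

theorem pvzp_eqns_cite : True := by
  have := @pvzpBad.eq_1; have := @pvzpCand.eq_1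
  trivial

theorem pvzp_prop_eq (ε : ℝ) (O : Set ℂ) (𝒜 : Set (Conf PvPt)) (ξ : Conf PvPt) : pvspProp ε O 𝒜 ξ = pvfxProp (pvP ε) (O ×ˢ univ) 𝒜 ξ := rfl

/-- **`has ∩ L⁺ ∩ L⁻ ∩ QB ⊆ Gq ∪ Bad`** -/
theorem pvzp_cover (N : PvspNum) (ε : ℝ) (t : PvspTy) (z : ℂ) (h : ℝ) {QB : Set (Conf PvPt)} {ζ : Conf PvPt} (h0 : ζ ∈ pvspEvt N t z h .has) (hp : ζ ∈ pvspLp N t z h) (hm : ζ ∈ pvspLm N t z h)
    (hq : ζ ∈ QB) (hn : ζ ∉ pvspGq N QB ε t z h) : ζ ∈ pvzpBad N ε t z h := by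
  by_contra hb
  unfold pvzpBad pvfxBad pvfxSmA pvfxSmQ at hb
  simp only [mem_union, mem_inter_iff, mem_ofPred_eq, not_or, not_and, not_lt] at hb
  obtain ⟨⟨⟨b1, b2⟩, b3⟩, b4⟩ := hb
  exact hn ⟨⟨h0, b1 hp, b2 hm⟩, b3 hp.2, b4 hm.2, hq⟩

theorem pvzp_O_meas (N : PvspNum) (t : PvspTy) (z : ℂ) (h : ℝ) : MeasurableSet (pvspO N t z h) := measurableSet_closedBall

theorem pvzp_smA_meas (ε : ℝ) {O : Set PvPt} (hO : MeasurableSet O) {L : Set (Conf PvPt)} (hL : MeasurableSet L) (β : ℝ) : MeasurableSet (pvfxSmA (pvP ε) O L β) :=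
  hL.inter (pvfxProp_meas hO hL measurableSet_Iio)

/-- the candidate is regular -/
theorem pvzp_reg (hW : t.Wf N z h) (ε : ℝ) : (pvzpCand N ε t z h).Reg where
  Sm := pvsp_J_meas hW
  Sb := pvsp_J_bdd hW
  inc := pvsp_lane_inc N t h
  A := PvpMs.of_set (pvsp_lane_meas hW)
  Bad := by
    have hO : MeasurableSet (pvspO N t z h ×ˢ (univ : Set Bool)) := (pvzp_O_meas N t z h).prod MeasurableSet.univ
    have hb : ∀ {S : Set ℂ}, S ⊆ pvspJ t → Bornology.IsBounded (S \ pvspO N t z h) := fun hS => (pvsp_J_bdd hW).subset (sdiff_subset.trans hS)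
    exact pvfx_ms_union (pvfx_ms_union (pvfx_ms_union (PvpMs.of_set (measurable_pvConf (pvzp_smA_meas ε hO (pvsp_Lp_meas hW) N.β)))
      (PvpMs.of_set (measurable_pvConf (pvzp_smA_meas ε hO (pvsp_Lm_meas hW) N.β))))
      (pvfx_smQ_ms (hW.mMp.diff (pvzp_O_meas N t z h)) (hb subset_union_right) _ (PvpMs.of_set (measurable_pvConf (pvsp_evt_meas hW .pw))) N.β))
      (pvfx_smQ_ms (hW.mMm.diff (pvzp_O_meas N t z h)) (hb subset_union_left) _ (PvpMs.of_set (measurable_pvConf (pvsp_evt_meas hW .mw))) N.β)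

/-- **`P(Bad) ≤ 4 β`**, at every scale, every centre, every type -/
theorem pvzp_bad_le (hW : t.Wf N z h) (ε : ℝ) : pvP ε (pvzpBad N ε t z h) ≤ 4 * ENNReal.ofReal N.β := by
  have hb : ∀ {S : Set ℂ}, S ⊆ pvspJ t → Bornology.IsBounded (S \ pvspO N t z h) := fun hS => (pvsp_J_bdd hW).subset (sdiff_subset.trans hS)
  exact pvfx_bad_le ε ((pvzp_O_meas N t z h).prod MeasurableSet.univ) (pvsp_Lp_meas hW).nullMeasurableSet (pvsp_Lm_meas hW).nullMeasurableSet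
    (hW.mMp.diff (pvzp_O_meas N t z h)) (hb subset_union_right) (hW.mMm.diff (pvzp_O_meas N t z h)) (hb subset_union_left) _
    (PvpMs.of_set (measurable_pvConf (pvsp_evt_meas hW .pw))) (PvpMs.of_set (measurable_pvConf (pvsp_evt_meas hW .mw))) N.β

/-- the candidate is local: everything is read in any window which contains the three windows of 185 -/
theorem pvzp_loc (hW : t.Wf N z h) (ε : ℝ) {W : Set PvPt} (hp : Prod.fst ⁻¹' t.Ep ⊆ W) (hm : Prod.fst ⁻¹' t.Em ⊆ W) (hJ : Prod.fst ⁻¹' t.EJ ⊆ W) : (pvzpCand N ε t z h).Loc W where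
  strip := (preimage_mono hW.J_sub).trans hJ
  A := (pvsp_lane_reads N t h).mono (by rw [prod_univ]; exact hJ)
  Bad := by
    have hp' : t.Ep ×ˢ (univ : Set Bool) ⊆ W := by rw [prod_univ]; exact hp
    have hm' : t.Em ×ˢ (univ : Set Bool) ⊆ W := by rw [prod_univ]; exact hm
    exact pvfx_bad_reads (pvP ε) ((prod_mono hW.O_p Subset.rfl).trans hp') ((preimage_mono (sdiff_subset.trans hW.Mp_sub)).trans hp) ((preimage_mono (sdiff_subset.trans hW.Mm_sub)).trans hm)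
      ((pvsp_Lp_reads hW).mono hp') ((pvsp_Lm_reads hW).mono hm') ((pvsp_evt_reads hW .pw).mono hp') ((pvsp_evt_reads hW .mw).mono hm') _ N.β

/-- **P15, the probabilistic step at the events of 185**: not F3, not F5, and every move of the support of the preparation lands in `has ∩ L⁺ ∩ L⁻ ∩ QB` (STAB)  ⟹  `Hg` and `γ ≥ 1/2` -/
theorem pvzp_gam (N : PvspNum) (ε : ℝ) (t : PvspTy) (z : ℂ) (h : ℝ) (hp : 0 < N.pst) {QB : Set (Conf PvPt)} {ξ : Conf PvPt} (h3 : ξ ∉ (pvzpCand N ε t z h).F3 N.pst) (h5 : ξ ∉ (pvzpCand N ε t z h).F5)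
    (hst : ∀ B', cfStripOn (pvspJ t) (!t.col) ξ ⊆ B' → B' ⊆ cfStrip (pvspJ t) ξ → cfPaint (pvspJ t) (!t.col) B' ξ ∈ pvspLane N t h →
      cfPaint (pvspJ t) (!t.col) B' ξ ∈ pvspEvt N t z h .has ∩ pvspLp N t z h ∩ pvspLm N t z h ∩ QB) :
    ξ ∈ pvspHg N t h ∧ 1 / 2 ≤ (pvspK N t h).gam (pvspGq N QB ε t z h) ξ :=
  pvfz_use_K (κ := pvzpCand N ε t z h) (pvsp_lane_inc N t h) hp h3 h5 fun B' a1 a2 a3 a4 => by
    obtain ⟨⟨⟨b0, b1⟩, b2⟩, b3⟩ := hst B' a1 a2 a3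
    exact pvzp_cover N ε t z h b0 b1 b2 b3 a4

end cand

/-! ## 2. the flag of road P at the placed candidates -/

/-- the numbers of the flags and of (DI-P), in units of `h` -/
structure PvzpNum where
  /-- the window of FIT -/
  rw : ℝ
  /-- the two levels of no near return -/
  d0 : ℝ
  e0 : ℝ
  d1 : ℝ
  e1 : ℝ
  /-- the local radius of the near return tests -/
  R1 : ℝ
  /-- the mesh of (DI-P) -/
  μf : ℝ
  /-- all that belongs to a pin lies in `clB(z, K h)`;   (DI-P) is used at the levels with `K h ≤ R` -/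
  K : ℝ

/-- **F2**: the two levels of near return tests -/
def pvzpF2 (𝔫 : PvzpNum) (m : ℕ) (p : ℤ × ℤ) : Set (Conf PvPt) :=
  pvnfFlag pvlmH (fun m => 𝔫.μf * pvlmH m) 𝔫.rw 𝔫.d0 𝔫.e0 𝔫.R1 m p ∪ pvnfFlag pvlmH (fun m => 𝔫.μf * pvlmH m) 𝔫.rw 𝔫.d1 𝔫.e1 𝔫.R1 m p

section flag

variable {τ : Type} [Fintype τ] {c : ℝ}

/-- the candidate `(l9Pt (h m) p, t)` -/
noncomputable def pvzpK (𝔓 : PvrxPar τ c) (m : ℕ) (ε : ℝ) (p : ℤ × ℤ) (t : τ) : PvfzCand :=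
  pvzpCand 𝔓.mod.N ε (𝔓.ty m (l9Pt (pvlmH m) p) t) (l9Pt (pvlmH m) p) (pvlmH m)

/-- **THE FLAG OF ROAD P** at the centre `l9Pt (h m) p`: F2, or F3 or F5 for one of the types of the menu -/
noncomputable def pvzpFl (𝔓 : PvrxPar τ c) (𝔫 : PvzpNum) (m : ℕ) (ε : ℝ) (p : ℤ × ℤ) : Set (Conf PvPt) :=
  pvfzBlock Finset.univ (pvzpK 𝔓 m ε p) 𝔓.mod.N.pst (pvzpF2 𝔫 m p)

theorem pvzp_eqns_cite2 : True := by
  have := @pvzpF2.eq_1; have := @pvzpK.eq_1; have := @pvzpFl.eq_1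
  trivial

variable {𝔓 : PvrxPar τ c} {𝔫 : PvzpNum}

/-- a ball round a grid centre lies in the window of its block -/
theorem pvzp_ball_win {h : ℝ} (hh : 0 < h) (p : ℤ × ℤ) {ρ : ℝ} {w : ℕ} (hρ : ρ ≤ w * h) : Prod.fst ⁻¹' closedBall (l9Pt h p) ρ ⊆ pvtdWin h w p := by
  have h2 : pv5Dist (pv5Blk h (l9Pt h p)) p ≤ ((0 : ℕ) : ℤ) := by
    rw [pvnf_l9Pt, pvtd_blk_ctr hh, pv5_dist_self]
    simp
  have h3 := pvtd_ball_sub_win hh (a := w) (b := 0) h2 hρ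
  rwa [add_zero, prod_univ] at h3

/-- field `reads` -/
theorem pvzp_fl_reads (hW : 𝔓.Wf) {w : ℕ} (hμ0 : 0 < 𝔫.μf) (hμ1 : 𝔫.μf ≤ 1) (hrw : 0 ≤ 𝔫.rw) (hd0 : 0 < 𝔫.d0) (hd1 : 0 < 𝔫.d1) (hR0 : 𝔫.d0 ≤ 2 * 𝔫.R1) (hR1 : 𝔫.d1 ≤ 2 * 𝔫.R1)
    (hw0 : 2 * (𝔫.rw + 2 * 𝔫.d0) + 4 * 𝔫.R1 + 5 ≤ w) (hw1 : 2 * (𝔫.rw + 2 * 𝔫.d1) + 4 * 𝔫.R1 + 5 ≤ w) (hwL : 𝔓.Lr ≤ w) (m : ℕ) (ε : ℝ) (p : ℤ × ℤ) :
    Conf.ReadsSet (pvtdWin (pvlmH m) w p) (pvzpFl 𝔓 𝔫 m ε p) := by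
  have hμ : ∀ m, 0 < 𝔫.μf * pvlmH m ∧ 𝔫.μf * pvlmH m ≤ pvlmH m := fun m => ⟨mul_pos hμ0 (pvlm_H_pos m), by have := pvlm_H_pos m; nlinarith⟩
  have hsub : Prod.fst ⁻¹' closedBall (l9Pt (pvlmH m) p) (𝔓.Lr * pvlmH m) ⊆ pvtdWin (pvlmH m) w p :=
    pvzp_ball_win (pvlm_H_pos m) p (mul_le_mul_of_nonneg_right hwL (pvlm_H_pos m).le)
  refine pvfz_block_reads ((pvnf_flag_reads pvlm_H_pos hμ hd0 hrw hR0 hw0 m p).union (pvnf_flag_reads pvlm_H_pos hμ hd1 hrw hR1 hw1 m p)) (fun t _ => ?_) _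
  exact pvzp_loc (hW.ty_wf m _ t) ε ((preimage_mono (hW.Ep_sub m _ t)).trans hsub) ((preimage_mono (hW.Em_sub m _ t)).trans hsub) ((preimage_mono (hW.EJ_sub m _ t)).trans hsub)

/-- **field `small`**, one centre: F2 costs `ζ₂`, F3 costs `ζ₃` per type, F5 costs `8 β / p_*` per type -/
theorem pvzp_fl_small (hW : 𝔓.Wf) {m : ℕ} {ε : ℝ} {p : ℤ × ℤ} {ζ₂ ζ₃ ζ : ℝ≥0∞} (h2 : pvP ε (pvzpF2 𝔫 m p) ≤ ζ₂) (h3 : ∀ t, pvP ε ((pvzpK 𝔓 m ε p t).F3 𝔓.mod.N.pst) ≤ ζ₃)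
    (hnum : ζ₂ + Fintype.card τ * (ζ₃ + 2 * ((ENNReal.ofReal 𝔓.mod.N.pst)⁻¹ * (4 * ENNReal.ofReal 𝔓.mod.N.β))) ≤ ζ) : pvP ε (pvzpFl 𝔓 𝔫 m ε p) ≤ ζ := by
  refine (pvfz_block_cost (pvfz_br ε) Finset.univ (fun t _ => pvzp_reg (hW.ty_wf m _ t) ε) hW.pst0 _).trans (le_trans ?_ hnum)
  refine add_le_add h2 ?_
  refine (Finset.sum_le_card_nsmul Finset.univ _ (ζ₃ + 2 * ((ENNReal.ofReal 𝔓.mod.N.pst)⁻¹ * (4 * ENNReal.ofReal 𝔓.mod.N.β))) fun t _ => ?_).trans (le_of_eq ?_)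
  · refine add_le_add (h3 t) (mul_le_mul_right (mul_le_mul_right ?_ _) _)
    exact (measure_mono inter_subset_right).trans (pvzp_bad_le (hW.ty_wf m _ t) ε)
  · rw [nsmul_eq_mul, Finset.card_univ]

/-- **USE** -/
theorem pvzp_fl_use {m : ℕ} {ε : ℝ} {p : ℤ × ℤ} {ξ : Conf PvPt} (h : ξ ∉ pvzpFl 𝔓 𝔫 m ε p) :
    ξ ∉ pvnfFlag pvlmH (fun m => 𝔫.μf * pvlmH m) 𝔫.rw 𝔫.d0 𝔫.e0 𝔫.R1 m p ∧ ξ ∉ pvnfFlag pvlmH (fun m => 𝔫.μf * pvlmH m) 𝔫.rw 𝔫.d1 𝔫.e1 𝔫.R1 m p ∧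
      ∀ t, ξ ∉ (pvzpK 𝔓 m ε p t).F3 𝔓.mod.N.pst ∧ ξ ∉ (pvzpK 𝔓 m ε p t).F5 := by
  obtain ⟨h0, h1⟩ := pvfz_block_use h
  exact ⟨fun a => h0 (Or.inl a), fun a => h0 (Or.inr a), fun t => h1 t (Finset.mem_univ t)⟩

end flag

/-! ## 3. what the model owes;  (DI-P) -/

/-- **WHAT THE MODEL OWES TO THE PINS OF ROAD P** (all deterministic).      `fit` = `pvmh_fit_exists` of 8 (P15, deterministic half; the TRAP is the passage number `2`);   `stab` = P12 + P11' (97 `Tr/StabInst.lean`, 212, 291 202). -/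
structure PvzpDet {τ : Type} {c : ℝ} (𝔓 : PvrxPar τ c) (𝔫 : PvzpNum) : Prop where
  μf0 : 0 < 𝔫.μf
  μf_le : 𝔫.μf ≤ 𝔓.mod.N.mu
  mu1 : 𝔓.mod.N.mu ≤ 1
  rw0 : 0 ≤ 𝔫.rw
  d00 : 0 < 𝔫.d0
  de0 : 6 * 𝔫.d0 ≤ 𝔫.e0
  eR0 : 𝔫.e0 / 2 - 𝔫.d0 ≤ 𝔫.R1
  d10 : 0 < 𝔫.d1
  de1 : 6 * 𝔫.d1 ≤ 𝔫.e1
  eR1 : 𝔫.e1 / 2 - 𝔫.d1 ≤ 𝔫.R1
  /-- the third gate gives the TRAP of the menu -/
  a3 : ∀ t, 𝔓.𝔐.a3 t ≤ 𝔓.mod.N.a 2
  L : 𝔓.mod.N.b 2 + 𝔓.mod.N.mu ≤ 𝔓.𝔐.L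
  /-- everything lies in `clB(z, K h)` -/
  K_Lr : 𝔓.Lr + 1 ≤ 𝔫.K
  K_b : 𝔓.mod.N.b 2 + 3 ≤ 𝔫.K
  K_rw : 𝔫.rw + 1 ≤ 𝔫.K
  K_0 : 2 * (𝔫.rw + 2 * 𝔫.d0) + 2 * 𝔫.R1 + 1 ≤ 2 * 𝔫.K
  K_1 : 2 * (𝔫.rw + 2 * 𝔫.d1) + 2 * 𝔫.R1 + 1 ≤ 2 * 𝔫.K
  K_R : 𝔫.R1 ≤ 𝔫.K
  /-- **FIT EXISTS** -/
  fit : ∀ h : ℝ, 0 < h → ∀ (P : PvbRim) (k : ℕ) (z : ℂ) (col : Bool) (lo hi : Fin 3 → ℕ),
    PvdaPass P z (𝔓.mod.N.mu * h) k (fun j => 𝔓.mod.N.a j * h) (fun j => 𝔓.mod.N.b j * h) lo hi → ‖P.v k - z‖ ≤ h →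
    𝔫.rw * h ≤ ‖P.v 0 - z‖ → 𝔫.rw * h ≤ ‖P.v P.len - z‖ →
    (∀ i < P.len, (‖P.v i - z‖ ≤ 𝔫.rw * h ∨ ‖P.v (i + 1) - z‖ ≤ 𝔫.rw * h) → ‖P.v (i + 1) - P.v i‖ ≤ 𝔓.mod.N.mu * h) →
    PvtpNR P z (𝔫.rw * h) (𝔫.d0 * h) (𝔫.e0 * h) → PvtpNR P z (𝔫.rw * h) (𝔫.d1 * h) (𝔫.e1 * h) →
    ∃ t : τ, (𝔓.mod.ty h z t).col = col ∧ 𝔓.mod.Fit h P k z t
  /-- **STAB**: the rim fits the candidate `(z,t)` inside the patch;  then after EVERY move of the support of the preparation the state exists and the two side events hold -/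
  stab : ∀ m : ℕ, 𝔓.m0 ≤ m → ∀ (x : ℂ) (R : ℝ), 0 < R → ∀ ω : PVSample, DelgpOk ω → L9Fine (cfSites (pvConf ω)) (closedBall x (6 * R)) (𝔫.μf * pvlmH m) →
    ∀ P ∈ pvhbAll x R ω, ∀ (k : ℕ) (z : ℂ) (t : τ), ‖z - x‖ + 𝔫.K * pvlmH m ≤ 3 * R + pvlmH m → k < P.len → ‖P.v k - z‖ ≤ pvlmH m → cfCol (pvConf ω) (P.v k) = (𝔓.ty m z t).col →
    (∀ j : Fin 3, PvdaGate (cfSites (pvConf ω)) (cfCol (pvConf ω)) (𝔓.ty m z t).col z (𝔓.mod.N.a j * pvlmH m) ((𝔓.mod.N.b j - 2 * 𝔓.mod.N.mu) * pvlmH m)) →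
    (∃ lo hi : Fin 3 → ℕ, PvdaPass P z (𝔓.mod.N.mu * pvlmH m) k (fun j => 𝔓.mod.N.a j * pvlmH m) (fun j => 𝔓.mod.N.b j * pvlmH m) lo hi) → 𝔓.mod.Fit (pvlmH m) P k z t →
    ∀ B' : Finset ℂ, cfStripOn (pvspJ (𝔓.ty m z t)) (!(𝔓.ty m z t).col) (pvConf ω) ⊆ B' → B' ⊆ cfStrip (pvspJ (𝔓.ty m z t)) (pvConf ω) →
      cfPaint (pvspJ (𝔓.ty m z t)) (!(𝔓.ty m z t).col) B' (pvConf ω) ∈ pvspLane 𝔓.mod.N (𝔓.ty m z t) (pvlmH m) →
      cfPaint (pvspJ (𝔓.ty m z t)) (!(𝔓.ty m z t).col) B' (pvConf ω) ∈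
        pvspEvt 𝔓.mod.N (𝔓.ty m z t) z (pvlmH m) .has ∩ pvspLp 𝔓.mod.N (𝔓.ty m z t) z (pvlmH m) ∩ pvspLm 𝔓.mod.N (𝔓.ty m z t) z (pvlmH m) ∩ 𝔓.mod.QB (pvlmH m) z

section di

variable {τ : Type} [Fintype τ] [Nonempty τ] {c : ℝ} {𝔓 : PvrxPar τ c} {𝔫 : PvzpNum}

/-- **(TRAP-P) + (GRID)**: a pin of road P is a pin of S6b on the grid (deterministic, all samples) -/
theorem pvzp_trap (hD : PvzpDet 𝔓 𝔫) {x : ℂ} {R : ℝ} {m : ℕ} {ε : ℝ} {ω : PVSample} {P : PvbRim} {s : PvbPin τ} (hs : s ∈ 𝔓.pins x R m ε ω P) :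
    PvbIsPin 𝔓.𝔐 (pvlmH m) P s ∧ ∃ p : ℤ × ℤ, s.ctr = l9Pt (pvlmH m) p := by
  obtain ⟨-, -, hg, hq⟩ := hs
  obtain ⟨lo, hi, H⟩ := hq.pass
  have hh := pvlm_H_pos m
  exact ⟨H.isPin 𝔓.𝔐 2 s.typ hq.near (mul_le_mul_of_nonneg_right (hD.a3 s.typ) hh.le) (by have := hD.L; nlinarith), hg⟩

/-- the passages are monotone in the outer radii -/
theorem PvdaPass.pvzp_mono {P : PvbRim} {z : ℂ} {μ : ℝ} {k g : ℕ} {a b b' : Fin g → ℝ} {lo hi : Fin g → ℕ} (H : PvdaPass P z μ k a b lo hi) (hb : ∀ j, b j ≤ b' j) : PvdaPass P z μ k a b' lo hi :=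
  ⟨H.lo_pos, H.lo_lt, H.lt_hi, H.hi_lt, H.visit, fun j i h1 h2 => (H.diam j i h1 h2).trans (by have := hb j; linarith), H.order⟩

/-- **P8**: three gates of the plane in the fixed annuli `[a h, (b - 2μ) h]` are passed in order -/
theorem pvzp_pass {N : PvspNum} {h : ℝ} (hh : 0 < h) (hmu0 : 0 < N.mu) (hmu1 : N.mu ≤ 1) (ha0 : 30 ≤ N.a 0) (hab : ∀ k, N.a k ≤ N.b k - 2 * N.mu) (hn01 : 100 * (N.b 0 + 1) ≤ N.a 1)
    (hn12 : 100 * (N.b 1 + 1) ≤ N.a 2) {x z : ℂ} {R : ℝ} (hR : 0 < R) {ω : PVSample} (hF : L9Fine (cfSites (pvConf ω)) (closedBall x (6 * R)) (N.mu * h)) {P : PvbRim} (hP : P ∈ pvhbAll x R ω)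
    {k : ℕ} (hk : k < P.len) (hkx : ‖P.v k - x‖ ≤ 2 * R) (hnear : ‖P.v k - z‖ ≤ h) (hzx : ‖z - x‖ + (N.b 2 + 1) * h < 4 * R)
    (hg : ∀ j : Fin 3, PvdaGate (cfSites (pvConf ω)) (cfCol (pvConf ω)) (cfCol (pvConf ω) (P.v k)) z (N.a j * h) ((N.b j - 2 * N.mu) * h)) :
    ∃ lo hi : Fin 3 → ℕ, PvdaPass P z (N.mu * h) k (fun j => N.a j * h) (fun j => N.b j * h) lo hi := by
  have hab0 := hab 0
  have hab1 := hab 1
  have hab2 := hab 2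
  obtain ⟨hgood, -, -, -⟩ := hg 0
  have hg' : ∀ j : Fin 3, ∃ (G : Set (delPl hgood).Dart) (X : Finset ↥(cfSites (pvConf ω))), PvgGate (delPl hgood).toMap (fun v => cfCol (pvConf ω) v) (cfCol (pvConf ω) (P.v k))
      (pvdiB (delPl hgood).toMap Subtype.val z (N.a j * h)) (pvdiB (delPl hgood).toMap Subtype.val z ((N.b j - 2 * N.mu) * h)) G X := fun j => by
    obtain ⟨_, G, X, hg⟩ := hg j
    exact ⟨G, X, hg⟩
  choose G X hGX using hg'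
  have hale : ∀ j : Fin 3, 1 ≤ N.a j := fun j => by fin_cases j <;> simp <;> linarith
  have hble : ∀ j : Fin 3, N.b j ≤ N.b 2 := fun j => by fin_cases j <;> simp <;> linarith
  have hord : ∀ j j' : Fin 3, j < j' → (N.b j - 2 * N.mu) * h + N.mu * h ≤ N.a j' * h := by
    intro j j' hjj
    have key : (N.b j - 2 * N.mu) + N.mu ≤ N.a j' := by
      fin_cases j <;> fin_cases j' <;> simp at hjj ⊢ <;> linarith
    calc (N.b j - 2 * N.mu) * h + N.mu * h = ((N.b j - 2 * N.mu) + N.mu) * h := by ring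
      _ ≤ N.a j' * h := mul_le_mul_of_nonneg_right key hh.le
  obtain ⟨lo, hi, hpass, -⟩ := pvda_gates hR (mul_pos hmu0 hh).le hF (show P ∈ l9All x R ω from hP) hk (by linarith) (a := fun j => N.a j * h) (b := fun j => (N.b j - 2 * N.mu) * h)
    (fun j => mul_le_mul_of_nonneg_right (hab j) hh.le) hord
    (fun j => by
      have h1 : (N.b j - 2 * N.mu) * h + N.mu * h ≤ (N.b 2 + 1) * h := by
        rw [← add_mul]
        exact mul_le_mul_of_nonneg_right (by have := hble j; linarith) hh.le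
      show ‖z - x‖ + (N.b j - 2 * N.mu) * h + N.mu * h < 4 * R
      linarith)
    (fun j => hnear.trans (by have := mul_le_mul_of_nonneg_right (hale j) hh.le; linarith)) hgood hGX
  exact ⟨lo, hi, hpass.pvzp_mono fun j => mul_le_mul_of_nonneg_right (by linarith) hh.le⟩

/-- **(DI-P)**: an unflagged place of A6 (three gates of the plane in the fixed annuli, the rim within `h` of the grid centre) is a QUALIFIED PIN, with the same index and the same centre -/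
theorem pvzp_di (hW : 𝔓.Wf) (hD : PvzpDet 𝔓 𝔫) {a b : ℕ → ℝ} (hab : ∀ k : Fin 3, 𝔓.mod.N.a k = a k ∧ 𝔓.mod.N.b k - 2 * 𝔓.mod.N.mu = b k) {x : ℂ} {R : ℝ} (hR : 0 < R) {m : ℕ} (hm0 : 𝔓.m0 ≤ m)
    (hK : 𝔫.K * pvlmH m ≤ R) {ε : ℝ} {ω : PVSample} (hOk : DelgpOk ω) (hF : L9Fine (cfSites (pvConf ω)) (closedBall x (6 * R)) (𝔫.μf * pvlmH m)) {P : PvbRim} (hP : P ∈ pvhbAll x R ω)
    {k : ℕ} {p : ℤ × ℤ} (hnear : ‖P.v k - l9Pt (pvlmH m) p‖ ≤ pvlmH m)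
    (hgate : ∀ j < 3, PvdaGate (cfSites (pvConf ω)) (cfCol (pvConf ω)) (cfCol (pvConf ω) (P.v k)) (l9Pt (pvlmH m) p) (a j * pvlmH m) (b j * pvlmH m))
    (hfl : pvConf ω ∉ pvzpFl 𝔓 𝔫 m ε p) (hk : k ≤ P.len) (hkx : ‖P.v k - x‖ ≤ 2 * R) (hblk : cfCol (pvConf ω) (P.v k) = true) :
    ∃ t : τ, (⟨k, l9Pt (pvlmH m) p, t⟩ : PvbPin τ) ∈ 𝔓.pins x R m ε ω P := by
  have hh : 0 < pvlmH m := pvlm_H_pos m
  have W0 := hW.ty_wf m (l9Pt (pvlmH m) p) (Classical.arbitrary τ)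
  have hmu0 := W0.mu0
  have hmu1 := hD.mu1
  have hμf0 := hD.μf0
  have hμfle := hD.μf_le
  have hrw0 := hD.rw0
  have hc : ∀ c', c' ≤ 𝔫.K → c' * pvlmH m ≤ R := fun c' hc' => (mul_le_mul_of_nonneg_right hc' hh.le).trans hK
  have hhR : pvlmH m ≤ R := by have := hc 1 (by have := hD.K_rw; linarith); linarith
  have hμh : 𝔫.μf * pvlmH m ≤ 𝔓.mod.N.mu * pvlmH m := mul_le_mul_of_nonneg_right hμfle hh.le
  have hμR : 𝔫.μf * pvlmH m ≤ R := by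
    have := mul_le_mul_of_nonneg_right (hμfle.trans hmu1) hh.le
    linarith
  obtain ⟨hclosed, hfar0, hmesh⟩ := pvxp_all_mesh hR hμR hF hP
  have hk' : k < P.len := by
    rcases Nat.lt_or_ge k P.len with h1 | h1
    · exact h1
    · have e : k = P.len := le_antisymm hk h1
      rw [e, hclosed] at hkx
      linarith
  have hzx : ‖l9Pt (pvlmH m) p - x‖ ≤ 2 * R + pvlmH m := by
    have h1 := pvtp_tri (l9Pt (pvlmH m) p) (P.v k) x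
    rw [norm_sub_rev (l9Pt (pvlmH m) p) (P.v k)] at h1
    linarith
  -- the gates, the passages
  have hg3 : ∀ j : Fin 3, PvdaGate (cfSites (pvConf ω)) (cfCol (pvConf ω)) (cfCol (pvConf ω) (P.v k)) (l9Pt (pvlmH m) p) (𝔓.mod.N.a j * pvlmH m) ((𝔓.mod.N.b j - 2 * 𝔓.mod.N.mu) * pvlmH m) := fun j => by
    rw [(hab j).1, (hab j).2]
    exact hgate j j.2
  have hb3 : (𝔓.mod.N.b 2 + 1) * pvlmH m + 2 * pvlmH m ≤ R := by
    have := hc _ hD.K_b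
    linarith [this, show (𝔓.mod.N.b 2 + 3) * pvlmH m = (𝔓.mod.N.b 2 + 1) * pvlmH m + 2 * pvlmH m by ring]
  obtain ⟨lo, hi, hpass⟩ := pvzp_pass hh hmu0 hmu1 W0.a_pos W0.ab W0.nest01 W0.nest12 hR (pvxp_fine_mono hF hμh) hP hk' hkx hnear (by linarith) hg3
  -- no near returns
  obtain ⟨hf0, hf1, hf35⟩ := pvzp_fl_use hfl
  have hR1 : 𝔫.R1 * pvlmH m ≤ R := hc _ hD.K_R
  have hK0 : (2 * (𝔫.rw + 2 * 𝔫.d0) + 2 * 𝔫.R1) * pvlmH m + pvlmH m ≤ 2 * R := by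
    have h1 := mul_le_mul_of_nonneg_right hD.K_0 hh.le
    linarith [h1, show (2 * (𝔫.rw + 2 * 𝔫.d0) + 2 * 𝔫.R1 + 1) * pvlmH m = (2 * (𝔫.rw + 2 * 𝔫.d0) + 2 * 𝔫.R1) * pvlmH m + pvlmH m by ring, show 2 * 𝔫.K * pvlmH m = 2 * (𝔫.K * pvlmH m) by ring]
  have hK1 : (2 * (𝔫.rw + 2 * 𝔫.d1) + 2 * 𝔫.R1) * pvlmH m + pvlmH m ≤ 2 * R := by
    have h1 := mul_le_mul_of_nonneg_right hD.K_1 hh.le
    linarith [h1, show (2 * (𝔫.rw + 2 * 𝔫.d1) + 2 * 𝔫.R1 + 1) * pvlmH m = (2 * (𝔫.rw + 2 * 𝔫.d1) + 2 * 𝔫.R1) * pvlmH m + pvlmH m by ring, show 2 * 𝔫.K * pvlmH m = 2 * (𝔫.K * pvlmH m) by ring]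
  have nr0 : PvtpNR P (l9Pt (pvlmH m) p) (𝔫.rw * pvlmH m) (𝔫.d0 * pvlmH m) (𝔫.e0 * pvlmH m) :=
    pvzp_flag_use (h := pvlmH) hP hh hD.d00 hrw0 hD.de0 hD.eR0 hR1 (by linarith) hf0
  have nr1 : PvtpNR P (l9Pt (pvlmH m) p) (𝔫.rw * pvlmH m) (𝔫.d1 * pvlmH m) (𝔫.e1 * pvlmH m) :=
    pvzp_flag_use (h := pvlmH) hP hh hD.d10 hrw0 hD.de1 hD.eR1 hR1 (by linarith) hf1
  -- the fit
  have hrwR : 𝔫.rw * pvlmH m + pvlmH m ≤ R := by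
    have := hc _ hD.K_rw
    linarith [this, show (𝔫.rw + 1) * pvlmH m = 𝔫.rw * pvlmH m + pvlmH m by ring]
  have hend0 : 𝔫.rw * pvlmH m ≤ ‖P.v 0 - l9Pt (pvlmH m) p‖ := by
    have h1 := pvtp_tri (P.v 0) (l9Pt (pvlmH m) p) x
    linarith
  have hx5 : ∀ i, ‖P.v i - l9Pt (pvlmH m) p‖ ≤ 𝔫.rw * pvlmH m → ‖P.v i - x‖ ≤ 5 * R := fun i hi' => by
    have h1 := pvtp_tri (P.v i) (l9Pt (pvlmH m) p) x
    linarith
  obtain ⟨t, hcol, hfit⟩ := hD.fit (pvlmH m) hh P k (l9Pt (pvlmH m) p) (cfCol (pvConf ω) (P.v k)) lo hi hpass hnear hend0 (by rw [hclosed]; exact hend0)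
    (fun i hi' hor => (hmesh i hi' (hor.imp (hx5 i) (hx5 (i + 1)))).trans hμh) nr0 nr1
  have hg3t : ∀ j : Fin 3, PvdaGate (cfSites (pvConf ω)) (cfCol (pvConf ω)) (𝔓.ty m (l9Pt (pvlmH m) p) t).col (l9Pt (pvlmH m) p) (𝔓.mod.N.a j * pvlmH m) ((𝔓.mod.N.b j - 2 * 𝔓.mod.N.mu) * pvlmH m) := fun j => by
    have e : (𝔓.ty m (l9Pt (pvlmH m) p) t).col = cfCol (pvConf ω) (P.v k) := hcol
    rw [e]
    exact hg3 j
  have hst := hD.stab m hm0 x R hR ω hOk hF P hP k (l9Pt (pvlmH m) p) t (by linarith) hk' hnear hcol.symm hg3t ⟨lo, hi, hpass⟩ hfit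
  obtain ⟨hHg, hgam⟩ := pvzp_gam 𝔓.mod.N ε (𝔓.ty m (l9Pt (pvlmH m) p) t) (l9Pt (pvlmH m) p) (pvlmH m) hW.pst0 (QB := 𝔓.mod.QB (pvlmH m) (l9Pt (pvlmH m) p)) (hf35 t).1 (hf35 t).2 hst
  have hLr : 𝔓.Lr * pvlmH m + pvlmH m ≤ R := by
    have := hc _ hD.K_Lr
    linarith [this, show (𝔓.Lr + 1) * pvlmH m = 𝔓.Lr * pvlmH m + pvlmH m by ring]
  exact ⟨t, ⟨hm0, hcol.trans hblk⟩, by show ‖l9Pt (pvlmH m) p - x‖ + 𝔓.Lr * pvlmH m ≤ 3 * R; linarith, ⟨p, rfl⟩, ⟨hOk, hk', hnear, hcol.symm, hg3t, ⟨lo, hi, hpass⟩, hfit, hHg, hgam⟩⟩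

/-! ## 4. the roof -/

/-- the samples which are not in general position are negligible -/
theorem pvzp_ok_small : PvxpSmall pvhbUp fun _ _ => {q : PvGeoT × PvColT | ¬ DelgpOk (pvMerge q)} := by
  intro η hη
  refine Eventually.of_forall fun m => Eventually.of_forall fun ε => ?_
  have h0 : (pvhbUp ε).P {q : PvGeoT × PvColT | ¬ DelgpOk (pvMerge q)} = 0 := pvru_ok ε
  show ((pvhbUp ε).P {q : PvGeoT × PvColT | ¬ DelgpOk (pvMerge q)}).toReal ≤ η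
  rw [h0]
  simpa using hη.le

/-- **THE ROOF OF THE PINS OF ROAD P OVER AN ABSTRACT MODEL**:   (X2) = A6 of 281 / 200 at the flag `pvzpFl`  +  what the model owes  ⟹  `PvrxPinsOK` -/
theorem pvzp_pins (hW : 𝔓.Wf) (hD : PvzpDet 𝔓 𝔫) {a b : ℕ → ℝ} (hab : ∀ k : Fin 3, 𝔓.mod.N.a k = a k ∧ 𝔓.mod.N.b k - 2 * 𝔓.mod.N.mu = b k) {x : ℂ} {R : ℝ} (hR : 0 < R)
    (hX2 : PvX2 3 a b pvlmH (pvlmR c) (pvzpFl 𝔓 𝔫) x R) : PvrxPinsOK 𝔓 x R := by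
  have hfine := pvxp_fine x hR (fun m => 𝔫.μf * pvlmH m) fun m => mul_pos hD.μf0 (pvlm_H_pos m)
  have hX2' : PvxpSmall pvhbUp fun m ε => {q | ¬ ∀ P ∈ pvhbAll x R (pvMerge q), PvtdDense x R (pvlmR c m) P (pvx2PlF 3 a b (pvlmH m) (pvzpFl 𝔓 𝔫 m ε) (pvMerge q) P)} := hX2
  have hKl : Tendsto (fun m => 𝔫.K * pvlmH m) atTop (𝓝 0) := by simpa using pvlm_H_lim.const_mul 𝔫.K
  refine PvxpSmall.mono_ev ((hX2'.union hfine).union pvzp_ok_small) ?_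
  filter_upwards [eventually_ge_atTop 𝔓.m0, hKl.eventually (ge_mem_nhds hR)] with m hm0 hK
  refine Eventually.of_forall fun ε q hq => ?_
  by_contra hcon
  simp only [mem_union, mem_ofPred_eq, not_or, not_not] at hcon
  obtain ⟨⟨hdense, hF⟩, hOk⟩ := hcon
  refine hq fun P hP => ⟨fun s hs => pvzp_trap hD hs, fun i i' hii hi' hin hfar => ?_⟩
  obtain ⟨s₀, ⟨⟨hctr, hnear, hgate⟩, hfl⟩, h1, h2⟩ := hdense P hP.1 i i' hii hi' hin hfar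
  obtain ⟨t, ht⟩ := pvzp_di hW hD hab hR hm0 hK hOk hF hP.1 hnear hgate hfl (h2.trans hi') (hin _ h1 h2) (pvdb_blk_col hP (by have := hin _ h1 h2; linarith))
  exact ⟨_, ht, h1, h2⟩

end di

end Claimed.Agent.R289
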