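-- KEEP
import Claimed.Agent.R289.Exit.PinsPG
import Claimed.Agent.R289.Exit.ParP
import Claimed.Agent.R289.Tr.StripP

/-!
# Row 289 (S0537), THE WALL, ROAD P, Exit/PinsPN : THE COSTS OF THE FLAG OF ROAD P AT THE MODEL `pvmhMod 𝔤 QB` = kit of `exit_pinsP_num` (`Exit/PinsP.lean` of 8)      (helper17; prefix `pvn8_`; 0 sorry)

MISFIT WHICH THIS FILE GOES ROUND: the bridge `PvszIs` of 277 (`Tr/StripP.lean` sec. 5) asks `t.EJ = closedBall z r`; the window of the lane of the model of 8 is a UNION OF CELLS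
`EJ = pvmgPl z (dl h) (pvtwN 1 (pvtCells (dl h) (pvlpS ..)))`.      So `pvsz_cost` does not apply at `𝔤.ty`; the cost of F3 is taken directly from `pvmw_F3_sub` / `pvsz_Q_spec` (any window `E ⊇ pvmwE δ L`).
* sec. 1  `pvn8_E0_sub` : the squares of half side `2 δ / 5` round the fine cells of the corridor lie in the cells next to the cells of the strip (`pvszE0 δ τ ln ⊆ U (N₁ (cells of the strip))`).
* sec. 2  `pvn8_ctr` (`l9Pt h p` is a vector of the fine grid `dl h / 5`, `k₀ = 5 nd`), `pvn8_F3_sub`, **`pvn8_F3_cost`** : `pvP ε (F3 at p_* = pvszP 𝔤.NN) ≤ θ`, uniform in the centre, the type, the scale `dl h ≥ 5 U ε`.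
* sec. 3  **`pvn8_block`** : `p_* = pvszP 𝔤.NN`, `8 β card ≤ z p_*`  ⟹  `pvP ε (pvfzBlock univ (candidates of the model) p_* F0) ≤ pvP ε F0 + 2 z`   (Reg, `Bad ≤ 4 β`: `pvzp_reg`, `pvzp_bad_le` of 36; `pvzpCand = pvxqCand` by `rfl`).
* sec. 4  **`pvn8_F2`** : one level of F2 in the form which `pvnp_choose` of 186 eats (eventually as `d ↓ 0`: `6 d ≤ e` and cost `≤ ζ` at every level `m`, eventually in `ε`, all centres).
-/

set_option autoImplicit false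
set_option linter.unusedVariables false
set_option linter.unusedSectionVars false

namespace Claimed.Agent.R289

open MeasureTheory Filter Topology Set Metric Claims.C0465
open scoped ENNReal

/-! ## 1. the window of the lane of the model contains the window of the quenched lane lemma -/

theorem pvn8_floor {δ : ℝ} (hδ : 0 < δ) (t : ℝ) : ((⌊t / δ⌋ : ℤ) : ℝ) * δ ≤ t ∧ t ≤ (((⌊t / δ⌋ : ℤ) : ℝ) + 1) * δ := by
  have h1 := Int.floor_le (t / δ)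
  have h2 := (Int.lt_floor_add_one (t / δ)).le
  rw [le_div_iff₀ hδ] at h1
  rw [div_le_iff₀ hδ] at h2
  exact ⟨h1, h2⟩

theorem pvn8_floor_near {δ : ℝ} (hδ : 0 < δ) {s t : ℝ} (h : s ≤ t + δ) : ⌊s / δ⌋ ≤ ⌊t / δ⌋ + 1 := by
  rw [← Int.floor_add_one]
  refine Int.floor_le_floor ?_
  rw [div_add_one hδ.ne']
  exact div_le_div_of_nonneg_right h hδ.le

/-- the squares of half side `2 δ / 5` round the fine cells of the corridor lie in the cells next to the cells of the strip -/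
theorem pvn8_E0_sub {δ : ℝ} (hδ : 0 < δ) (τ : PvmnType) (ln : ((ℤ × ℤ) × (ℤ × ℤ)) × ℕ) : pvszE0 δ τ ln ⊆ pvtU δ (pvtwN 1 (pvtCells δ (pvlpS δ τ ln))) := by
  intro p hp
  simp only [pvszE0, mem_iUnion, exists_prop] at hp
  obtain ⟨i, hi, hp1, hp2⟩ := hp
  set c := pvtCtr (δ / 5) (pvlpC τ ln i) with hc
  have hcS : c ∈ pvlpS δ τ ln := mem_biUnion hi ⟨by rw [sub_self, abs_zero]; positivity, by rw [sub_self, abs_zero]; positivity⟩
  rw [abs_le] at hp1 hp2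
  have hk : (⌊c.re / δ⌋, ⌊c.im / δ⌋) ∈ pvtCells δ (pvlpS δ τ ln) :=
    ⟨c, ⟨(pvn8_floor hδ c.re).1, (pvn8_floor hδ c.re).2, (pvn8_floor hδ c.im).1, (pvn8_floor hδ c.im).2⟩, hcS⟩
  refine mem_biUnion (x := (⌊p.re / δ⌋, ⌊p.im / δ⌋)) ⟨_, hk, ?_, ?_, ?_, ?_⟩ ⟨(pvn8_floor hδ p.re).1, (pvn8_floor hδ p.re).2, (pvn8_floor hδ p.im).1, (pvn8_floor hδ p.im).2⟩
  · exact pvn8_floor_near hδ (by linarith)
  · exact pvn8_floor_near hδ (by linarith)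
  · exact pvn8_floor_near hδ (by linarith)
  · exact pvn8_floor_near hδ (by linarith)

/-! ## 2. the cost of F3 at the model -/

section F3

variable {𝔤 : PvmhNum} (H : 𝔤.OK)

include H

/-- a grid centre is a vector of the fine grid -/
theorem pvn8_ctr (h : ℝ) (p : ℤ × ℤ) : l9Pt h p = pvmgPt (𝔤.dl * h / 5) (pvszO (5 * 𝔤.nd) p) := by
  refine pvsz_l9 ?_ p
  have hn : (0 : ℝ) < 𝔤.nd := by exact_mod_cast H.nd0
  rw [H.dl_eq]
  push_cast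
  field_simp

/-- **F3 does not occur at a good geometry of the corridor** -/
theorem pvn8_F3_sub {h : ℝ} (hh : 0 < h) (p : ℤ × ℤ) (s : PvmhT 𝔤) (ε P : ℝ) :
    pvConf ⁻¹' (pvzpCand 𝔤.sp ε (𝔤.ty h (l9Pt h p) s) (l9Pt h p) h).F3 P ⊆
      {ω | pvGeoOf ω ∈ {g | ¬ PvmwGood P (𝔤.dl * h / 5) (!s.typ.col) (pvszL s.typ s.ln (pvszO (5 * 𝔤.nd) p)) g}} := by
  have hδ : 0 < 𝔤.dl * h := mul_pos H.dl0 hh
  have hz := pvn8_ctr H h p
  set o := pvszO (5 * 𝔤.nd) p with ho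
  have hJ : pvspJ (𝔤.ty h (l9Pt h p) s) = pvszS (𝔤.dl * h) (l9Pt h p) s.typ s.ln := (pvsz_S_union _ 𝔤.nK _ _ _).symm
  refine pvmw_F3_sub (ρ := 𝔤.mu * h) (E := (𝔤.ty h (l9Pt h p) s).EJ) (S := pvspJ (𝔤.ty h (l9Pt h p) s)) (A := (𝔤.ty h (l9Pt h p) s).Dm) (B := (𝔤.ty h (l9Pt h p) s).Dp)
    (by positivity) (pvsz_L_ne s.typ s.ln o) (pvsz_L_chain s.isType s.isLane o) ?_ ?_ ?_ ?_
    (k := pvlpC s.typ s.ln 0 + o) (k' := pvlpC s.typ s.ln (pvlpN s.typ s.ln) + o) (pvsz_mem_L.2 ⟨0, Nat.zero_le _, rfl⟩) (pvsz_mem_L.2 ⟨_, le_rfl, rfl⟩) ?_ ?_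
  · rw [H.mu_eq]
    exact le_of_eq (by ring)
  · rw [pvsz_E, ← hz]
    exact pvsz_tr_mono (pvn8_E0_sub hδ _ _)
  · rw [hJ]
    exact pvsz_S_bdd _ _ _ _
  · rw [pvsz_W, ← hz, hJ]
    exact Subset.rfl
  · rw [pvsz_W_one, ← hz]
    exact subset_union_right
  · rw [pvsz_W_one, ← hz]
    exact subset_union_right

/-- **COST OF F3 AT THE MODEL**: uniform in the centre, in the type, in the scale `dl h ≥ 5 U ε` -/
theorem pvn8_F3_cost {θ : ℝ} (hθ : 0 < θ) : ∃ U : ℝ, 1 ≤ U ∧ ∀ ε : ℝ, 0 < ε → ∀ h : ℝ, 0 < h → U * ε ≤ 𝔤.dl * h / 5 → ∀ (p : ℤ × ℤ) (s : PvmhT 𝔤),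
    pvP ε ((pvzpCand 𝔤.sp ε (𝔤.ty h (l9Pt h p) s) (l9Pt h p) h).F3 (pvszP 𝔤.NN)) ≤ ENNReal.ofReal θ := by
  obtain ⟨U, hU1, HU⟩ := pvsz_Q_spec (pvszLen 𝔤.NN) hθ
  refine ⟨U, hU1, fun ε hε h hh hU p s => ?_⟩
  rw [(pvfz_br ε).eq (pvfz_F3_ms (pvzp_reg (pvmh_wf H (l9Pt h p) s hh) ε) _)]
  exact ((measure_mono (pvn8_F3_sub H hh p s ε _)).trans (pvax_geo_le ε _)).trans
    (HU ε hε _ hU _ _ (pvsz_L_ne _ _ _) (pvsz_L_chain s.isType s.isLane _) (pvsz_L_len s.isType s.isLane _))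

end F3

/-! ## 3. the block at the model: F3 and F5 over the menu -/

/-- **COST OF THE FLAG AT THE MODEL, F3 AND F5**: `p_* = pvszP 𝔤.NN`, `8 β card ≤ z p_*`  ⟹  the menu costs `≤ 2 z`, uniformly in the centre and in the scale `dl h ≥ 5 U ε`; `F0` arbitrary -/
theorem pvn8_block {𝔤 : PvmhNum} (H : 𝔤.OK) (hpst : 𝔤.pst = pvszP 𝔤.NN) {z : ℝ} (hz : 0 < z) (hβ : 8 * 𝔤.β * Fintype.card (PvmhT 𝔤) ≤ z * 𝔤.pst) :
    ∃ U : ℝ, 1 ≤ U ∧ ∀ ε : ℝ, 0 < ε → ∀ h : ℝ, 0 < h → U * ε ≤ 𝔤.dl * h / 5 → ∀ (p : ℤ × ℤ) (F0 : Set (Conf PvPt)),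
      pvP ε (pvfzBlock Finset.univ (fun s : PvmhT 𝔤 => pvzpCand 𝔤.sp ε (𝔤.ty h (l9Pt h p) s) (l9Pt h p) h) 𝔤.pst F0) ≤ pvP ε F0 + ENNReal.ofReal (2 * z) := by
  have hp0 : 0 < 𝔤.pst := hpst ▸ pvsz_P_pos 𝔤.NN
  set n : ℕ := Fintype.card (PvmhT 𝔤) with hn
  have hn1 : (0 : ℝ) < (n : ℝ) + 1 := by positivity
  obtain ⟨U, hU1, HU⟩ := pvn8_F3_cost H (θ := z / (n + 1)) (by positivity)
  refine ⟨U, hU1, fun ε hε h hh hU p F0 => ?_⟩
  refine (pvfz_block_cost (pvfz_br ε) Finset.univ (fun s _ => pvzp_reg (pvmh_wf H (l9Pt h p) s hh) ε) hp0 F0).trans (add_le_add le_rfl ?_)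
  refine (Finset.sum_le_card_nsmul Finset.univ _ (ENNReal.ofReal (z / (n + 1)) + ENNReal.ofReal (8 * 𝔤.β / 𝔤.pst)) fun s _ => add_le_add ?_ ?_).trans ?_
  · rw [hpst]
    exact HU ε hε h hh hU p s
  · calc 2 * ((ENNReal.ofReal 𝔤.pst)⁻¹ * pvP ε ((pvzpCand 𝔤.sp ε (𝔤.ty h (l9Pt h p) s) (l9Pt h p) h).A ∩ (pvzpCand 𝔤.sp ε (𝔤.ty h (l9Pt h p) s) (l9Pt h p) h).Bad))
        ≤ 2 * ((ENNReal.ofReal 𝔤.pst)⁻¹ * (4 * ENNReal.ofReal 𝔤.β)) := by
          gcongr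
          exact (measure_mono inter_subset_right).trans (pvzp_bad_le (pvmh_wf H (l9Pt h p) s hh) ε)
      _ = ENNReal.ofReal (8 * 𝔤.β / 𝔤.pst) := by
          rw [ENNReal.ofReal_div_of_pos hp0, ENNReal.ofReal_mul (by norm_num), div_eq_mul_inv]
          have : ENNReal.ofReal 8 = 8 := by simp
          rw [this]
          ring_nf
  · rw [nsmul_eq_mul, Finset.card_univ, ← hn]
    by_cases hβ0 : 0 ≤ 𝔤.β
    · rw [← ENNReal.ofReal_add (by positivity) (by positivity), ← ENNReal.ofReal_natCast, ← ENNReal.ofReal_mul (by positivity)]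
      refine ENNReal.ofReal_le_ofReal ?_
      have h1 : (n : ℝ) * (z / (n + 1)) ≤ z := by
        rw [mul_div_assoc', div_le_iff₀ hn1]
        nlinarith
      have h2 : (n : ℝ) * (8 * 𝔤.β / 𝔤.pst) ≤ z := by
        rw [mul_div_assoc', div_le_iff₀ hp0]
        linarith
      linarith
    · have e0 : ENNReal.ofReal (8 * 𝔤.β / 𝔤.pst) = 0 := ENNReal.ofReal_of_nonpos (div_nonpos_of_nonpos_of_nonneg (by linarith) hp0.le)
      rw [e0, add_zero, ← ENNReal.ofReal_natCast, ← ENNReal.ofReal_mul (by positivity)]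
      refine ENNReal.ofReal_le_ofReal ?_
      have h1 : (n : ℝ) * (z / (n + 1)) ≤ z := by
        rw [mul_div_assoc', div_le_iff₀ hn1]
        nlinarith
      linarith

/-! ## 4. the numbers of F2 -/

/-- **F2, ONE LEVEL**: at fixed window `rw` and outer scale `e` the flag costs `≤ ζ` for all small `d`, at every level `m`, eventually in `ε`, uniformly in the centre -/
theorem pvn8_F2 {rw e ζ : ℝ} (hrw : 0 < rw) (he : 0 < e) (hζ : 0 < ζ) : ∀ᶠ d in 𝓝[>] (0 : ℝ), 6 * d ≤ e ∧ ∀ (h μ : ℕ → ℝ), (∀ m, 0 < h m) → (∀ m, 0 < μ m) → ∀ R₁, e / 2 - d ≤ R₁ →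
    ∀ m, ∀ᶠ ε in 𝓝[>] (0 : ℝ), ∀ p, pvP ε (pvnfFlag h μ rw d e R₁ m p) ≤ ENNReal.ofReal ζ := by
  obtain ⟨c, C, M₀, hc, hC, hM, hmain⟩ := pvnf_flag_small
  have hsm : ∀ᶠ d in 𝓝 (0 : ℝ), d < min (e / 6) (e / (2 * (2 * M₀ + 1))) := gt_mem_nhds (lt_min (by positivity) (by positivity))
  filter_upwards [pvnf_num hc hC hrw he (half_pos hζ), nhdsWithin_le_nhds hsm, self_mem_nhdsWithin] with d a1 a2 a3
  have hd : 0 < d := a3
  have h6 : d ≤ e / 6 := (a2.trans_le (min_le_left _ _)).le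
  have hM' : d * (2 * (2 * M₀ + 1)) ≤ e := by
    have := (a2.trans_le (min_le_right _ _)).le
    rwa [le_div_iff₀ (by positivity)] at this
  refine ⟨by linarith, fun h μ hh hμ R₁ hR m => ?_⟩
  have hcard : (0 : ℝ) < pvnfCard rw d := by
    unfold pvnfCard
    positivity
  filter_upwards [hmain h μ rw d e R₁ (ζ / (2 * pvnfCard rw d)) hh hμ hd (by linarith) hR (by positivity) m] with ε hε p
  refine (hε p).trans (ENNReal.ofReal_le_ofReal ?_)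
  have h1 := a1 R₁ hR
  have h2 : (pvnfCard rw d : ℝ) * (ζ / (2 * pvnfCard rw d)) = ζ / 2 := by field_simp
  rw [mul_add, h2]
  linarith

end Claimed.Agent.R289
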