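-- KEEP
import Claimed.Agent.R289.Tr.StabInst
import Claimed.Agent.R289.Tr.ModP
import Claimed.Agent.R289.Tr.LanePB

/-!
# Row 289, road P: the instance of STAB at the model of road P, part B (helper76; split with helper97, prefix `pvsjb_`)

* `pvsjb_run`: EXACT FIT of a candidate `(z, s)` at the vertex `k` of an encoded rim gives the run `PvsjRun` of `Tr/StabInst` through the placed regions of `Tr/ModP`
  (`em = tt 1`, `ep = tt 9`: the marks at which the SHORT tubes of the model end).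
* `pvsjb_doors`: the four doors of a placed type lie outside the second gate annulus.
-/

set_option autoImplicit false

namespace Claimed.Agent.R289

open Set Metric Claims.C0467 Claimed.Agent.R291

section run

variable {𝔤 : PvmhNum} (H : 𝔤.OK) {h R : ℝ} {x z : ℂ} {P : PvbRim} {k : ℕ} {s : PvmhT 𝔤}

include H

/-- **(RUN)** the run of the encoded rim through the candidate which fits at the vertex `k` -/
theorem pvsjb_run (hh : 0 < h) (hhR : (𝔤.Lr + 2) * h ≤ R) (hkx : ‖P.v k - x‖ ≤ 2 * R) (hfit : 𝔤.Fit h P k z s) :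
    ∃ em ep, PvsjRun ((𝔤.ty h z s).reg 𝔤.sp z h) x z R h (𝔤.mu * h) (𝔤.a 0 * h - h) P.v P.len em k ep := by
  obtain ⟨-, tt, h5, I, hfit⟩ := hfit
  have N := pvmh_num H hh
  have hδ : 0 < 𝔤.dl * h := N.δ_pos
  have C := I.cuts N
  have hm := I.marks 5 (by norm_num) le_rfl
  have e10 : tt (5 + 5) = tt 10 := rfl
  have e0 : tt (5 - 5) = tt 0 := rfl
  rw [e10, e0, h5] at hm
  have hm4 := I.marks 4 (by norm_num) (by norm_num)
  have e9 : tt (5 + 4) = tt 9 := rfl
  have e1 : tt (5 - 4) = tt 1 := rfl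
  rw [e9, e1, h5] at hm4
  have m01 : tt 0 ≤ tt 1 := hfit.mono 0
  have m910 : tt 9 ≤ tt 10 := hfit.mono 9
  have hnear := I.near
  rw [h5] at hnear
  have hb3 : 0 < 𝔤.b3 * h := N.b_pos
  have hLr : 𝔤.Lr = 20 * 𝔤.b3 := rfl
  refine ⟨tt 1, tt 9, hm4.mm_le, hm4.le_mp, ?_, hnear, fun i hi1 hi2 => ?_, fun i hi1 hi2 => ?_, Or.inl ⟨?_, ?_⟩, Or.inl ⟨?_, ?_⟩, fun i hi1 hi2 => ?_, ?_⟩
  · -- the cut vertex is outside the window
    have h0 : tt 0 ≠ 0 := by
      intro h0
      have h1 := I.dn_rad N 5 (by norm_num) le_rfl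
      rw [e0, h0] at h1
      have h2 := I.end0
      have h3 := N.e1_lt; have h4 := N.hh_nn; have h6 := N.e0_pos; have h7 := N.e0_le; have h8 := N.d1_le
      push_cast at h1
      nlinarith
    have := hm.mp_le
    omega
  · have h1 := pvmh_vertex_cells hδ hfit (a := 5) (b := 9) (by norm_num) (by norm_num) (k := i) (by rw [h5]; exact hi1) hi2
    exact pvmg_near (k := 2) hδ h1 (by simp; positivity)
  · have h1 := pvmh_vertex_cells hδ hfit (a := 1) (b := 5) (by norm_num) (by norm_num) (k := i) hi1 (by rw [h5]; exact hi2)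
    exact pvmg_near (k := 2) hδ h1 (by simp; positivity)
  · have h1 := pvmh_vertex_cells hδ hfit (a := 9) (b := 10) (by norm_num) le_rfl (k := tt 9) le_rfl (hfit.mono 9)
    refine pvmg_mono ?_ h1
    rintro c ⟨j, j1, j2, j3⟩
    have e : j = 9 := Fin.ext (by show j.1 = 9; omega)
    rw [e] at j3
    exact pvtw_N_sub j3
  · have h1 := pvmh_vertex_cells hδ hfit (a := 5) (b := 9) (by norm_num) (by norm_num) (k := tt 9) (by rw [h5]; exact hm4.le_mp) le_rfl
    exact pvmg_mono pvtw_N_sub h1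
  · have h1 := pvmh_vertex_cells hδ hfit (a := 0) (b := 1) (by norm_num) (by norm_num) (k := tt 1) (hfit.mono 0) le_rfl
    refine pvmg_mono ?_ h1
    rintro c ⟨j, j1, j2, j3⟩
    have e : j = 0 := Fin.ext (by show j.1 = 0; omega)
    rw [e] at j3
    exact pvtw_N_sub j3
  · have h1 := pvmh_vertex_cells hδ hfit (a := 1) (b := 5) (by norm_num) (by norm_num) (k := tt 1) le_rfl (by rw [h5]; exact hm4.mm_le)
    exact pvmg_mono pvtw_N_sub h1
  · have h1 := C.win i (m01.trans hi1) (hi2.trans m910)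
    have h2 := pvtp_tri (P.v i) z x
    have h3 := pvtp_tri z (P.v k) x
    rw [norm_sub_rev z (P.v k)] at h3
    rw [hLr] at hhR
    nlinarith
  · rintro ⟨a, i, b, q1, q2, q3, q4, q5, q6⟩
    have h1 := I.nr1 a b (by omega) ((q4.trans m910).trans C.le_len) (Or.inl (C.win a (m01.trans q1) (by omega))) (by
      rw [norm_sub_rev]
      refine q5.trans ?_
      have := N.μ_le; have := N.d0_ge; have := N.d0_le_d1
      linarith) i a q2.le q3.le le_rfl (by omega)
    have h2 := H.a_pos; have h3 := H.e1_le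
    nlinarith

end run

section doors

variable {𝔤 : PvmhNum} (H : 𝔤.OK) {h : ℝ} {z : ℂ} {s : PvmhT 𝔤}

include H

/-- a placed point of the 9-collar of a piece which is not central lies outside the ball part of the obstacle -/
theorem pvsjb_off (hh : 0 < h) (j : Fin 10) (h4 : j.1 ≠ 4) (h5 : j.1 ≠ 5) {p : ℂ} (hp : p ∈ pvmgPl z (𝔤.dl * h) (pvtwN 9 (s.typ.C j : Set (ℤ × ℤ)))) :
    (𝔤.b 1 + 𝔤.mu) * h < ‖p - z‖ := by
  obtain ⟨h0, h1, h2, h3, -, -⟩ := pvmh_basic H
  have hδ : 0 < 𝔤.dl * h := mul_pos h0 hh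
  have hd : Disjoint (pvtwN 1 (pvtwN 9 (s.typ.C j : Set (ℤ × ℤ)))) (pvmnBl 𝔤.NN.rB) := by
    rw [pvtw_N_add]
    exact s.isType.ball j h4 h5
  have hB : 𝔤.dl * h * 𝔤.NN.rB = (2 * 𝔤.b 1 + 2) * h := by
    show 𝔤.dl * h * ((2 * 𝔤.b 1 + 2) / 𝔤.dl) = _
    field_simp
  have hfar : 𝔤.dl * h * 𝔤.NN.rB < ‖p - z‖ := by
    by_contra hc
    have hq : p ∈ pvmgPl z (𝔤.dl * h) (pvmnBl 𝔤.NN.rB) := pvmg_ball_sub hδ (by rw [mem_closedBall_iff_norm]; exact not_lt.1 hc)
    have := pvmg_far hδ hd hp hq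
    rw [sub_self, norm_zero] at this
    push_cast at this
    linarith
  rw [hB] at hfar
  have hmu : 𝔤.mu ≤ 1 := by have := H.mu_le; linarith
  nlinarith

/-- **(DOORS)** the doors of a placed type lie outside the second gate annulus -/
theorem pvsjb_doors (hh : 0 < h) : (∀ p ∈ (𝔤.ty h z s).Dp, (𝔤.b 1 + 𝔤.mu) * h < ‖p - z‖) ∧ ∀ p ∈ (𝔤.ty h z s).Dm, (𝔤.b 1 + 𝔤.mu) * h < ‖p - z‖ := by
  have hδ : 0 < 𝔤.dl * h := mul_pos H.dl0 hh
  constructor
  · rintro p (⟨hp, -⟩ | ⟨q, hq, rfl⟩)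
    · exact pvsjb_off H hh 9 (by decide) (by decide) (pvmg_mono (pvtw_N_mono (by norm_num) le_rfl) hp)
    · exact pvsjb_off H hh 9 (by decide) (by decide) ⟨q, pvlb_DB s.isType s.isLane hδ hq, rfl⟩
  · rintro p (⟨hp, -⟩ | ⟨q, hq, rfl⟩)
    · exact pvsjb_off H hh 0 (by decide) (by decide) (pvmg_mono (pvtw_N_mono (by norm_num) le_rfl) hp)
    · exact pvsjb_off H hh 0 (by decide) (by decide) ⟨q, pvlb_DA s.isType s.isLane hδ hq, rfl⟩

end doors

end Claimed.Agent.R289
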