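-- KEEP
import Claimed.Agent.R289.Exit.Pins
import Claimed.Agent.R289.Exit.ParP
import Claimed.Agent.R289.Exit.PinsPN
import Claimed.Agent.R289.Exit.PinsPG
import Claimed.Agent.R289.Tr.FlagP
import Claimed.Agent.R289.Tr.FlagNR3
import Claimed.Agent.R289.Tr.Flags
import Claimed.Agent.R289.Tr.Orient
import Claimed.Agent.R289.Tr.StabMod

/-!
# Row 289 (S0537, Cardy for Poisson-Voronoi), THE WALL, ROAD P, Exit/PinsP : THE ROOF OF THE PINS OF ROAD P = field `pins` of `PvrxAll` (79, `Exit/TrP.lean`) = `exit_pvrz_pins` of 186 (`Exit/ParP.lean`) = `PvrxPinsOK (pvrzPar ..) x R` AT THE MODEL `pvmhMod 𝔤 QB` (8, `Tr/ModP.lean`)      (pen helper8, post of 273; prefix `pvxq_`, `Pvxq`, `pvxq`, `exit_pinsP_`)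

Text of record: `origin/helper273:notes/R289/ROADP_273.md` P9 (A6), P14 (FLAGS), P15 (DI-P + DENSE-P), rulings P5, P7 of 273.
THE CHAIN (all glue PROVED here: `pvxq_trap`, `pvxq_di`, `pvxq_glue`, `pvxq_main`):
   A6 in the `A'`-form `pvx2_main` (200 281 220: dense UNFLAGGED PLACES, gates `PvdaGate` of the plane in THREE FIXED annuli, flags `Fl m ε p` ARBITRARY static local events of probability `≤ ζ`)
   + (TRAP + GRID) `pvxq_trap`: a qualified pin is a pin of S6b on the grid  [PROVED: `PvspQual.pass` + `pvmh_isPin`, GRID clause of `PvmhNum.Fit`]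
   + (DI-P) `pvxq_di`: off `Ex = {¬ PvxqGood}`: an unflagged place `(k, p)` of a rim carries a qualified pin `⟨k, l9Pt h p, s⟩`   (NO trimming: the index of the pin IS the index of the place).
SUB-EXITS (sorried, OWNERS):
* `pvxq_good_small`   [leaf]                     the good samples (general position, fine mesh `mu h`, density `mu h`) have full probability in the ordered limit
* `pvxq_pass`         [leaf; 8]                  D1: three gates of the plane + mesh  ⟹  `k < P.len`, ordered passages `PvdaPass`  (`pvda_gates` of 212)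
* `exit_pinsP_nr`     [36]                       F2 USE with centres up to `3R` (MISFIT M-D: `pvnf_flag_use` asks `|z - x| + .. ≤ 2R`, but a place of an arc inside `clB(x,2R)` has its centre in `clB(x, 2R + h)`: recentring of 12, `pvxp_near_det`)
* `pvxq_fit`          [leaf; 8]                  D2: passages + mesh + no F2  ⟹  a type of the menu fits (`pvmh_trap`, `pvmh_fit_exists`)
* `exit_pinsP_right`  [291 202 15 206 164 205]   M11 (ruling P5): a fitting type has a lane ON THE RIGHT of the rim: `PvxqRight`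
* `exit_pinsP_five`   [212 97 113; 15 (walk split)]   P12 STAB AT THE MODEL: fit + RIGHT + gates: every whitening of the strip which realises the lane event satisfies THE FIVE EVENTS of the candidate
* `pvxq_gam`          [leaf]                     P15, probabilistic step: not F3, not F5, five events + QB for all admissible whitenings  ⟹  `Hg` and `γ ≥ 1/2`  (`pvfz_use_K` of 220)
* `pvxq_flag_reads`   [leaf; 220 238]            the flag is read in the window `pvtdWin (h m) w p`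
* `exit_pinsP_num`    [186 36 277 220]           THE NUMBERS: order `e1 → d1 → e0 → d0 → nd → menu → p_* → β`; cost of the flag `≤ ζ`, for ALL `β ≤ β₀`
`QB` (QBX-good geometry) is a PARAMETER (a family over the numbers) with the three properties `PvxqQB`.
-/

set_option autoImplicit false
set_option linter.unusedVariables false
set_option linter.unusedSectionVars false

namespace Claimed.Agent.R289

open MeasureTheory Filter Topology Set Metric Claims.C0465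
open scoped ENNReal

/-! ## 1. the flags of a candidate, the flag of a centre -/

/-- **the event `Bad` of P14 at a candidate** (four small propensities, 36) -/
noncomputable def pvxqBad (N : PvspNum) (ε : ℝ) (t : PvspTy) (z : ℂ) (h : ℝ) : Set (Conf PvPt) :=
  pvfxBad (pvP ε) (pvspO N t z h ×ˢ univ) (t.Mp \ pvspO N t z h) (t.Mm \ pvspO N t z h) (!t.col) (pvspLp N t z h) (pvspLm N t z h) (pvspEvt N t z h .pw) (pvspEvt N t z h .mw) N.β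

/-- the candidate in the vocabulary of 220 (`Tr/Flags.lean`): strip, forced colour, lane event, bad prepared states -/
noncomputable def pvxqCand (N : PvspNum) (ε : ℝ) (t : PvspTy) (z : ℂ) (h : ℝ) : PvfzCand := ⟨pvspJ t, !t.col, pvspLane N t h, pvxqBad N ε t z h⟩

/-- what road P asks of the QBX-good geometry -/
structure PvxqQB (𝔤 : PvmhNum) (QB : ℝ → ℂ → Set (Conf PvPt)) : Prop where
  reads : ∀ h z, 0 < h → Conf.ReadsSet (Prod.fst ⁻¹' closedBall z (𝔤.Lr * h)) (QB h z)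
  /-- blind to all colours -/
  blind : ∀ h z (S : Set ℂ), PvpBlind S (fun ξ => ξ ∈ QB h z)
  /-- F0 costs `o(1)` as `ε ↓ 0` -/
  small : ∀ ζ : ℝ≥0∞, 0 < ζ → ∀ (x : ℂ) (R : ℝ), ∀ᶠ m in atTop, ∀ᶠ ε in 𝓝[>] (0 : ℝ), ∀ p : ℤ × ℤ, ‖l9Pt (pvlmH m) p - x‖ ≤ R → pvP ε (QB (pvlmH m) (l9Pt (pvlmH m) p))ᶜ ≤ ζ

/-- F0 ∪ F2: QBX failure, the near-return tests of 36 at the two levels in the window `B(z, 10 b₃ h)` -/
noncomputable def pvxqF0 (𝔤 : PvmhNum) (QB : ℝ → ℂ → Set (Conf PvPt)) (m : ℕ) (p : ℤ × ℤ) : Set (Conf PvPt) :=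
  (QB (pvlmH m) (l9Pt (pvlmH m) p))ᶜ ∪ pvnfFlag pvlmH (fun m => 𝔤.mu * pvlmH m) (10 * 𝔤.b3) 𝔤.d0 𝔤.e0 1 m p ∪ pvnfFlag pvlmH (fun m => 𝔤.mu * pvlmH m) (10 * 𝔤.b3) 𝔤.d1 𝔤.e1 1 m p

/-- **THE FLAG OF ROAD P** at the centre `l9Pt (h m) p`: F0 ∪ F2 ∪ (F3 ∪ F5 for EVERY type of the menu).      It never mentions a rim.      It DEPENDS ON `ε` (annealed propensities in F5). -/
noncomputable def pvxqFlag (𝔤 : PvmhNum) (QB : ℝ → ℂ → Set (Conf PvPt)) (m : ℕ) (ε : ℝ) (p : ℤ × ℤ) : Set (Conf PvPt) :=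
  pvfzBlock Finset.univ (fun s : PvmhT 𝔤 => pvxqCand 𝔤.sp ε (𝔤.ty (pvlmH m) (l9Pt (pvlmH m) p) s) (l9Pt (pvlmH m) p) (pvlmH m)) 𝔤.pst (pvxqF0 𝔤 QB m p)

/-- the numbers of road P use the first three annuli of A6, the outer radii enlarged by `1` (StateP v2.1, POCKETS cure of 97: the gates of a qualified pin live in `[a h, (b - 2 mu) h]`) -/
structure PvxqMatch (a b : ℕ → ℝ) (𝔤 : PvmhNum) : Prop where
  a : ∀ k : Fin 3, 𝔤.a k = a k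
  b : ∀ k : Fin 3, 𝔤.b k = b k + 1

/-- the range of the flags, in units of `h` -/
noncomputable def pvxqW (b : ℕ → ℝ) : ℕ := ⌈20 * (b 2 + 2) + 13⌉₊

/-- the numeric constraints which the pins add to `PvmhNum.OK` (36: `pvnf_flag_use`) -/
structure PvxqNum (𝔤 : PvmhNum) : Prop where
  d0_6 : 6 * 𝔤.d0 ≤ 𝔤.e0
  d1_6 : 6 * 𝔤.d1 ≤ 𝔤.e1

/-- **GOOD SAMPLES** (the exceptional event of DI-P is the complement) -/
structure PvxqGood (𝔤 : PvmhNum) (h : ℝ) (x : ℂ) (R : ℝ) (ω : PVSample) : Prop where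
  ok : DelgpOk ω
  fine : L9Fine (cfSites (pvConf ω)) (closedBall x (6 * R)) (𝔤.mu * h)
  dense : VorDense (cfSites (pvConf ω)) (closedBall x (5 * R)) (𝔤.mu * h)

/-- **RIGHT** (M11, ruling P5 (iii) of 273), PvMap level: in SOME completion which encodes `P`, every vertex placed in `J` lies strictly on the right of the rim -/
def PvxqRight (x : ℂ) (R : ℝ) (η : Conf PvPt) (P : PvbRim) (J : Set ℂ) : Prop :=
  ∃ (X : Type) (_ : Fintype X) (𝔅 : PvBulk X) (ξ : X → Bool) (c : (𝔅.T (cfSites η)).Cyc), 𝔅.Adm (cfSites η) ∧ 𝔅.Ok (cfSites η) (closedBall x (6 * R)) ∧ c.IsRim (𝔅.col η ξ) ∧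
    4 * R ≤ ‖𝔅.posF (cfSites η) (x + 7 * R) ((𝔅.T (cfSites η)).src (c.e 0)) - x‖ ∧ P = 𝔅.enc (cfSites η) (x + 7 * R) c ∧
    ∀ v, 𝔅.posF (cfSites η) (x + 7 * R) v ∈ J → v ∈ (𝔅.T (cfSites η)).Int c.Right

theorem pvxq_pinsP_eqns_cite : True := by
  have := @pvxqBad.eq_1; have := @pvxqCand.eq_1; have := @pvxqF0.eq_1; have := @pvxqFlag.eq_1; have := @pvxqW.eq_1; have := @PvxqRight.eq_1
  trivial

/-- `QB := univ` (186, `Exit/ParP.lean`) is admissible -/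
theorem pvxq_QB_univ (𝔤 : PvmhNum) : PvxqQB 𝔤 fun _ _ => univ where
  reads := fun _ _ _ _ => Iff.rfl
  blind := fun _ _ _ _ _ _ => rfl
  small := fun ζ _ _ _ => Eventually.of_forall fun _ => Eventually.of_forall fun ε _ _ => by simp

/-- a gate in a smaller annulus (same inner radius) is a gate in the larger one -/
theorem pvxq_gate_mono {Y : Set ℂ} {σ : ℂ → Bool} {c : Bool} {z : ℂ} {a b b' : ℝ} (h : PvdaGate Y σ c z a b) (hb : b ≤ b') : PvdaGate Y σ c z a b' := by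
  obtain ⟨hY, G, X, hg⟩ := h
  exact ⟨hY, G, X, hg.face, hg.inner, hg.outer.trans (pvdi_B_mono z hb), hg.card, hg.col, hg.other⟩

/-! ## 2. (TRAP + GRID), PROVED -/

/-- **(TRAP) + (GRID)**: the qualified pins of the model are pins of S6b and sit on the grid -/
theorem pvxq_trap {𝔤 : PvmhNum} (H : 𝔤.OK) (QB : ℝ → ℂ → Set (Conf PvPt)) {ε h : ℝ} (hh : 0 ≤ h) (x : ℂ) (R : ℝ) (ω : PVSample) :
    PvxpTrapH (pvmhMenu 𝔤 H) h x R (pvspPins (pvmhMod 𝔤 QB) ε h x R) ω := by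
  intro P _ s hs
  obtain ⟨lo, hi, hp⟩ := hs.pass
  exact ⟨pvmh_isPin H hh s.typ hp hs.near, hs.fit.1⟩

/-! ## 3. (DI-P): the sub-exits -/

section di

variable {𝔤 : PvmhNum} (H : 𝔤.OK) {h : ℝ} {x : ℂ} {R : ℝ} {ω : PVSample} {P : PvbRim} {k : ℕ} {z : ℂ}

include H

omit H in
/-- a bounded set is `r`-dense with high probability      (`= pvn1b_dense_lim` of `Exit/N1B.lean`, not imported here) -/
theorem pvxq_dense_lim {B : Set ℂ} (hB : Bornology.IsBounded B) {r : ℝ} (hr : 0 < r) :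
    Tendsto (fun ε => (pvhbUp ε).P {p | ¬ VorDense (cfSites (pvConf (pvMerge p))) B r}) (𝓝[>] (0 : ℝ)) (𝓝 0) := by
  obtain ⟨L, hL, _, hnet⟩ := pvm_net_bdd (K := B) hB hr univ
  have hlim := pvm_good_tendsto (μ := pvP) hr hL (fun ε _ => pv_isPpp ε) (c := univ) ⟨true, mem_univ _⟩ 0
  refine tendsto_of_tendsto_of_tendsto_of_le_of_le tendsto_const_nhds hlim (fun _ => zero_le) fun ε => ?_
  refine (pvhb_up_P_conf ε {η | ¬ VorDense (cfSites η) B r}).trans (measure_mono fun η hη hgood => hη ?_)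
  intro z hz
  obtain ⟨p, hp, h2⟩ := pvm_net_of_netC (hnet _ hgood) z hz
  exact ⟨p.1, ⟨p, hp, rfl⟩, by rw [norm_sub_rev]; exact h2.le⟩

/-- **the good samples are typical** in the ordered limit      [`pvru_ok`, `pvxp_fine`, void estimate `pvm_good_prob` (`Mesh/Net`) through `pvhb_up_P_law`] -/
theorem pvxq_good_small (x : ℂ) {R : ℝ} (hR : 0 < R) : PvxpSmall pvhbUp fun m _ => {q | ¬ PvxqGood 𝔤 (pvlmH m) x R (pvMerge q)} := by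
  have hμ : ∀ m, 0 < 𝔤.mu * pvlmH m := fun m => mul_pos H.mu0 (pvlm_H_pos m)
  have h1 : PvxpSmall pvhbUp fun (_ : ℕ) (_ : ℝ) => {q : PvGeoT × PvColT | DelgpOk (pvMerge q)}ᶜ := by
    intro η hη
    refine Eventually.of_forall fun m => Eventually.of_forall fun ε => ?_
    show ((pvhbUp ε).P {q : PvGeoT × PvColT | DelgpOk (pvMerge q)}ᶜ).toReal ≤ η
    have := pvru_ok ε
    unfold pvhbUp
    rw [this]
    simpa using hη.le
  have h2 := pvxp_fine x hR (fun m => 𝔤.mu * pvlmH m) hμ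
  have h3 : PvxpSmall pvhbUp fun (m : ℕ) (_ : ℝ) => {p | ¬ VorDense (cfSites (pvConf (pvMerge p))) (closedBall x (5 * R)) (𝔤.mu * pvlmH m)} := by
    refine PvhbOrd.of_tendsto fun m => ?_
    have := pvxq_dense_lim (B := closedBall x (5 * R)) isBounded_closedBall (hμ m)
    have h4 := (ENNReal.tendsto_toReal (a := 0) (by simp)).comp this
    simpa [Function.comp_def] using h4
  refine ((h1.union h2).union h3).mono fun m ε q hq => ?_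
  by_contra hn
  simp only [mem_union, mem_compl_iff, mem_ofPred_eq, not_or, not_not] at hn
  exact hq ⟨hn.1.1, hn.1.2, hn.2⟩

/-- **D1**: three gates of the plane in the fixed annuli are passed in order      [`pvda_gates` of 212; `k ≠ P.len` by `pvxp_all_mesh`: `4R ≤ |P.v 0 - x|`, `P.v P.len = P.v 0`] -/
theorem pvxq_pass (hh : 0 < h) (hR : 0 < R) (hhR : (𝔤.Lr + 2) * h ≤ R) (hω : PvxqGood 𝔤 h x R ω) (hP : P ∈ pvhbAll x R ω) (hk : k ≤ P.len) (hkx : ‖P.v k - x‖ ≤ 2 * R) (hn : ‖P.v k - z‖ ≤ h)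
    (hg : ∀ j : Fin 3, PvdaGate (cfSites (pvConf ω)) (cfCol (pvConf ω)) (cfCol (pvConf ω) (P.v k)) z (𝔤.a j * h) ((𝔤.b j - 2 * 𝔤.mu) * h)) :
    k < P.len ∧ ∃ lo hi : Fin 3 → ℕ, PvdaPass P z (𝔤.mu * h) k (fun j => 𝔤.a j * h) (fun j => 𝔤.b j * h) lo hi := by
  obtain ⟨h0, h1, h2, h3, h4, h5⟩ := pvmh_basic H
  have hfine := hω.fine
  have hmu0 := H.mu0
  have hmule := H.mu_le
  have a0 := H.a_pos; have b0 := H.ab 0; have b1 := H.ab 1; have b2 := H.ab 2; have n1 := H.nest01; have n2 := H.nest12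
  have hLr : 𝔤.Lr = 20 * (𝔤.b 2 + 1) := rfl
  have hmu1 : 𝔤.mu ≤ 1 := by linarith
  have hμR : 𝔤.mu * h ≤ R := by nlinarith
  obtain ⟨e1, e2, -⟩ := pvxp_all_mesh hR hμR hfine hP
  have hk' : k < P.len := by
    rcases hk.lt_or_eq with hk | hk
    · exact hk
    · exfalso; rw [hk, e1] at hkx; linarith
  refine ⟨hk', ?_⟩
  have hzx : ‖z - x‖ + (𝔤.b 2 + 1) * h < 4 * R := by
    have t1 := pvtp_tri z (P.v k) x
    rw [norm_sub_rev z (P.v k)] at t1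
    rw [hLr] at hhR
    have t2 : (𝔤.b 2 + 1) * h + h ≤ (20 * (𝔤.b 2 + 1) + 2) * h := by nlinarith
    linarith
  exact pvzp_pass (N := 𝔤.sp) hh hmu0 hmu1 a0 (fun j => by
    have := H.ab j
    have ha : 30 ≤ 𝔤.a j := by fin_cases j <;> simp <;> linarith
    show 𝔤.a j ≤ 𝔤.b j - 2 * 𝔤.mu
    linarith) (by show 100 * (𝔤.b 0 + 1) ≤ 𝔤.a 1; linarith) (by show 100 * (𝔤.b 1 + 1) ≤ 𝔤.a 2; linarith) hR hfine hP hk' hkx hn hzx hg

omit H in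
/-- **F2, USE, centres up to `3R`** (M-D)      [36: `pvnf_flag_use` + the recentring of 12 (`pvxp_near_det`): the rims at `(x,R)` are seen by the tests at the ball `(x', R/2)`] -/
theorem exit_pinsP_nr {hs μ : ℕ → ℝ} {rw d e R₁ : ℝ} {m : ℕ} {p : ℤ × ℤ} (hP : P ∈ pvhbAll x R ω) (hh : 0 < hs m) (hd : 0 < d) (hrw : 0 ≤ rw)
    (hde : 6 * d ≤ e) (heR : e / 2 - d ≤ R₁) (hRR : R₁ * hs m ≤ R / 2) (hz : ‖l9Pt (hs m) p - x‖ + 2 * (rw + 2 * d) * hs m ≤ 3 * R) (hno : pvConf ω ∉ pvnfFlag hs μ rw d e R₁ m p) :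
    PvtpNR P (l9Pt (hs m) p) (rw * hs m) (d * hs m) (e * hs m) :=
  pvn3_flag_use hP hh hd hrw hde heR hRR hz hno

/-- **D2**: passages + mesh + the two levels of no near return  ⟹  a type of the menu fits      [`pvmh_trap`, `pvmh_fit_exists`, default lane `pvlp_lane`; ends: `pvxp_all_mesh`] -/
theorem pvxq_fit (hh : 0 < h) (hR : 0 < R) (hhR : (𝔤.Lr + 2) * h ≤ R) (hω : PvxqGood 𝔤 h x R ω) (hP : P ∈ pvhbAll x R ω) (hkx : ‖P.v k - x‖ ≤ 2 * R) (hn : ‖P.v k - z‖ ≤ h)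
    (hz : ∃ p : ℤ × ℤ, z = l9Pt h p) {lo hi : Fin 3 → ℕ} (hp : PvdaPass P z (𝔤.mu * h) k (fun j => 𝔤.a j * h) (fun j => 𝔤.b j * h) lo hi)
    (nr0 : PvtpNR P z (10 * 𝔤.b3 * h) (𝔤.d0 * h) (𝔤.e0 * h)) (nr1 : PvtpNR P z (10 * 𝔤.b3 * h) (𝔤.d1 * h) (𝔤.e1 * h)) (col : Bool) :
    ∃ s : PvmhT 𝔤, s.typ.col = col ∧ 𝔤.Fit h P k z s := by
  obtain ⟨h0, h1, h2, h3, h4, h5⟩ := pvmh_basic H
  have hmu0 := H.mu0
  have hmule := H.mu_le
  have hLr : 𝔤.Lr = 20 * 𝔤.b3 := rfl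
  have hb3 : 61 ≤ 𝔤.b3 := by unfold PvmhNum.b3; linarith
  have hμR : 𝔤.mu * h ≤ R := by rw [hLr] at hhR; nlinarith
  obtain ⟨e1, e2, e3⟩ := pvxp_all_mesh hR hμR hω.fine hP
  have hzx : ‖z - x‖ ≤ 2 * R + h := by
    have t1 := pvtp_tri z (P.v k) x
    rw [norm_sub_rev z (P.v k)] at t1
    linarith
  have hbig : 10 * 𝔤.b3 * h + h ≤ R := by rw [hLr] at hhR; nlinarith
  have end0 : 10 * 𝔤.b3 * h ≤ ‖P.v 0 - z‖ := by
    have t1 := pvtp_tri (P.v 0) z x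
    linarith
  have win : ∀ i, ‖P.v i - z‖ ≤ 10 * 𝔤.b3 * h → ‖P.v i - x‖ ≤ 5 * R := by
    intro i hi
    have t1 := pvtp_tri (P.v i) z x
    linarith
  obtain ⟨τ, t1, t2, t4, hcol, hfit⟩ := pvmh_fit_exists H hh col hz (pvmh_trap H hh hp) hn end0 (by rw [e1]; exact end0)
    (fun i hi hw => e3 i hi (hw.imp (win i) (win (i + 1)))) nr0 nr1
  exact ⟨pvmhMk τ (pvlpE τ) t1 t2 t4 (pvlp_lane t1), hcol, hfit _ _⟩

/-- **M11 = EXISTENCE OF THE RIGHT LANE** (ruling P5 of 273): a fitting type has a lane whose strip lies on the right of the rim      [291 `Tr/Orient.lean`, 202 `Tr/OrientW.lean`, 15 `Tr/OrientL.lean` (`pvoz_laneR_cell`), 206 164 205] -/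
theorem exit_pinsP_right (hh : 0 < h) (hR : 0 < R) (hhR : (𝔤.Lr + 2) * h ≤ R) (hω : PvxqGood 𝔤 h x R ω) (hP : P ∈ pvhbAll x R ω) (hkx : ‖P.v k - x‖ ≤ 2 * R) {s : PvmhT 𝔤} (hfit : 𝔤.Fit h P k z s) :
    ∃ s' : PvmhT 𝔤, s'.typ = s.typ ∧ PvxqRight x R (pvConf ω) P (pvspJ (𝔤.ty h z s')) := by
  obtain ⟨X, hX, 𝔅, ξ, hA, hOk, c, hc, h4, rfl⟩ := hP
  exact ⟨s, rfl, X, hX, 𝔅, ξ, c, hA, hOk, hc, h4, rfl, pvor_model H 𝔅 hh hR hhR hω.ok.lf hω.ok.gp hω.fine hω.dense hOk hA c hkx hfit⟩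

/-- **P12 STAB AT THE MODEL**: the rim fits `s`, the strip is on its right, the three gates: EVERY whitening of the strip which realises the lane event satisfies the five events of the candidate
[212 `Tr/Stab.lean` (`pvsb_paint`, `pvsb_gates`), `Tr/StabS.lean`; 97 `Tr/StabFit.lean` (`pvsq_pred`); dictionary `pvsp_evt_dict` of 185; FIT-IN `pvmh_in_Np`, `pvmh_in_Nm`, `pvmh_miss` of `Tr/ModP`; walk split of 15; mesh of the windows from `hω.dense`] -/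
theorem exit_pinsP_five (hh : 0 < h) (hR : 0 < R) (hhR : (𝔤.Lr + 2) * h ≤ R) (hω : PvxqGood 𝔤 h x R ω) (hP : P ∈ pvhbAll x R ω) (hkx : ‖P.v k - x‖ ≤ 2 * R) {s : PvmhT 𝔤}
    (hcol : cfCol (pvConf ω) (P.v k) = s.typ.col)
    (hg : ∀ j : Fin 3, PvdaGate (cfSites (pvConf ω)) (cfCol (pvConf ω)) s.typ.col z (𝔤.a j * h) ((𝔤.b j - 2 * 𝔤.mu) * h))
    (hfit : 𝔤.Fit h P k z s) (hright : PvxqRight x R (pvConf ω) P (pvspJ (𝔤.ty h z s)))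
    {B : Finset ℂ} (hB1 : cfStripOn (pvspJ (𝔤.ty h z s)) (!s.typ.col) (pvConf ω) ⊆ B) (hB2 : B ⊆ cfStrip (pvspJ (𝔤.ty h z s)) (pvConf ω))
    (hA : cfPaint (pvspJ (𝔤.ty h z s)) (!s.typ.col) B (pvConf ω) ∈ pvspLane 𝔤.sp (𝔤.ty h z s) h) (κ : PvspKind) :
    cfPaint (pvspJ (𝔤.ty h z s)) (!s.typ.col) B (pvConf ω) ∈ pvspEvt 𝔤.sp (𝔤.ty h z s) z h κ := by
  obtain ⟨X, hX, 𝔅, ξ, c, hAdm, hOk, hc, h4, rfl, hr⟩ := hright
  exact pvsk_five H hh hR hhR hω.ok hω.fine hω.dense hAdm hOk hc h4 hkx hcol hg hfit hr hB1 hA κ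

end di

/-- **P15, THE PROBABILISTIC STEP** at an abstract model: not F3, not F5, and every admissible whitening satisfies the five events and `QB`  ⟹  `Hg` and `γ ≥ 1/2`
[`pvfz_use_K` of 220 (`pvprK = pvspKer` by `rfl`), `pvsp_lane_inc`;   a whitening with the five events which is not in `Gq` has one of the four propensities `< β`: it is in `pvfxBad`;   `pvspProp = pvfxProp` by unfolding `Conf.spl`] -/
theorem pvxq_gam {τ : Type} (𝔐 : PvspMod τ) {ε h : ℝ} {z : ℂ} {t : τ} (hp : 0 < 𝔐.N.pst) {ξ : Conf PvPt}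
    (h3 : ξ ∉ (pvxqCand 𝔐.N ε (𝔐.ty h z t) z h).F3 𝔐.N.pst) (h5 : ξ ∉ (pvxqCand 𝔐.N ε (𝔐.ty h z t) z h).F5)
    (hst : ∀ B, cfStripOn (pvspJ (𝔐.ty h z t)) (!(𝔐.ty h z t).col) ξ ⊆ B → B ⊆ cfStrip (pvspJ (𝔐.ty h z t)) ξ → cfPaint (pvspJ (𝔐.ty h z t)) (!(𝔐.ty h z t).col) B ξ ∈ pvspLane 𝔐.N (𝔐.ty h z t) h →
      (∀ κ, cfPaint (pvspJ (𝔐.ty h z t)) (!(𝔐.ty h z t).col) B ξ ∈ pvspEvt 𝔐.N (𝔐.ty h z t) z h κ) ∧ cfPaint (pvspJ (𝔐.ty h z t)) (!(𝔐.ty h z t).col) B ξ ∈ 𝔐.QB h z) :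
    ξ ∈ 𝔐.Hg h z t ∧ 1 / 2 ≤ (𝔐.K h z t).gam (𝔐.G ε h z t) ξ := by
  refine pvfz_use_K (κ := pvxqCand 𝔐.N ε (𝔐.ty h z t) z h) (pvsp_lane_inc 𝔐.N (𝔐.ty h z t) h) hp h3 h5 (G := 𝔐.G ε h z t) ?_
  intro B hB1 hB2 hA hnG
  obtain ⟨hev, hQB⟩ := hst B hB1 hB2 hA
  by_contra hbad
  refine hnG ⟨⟨hev .has, ?_, ?_⟩, ?_, ?_, hQB⟩
  · by_contra hc
    exact hbad (Or.inl (Or.inl (Or.inl ⟨⟨hev .pb, hev .pw⟩, not_le.1 hc⟩)))
  · by_contra hc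
    exact hbad (Or.inl (Or.inl (Or.inr ⟨⟨hev .mb, hev .mw⟩, not_le.1 hc⟩)))
  · by_contra hc
    exact hbad (Or.inl (Or.inr ⟨hev .pw, not_le.1 hc⟩))
  · by_contra hc
    exact hbad (Or.inr ⟨hev .mw, not_le.1 hc⟩)

/-! ## 4. (DI-P), PROVED from the sub-exits -/

/-- `Fit` only reads the type, not the lane -/
theorem pvxq_fit_congr {𝔤 : PvmhNum} {h : ℝ} {P : PvbRim} {k : ℕ} {z : ℂ} {s s' : PvmhT 𝔤} (e : s'.typ = s.typ) (hf : 𝔤.Fit h P k z s) : 𝔤.Fit h P k z s' := by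
  unfold PvmhNum.Fit at hf ⊢
  rw [e]
  exact hf

/-- **(DI-P)**, deterministic: at a good sample an unflagged place of a rim carries a qualified pin WITH THE SAME INDEX -/
theorem pvxq_di {𝔤 : PvmhNum} (H : 𝔤.OK) (H6 : PvxqNum 𝔤) (hpst : 0 < 𝔤.pst) {QB : ℝ → ℂ → Set (Conf PvPt)} (hQB : PvxqQB 𝔤 QB) {m : ℕ} {ε : ℝ} {x : ℂ} {R : ℝ} (hR : 0 < R) (hhR : (𝔤.Lr + 2) * pvlmH m ≤ R / 2)
    {ω : PVSample} (hω : PvxqGood 𝔤 (pvlmH m) x R ω) {P : PvbRim} (hP : P ∈ pvhbAll x R ω) {k : ℕ} {p : ℤ × ℤ} (hk : k ≤ P.len) (hkx : ‖P.v k - x‖ ≤ 2 * R)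
    (hn : ‖P.v k - l9Pt (pvlmH m) p‖ ≤ pvlmH m)
    (hg : ∀ j : Fin 3, PvdaGate (cfSites (pvConf ω)) (cfCol (pvConf ω)) (cfCol (pvConf ω) (P.v k)) (l9Pt (pvlmH m) p) (𝔤.a j * pvlmH m) ((𝔤.b j - 2 * 𝔤.mu) * pvlmH m))
    (hfl : pvConf ω ∉ pvxqFlag 𝔤 QB m ε p) :
    ∃ s : PvmhT 𝔤, (⟨k, l9Pt (pvlmH m) p, s⟩ : PvbPin (PvmhT 𝔤)) ∈ pvspPins (pvmhMod 𝔤 QB) ε (pvlmH m) x R ω P := by
  have hh := pvlm_H_pos m
  have hhR' : (𝔤.Lr + 2) * pvlmH m ≤ R := by linarith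
  obtain ⟨h0, hc⟩ := pvfz_block_use hfl
  have hb3 : 61 ≤ 𝔤.b3 := by
    obtain ⟨-, -, a1, a2, -, -⟩ := pvmh_basic H
    unfold PvmhNum.b3
    linarith
  have hLr : 𝔤.Lr = 20 * 𝔤.b3 := rfl
  have hd0 : 0 < 𝔤.d0 := by have := H.dl0; have := H.d0_ge; linarith
  have hd1 : 0 < 𝔤.d1 := by have := H.d0_le; have := H.e0_le; linarith
  have hzx : ‖l9Pt (pvlmH m) p - x‖ ≤ 2 * R + pvlmH m := by
    calc ‖l9Pt (pvlmH m) p - x‖ = ‖-(P.v k - l9Pt (pvlmH m) p) + (P.v k - x)‖ := by ring_nf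
      _ ≤ ‖-(P.v k - l9Pt (pvlmH m) p)‖ + ‖P.v k - x‖ := norm_add_le _ _
      _ ≤ 2 * R + pvlmH m := by rw [norm_neg]; linarith
  -- D1
  obtain ⟨hk', lo, hi, hpass⟩ := pvxq_pass H hh hR hhR' hω hP hk hkx hn hg
  -- F2
  have nr0 : PvtpNR P (l9Pt (pvlmH m) p) (10 * 𝔤.b3 * pvlmH m) (𝔤.d0 * pvlmH m) (𝔤.e0 * pvlmH m) :=
    exit_pinsP_nr (μ := fun m => 𝔤.mu * pvlmH m) (R₁ := 1) hP hh hd0 (by linarith) H6.d0_6
      (by have := H.d0_le; have := H.e0_le; have := H.d1_le; have := H.e1_le; linarith) (by nlinarith)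
      (by have := H.d0_le; have := H.e0_le; have := H.d1_le; have := H.e1_le; nlinarith) (fun hc' => h0 (Or.inl (Or.inr hc')))
  have nr1 : PvtpNR P (l9Pt (pvlmH m) p) (10 * 𝔤.b3 * pvlmH m) (𝔤.d1 * pvlmH m) (𝔤.e1 * pvlmH m) :=
    exit_pinsP_nr (μ := fun m => 𝔤.mu * pvlmH m) (R₁ := 1) hP hh hd1 (by linarith) H6.d1_6
      (by have := H.d1_le; have := H.e1_le; linarith) (by nlinarith)
      (by have := H.d1_le; have := H.e1_le; nlinarith) (fun hc' => h0 (Or.inr hc'))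
  -- D2, M11
  obtain ⟨s₀, hcol₀, hfit₀⟩ := pvxq_fit H hh hR hhR' hω hP hkx hn ⟨p, rfl⟩ hpass nr0 nr1 (cfCol (pvConf ω) (P.v k))
  obtain ⟨s, hs, hright⟩ := exit_pinsP_right H hh hR hhR' hω hP hkx hfit₀
  have hfit := pvxq_fit_congr hs hfit₀
  have hcol : cfCol (pvConf ω) (P.v k) = s.typ.col := by rw [hs, hcol₀]
  have hg' : ∀ j : Fin 3, PvdaGate (cfSites (pvConf ω)) (cfCol (pvConf ω)) s.typ.col (l9Pt (pvlmH m) p) (𝔤.a j * pvlmH m) ((𝔤.b j - 2 * 𝔤.mu) * pvlmH m) := fun j => hcol ▸ hg j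
  -- P15
  obtain ⟨h3, h5⟩ := hc s (Finset.mem_univ s)
  obtain ⟨hHg, hgam⟩ := pvxq_gam (pvmhMod 𝔤 QB) (ε := ε) (h := pvlmH m) (z := l9Pt (pvlmH m) p) (t := s) hpst h3 h5 fun B hB1 hB2 hA =>
    ⟨fun κ => exit_pinsP_five H hh hR hhR' hω hP hkx hcol hg' hfit hright hB1 hB2 hA κ, by
      have e := hQB.blind (pvlmH m) (l9Pt (pvlmH m) p) (pvspJ (𝔤.ty (pvlmH m) (l9Pt (pvlmH m) p) s)) (!s.typ.col) B (pvConf ω)
      have hq : pvConf ω ∈ QB (pvlmH m) (l9Pt (pvlmH m) p) := by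
        by_contra hcon
        exact h0 (Or.inl (Or.inl hcon))
      exact e.mpr hq⟩
  exact ⟨s, ⟨hω.ok, hk', hn, hcol, hg', ⟨lo, hi, hpass⟩, hfit, hHg, hgam⟩⟩

/-! ## 5. the glue -/

/-- **THE GLUE OF ROAD P**: dense unflagged places (A6) + (TRAP + GRID) + (DI-P) off a negligible event ⟹ `pinsOK` FOR THE BLACK RIMS (P10).      No trimming. -/
theorem pvxq_glue {τ : Type} (𝔐 : PvbMenu τ) (a b : ℕ → ℝ) (h r : ℕ → ℝ) (pins : ℕ → ℝ → PVSample → PvbRim → Set (PvbPin τ)) (Flag : ℕ → ℝ → ℤ × ℤ → Set (Conf PvPt)) (x : ℂ) (R : ℝ)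
    (hA6 : PvX2 3 a b h r Flag x R) (Ex : ℕ → ℝ → Set (PvGeoT × PvColT)) (hEx : PvxpSmall pvhbUp Ex)
    (hTrap : ∀ᶠ m in atTop, ∀ ε, ∀ q ∉ Ex m ε, PvxpTrapH 𝔐 (h m) x R (pins m ε) (pvMerge q))
    (hDI : ∀ᶠ m in atTop, ∀ ε, ∀ q ∉ Ex m ε, ∀ P ∈ pvdbBlk x R (pvMerge q), ∀ (k : ℕ) (p : ℤ × ℤ), k ≤ P.len → ‖P.v k - x‖ ≤ 2 * R → PvX2At 3 a b (h m) (pvMerge q) P k p →
      pvConf (pvMerge q) ∉ Flag m ε p → ∃ s : τ, (⟨k, l9Pt (h m) p, s⟩ : PvbPin τ) ∈ pins m ε (pvMerge q) P) :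
    PvxpOK 𝔐 h r pvhbUp (fun q => pvdbBlk x R (pvMerge q)) (fun m ε q P => pins m ε (pvMerge q) P) x R := by
  have hA6' : PvxpSmall pvhbUp fun m ε => {q | ¬ ∀ P ∈ pvhbAll x R (pvMerge q), PvtdDense x R (r m) P (pvx2PlF 3 a b (h m) (Flag m ε) (pvMerge q) P)} := hA6
  refine PvxpSmall.mono_ev (hA6'.union hEx) ?_
  filter_upwards [hTrap, hDI] with m h2 h3
  refine Eventually.of_forall fun ε q hq => ?_
  by_contra hcon
  simp only [mem_union, mem_ofPred_eq, not_or, not_not] at hcon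
  refine hq fun P hP => ⟨h2 ε q hcon.2 P hP.1, fun i i' hii hi' hin hfar => ?_⟩
  obtain ⟨s, hs, hs1, hs2⟩ := hcon.1 P hP.1 i i' hii hi' hin hfar
  obtain ⟨t, ht⟩ := h3 ε q hcon.2 P hP s.idx s.typ (hs2.trans hi') (hin s.idx hs1 hs2) hs.1.2 hs.2
  exact ⟨_, ht, hs1, hs2⟩

/-! ## 6. the flags: locality and cost -/

/-- **LOCALITY OF THE FLAG**      [`pvfz_block_reads`; F2: `pvnf_flag_reads`; candidates: `PvfzCand.Loc` from `pvsp_lane_reads`, `pvsp_evt_reads`, `pvfx_bad_reads`, windows in the ball `pvmh_Ep_sub ..`; ball in the window: `pvtd_ball_sub_win`] -/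
theorem pvxq_flag_reads {𝔤 : PvmhNum} (H : 𝔤.OK) {QB : ℝ → ℂ → Set (Conf PvPt)} (hQB : PvxqQB 𝔤 QB) {b : ℕ → ℝ} (hb : 𝔤.b 2 = b 2 + 1) (m : ℕ) (ε : ℝ) (p : ℤ × ℤ) :
    Conf.ReadsSet (pvtdWin (pvlmH m) (pvxqW b) p) (pvxqFlag 𝔤 QB m ε p) := by
  have hh := pvlm_H_pos m
  have hLr : 𝔤.Lr = 20 * 𝔤.b3 := rfl
  have hb3 : 𝔤.b3 = b 2 + 2 := by
    show 𝔤.b 2 + 1 = _
    rw [hb]; ring
  have hw : 20 * 𝔤.b3 + 13 ≤ (pvxqW b : ℝ) := by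
    rw [hb3]
    exact Nat.le_ceil _
  have hb30 : 61 ≤ 𝔤.b3 := by
    obtain ⟨-, -, a1, a2, -, -⟩ := pvmh_basic H
    unfold PvmhNum.b3
    linarith
  have hdl := H.dl0
  have hd0 : 0 < 𝔤.d0 := by have := H.d0_ge; linarith
  have hd1 : 0 < 𝔤.d1 := by have := H.d0_le; have := H.e0_le; linarith
  have hd1' : 𝔤.d1 ≤ 1 / 2 := by have := H.d1_le; have := H.e1_le; linarith
  have hd0' : 𝔤.d0 ≤ 1 / 2 := by have := H.d0_le; have := H.e0_le; linarith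
  have hmu1 : 𝔤.mu ≤ 1 := by
    have := H.mu_le; have := H.d0_ge; have := H.mu0
    linarith
  -- the ball of the candidate lies in the window
  have hball : closedBall (l9Pt (pvlmH m) p) (𝔤.Lr * pvlmH m) ×ˢ (univ : Set Bool) ⊆ pvtdWin (pvlmH m) (pvxqW b) p := by
    have h2 : pv5Dist (pv5Blk (pvlmH m) (l9Pt (pvlmH m) p)) p ≤ ((0 : ℕ) : ℤ) := by
      rw [pvnf_l9Pt, pvtd_blk_ctr hh, pv5_dist_self]
      simp
    have h3 := pvtd_ball_sub_win hh (a := pvxqW b) (b := 0) h2 (ρ := 𝔤.Lr * pvlmH m) (mul_le_mul_of_nonneg_right (by rw [hLr]; linarith) hh.le)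
    rwa [add_zero] at h3
  have hpr : ∀ S : Set ℂ, S ⊆ closedBall (l9Pt (pvlmH m) p) (𝔤.Lr * pvlmH m) → S ×ˢ (univ : Set Bool) ⊆ pvtdWin (pvlmH m) (pvxqW b) p :=
    fun S hS q hq => hball ⟨hS hq.1, mem_univ _⟩
  have hpr' : ∀ S : Set ℂ, S ⊆ closedBall (l9Pt (pvlmH m) p) (𝔤.Lr * pvlmH m) → Prod.fst ⁻¹' S ⊆ pvtdWin (pvlmH m) (pvxqW b) p :=
    fun S hS q hq => hball ⟨hS hq, mem_univ _⟩
  have hμ : ∀ m, 0 < 𝔤.mu * pvlmH m ∧ 𝔤.mu * pvlmH m ≤ pvlmH m := fun m =>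
    ⟨mul_pos H.mu0 (pvlm_H_pos m), by have := pvlm_H_pos m; nlinarith⟩
  refine pvfz_block_reads ?_ ?_ _
  · refine (((hQB.reads _ _ hh).compl.mono (hpr' _ le_rfl)).union ?_).union ?_
    · exact pvnf_flag_reads pvlm_H_pos hμ hd0 (by linarith) (by linarith) (by linarith) m p
    · exact pvnf_flag_reads pvlm_H_pos hμ hd1 (by linarith) (by linarith) (by linarith) m p
  · intro s _
    have hW := pvmh_wf H (l9Pt (pvlmH m) p) s hh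
    have hEp := pvmh_Ep_sub H (l9Pt (pvlmH m) p) s hh
    have hEm := pvmh_Em_sub H (l9Pt (pvlmH m) p) s hh
    have hEJ := pvmh_EJ_sub H (l9Pt (pvlmH m) p) s hh
    have hμs : 0 ≤ 3 * (𝔤.sp.mu * pvlmH m) := by
      have : 0 < 𝔤.sp.mu := H.mu0
      positivity
    have rpb := (pvsp_evt_reads hW .pb).mono (hpr _ hEp)
    have rpw := (pvsp_evt_reads hW .pw).mono (hpr _ hEp)
    have rmb := (pvsp_evt_reads hW .mb).mono (hpr _ hEm)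
    have rmw := (pvsp_evt_reads hW .mw).mono (hpr _ hEm)
    refine ⟨hpr' _ ((hW.core_J.trans (pvtr_core_subset hμs)).trans hEJ), (pvsp_lane_reads _ _ _).mono (hpr _ hEJ), ?_⟩
    exact pvfx_bad_reads _ (hpr _ (hW.O_p.trans hEp))
      (hpr' _ (fun q hq => hEp (pvtr_core_subset hμs (hW.core_p (Or.inr hq.1)))))
      (hpr' _ (fun q hq => hEm (pvtr_core_subset hμs (hW.core_m (Or.inr hq.1)))))
      (rpb.inter rpw) (rmb.inter rmw) rpw rmw _ _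

/-- **THE NUMBERS OF ROAD P** (ROADP sec. 0): given the three annuli and the budget `ζ` of A6: `e1 := 1/2 → d1 → e0 := d1 / 10 → d0 → nd (dl = 1 / nd ≤ d0 / 60, 40 ∣ nd), mu := dl / 20 → MENU → p_* (M12) → β₀`.
The cost of the flag is `≤ ζ` for EVERY threshold `β ≤ β₀` (P18 asks `β` small, too).
[F0: `PvxqQB.small`;  F2: `pvnf_flag_small`, `pvnf_num` (36);  F3: `pvsz_cost`, `pvmw_F3_law` (277) + bridge `pvfz_br`;  F5: `pvfz_block_small` (220) with `q5 = 4 β` (`pvfx_bad_le` of 36);  regularity `PvfzCand.Reg` from sec. 6 of `Tr/StateP`] -/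
theorem exit_pinsP_num (a b : ℕ → ℝ) (ha : 30 ≤ a 0) (hab : ∀ j < 3, 10 ^ 5 * a j ≤ b j) (hnest : ∀ j, j + 1 < 3 → 10 ^ 5 * b j ≤ a (j + 1)) (ζ : ℝ≥0∞) (hζ : 0 < ζ)
    (QB : PvmhNum → ℝ → ℂ → Set (Conf PvPt)) (hQB : ∀ 𝔤 : PvmhNum, 𝔤.OK → PvxqQB 𝔤 (QB 𝔤)) :
    ∃ 𝔤 : PvmhNum, PvrzGood 𝔤 ∧ PvxqNum 𝔤 ∧ PvxqMatch a b 𝔤 ∧ 0 < 𝔤.β ∧ ∀ β, 0 < β → β ≤ 𝔤.β → ∀ (x : ℂ) (R : ℝ), ∀ᶠ m in atTop, ∀ᶠ ε in 𝓝[>] (0 : ℝ), ∀ p : ℤ × ℤ,
      ‖l9Pt (pvlmH m) p - x‖ ≤ R → pvP ε (pvxqFlag (𝔤.wβ β) (QB (𝔤.wβ β)) m ε p) ≤ ζ := by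
  -- the budget
  obtain ⟨z, hz0, hzζ⟩ : ∃ z : ℝ, 0 < z ∧ ENNReal.ofReal (5 * z) ≤ ζ := by
    obtain ⟨r, -, hr1, hr2⟩ := ENNReal.lt_iff_exists_real_btwn.1 hζ
    exact ⟨r / 5, by have := ENNReal.ofReal_pos.1 hr1; positivity, by rw [mul_div_cancel₀ _ (by norm_num : (5 : ℝ) ≠ 0)]; exact hr2.le⟩
  -- the radii
  have e0 := hab 0 (by norm_num); have e1 := hab 1 (by norm_num); have e2 := hab 2 (by norm_num)
  have n0 := hnest 0 (by norm_num); have n1 := hnest 1 (by norm_num)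
  norm_num at e0 e1 e2 n0 n1
  have hrw : 0 < 10 * (b 2 + 1 + 1) := by linarith
  -- the small numbers
  obtain ⟨𝔤₀, H₀, ha₀, hb₀, -, -, he1, he0, ⟨c16, c1⟩, ⟨c06, c0⟩⟩ := pvnp_choose (fun k : Fin 3 => a k) (fun k : Fin 3 => b k + 1) ha
    (by intro k; fin_cases k <;> simp <;> linarith) (by simp; linarith) (by simp; linarith)
    (C1 := fun d => 6 * d ≤ 1 / 2 ∧ ∀ (h μ : ℕ → ℝ), (∀ m, 0 < h m) → (∀ m, 0 < μ m) → ∀ R₁, 1 / 2 / 2 - d ≤ R₁ →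
      ∀ m, ∀ᶠ ε in 𝓝[>] (0 : ℝ), ∀ p, pvP ε (pvnfFlag h μ (10 * (b 2 + 1 + 1)) d (1 / 2) R₁ m p) ≤ ENNReal.ofReal z)
    (C0 := fun e d => 6 * d ≤ e ∧ ∀ (h μ : ℕ → ℝ), (∀ m, 0 < h m) → (∀ m, 0 < μ m) → ∀ R₁, e / 2 - d ≤ R₁ →
      ∀ m, ∀ᶠ ε in 𝓝[>] (0 : ℝ), ∀ p, pvP ε (pvnfFlag h μ (10 * (b 2 + 1 + 1)) d e R₁ m p) ≤ ENNReal.ofReal z)
    (pvn8_F2 hrw (by norm_num) hz0) (fun e he => pvn8_F2 hrw he hz0) 1 1
  -- `p_*`, `β₀`
  set 𝔤₁ : PvmhNum := 𝔤₀.wp (pvszP 𝔤₀.NN) with h𝔤₁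
  have H₁ : 𝔤₁.OK := H₀.wp _
  have hp0 : 0 < pvszP 𝔤₀.NN := pvsz_P_pos _
  have hp1 : pvszP 𝔤₀.NN ≤ 1 := by
    unfold pvszP
    have := pow_le_one₀ (n := 15 * pvszLen 𝔤₀.NN) pvsz_Q_pos.le pvsz_Q_le
    linarith
  set n : ℕ := Fintype.card (PvmhT 𝔤₁) with hn
  set β₀ : ℝ := z * pvszP 𝔤₀.NN / (8 * (n + 1)) with hβ₀
  have hβ₀0 : 0 < β₀ := by positivity
  refine ⟨𝔤₁.wβ β₀, ⟨H₁.wβ _, hp0, hp1⟩, ⟨c06, by rw [← he1] at c16; exact c16⟩, ⟨fun k => congrFun ha₀ k, fun k => congrFun hb₀ k⟩, hβ₀0, fun β hβ0 hβ1 x R => ?_⟩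
  have H₂ : (𝔤₁.wβ β).OK := H₁.wβ β
  have hb3 : 10 * (𝔤₁.wβ β).b3 = 10 * (b 2 + 1 + 1) := by
    show 10 * (𝔤₀.b 2 + 1) = _
    rw [hb₀]
    rfl
  obtain ⟨U, hU1, HU⟩ := pvn8_block (𝔤 := 𝔤₁.wβ β) H₂ rfl hz0 (by
    show 8 * β * (n : ℝ) ≤ z * pvszP 𝔤₀.NN
    have h1 : 8 * β₀ * ((n : ℝ) + 1) = z * pvszP 𝔤₀.NN := by rw [hβ₀]; field_simp
    have hβ1' : β ≤ β₀ := hβ1
    have h2 : 8 * β * (n : ℝ) ≤ 8 * β₀ * ((n : ℝ) + 1) := by
      have : (0 : ℝ) ≤ n := Nat.cast_nonneg n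
      nlinarith
    linarith)
  have hmu : ∀ m, 0 < (𝔤₁.wβ β).mu * pvlmH m := fun m => mul_pos H₂.mu0 (pvlm_H_pos m)
  filter_upwards [(hQB _ H₂).small (ENNReal.ofReal z) (ENNReal.ofReal_pos.2 hz0) x R] with m hm
  have hsm : ∀ᶠ ε in 𝓝[>] (0 : ℝ), ε < (𝔤₁.wβ β).dl * pvlmH m / 5 / U :=
    mem_nhdsWithin_of_mem_nhds (Iio_mem_nhds (by have := H₂.dl0; have := pvlm_H_pos m; positivity))
  filter_upwards [hm, hsm, self_mem_nhdsWithin, c0 pvlmH (fun m => (𝔤₁.wβ β).mu * pvlmH m) pvlm_H_pos hmu 1 (by have := H₀.d0_le; have := H₀.e0_le; have := H₀.d1_le; have := H₀.e1_le; have := H₀.d0_ge; have := H₀.dl0; linarith) m,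
    c1 pvlmH (fun m => (𝔤₁.wβ β).mu * pvlmH m) pvlm_H_pos hmu 1 (by have := H₀.d0_le; have := H₀.e0_le; have := H₀.d0_ge; have := H₀.dl0; linarith) m] with ε q1 q2 q3 q4 q5 p hp
  have hUε : U * ε ≤ (𝔤₁.wβ β).dl * pvlmH m / 5 := by
    rw [lt_div_iff₀ (by linarith)] at q2
    linarith
  refine (HU ε q3 (pvlmH m) (pvlm_H_pos m) hUε p (pvxqF0 (𝔤₁.wβ β) (QB (𝔤₁.wβ β)) m p)).trans (le_trans ?_ hzζ)
  have hF0 : pvP ε (pvxqF0 (𝔤₁.wβ β) (QB (𝔤₁.wβ β)) m p) ≤ ENNReal.ofReal z + ENNReal.ofReal z + ENNReal.ofReal z := by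
    unfold pvxqF0
    refine (measure_union_le _ _).trans (add_le_add ((measure_union_le _ _).trans (add_le_add (q1 p hp) ?_)) ?_)
    · rw [hb3]
      exact q4 p
    · rw [hb3]
      have := q5 p
      rw [← he1] at this
      exact this
  refine (add_le_add hF0 le_rfl).trans (le_of_eq ?_)
  rw [← ENNReal.ofReal_add hz0.le hz0.le, ← ENNReal.ofReal_add (by positivity) hz0.le, ← ENNReal.ofReal_add (by positivity) (by positivity)]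
  congr 1
  ring

/-! ## 7. THE ROOF -/

/-- the roof at given numbers -/
theorem pvxq_main_at {c : ℝ} {𝔤 : PvmhNum} (H : 𝔤.OK) (H6 : PvxqNum 𝔤) (hpst : 0 < 𝔤.pst) {QB : ℝ → ℂ → Set (Conf PvPt)} (hQB : PvxqQB 𝔤 QB) {a b : ℕ → ℝ} (hM : PvxqMatch a b 𝔤) {x : ℂ} {R : ℝ} (hR : 0 < R)
    (hX2 : PvX2 3 a b pvlmH (pvlmR c) (pvxqFlag 𝔤 QB) x R) (𝔓 : PvrxPar (PvmhT 𝔤) c) (hmod : 𝔓.mod = pvmhMod 𝔤 QB) (hmenu : 𝔓.𝔐 = pvmhMenu 𝔤 H) : PvrxPinsOK 𝔓 x R := by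
  have hlim : Tendsto (fun m => (𝔤.Lr + 2) * pvlmH m) atTop (𝓝 0) := by simpa using pvlm_H_lim.const_mul (𝔤.Lr + 2)
  have hmu : 2 * 𝔤.mu ≤ 1 := by
    have := H.mu0; have := H.mu_le; have := H.d0_ge; have := H.d0_le; have := H.e0_le; have := H.d1_le; have := H.e1_le
    linarith
  have key := pvxq_glue (pvmhMenu 𝔤 H) a b pvlmH (pvlmR c) (fun m ε ω P => 𝔓.pins x R m ε ω P) (pvxqFlag 𝔤 QB) x R hX2
    (fun m _ => {q | ¬ PvxqGood 𝔤 (pvlmH m) x R (pvMerge q)}) (pvxq_good_small H x hR) ?_ ?_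
  · unfold PvrxPinsOK
    rw [hmenu]
    exact key
  · refine Eventually.of_forall fun m ε q _ P hP s hs => ?_
    have hs' : s ∈ pvspPins (pvmhMod 𝔤 QB) ε (pvlmH m) x R (pvMerge q) P := hmod ▸ hs.2.2.2
    exact pvxq_trap H QB (pvlm_H_pos m).le x R (pvMerge q) P hP s hs'
  · have hlim2 : Tendsto (fun m => (𝔓.Lr + 1) * pvlmH m) atTop (𝓝 0) := by simpa using pvlm_H_lim.const_mul (𝔓.Lr + 1)
    filter_upwards [hlim.eventually (ge_mem_nhds (show (0 : ℝ) < R / 2 by positivity)), hlim2.eventually (ge_mem_nhds hR), eventually_ge_atTop 𝔓.m0] with m hm hm2 hm0 ε q hq P hP k p hk hkx hpl hfl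
    have hgood : PvxqGood 𝔤 (pvlmH m) x R (pvMerge q) := by
      by_contra hcon
      exact hq hcon
    obtain ⟨s, hs⟩ := pvxq_di H H6 hpst hQB hR hm hgood hP.1 hk hkx hpl.near (fun j => by
      have := hpl.gate j.1 j.2
      rw [hM.a j, hM.b j]
      exact pvxq_gate_mono this (mul_le_mul_of_nonneg_right (by linarith) (pvlm_H_pos m).le)) hfl
    have hloc : ‖l9Pt (pvlmH m) p - x‖ + 𝔓.Lr * pvlmH m ≤ 3 * R := by
      have h1 : ‖l9Pt (pvlmH m) p - x‖ ≤ ‖P.v k - l9Pt (pvlmH m) p‖ + ‖P.v k - x‖ := by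
        have e : l9Pt (pvlmH m) p - x = -(P.v k - l9Pt (pvlmH m) p) + (P.v k - x) := by ring
        rw [e]
        refine (norm_add_le _ _).trans ?_
        rw [norm_neg]
      have h2 := hpl.near
      have h3 : (𝔓.Lr + 1) * pvlmH m ≤ R := hm2
      linarith
    have hblk : (𝔓.ty m (l9Pt (pvlmH m) p) s).col = true := by
      unfold PvrxPar.ty
      rw [hmod]
      exact hs.col.symm.trans (pvdb_blk_col hP (by linarith))
    exact ⟨s, ⟨hm0, hblk⟩, hloc, ⟨p, rfl⟩, hmod.symm ▸ hs⟩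

/-- **THE ROOF OF THE PINS, ROAD P** = `exit_pvrz_pins` of 186 (`Exit/ParP.lean`) VERBATIM: the pins CHOOSE THE NUMBERS `𝔤` and a largest threshold `𝔤.β`; the field `pins` of `PvrxAll` holds at the explicit parameter
`pvrzPar c (𝔤.wβ β) .. Γ m0` for every `0 < β ≤ 𝔤.β`, all doors `Γ`, every first level `m0` -/
theorem pvxq_main (c : ℝ) (c0 : 0 < c) : ∃ (𝔤 : PvmhNum) (H : PvrzGood 𝔤), 0 < 𝔤.β ∧ ∀ β : ℝ, 0 < β → β ≤ 𝔤.β →
    ∀ (Γ : ℕ → PvtsGeo (PvmhT (𝔤.wβ β))) (m0 : ℕ) (x : ℂ) (R : ℝ), 0 < R → PvrxPinsOK (pvrzPar c (𝔤.wβ β) (H.wβ β) Γ m0) x R := by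
  obtain ⟨a, b, L, ζ, hL, hζ, h1, h2, hA⟩ := pvx2_main 30 (10 ^ 5) 3 1
  obtain ⟨𝔤, H, H6, hM, hβ, hnum⟩ := exit_pinsP_num a b (h1 0 (by norm_num)).1 (fun j hj => (h1 j hj).2.1) h2 ζ hζ (fun _ _ _ => univ) (fun 𝔤 _ => pvxq_QB_univ 𝔤)
  refine ⟨𝔤, H, hβ, fun β hβ0 hβ1 Γ m0 x R hR => ?_⟩
  have hM' : PvxqMatch a b (𝔤.wβ β) := ⟨hM.a, hM.b⟩
  have H6' : PvxqNum (𝔤.wβ β) := ⟨H6.d0_6, H6.d1_6⟩
  have hw : pvxqW b ≤ 1 * L := by
    have e0 := (h1 0 (by norm_num)).1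
    have e1 := (h1 0 (by norm_num)).2.1
    have e2 := h2 0 (by norm_num)
    have e3 := (h1 1 (by norm_num)).2.1
    have e4 := h2 1 (by norm_num)
    have e5 := (h1 2 (by norm_num)).2.1
    have e6 := (h1 2 (by norm_num)).2.2
    rw [one_mul]
    unfold pvxqW
    refine Nat.ceil_le.2 ?_
    norm_num at e0 e1 e2 e3 e4 e5 e6 ⊢
    linarith
  have hX2 : PvX2 3 a b pvlmH (pvlmR c) (pvxqFlag (𝔤.wβ β) fun _ _ => univ) x R :=
    hA pvlmH (pvlmR c) (pvlmKap c) (pvlm_Kap_pos c0) pvlm_H_pos pvlm_H_lim (Eventually.of_forall fun m => le_of_eq rfl) (pvxqW b) hw (pvxqFlag (𝔤.wβ β) fun _ _ => univ)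
      (fun m ε p => pvxq_flag_reads (H.wβ β).ok (pvxq_QB_univ _) (hM'.b 2) m ε p) x R hR (hnum β hβ0 hβ1 x (6 * R))
  exact pvxq_main_at (H.wβ β).ok H6' H.pst0 (pvxq_QB_univ _) hM' hR hX2 _ rfl rfl

end Claimed.Agent.R289
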