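-- KEEP
import Claimed.Agent.R289.Tr.StripP
import Claimed.Agent.R289.Tr.ModP
import Claimed.Agent.R289.Tr.NumP

/-!
# Row 289 (S0537), THE WALL, ROAD P, Exit/PinsPD : THE COST OF F3 AT THE MODEL      (helper89, third pen of `exit_pvrz_pins`; prefix `pvqj2_`)

The flag F3 of the candidate `(z, s)` of the model `pvmhMod 𝔤 QB` (8, `Tr/ModP.lean`) is `(pvspHg 𝔤.sp (𝔤.ty h z s) h)ᶜ = {ξ | P^η(A_κ) < p_*}`.      Its cost is M12 = `pvmw_exit` (277, `Tr/LaneW.lean`; QBX is closed).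
THE SEAM.   `Tr/StripP.lean` (277) proves the cost for ITS placed candidate (window of the retained triangles = a BALL, doors = the two door windows) and bridges to 185 by the record `PvszIs`, which is NOT satisfiable at `𝔤.ty`
(86: `EJ` of the model is a union of cells, the doors of the model also serve the black tubes).      HERE: no bridge.   `PvmwGood.Q_ge` of 277 takes ANY window `E ⊇ pvmwE`, ANY strip `S ⊇` window of the lane, ANY doors `⊇` the door windows: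
it is applied DIRECTLY at `EJ`, `pvspJ`, `Dm`, `Dp` of `𝔤.ty h z s`.      Only three inclusions are read from the model (`pvqj2_E_sub`, `pvqj2_J`, `at' z DA ⊆ Dm`, `at' z DB ⊆ Dp`): the file survives the cures of the doors.
* `pvqj2_E_sub`    the squares of half side `2 δ / 5` round the fine cells of the corridor lie in `U(N¹ Cells(S))`
* `pvqj2_J`        `pvspJ (𝔤.ty h z s) = pvszS (dl h) z τ ln`
* `pvqj2_good`     good geometry of the shifted corridor  ⟹  `p ≤ P^η(A_κ)` at the model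
* `pvqj2_grid`     `l9Pt h p` is a vector of the fine grid `(dl h / 5) ℤ²` (`dl = 1 / nd`)
* **`pvqj2_F3_cost`**   `∃ U ≥ 1`: for all `ε h` with `U ε ≤ dl h / 5`, all grid centres, all types: `pvP ε (Hg)ᶜ ≤ θ`   (ANY `θ > 0`, `p_* ≤ pvszP 𝔤.NN`)
* **`pvqj2_F3_ev`**     the same in the filter form of the field `small`: at EVERY level `m`, eventually in `ε`, ALL centres, all types.
-/

set_option autoImplicit false
set_option linter.unusedSectionVars false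

namespace Claimed.Agent.R289

open MeasureTheory Filter Topology Set Metric Claims.C0465
open scoped ENNReal

/-- the window of 277 lies in the window of the model -/
theorem pvqj2_E_sub {δ : ℝ} (hδ : 0 < δ) (z : ℂ) (τ : PvmnType) (ln : ((ℤ × ℤ) × (ℤ × ℤ)) × ℕ) :
    pvszTr z (pvszE0 δ τ ln) ⊆ pvmgPl z δ (pvtwN 1 (pvtCells δ (pvlpS δ τ ln))) := by
  rintro q ⟨q0, hq0, rfl⟩
  unfold pvszE0 at hq0
  simp only [mem_iUnion, exists_prop, Set.mem_Icc] at hq0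
  obtain ⟨i, ⟨-, hi⟩, h1, h2⟩ := hq0
  -- the centre of the fine cell lies in the strip
  have hc : pvtCtr (δ / 5) (pvlpC τ ln i) ∈ pvlpS δ τ ln :=
    mem_biUnion (show i ∈ Set.Icc 0 (pvlpN τ ln) from ⟨Nat.zero_le _, hi⟩) ⟨by simp; positivity, by simp; positivity⟩
  have hp : pvtCtr (δ / 5) (pvlpC τ ln i) + z ∈ pvmgPl z δ (pvtCells δ (pvlpS δ τ ln)) := ⟨_, pvt_cells_cover hδ hc, rfl⟩
  refine pvmg_near hδ hp ?_
  have e : q0 + z - (pvtCtr (δ / 5) (pvlpC τ ln i) + z) = q0 - pvtCtr (δ / 5) (pvlpC τ ln i) := by ring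
  show ‖q0 + z - (pvtCtr (δ / 5) (pvlpC τ ln i) + z)‖ ≤ ((1 : ℕ) : ℝ) * δ
  rw [e]
  have h3 := Complex.norm_le_abs_re_add_abs_im (q0 - pvtCtr (δ / 5) (pvlpC τ ln i))
  rw [Complex.sub_re, Complex.sub_im] at h3
  push_cast
  linarith

section model

variable {𝔤 : PvmhNum} (H : 𝔤.OK) {h : ℝ}

/-- the strip of the model is the placed strip of 277 -/
theorem pvqj2_J (𝔤 : PvmhNum) (h : ℝ) (z : ℂ) (s : PvmhT 𝔤) : pvspJ (𝔤.ty h z s) = pvszS (𝔤.dl * h) z s.typ s.ln :=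
  (pvsz_S_union (𝔤.dl * h) 𝔤.nK z s.typ s.ln).symm

include H

/-- **M12, deterministic half, AT THE MODEL** -/
theorem pvqj2_good (hh : 0 < h) (s : PvmhT 𝔤) (o : ℤ × ℤ) {p : ℝ} {g : PvGeoT} (hg : PvmwGood p (𝔤.dl * h / 5) (!s.typ.col) (pvszL s.typ s.ln o) g) (x : PvColT) :
    p ≤ pvpQ (pvspJ (𝔤.ty h (pvmgPt (𝔤.dl * h / 5) o) s)) (!(𝔤.ty h (pvmgPt (𝔤.dl * h / 5) o) s).col) (pvspLane 𝔤.sp (𝔤.ty h (pvmgPt (𝔤.dl * h / 5) o) s) h) (pvConf (pvMerge (g, x))) := by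
  have hδ : 0 < 𝔤.dl * h := mul_pos H.dl0 hh
  refine hg.Q_ge (ρ := 𝔤.sp.mu * h) (E := (𝔤.ty h (pvmgPt (𝔤.dl * h / 5) o) s).EJ) (S := pvspJ (𝔤.ty h (pvmgPt (𝔤.dl * h / 5) o) s))
    (A := (𝔤.ty h (pvmgPt (𝔤.dl * h / 5) o) s).Dm) (B := (𝔤.ty h (pvmgPt (𝔤.dl * h / 5) o) s).Dp) (by positivity) (pvsz_L_ne _ _ o) (pvsz_L_chain s.isType s.isLane o) ?_ ?_
    (pvsp_J_bdd (pvmh_wf H _ s hh)) ?_ (k := pvlpC s.typ s.ln 0 + o) (k' := pvlpC s.typ s.ln (pvlpN s.typ s.ln) + o) (pvsz_mem_L.2 ⟨0, Nat.zero_le _, rfl⟩) (pvsz_mem_L.2 ⟨_, le_rfl, rfl⟩) ?_ ?_ x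
  · show 𝔤.dl * h / 5 / 4 ≤ 𝔤.mu * h
    rw [H.mu_eq]
    exact le_of_eq (by ring)
  · rw [pvsz_E]
    exact pvqj2_E_sub hδ _ _ _
  · rw [pvsz_W, pvqj2_J]
    exact Subset.rfl
  · rw [pvsz_W_one]
    exact subset_union_right
  · rw [pvsz_W_one]
    exact subset_union_right

/-- a grid centre is a vector of the fine grid -/
theorem pvqj2_grid (h : ℝ) (p : ℤ × ℤ) : l9Pt h p = pvmgPt (𝔤.dl * h / 5) (pvszO (5 * 𝔤.nd) p) := by
  refine pvsz_l9 ?_ p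
  have hn : (0 : ℝ) < 𝔤.nd := by exact_mod_cast H.nd0
  rw [H.dl_eq]
  push_cast
  field_simp

/-- `Hg` of the model belongs to the stable class of 263 -/
theorem pvqj2_Hg_ms (hh : 0 < h) (z : ℂ) (s : PvmhT 𝔤) : PvpMs fun ξ => ξ ∈ (pvspHg 𝔤.sp (𝔤.ty h z s) h)ᶜ := by
  have hW := pvmh_wf H z s hh
  have h1 : PvpMs (pvpQ (pvspJ (𝔤.ty h z s)) (!(𝔤.ty h z s).col) (pvspLane 𝔤.sp (𝔤.ty h z s) h)) := pvpQ_ms (pvsp_J_meas hW) (pvsp_J_bdd hW) _ (PvpMs.of_set (pvsp_lane_meas hW))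
  exact h1.comp (φ := fun q : ℝ => ¬ 𝔤.sp.pst ≤ q) (measurableSet_setOfPred.1 (measurableSet_Ici.compl))

/-- **THE COST OF F3 AT THE MODEL**: uniform in the grid centre, in the type, in the scale `dl h ≥ 5 U ε` -/
theorem pvqj2_F3_cost (hp : 𝔤.pst ≤ pvszP 𝔤.NN) {θ : ℝ} (hθ : 0 < θ) : ∃ U : ℝ, 1 ≤ U ∧ ∀ ε h : ℝ, 0 < ε → U * ε ≤ 𝔤.dl * h / 5 → ∀ (p : ℤ × ℤ) (s : PvmhT 𝔤),
    pvP ε (pvspHg 𝔤.sp (𝔤.ty h (l9Pt h p) s) h)ᶜ ≤ ENNReal.ofReal θ := by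
  obtain ⟨U, hU1, HU⟩ := pvsz_Q_spec (pvszLen 𝔤.NN) hθ
  refine ⟨U, hU1, fun ε h hε hU p s => ?_⟩
  have hdl := H.dl0
  have hh : 0 < h := by
    have h1 : 0 < 𝔤.dl * h / 5 := lt_of_lt_of_le (by positivity) hU
    by_contra hc
    have : 𝔤.dl * h ≤ 0 := mul_nonpos_of_nonneg_of_nonpos hdl.le (not_lt.1 hc)
    linarith
  rw [pvmz_apply (pvqj2_Hg_ms H hh _ s) ε, pvqj2_grid H h p]
  have hsub : pvConf ⁻¹' (pvspHg 𝔤.sp (𝔤.ty h (pvmgPt (𝔤.dl * h / 5) (pvszO (5 * 𝔤.nd) p)) s) h)ᶜ ⊆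
      {ω | pvGeoOf ω ∈ {g | ¬ PvmwGood (pvszP 𝔤.NN) (𝔤.dl * h / 5) (!s.typ.col) (pvszL s.typ s.ln (pvszO (5 * 𝔤.nd) p)) g}} := by
    intro ω hω hg
    have h1 := pvqj2_good H hh s (pvszO (5 * 𝔤.nd) p) hg (pvColOf ω)
    rw [pvqu_merge_of] at h1
    exact hω (hp.trans h1)
  exact ((measure_mono hsub).trans (pvax_geo_le ε _)).trans (HU ε hε _ hU _ _ (pvsz_L_ne _ _ _) (pvsz_L_chain s.isType s.isLane _) (pvsz_L_len s.isType s.isLane _))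

/-- **THE COST OF F3 AT THE MODEL, filter form**: at every scale `h > 0`, eventually in `ε`, all grid centres, all types, ANY budget -/
theorem pvqj2_F3_ev (hp : 𝔤.pst ≤ pvszP 𝔤.NN) {ζ : ℝ≥0∞} (hζ : 0 < ζ) (hh : 0 < h) : ∀ᶠ ε in 𝓝[>] (0 : ℝ), ∀ (p : ℤ × ℤ) (s : PvmhT 𝔤),
    pvP ε (pvspHg 𝔤.sp (𝔤.ty h (l9Pt h p) s) h)ᶜ ≤ ζ := by
  obtain ⟨θ, hθ, hθζ⟩ : ∃ θ : ℝ, 0 < θ ∧ ENNReal.ofReal θ ≤ ζ := by
    rcases eq_or_ne ζ ⊤ with rfl | hne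
    · exact ⟨1, one_pos, le_top⟩
    · exact ⟨ζ.toReal, ENNReal.toReal_pos hζ.ne' hne, by rw [ENNReal.ofReal_toReal hne]⟩
  obtain ⟨U, hU1, HU⟩ := pvqj2_F3_cost H hp hθ
  have hpos : (0 : ℝ) < 𝔤.dl * h / 5 / U := by have := H.dl0; positivity
  filter_upwards [mem_nhdsWithin_of_mem_nhds (Iio_mem_nhds hpos), self_mem_nhdsWithin] with ε hε hε0 p s
  refine (HU ε h hε0 ?_ p s).trans hθζ
  have hU0 : 0 < U := by linarith
  have := (lt_div_iff₀ hU0).1 hε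
  linarith

end model

end Claimed.Agent.R289
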