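import Claimed.Agent.R289.Exit.Qbx
import Claimed.Agent.R289.Qbx.Rect

/-!
# Row 289 (S0537), Exit/Qbx2 : THE UNCONDITIONAL EXITS OF STAGE 2 OF THE BOX QBX (quenched crossings of rectangles, circuits, families)      (wired by helper167; proofs = helper298, Qbx/Rect; head helper30)

0 sorry, axioms = the standard three.      Everything is `Qbx/Rect.lean` (298: midline annuli + `pvr_hex` + quenched Harris) applied to `exit_pv_qbx_s1 : PvqxS1` (Exit/Qbx).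
* **`exit_pv_qbx_rect ρ`**      rectangles of aspect ratio `≤ ρ`, crossed in the LONG direction, LR and TB, black and white, every position: EX q > 0, ALL δ > 0, EX U > 0: `short side ≥ U ε` ⟹ `pvGeo ε {g | pvQc (crossing) g < q} ≤ δ`
* **`exit_pv_qbx_circ`**      the four crossings `pvreAnn cx cy t` of the square annulus `(t, 2t)` at once (a circuit), both colours
* **`exit_pv_qbx_family`**      ANY event forced (on `PvrOk`) by `K` events "no white arm across the square annulus `(z i; u/2, 5u/2)`": quenched probability `≥ q ^ K` off a set of geometries of probability `≤ δ`, `u ≥ U(K, δ) ε`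
* `exit_pv_qbx_rect_lim`, `exit_pv_qbx_circ_lim`      fixed pattern, mesh `→ 0`
Tools to combine them at one geometry (no hypothesis, in Qbx/Rect): `pvqy_harris`, `pvqy_harris_pow`, `pvqy_harris_list`, `pvqy_all`, `pvqy_all_white`; mixed colours: `pvhk_Qc_net` (5, Tr/Hook).
-/

set_option autoImplicit false

namespace Claimed.Agent.R289

open MeasureTheory ProbabilityTheory Set Filter Topology
open scoped ENNReal NNReal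

/-- **QUENCHED BOX CROSSING**, unconditional: rectangles of aspect ratio `≤ ρ` crossed in the long direction -/
theorem exit_pv_qbx_rect (ρ : ℝ) : ∃ q : ℝ, 0 < q ∧ ∀ δ : ℝ, 0 < δ → ∃ U : ℝ, 0 < U ∧ ∀ ε : ℝ, 0 < ε → ∀ x0 x1 y0 y1 : ℝ,
    (x0 ≤ x1 → U * ε ≤ y1 - y0 → x1 - x0 ≤ ρ * (y1 - y0) →
      pvGeo ε {g | pvQc (pvrEv (rswLR x0 x1 y0 y1)) g < ENNReal.ofReal q} ≤ ENNReal.ofReal δ ∧
      pvGeo ε {g | pvQc (pvrEvW (rswLR x0 x1 y0 y1)) g < ENNReal.ofReal q} ≤ ENNReal.ofReal δ) ∧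
    (y0 ≤ y1 → U * ε ≤ x1 - x0 → y1 - y0 ≤ ρ * (x1 - x0) →
      pvGeo ε {g | pvQc (pvrEv (rswTB x0 x1 y0 y1)) g < ENNReal.ofReal q} ≤ ENNReal.ofReal δ ∧
      pvGeo ε {g | pvQc (pvrEvW (rswTB x0 x1 y0 y1)) g < ENNReal.ofReal q} ≤ ENNReal.ofReal δ) :=
  pvqy_rect exit_pv_qbx_s1 ρ

/-- **QUENCHED CIRCUITS**, unconditional: the four crossings of the square annulus `(t, 2t)` at once -/
theorem exit_pv_qbx_circ : ∃ q : ℝ, 0 < q ∧ ∀ δ : ℝ, 0 < δ → ∃ U : ℝ, 0 < U ∧ ∀ ε : ℝ, 0 < ε → ∀ t : ℝ, U * ε ≤ t → ∀ cx cy : ℝ,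
    pvGeo ε {g | pvQc {η | ∀ e ∈ pvreAnn cx cy t, e.Holds (cfB η)} g < ENNReal.ofReal q} ≤ ENNReal.ofReal δ ∧
    pvGeo ε {g | pvQc {η | ∀ e ∈ pvreAnn cx cy t, e.Holds (cfW η)} g < ENNReal.ofReal q} ≤ ENNReal.ofReal δ :=
  pvqy_circ exit_pv_qbx_s1

/-- **THE GENERAL FORM**, unconditional: any event forced by `K` blocking events at one scale -/
theorem exit_pv_qbx_family : ∃ q : ℝ, 0 < q ∧ ∀ (K : ℕ) (δ : ℝ), 0 < δ → ∃ U : ℝ, 0 < U ∧ ∀ ε : ℝ, 0 < ε → ∀ u : ℝ, U * ε ≤ u →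
    ∀ (z : ℕ → ℂ) (𝒯 : Set (Conf PvPt)), (∀ η, PvrOk η → (∀ i < K, η ∈ pvqyNoW (rswArm (z i).re (z i).im (u / 2) (5 * u / 2))) → η ∈ 𝒯) →
      pvGeo ε {g | pvQc 𝒯 g < ENNReal.ofReal (q ^ K)} ≤ ENNReal.ofReal δ :=
  pvqy_family exit_pv_qbx_s1

/-- a fixed rectangle, mesh `→ 0` -/
theorem exit_pv_qbx_rect_lim (ρ : ℝ) : ∃ q : ℝ, 0 < q ∧ ∀ x0 x1 y0 y1 : ℝ,
    (x0 ≤ x1 → y0 < y1 → x1 - x0 ≤ ρ * (y1 - y0) →
      Tendsto (fun ε : ℝ => pvGeo ε {g | pvQc (pvrEv (rswLR x0 x1 y0 y1)) g < ENNReal.ofReal q}) (𝓝[>] 0) (𝓝 0) ∧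
      Tendsto (fun ε : ℝ => pvGeo ε {g | pvQc (pvrEvW (rswLR x0 x1 y0 y1)) g < ENNReal.ofReal q}) (𝓝[>] 0) (𝓝 0)) ∧
    (y0 ≤ y1 → x0 < x1 → y1 - y0 ≤ ρ * (x1 - x0) →
      Tendsto (fun ε : ℝ => pvGeo ε {g | pvQc (pvrEv (rswTB x0 x1 y0 y1)) g < ENNReal.ofReal q}) (𝓝[>] 0) (𝓝 0) ∧
      Tendsto (fun ε : ℝ => pvGeo ε {g | pvQc (pvrEvW (rswTB x0 x1 y0 y1)) g < ENNReal.ofReal q}) (𝓝[>] 0) (𝓝 0)) :=
  pvqy_rect_lim exit_pv_qbx_s1 ρ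

/-- a fixed square annulus `(t, 2t)`, mesh `→ 0` -/
theorem exit_pv_qbx_circ_lim : ∃ q : ℝ, 0 < q ∧ ∀ t : ℝ, 0 < t → ∀ cx cy : ℝ,
    Tendsto (fun ε : ℝ => pvGeo ε {g | pvQc {η | ∀ e ∈ pvreAnn cx cy t, e.Holds (cfB η)} g < ENNReal.ofReal q}) (𝓝[>] 0) (𝓝 0) ∧
    Tendsto (fun ε : ℝ => pvGeo ε {g | pvQc {η | ∀ e ∈ pvreAnn cx cy t, e.Holds (cfW η)} g < ENNReal.ofReal q}) (𝓝[>] 0) (𝓝 0) :=
  pvqy_circ_lim exit_pv_qbx_s1

end Claimed.Agent.R289
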