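import Claimed.Agent.R289.Exit.RestP
import Claimed.Agent.R289.Exit.CoverPM
import Claimed.Agent.R289.Tr.PatPF

/-!
# Row 289 (S0537), ROAD P, Exit/RegRP : RUN AT THE MODEL = the FIT-time half of `exit_pvus_reg` (286, `Exit/ArcRP.lean`)      (pen helper236; prefix `pvrcn_`, `pvrcn`, `Pvrcn`)

The regions of the free side of a pattern depend on the PATTERN only; the rim varies.   What EVERY fitting rim owes to the regions (212 `Tr/N1RegQ.lean`: generic construction; 205 `Tr/GlueWM.lean`: ring lane):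
* sec. 1  cells: balls in fattened cells (`pvrcn_box_sub`, `pvrcn_ball_sub`), coarse cell / fine cells of 138 (`pvrcn_ball_fine`), coarse cells against the link cells of ANOTHER rim with the same coarse cells (`pvrcn_ref_sub`)
* sec. 2  one pin with an exact fit: the forward run is far from the closing side `N^8(cells 0..4)` off the bar, from the negative tentacle; mirror
* sec. 3  a pair: **`pvrcn_run`**  (R0) `P.v l ∈ pvtU dc G`,  (R1) `closedBall (P.v l) (6 df) ⊆ regT`,  (R2) far from the two closing sides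
* sec. 4  at the terms of `Exit/RestP.lean`
* sec. 5  ALL THE POINTS OF THE TUBE: `pvrcn_U_pt`, (W1) `pvrcn_U_win`, (R1') `pvrcn_U_T`, (R2') `pvrcn_U_ClS`, `pvrcn_U_ClT` (4 menu cells), numbers `pvrcn_dc_le`, `pvrcn_df_le`
-/

set_option autoImplicit false
set_option linter.unusedSectionVars false
set_option linter.unusedVariables false

namespace Claimed.Agent.R289

open MeasureTheory Filter Topology Set Metric Claims.C0465 Claims.C0467 Claimed.Agent.R291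

/-! ## 1. cells -/

section cells

/-- a real number between two grid lines lies in a closed grid interval between them -/
theorem pvrcn_cell1 {δ : ℝ} (hδ : 0 < δ) {x : ℝ} {lo hi : ℤ} (h1 : (lo : ℝ) * δ ≤ x) (h2 : x ≤ ((hi : ℝ) + 1) * δ) (hlh : lo ≤ hi) :
    ∃ a : ℤ, lo ≤ a ∧ a ≤ hi ∧ (a : ℝ) * δ ≤ x ∧ x ≤ ((a : ℝ) + 1) * δ := by
  have f1 : lo ≤ ⌊x / δ⌋ := Int.le_floor.2 ((le_div_iff₀ hδ).2 h1)
  have f2 : (⌊x / δ⌋ : ℝ) * δ ≤ x := (le_div_iff₀ hδ).1 (Int.floor_le _)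
  have f3 : x ≤ ((⌊x / δ⌋ : ℝ) + 1) * δ := (div_le_iff₀ hδ).1 (Int.lt_floor_add_one _).le
  rcases le_total ⌊x / δ⌋ hi with h | h
  · exact ⟨⌊x / δ⌋, f1, h, f2, f3⟩
  · refine ⟨hi, hlh, le_rfl, ?_, h2⟩
    have : (hi : ℝ) ≤ (⌊x / δ⌋ : ℝ) := by exact_mod_cast h
    nlinarith

/-- the sup-ball of radius `j δ` round a point of the cell `c` lies in the closed cells of `N^j {c}` -/
theorem pvrcn_box_sub {δ : ℝ} (hδ : 0 < δ) (j : ℕ) {c : ℤ × ℤ} {p q : ℂ} (hp : p ∈ pvtSq δ c) (h1 : |q.re - p.re| ≤ (j : ℝ) * δ) (h2 : |q.im - p.im| ≤ (j : ℝ) * δ) :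
    q ∈ pvtU δ (pvtwN j {c}) := by
  obtain ⟨p1, p2, p3, p4⟩ := hp
  rw [abs_le] at h1 h2
  obtain ⟨a, a1, a2, a3, a4⟩ := pvrcn_cell1 hδ (x := q.re) (lo := c.1 - j) (hi := c.1 + j) (by push_cast; nlinarith) (by push_cast; nlinarith) (by omega)
  obtain ⟨b, b1, b2, b3, b4⟩ := pvrcn_cell1 hδ (x := q.im) (lo := c.2 - j) (hi := c.2 + j) (by push_cast; nlinarith) (by push_cast; nlinarith) (by omega)
  simp only [pvtU, Set.mem_iUnion, exists_prop]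
  exact ⟨(a, b), ⟨c, rfl, by show a ≤ c.1 + j; omega, by show c.1 ≤ a + j; omega, by show b ≤ c.2 + j; omega, by show c.2 ≤ b + j; omega⟩, a3, a4, b3, b4⟩

theorem pvrcn_re_im (q p : ℂ) : |q.re - p.re| ≤ ‖q - p‖ ∧ |q.im - p.im| ≤ ‖q - p‖ := by
  constructor
  · rw [← Complex.sub_re]; exact Complex.abs_re_le_norm _
  · rw [← Complex.sub_im]; exact Complex.abs_im_le_norm _

/-- the ball of radius `j δ` round a point of the cell `c` lies in the closed cells of `N^j {c}` -/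
theorem pvrcn_ball_sub {δ : ℝ} (hδ : 0 < δ) (j : ℕ) {c : ℤ × ℤ} {p : ℂ} (hp : p ∈ pvtSq δ c) : closedBall p ((j : ℝ) * δ) ⊆ pvtU δ (pvtwN j {c}) := by
  intro q hq
  rw [mem_closedBall_iff_norm] at hq
  obtain ⟨h1, h2⟩ := pvrcn_re_im q p
  exact pvrcn_box_sub hδ j hp (h1.trans hq) (h2.trans hq)

/-- **coarse cell / fine cells of 138**: the ball of radius `j` fine cells round a point of the coarse cell `c` lies in the placed fine cells of `D_{mm+j} {c}` -/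
theorem pvrcn_ball_fine {dc : ℝ} (hdc : 0 < dc) {mm : ℤ} (hmm : 0 ≤ mm) (j : ℕ) {c : ℤ × ℤ} {p : ℂ} (hp : p ∈ pvtSq dc c) :
    closedBall p ((j : ℝ) * (dc / (2 * (mm : ℝ) + 1))) ⊆ pvtU (dc / (2 * (mm : ℝ) + 1)) (pvytSh mm '' pvtbD (2 * mm + 1) (mm + j) {c}) := by
  have hK : (0 : ℝ) < 2 * (mm : ℝ) + 1 := by
    have : (0 : ℝ) ≤ (mm : ℝ) := by exact_mod_cast hmm
    linarith
  set df : ℝ := dc / (2 * (mm : ℝ) + 1) with hdf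
  have hdf0 : 0 < df := div_pos hdc hK
  have e : dc = (2 * (mm : ℝ) + 1) * df := by rw [hdf]; field_simp
  intro q hq
  rw [mem_closedBall_iff_norm] at hq
  obtain ⟨h1, h2⟩ := pvrcn_re_im q p
  have g1 := abs_le.1 (h1.trans hq)
  have g2 := abs_le.1 (h2.trans hq)
  obtain ⟨p1, p2, p3, p4⟩ := hp
  rw [e] at p1 p2 p3 p4
  obtain ⟨a, a1, a2, a3, a4⟩ := pvrcn_cell1 hdf0 (x := q.re) (lo := (2 * mm + 1) * c.1 - j) (hi := (2 * mm + 1) * c.1 + 2 * mm + j) (by push_cast; nlinarith) (by push_cast; nlinarith) (by omega)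
  obtain ⟨b, b1, b2, b3, b4⟩ := pvrcn_cell1 hdf0 (x := q.im) (lo := (2 * mm + 1) * c.2 - j) (hi := (2 * mm + 1) * c.2 + 2 * mm + j) (by push_cast; nlinarith) (by push_cast; nlinarith) (by omega)
  simp only [pvtU, Set.mem_iUnion, exists_prop]
  refine ⟨(a, b), ⟨(a - mm, b - mm), ⟨c, rfl, ?_, ?_, ?_, ?_⟩, ?_⟩, a3, a4, b3, b4⟩
  · show (2 * mm + 1) * c.1 - (mm + j) ≤ a - mm; omega
  · show a - mm ≤ (2 * mm + 1) * c.1 + (mm + j); omega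
  · show (2 * mm + 1) * c.2 - (mm + j) ≤ b - mm; omega
  · show b - mm ≤ (2 * mm + 1) * c.2 + (mm + j); omega
  · show (a - mm + mm, b - mm + mm) = (a, b)
    simp

/-- **two sets with the same coarse cells**: with a collar of `j` link cells, the coarse cells of `X` lie in the `(K + j)`-collar of the LINK cells (side `dc / K`) of `X` -/
theorem pvrcn_ref_sub {dc : ℝ} (hdc : 0 < dc) {K : ℕ} (hK : 0 < K) (j : ℕ) (X : Set ℂ) {p q : ℂ} (hp : p ∈ pvtU dc (pvtCells dc X)) (hq : ‖q - p‖ ≤ (j : ℝ) * (dc / K)) :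
    q ∈ pvtU (dc / K) (pvtwN (K + j) (pvtCells (dc / K) X)) := by
  have hK' : (0 : ℝ) < (K : ℝ) := by exact_mod_cast hK
  have hd : 0 < dc / K := div_pos hdc hK'
  have e : dc = (K : ℝ) * (dc / K) := by field_simp
  simp only [pvtU, Set.mem_iUnion, exists_prop] at hp
  obtain ⟨c, ⟨x, hxc, hxX⟩, hpc⟩ := hp
  obtain ⟨v, hv⟩ := pvt_sq_cover hd x
  obtain ⟨x1, x2, x3, x4⟩ := hxc
  obtain ⟨p1, p2, p3, p4⟩ := hpc
  obtain ⟨h1, h2⟩ := pvrcn_re_im q p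
  have g1 := abs_le.1 (h1.trans hq)
  have g2 := abs_le.1 (h2.trans hq)
  have hb := pvrcn_box_sub hd (K + j) (q := q) hv (by rw [abs_le]; push_cast; constructor <;> nlinarith) (by rw [abs_le]; push_cast; constructor <;> nlinarith)
  have hvX : v ∈ pvtCells (dc / K) X := ⟨x, hv, hxX⟩
  exact pvt_U_mono (pvtw_N_mono le_rfl (Set.singleton_subset_iff.2 hvX)) hb

/-- two points at distance `≤ j δ`: their cells are `(j+1)`-neighbours -/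
theorem pvrcn_cell_near {δ : ℝ} (hδ : 0 < δ) (j : ℕ) {c c' : ℤ × ℤ} {p q : ℂ} (hp : p ∈ pvtSq δ c) (hq : q ∈ pvtSq δ c') (h : ‖q - p‖ ≤ (j : ℝ) * δ) : c' ∈ pvtwN (j + 1) {c} := by
  obtain ⟨p1, p2, p3, p4⟩ := hp
  obtain ⟨q1, q2, q3, q4⟩ := hq
  obtain ⟨h1, h2⟩ := pvrcn_re_im q p
  have g1 := abs_le.1 (h1.trans h)
  have g2 := abs_le.1 (h2.trans h)
  have key : ∀ u w : ℤ, (u : ℝ) * δ ≤ ((w : ℝ) + 1) * δ + (j : ℝ) * δ → u ≤ w + (j + 1 : ℕ) := by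
    intro u w huw
    have : (u : ℝ) ≤ (w : ℝ) + 1 + (j : ℝ) := by
      by_contra hc
      rw [not_le] at hc
      nlinarith
    have h' : (u : ℝ) ≤ ((w + (j + 1 : ℕ) : ℤ) : ℝ) := by push_cast; linarith
    exact_mod_cast h'
  exact ⟨c, rfl, key _ _ (by linarith), key _ _ (by linarith), key _ _ (by linarith), key _ _ (by linarith)⟩

theorem pvrcn_pt_inj {δ : ℝ} (hδ : 0 < δ) {a b : ℤ × ℤ} (h : pvmgPt δ a = pvmgPt δ b) : a = b := by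
  have h1 := congrArg Complex.re h
  have h2 := congrArg Complex.im h
  simp only [pvmgPt] at h1 h2
  have e1 : (a.1 : ℝ) = (b.1 : ℝ) := mul_right_cancel₀ hδ.ne' h1
  have e2 : (a.2 : ℝ) = (b.2 : ℝ) := mul_right_cancel₀ hδ.ne' h2
  exact Prod.ext (by exact_mod_cast e1) (by exact_mod_cast e2)

end cells

/-! ## 2. one pin with an exact fit -/

section pin

variable {P : PvbRim} {z : ℂ} {t : ℕ → ℕ} {δ μ hh a b ρ d0 e0 d1 e1 RB r3 : ℝ} {𝔑 : PvmnNum} {τ : PvmnType} {p : ℂ} {i j l : ℕ}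

/-- a vertex of the pieces `i..j` lies in a placed cell of these pieces -/
theorem pvrcn_piece (I : PvmfIn P z t μ hh a b ρ d0 e0 d1 e1) (N : PvmfNum δ μ hh a b ρ d0 e0 d1 e1 RB) (F : PvmnFits τ δ (fun i => P.v i - z) (fun k => t k.1))
    (hij : i ≤ j) (hj : j < 10) (l1 : t i ≤ l) (l2 : l ≤ t (j + 1)) : ∃ c ∈ pvmnCells τ i j, P.v l - z ∈ pvtSq δ c := by
  obtain ⟨c, hc⟩ := pvt_sq_cover N.δ_pos (P.v l - z)
  refine ⟨c, ?_, hc⟩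
  rw [pvmf_cells I N F hij hj]
  exact ⟨P.v l - z, hc, pvtx_vertex_mem (v := fun i => P.v i - z) l1 l2⟩

/-- **the forward run is off the closing side of a START pin**: off the bar, the placed `N^8(cells 0..4)` is more than a menu cell away from every vertex after the pin -/
theorem pvrcn_fwd_cl (hτ : PvmnIsType 𝔑 τ) (I : PvmfIn P z t μ hh a b ρ d0 e0 d1 e1) (N : PvmfNum δ μ hh a b ρ d0 e0 d1 e1 RB) (F : PvmnFits τ δ (fun i => P.v i - z) (fun k => t k.1))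
    (hbar : pvmgPl z δ (pvmnBar 𝔑 τ 5) ⊆ closedBall z r3) (hp : p ∈ pvmgPl z δ (pvtwN 8 (pvmnCells τ 0 4))) (hp3 : p ∉ closedBall z r3) (l1 : t 5 ≤ l) (l2 : l ≤ P.len) :
    δ < ‖P.v l - p‖ := by
  have hδ := N.δ_pos
  rcases Nat.lt_or_ge l (t 6) with h6 | h6
  · by_contra hc
    rw [not_lt] at hc
    obtain ⟨c, hc5, hlc⟩ := pvrcn_piece I N F (i := 5) (j := 5) le_rfl (by omega) l1 h6.le
    obtain ⟨c', hc', hpc⟩ := pvmg_mem_sq.1 hp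
    have hn : c' ∈ pvtwN (1 + 1) {c} := pvrcn_cell_near hδ 1 hlc hpc (by
      rw [sub_sub_sub_cancel_right, norm_sub_rev, Nat.cast_one, one_mul]; exact hc)
    have h2 : c' ∈ pvtwN 2 (pvmnCells τ 5 9) := pvtw_N_mono le_rfl (Set.singleton_subset_iff.2 (pvmn_cells_mono le_rfl (by omega) hc5)) hn
    exact hp3 (hbar (pvmg_mem_sq.2 ⟨c', pvls_sep hτ (i := 8) (j := 2) (by omega) (by omega) ⟨hc', h2⟩, hpc⟩))
  · have h1 := pvqg_fwd I N F (j := 4) (by omega) hp h6 l2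
    have h2 := N.d1_ge
    have h3 := N.μ_le
    push_cast at h1
    linarith

/-- **the backward run is off the closing side of an END pin** -/
theorem pvrcn_bwd_cl (hτ : PvmnIsType 𝔑 τ) (I : PvmfIn P z t μ hh a b ρ d0 e0 d1 e1) (N : PvmfNum δ μ hh a b ρ d0 e0 d1 e1 RB) (F : PvmnFits τ δ (fun i => P.v i - z) (fun k => t k.1))
    (hbar : pvmgPl z δ (pvmnBar 𝔑 τ 5) ⊆ closedBall z r3) (hp : p ∈ pvmgPl z δ (pvtwN 8 (pvmnCells τ 5 9))) (hp3 : p ∉ closedBall z r3) (l1 : l ≤ t 5) :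
    δ < ‖P.v l - p‖ := by
  have hδ := N.δ_pos
  rcases Nat.lt_or_ge (t 4) l with h4 | h4
  · by_contra hc
    rw [not_lt] at hc
    obtain ⟨c, hc5, hlc⟩ := pvrcn_piece I N F (i := 4) (j := 4) le_rfl (by omega) h4.le l1
    obtain ⟨c', hc', hpc⟩ := pvmg_mem_sq.1 hp
    have hn : c' ∈ pvtwN (1 + 1) {c} := pvrcn_cell_near hδ 1 hlc hpc (by
      rw [sub_sub_sub_cancel_right, norm_sub_rev, Nat.cast_one, one_mul]; exact hc)
    have h2 : c' ∈ pvtwN 2 (pvmnCells τ 0 4) := pvtw_N_mono le_rfl (Set.singleton_subset_iff.2 (pvmn_cells_mono (by omega) le_rfl hc5)) hn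
    exact hp3 (hbar (pvmg_mem_sq.2 ⟨c', pvls_sep hτ (i := 2) (j := 8) (by omega) (by omega) ⟨h2, hc'⟩, hpc⟩))
  · have h1 := pvqg_bwd I N F (i := 5) (by omega) hp h4
    have h2 := N.d1_ge
    have h3 := N.μ_le
    push_cast at h1
    linarith

/-- the forward run is far from the negative tentacle -/
theorem pvrcn_fwd_Ym (I : PvmfIn P z t μ hh a b ρ d0 e0 d1 e1) (N : PvmfNum δ μ hh a b ρ d0 e0 d1 e1 RB) (F : PvmnFits τ δ (fun i => P.v i - z) (fun k => t k.1))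
    (hp : p ∈ pvmgPl z δ (pvtwN 8 (pvmnCells τ 1 3))) (l1 : t 5 ≤ l) (l2 : l ≤ P.len) : 500 * δ < ‖P.v l - p‖ := by
  have h1 := pvqg_fwd I N F (j := 3) (by omega) hp l1 l2
  have h2 := N.d1_ge
  have h3 := N.μ_le
  have hδ := N.δ_pos
  push_cast at h1
  linarith

/-- the backward run is far from the positive tentacle -/
theorem pvrcn_bwd_Yp (I : PvmfIn P z t μ hh a b ρ d0 e0 d1 e1) (N : PvmfNum δ μ hh a b ρ d0 e0 d1 e1 RB) (F : PvmnFits τ δ (fun i => P.v i - z) (fun k => t k.1))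
    (hp : p ∈ pvmgPl z δ (pvtwN 8 (pvmnCells τ 6 8))) (l1 : l ≤ t 5) : 500 * δ < ‖P.v l - p‖ := by
  have h1 := pvqg_bwd I N F (i := 6) (by omega) hp l1
  have h2 := N.d1_ge
  have h3 := N.μ_le
  have hδ := N.δ_pos
  push_cast at h1
  linarith

end pin

/-! ## 2b. type level -/

section typ

variable {𝔑 : PvmnNum} {τ : PvmnType} {ln : ((ℤ × ℤ) × (ℤ × ℤ)) × ℕ} {δ : ℝ} {A B : Set (ℤ × ℤ)} {i j : ℕ}

theorem pvrcn_disj_N (h : Disjoint (pvtwN (i + j) A) B) : Disjoint (pvtwN i A) (pvtwN j B) := by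
  rw [Set.disjoint_left]
  rintro w ⟨u, hu, u1, u2, u3, u4⟩ ⟨v, hv, v1, v2, v3, v4⟩
  exact Set.disjoint_left.1 h ⟨u, hu, by push_cast; omega, by push_cast; omega, by push_cast; omega, by push_cast; omega⟩ hv

theorem pvrcn_far_of_disj (h : Disjoint (pvtwN 1 A) B) : ∀ e ∈ A, ∀ y ∈ B, PvfjFar e y := by
  intro e he y hy
  rw [pvfj_far_iff]
  by_contra hc
  exact Set.disjoint_left.1 h ⟨e, he, by push_cast; omega, by push_cast; omega, by push_cast; omega, by push_cast; omega⟩ hy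

/-- tubes of non adjacent stretches of pieces -/
theorem pvrcn_cells_disj (hτ : PvmnIsType 𝔑 τ) {a b a' b' : ℕ} (hab : b + 2 ≤ a') (hi : i ≤ 10) (hj : j ≤ 10) : Disjoint (pvtwN i (pvmnCells τ a b)) (pvtwN j (pvmnCells τ a' b')) := by
  rw [Set.disjoint_left]
  intro w h1 h2
  obtain ⟨k, _, k2, hk⟩ := pvmn_N_cells.1 (pvtw_N_mono hi le_rfl h1)
  obtain ⟨k', k1', _, hk'⟩ := pvmn_N_cells.1 (pvtw_N_mono hj le_rfl h2)
  exact Set.disjoint_left.1 (hτ.far k k' (by omega)) hk hk'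

/-- the ball of the body against the tube of a stretch of outer pieces -/
theorem pvrcn_Bl_disj (hτ : PvmnIsType 𝔑 τ) {a b : ℕ} (hab : b ≤ 3 ∨ 6 ≤ a) (hij : i + j ≤ 10) : Disjoint (pvtwN i (pvmnBl 𝔑.rB)) (pvtwN j (pvmnCells τ a b)) := by
  refine (pvrcn_disj_N (i := j) (j := i) ?_).symm
  rw [Set.disjoint_left]
  intro w h1 h2
  obtain ⟨k, k1, k2, hk⟩ := pvmn_N_cells.1 (pvtw_N_mono (by omega : j + i ≤ 10) le_rfl h1)
  exact Set.disjoint_left.1 (hτ.ball k (by omega) (by omega)) hk h2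

/-- the cells of the positive half of the strip: the lane stops before the door `Dr⁺ = N^8 (C 9)` -/
theorem pvrcn_Mp_cells (hτ : PvmnIsType 𝔑 τ) (hl : PvmnLaneR τ ln.1 ln.2) (hδ : 0 < δ) : pvtCells δ (pvlsMp δ τ ln) ⊆ pvtwN 6 (pvmnCells τ 5 8) := by
  have hsub : pvlsMp δ τ ln ⊆ pvlsM δ τ ln 5 8 := by
    intro p hp
    obtain ⟨i, ⟨hi, P, hPR, hP5, hc⟩, hp'⟩ := pvls_mem.1 hp
    refine pvls_mem.2 ⟨i, ⟨hi, P, hPR, ?_, hc⟩, hp'⟩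
    obtain ⟨k, k1, k2, hk⟩ := pvmn_N_cells.1 hP5
    refine pvmn_N_cells.2 ⟨k, k1, ?_, hk⟩
    by_contra h8
    have e9 : k = 9 := Fin.ext (by change k.1 = 9; omega)
    subst e9
    exact (pvlp_R_sub hτ hl hPR).2 (Or.inr (pvtw_N_mono (by omega) le_rfl hk))
  exact (pvt_cells_mono hsub).trans (pvls_cells hδ)

/-- the cells of the negative half of the strip -/
theorem pvrcn_Mm_cells (hτ : PvmnIsType 𝔑 τ) (hl : PvmnLaneR τ ln.1 ln.2) (hδ : 0 < δ) : pvtCells δ (pvlsMm δ τ ln) ⊆ pvtwN 6 (pvmnCells τ 1 4) := by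
  have hsub : pvlsMm δ τ ln ⊆ pvlsM δ τ ln 1 4 := by
    rw [pvls_Mm_eq hτ hl]
    intro p hp
    obtain ⟨i, ⟨hi, P, hPR, hP5, hc⟩, hp'⟩ := pvls_mem.1 hp
    refine pvls_mem.2 ⟨i, ⟨hi, P, hPR, ?_, hc⟩, hp'⟩
    obtain ⟨k, k1, k2, hk⟩ := pvmn_N_cells.1 hP5
    refine pvmn_N_cells.2 ⟨k, ?_, k2, hk⟩
    by_contra h8
    have e0 : k = 0 := Fin.ext (by change k.1 = 0; omega)
    subst e0
    exact (pvlp_R_sub hτ hl hPR).2 (Or.inl (pvtw_N_mono (by omega) le_rfl hk))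
  exact (pvt_cells_mono hsub).trans (pvls_cells hδ)

/-- the cells of the window of `L⁺` (SHORT tube of 8) -/
theorem pvrcn_Ep_cells (hτ : PvmnIsType 𝔑 τ) (hl : PvmnLaneR τ ln.1 ln.2) (hδ : 0 < δ) : pvtwN 1 (pvmhNp τ ∪ pvtCells δ (pvlsMp δ τ ln)) ⊆ pvtwN 7 (pvmnCells τ 5 8) := by
  have h : pvmhNp τ ∪ pvtCells δ (pvlsMp δ τ ln) ⊆ pvtwN 6 (pvmnCells τ 5 8) :=
    Set.union_subset (by unfold pvmhNp; exact pvtw_N_mono (by omega) le_rfl) (pvrcn_Mp_cells hτ hl hδ)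
  refine (pvtw_N_mono le_rfl h).trans ?_
  rw [pvtw_N_add]

/-- the cells of the window of `L⁻` -/
theorem pvrcn_Em_cells (hτ : PvmnIsType 𝔑 τ) (hl : PvmnLaneR τ ln.1 ln.2) (hδ : 0 < δ) : pvtwN 1 (pvmhNm τ ∪ pvtCells δ (pvlsMm δ τ ln)) ⊆ pvtwN 7 (pvmnCells τ 1 4) := by
  have h : pvmhNm τ ∪ pvtCells δ (pvlsMm δ τ ln) ⊆ pvtwN 6 (pvmnCells τ 1 4) :=
    Set.union_subset (by unfold pvmhNm; exact pvtw_N_mono (by omega) le_rfl) (pvrcn_Mm_cells hτ hl hδ)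
  refine (pvtw_N_mono le_rfl h).trans ?_
  rw [pvtw_N_add]

end typ

/-! ## 3. a fitting pair -/

section pair

/-- a coarse cell which contains a point far from a placed region of menu cells is `PvfjFar` from the coarse cells of this region -/
theorem pvrcn_far_of {k : ℕ} {dc : ℝ} (hk : 0 < k) (hdc : 0 < dc) {a c q : ℤ × ℤ} {E : Set (ℤ × ℤ)} {y : ℂ} (hy : y ∈ pvtSq dc c)
    (hq : q ∈ pvfjSh ((k : ℤ) * a.1, (k : ℤ) * a.2) (pvrcRef (k : ℤ) E)) (hfar : ∀ p ∈ pvmgPl (pvmgPt ((k : ℝ) * dc) a) ((k : ℝ) * dc) E, 4 * dc < ‖y - p‖) : PvfjFar c q := by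
  have hcor := pvrc_sq_pl hk hdc hq (pvrc_corner hdc.le q)
  have key : (q.1 ≤ c.1 + 1 ∧ c.1 ≤ q.1 + 1 ∧ q.2 ≤ c.2 + 1 ∧ c.2 ≤ q.2 + 1) → False := by
    rintro ⟨k1, k2, k3, k4⟩
    have g := pvrc_sq_dist (j := 1) hdc.le (c := q) (z := c) (by exact_mod_cast k1) (by exact_mod_cast k2) (by exact_mod_cast k3) (by exact_mod_cast k4) hy (pvrc_corner hdc.le q)
    have := hfar _ hcor
    push_cast at g
    linarith
  refine ⟨fun e => key ?_, fun e => key ?_⟩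
  · subst e
    exact ⟨by omega, by omega, by omega, by omega⟩
  · rw [pvtb_G8_adj] at e
    obtain ⟨-, e1, e2, e3, e4⟩ := e
    exact ⟨by omega, by omega, by omega, by omega⟩

variable {T : Type} {ty : T → PvmnType} {𝔑 : PvmnNum} {P : PvbRim} {s t : PvbPin T} {as at' : ℕ → ℕ} {μ hh a b ρ d0 e0 d1 e1 RB r3 : ℝ}
  {k : ℕ} {dc : ℝ} {cs0 ct0 : ℤ × ℤ} {mm : ℤ} {n : ℕ}

/-- **(R0)**: the run lies in the closed coarse cells of the pattern -/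
theorem pvrcn_run_G {PL : PvfjPlug T} (hdc : 0 < dc) {π : PvfjDat T} (hfit : PvfjFit dc P s t π) {l : ℕ} (l1 : s.idx ≤ l) (l2 : l ≤ t.idx) : P.v l ∈ pvtU dc (π.G : Set (ℤ × ℤ)) := by
  obtain ⟨c, hc⟩ := pvt_sq_cover hdc (P.v l)
  simp only [pvtU, Set.mem_iUnion, exists_prop]
  refine ⟨c, ?_, hc⟩
  rw [hfit.2.2.2.2]
  exact ⟨P.v l, hc, pvtx_vertex_mem l1 l2⟩

/-- **(R1)**: the run, with a collar of `6` fine cells, lies in the region `T` of 138 -/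
theorem pvrcn_run_T (hk : 0 < k) (hdc : 0 < dc)
    (N : PvmfNum ((k : ℝ) * dc) μ hh a b ρ d0 e0 d1 e1 RB)
    (Is : PvmfIn P s.ctr as μ hh a b ρ d0 e0 d1 e1) (Fs : PvmnFits (ty s.typ) ((k : ℝ) * dc) (fun i => P.v i - s.ctr) (fun j => as j.1)) (h5s : as 5 = s.idx)
    (It : PvmfIn P t.ctr at' μ hh a b ρ d0 e0 d1 e1) (Ft : PvmnFits (ty t.typ) ((k : ℝ) * dc) (fun i => P.v i - t.ctr) (fun j => at' j.1)) (h5t : at' 5 = t.idx)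
    (hcs : s.ctr = pvmgPt ((k : ℝ) * dc) cs0) (hct : t.ctr = pvmgPt ((k : ℝ) * dc) ct0) (htl : t.idx ≤ P.len)
    (π : PvfjPat ((pvfjmPlug 𝔑 ty).ref k) mm n) (hfit : PvfjFit dc P s t π.1) {l : ℕ} (l1 : s.idx ≤ l) (l2 : l ≤ t.idx) :
    closedBall (P.v l) (6 * (dc / (2 * (mm : ℝ) + 1))) ⊆
      pvtU (dc / (2 * (mm : ℝ) + 1)) (pvytSh mm '' pvfjT mm (π.1.F0 ((pvfjmPlug 𝔑 ty).ref k)) (π.1.Ys ((pvfjmPlug 𝔑 ty).ref k) ∪ π.1.Yt ((pvfjmPlug 𝔑 ty).ref k))) := by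
  have hm10 : 10 ≤ mm := (pvyt_In π).m10
  have hk1 : (1 : ℝ) ≤ (k : ℝ) := by exact_mod_cast hk
  have hdδ : dc ≤ (k : ℝ) * dc := by nlinarith
  obtain ⟨c, hc⟩ := pvt_sq_cover hdc (P.v l)
  have ecs : π.1.cs = ((k : ℤ) * cs0.1, (k : ℤ) * cs0.2) := by
    refine pvrcn_pt_inj hdc ?_
    rw [← hfit.1, hcs]
    have := pvrc_pt (k : ℤ) dc cs0
    rwa [Int.cast_natCast] at this
  have ect : π.1.ct = ((k : ℤ) * ct0.1, (k : ℤ) * ct0.2) := by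
    refine pvrcn_pt_inj hdc ?_
    rw [← hfit.2.2.1, hct]
    have := pvrc_pt (k : ℤ) dc ct0
    rwa [Int.cast_natCast] at this
  have hfar : ∀ q ∈ π.1.Ys ((pvfjmPlug 𝔑 ty).ref k) ∪ π.1.Yt ((pvfjmPlug 𝔑 ty).ref k), PvfjFar c q := by
    rintro q (hq | hq)
    · have hq' : q ∈ pvfjSh ((k : ℤ) * cs0.1, (k : ℤ) * cs0.2) (pvrcRef (k : ℤ) (pvtwN 8 (pvmnCells (ty s.typ) 1 3))) := by
        rw [← ecs, hfit.2.1]; exact hq
      refine pvrcn_far_of hk hdc hc hq' fun p hp => ?_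
      rw [← hcs] at hp
      have := pvrcn_fwd_Ym Is N Fs (l := l) hp (by rw [h5s]; exact l1) (l2.trans htl)
      linarith
    · have hq' : q ∈ pvfjSh ((k : ℤ) * ct0.1, (k : ℤ) * ct0.2) (pvrcRef (k : ℤ) (pvtwN 8 (pvmnCells (ty t.typ) 6 8))) := by
        rw [← ect, hfit.2.2.2.1]; exact hq
      refine pvrcn_far_of hk hdc hc hq' fun p hp => ?_
      rw [← hct] at hp
      have := pvrcn_bwd_Yp It N Ft (l := l) hp (by rw [h5t]; exact l2)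
      linarith
  have h1 := pvfj_fit_core hfit (pvtx_vertex_mem l1 l2) hc hfar
  have h2 := pvrcn_ball_fine hdc (by omega : 0 ≤ mm) 6 hc
  push_cast at h2
  exact h2.trans (pvt_U_mono (Set.image_mono h1))

end pair

/-! ## 4. at the terms of `Exit/RestP.lean` -/

section model

variable {𝔤 : PvmhNum} {c : ℝ} {x : ℂ} {R : ℝ} {m : ℕ}

/-- the fine cell of level `m` (`= (Γ m).δ` by `PvrsDoors.del`) -/
noncomputable def pvrcnDf (𝔤 : PvmhNum) (c : ℝ) (m : ℕ) : ℝ := (pvrsNum 𝔤).dc c m / (2 * ((pvrsNum 𝔤).mm : ℝ) + 1)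

/-- **the tube of the pattern**: the closed coarse cells of the arc -/
noncomputable def pvrcnU (π : pvrcPat (pvrsNum 𝔤) c (pvrsPL 𝔤) x R m) : Set ℂ := pvtU ((pvrsNum 𝔤).dc c m) (π.1.1.G : Set (ℤ × ℤ))

/-- **the region `T` of 138, placed** (fine cell `v` = the square `pvtSq df (v + (mm, mm))`) -/
noncomputable def pvrcnT (π : pvrcPat (pvrsNum 𝔤) c (pvrsPL 𝔤) x R m) : Set ℂ :=
  pvtU (pvrcnDf 𝔤 c m) (pvytSh (pvrsNum 𝔤).mm '' pvfjT (pvrsNum 𝔤).mm (π.1.1.F0 (pvrcPL c (pvrsPL 𝔤) m)) (π.1.1.Ys (pvrcPL c (pvrsPL 𝔤) m) ∪ π.1.1.Yt (pvrcPL c (pvrsPL 𝔤) m)))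

/-- **the closing side of the start pin**, off the bar -/
noncomputable def pvrcnClS (π : pvrcPat (pvrsNum 𝔤) c (pvrsPL 𝔤) x R m) : Set ℂ :=
  pvmgPl (pvrcPatOf m π).zs (𝔤.dl * pvlmH m) (pvtwN 8 (pvmnCells (pvrcPatOf m π).ts.typ 0 4)) \ closedBall (pvrcPatOf m π).zs (3 * pvlmH m)

/-- **the closing side of the end pin**, off the bar -/
noncomputable def pvrcnClT (π : pvrcPat (pvrsNum 𝔤) c (pvrsPL 𝔤) x R m) : Set ℂ :=
  pvmgPl (pvrcPatOf m π).zt (𝔤.dl * pvlmH m) (pvtwN 8 (pvmnCells (pvrcPatOf m π).tt.typ 5 9)) \ closedBall (pvrcPatOf m π).zt (3 * pvlmH m)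

theorem pvrcn_eqns_cite : True := by
  have := @pvrcnDf.eq_1; have := @pvrcnU.eq_1; have := @pvrcnT.eq_1; have := @pvrcnClS.eq_1; have := @pvrcnClT.eq_1
  trivial

theorem pvrcn_dc_pos (H : 𝔤.OK) (c : ℝ) (m : ℕ) : 0 < (pvrsNum 𝔤).dc c m := mul_pos H.dl0 (pvlm_Del_pos c m)

theorem pvrcn_df_pos (H : 𝔤.OK) (c : ℝ) (m : ℕ) : 0 < pvrcnDf 𝔤 c m := div_pos (pvrcn_dc_pos H c m) (by show (0 : ℝ) < 2 * ((10 : ℤ) : ℝ) + 1; norm_num)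

/-- the cell of the menu is `N_m` coarse cells -/
theorem pvrcn_scale (𝔤 : PvmhNum) (c : ℝ) (m : ℕ) : 𝔤.dl * pvlmH m = (pvlmN c m : ℝ) * (pvrsNum 𝔤).dc c m := by
  show 𝔤.dl * pvlmH m = (pvlmN c m : ℝ) * (𝔤.dl * pvlmDel c m)
  rw [← pvlm_N_mul_Del c m]
  ring

/-- **RUN AT THE MODEL**: what EVERY fitting rim gives to the regions of its pattern.      `l` = an index of the run `[s.idx, t.idx]`.
(R0) tube;   (R1) collar of `6` fine cells in the region of 138;   (R2) more than a menu cell from the two closing sides;   (R3) more than a menu cell from the strips of the two pins -/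
theorem pvrcn_run (H : 𝔤.OK) {𝔐 : PvbMenu (PvmhT 𝔤)} {ω : PVSample} {P : PvbRim} {s t : PvbPin (PvmhT 𝔤)} {π : pvrcPat (pvrsNum 𝔤) c (pvrsPL 𝔤) x R m}
    (hF : PvrcFit 𝔐 m ω P s t π) (hs : 𝔤.Fit (pvlmH m) P s.idx s.ctr s.typ) (ht : 𝔤.Fit (pvlmH m) P t.idx t.ctr t.typ) {l : ℕ} (l1 : s.idx ≤ l) (l2 : l ≤ t.idx) :
    P.v l ∈ pvrcnU π ∧ closedBall (P.v l) (6 * pvrcnDf 𝔤 c m) ⊆ pvrcnT π ∧ (∀ p ∈ pvrcnClS π, 𝔤.dl * pvlmH m < ‖P.v l - p‖) ∧ (∀ p ∈ pvrcnClT π, 𝔤.dl * pvlmH m < ‖P.v l - p‖) ∧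
      (∀ p ∈ pvspJ (𝔤.ty (pvlmH m) (pvrcPatOf m π).zs (pvrcPatOf m π).ts), 𝔤.dl * pvlmH m < ‖P.v l - p‖) ∧
      ∀ p ∈ pvspJ (𝔤.ty (pvlmH m) (pvrcPatOf m π).zt (pvrcPatOf m π).tt), 𝔤.dl * pvlmH m < ‖P.v l - p‖ := by
  have hh := pvlm_H_pos m
  have hdc := pvrcn_dc_pos H c m
  have htl : t.idx ≤ P.len := hF.pin_t.idx_lt.le
  obtain ⟨es1, es2⟩ := pvrc_fit_s hF
  obtain ⟨et1, et2⟩ := pvrc_fit_t hF
  have ms := pvmh_miss H hh hs l (l2.trans htl)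
  have mt := pvmh_miss H hh ht l (l2.trans htl)
  obtain ⟨⟨ps, hps⟩, as, h5s, Is, Fs⟩ := hs
  obtain ⟨⟨pt, hpt⟩, at', h5t, It, Ft⟩ := ht
  have e := pvrcn_scale 𝔤 c m
  have N := pvmh_num H hh
  have hnd : (0 : ℝ) < (𝔤.nd : ℝ) := by exact_mod_cast H.nd0
  have hgrid : pvlmH m = ((𝔤.nd : ℤ) : ℝ) * (𝔤.dl * pvlmH m) := by
    rw [H.dl_eq, Int.cast_natCast]
    field_simp
  have hcs : s.ctr = pvmgPt (𝔤.dl * pvlmH m) ((𝔤.nd : ℤ) * ps.1, (𝔤.nd : ℤ) * ps.2) := by rw [hps]; exact pvrc_l9 hgrid ps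
  have hct : t.ctr = pvmgPt (𝔤.dl * pvlmH m) ((𝔤.nd : ℤ) * pt.1, (𝔤.nd : ℤ) * pt.2) := by rw [hpt]; exact pvrc_l9 hgrid pt
  refine ⟨pvrcn_run_G (PL := pvrsPL 𝔤) hdc hF.fit l1 l2, ?_, ?_, ?_, ?_, ?_⟩
  · have N' := N
    have Fs' := Fs
    have Ft' := Ft
    rw [e] at N' Fs' Ft' hcs hct
    exact pvrcn_run_T (ty := PvmhT.typ) (𝔑 := 𝔤.NN) (pvlm_N_pos c m) hdc N' Is Fs' h5s It Ft' h5t hcs hct htl π.1 hF.fit l1 l2
  · rintro p ⟨hp, hp3⟩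
    rw [← es1, ← es2] at hp
    rw [← es1] at hp3
    exact pvrcn_fwd_cl s.typ.isType Is N Fs (pvmh_bar H s.ctr s.typ hh) hp hp3 (by rw [h5s]; exact l1) (l2.trans htl)
  · rintro p ⟨hp, hp3⟩
    rw [← et1, ← et2] at hp
    rw [← et1] at hp3
    exact pvrcn_bwd_cl t.typ.isType It N Ft (pvmh_bar H t.ctr t.typ hh) hp hp3 (by rw [h5t]; exact l2)
  · rw [← es1, ← es2]; exact ms
  · rw [← et1, ← et2]; exact mt

/-! ### the region level: what lies in the region of 138 -/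

theorem pvrcn_far_sh {u w a : ℤ × ℤ} (h : PvfjFar u w) : PvfjFar (u + a) (w + a) := by
  rw [pvfj_far_iff] at h ⊢
  simp only [Prod.fst_add, Prod.snd_add]
  omega

/-- the centres of the pattern lie on the lattice of the menu cells -/
def PvrcnLat (π : pvrcPat (pvrsNum 𝔤) c (pvrsPL 𝔤) x R m) (a b : ℤ × ℤ) : Prop :=
  π.1.1.cs = ((pvlmN c m : ℤ) * a.1, (pvlmN c m : ℤ) * a.2) ∧ π.1.1.ct = ((pvlmN c m : ℤ) * b.1, (pvlmN c m : ℤ) * b.2)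

theorem pvrcn_eqns_cite2 : True := by
  have := @PvrcnLat.eq_1
  trivial

/-- a pattern which is fitted by a pair of grid pins is on the lattice -/
theorem pvrcn_lat (H : 𝔤.OK) {𝔐 : PvbMenu (PvmhT 𝔤)} {ω : PVSample} {P : PvbRim} {s t : PvbPin (PvmhT 𝔤)} {π : pvrcPat (pvrsNum 𝔤) c (pvrsPL 𝔤) x R m}
    (hF : PvrcFit 𝔐 m ω P s t π) : ∃ a b, PvrcnLat π a b := by
  have hdc := pvrcn_dc_pos H c m
  obtain ⟨ps, hps⟩ := hF.grid_s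
  obtain ⟨pt, hpt⟩ := hF.grid_t
  have hnd : (0 : ℝ) < (𝔤.nd : ℝ) := by exact_mod_cast H.nd0
  have hgrid : pvlmH m = ((𝔤.nd : ℤ) : ℝ) * (𝔤.dl * pvlmH m) := by
    rw [H.dl_eq, Int.cast_natCast]
    field_simp
  have key : ∀ q : ℤ × ℤ, l9Pt (pvlmH m) q = pvmgPt ((pvrsNum 𝔤).dc c m) ((pvlmN c m : ℤ) * ((𝔤.nd : ℤ) * q.1), (pvlmN c m : ℤ) * ((𝔤.nd : ℤ) * q.2)) := by
    intro q
    rw [pvrc_l9 hgrid q, pvrcn_scale 𝔤 c m]
    have := pvrc_pt (pvlmN c m : ℤ) ((pvrsNum 𝔤).dc c m) ((𝔤.nd : ℤ) * q.1, (𝔤.nd : ℤ) * q.2)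
    rwa [Int.cast_natCast] at this
  refine ⟨((𝔤.nd : ℤ) * ps.1, (𝔤.nd : ℤ) * ps.2), ((𝔤.nd : ℤ) * pt.1, (𝔤.nd : ℤ) * pt.2), pvrcn_pt_inj hdc ?_, pvrcn_pt_inj hdc ?_⟩
  · rw [← hF.fit.1, hps]; exact key ps
  · rw [← hF.fit.2.2.1, hpt]; exact key pt

theorem PvrcnLat.zs {π : pvrcPat (pvrsNum 𝔤) c (pvrsPL 𝔤) x R m} {a b : ℤ × ℤ} (h : PvrcnLat π a b) : (pvrcPatOf m π).zs = pvmgPt ((pvlmN c m : ℝ) * (pvrsNum 𝔤).dc c m) a := by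
  show pvmgPt ((pvrsNum 𝔤).dc c m) π.1.1.cs = _
  rw [h.1]
  have := pvrc_pt (pvlmN c m : ℤ) ((pvrsNum 𝔤).dc c m) a
  rw [Int.cast_natCast] at this
  exact this.symm

theorem PvrcnLat.zt {π : pvrcPat (pvrsNum 𝔤) c (pvrsPL 𝔤) x R m} {a b : ℤ × ℤ} (h : PvrcnLat π a b) : (pvrcPatOf m π).zt = pvmgPt ((pvlmN c m : ℝ) * (pvrsNum 𝔤).dc c m) b := by
  show pvmgPt ((pvrsNum 𝔤).dc c m) π.1.1.ct = _
  rw [h.2]
  have := pvrc_pt (pvlmN c m : ℤ) ((pvrsNum 𝔤).dc c m) b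
  rw [Int.cast_natCast] at this
  exact this.symm

/-- **(W0) at the start pin**: a set of menu cells of the body which does not touch the negative tentacle lies, placed, with a collar of `6` fine cells, in the region of 138 -/
theorem pvrcn_core_s (H : 𝔤.OK) (c0 : 0 < c) {π : pvrcPat (pvrsNum 𝔤) c (pvrsPL 𝔤) x R m} {a b : ℤ × ℤ} (hl : PvrcnLat π a b) {E : Set (ℤ × ℤ)}
    (hEB : E ⊆ pvfjmB 𝔤.NN (pvrcPatOf m π).ts.typ) (hEY : ∀ e ∈ E, ∀ y ∈ pvtwN 8 (pvmnCells (pvrcPatOf m π).ts.typ 1 3), PvfjFar e y) {p : ℂ}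
    (hp : p ∈ pvmgPl (pvrcPatOf m π).zs (𝔤.dl * pvlmH m) E) : closedBall p (6 * pvrcnDf 𝔤 c m) ⊆ pvrcnT π := by
  have hdc := pvrcn_dc_pos H c m
  have hk := pvlm_N_pos c m
  have hk' : (0 : ℤ) < (pvlmN c m : ℤ) := by exact_mod_cast hk
  rw [hl.zs, pvrcn_scale 𝔤 c m] at hp
  obtain ⟨cc, hcc, hpc⟩ := pvrc_pl_cell hk hdc hp
  rw [← hl.1] at hcc
  have hF0 : cc ∈ π.1.1.F0 (pvrcPL c (pvrsPL 𝔤) m) := Or.inl (Or.inr (pvfj_sh_mono (pvrc_ref_mono hEB) hcc))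
  have hfar : ∀ q ∈ π.1.1.Ys (pvrcPL c (pvrsPL 𝔤) m) ∪ π.1.1.Yt (pvrcPL c (pvrsPL 𝔤) m), PvfjFar cc q := by
    rintro q (hq | hq)
    · obtain ⟨u, hu, rfl⟩ := hcc
      obtain ⟨w, hw, rfl⟩ := hq
      exact pvrcn_far_sh (pvrc_far hk' (hEY _ hu _ hw))
    · refine pvfj_far_symm (pvrcm_pat_farB (mm := 10) H c0 π q (pvfj_sh_mono (((pvrs_PL_wf H).ref hk).Yp_sub _) hq) cc (pvfj_sh_mono (pvrc_ref_mono hEB) hcc))
  have h1 := π.1.spec.1.T_core cc (pvtb_hull_sub hF0) hfar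
  have h2 := pvrcn_ball_fine hdc (mm := (pvrsNum 𝔤).mm) (by show (0 : ℤ) ≤ 10; norm_num) 6 hpc
  push_cast at h2
  exact h2.trans (pvt_U_mono (Set.image_mono h1))

/-- **(W0) at the end pin** -/
theorem pvrcn_core_t (H : 𝔤.OK) (c0 : 0 < c) {π : pvrcPat (pvrsNum 𝔤) c (pvrsPL 𝔤) x R m} {a b : ℤ × ℤ} (hl : PvrcnLat π a b) {E : Set (ℤ × ℤ)}
    (hEB : E ⊆ pvfjmB 𝔤.NN (pvrcPatOf m π).tt.typ) (hEY : ∀ e ∈ E, ∀ y ∈ pvtwN 8 (pvmnCells (pvrcPatOf m π).tt.typ 6 8), PvfjFar e y) {p : ℂ}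
    (hp : p ∈ pvmgPl (pvrcPatOf m π).zt (𝔤.dl * pvlmH m) E) : closedBall p (6 * pvrcnDf 𝔤 c m) ⊆ pvrcnT π := by
  have hdc := pvrcn_dc_pos H c m
  have hk := pvlm_N_pos c m
  have hk' : (0 : ℤ) < (pvlmN c m : ℤ) := by exact_mod_cast hk
  rw [hl.zt, pvrcn_scale 𝔤 c m] at hp
  obtain ⟨cc, hcc, hpc⟩ := pvrc_pl_cell hk hdc hp
  rw [← hl.2] at hcc
  have hF0 : cc ∈ π.1.1.F0 (pvrcPL c (pvrsPL 𝔤) m) := Or.inr (pvfj_sh_mono (pvrc_ref_mono hEB) hcc)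
  have hfar : ∀ q ∈ π.1.1.Ys (pvrcPL c (pvrsPL 𝔤) m) ∪ π.1.1.Yt (pvrcPL c (pvrsPL 𝔤) m), PvfjFar cc q := by
    rintro q (hq | hq)
    · exact pvrcm_pat_farB (mm := 10) H c0 π cc (pvfj_sh_mono (pvrc_ref_mono hEB) hcc) q (pvfj_sh_mono (((pvrs_PL_wf H).ref hk).Ym_sub _) hq)
    · obtain ⟨u, hu, rfl⟩ := hcc
      obtain ⟨w, hw, rfl⟩ := hq
      exact pvrcn_far_sh (pvrc_far hk' (hEY _ hu _ hw))
  have h1 := π.1.spec.1.T_core cc (pvtb_hull_sub hF0) hfar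
  have h2 := pvrcn_ball_fine hdc (mm := (pvrsNum 𝔤).mm) (by show (0 : ℤ) ≤ 10; norm_num) 6 hpc
  push_cast at h2
  exact h2.trans (pvt_U_mono (Set.image_mono h1))

theorem pvrcn_rB (H : 𝔤.OK) (h : ℝ) : 𝔤.dl * h * 𝔤.NN.rB = 𝔤.rB * h := by
  have h0 := H.dl0
  show 𝔤.dl * h * (𝔤.rB / 𝔤.dl) = 𝔤.rB * h
  field_simp

/-- **(W2) at the start pin**: the ball `B(zs, (rO + 2) h)` (state region, star zones) lies in the region of 138, with a collar of `6` fine cells -/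
theorem pvrcn_ball_s (H : 𝔤.OK) (c0 : 0 < c) {π : pvrcPat (pvrsNum 𝔤) c (pvrsPL 𝔤) x R m} {a b : ℤ × ℤ} (hl : PvrcnLat π a b) {p : ℂ}
    (hp : p ∈ closedBall (pvrcPatOf m π).zs (𝔤.rB * pvlmH m)) : closedBall p (6 * pvrcnDf 𝔤 c m) ⊆ pvrcnT π := by
  have hδ : 0 < 𝔤.dl * pvlmH m := mul_pos H.dl0 (pvlm_H_pos m)
  refine pvrcn_core_s H c0 hl (E := pvmnBl 𝔤.NN.rB) (fun e he => Or.inl (Or.inl he))
    (pvrcn_far_of_disj (pvrcn_Bl_disj (pvrcPatOf m π).ts.isType (Or.inl le_rfl) (by omega))) (pvmg_ball_sub hδ ?_)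
  rw [pvrcn_rB H]
  exact hp

/-- **(W2) at the end pin** -/
theorem pvrcn_ball_t (H : 𝔤.OK) (c0 : 0 < c) {π : pvrcPat (pvrsNum 𝔤) c (pvrsPL 𝔤) x R m} {a b : ℤ × ℤ} (hl : PvrcnLat π a b) {p : ℂ}
    (hp : p ∈ closedBall (pvrcPatOf m π).zt (𝔤.rB * pvlmH m)) : closedBall p (6 * pvrcnDf 𝔤 c m) ⊆ pvrcnT π := by
  have hδ : 0 < 𝔤.dl * pvlmH m := mul_pos H.dl0 (pvlm_H_pos m)
  refine pvrcn_core_t H c0 hl (E := pvmnBl 𝔤.NN.rB) (fun e he => Or.inl (Or.inl he))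
    (pvrcn_far_of_disj (pvrcn_Bl_disj (pvrcPatOf m π).tt.isType (Or.inr le_rfl) (by omega))) (pvmg_ball_sub hδ ?_)
  rw [pvrcn_rB H]
  exact hp

/-- the window of `L⁺` of a candidate: state ball and the placed `7`-tube of the pieces `5..8` -/
theorem pvrcn_Ep_sub (H : 𝔤.OK) {h : ℝ} (hh : 0 < h) (z : ℂ) (s : PvmhT 𝔤) : (𝔤.ty h z s).Ep ⊆ closedBall z (𝔤.rO * h) ∪ pvmgPl z (𝔤.dl * h) (pvtwN 7 (pvmnCells s.typ 5 8)) :=
  Set.union_subset_union_right _ (pvmg_mono (pvrcn_Ep_cells s.isType s.isLane (mul_pos H.dl0 hh)))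

/-- the window of `L⁻` of a candidate -/
theorem pvrcn_Em_sub (H : 𝔤.OK) {h : ℝ} (hh : 0 < h) (z : ℂ) (s : PvmhT 𝔤) : (𝔤.ty h z s).Em ⊆ closedBall z (𝔤.rO * h) ∪ pvmgPl z (𝔤.dl * h) (pvtwN 7 (pvmnCells s.typ 1 4)) :=
  Set.union_subset_union_right _ (pvmg_mono (pvrcn_Em_cells s.isType s.isLane (mul_pos H.dl0 hh)))

/-- **(W3) at the start pin**: the window of `L⁺(s)` (tube `Np`, lane `Mp`, their `3 μ h` collar) lies in the region of 138, with a collar of `6` fine cells -/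
theorem pvrcn_Ep_T (H : 𝔤.OK) (c0 : 0 < c) {π : pvrcPat (pvrsNum 𝔤) c (pvrsPL 𝔤) x R m} {a b : ℤ × ℤ} (hl : PvrcnLat π a b) {p : ℂ}
    (hp : p ∈ (𝔤.ty (pvlmH m) (pvrcPatOf m π).zs (pvrcPatOf m π).ts).Ep) : closedBall p (6 * pvrcnDf 𝔤 c m) ⊆ pvrcnT π := by
  have hh := pvlm_H_pos m
  rcases pvrcn_Ep_sub H hh _ _ hp with h | h
  · exact pvrcn_ball_s H c0 hl (closedBall_subset_closedBall (mul_le_mul_of_nonneg_right (by show 𝔤.rO ≤ 𝔤.rO + 2; linarith) hh.le) h)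
  · refine pvrcn_core_s H c0 hl (E := pvtwN 7 (pvmnCells (pvrcPatOf m π).ts.typ 5 8)) (fun e he => Or.inr (pvtw_N_mono (by omega) (pvmn_cells_mono (by omega) le_rfl) he))
      (pvrcn_far_of_disj ?_) h
    rw [pvtw_N_add]
    exact (pvrcn_cells_disj (pvrcPatOf m π).ts.isType (by omega) (by omega) (by omega)).symm

/-- **(W3) at the end pin** -/
theorem pvrcn_Em_T (H : 𝔤.OK) (c0 : 0 < c) {π : pvrcPat (pvrsNum 𝔤) c (pvrsPL 𝔤) x R m} {a b : ℤ × ℤ} (hl : PvrcnLat π a b) {p : ℂ}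
    (hp : p ∈ (𝔤.ty (pvlmH m) (pvrcPatOf m π).zt (pvrcPatOf m π).tt).Em) : closedBall p (6 * pvrcnDf 𝔤 c m) ⊆ pvrcnT π := by
  have hh := pvlm_H_pos m
  rcases pvrcn_Em_sub H hh _ _ hp with h | h
  · exact pvrcn_ball_t H c0 hl (closedBall_subset_closedBall (mul_le_mul_of_nonneg_right (by show 𝔤.rO ≤ 𝔤.rO + 2; linarith) hh.le) h)
  · refine pvrcn_core_t H c0 hl (E := pvtwN 7 (pvmnCells (pvrcPatOf m π).tt.typ 1 4)) (fun e he => Or.inr (pvtw_N_mono (by omega) (pvmn_cells_mono le_rfl (by omega)) he))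
      (pvrcn_far_of_disj ?_) h
    rw [pvtw_N_add]
    exact pvrcn_cells_disj (pvrcPatOf m π).tt.isType (by omega) (by omega) (by omega)

/-- **(W4)** type level, placed: the `7`-tube of the positive half is more than two menu cells from the `8`-tube of the negative half, off the bar -/
theorem pvrcn_sep_pm (H : 𝔤.OK) {h : ℝ} (hh : 0 < h) (z : ℂ) (s : PvmhT 𝔤) {p q : ℂ} (hp : p ∈ pvmgPl z (𝔤.dl * h) (pvtwN 7 (pvmnCells s.typ 5 9)))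
    (hq : q ∈ pvmgPl z (𝔤.dl * h) (pvtwN 8 (pvmnCells s.typ 0 4))) (hq3 : q ∉ closedBall z (3 * h)) : 2 * (𝔤.dl * h) < ‖p - q‖ := by
  have hδ : 0 < 𝔤.dl * h := mul_pos H.dl0 hh
  by_contra hc
  rw [not_lt] at hc
  have h1 : q - z ∈ pvtU (𝔤.dl * h) (pvtwN 2 (pvtwN 7 (pvmnCells s.typ 5 9))) := pvtw_U_near hδ (pvmg_mem.1 hp) (by
    rw [sub_sub_sub_cancel_right, norm_sub_rev]; push_cast; exact hc)
  obtain ⟨c1, hc1, hq1⟩ := Set.mem_iUnion₂.1 h1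
  obtain ⟨c2, hc2, hq2⟩ := pvmg_mem_sq.1 hq
  have h2 : c1 ∈ pvtwN 1 (pvtwN 8 (pvmnCells s.typ 0 4)) := pvtw_N_iff.2 ⟨c2, hc2, pvls_touch hδ hq2 hq1⟩
  rw [pvtw_N_add] at h2 hc1
  exact hq3 (pvmh_bar H z s hh (pvmg_mem_sq.2 ⟨c1, pvls_sep s.isType (by omega) (by omega) ⟨h2, hc1⟩, hq1⟩))

/-- **(W4)** mirror -/
theorem pvrcn_sep_mp (H : 𝔤.OK) {h : ℝ} (hh : 0 < h) (z : ℂ) (s : PvmhT 𝔤) {p q : ℂ} (hp : p ∈ pvmgPl z (𝔤.dl * h) (pvtwN 7 (pvmnCells s.typ 0 4)))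
    (hq : q ∈ pvmgPl z (𝔤.dl * h) (pvtwN 8 (pvmnCells s.typ 5 9))) (hq3 : q ∉ closedBall z (3 * h)) : 2 * (𝔤.dl * h) < ‖p - q‖ := by
  have hδ : 0 < 𝔤.dl * h := mul_pos H.dl0 hh
  by_contra hc
  rw [not_lt] at hc
  have h1 : q - z ∈ pvtU (𝔤.dl * h) (pvtwN 2 (pvtwN 7 (pvmnCells s.typ 0 4))) := pvtw_U_near hδ (pvmg_mem.1 hp) (by
    rw [sub_sub_sub_cancel_right, norm_sub_rev]; push_cast; exact hc)
  obtain ⟨c1, hc1, hq1⟩ := Set.mem_iUnion₂.1 h1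
  obtain ⟨c2, hc2, hq2⟩ := pvmg_mem_sq.1 hq
  have h2 : c1 ∈ pvtwN 1 (pvtwN 8 (pvmnCells s.typ 5 9)) := pvtw_N_iff.2 ⟨c2, hc2, pvls_touch hδ hq2 hq1⟩
  rw [pvtw_N_add] at h2 hc1
  exact hq3 (pvmh_bar H z s hh (pvmg_mem_sq.2 ⟨c1, pvls_sep s.isType (by omega) (by omega) ⟨hc1, h2⟩, hq1⟩))

/-- the closing sides live in the balls of the candidates -/
theorem pvrcn_ClS_ball (H : 𝔤.OK) (π : pvrcPat (pvrsNum 𝔤) c (pvrsPL 𝔤) x R m) : pvrcnClS π ⊆ closedBall (pvrcPatOf m π).zs (𝔤.Lr * pvlmH m) :=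
  Set.sdiff_subset.trans (pvmh_w88_box_ball H _ (pvlm_H_pos m) (pvmn_N_box (pvmn_cells_box (pvrcPatOf m π).ts.isType)))

theorem pvrcn_ClT_ball (H : 𝔤.OK) (π : pvrcPat (pvrsNum 𝔤) c (pvrsPL 𝔤) x R m) : pvrcnClT π ⊆ closedBall (pvrcPatOf m π).zt (𝔤.Lr * pvlmH m) :=
  Set.sdiff_subset.trans (pvmh_w88_box_ball H _ (pvlm_H_pos m) (pvmn_N_box (pvmn_cells_box (pvrcPatOf m π).tt.isType)))

/-- the balls of the two candidates are more than `6 h` apart -/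
theorem pvrcn_balls_far (π : pvrcPat (pvrsNum 𝔤) c (pvrsPL 𝔤) x R m) {p q : ℂ} (hp : p ∈ closedBall (pvrcPatOf m π).zs (𝔤.Lr * pvlmH m)) (hq : q ∈ closedBall (pvrcPatOf m π).zt (𝔤.Lr * pvlmH m)) :
    6 * pvlmH m < ‖p - q‖ := by
  have h0 : 2 * (𝔤.Lr + 3) * pvlmH m < ‖(pvrcPatOf m π).zs - (pvrcPatOf m π).zt‖ := pvrc_pat_far m π
  rw [mem_closedBall_iff_norm] at hp hq
  have t1 := pvtv_tri (pvrcPatOf m π).zs p (pvrcPatOf m π).zt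
  have t2 := pvtv_tri p q (pvrcPatOf m π).zt
  rw [norm_sub_rev (pvrcPatOf m π).zs p] at t1
  linarith

end model

/-! ## 5. ALL THE POINTS OF THE TUBE (leaves (R1') (R2') (W1) of 212, `Exit/RegQP.lean`) -/

section pin7

variable {P : PvbRim} {z : ℂ} {t : ℕ → ℕ} {δ μ hh a b ρ d0 e0 d1 e1 RB r3 : ℝ} {𝔑 : PvmnNum} {τ : PvmnType} {p : ℂ} {i j l : ℕ}

/-- `pvrcn_fwd_cl` with `7` menu cells -/
theorem pvrcn_fwd_cl7 (hτ : PvmnIsType 𝔑 τ) (I : PvmfIn P z t μ hh a b ρ d0 e0 d1 e1) (N : PvmfNum δ μ hh a b ρ d0 e0 d1 e1 RB) (F : PvmnFits τ δ (fun i => P.v i - z) (fun k => t k.1))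
    (hbar : pvmgPl z δ (pvmnBar 𝔑 τ 5) ⊆ closedBall z r3) (hp : p ∈ pvmgPl z δ (pvtwN 8 (pvmnCells τ 0 4))) (hp3 : p ∉ closedBall z r3) (l1 : t 5 ≤ l) (l2 : l ≤ P.len) :
    7 * δ < ‖P.v l - p‖ := by
  have hδ := N.δ_pos
  rcases Nat.lt_or_ge l (t 6) with h6 | h6
  · by_contra hc
    rw [not_lt] at hc
    obtain ⟨c, hc5, hlc⟩ := pvrcn_piece I N F (i := 5) (j := 5) le_rfl (by omega) l1 h6.le
    obtain ⟨c', hc', hpc⟩ := pvmg_mem_sq.1 hp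
    have hn : c' ∈ pvtwN (7 + 1) {c} := pvrcn_cell_near hδ 7 hlc hpc (by
      rw [sub_sub_sub_cancel_right, norm_sub_rev]; push_cast; exact hc)
    have h2 : c' ∈ pvtwN 8 (pvmnCells τ 5 9) := pvtw_N_mono le_rfl (Set.singleton_subset_iff.2 (pvmn_cells_mono le_rfl (by omega) hc5)) hn
    exact hp3 (hbar (pvmg_mem_sq.2 ⟨c', pvls_sep hτ (i := 8) (j := 8) (by omega) (by omega) ⟨hc', h2⟩, hpc⟩))
  · have h1 := pvqg_fwd I N F (j := 4) (by omega) hp h6 l2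
    have h2 := N.d1_ge
    have h3 := N.μ_le
    push_cast at h1
    linarith

/-- `pvrcn_bwd_cl` with `7` menu cells -/
theorem pvrcn_bwd_cl7 (hτ : PvmnIsType 𝔑 τ) (I : PvmfIn P z t μ hh a b ρ d0 e0 d1 e1) (N : PvmfNum δ μ hh a b ρ d0 e0 d1 e1 RB) (F : PvmnFits τ δ (fun i => P.v i - z) (fun k => t k.1))
    (hbar : pvmgPl z δ (pvmnBar 𝔑 τ 5) ⊆ closedBall z r3) (hp : p ∈ pvmgPl z δ (pvtwN 8 (pvmnCells τ 5 9))) (hp3 : p ∉ closedBall z r3) (l1 : l ≤ t 5) :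
    7 * δ < ‖P.v l - p‖ := by
  have hδ := N.δ_pos
  rcases Nat.lt_or_ge (t 4) l with h4 | h4
  · by_contra hc
    rw [not_lt] at hc
    obtain ⟨c, hc5, hlc⟩ := pvrcn_piece I N F (i := 4) (j := 4) le_rfl (by omega) h4.le l1
    obtain ⟨c', hc', hpc⟩ := pvmg_mem_sq.1 hp
    have hn : c' ∈ pvtwN (7 + 1) {c} := pvrcn_cell_near hδ 7 hlc hpc (by
      rw [sub_sub_sub_cancel_right, norm_sub_rev]; push_cast; exact hc)
    have h2 : c' ∈ pvtwN 8 (pvmnCells τ 0 4) := pvtw_N_mono le_rfl (Set.singleton_subset_iff.2 (pvmn_cells_mono (by omega) le_rfl hc5)) hn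
    exact hp3 (hbar (pvmg_mem_sq.2 ⟨c', pvls_sep hτ (i := 8) (j := 8) (by omega) (by omega) ⟨h2, hc'⟩, hpc⟩))
  · have h1 := pvqg_bwd I N F (i := 5) (by omega) hp h4
    have h2 := N.d1_ge
    have h3 := N.μ_le
    push_cast at h1
    linarith

end pin7

section model7

variable {𝔤 : PvmhNum} {c : ℝ} {x : ℂ} {R : ℝ} {m : ℕ}

theorem pvrcn_dc_le (H : 𝔤.OK) (c : ℝ) (m : ℕ) : (pvrsNum 𝔤).dc c m ≤ 𝔤.dl * pvlmH m := by
  rw [pvrcn_scale 𝔤 c m]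
  have h1 : (1 : ℝ) ≤ (pvlmN c m : ℝ) := by exact_mod_cast pvlm_N_pos c m
  have := pvrcn_dc_pos H c m
  nlinarith

theorem pvrcn_df_le (H : 𝔤.OK) (c : ℝ) (m : ℕ) : pvrcnDf 𝔤 c m ≤ 𝔤.dl * pvlmH m / 21 := by
  have h := pvrcn_dc_le H c m
  show (pvrsNum 𝔤).dc c m / (2 * ((10 : ℤ) : ℝ) + 1) ≤ _
  have e : (2 * ((10 : ℤ) : ℝ) + 1) = 21 := by norm_num
  rw [e]
  linarith

/-- **every point of the tube**: its coarse cell meets the polygon of the run of every fitting rim, at a point within `dc / 10` of a vertex of the run -/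
theorem pvrcn_U_pt (H : 𝔤.OK) {𝔐 : PvbMenu (PvmhT 𝔤)} {ω : PVSample} {P : PvbRim} {s t : PvbPin (PvmhT 𝔤)} {π : pvrcPat (pvrsNum 𝔤) c (pvrsPL 𝔤) x R m}
    (hF : PvrcFit 𝔐 m ω P s t π) {a : ℂ} (ha : a ∈ pvrcnU π) :
    ∃ cc y l, a ∈ pvtSq ((pvrsNum 𝔤).dc c m) cc ∧ y ∈ pvtSq ((pvrsNum 𝔤).dc c m) cc ∧ y ∈ pvtxPoly P.v s.idx t.idx ∧ s.idx ≤ l ∧ l ≤ t.idx ∧ ‖y - P.v l‖ ≤ (pvrsNum 𝔤).dc c m / 10 ∧
      ‖a - y‖ ≤ 2 * (pvrsNum 𝔤).dc c m := by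
  have hdc := pvrcn_dc_pos H c m
  obtain ⟨cc, hcc, hac⟩ := Set.mem_iUnion₂.1 ha
  rw [hF.fit.2.2.2.2] at hcc
  obtain ⟨y, hyc, hy⟩ := hcc
  obtain ⟨kb, kf, hP⟩ := hF.poly
  have hmu : (pvrsNum 𝔤).mu c m = (pvrsNum 𝔤).dc c m / 10 := by
    show (1 / 10 : ℝ) * (pvrsNum 𝔤).dc c m = _
    ring
  obtain ⟨l, l1, l2, l3⟩ := pvtx_poly_vertex (μ := (pvrsNum 𝔤).dc c m / 10) (by positivity) hF.lt.le
    (fun k k1 k2 => by rw [← hmu]; exact hP.mesh k (hP.kb_lt.le.trans k1) (k2.trans hP.lt_kf)) hy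
  refine ⟨cc, y, l, hac, hyc, hy, l1, l2, l3, ?_⟩
  have := pvrc_sq_dist (j := 0) hdc.le (c := cc) (z := cc) (by simp) (by simp) (by simp) (by simp) hac hyc
  push_cast at this
  linarith

/-- **(W1)** the tube lies in the patch -/
theorem pvrcn_U_win (H : 𝔤.OK) {𝔐 : PvbMenu (PvmhT 𝔤)} {ω : PVSample} {P : PvbRim} {s t : PvbPin (PvmhT 𝔤)} {π : pvrcPat (pvrsNum 𝔤) c (pvrsPL 𝔤) x R m}
    (hF : PvrcFit 𝔐 m ω P s t π) {a : ℂ} (ha : a ∈ pvrcnU π) : ‖a - x‖ ≤ 2 * R + 2 * (pvrsNum 𝔤).dc c m := by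
  obtain ⟨cc, y, l, -, -, hy, -, -, -, h⟩ := pvrcn_U_pt H hF ha
  have h1 : ‖y - x‖ ≤ 2 * R := mem_closedBall_iff_norm.1 (pvrcm_poly_ball hF.lt.le hF.arc hy)
  have := pvtv_tri a y x
  linarith

/-- **(R2') at the start pin**: every point of the tube is more than `4` menu cells from the closing side -/
theorem pvrcn_U_ClS (H : 𝔤.OK) {𝔐 : PvbMenu (PvmhT 𝔤)} {ω : PVSample} {P : PvbRim} {s t : PvbPin (PvmhT 𝔤)} {π : pvrcPat (pvrsNum 𝔤) c (pvrsPL 𝔤) x R m}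
    (hF : PvrcFit 𝔐 m ω P s t π) (hs : 𝔤.Fit (pvlmH m) P s.idx s.ctr s.typ) {a q : ℂ} (ha : a ∈ pvrcnU π) (hq : q ∈ pvrcnClS π) : 4 * (𝔤.dl * pvlmH m) < ‖q - a‖ := by
  have hh := pvlm_H_pos m
  have hdc := pvrcn_dc_pos H c m
  have hle := pvrcn_dc_le H c m
  have htl : t.idx ≤ P.len := hF.pin_t.idx_lt.le
  obtain ⟨es1, es2⟩ := pvrc_fit_s hF
  obtain ⟨cc, y, l, -, -, -, l1, l2, l3, l4⟩ := pvrcn_U_pt H hF ha
  obtain ⟨-, as, h5s, Is, Fs⟩ := hs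
  obtain ⟨hq1, hq3⟩ := hq
  rw [← es1, ← es2] at hq1
  rw [← es1] at hq3
  have h7 := pvrcn_fwd_cl7 (l := l) s.typ.isType Is (pvmh_num H hh) Fs (pvmh_bar H s.ctr s.typ hh) hq1 hq3 (by rw [h5s]; exact l1) (l2.trans htl)
  have t1 := pvtv_tri (P.v l) y q
  have t2 := pvtv_tri y a q
  rw [norm_sub_rev (P.v l) y] at t1
  rw [norm_sub_rev y a, norm_sub_rev a q] at t2
  linarith

/-- **(R2') at the end pin** -/
theorem pvrcn_U_ClT (H : 𝔤.OK) {𝔐 : PvbMenu (PvmhT 𝔤)} {ω : PVSample} {P : PvbRim} {s t : PvbPin (PvmhT 𝔤)} {π : pvrcPat (pvrsNum 𝔤) c (pvrsPL 𝔤) x R m}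
    (hF : PvrcFit 𝔐 m ω P s t π) (ht : 𝔤.Fit (pvlmH m) P t.idx t.ctr t.typ) {a q : ℂ} (ha : a ∈ pvrcnU π) (hq : q ∈ pvrcnClT π) : 4 * (𝔤.dl * pvlmH m) < ‖q - a‖ := by
  have hh := pvlm_H_pos m
  have hdc := pvrcn_dc_pos H c m
  have hle := pvrcn_dc_le H c m
  obtain ⟨et1, et2⟩ := pvrc_fit_t hF
  obtain ⟨cc, y, l, -, -, -, l1, l2, l3, l4⟩ := pvrcn_U_pt H hF ha
  obtain ⟨-, at', h5t, It, Ft⟩ := ht
  obtain ⟨hq1, hq3⟩ := hq
  rw [← et1, ← et2] at hq1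
  rw [← et1] at hq3
  have h7 := pvrcn_bwd_cl7 (l := l) t.typ.isType It (pvmh_num H hh) Ft (pvmh_bar H t.ctr t.typ hh) hq1 hq3 (by rw [h5t]; exact l2)
  have t1 := pvtv_tri (P.v l) y q
  have t2 := pvtv_tri y a q
  rw [norm_sub_rev (P.v l) y] at t1
  rw [norm_sub_rev y a, norm_sub_rev a q] at t2
  linarith

/-- **(R1')**: every point of the tube has a collar of `6` fine cells in the region of 138 -/
theorem pvrcn_U_T (H : 𝔤.OK) {𝔐 : PvbMenu (PvmhT 𝔤)} {ω : PVSample} {P : PvbRim} {s t : PvbPin (PvmhT 𝔤)} {π : pvrcPat (pvrsNum 𝔤) c (pvrsPL 𝔤) x R m}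
    (hF : PvrcFit 𝔐 m ω P s t π) (hs : 𝔤.Fit (pvlmH m) P s.idx s.ctr s.typ) (ht : 𝔤.Fit (pvlmH m) P t.idx t.ctr t.typ) {a : ℂ} (ha : a ∈ pvrcnU π) :
    closedBall a (6 * pvrcnDf 𝔤 c m) ⊆ pvrcnT π := by
  have hh := pvlm_H_pos m
  have hdc := pvrcn_dc_pos H c m
  have hle := pvrcn_dc_le H c m
  have hk := pvlm_N_pos c m
  have htl : t.idx ≤ P.len := hF.pin_t.idx_lt.le
  obtain ⟨cc, y, l, hac, hyc, hy, l1, l2, l3, l4⟩ := pvrcn_U_pt H hF ha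
  obtain ⟨a0, b0, hl⟩ := pvrcn_lat H hF
  obtain ⟨es1, es2⟩ := pvrc_fit_s hF
  obtain ⟨et1, et2⟩ := pvrc_fit_t hF
  obtain ⟨-, as, h5s, Is, Fs⟩ := hs
  obtain ⟨-, at', h5t, It, Ft⟩ := ht
  have N := pvmh_num H hh
  have e := pvrcn_scale 𝔤 c m
  have hfar : ∀ q ∈ π.1.1.Ys (pvrcPL c (pvrsPL 𝔤) m) ∪ π.1.1.Yt (pvrcPL c (pvrsPL 𝔤) m), PvfjFar cc q := by
    rintro q (hq | hq)
    · have hq' : q ∈ pvfjSh ((pvlmN c m : ℤ) * a0.1, (pvlmN c m : ℤ) * a0.2) (pvrcRef (pvlmN c m : ℤ) (pvtwN 8 (pvmnCells (pvrcPatOf m π).ts.typ 1 3))) := by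
        rw [← hl.1]; exact hq
      refine pvrcn_far_of hk hdc hyc hq' fun p hp => ?_
      rw [← hl.zs, ← e, ← es1, ← es2] at hp
      have h5 := pvrcn_fwd_Ym Is N Fs (l := l) hp (by rw [h5s]; exact l1) (l2.trans htl)
      have t1 := pvtv_tri (P.v l) y p
      rw [norm_sub_rev (P.v l) y] at t1
      linarith
    · have hq' : q ∈ pvfjSh ((pvlmN c m : ℤ) * b0.1, (pvlmN c m : ℤ) * b0.2) (pvrcRef (pvlmN c m : ℤ) (pvtwN 8 (pvmnCells (pvrcPatOf m π).tt.typ 6 8))) := by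
        rw [← hl.2]; exact hq
      refine pvrcn_far_of hk hdc hyc hq' fun p hp => ?_
      rw [← hl.zt, ← e, ← et1, ← et2] at hp
      have h5 := pvrcn_bwd_Yp It N Ft (l := l) hp (by rw [h5t]; exact l2)
      have t1 := pvtv_tri (P.v l) y p
      rw [norm_sub_rev (P.v l) y] at t1
      linarith
  have h1 := pvfj_fit_core hF.fit hy hyc hfar
  have h2 := pvrcn_ball_fine hdc (mm := (pvrsNum 𝔤).mm) (by show (0 : ℤ) ≤ 10; norm_num) 6 hac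
  push_cast at h2
  exact h2.trans (pvt_U_mono (Set.image_mono h1))

end model7

end Claimed.Agent.R289
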