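import Claimed.Agent.R289.Exit.GlueP
import Claimed.Agent.R289.Exit.RegRP
import Claimed.Agent.R289.Tr.GlueRg

/-!
# Row 289 (S0537), THE WALL, ROAD P, Exit/RingRP : THE RING LANE OF A LIVE PATTERN AT THE MODEL, AT THE TERMS OF 236 (`Exit/RegRP.lean`)      (owner helper222; prefix `pvqg_`)      0 sorry

* sec. 1  `pvqg_df_eq` (`pvrcnDf 𝔤 c m = dc / 21`), `pvqg_sq_sup`, `pvqg_coarse_two`
* sec. 2  `pvqg_lane_F0` : the coarse cells of the window of the ring lane lie in the obstacle `F0` of 138 (bodies `N⁸(1..8)`, `N² G`)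
* sec. 3  **`PvqgRing 𝔤 c R x m π L`** = THE CONTRACT OF `S3 := pvlnW df L` AT THE TERMS OF THE PATTERN (`df = pvrcnDf 𝔤 c m`):   `chain`, `wf`, `hook` (147's `pvhhDat .. .Wf .Hook` at `zs ts zt tt` of `pvrcPatOf m π`),
          `off_U` (`> 6 df` from `pvrcnU π` = the closed coarse cells of the arc: EVERY fitting rim runs there, `pvrcn_run` (R0)), `in_T` (`closedBall p (6 df) ⊆ pvrcnT π`), `off_ClS`, `off_ClT` (`> dl h`), `off_s`, `off_t` (`a₃ h - 17 dl h ≤ ‖p - z‖`)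
          **`pvqg_ring_exists`** : `PvqgLvl` + ONE fitting rim (`PvrcFit` + the two exact fits `𝔤.Fit`) + equal colours ⟹ `∃ L, PvqgRing 𝔤 c R x m π L`
-/

set_option autoImplicit false
set_option linter.unusedSectionVars false
set_option linter.unusedVariables false

namespace Claimed.Agent.R289

open MeasureTheory Filter Topology Set Metric Claims.C0465 Claims.C0467 Claimed.Agent.R291

section model

variable {𝔤 : PvmhNum} {c R : ℝ} {x : ℂ} {m : ℕ}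

theorem pvqg_df_eq (𝔤 : PvmhNum) (c : ℝ) (m : ℕ) : pvrcnDf 𝔤 c m = (pvrsNum 𝔤).dc c m / 21 := by
  show (pvrsNum 𝔤).dc c m / (2 * ((10 : ℤ) : ℝ) + 1) = _
  norm_num

/-- two link cells `j` apart: the points of their squares, in one coordinate -/
theorem pvqg_sq_sup {dc : ℝ} (hdc : 0 < dc) {j : ℕ} {w z : ℤ × ℤ} (hw : w ∈ pvtwN j {z}) {p q : ℂ} (hp : p ∈ pvtSq dc w) (hq : q ∈ pvtSq dc z) :
    |p.re - q.re| ≤ ((j : ℝ) + 1) * dc ∧ |p.im - q.im| ≤ ((j : ℝ) + 1) * dc := by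
  obtain ⟨z', hz', h1, h2, h3, h4⟩ := hw
  obtain rfl : z' = z := hz'
  obtain ⟨p1, p2, p3, p4⟩ := hp
  obtain ⟨q1, q2, q3, q4⟩ := hq
  have g1 : (w.1 : ℝ) ≤ (z'.1 : ℝ) + j := by exact_mod_cast h1
  have g2 : (z'.1 : ℝ) ≤ (w.1 : ℝ) + j := by exact_mod_cast h2
  have g3 : (w.2 : ℝ) ≤ (z'.2 : ℝ) + j := by exact_mod_cast h3
  have g4 : (z'.2 : ℝ) ≤ (w.2 : ℝ) + j := by exact_mod_cast h4
  constructor <;> rw [abs_le] <;> constructor <;> nlinarith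

/-- two points `≤ 34/21` coarse cells apart in each coordinate: their coarse cells are `2`-neighbours -/
theorem pvqg_coarse_two {Dc : ℝ} (hDc : 0 < Dc) {c cq : ℤ × ℤ} {p q : ℂ} (hp : p ∈ pvtSq Dc c) (hq : q ∈ pvtSq Dc cq) (h1 : |p.re - q.re| ≤ 34 * (Dc / 21)) (h2 : |p.im - q.im| ≤ 34 * (Dc / 21)) : c ∈ pvtwN 2 {cq} := by
  obtain ⟨p1, p2, p3, p4⟩ := hp
  obtain ⟨q1, q2, q3, q4⟩ := hq
  obtain ⟨a1, a2⟩ := abs_le.1 h1
  obtain ⟨b1, b2⟩ := abs_le.1 h2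
  have key : ∀ u v : ℤ, (u : ℝ) * Dc ≤ ((v : ℝ) + 1) * Dc + 34 * (Dc / 21) → u ≤ v + 2 := by
    intro u v h
    have : (u : ℝ) < (v : ℝ) + 3 := by
      by_contra hc
      push Not at hc
      nlinarith
    have : (u : ℝ) < ((v + 3 : ℤ) : ℝ) := by push_cast; exact this
    have := Int.cast_lt.1 this
    omega
  exact ⟨cq, rfl, by exact_mod_cast key c.1 cq.1 (by linarith), by exact_mod_cast key cq.1 c.1 (by linarith), by exact_mod_cast key c.2 cq.2 (by linarith), by exact_mod_cast key cq.2 c.2 (by linarith)⟩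

/-! ## 2. the ring lane of a fitting rim -/

section lane

variable {𝔐 : PvbMenu (PvmhT 𝔤)} {P : PvbRim} {s t : PvbPin (PvmhT 𝔤)} {cs ct : ℤ × ℤ} {ts tt : ℕ → ℕ} {kb kf : ℕ}
  (IP : PvqgAtP 𝔤 (pvrsNum 𝔤) c R x 𝔐 m P s t cs ct ts tt kb kf) (hl : PvqgLvl 𝔤 (pvrsNum 𝔤) c R m) {L : List (ℤ × ℤ)}
  (Λ : PvwgLane 𝔤 (pvlmH m) ((pvrsNum 𝔤).dc c m / 21) ((pvlmN c m * 21 : ℕ) : ℤ) (PvqgIn.hkz IP.toL) (pvqgK (pvlmN c m * 21) cs) (pvqgK (pvlmN c m * 21) ct) s.typ t.typ (PvqgIn.Fa IP.toL 30) L)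

include IP hl Λ

/-- **the coarse cells of the window of the ring lane lie in the obstacle `F0` of 138** -/
theorem pvqg_lane_F0 {p : ℂ} (hp : p ∈ pvlnW ((pvrsNum 𝔤).dc c m / 21) L) {e : ℤ × ℤ} (he : p ∈ pvtSq ((pvrsNum 𝔤).dc c m) e) :
    e ∈ pvfjF0 ((pvfjmPlug 𝔤.NN PvmhT.typ).ref (pvlmN c m)) ((pvrsNum 𝔤).dc c m) P s t (pvqgK (pvlmN c m) cs) (pvqgK (pvlmN c m) ct) := by
  rw [PvqgIn.F0_eq IP]
  rcases PvqgIn.lane_inn IP.toL hl.num3 Λ hp with h | h | h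
  · refine Or.inl (Or.inr ?_)
    obtain ⟨e0, he0, hpe0⟩ := pvmg_mem_sq.1 h
    have h1 := pvqg_M_sq (PvqgIn.hk IP) (PvqgIn.hdc IP) cs he
    rw [← PvqgIn.hδ IP, ← (PvqgIn.Ss IP).ctr] at h1
    have h2 := pvrcn_cell_near (PvqgIn.N IP).δ_pos 0 hpe0 h1 (by simp)
    have h3 : (pvqgM (pvlmN c m) (PvqgIn.hk IP) cs).ap e ∈ pvfjmB 𝔤.NN s.typ.typ :=
      Or.inr (pvtw_N_mono (by omega) (pvmn_cells_mono (by omega) le_rfl) (pvwg_N_single he0 h2))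
    unfold pvqgBd
    rw [← pvqg_M_pre (PvqgIn.hk IP)]
    exact h3
  · refine Or.inl (Or.inl ?_)
    obtain ⟨w, hw, hpw⟩ := mem_iUnion₂.1 h
    obtain ⟨z, ⟨q, hqz, hq⟩, hwz⟩ := pvtw_N_iff.1 hw
    obtain ⟨g1, g2⟩ := pvqg_sq_sup (PvqgIn.hdc IP.toL) hwz hpw hqz
    obtain ⟨eq, heq⟩ := pvt_sq_cover (PvqgIn.hdc IP) q
    have e34 : (((3 + 30 : ℕ) : ℝ) + 1) = 34 := by push_cast; norm_num
    rw [e34] at g1 g2
    exact pvtw_N_iff.2 ⟨eq, ⟨q, heq, PvqgIn.Fa_arc IP.toL hl.num3 hq⟩, pvqg_coarse_two (PvqgIn.hdc IP) he heq g1 g2⟩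
  · refine Or.inr ?_
    obtain ⟨e0, he0, hpe0⟩ := pvmg_mem_sq.1 h
    have h1 := pvqg_M_sq (PvqgIn.hk IP) (PvqgIn.hdc IP) ct he
    rw [← PvqgIn.hδ IP, ← (PvqgIn.St IP).ctr] at h1
    have h2 := pvrcn_cell_near (PvqgIn.N IP).δ_pos 0 hpe0 h1 (by simp)
    have h3 : (pvqgM (pvlmN c m) (PvqgIn.hk IP) ct).ap e ∈ pvfjmB 𝔤.NN t.typ.typ :=
      Or.inr (pvtw_N_mono (by omega) (pvmn_cells_mono le_rfl (by omega)) (pvwg_N_single he0 h2))
    unfold pvqgBd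
    rw [← pvqg_M_pre (PvqgIn.hk IP)]
    exact h3

end lane

/-! ## 3. the contract of the ring lane at the terms of the pattern, existence -/

/-- **THE RING LANE OF A PATTERN**: a walk of fine cells `df = dc / 21 = (Γ m).δ`, with all that the regions of the free side ask of `S3 := pvlnW df L` -/
structure PvqgRing (𝔤 : PvmhNum) (c R : ℝ) (x : ℂ) (m : ℕ) (π : pvrcPat (pvrsNum 𝔤) c (pvrsPL 𝔤) x R m) (L : List (ℤ × ℤ)) : Prop where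
  chain : L.IsChain PvlnAdj
  wf : (pvhhDat 𝔤 (pvlmH m) (pvrcPatOf m π).zs (pvrcPatOf m π).ts (pvrcPatOf m π).zt (pvrcPatOf m π).tt (pvrcnDf 𝔤 c m) L).Wf
  hook : (pvhhDat 𝔤 (pvlmH m) (pvrcPatOf m π).zs (pvrcPatOf m π).ts (pvrcPatOf m π).zt (pvrcPatOf m π).tt (pvrcnDf 𝔤 c m) L).Hook
  /-- off the tube of the pattern (the closed coarse cells of the arc: EVERY fitting rim runs there), collar `6` fine cells -/
  off_U : ∀ p ∈ pvlnW (pvrcnDf 𝔤 c m) L, ∀ q ∈ pvrcnU π, 6 * pvrcnDf 𝔤 c m < ‖p - q‖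
  /-- inside the region `T` of 138, collar `6` fine cells -/
  in_T : ∀ p ∈ pvlnW (pvrcnDf 𝔤 c m) L, closedBall p (6 * pvrcnDf 𝔤 c m) ⊆ pvrcnT π
  /-- more than a menu cell from the two closing sides -/
  off_ClS : ∀ p ∈ pvlnW (pvrcnDf 𝔤 c m) L, ∀ q ∈ pvrcnClS π, 𝔤.dl * pvlmH m < ‖p - q‖
  off_ClT : ∀ p ∈ pvlnW (pvrcnDf 𝔤 c m) L, ∀ q ∈ pvrcnClT π, 𝔤.dl * pvlmH m < ‖p - q‖
  /-- off the balls of the two states -/
  off_s : ∀ p ∈ pvlnW (pvrcnDf 𝔤 c m) L, 𝔤.a3 * pvlmH m - 17 * (𝔤.dl * pvlmH m) ≤ ‖p - (pvrcPatOf m π).zs‖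
  off_t : ∀ p ∈ pvlnW (pvrcnDf 𝔤 c m) L, 𝔤.a3 * pvlmH m - 17 * (𝔤.dl * pvlmH m) ≤ ‖p - (pvrcPatOf m π).zt‖

/-- **THE RING LANE OF A LIVE PATTERN EXISTS**: from ONE fitting rim (the witness) -/
theorem pvqg_ring_exists (H : 𝔤.OK) (hl : PvqgLvl 𝔤 (pvrsNum 𝔤) c R m) {𝔐 : PvbMenu (PvmhT 𝔤)} {ω : PVSample} {P : PvbRim} {s t : PvbPin (PvmhT 𝔤)} {π : pvrcPat (pvrsNum 𝔤) c (pvrsPL 𝔤) x R m}
    (hF : PvrcFit 𝔐 m ω P s t π) (Fs : 𝔤.Fit (pvlmH m) P s.idx s.ctr s.typ) (Ft : 𝔤.Fit (pvlmH m) P t.idx t.ctr t.typ) (hcol : s.typ.typ.col = t.typ.typ.col) : ∃ L, PvqgRing 𝔤 c R x m π L := by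
  obtain ⟨cs, ct, ts, tt, kb, kf, IP⟩ := pvqg_in_of_fit H (pvrs_rel H) hl hF Fs Ft
  have I := IP.toL
  obtain ⟨L, Λ⟩ := PvqgIn.lane_exists IP.toL hl.num3 H (pvlm_H_pos m) rfl hcol (by have := pvlm_N_pos c m; omega)
  obtain ⟨es1, es2⟩ := pvrc_fit_s hF
  obtain ⟨et1, et2⟩ := pvrc_fit_t hF
  have hfit := hF.fit
  have hdc := PvqgIn.hdc IP
  have hN := PvqgIn.N IP
  have n2 := hN.d1_ge; have n3 := hN.μ_le; have n5 := hN.δ_pos; have n6 := PvqgIn.dc_le IP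
  have edf := pvqg_df_eq 𝔤 c m
  have w1 := Λ.wf
  have w2 := Λ.hook
  rw [PvqgIn.ctr_link IP.toL (PvqgIn.Ss IP.toL), PvqgIn.ctr_link IP.toL (PvqgIn.St IP.toL), es1, es2, et1, et2, ← edf] at w1 w2
  refine ⟨L, Λ.chain, w1, w2, ?_, ?_, ?_, ?_, ?_, ?_⟩ <;> rw [edf]
  · -- off the tube
    intro p hp q hq
    by_contra hcon
    push Not at hcon
    have hq' : q ∈ pvtU ((pvrsNum 𝔤).dc c m) (pvtCells ((pvrsNum 𝔤).dc c m) (pvtxPoly P.v s.idx t.idx)) := by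
      rw [← hfit.2.2.2.2]; exact hq
    have h1 := pvrcn_ref_sub hdc (K := 21) (by norm_num) 6 _ hq' (q := p) (by push_cast; linarith)
    have h2 := PvqgIn.lane_off_arc IP.toL hl.num3 Λ (a'' := 21 + 6) (by norm_num) (by have := pvlm_N_pos c m; omega)
    push_cast at h1
    exact Set.disjoint_left.1 h2 hp h1
  · -- inside the region of 138
    intro p hp
    obtain ⟨e, he⟩ := pvt_sq_cover hdc p
    have hk := PvqgIn.hk IP
    have ecs : π.1.1.cs = ((pvlmN c m : ℤ) * cs.1, (pvlmN c m : ℤ) * cs.2) := by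
      refine pvrcn_pt_inj hdc ?_
      rw [← hfit.1, (PvqgIn.Ss IP).ctr, PvqgIn.hδ IP]
      have := pvrc_pt (pvlmN c m : ℤ) ((pvrsNum 𝔤).dc c m) cs
      rwa [Int.cast_natCast] at this
    have ect : π.1.1.ct = ((pvlmN c m : ℤ) * ct.1, (pvlmN c m : ℤ) * ct.2) := by
      refine pvrcn_pt_inj hdc ?_
      rw [← hfit.2.2.1, (PvqgIn.St IP).ctr, PvqgIn.hδ IP]
      have := pvrc_pt (pvlmN c m : ℤ) ((pvrsNum 𝔤).dc c m) ct
      rwa [Int.cast_natCast] at this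
    have hF0 : e ∈ π.1.1.F0 (pvrcPL c (pvrsPL 𝔤) m) := by
      have h0 := pvqg_lane_F0 IP hl Λ hp he
      unfold PvfjDat.F0
      rw [hfit.2.2.2.2, ecs, ect, ← hfit.2.1, ← hfit.2.2.2.1]
      exact h0
    have hfar : ∀ q ∈ π.1.1.Ys (pvrcPL c (pvrsPL 𝔤) m) ∪ π.1.1.Yt (pvrcPL c (pvrsPL 𝔤) m), PvfjFar e q := by
      rintro q (hq | hq)
      · have hq' : q ∈ pvfjSh ((pvlmN c m : ℤ) * cs.1, (pvlmN c m : ℤ) * cs.2) (pvrcRef (pvlmN c m : ℤ) (pvtwN 8 (pvmnCells s.typ.typ 1 3))) := by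
          rw [← ecs, hfit.2.1]; exact hq
        refine pvrcn_far_of hk hdc he hq' fun p' hp' => ?_
        rw [← PvqgIn.hδ IP, ← (PvqgIn.Ss IP).ctr] at hp'
        have := PvqgIn.lane_far_s IP.toL hl.num3 Λ (j := 3) (by norm_num) hp hp'
        push_cast at this
        linarith
      · have hq' : q ∈ pvfjSh ((pvlmN c m : ℤ) * ct.1, (pvlmN c m : ℤ) * ct.2) (pvrcRef (pvlmN c m : ℤ) (pvtwN 8 (pvmnCells t.typ.typ 6 8))) := by
          rw [← ect, hfit.2.2.2.1]; exact hq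
        refine pvrcn_far_of hk hdc he hq' fun p' hp' => ?_
        rw [← PvqgIn.hδ IP, ← (PvqgIn.St IP).ctr] at hp'
        have := PvqgIn.lane_far_t IP.toL hl.num3 Λ (i := 6) (by norm_num) (by norm_num) hp hp'
        push_cast at this
        linarith
    have h1 := π.1.spec.1.T_core e (pvtb_hull_sub hF0) hfar
    have h2 := pvrcn_ball_fine hdc (mm := (pvrsNum 𝔤).mm) (by show (0 : ℤ) ≤ 10; norm_num) 6 he
    push_cast at h2
    rw [← edf]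
    exact h2.trans (pvt_U_mono (Set.image_mono h1))
  · intro p hp q hq
    have hq' := hq.1
    rw [← es1, ← es2] at hq'
    have := PvqgIn.lane_far_s IP.toL hl.num3 Λ (j := 4) (by norm_num) hp hq'
    push_cast at this
    linarith
  · intro p hp q hq
    have hq' := hq.1
    rw [← et1, ← et2] at hq'
    have := PvqgIn.lane_far_t IP.toL hl.num3 Λ (i := 5) (by norm_num) (by norm_num) hp hq'
    push_cast at this
    linarith
  · intro p hp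
    rw [← es1]
    exact PvqgIn.lane_ball_s IP.toL hl.num3 Λ hp
  · intro p hp
    rw [← et1]
    exact PvqgIn.lane_ball_t IP.toL hl.num3 Λ hp

end model

end Claimed.Agent.R289
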