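-- KEEP
import Claimed.Agent.R289.Exit.RegRP
import Claimed.Agent.R289.Tr.FootS
import Claimed.Agent.R289.Tr.PortM
import Claimed.Agent.R289.Tr.DiA

/-!
# Row 289 (S0537, Cardy for Poisson-Voronoi), THE WALL, ROAD P, REG L2, file Exit/RoadQP : THE ROADS OF THE TWO CLOSING SIDES      (pen + prover helper97; prefix `pvyg_`)

Leaves `pvvr_road_s`, `pvvr_road_t` of `Exit/RegQP.lean` (212).      The closing side of a pin = the placed `N⁸` collar of one half of the type, off the bar.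
THE ROAD `A` := the polygon of the witness rim from the far mark to the passage number `1` (outside `clB(z, a₁ h)`), with the full `17 × 17` blocks round its cells which have a point of the polygon beyond `rO h - 13 δ`.
* preconnected: a polygon and convex blocks which meet it;
* contains the closing side off `Os`: the inner stretch of the rim stays in `clB(z, (b₁ + μ) h)` (`PvdaPass.diam`);
* far from the lane zone: `> 3 δ` from the lane (`pvyf_sep_pl`), `≥ δ` from the room `Tp` (the polygon lies ON the own half: difference of the distances; the blocks are beyond `S₂`).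
-/

set_option autoImplicit false
set_option linter.unusedSectionVars false
set_option linter.unusedVariables false

namespace Claimed.Agent.R289

open Set Metric Claims.C0465 Claims.C0467 Claimed.Agent.R291

/-! ## §1 the abstract road -/

theorem pvyg_rect_convex (a b c d : ℝ) : Convex ℝ {w : ℂ | (a ≤ w.re ∧ w.re ≤ b) ∧ (c ≤ w.im ∧ w.im ≤ d)} := by
  intro x hx y hy s t hs ht hst
  obtain ⟨⟨x1, x2⟩, x3, x4⟩ := hx
  obtain ⟨⟨y1, y2⟩, y3, y4⟩ := hy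
  have es : s = 1 - t := by linarith
  subst es
  simp only [Set.mem_ofPred_eq, Complex.add_re, Complex.add_im, Complex.real_smul, Complex.mul_re, Complex.mul_im, Complex.ofReal_re, Complex.ofReal_im, zero_mul, sub_zero, add_zero]
  refine ⟨⟨?_, ?_⟩, ?_, ?_⟩ <;> nlinarith

/-- the block of `17 × 17` cells round the cell `c` -/
def pvygBlk (δ : ℝ) (c : ℤ × ℤ) : Set ℂ := pvtU δ (tscBox (c.1 - 8) (c.1 + 8) (c.2 - 8) (c.2 + 8))

theorem pvyg_eqns_cite : True := by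
  have := @pvygBlk.eq_1
  trivial

section abstract

variable {δ : ℝ} {c : ℤ × ℤ} {p w z : ℂ}

theorem pvyg_blk_mem (hδ : 0 < δ) : p ∈ pvygBlk δ c ↔ ((((c.1 - 8 : ℤ) : ℝ) * δ ≤ p.re ∧ p.re ≤ (((c.1 + 8 : ℤ) : ℝ) + 1) * δ) ∧ (((c.2 - 8 : ℤ) : ℝ) * δ ≤ p.im ∧ p.im ≤ (((c.2 + 8 : ℤ) : ℝ) + 1) * δ)) :=
  pvtw_U_box hδ (by omega) (by omega)

theorem pvyg_blk_preconn (hδ : 0 < δ) (c : ℤ × ℤ) : IsPreconnected (pvygBlk δ c) := by
  have : pvygBlk δ c = {w : ℂ | ((((c.1 - 8 : ℤ) : ℝ) * δ ≤ w.re ∧ w.re ≤ (((c.1 + 8 : ℤ) : ℝ) + 1) * δ) ∧ (((c.2 - 8 : ℤ) : ℝ) * δ ≤ w.im ∧ w.im ≤ (((c.2 + 8 : ℤ) : ℝ) + 1) * δ))} := by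
    ext p
    exact pvyg_blk_mem hδ
  rw [this]
  exact (pvyg_rect_convex _ _ _ _).isPreconnected

theorem pvyg_blk_self (hδ : 0 < δ) (hw : w ∈ pvtSq δ c) : w ∈ pvygBlk δ c :=
  mem_iUnion₂.2 ⟨c, ⟨by omega, by omega, by omega, by omega⟩, hw⟩

theorem pvyg_blk_sub {E : Set (ℤ × ℤ)} (hc : c ∈ E) : pvygBlk δ c ⊆ pvtU δ (pvtwN 8 E) :=
  pvt_U_mono fun u hu => ⟨c, hc, by have := hu.1; have := hu.2.1; push_cast; omega, by have := hu.1; push_cast; omega, by have := hu.2.2.2; push_cast; omega, by have := hu.2.2.1; push_cast; omega⟩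

/-- a point of the block is within `13 δ` of a point of the central cell -/
theorem pvyg_blk_near (hδ : 0 < δ) (hp : p ∈ pvygBlk δ c) (hw : w ∈ pvtSq δ c) : ‖p - w‖ ≤ 13 * δ := by
  obtain ⟨⟨p1, p2⟩, p3, p4⟩ := (pvyg_blk_mem hδ).1 hp
  obtain ⟨w1, w2, w3, w4⟩ := hw
  push_cast at p1 p2 p3 p4
  have h1 : |(p - w).re| ≤ 9 * δ := by rw [Complex.sub_re, abs_le]; constructor <;> nlinarith
  have h2 : |(p - w).im| ≤ 9 * δ := by rw [Complex.sub_im, abs_le]; constructor <;> nlinarith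
  have h3 : ‖p - w‖ ^ 2 = (p - w).re ^ 2 + (p - w).im ^ 2 := by rw [Complex.sq_norm, Complex.normSq_apply]; ring
  have h4 : (p - w).re ^ 2 ≤ (9 * δ) ^ 2 := sq_le_sq' (by linarith [(abs_le.1 h1).1]) (abs_le.1 h1).2
  have h5 : (p - w).im ^ 2 ≤ (9 * δ) ^ 2 := sq_le_sq' (by linarith [(abs_le.1 h2).1]) (abs_le.1 h2).2
  refine abs_le_of_sq_le_sq' ?_ (by positivity) |>.2
  nlinarith

/-- **THE ABSTRACT ROAD**: `Ko` = the outer stretch (preconnected), `Ki` = the inner stretch (in the ball of radius `ri`) -/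
theorem pvyg_road (hδ : 0 < δ) (z : ℂ) {Ko Ki : Set ℂ} (hKo : IsPreconnected Ko) {ri rO : ℝ} (hKi : ∀ x ∈ Ki, ‖x‖ ≤ ri) (hr : ri + 13 * δ ≤ rO) :
    ∃ A : Set ℂ, IsPreconnected A ∧ pvmgPl z δ (pvtwN 8 (pvtCells δ (Ko ∪ Ki))) \ closedBall z rO ⊆ A ∧ A ⊆ pvmgPl z δ (pvtwN 8 (pvtCells δ (Ko ∪ Ki))) ∧
      ∀ q ∈ A, q - z ∈ Ko ∨ rO - 26 * δ < ‖q - z‖ := by
  set O : Set (ℤ × ℤ) := {c | ∃ w ∈ Ko, w ∈ pvtSq δ c ∧ rO - 13 * δ < ‖w‖} with hO
  set A0 : Set ℂ := Ko ∪ ⋃ c ∈ O, pvygBlk δ c with hA0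
  have hpre : IsPreconnected A0 := by
    rcases Ko.eq_empty_or_nonempty with he | ⟨w0, hw0⟩
    · have : A0 = ∅ := by
        rw [hA0, he, empty_union]
        refine eq_empty_of_forall_notMem fun p hp => ?_
        obtain ⟨c, ⟨w, hw, -⟩, -⟩ := mem_iUnion₂.1 hp
        rw [he] at hw
        exact hw
      rw [this]
      exact isPreconnected_empty
    · have e : A0 = ⋃₀ (insert Ko ((fun c => Ko ∪ pvygBlk δ c) '' O)) := by
        ext p
        simp only [hA0, mem_union, mem_iUnion, exists_prop, sUnion_insert, mem_sUnion, mem_image, exists_exists_and_eq_and]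
        constructor
        · rintro (h | ⟨c, hc, hp⟩)
          · exact Or.inl h
          · exact Or.inr ⟨c, hc, Or.inr hp⟩
        · rintro (h | ⟨c, hc, h | hp⟩)
          · exact Or.inl h
          · exact Or.inl h
          · exact Or.inr ⟨c, hc, hp⟩
      rw [e]
      refine isPreconnected_sUnion w0 _ ?_ ?_
      · rintro s (rfl | ⟨c, -, rfl⟩)
        · exact hw0
        · exact Or.inl hw0
      · rintro s (rfl | ⟨c, ⟨w, hw, hwc, -⟩, rfl⟩)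
        · exact hKo
        · exact IsPreconnected.union w hw (pvyg_blk_self hδ hwc) hKo (pvyg_blk_preconn hδ c)
  refine ⟨(fun w => w + z) '' A0, hpre.image _ (continuous_id.add continuous_const).continuousOn, ?_, ?_, ?_⟩
  · rintro p ⟨hp, hpO⟩
    obtain ⟨c', ⟨c, ⟨w, hwc, hwK⟩, c1, c2, c3, c4⟩, hpc⟩ := pvmg_mem_sq.1 hp
    have hblk : p - z ∈ pvygBlk δ c := mem_iUnion₂.2 ⟨c', ⟨by push_cast at c2; omega, by push_cast at c1; omega, by push_cast at c4; omega, by push_cast at c3; omega⟩, hpc⟩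
    have hn := pvyg_blk_near hδ hblk hwc
    have hpr : rO < ‖p - z‖ := by
      rw [mem_closedBall_iff_norm, not_le] at hpO
      exact hpO
    have hwr : rO - 13 * δ < ‖w‖ := by
      have : ‖p - z‖ ≤ ‖p - z - w‖ + ‖w‖ := by
        have := norm_add_le (p - z - w) w
        rwa [sub_add_cancel] at this
      linarith
    have hwo : w ∈ Ko := by
      rcases hwK with h | h
      · exact h
      · have := hKi w h
        linarith
    exact ⟨p - z, Or.inr (mem_iUnion₂.2 ⟨c, ⟨w, hwo, hwc, hwr⟩, hblk⟩), by simp⟩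
  · rintro _ ⟨q, hq | hq, rfl⟩
    · obtain ⟨c, hc⟩ := pvt_sq_cover hδ q
      exact ⟨q, mem_iUnion₂.2 ⟨c, pvtw_N_sub ⟨q, hc, Or.inl hq⟩, hc⟩, rfl⟩
    · obtain ⟨c, ⟨w, hw, hwc, -⟩, hqc⟩ := mem_iUnion₂.1 hq
      exact ⟨q, pvyg_blk_sub (E := pvtCells δ (Ko ∪ Ki)) ⟨w, hwc, Or.inl hw⟩ hqc, rfl⟩
  · rintro _ ⟨q, hq | hq, rfl⟩
    · left
      simpa using hq
    · right
      obtain ⟨c, ⟨w, hw, hwc, hwr⟩, hqc⟩ := mem_iUnion₂.1 hq
      have hn := pvyg_blk_near hδ hqc hwc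
      have : ‖w‖ ≤ ‖q - w‖ + ‖q‖ := by
        have := norm_sub_le q (q - w)
        rw [sub_sub_cancel] at this
        linarith
      rw [add_sub_cancel_right]
      linarith

end abstract

/-! ## §2 at the model: one pin -/

section model

variable {𝔤 : PvmhNum} (H : 𝔤.OK) {h : ℝ} {z : ℂ} {s : PvmhT 𝔤} {P : PvbRim} {tt : ℕ → ℕ} {lo hi : Fin 3 → ℕ}

include H

/-- the lane zone: every point is `< 3 μ h` from the region -/
theorem pvyg_zone (hh : 0 < h) {E : Set ℂ} {a : ℂ} (ha : a ∈ thickening (2 * (𝔤.mu * h)) (cthickening (𝔤.mu * h) E)) : ∃ e ∈ E, ‖a - e‖ < 3 / 20 * (𝔤.dl * h) := by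
  have h1 := thickening_cthickening_subset (2 * (𝔤.mu * h)) (mul_nonneg H.mu0.le hh.le) E ha
  obtain ⟨e, he, hd⟩ := mem_thickening_iff.1 h1
  refine ⟨e, he, ?_⟩
  rw [dist_eq_norm, H.mu_eq] at hd
  linarith

/-- **THE ROAD OF THE NEGATIVE HALF** (closing side of a start pin) -/
theorem pvyg_road_m (hh : 0 < h) (I : PvmfIn P z tt (𝔤.mu * h) h (𝔤.a3 * h) (𝔤.b3 * h) (10 * 𝔤.b3 * h) (𝔤.d0 * h) (𝔤.e0 * h) (𝔤.d1 * h) (𝔤.e1 * h))
    (F : PvmnFits s.typ (𝔤.dl * h) (fun i => P.v i - z) (fun k => tt k.1)) (ps : PvdaPass P z (𝔤.mu * h) (tt 5) (fun k => 𝔤.a k * h) (fun k => 𝔤.b k * h) lo hi) {df : ℝ} (hdf : df ≤ 𝔤.dl * h) :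
    ∃ A : Set ℂ, IsPreconnected A ∧
      (pvmgPl z (𝔤.dl * h) (pvtwN 8 (pvmnCells s.typ 0 4)) \ closedBall z (3 * h)) \ closedBall z (𝔤.rO * h) ⊆ A ∧ A ⊆ pvmgPl z (𝔤.dl * h) (pvtwN 8 (pvmnCells s.typ 0 4)) \ closedBall z (3 * h) ∧
      ∀ q ∈ A, ∀ a ∈ thickening (2 * (𝔤.mu * h)) (cthickening (𝔤.mu * h) ((𝔤.ty h z s).reg 𝔤.sp z h .Mp)), df / 2 < ‖q - a‖ := by
  obtain ⟨h0, h1, h2, h3, h4, h5⟩ := pvmh_basic H
  have hδ : 0 < 𝔤.dl * h := mul_pos h0 hh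
  have hδh : 1200 * (𝔤.dl * h) ≤ h := by nlinarith
  have hμ : 𝔤.mu * h = 𝔤.dl * h / 20 := by rw [H.mu_eq]; ring
  have hτ := s.isType
  have N := pvmh_num H hh
  have a1 : 3 * 10 ^ 5 ≤ 𝔤.a 1 := by have := H.a_pos; have := H.ab 0; have := H.nest01; linarith
  have ab1 := H.ab 1
  have M5 := I.marks 5 (by omega) le_rfl
  -- the order of the indices
  have l1 : tt 0 ≤ lo 1 := by
    by_contra hc
    have e1 := ps.diam 1 (tt 0) (not_le.1 hc).le (M5.mm_le.trans (ps.lt_hi 1).le)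
    have e2 := M5.mm_far
    have e3 : 𝔤.b3 = 𝔤.b 2 + 1 := rfl
    simp only [Nat.sub_self] at e2
    push_cast at e2
    rw [e3] at e2
    nlinarith
  have l2 : lo 1 ≤ tt 5 := (ps.lo_lt 1).le
  have hcells : pvmnCells s.typ 0 4 = pvtCells (𝔤.dl * h) (pvtxPoly (fun i => P.v i - z) (tt 0) (lo 1) ∪ pvtxPoly (fun i => P.v i - z) (lo 1) (tt 5)) := by
    rw [← pvtx_poly_union l1 l2]
    exact pvqp_cells F (by omega) (by omega)
  obtain ⟨A, A1, A2, A3, A4⟩ := pvyg_road hδ z (pvtx_poly_preconn (fun i => P.v i - z) (tt 0) (lo 1)) (Ki := pvtxPoly (fun i => P.v i - z) (lo 1) (tt 5)) (ri := 𝔤.b 1 * h + 𝔤.mu * h) (rO := 𝔤.rO * h)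
    (fun x hx => pvmf_poly_rad l2 (fun l x1 x2 => ps.diam 1 l x1 (x2.trans (ps.lt_hi 1).le)) hx) (by
      have : 𝔤.rO = 2 * 𝔤.b 1 := rfl
      rw [this, hμ]
      nlinarith)
  rw [← hcells] at A2 A3
  have erO : 𝔤.rO * h = 2 * 𝔤.b 1 * h := rfl
  -- the points of the polygon
  have hpoly : ∀ q, q - z ∈ pvtxPoly (fun i => P.v i - z) (tt 0) (lo 1) → q ∈ pvmgPl z (𝔤.dl * h) (pvmnCells s.typ 0 4) ∧ 4 * h < ‖q - z‖ := by
    intro q hq
    constructor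
    · obtain ⟨c, hc⟩ := pvt_sq_cover hδ (q - z)
      rw [hcells]
      exact pvmg_mem_sq.2 ⟨c, ⟨q - z, hc, Or.inl hq⟩, hc⟩
    · obtain ⟨l, x1, x2, x3⟩ := pvtx_poly_vertex (mul_nonneg H.mu0.le hh.le) l1 (fun k y1 y2 => I.mesh' N k y1 (lt_of_lt_of_le y2 (l2.trans M5.le_mp))) hq
      have hl : 𝔤.a 1 * h < ‖P.v l - z‖ := by
        by_contra hc
        have := (ps.visit 1 l (x2.trans (((ps.lo_lt 1).trans (ps.lt_hi 1)).trans (ps.hi_lt 1)).le) (not_lt.1 hc)).1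
        omega
      have : ‖P.v l - z‖ ≤ ‖q - z - (P.v l - z)‖ + ‖q - z‖ := by
        have := norm_sub_le (q - z) (q - z - (P.v l - z))
        rw [sub_sub_cancel] at this
        linarith
      nlinarith
  have hoff : ∀ q ∈ A, 4 * h < ‖q - z‖ := by
    intro q hq
    rcases A4 q hq with h' | h'
    · exact (hpoly q h').2
    · rw [erO] at h'
      nlinarith
  refine ⟨A, A1, fun p hp => A2 ⟨hp.1.1, hp.2⟩, fun q hq => ⟨A3 hq, fun hc => ?_⟩, ?_⟩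
  · have := hoff q hq
    rw [mem_closedBall_iff_norm] at hc
    linarith
  · intro q hq a ha
    obtain ⟨e, he, hae⟩ := pvyg_zone H hh ha
    have hq4 := hoff q hq
    have key : 𝔤.dl * h ≤ ‖q - e‖ := by
      rcases he with he | ⟨he, -⟩
      · -- the lane
        by_contra hc
        have e1 : q ∈ pvmgPl z (𝔤.dl * h) (pvtwN 3 (pvtwN 6 (pvmnCells s.typ 5 9))) := pvmg_near hδ (pvyf_lane_p hδ he) (by push_cast; linarith)
        rw [pvtw_N_add] at e1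
        exact pvyf_off_bar H hh (by linarith) (pvyf_sep_pl hτ hδ (i := 8) (j := 3 + 6) (by omega) (by omega) (A3 hq) e1)
      · -- the room
        obtain ⟨t1, t2, t3⟩ := pvyf_at_mem.1 he
        rcases A4 q hq with h' | h'
        · have e1 : infDist e (pvmgPl z (𝔤.dl * h) (pvmnCells s.typ 0 4)) ≤ dist e q := infDist_le_dist_of_mem (hpoly q h').1
          have e2 := infDist_nonneg (x := e) (s := pvmgPl z (𝔤.dl * h) (pvmnCells s.typ 5 9))
          rw [pvyf_D_mem] at t3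
          rw [dist_eq_norm, norm_sub_rev] at e1
          linarith
        · have : ‖q - z‖ ≤ ‖q - e‖ + ‖e - z‖ := by
            have := norm_add_le (q - e) (e - z)
            rwa [sub_add_sub_cancel] at this
          rw [erO] at h'
          nlinarith
    have : ‖q - e‖ ≤ ‖q - a‖ + ‖a - e‖ := by
      have := norm_add_le (q - a) (a - e)
      rwa [sub_add_sub_cancel] at this
    linarith

/-- **THE ROAD OF THE POSITIVE HALF** (closing side of an end pin) -/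
theorem pvyg_road_p (hh : 0 < h) (I : PvmfIn P z tt (𝔤.mu * h) h (𝔤.a3 * h) (𝔤.b3 * h) (10 * 𝔤.b3 * h) (𝔤.d0 * h) (𝔤.e0 * h) (𝔤.d1 * h) (𝔤.e1 * h))
    (F : PvmnFits s.typ (𝔤.dl * h) (fun i => P.v i - z) (fun k => tt k.1)) (ps : PvdaPass P z (𝔤.mu * h) (tt 5) (fun k => 𝔤.a k * h) (fun k => 𝔤.b k * h) lo hi) {df : ℝ} (hdf : df ≤ 𝔤.dl * h) :
    ∃ A : Set ℂ, IsPreconnected A ∧
      (pvmgPl z (𝔤.dl * h) (pvtwN 8 (pvmnCells s.typ 5 9)) \ closedBall z (3 * h)) \ closedBall z (𝔤.rO * h) ⊆ A ∧ A ⊆ pvmgPl z (𝔤.dl * h) (pvtwN 8 (pvmnCells s.typ 5 9)) \ closedBall z (3 * h) ∧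
      ∀ q ∈ A, ∀ a ∈ thickening (2 * (𝔤.mu * h)) (cthickening (𝔤.mu * h) ((𝔤.ty h z s).reg 𝔤.sp z h .Mm)), df / 2 < ‖q - a‖ := by
  obtain ⟨h0, h1, h2, h3, h4, h5⟩ := pvmh_basic H
  have hδ : 0 < 𝔤.dl * h := mul_pos h0 hh
  have hδh : 1200 * (𝔤.dl * h) ≤ h := by nlinarith
  have hμ : 𝔤.mu * h = 𝔤.dl * h / 20 := by rw [H.mu_eq]; ring
  have hτ := s.isType
  have N := pvmh_num H hh
  have a1 : 3 * 10 ^ 5 ≤ 𝔤.a 1 := by have := H.a_pos; have := H.ab 0; have := H.nest01; linarith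
  have ab1 := H.ab 1
  have M5 := I.marks 5 (by omega) le_rfl
  -- the order of the indices
  have l1 : hi 1 ≤ tt 10 := by
    by_contra hc
    have e1 := ps.diam 1 (tt 10) ((ps.lo_lt 1).le.trans M5.le_mp) (not_le.1 hc).le
    have e2 := M5.mp_far
    have e3 : 𝔤.b3 = 𝔤.b 2 + 1 := rfl
    push_cast at e2
    rw [e3] at e2
    nlinarith
  have l2 : tt 5 ≤ hi 1 := (ps.lt_hi 1).le
  have hcells : pvmnCells s.typ 5 9 = pvtCells (𝔤.dl * h) (pvtxPoly (fun i => P.v i - z) (hi 1) (tt 10) ∪ pvtxPoly (fun i => P.v i - z) (tt 5) (hi 1)) := by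
    rw [union_comm, ← pvtx_poly_union l2 l1]
    exact pvqp_cells F (by omega) (by omega)
  obtain ⟨A, A1, A2, A3, A4⟩ := pvyg_road hδ z (pvtx_poly_preconn (fun i => P.v i - z) (hi 1) (tt 10)) (Ki := pvtxPoly (fun i => P.v i - z) (tt 5) (hi 1)) (ri := 𝔤.b 1 * h + 𝔤.mu * h) (rO := 𝔤.rO * h)
    (fun x hx => pvmf_poly_rad l2 (fun l x1 x2 => ps.diam 1 l ((ps.lo_lt 1).le.trans x1) x2) hx) (by
      have : 𝔤.rO = 2 * 𝔤.b 1 := rfl
      rw [this, hμ]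
      nlinarith)
  rw [← hcells] at A2 A3
  have erO : 𝔤.rO * h = 2 * 𝔤.b 1 * h := rfl
  -- the points of the polygon
  have hpoly : ∀ q, q - z ∈ pvtxPoly (fun i => P.v i - z) (hi 1) (tt 10) → q ∈ pvmgPl z (𝔤.dl * h) (pvmnCells s.typ 5 9) ∧ 4 * h < ‖q - z‖ := by
    intro q hq
    constructor
    · obtain ⟨c, hc⟩ := pvt_sq_cover hδ (q - z)
      rw [hcells]
      exact pvmg_mem_sq.2 ⟨c, ⟨q - z, hc, Or.inl hq⟩, hc⟩
    · obtain ⟨l, x1, x2, x3⟩ := pvtx_poly_vertex (mul_nonneg H.mu0.le hh.le) l1 (fun k y1 y2 => I.mesh' N k ((M5.mm_le.trans l2).trans y1) y2) hq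
      have hl : 𝔤.a 1 * h < ‖P.v l - z‖ := by
        by_contra hc
        have := (ps.visit 1 l (x2.trans M5.mp_le) (not_lt.1 hc)).2
        omega
      have : ‖P.v l - z‖ ≤ ‖q - z - (P.v l - z)‖ + ‖q - z‖ := by
        have := norm_sub_le (q - z) (q - z - (P.v l - z))
        rw [sub_sub_cancel] at this
        linarith
      nlinarith
  have hoff : ∀ q ∈ A, 4 * h < ‖q - z‖ := by
    intro q hq
    rcases A4 q hq with h' | h'
    · exact (hpoly q h').2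
    · rw [erO] at h'
      nlinarith
  refine ⟨A, A1, fun p hp => A2 ⟨hp.1.1, hp.2⟩, fun q hq => ⟨A3 hq, fun hc => ?_⟩, ?_⟩
  · have := hoff q hq
    rw [mem_closedBall_iff_norm] at hc
    linarith
  · intro q hq a ha
    obtain ⟨e, he, hae⟩ := pvyg_zone H hh ha
    have hq4 := hoff q hq
    have key : 𝔤.dl * h ≤ ‖q - e‖ := by
      rcases he with he | ⟨he, -⟩
      · -- the lane
        by_contra hc
        have e1 : q ∈ pvmgPl z (𝔤.dl * h) (pvtwN 3 (pvtwN 6 (pvmnCells s.typ 0 4))) := pvmg_near hδ (pvyf_lane_m hδ he) (by push_cast; linarith)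
        rw [pvtw_N_add] at e1
        exact pvyf_off_bar H hh (by linarith) (pvyf_sep_pl' hτ hδ (i := 3 + 6) (j := 8) (by omega) (by omega) e1 (A3 hq))
      · -- the room
        obtain ⟨t1, t2, t3⟩ := pvyf_at_mem.1 he
        rcases A4 q hq with h' | h'
        · have e1 : infDist e (pvmgPl z (𝔤.dl * h) (pvmnCells s.typ 5 9)) ≤ dist e q := infDist_le_dist_of_mem (hpoly q h').1
          have e2 := infDist_nonneg (x := e) (s := pvmgPl z (𝔤.dl * h) (pvmnCells s.typ 0 4))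
          rw [pvyf_D_mem] at t3
          rw [dist_eq_norm, norm_sub_rev] at e1
          linarith
        · have : ‖q - z‖ ≤ ‖q - e‖ + ‖e - z‖ := by
            have := norm_add_le (q - e) (e - z)
            rwa [sub_add_sub_cancel] at this
          rw [erO] at h'
          nlinarith
    have : ‖q - e‖ ≤ ‖q - a‖ + ‖a - e‖ := by
      have := norm_add_le (q - a) (a - e)
      rwa [sub_add_sub_cancel] at this
    linarith

end model

/-! ## §3 at a pattern of record: the two leaves of `Exit/RegQP.lean` -/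

section pat

variable {𝔤 : PvmhNum} {c : ℝ} {x : ℂ} {R : ℝ} {m : ℕ}

/-- the fine cell is smaller than the cell of the menu -/
theorem pvyg_df_le (H : 𝔤.OK) (c : ℝ) (m : ℕ) : pvrcnDf 𝔤 c m ≤ 𝔤.dl * pvlmH m := by
  have hdc := pvrcn_dc_pos H c m
  have hN : (1 : ℝ) ≤ (pvlmN c m : ℝ) := by exact_mod_cast pvlm_N_pos c m
  rw [pvrcn_scale 𝔤 c m]
  have e : pvrcnDf 𝔤 c m = (pvrsNum 𝔤).dc c m / (2 * ((10 : ℤ) : ℝ) + 1) := rfl
  rw [e, div_le_iff₀ (by norm_num)]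
  push_cast
  nlinarith

/-- **THE ROAD OF `s`** (= `pvvr_road_s`, the witness unpacked) -/
theorem pvyg_road_s (H : 𝔤.OK) {𝔐 : PvbMenu (PvmhT 𝔤)} {ω : PVSample} {P : PvbRim} {s t : PvbPin (PvmhT 𝔤)} {π : pvrcPat (pvrsNum 𝔤) c (pvrsPL 𝔤) x R m}
    (hF : PvrcFit 𝔐 m ω P s t π) (hs : 𝔤.Fit (pvlmH m) P s.idx s.ctr s.typ) {lo hi : Fin 3 → ℕ}
    (ps : PvdaPass P s.ctr (𝔤.mu * pvlmH m) s.idx (fun k => 𝔤.a k * pvlmH m) (fun k => 𝔤.b k * pvlmH m) lo hi) :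
    ∃ A : Set ℂ, IsPreconnected A ∧ pvrcnClS π \ closedBall (pvrcPatOf m π).zs (𝔤.rO * pvlmH m) ⊆ A ∧ A ⊆ pvrcnClS π ∧
      ∀ q ∈ A, ∀ a ∈ thickening (2 * (𝔤.mu * pvlmH m)) (cthickening (𝔤.mu * pvlmH m) ((𝔤.ty (pvlmH m) (pvrcPatOf m π).zs (pvrcPatOf m π).ts).reg 𝔤.sp (pvrcPatOf m π).zs (pvlmH m) .Mp)), pvrcnDf 𝔤 c m / 2 < ‖q - a‖ := by
  obtain ⟨es1, es2⟩ := pvrc_fit_s hF
  obtain ⟨-, as, h5s, Is, Fs⟩ := hs
  rw [← h5s] at ps
  have := pvyg_road_m H (pvlm_H_pos m) Is Fs ps (pvyg_df_le H c m)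
  rw [es1, es2] at this
  exact this

/-- **THE ROAD OF `t`** (= `pvvr_road_t`, the witness unpacked) -/
theorem pvyg_road_t (H : 𝔤.OK) {𝔐 : PvbMenu (PvmhT 𝔤)} {ω : PVSample} {P : PvbRim} {s t : PvbPin (PvmhT 𝔤)} {π : pvrcPat (pvrsNum 𝔤) c (pvrsPL 𝔤) x R m}
    (hF : PvrcFit 𝔐 m ω P s t π) (ht : 𝔤.Fit (pvlmH m) P t.idx t.ctr t.typ) {lo hi : Fin 3 → ℕ}
    (pt : PvdaPass P t.ctr (𝔤.mu * pvlmH m) t.idx (fun k => 𝔤.a k * pvlmH m) (fun k => 𝔤.b k * pvlmH m) lo hi) :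
    ∃ A : Set ℂ, IsPreconnected A ∧ pvrcnClT π \ closedBall (pvrcPatOf m π).zt (𝔤.rO * pvlmH m) ⊆ A ∧ A ⊆ pvrcnClT π ∧
      ∀ q ∈ A, ∀ a ∈ thickening (2 * (𝔤.mu * pvlmH m)) (cthickening (𝔤.mu * pvlmH m) ((𝔤.ty (pvlmH m) (pvrcPatOf m π).zt (pvrcPatOf m π).tt).reg 𝔤.sp (pvrcPatOf m π).zt (pvlmH m) .Mm)), pvrcnDf 𝔤 c m / 2 < ‖q - a‖ := by
  obtain ⟨et1, et2⟩ := pvrc_fit_t hF
  obtain ⟨-, at', h5t, It, Ft⟩ := ht
  rw [← h5t] at pt
  have := pvyg_road_p H (pvlm_H_pos m) It Ft pt (pvyg_df_le H c m)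
  rw [et1, et2] at this
  exact this

end pat

end Claimed.Agent.R289
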