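import Claimed.Agent.R289.Tr.N1RegQ
import Claimed.Agent.R289.Exit.RegRP
import Claimed.Agent.R289.Exit.RingRP
import Claimed.Agent.R289.Exit.RoadQP

/-!
# Row 289 (S0537), THE WALL, ROAD P, Exit/RegQP : `exit_pvus_reg` AT THE MODEL = L2 OF REG      (pen helper212; prefix `pvvr_`, `pvvr`, `Pvvr`, as `Tr/N1RegQ.lean`)

`Tr/N1RegQ.lean` (L1, 0 sorry): regions + contracts from the metric short list `PvvrIn.Ok`.      HERE: the input `pvvrIn π L` at a live pattern `π` of record with its ring lane `L` (222), the short list from NAMED LEAVES, the glue **`pvvr_reg : PvusRegR H hG`**.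
* `Tb := pvrcnU π` (closed coarse cells of the arc, 236);   `Zx := pvvrLz π L` : **THIN ZONE, NO DISC** (cure of 186 222 185 of the MISFIT of 212: the cycle closes at the FEET);   `pvvrLz` = THE LANE ZONE WITH TWO RADII (MISFIT 2 of 212; `pvul_lane2` of 147): the `2 μ h`-neighbourhood of `cth(μ h) (reg .Mp of s) ∪ cth(μ h) (reg .Mm of t)`, the `df / 8`-neighbourhood of the ring part;
* `Cl := (pvrcnClS π \ Os) ∪ (pvrcnClT π \ Ot) ∪ pvvrPath π`   (placed `N⁸(cells 0..4)` of `s`, `N⁸(cells 5..9)` of `t`, the closed fine cells of the path of 183: last cell of the nozzle of `t`, corridor `C 0 .. C N` of 138, last cell of the nozzle of `s`);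
* `δ := df = pvrcnDf 𝔤 c m`,   `rho := df / 10`,   `B := closedBall x (6 R)`,   `a0 := h`.
TOOL: `pvvr_sq_far` (a set with a collar of `r` in a union of closed cells is `> r - δ` from the closed cells off the union): ALL THAT HAS A COLLAR OF `6 df` IN THE REGION `T` OF 138 IS `> 5 df` FROM THE PATH.
-/

set_option autoImplicit false
set_option linter.unusedSectionVars false
set_option linter.unusedVariables false

namespace Claimed.Agent.R289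

open MeasureTheory Filter Topology Set Metric Claims.C0465 Claims.C0467 Claimed.Agent.R291
open scoped ENNReal

section model

variable {𝔤 : PvmhNum} {c : ℝ} {x : ℂ} {R : ℝ} {m : ℕ}

/-- **the path of the closing chain, placed**: the closed fine cells `pvytF π i`, `i ≤ N + 2` -/
noncomputable def pvvrPath (π : pvrcPat (pvrsNum 𝔤) c (pvrsPL 𝔤) x R m) : Set ℂ :=
  pvtU (pvrcnDf 𝔤 c m) {q | ∃ i, i ≤ π.1.N + 2 ∧ q = pvytSh (pvrsNum 𝔤).mm (pvytF π.1 i)}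

/-- **the lane zone, TWO RADII** -/
noncomputable def pvvrLz (π : pvrcPat (pvrsNum 𝔤) c (pvrsPL 𝔤) x R m) (L : List (ℤ × ℤ)) : Set ℂ :=
  thickening (2 * (𝔤.mu * pvlmH m)) (cthickening (𝔤.mu * pvlmH m) ((𝔤.ty (pvlmH m) (pvrcPatOf m π).zs (pvrcPatOf m π).ts).reg 𝔤.sp (pvrcPatOf m π).zs (pvlmH m) .Mp)) ∪
    thickening (2 * (𝔤.mu * pvlmH m)) (cthickening (𝔤.mu * pvlmH m) ((𝔤.ty (pvlmH m) (pvrcPatOf m π).zt (pvrcPatOf m π).tt).reg 𝔤.sp (pvrcPatOf m π).zt (pvlmH m) .Mm)) ∪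
    thickening (pvrcnDf 𝔤 c m / 8) (pvlnU (pvrcnDf 𝔤 c m) L)

/-- **THE INPUT OF THE REGIONS AT A PATTERN OF RECORD** -/
noncomputable def pvvrIn (π : pvrcPat (pvrsNum 𝔤) c (pvrsPL 𝔤) x R m) (L : List (ℤ × ℤ)) : PvvrIn where
  N := 𝔤.sp
  s := 𝔤.ty (pvlmH m) (pvrcPatOf m π).zs (pvrcPatOf m π).ts
  t := 𝔤.ty (pvlmH m) (pvrcPatOf m π).zt (pvrcPatOf m π).tt
  zs := (pvrcPatOf m π).zs
  zt := (pvrcPatOf m π).zt
  h := pvlmH m
  x := x
  R := R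
  Tb := pvrcnU π
  Zx := pvvrLz π L
  Cl := (pvrcnClS π \ closedBall (pvrcPatOf m π).zs (𝔤.rO * pvlmH m)) ∪ (pvrcnClT π \ closedBall (pvrcPatOf m π).zt (𝔤.rO * pvlmH m)) ∪ pvvrPath π
  δ := pvrcnDf 𝔤 c m
  L := L
  rho := pvrcnDf 𝔤 c m / 10
  B := closedBall x (6 * R)
  a0 := pvlmH m

/-- **A WITNESS**: one fitting rim with two exact fits and the ordered passages of the two pins -/
def PvvrWit (π : pvrcPat (pvrsNum 𝔤) c (pvrsPL 𝔤) x R m) : Prop :=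
  ∃ (𝔐 : PvbMenu (PvmhT 𝔤)) (ω : PVSample) (P : PvbRim) (s t : PvbPin (PvmhT 𝔤)), PvrcFit 𝔐 m ω P s t π ∧ 𝔤.Fit (pvlmH m) P s.idx s.ctr s.typ ∧ 𝔤.Fit (pvlmH m) P t.idx t.ctr t.typ ∧
    (∃ lo hi : Fin 3 → ℕ, PvdaPass P s.ctr (𝔤.mu * pvlmH m) s.idx (fun k => 𝔤.a k * pvlmH m) (fun k => 𝔤.b k * pvlmH m) lo hi) ∧
    ∃ lo hi : Fin 3 → ℕ, PvdaPass P t.ctr (𝔤.mu * pvlmH m) t.idx (fun k => 𝔤.a k * pvlmH m) (fun k => 𝔤.b k * pvlmH m) lo hi

/-- **the complement of the region `T` of 138, placed**: the closed fine cells off `T` -/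
noncomputable def pvvrTc (π : pvrcPat (pvrsNum 𝔤) c (pvrsPL 𝔤) x R m) : Set ℂ :=
  pvtU (pvrcnDf 𝔤 c m) (pvytSh (pvrsNum 𝔤).mm '' (pvfjT (pvrsNum 𝔤).mm (π.1.1.F0 (pvrcPL c (pvrsPL 𝔤) m)) (π.1.1.Ys (pvrcPL c (pvrsPL 𝔤) m) ∪ π.1.1.Yt (pvrcPL c (pvrsPL 𝔤) m)))ᶜ)

theorem pvvr_eqns_cite2 : True := by
  have := @pvvrPath.eq_1; have := @pvvrLz.eq_1; have := @pvvrIn.eq_1; have := @PvvrWit.eq_1; have := @pvvrTc.eq_1
  trivial

/-! ## 1. the tool -/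

/-- the centre of a closed cell lies in no other closed cell -/
theorem pvvr_centre {δ : ℝ} (hδ : 0 < δ) {v w : ℤ × ℤ} (h : (⟨((v.1 : ℝ) + 1 / 2) * δ, ((v.2 : ℝ) + 1 / 2) * δ⟩ : ℂ) ∈ pvtSq δ w) : w = v := by
  obtain ⟨h1, h2, h3, h4⟩ := h
  simp only at h1 h2 h3 h4
  have a1 : w.1 < v.1 + 1 := pvccm_int_lt hδ (by push_cast; nlinarith)
  have a2 : v.1 < w.1 + 1 := pvccm_int_lt hδ (by push_cast; nlinarith)
  have a3 : w.2 < v.2 + 1 := pvccm_int_lt hδ (by push_cast; nlinarith)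
  have a4 : v.2 < w.2 + 1 := pvccm_int_lt hδ (by push_cast; nlinarith)
  exact Prod.ext (by omega) (by omega)

/-- **THE TOOL**: a point whose `r`-ball lies in a union of closed cells is `> r - δ` from every closed cell off the union -/
theorem pvvr_sq_far {δ : ℝ} (hδ : 0 < δ) {A : Set (ℤ × ℤ)} {p q : ℂ} {r : ℝ} (hb : closedBall p r ⊆ pvtU δ A) {v : ℤ × ℤ} (hv : v ∉ A) (hq : q ∈ pvtSq δ v) : r - δ < ‖q - p‖ := by
  set cv : ℂ := ⟨((v.1 : ℝ) + 1 / 2) * δ, ((v.2 : ℝ) + 1 / 2) * δ⟩ with hcv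
  have h1 : cv ∉ closedBall p r := by
    intro hc
    obtain ⟨w, hw, hcw⟩ := mem_iUnion₂.1 (hb hc)
    exact hv ((pvvr_centre hδ hcw) ▸ hw)
  rw [mem_closedBall, dist_eq_norm, not_le] at h1
  obtain ⟨q1, q2, q3, q4⟩ := hq
  have h2 : ‖cv - q‖ ≤ δ := by
    have hre : |(cv - q).re| ≤ δ / 2 := by
      rw [Complex.sub_re, abs_le]; constructor <;> simp only [hcv] <;> nlinarith
    have him : |(cv - q).im| ≤ δ / 2 := by
      rw [Complex.sub_im, abs_le]; constructor <;> simp only [hcv] <;> nlinarith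
    calc ‖cv - q‖ ≤ |(cv - q).re| + |(cv - q).im| := Complex.norm_le_abs_re_add_abs_im _
      _ ≤ δ := by linarith
  have h3 : ‖cv - p‖ ≤ ‖cv - q‖ + ‖q - p‖ := by
    calc ‖cv - p‖ = ‖(cv - q) + (q - p)‖ := by ring_nf
      _ ≤ _ := norm_add_le _ _
  linarith

/-- the cells of the path are off the region `T` of 138 -/
theorem pvvr_path_T (π : pvrcPat (pvrsNum 𝔤) c (pvrsPL 𝔤) x R m) {i : ℕ} (hi : i ≤ π.1.N + 2) :
    pvytF π.1 i ∉ pvfjT (pvrsNum 𝔤).mm (π.1.1.F0 (pvrcPL c (pvrsPL 𝔤) m)) (π.1.1.Ys (pvrcPL c (pvrsPL 𝔤) m) ∪ π.1.1.Yt (pvrcPL c (pvrsPL 𝔤) m)) := by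
  have S := π.1.spec.1
  have hmm : (pvrsNum 𝔤).mm = 10 := rfl
  unfold pvytF
  split_ifs with h0 h1
  · exact S.noz_t ((pvrsNum 𝔤).mm + 9) (by rw [hmm]; norm_num) (by rw [hmm]; norm_num)
  · intro hT
    have := S.C_far (i - 1) (by omega) _ hT
    simp at this
  · exact S.noz_s ((pvrsNum 𝔤).mm + 9) (by rw [hmm]; norm_num) (by rw [hmm]; norm_num)

/-- **ALL THAT HAS A COLLAR OF `6 df` IN THE REGION OF 138 IS `> 5 df` FROM THE PATH** -/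
theorem pvvr_path_far (H : 𝔤.OK) (π : pvrcPat (pvrsNum 𝔤) c (pvrsPL 𝔤) x R m) {p q : ℂ} {r : ℝ} (hp : closedBall p r ⊆ pvrcnT π) (hq : q ∈ pvvrPath π) : r - pvrcnDf 𝔤 c m < ‖q - p‖ := by
  obtain ⟨v, ⟨i, hi, rfl⟩, hqv⟩ := mem_iUnion₂.1 hq
  refine pvvr_sq_far (pvrcn_df_pos H c m) hp ?_ hqv
  rintro ⟨w, hw, e⟩
  exact pvvr_path_T π hi ((pvyt_sh_inj _ e) ▸ hw)

/-! ### the lane zone, generic (251) -/

theorem pvvr_Lz_gen_p (H : 𝔤.OK) {h : ℝ} (hh : 0 < h) (z : ℂ) (s : PvmhT 𝔤) {a : ℂ} (ha : a ∈ thickening (2 * (𝔤.mu * h)) (cthickening (𝔤.mu * h) ((𝔤.ty h z s).reg 𝔤.sp z h .Mp))) :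
    a ∈ (𝔤.ty h z s).Ep := by
  have hd : 0 < 𝔤.dl * h := mul_pos H.dl0 hh
  have hμ : 0 < 𝔤.mu * h := mul_pos H.mu0 hh
  obtain ⟨p, hp, hap⟩ := Metric.mem_thickening_iff.1 (Metric.thickening_cthickening_subset _ hμ.le _ ha)
  rw [dist_eq_norm] at hap
  have h2 := H.mu_le
  rcases hp with hp | ⟨-, hp⟩
  · have hp' : p ∈ pvmgPl z (𝔤.dl * h) (pvtCells (𝔤.dl * h) (pvlsMp (𝔤.dl * h) s.typ s.ln)) := by
      obtain ⟨q, hq, rfl⟩ := hp
      exact ⟨q, pvt_cells_cover hd hq, rfl⟩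
    have hn : ‖a - p‖ ≤ ((1 : ℕ) : ℝ) * (𝔤.dl * h) := by
      push_cast
      nlinarith
    exact Or.inr (pvmg_mono (pvtw_N_mono le_rfl subset_union_right) (pvmg_near hd hp' hn))
  · left
    obtain ⟨b0, b1, b2, b3, b4, b5⟩ := pvmh_basic H
    have hp' : ‖p - z‖ ≤ (𝔤.b 1 + 1) * h := mem_closedBall_iff_norm.1 hp
    rw [mem_closedBall_iff_norm]
    have h3 : ‖a - z‖ ≤ ‖a - p‖ + ‖p - z‖ := by
      have := norm_add_le (a - p) (p - z)
      rwa [sub_add_sub_cancel] at this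
    show ‖a - z‖ ≤ 2 * 𝔤.b 1 * h
    nlinarith

theorem pvvr_Lz_gen_m (H : 𝔤.OK) {h : ℝ} (hh : 0 < h) (z : ℂ) (s : PvmhT 𝔤) {a : ℂ} (ha : a ∈ thickening (2 * (𝔤.mu * h)) (cthickening (𝔤.mu * h) ((𝔤.ty h z s).reg 𝔤.sp z h .Mm))) :
    a ∈ (𝔤.ty h z s).Em := by
  have hd : 0 < 𝔤.dl * h := mul_pos H.dl0 hh
  have hμ : 0 < 𝔤.mu * h := mul_pos H.mu0 hh
  obtain ⟨p, hp, hap⟩ := Metric.mem_thickening_iff.1 (Metric.thickening_cthickening_subset _ hμ.le _ ha)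
  rw [dist_eq_norm] at hap
  have h2 := H.mu_le
  rcases hp with hp | ⟨-, hp⟩
  · have hp' : p ∈ pvmgPl z (𝔤.dl * h) (pvtCells (𝔤.dl * h) (pvlsMm (𝔤.dl * h) s.typ s.ln)) := by
      obtain ⟨q, hq, rfl⟩ := hp
      exact ⟨q, pvt_cells_cover hd hq, rfl⟩
    have hn : ‖a - p‖ ≤ ((1 : ℕ) : ℝ) * (𝔤.dl * h) := by
      push_cast
      nlinarith
    exact Or.inr (pvmg_mono (pvtw_N_mono le_rfl subset_union_right) (pvmg_near hd hp' hn))
  · left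
    obtain ⟨b0, b1, b2, b3, b4, b5⟩ := pvmh_basic H
    have hp' : ‖p - z‖ ≤ (𝔤.b 1 + 1) * h := mem_closedBall_iff_norm.1 hp
    rw [mem_closedBall_iff_norm]
    have h3 : ‖a - z‖ ≤ ‖a - p‖ + ‖p - z‖ := by
      have := norm_add_le (a - p) (p - z)
      rwa [sub_add_sub_cancel] at this
    show ‖a - z‖ ≤ 2 * 𝔤.b 1 * h
    nlinarith

theorem pvvr_Lz_gen_r {δ : ℝ} (hδ : 0 < δ) {L : List (ℤ × ℤ)} {a : ℂ} (ha : a ∈ thickening (δ / 8) (pvlnU δ L)) : ∃ p ∈ pvlnW δ L, ‖a - p‖ < δ / 8 := by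
  obtain ⟨p, hp, hap⟩ := Metric.mem_thickening_iff.1 ha
  rw [dist_eq_norm] at hap
  refine ⟨p, ?_, hap⟩
  obtain ⟨k, hk, hpk⟩ := mem_iUnion₂.1 hp
  refine mem_iUnion₂.2 ⟨k, hk, ?_⟩
  obtain ⟨h1, h2, h3, h4⟩ := hpk
  constructor
  · show |p.re - ((k.1 : ℝ) + 1 / 2) * δ| ≤ _
    rw [abs_le]
    constructor <;> nlinarith
  · show |p.im - ((k.2 : ℝ) + 1 / 2) * δ| ≤ _
    rw [abs_le]
    constructor <;> nlinarith

/-! ## 2. THE SHORT LIST AT THE MODEL -/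

section list

variable (H : 𝔤.OK) (c0 : 0 < c) {π : pvrcPat (pvrsNum 𝔤) c (pvrsPL 𝔤) x R m} {L : List (ℤ × ℤ)} (hw : PvvrWit π) (hl : PvqgLvl 𝔤 (pvrsNum 𝔤) c R m) (hL : PvqgRing 𝔤 c R x m π L)
  (hzs : ‖(pvrcPatOf m π).zs - x‖ + (𝔤.Lr + 3) * pvlmH m ≤ 3 * R) (hzt : ‖(pvrcPatOf m π).zt - x‖ + (𝔤.Lr + 3) * pvlmH m ≤ 3 * R)

include H c0 hw hl hL hzs hzt

/-! ### numbers -/

theorem pvvr_df_le : pvrcnDf 𝔤 c m ≤ 𝔤.dl * pvlmH m / 21 := by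
  rw [pvqg_df_eq]
  have h1 := pvlm_Del_le_H c0 m
  have h2 := H.dl0
  show 𝔤.dl * pvlmDel c m / 21 ≤ 𝔤.dl * pvlmH m / 21
  have := mul_le_mul_of_nonneg_left h1 h2.le
  linarith

theorem pvvr_h_le (hR : 0 < R) : pvlmH m ≤ R / 20 := by
  have hh := pvlm_H_pos m
  obtain ⟨b0, b1, b2, b3, b4, b5⟩ := pvmh_basic H
  have hLr : 𝔤.Lr = 20 * (𝔤.b 2 + 1) := rfl
  have h0 := norm_nonneg ((pvrcPatOf m π).zs - x)
  have h1 : 60 * pvlmH m ≤ (𝔤.Lr + 3) * pvlmH m := mul_le_mul_of_nonneg_right (by rw [hLr]; linarith) hh.le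
  linarith

/-! ### LEAVES OF 236 (the coarse cells of the arc; the witness gives `G = pvtCells dc (polygon of the run)`) -/

/-- (R1') every point of the tube has a collar of `6` fine cells in the region of 138 -/
theorem pvvr_U_T : ∀ a ∈ pvrcnU π, closedBall a (6 * pvrcnDf 𝔤 c m) ⊆ pvrcnT π := by
  obtain ⟨𝔐, ω, P, s, t, hF, Fs, Ft, -⟩ := hw
  exact fun a ha => pvrcn_U_T H hF Fs Ft ha

/-- (R2') the tube is far from the closing side of the start pin -/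
theorem pvvr_U_ClS : ∀ a ∈ pvrcnU π, ∀ q ∈ pvrcnClS π, pvrcnDf 𝔤 c m < ‖q - a‖ := by
  obtain ⟨𝔐, ω, P, s, t, hF, Fs, Ft, -⟩ := hw
  intro a ha q hq
  have h1 := pvrcn_U_ClS H hF Fs ha hq
  have h2 := pvrcn_df_le H c m
  have h3 : 0 < 𝔤.dl * pvlmH m := mul_pos H.dl0 (pvlm_H_pos m)
  linarith

/-- (R2') the tube is far from the closing side of the end pin -/
theorem pvvr_U_ClT : ∀ a ∈ pvrcnU π, ∀ q ∈ pvrcnClT π, pvrcnDf 𝔤 c m < ‖q - a‖ := by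
  obtain ⟨𝔐, ω, P, s, t, hF, Fs, Ft, -⟩ := hw
  intro a ha q hq
  have h1 := pvrcn_U_ClT H hF Ft ha hq
  have h2 := pvrcn_df_le H c m
  have h3 : 0 < 𝔤.dl * pvlmH m := mul_pos H.dl0 (pvlm_H_pos m)
  linarith

/-- (W1) the tube lies in the patch -/
theorem pvvr_U_win : ∀ a ∈ pvrcnU π, ‖a - x‖ ≤ 3 * R := by
  obtain ⟨𝔐, ω, P, s, t, hF, Fs, Ft, -⟩ := hw
  intro a ha
  have h1 := pvrcn_U_win H hF ha
  have h2 := pvrcn_dc_le H c m
  obtain ⟨b0, b1, b2, b3, b4, b5⟩ := pvmh_basic H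
  have hh := pvlm_H_pos m
  have eL : 𝔤.Lr = 20 * (𝔤.b 2 + 1) := rfl
  have h0 := norm_nonneg ((pvrcPatOf m π).zs - x)
  have h3 : 60 * pvlmH m ≤ (𝔤.Lr + 3) * pvlmH m := mul_le_mul_of_nonneg_right (by rw [eL]; linarith) hh.le
  have h4 : 𝔤.dl * pvlmH m ≤ 1 * pvlmH m := mul_le_mul_of_nonneg_right (by linarith) hh.le
  linarith

/-! ### LEAF OF 222 (the ring lane lies in the patch) -/

theorem pvvr_S3_win : ∀ p ∈ pvlnW (pvrcnDf 𝔤 c m) L, ‖p - x‖ ≤ 4 * R := by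
  sorry

/-! ### the lane zone -/

/-- the plug part of the lane zone at `s` lies in the window of `L⁺(s)` -/
theorem pvvr_Lz_s {a : ℂ} (ha : a ∈ thickening (2 * (𝔤.mu * pvlmH m)) (cthickening (𝔤.mu * pvlmH m) ((𝔤.ty (pvlmH m) (pvrcPatOf m π).zs (pvrcPatOf m π).ts).reg 𝔤.sp (pvrcPatOf m π).zs (pvlmH m) .Mp))) :
    a ∈ (𝔤.ty (pvlmH m) (pvrcPatOf m π).zs (pvrcPatOf m π).ts).Ep :=
  pvvr_Lz_gen_p H (pvlm_H_pos m) _ _ ha

/-- the plug part of the lane zone at `t` lies in the window of `L⁻(t)` -/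
theorem pvvr_Lz_t {a : ℂ} (ha : a ∈ thickening (2 * (𝔤.mu * pvlmH m)) (cthickening (𝔤.mu * pvlmH m) ((𝔤.ty (pvlmH m) (pvrcPatOf m π).zt (pvrcPatOf m π).tt).reg 𝔤.sp (pvrcPatOf m π).zt (pvlmH m) .Mm))) :
    a ∈ (𝔤.ty (pvlmH m) (pvrcPatOf m π).zt (pvrcPatOf m π).tt).Em :=
  pvvr_Lz_gen_m H (pvlm_H_pos m) _ _ ha

/-- the ring part of the lane zone: within `df / 8` of the window of the ring lane -/
theorem pvvr_Lz_r {a : ℂ} (ha : a ∈ thickening (pvrcnDf 𝔤 c m / 8) (pvlnU (pvrcnDf 𝔤 c m) L)) : ∃ p ∈ pvlnW (pvrcnDf 𝔤 c m) L, ‖a - p‖ < pvrcnDf 𝔤 c m / 8 :=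
  pvvr_Lz_gen_r (pvrcn_df_pos H c m) ha

/-! ### THE ROADS (97): along the backward strand of the witness at `s`, the forward strand at `t`.      `P[t 0, lo 1]` stays outside `clB(z, a₁ h)` (`PvdaPass.visit`), `P[lo 1, k]` inside `clB(z, (b₁ + μ) h) ⊆ Os` (`PvdaPass.diam`):
every cell of `N⁸(cells 0..4)` with a point off `Os` is within `8` cells of a cell visited at an index `≤ lo 1`.   INSIDE `Os` THE ROAD IS THIN (the visited cells only: `≥ dl h` off `Tp`, `≥ 4` cells off `Mp`) -/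

/-- **THE ROAD OF `s`** -/
theorem pvvr_road_s : ∃ A : Set ℂ, IsPreconnected A ∧ pvrcnClS π \ closedBall (pvrcPatOf m π).zs (𝔤.rO * pvlmH m) ⊆ A ∧ A ⊆ pvrcnClS π ∧
    ∀ q ∈ A, ∀ a ∈ thickening (2 * (𝔤.mu * pvlmH m)) (cthickening (𝔤.mu * pvlmH m) ((𝔤.ty (pvlmH m) (pvrcPatOf m π).zs (pvrcPatOf m π).ts).reg 𝔤.sp (pvrcPatOf m π).zs (pvlmH m) .Mp)), pvrcnDf 𝔤 c m / 2 < ‖q - a‖ := by
  obtain ⟨𝔐, ω, P, s, t, hF, hs, -, ⟨lo, hi, ps⟩, -⟩ := hw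
  exact pvyg_road_s H hF hs ps

/-- **THE ROAD OF `t`** -/
theorem pvvr_road_t : ∃ A : Set ℂ, IsPreconnected A ∧ pvrcnClT π \ closedBall (pvrcPatOf m π).zt (𝔤.rO * pvlmH m) ⊆ A ∧ A ⊆ pvrcnClT π ∧
    ∀ q ∈ A, ∀ a ∈ thickening (2 * (𝔤.mu * pvlmH m)) (cthickening (𝔤.mu * pvlmH m) ((𝔤.ty (pvlmH m) (pvrcPatOf m π).zt (pvrcPatOf m π).tt).reg 𝔤.sp (pvrcPatOf m π).zt (pvlmH m) .Mm)), pvrcnDf 𝔤 c m / 2 < ‖q - a‖ := by
  obtain ⟨𝔐, ω, P, s, t, hF, -, ht, -, lo, hi, pt⟩ := hw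
  exact pvyg_road_t H hF ht pt

/-! ### the complement of the region of 138 -/

/-- `T_compl` of 138 (`TscConn pvtbG4 Tᶜ`), placed -/
theorem pvvr_Tc_pre : IsPreconnected (pvvrTc π) := by
  sorry

theorem pvvr_Tc_ext : (pvvrTc π ∩ {w : ℂ | 5 * R ≤ ‖w - x‖}).Nonempty := by
  sorry

/-- the channel of the negative tentacle of `s` is off `T` (e.g. the centre cell of the tip: `noz_s` at `t = 0`) -/
theorem pvvr_link_s : (pvvrTc π ∩ (pvrcnClS π \ closedBall (pvrcPatOf m π).zs (𝔤.rO * pvlmH m))).Nonempty := by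
  sorry

theorem pvvr_link_t : (pvvrTc π ∩ (pvrcnClT π \ closedBall (pvrcPatOf m π).zt (𝔤.rO * pvlmH m))).Nonempty := by
  sorry

theorem pvvr_path_Tc : pvvrPath π ⊆ pvvrTc π := by
  intro q hq
  obtain ⟨v, ⟨i, hi, rfl⟩, hqv⟩ := mem_iUnion₂.1 hq
  exact mem_iUnion₂.2 ⟨_, ⟨_, pvvr_path_T π hi, rfl⟩, hqv⟩

/-! ### the core zone: collar in the region of 138, patch, far from the closing sides -/

/-- every point of the core zone has a collar of `5` fine cells in the region of 138 -/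
theorem pvvr_Zc_T : ∀ a ∈ (pvvrIn π L).Zc, closedBall a (5 * pvrcnDf 𝔤 c m) ⊆ pvrcnT π := by
  have hdf := pvrcn_df_pos H c m
  obtain ⟨𝔐, ω, P, s, t, hF, -⟩ := id hw
  obtain ⟨la, lb, hlat⟩ := pvrcn_lat H hF
  have h56 : ∀ a : ℂ, closedBall a (5 * pvrcnDf 𝔤 c m) ⊆ closedBall a (6 * pvrcnDf 𝔤 c m) := fun a => closedBall_subset_closedBall (by linarith)
  rintro a (ha | ((ha | ha) | ha))
  · exact (h56 a).trans (pvvr_U_T H c0 hw hl hL hzs hzt a ha)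
  · exact (h56 a).trans (pvrcn_Ep_T H c0 hlat (pvvr_Lz_s H c0 hw hl hL hzs hzt ha))
  · exact (h56 a).trans (pvrcn_Em_T H c0 hlat (pvvr_Lz_t H c0 hw hl hL hzs hzt ha))
  · obtain ⟨p, hp, hap⟩ := pvvr_Lz_r H c0 hw hl hL hzs hzt ha
    refine Subset.trans ?_ (hL.in_T p hp)
    intro y hy
    rw [mem_closedBall, dist_eq_norm] at hy ⊢
    have := pvtv_tri y a p
    linarith

/-- the core zone is more than `4` fine cells from the closed cells off `T` -/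
theorem pvvr_Zc_Tc : ∀ a ∈ (pvvrIn π L).Zc, ∀ q ∈ pvvrTc π, 4 * pvrcnDf 𝔤 c m < ‖q - a‖ := by
  intro a ha q hq
  obtain ⟨v, hv, hqv⟩ := mem_iUnion₂.1 hq
  have := pvvr_sq_far (pvrcn_df_pos H c m) (pvvr_Zc_T H c0 hw hl hL hzs hzt a ha) (v := v) (by
    rintro ⟨w, hw', e⟩
    obtain ⟨w', hw'', e'⟩ := hv
    rw [← e'] at e
    exact hw'' ((pvyt_sh_inj _ e) ▸ hw')) hqv
  linarith

theorem pvvr_Zc_win (hR : 0 < R) : ∀ a ∈ (pvvrIn π L).Zc, ‖a - x‖ + 2 * (pvrcnDf 𝔤 c m / 10) < 5 * R := by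
  have hdf := pvrcn_df_pos H c m
  have hh := pvlm_H_pos m
  have hdfl := pvvr_df_le H c0 hw hl hL hzs hzt
  have hhR := pvvr_h_le H c0 hw hl hL hzs hzt hR
  obtain ⟨b0, b1, b2, b3, b4, b5⟩ := pvmh_basic H
  have hdh : 𝔤.dl * pvlmH m ≤ pvlmH m := by nlinarith
  have key : ∀ (z a : ℂ), ‖z - x‖ + (𝔤.Lr + 3) * pvlmH m ≤ 3 * R → a ∈ closedBall z (𝔤.Lr * pvlmH m) → ‖a - x‖ ≤ 3 * R := by
    intro z a h1 h2
    rw [mem_closedBall, dist_eq_norm] at h2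
    have := pvtv_tri a z x
    nlinarith
  rintro a (ha | ((ha | ha) | ha))
  · have := pvvr_U_win H c0 hw hl hL hzs hzt a ha
    linarith
  · have := key _ a hzs (pvmh_Ep_sub H _ _ hh (pvvr_Lz_s H c0 hw hl hL hzs hzt ha))
    linarith
  · have := key _ a hzt (pvmh_Em_sub H _ _ hh (pvvr_Lz_t H c0 hw hl hL hzs hzt ha))
    linarith
  · obtain ⟨p, hp, hap⟩ := pvvr_Lz_r H c0 hw hl hL hzs hzt ha
    have h1 := pvvr_S3_win H c0 hw hl hL hzs hzt p hp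
    have := pvtv_tri a p x
    linarith

/-- a subset of the closing side of `s` which is far from the plug part of the lane zone at `s` is far from the core zone -/
theorem pvvr_Zc_ClS {A : Set ℂ} (hA : A ⊆ pvrcnClS π)
    (hAz : ∀ q ∈ A, ∀ a ∈ thickening (2 * (𝔤.mu * pvlmH m)) (cthickening (𝔤.mu * pvlmH m) ((𝔤.ty (pvlmH m) (pvrcPatOf m π).zs (pvrcPatOf m π).ts).reg 𝔤.sp (pvrcPatOf m π).zs (pvlmH m) .Mp)), pvrcnDf 𝔤 c m / 2 < ‖q - a‖) :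
    ∀ a ∈ (pvvrIn π L).Zc, ∀ q ∈ A, pvrcnDf 𝔤 c m / 2 < ‖q - a‖ := by
  have hdf := pvrcn_df_pos H c m
  have hh := pvlm_H_pos m
  have hdfl := pvvr_df_le H c0 hw hl hL hzs hzt
  obtain ⟨b0, b1, b2, b3, b4, b5⟩ := pvmh_basic H
  have hdh : 𝔤.dl * pvlmH m ≤ pvlmH m := by nlinarith
  have hfar : 2 * (𝔤.Lr + 3) * pvlmH m < ‖(pvrcPatOf m π).zs - (pvrcPatOf m π).zt‖ := π.2
  rintro a (ha | ((ha | ha) | ha)) q hq
  · have := pvvr_U_ClS H c0 hw hl hL hzs hzt a ha q (hA hq)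
    linarith
  · exact hAz q hq a ha
  · have h1 := pvmh_Em_sub H _ _ hh (pvvr_Lz_t H c0 hw hl hL hzs hzt ha)
    have h2 := pvmh_w88_box_ball H (pvrcPatOf m π).zs hh (pvmn_N_box (k := 8) (pvmn_cells_box (a := 0) (b := 4) (pvrcPatOf m π).ts.isType)) (hA hq).1
    rw [mem_closedBall, dist_eq_norm] at h1 h2
    have t1 := pvtv_tri (pvrcPatOf m π).zs q (pvrcPatOf m π).zt
    have t2 := pvtv_tri q a (pvrcPatOf m π).zt
    rw [norm_sub_rev (pvrcPatOf m π).zs q] at t1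
    nlinarith
  · obtain ⟨p, hp, hap⟩ := pvvr_Lz_r H c0 hw hl hL hzs hzt ha
    have h1 := hL.off_ClS p hp q (hA hq)
    have t1 := pvtv_tri p a q
    rw [norm_sub_rev p a, norm_sub_rev a q] at t1
    linarith

theorem pvvr_Zc_ClT {A : Set ℂ} (hA : A ⊆ pvrcnClT π)
    (hAz : ∀ q ∈ A, ∀ a ∈ thickening (2 * (𝔤.mu * pvlmH m)) (cthickening (𝔤.mu * pvlmH m) ((𝔤.ty (pvlmH m) (pvrcPatOf m π).zt (pvrcPatOf m π).tt).reg 𝔤.sp (pvrcPatOf m π).zt (pvlmH m) .Mm)), pvrcnDf 𝔤 c m / 2 < ‖q - a‖) :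
    ∀ a ∈ (pvvrIn π L).Zc, ∀ q ∈ A, pvrcnDf 𝔤 c m / 2 < ‖q - a‖ := by
  have hdf := pvrcn_df_pos H c m
  have hh := pvlm_H_pos m
  have hdfl := pvvr_df_le H c0 hw hl hL hzs hzt
  obtain ⟨b0, b1, b2, b3, b4, b5⟩ := pvmh_basic H
  have hdh : 𝔤.dl * pvlmH m ≤ pvlmH m := by nlinarith
  have hfar : 2 * (𝔤.Lr + 3) * pvlmH m < ‖(pvrcPatOf m π).zs - (pvrcPatOf m π).zt‖ := π.2
  rintro a (ha | ((ha | ha) | ha)) q hq
  · have := pvvr_U_ClT H c0 hw hl hL hzs hzt a ha q (hA hq)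
    linarith
  · have h1 := pvmh_Ep_sub H _ _ hh (pvvr_Lz_s H c0 hw hl hL hzs hzt ha)
    have h2 := pvmh_w88_box_ball H (pvrcPatOf m π).zt hh (pvmn_N_box (k := 8) (pvmn_cells_box (a := 5) (b := 9) (pvrcPatOf m π).tt.isType)) (hA hq).1
    rw [mem_closedBall, dist_eq_norm] at h1 h2
    have t1 := pvtv_tri (pvrcPatOf m π).zs a (pvrcPatOf m π).zt
    have t2 := pvtv_tri a q (pvrcPatOf m π).zt
    rw [norm_sub_rev (pvrcPatOf m π).zs a] at t1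
    rw [norm_sub_rev a q] at t2
    nlinarith
  · exact hAz q hq a ha
  · obtain ⟨p, hp, hap⟩ := pvvr_Lz_r H c0 hw hl hL hzs hzt ha
    have h1 := hL.off_ClT p hp q (hA hq)
    have t1 := pvtv_tri p a q
    rw [norm_sub_rev p a, norm_sub_rev a q] at t1
    linarith

/-! ### the three windows against the closing side -/

theorem pvvr_Ep_Cl : Disjoint (𝔤.ty (pvlmH m) (pvrcPatOf m π).zs (pvrcPatOf m π).ts).Ep (pvvrIn π L).Cl := by
  have hh := pvlm_H_pos m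
  have hdf := pvrcn_df_pos H c m
  obtain ⟨𝔐, ω, P, s, t, hF, -, -⟩ := hw
  obtain ⟨a, b, hlat⟩ := pvrcn_lat H hF
  rw [Set.disjoint_left]
  rintro p hp ((⟨hq, hO⟩ | ⟨hq, hO⟩) | hq)
  · rcases pvrcn_Ep_sub H hh _ _ hp with h | h
    · exact hO h
    · have := pvrcn_sep_pm H hh _ _ (pvmg_mono (pvtw_N_mono le_rfl (pvmn_cells_mono le_rfl (by norm_num))) h) hq.1 hq.2
      rw [sub_self, norm_zero] at this
      have := mul_pos H.dl0 hh
      linarith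
  · have := pvrcn_balls_far π (pvmh_Ep_sub H _ _ hh hp) (pvrcn_ClT_ball H π hq)
    rw [sub_self, norm_zero] at this
    linarith
  · have := pvvr_path_far H π (pvrcn_Ep_T H c0 hlat hp) hq
    rw [sub_self, norm_zero] at this
    linarith

theorem pvvr_Em_Cl : Disjoint (𝔤.ty (pvlmH m) (pvrcPatOf m π).zt (pvrcPatOf m π).tt).Em (pvvrIn π L).Cl := by
  have hh := pvlm_H_pos m
  have hdf := pvrcn_df_pos H c m
  obtain ⟨𝔐, ω, P, s, t, hF, -, -⟩ := hw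
  obtain ⟨a, b, hlat⟩ := pvrcn_lat H hF
  rw [Set.disjoint_left]
  rintro p hp ((⟨hq, hO⟩ | ⟨hq, hO⟩) | hq)
  · have := pvrcn_balls_far π (pvrcn_ClS_ball H π hq) (pvmh_Em_sub H _ _ hh hp)
    rw [sub_self, norm_zero] at this
    linarith
  · rcases pvrcn_Em_sub H hh _ _ hp with h | h
    · exact hO h
    · have := pvrcn_sep_mp H hh _ _ (pvmg_mono (pvtw_N_mono le_rfl (pvmn_cells_mono (by norm_num) le_rfl)) h) hq.1 hq.2
      rw [sub_self, norm_zero] at this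
      have := mul_pos H.dl0 hh
      linarith
  · have := pvvr_path_far H π (pvrcn_Em_T H c0 hlat hp) hq
    rw [sub_self, norm_zero] at this
    linarith

theorem pvvr_S3_Cl : Disjoint (pvlnW (pvrcnDf 𝔤 c m) L) (pvvrIn π L).Cl := by
  have hdf := pvrcn_df_pos H c m
  have hδ : 0 < 𝔤.dl * pvlmH m := mul_pos H.dl0 (pvlm_H_pos m)
  rw [Set.disjoint_left]
  rintro p hp ((hq | hq) | hq)
  · have := hL.off_ClS p hp p hq.1
    rw [sub_self, norm_zero] at this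
    linarith
  · have := hL.off_ClT p hp p hq.1
    rw [sub_self, norm_zero] at this
    linarith
  · have := pvvr_path_far H π (hL.in_T p hp) hq
    rw [sub_self, norm_zero] at this
    linarith

/-- **THE SHORT LIST** -/
theorem pvvr_ok (hR : 0 < R) (hβ : 0 ≤ 𝔤.β) (hcol : (pvrcPatOf m π).tt.typ.col = (pvrcPatOf m π).ts.typ.col) : (pvvrIn π L).Ok (100 * 𝔤.b 0) (100 * 𝔤.b 0) := by
  have hh := pvlm_H_pos m
  have hdf := pvrcn_df_pos H c m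
  have hdfl := pvvr_df_le H c0 hw hl hL hzs hzt
  have hhR := pvvr_h_le H c0 hw hl hL hzs hzt hR
  obtain ⟨b0, b1, b2, b3, b4, b5⟩ := pvmh_basic H
  have eLr : 𝔤.Lr = 20 * (𝔤.b 2 + 1) := rfl
  have hLr : 0 ≤ 𝔤.Lr := by rw [eLr]; linarith
  have hfar : 2 * (𝔤.Lr + 3) * pvlmH m < ‖(pvrcPatOf m π).zs - (pvrcPatOf m π).zt‖ := π.2
  have hmu : 𝔤.mu = 𝔤.dl / 20 := H.mu_eq
  have ha0 := H.a_pos
  have hab0 := H.ab 0
  have hn01 := H.nest01
  have hS2 : (𝔤.b 1 + 1) * pvlmH m ≤ 𝔤.Lr * pvlmH m := mul_le_mul_of_nonneg_right (by rw [eLr]; linarith) hh.le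
  have hrO : 𝔤.rO * pvlmH m ≤ 𝔤.Lr * pvlmH m := mul_le_mul_of_nonneg_right (by rw [eLr]; show 2 * 𝔤.b 1 ≤ _; linarith) hh.le
  have hdj : ∀ (r r' : ℝ), r ≤ 𝔤.Lr * pvlmH m → r' ≤ 𝔤.Lr * pvlmH m → Disjoint (closedBall (pvrcPatOf m π).zs r) (closedBall (pvrcPatOf m π).zt r') := by
    intro r r' h1 h2
    rw [Set.disjoint_left]
    intro y y1 y2
    rw [mem_closedBall, dist_eq_norm] at y1 y2
    have t1 := pvtv_tri (pvrcPatOf m π).zs y (pvrcPatOf m π).zt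
    rw [norm_sub_rev (pvrcPatOf m π).zs y] at t1
    nlinarith
  have hcore : ∀ (W : Set ℂ) (a : ℂ), a ∈ pvtrCore (3 * (𝔤.mu * pvlmH m)) W → a ∈ W := fun W a ha => ha (mem_closedBall_self (by have := H.mu0; positivity))
  have hball : ∀ (z : ℂ), ‖z - x‖ + (𝔤.Lr + 3) * pvlmH m ≤ 3 * R → closedBall z (𝔤.Lr * pvlmH m) ⊆ closedBall x (3 * R) := by
    intro z hz y hy
    rw [mem_closedBall, dist_eq_norm] at hy ⊢
    have := pvtv_tri y z x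
    nlinarith
  have h36 : closedBall x (3 * R) ⊆ closedBall x (6 * R) := closedBall_subset_closedBall (by linarith)
  exact
    { ws := pvmh_wf H _ _ hh
      wt := pvmh_wf H _ _ hh
      col := hcol
      β0 := hβ
      rho0 := by show 0 < pvrcnDf 𝔤 c m / 10; positivity
      rho_le := by
        show pvrcnDf 𝔤 c m / 10 ≤ 𝔤.mu * pvlmH m
        rw [H.mu_eq]
        nlinarith
      R0 := hR
      rhoR := by
        show 3 * (pvrcnDf 𝔤 c m / 10) ≤ R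
        nlinarith
      Zc_win := pvvr_Zc_win H c0 hw hl hL hzs hzt hR
      cl_far := by
        rintro q ((hq | hq) | hq) a ha
        · obtain ⟨A, -, h1, h2, h3⟩ := pvvr_road_s H c0 hw hl hL hzs hzt
          have := pvvr_Zc_ClS H c0 hw hl hL hzs hzt h2 h3 a ha q (h1 hq)
          show 5 * (pvrcnDf 𝔤 c m / 10) < _
          linarith
        · obtain ⟨A, -, h1, h2, h3⟩ := pvvr_road_t H c0 hw hl hL hzs hzt
          have := pvvr_Zc_ClT H c0 hw hl hL hzs hzt h2 h3 a ha q (h1 hq)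
          show 5 * (pvrcnDf 𝔤 c m / 10) < _
          linarith
        · have := pvvr_path_far H π (pvvr_Zc_T H c0 hw hl hL hzs hzt a ha) hq
          show 5 * (pvrcnDf 𝔤 c m / 10) < _
          linarith
      Ep_Cl := pvvr_Ep_Cl H c0 hw hl hL hzs hzt
      Em_Cl := pvvr_Em_Cl H c0 hw hl hL hzs hzt
      S3_Cl := pvvr_S3_Cl H c0 hw hl hL hzs hzt
      Ep_win := ((pvmh_Ep_sub H _ _ hh).trans (hball _ hzs)).trans h36
      Em_win := ((pvmh_Em_sub H _ _ hh).trans (hball _ hzt)).trans h36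
      S3_win := fun p hp => by
        show p ∈ closedBall x (6 * R)
        rw [mem_closedBall, dist_eq_norm]
        have := pvvr_S3_win H c0 hw hl hL hzs hzt p hp
        linarith
      zone := by
        have hb : closedBall x (3 * R) ⊆ ball x (4 * R) := closedBall_subset_ball (by linarith)
        exact Set.union_subset (((closedBall_subset_closedBall hS2).trans (hball _ hzs)).trans hb) (((closedBall_subset_closedBall hS2).trans (hball _ hzt)).trans hb)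
      dis := hdj _ _ hS2 hS2
      lo_s := by show 𝔤.b 0 + 2 * 𝔤.mu ≤ 100 * 𝔤.b 0; linarith
      hi_s := by show 100 * 𝔤.b 0 + 2 * 𝔤.mu ≤ 𝔤.a 1; linarith
      lo_t := by show 𝔤.b 0 + 2 * 𝔤.mu ≤ 100 * 𝔤.b 0; linarith
      hi_t := by show 100 * 𝔤.b 0 + 2 * 𝔤.mu ≤ 𝔤.a 1; linarith
      Mp_Ot := (hdj _ _ le_rfl hrO).mono_left fun a ha => pvmh_Ep_sub H _ _ hh (hcore _ a ((pvmh_wf H (pvrcPatOf m π).zs (pvrcPatOf m π).ts hh).core_p (Or.inr ha)))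
      Mm_Os := ((hdj _ _ hrO le_rfl).mono_right fun a ha => pvmh_Em_sub H _ _ hh (hcore _ a ((pvmh_wf H (pvrcPatOf m π).zt (pvrcPatOf m π).tt hh).core_m (Or.inr ha)))).symm
      S3_Os := by
        rw [Set.disjoint_left]
        intro p hp hO
        have h1 := hL.off_s p hp
        have h2 : p ∈ closedBall (pvrcPatOf m π).zs (2 * 𝔤.b 1 * pvlmH m) := hO
        rw [mem_closedBall, dist_eq_norm] at h2
        have e3 : 𝔤.a3 = 𝔤.a 2 := rfl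
        rw [e3] at h1
        nlinarith
      S3_Ot := by
        rw [Set.disjoint_left]
        intro p hp hO
        have h1 := hL.off_t p hp
        have h2 : p ∈ closedBall (pvrcPatOf m π).zt (2 * 𝔤.b 1 * pvlmH m) := hO
        rw [mem_closedBall, dist_eq_norm] at h2
        have e3 : 𝔤.a3 = 𝔤.a 2 := rfl
        rw [e3] at h1
        nlinarith
      B_bdd := isBounded_closedBall
      B_meas := measurableSet_closedBall
      a00 := hh }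

/-- **(F6): THE COMPLEMENT OF THE REGION OF `N_g` IS CONNECTED** -/
theorem pvvr_pre (hR : 0 < R) (hβ : 0 ≤ 𝔤.β) (hcol : (pvrcPatOf m π).tt.typ.col = (pvrcPatOf m π).ts.typ.col) : IsPreconnected (pvvrIn π L).UNᶜ := by
  have hdf := pvrcn_df_pos H c m
  obtain ⟨As, s0, s1, s2, s3⟩ := pvvr_road_s H c0 hw hl hL hzs hzt
  obtain ⟨At, t0, t1, t2, t3⟩ := pvvr_road_t H c0 hw hl hL hzs hzt
  obtain ⟨ls, ls1, ls2⟩ := pvvr_link_s H c0 hw hl hL hzs hzt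
  obtain ⟨lt, lt1, lt2⟩ := pvvr_link_t H c0 hw hl hL hzs hzt
  obtain ⟨e, e1, e2⟩ := pvvr_Tc_ext H c0 hw hl hL hzs hzt
  have hT := pvvr_Tc_pre H c0 hw hl hL hzs hzt
  have h1 : IsPreconnected (pvvrTc π ∪ As) := IsPreconnected.union ls ls1 (s1 ls2) hT s0
  have h2 : IsPreconnected (pvvrTc π ∪ As ∪ At) := IsPreconnected.union lt (Or.inl lt1) (t1 lt2) h1 t0
  refine (pvvr_ok H c0 hw hl hL hzs hzt hR hβ hcol).compl_pre_of h2 ?_ ?_ ⟨e, Or.inl (Or.inl e1), e2⟩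
  · rintro q ((hq | hq) | hq)
    · exact Or.inl (Or.inr (s1 hq))
    · exact Or.inr (t1 hq)
    · exact Or.inl (Or.inl (pvvr_path_Tc H c0 hw hl hL hzs hzt hq))
  · rintro q ((hq | hq) | hq) a ha
    · have := pvvr_Zc_Tc H c0 hw hl hL hzs hzt a ha q hq
      show 2 * (pvrcnDf 𝔤 c m / 10) < _
      linarith
    · have := pvvr_Zc_ClS H c0 hw hl hL hzs hzt s2 s3 a ha q hq
      show 2 * (pvrcnDf 𝔤 c m / 10) < _
      linarith
    · have := pvvr_Zc_ClT H c0 hw hl hL hzs hzt t2 t3 a ha q hq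
      show 2 * (pvrcnDf 𝔤 c m / 10) < _
      linarith

end list

end model

/-! ## 3. THE GLUE -/

section exits

variable {𝔤 : PvmhNum} {c : ℝ} (c0 : 0 < c) (H : PvrzGood 𝔤) (hβ : 0 < 𝔤.β) {Γ : ℕ → PvtsGeo (PvmhT 𝔤)} {m0 : ℕ} {𝔶 : PvydGeo (PvmhT 𝔤)} (hG : PvrsGeoOk c H Γ m0 𝔶)

/-- **COR**: for small `ε` the corridor of the closing chain lies over the closing side -/
theorem pvvr_cor {x : ℂ} {R : ℝ} {m1 m : ℕ} (π : (pvrsPat H hG.doors m1 x R).Pat m) (hv : PvusLive (pvrsPat H hG.doors m1 x R) m π) (hb : PvusBlk (pvrsPat H hG.doors m1 x R) m π) (L : List (ℤ × ℤ)) :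
    ∀ᶠ ε in 𝓝[>] (0 : ℝ), ∀ (W : PvtW) (q : ℕ → ℝ≥0∞) (𝔯 : PvnjReg) (Lam Kr : Set ℂ),
      (pvnjAt (pvrzPar c 𝔤 H Γ m0) (pvydDat (pvrzPar c 𝔤 H Γ m0) 𝔶 true) W q m ε (pvrcPatOf m π.1) 𝔯 Lam Kr).cor ⊆ Prod.fst ⁻¹' (pvvrIn π.1 L).Cl := by
  sorry

include c0 hβ

/-- **SUB-EXIT REG + RUN** -/
theorem pvvr_reg : PvusRegR H hG := by
  intro x R hR m1 hl m π hv hb
  have hloc := hv.loc
  obtain ⟨ε, ω, P, s, t, ζ, hp⟩ := id hv
  have hF : PvrcFit (pvrzPar c 𝔤 H Γ m0).𝔐 m ω P s t π.1 := hp.fit.1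
  have Fs : 𝔤.Fit (pvlmH m) P s.idx s.ctr s.typ := pvrcm_pin_fit H hp.fit.2.2.1
  have Ft : 𝔤.Fit (pvlmH m) P t.idx t.ctr t.typ := pvrcm_pin_fit H hp.fit.2.2.2
  have hlv := (hl m π.2.2).qg
  obtain ⟨es1, es2⟩ := pvrc_fit_s hF
  obtain ⟨et1, et2⟩ := pvrc_fit_t hF
  have hbs : (pvrcPatOf m π.1).ts.typ.col = true := hb.1
  have hbt : (pvrcPatOf m π.1).tt.typ.col = true := hb.2
  obtain ⟨L, hL⟩ := pvqg_ring_exists H.ok hlv hF Fs Ft (by rw [es2, et2, hbs, hbt])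
  have hOk : (pvvrIn π.1 L).Ok (100 * 𝔤.b 0) (100 * 𝔤.b 0) := pvvr_ok H.ok c0 ⟨_, ω, P, s, t, hF, Fs, Ft, hp.fit.2.2.1.2.2.2.pass, hp.fit.2.2.2.2.2.2.pass⟩ hlv hL hloc.1 hloc.2 hR hβ.le (by rw [hbs, hbt])
  refine ⟨(pvvrIn π.1 L).toReg, ?_⟩
  exact
    { δ0 := pvrcn_df_pos H.ok c m
      Lch := hL.chain
      hook := hL.hook
      az := fun q3 => hOk.wfA
      UU := PvvrIn.U_sub hOk.rho0
      rg := fun q3 hq3 => (pvvr_cor H hG π hv hb L).mono fun ε h W q => hOk.rg hq3 rfl rfl rfl rfl rfl rfl rfl (h W q _ _ _)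
      run := fun ε' ω' P' s' t' hfit k k1 k2 => by
        obtain ⟨r0, -, -, -, r3, r4⟩ := pvrcn_run H.ok hfit.1 (pvrcm_pin_fit H hfit.2.2.1) (pvrcm_pin_fit H hfit.2.2.2) k1 k2
        have hdl : 0 < 𝔤.dl * pvlmH m := mul_pos H.ok.dl0 (pvlm_H_pos m)
        have hdf := pvrcn_df_pos H.ok c m
        have hU : P'.v k ∈ (pvvrIn π.1 L).U := by
          refine ⟨r0, ?_⟩
          rintro ((h | h) | h)
          · have := r3 _ (Or.inr h.1)
            rw [sub_self, norm_zero] at this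
            linarith
          · have := r4 _ (Or.inl h.1)
            rw [sub_self, norm_zero] at this
            linarith
          · have := hL.off_U _ h _ r0
            rw [sub_self, norm_zero] at this
            linarith
        exact ⟨hU, fun hlam => Set.disjoint_left.1 PvvrIn.U_Lam hU hlam⟩ }

end exits

end Claimed.Agent.R289
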