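import Claimed.Agent.R289.Exit.ParEngH
import Claimed.Agent.R289.Exit.RoomRE

/-!
# Row 289 (S0537), THE WALL, ROAD E, file Exit/RoomH : (Rd) OF RULING 22 AT THE ROOMS `rY`, `eY` OF 166 (`Exit/RoomRE`)      (helper39; prefix `pvrh_`, names `pvrh_ly_*`, `pvrh_e2_*`, `pvrh_re_*`)

* **`pvrh_re_rY`** : `pverrY` (neck ∪ lane: `pver_rY_star` of 166 + `pvrt_star`)
* **`pvrh_re_eY`** : `pvereY` = east lane from `u/4` ∪ lanes of `pverLy b = pvxrLe b ++ [S, S]` ∪ inner mouth `closedBall (h y⁻) (5ρh/16 - 3δ/100)`      (abstract door: `pvrh_e2_room`, through `pvrr_room_e_pl` with the degenerate funnel = the last door)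
-/

set_option autoImplicit false

namespace Claimed.Agent.R289

open Set Metric Complex

theorem pvrh_ly_cases (b : ℕ) : pverLy b = pverLy 0 ∨ pverLy b = pverLy 1 ∨ pverLy b = pverLy 2 ∨ pverLy b = pverLy 3 := by
  unfold pverLy
  rcases pveh_le_cases b with h | h | h | h <;> rw [h] <;> simp

theorem pvrh_ly_simple (b : ℕ) : PvccSimple (pverLy b) (pverLy b).length := by
  rcases pvrh_ly_cases b with h | h | h | h <;> (rw [h]; exact pvcc_simple_of_int (by decide))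

theorem pvrh_ly_len (b : ℕ) : 6 ≤ (pverLy b).length := by
  rcases pvrh_ly_cases b with h | h | h | h <;> (rw [h]; decide)

theorem pvrh_ly_T0 (b : ℕ) : pvccT (pverLy b) 0 = PvtTurn.S := by
  rcases pvrh_ly_cases b with h | h | h | h <;> (rw [h]; decide)

theorem pvrh_ly_run (b : ℕ) : ∀ k, (pverLy b).length ≤ k + 6 → k < (pverLy b).length → pvccT (pverLy b) k = PvtTurn.S := by
  have key : ∀ l : List PvtTurn, (∀ k < l.length, l.length ≤ k + 6 → pvccT l k = PvtTurn.S) → ∀ k, l.length ≤ k + 6 → k < l.length → pvccT l k = PvtTurn.S := fun l h k h1 h2 => h k h2 h1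
  rcases pvrh_ly_cases b with h | h | h | h <;> (rw [h]; exact key _ (by decide))

theorem pvrh_ly_V0 (b : ℕ) : ∀ j, j ≤ (pverLy b).length → pvehV (pverLy b) j ≠ (0, 0) := by
  have key : ∀ l : List PvtTurn, (∀ j < l.length + 1, pvehV l j ≠ (0, 0)) → ∀ j, j ≤ l.length → pvehV l j ≠ (0, 0) := fun l h j hj => h j (by omega)
  rcases pvrh_ly_cases b with h | h | h | h <;> (rw [h]; exact key _ (by decide))

theorem pvrh_ly_front {b : ℕ} (hb : b < 4) : ∀ k, k + 6 < (pverLy b).length → 4 ≤ pvxrDot (pvxrUo b 1 + pvehV (pverLy b) k) (pvxrE b) := by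
  have key : ∀ (l : List PvtTurn) (U E : ℤ × ℤ), (∀ k < l.length, k + 6 < l.length → 4 ≤ pvxrDot (U + pvehV l k) E) → ∀ k, k + 6 < l.length → 4 ≤ pvxrDot (U + pvehV l k) E :=
    fun l U E h k hk => h k (by omega) hk
  interval_cases b <;> exact key _ _ _ (by decide)

theorem pvrh_ly_last {b : ℕ} (hb : b < 4) : pvtZ (pvxrUo b 1) + pvtZ (pvehV (pverLy b) ((pverLy b).length - 1)) = -2 * I ^ b := by
  interval_cases b
  · have e : pvehV (pverLy 0) ((pverLy 0).length - 1) = (-7, -3) := by decide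
    rw [e]; simp [pvtZ, pvxrUo]; ring
  · have e : pvehV (pverLy 1) ((pverLy 1).length - 1) = (3, -6) := by decide
    rw [e]; simp [pvtZ, pvxrUo]; ring
  · have e : pvehV (pverLy 2) ((pverLy 2).length - 1) = (6, 0) := by decide
    rw [e]; simp [pvtZ, pvxrUo]; ring
  · have e : pvehV (pverLy 3) ((pverLy 3).length - 1) = (3, 6) := by decide
    rw [e]; simp [pvtZ, pvxrUo, pow_succ]; ring

theorem pvrh_ly_D (Δ : ℝ) (b : ℕ) : pvccD (Δ : ℂ) (pverLy b) (pverLy b).length = -((Δ : ℂ) * I ^ b) := by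
  rw [pvccD_cov]
  unfold pvccD
  rw [List.take_length]
  unfold pverLy
  rw [pvtDir_append, pveh_dir_le]
  simp [PvtTurn.rot]

theorem pvrh_ly_Z (Δ : ℝ) (ce : ℂ) {b : ℕ} (hb : b < 4) : pvccZ (pvehZ Δ (ce + (Δ : ℂ) * pvtZ (pvxrUo b 1))) (Δ : ℂ) (pverLy b) (pverLy b).length = ce + (Δ : ℂ) * I ^ b * (-(5 / 2)) := by
  have hl := pvrh_ly_len b
  have h1 := pvccC_prev (pvehZ Δ (ce + (Δ : ℂ) * pvtZ (pvxrUo b 1))) (Δ : ℂ) (pverLy b) (j := (pverLy b).length - 1) (by omega)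
  rw [show (pverLy b).length - 1 + 1 = (pverLy b).length by omega, pveh_C_eq, pvrh_ly_D] at h1
  have h2 := pvrh_ly_last hb
  linear_combination h1 + (Δ : ℂ) * h2

theorem pvrh_ly_back (b : ℕ) : ∀ i, i ≤ (pverLy b).length → pvccC 0 1 (pverLy b) i ≠ -(1 / 2) := by
  intro i hi h
  have h1 := pveh_C_eq 1 (-(1 / 2)) (pverLy b) i
  have e : pvehZ 1 (-(1 / 2)) = 0 := by simp [pvehZ]
  rw [e] at h1
  simp only [Complex.ofReal_one, one_mul] at h1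
  rw [h] at h1
  have h2 : pvtZ (pvehV (pverLy b) i) = 0 := by linear_combination -h1
  apply pvrh_ly_V0 b i hi
  have h3 : pvtZ (pvehV (pverLy b) i) = pvtZ (0, 0) := by rw [h2]; simp [pvtZ]
  exact pvtZ_injective h3

theorem pvrh_ly_rect {b : ℕ} (hb : b < 4) {p : ℝ} (hp : p ≤ 1 / 2) {v : ℂ} (hv : v ∈ pvrrBk p) : 7 / 2 ≤ ((pvtZ (pvxrUo b 1) + 1 / 2 + v) * (starRingEnd ℂ) (I ^ b)).re := by
  obtain ⟨h1, h2, h3, h4⟩ := hv
  interval_cases b <;> simp [pvtZ, pvxrUo, pow_succ] <;> linarith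

/-- **THE ROOM `eY` OF 166 HAS NO HOLE** (abstract door) -/
theorem pvrh_e2_room {b : ℕ} (hb : b < 4) {Ym pin : ℂ} {R δ Δ rk : ℝ} (H : PvegDoor Ym (I ^ b) pin (R / 10) δ (R / 5) (5 * R / 16) (3 * R / 8) (R / 2) rk)
    (hfine : 1024 * δ ≤ R) (hD1 : R / 16 + δ ≤ Δ) (hD2 : Δ < R / 16 + 3 * δ) :
    IsPreconnected (pverEY (Δ / 20) Δ (pin + (δ : ℂ) * I ^ b * (1 / 2) + (Δ : ℂ) * pvtZ (pvxrUo b 1)) (pverLy b) (closedBall Ym (5 * R / 16 - 3 * δ / 100)))ᶜ := by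
  have hu := H.u4
  have hδ := H.δ0
  have hΔ : 0 < Δ := by linarith
  set u := (I : ℂ) ^ b with hudef
  set ce := pin + (δ : ℂ) * u * (1 / 2) with hce
  set cu := ce + (Δ : ℂ) * pvtZ (pvxrUo b 1) with hcu
  set lb := pverLy b with hlb
  have eZ : pvccZ (pvehZ Δ cu) (Δ : ℂ) lb lb.length = ce + (Δ : ℂ) * u * (-(5 / 2)) := pvrh_ly_Z Δ ce hb
  have eD : -pvccD (Δ : ℂ) lb lb.length = (Δ : ℂ) * u := by rw [hlb, pvrh_ly_D, neg_neg]
  have eD' : pvccD (Δ : ℂ) lb lb.length = -((Δ : ℂ) * u) := pvrh_ly_D Δ b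
  set Zl := pvccZ (pvehZ Δ cu) (Δ : ℂ) lb lb.length with hZl
  set Sp := pvegS Ym u pin with hSp
  set Lp := pvegL Ym u pin with hLp
  have s_lo := H.s_lo
  have s_hi := H.s_hi
  have lat := abs_le.1 H.lat
  have Sce : pvegS Ym u ce = Sp + δ / 2 := by rw [hce, pvrh_S_pl hu]; simp; ring
  have Lce : pvegL Ym u ce = Lp := by rw [hce, pvrh_L_pl hu]; simp; rfl
  have SZ : pvegS Ym u Zl = Sp + δ / 2 - 5 * Δ / 2 := by rw [eZ, pvrh_S_pl hu, Sce]; simp; ring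
  have LZ : pvegL Ym u Zl = Lp := by rw [eZ, pvrh_L_pl hu, Lce]; simp
  have eRect : {w : ℂ | cu.re + Δ / 20 / 4 ≤ w.re ∧ w.re ≤ cu.re + Δ / 2 ∧ cu.im - Δ / 10 ≤ w.im ∧ w.im ≤ cu.im + 4 * Δ / 10} = pvccPl (pvehZ Δ cu) (Δ : ℂ) (pvrrBk (39 / 80)) := by
    have hΔ' : (Δ : ℂ) ≠ 0 := by exact_mod_cast hΔ.ne'
    rw [pvccPl_eq_preimage _ hΔ']
    ext w
    simp only [pvrrBk, mem_setOf_eq, mem_preimage, Complex.div_ofReal_re, Complex.div_ofReal_im, pvehZ, Complex.sub_re, Complex.sub_im, Complex.add_re, Complex.add_im, Complex.ofReal_re, Complex.ofReal_im]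
    rw [le_div_iff₀ hΔ, div_le_iff₀ hΔ, le_div_iff₀ hΔ, div_le_iff₀ hΔ]
    constructor
    · rintro ⟨h1, h2, h3, h4⟩
      exact ⟨by linarith, by linarith, by linarith, by linarith⟩
    · rintro ⟨h1, h2, h3, h4⟩
      exact ⟨by linarith, by linarith, by linarith, by linarith⟩
  -- the last door lies in the inner mouth
  have hFb : pvccPl Zl ((Δ : ℂ) * u) (pvrrF 0 0 (-(3 / 20)) (1 / 4)) ⊆ closedBall Ym (5 * R / 16 - 3 * δ / 100) := by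
    rintro _ ⟨v, ⟨v1, v2, v3⟩, rfl⟩
    rw [abs_le] at v3
    have hv0 : v.re = 0 := le_antisymm v2 v1
    have h1 := pvrh_norm_le hu Ym (Zl + (Δ : ℂ) * u * v)
    rw [pvrh_S_pl hu, pvrh_L_pl hu, SZ, LZ, hv0, mul_zero, add_zero] at h1
    have h2 : |Sp + δ / 2 - 5 * Δ / 2| = Sp + δ / 2 - 5 * Δ / 2 := abs_of_nonneg (by linarith)
    have h3 : |Lp + Δ * v.im| ≤ δ + 4 / 10 * Δ := by
      rw [abs_le]
      constructor <;> nlinarith [v3.1, v3.2, lat.1, lat.2]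
    rw [mem_closedBall, dist_eq_norm]
    show ‖Zl + (Δ : ℂ) * u * v - Ym‖ ≤ _
    linarith
  have eSet : pverEY (Δ / 20) Δ cu lb (closedBall Ym (5 * R / 16 - 3 * δ / 100)) =
      pvccPl (pvehZ Δ cu) (Δ : ℂ) (pvrrBk (39 / 80)) ∪ pvfeLanes (-(1 / 10)) (4 / 10) (pvehZ Δ cu) (Δ : ℂ) lb ∪
        (closedBall Ym (5 * R / 16 - 3 * δ / 100) ∪ pvccPl Zl (-pvccD (Δ : ℂ) lb lb.length) (pvrrF 0 0 (-(3 / 20)) (1 / 4))) := by
    rw [eD, union_eq_self_of_subset_right hFb, ← eRect]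
    rfl
  rw [eSet]
  have key := @pvrr_room_e_pl lb (pvrh_ly_simple b) (pvrh_ly_back b) (pvrh_ly_T0 b) (39 / 80) (by norm_num) (by norm_num) 6 (by norm_num) (pvrh_ly_len b) (pvrh_ly_run b) Δ hΔ 1 (one_pow 4) (pvehZ Δ cu)
    Ym 0 (5 * R / 16 - 3 * δ / 100) (Δ / 2) (5 * R / 16 - 3 * δ / 100) 0 0 (-(3 / 20)) (1 / 4) (by positivity)
  simp only [mul_one] at key
  rw [eD] at key ⊢
  have hSle : ∀ x : ℂ, pvegS Ym u x ≤ ‖x - Ym‖ := fun x => pveg_S_le_norm hu Ym x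
  have hZn : ‖Zl - Ym‖ ≤ 7 * R / 32 := by
    have h1 := pvrh_norm_le hu Ym Zl
    rw [SZ, LZ] at h1
    have h2 : |Sp + δ / 2 - 5 * Δ / 2| = Sp + δ / 2 - 5 * Δ / 2 := abs_of_nonneg (by linarith)
    have h3 : |Lp| ≤ δ := H.lat
    linarith
  refine key ?_ ?_ ?_ ?_ ?_ ?_ ?_ ?_ ?_ ?_ ?_ ?_ ?_ ?_ ?_
  · rw [eD', div_neg, Complex.neg_re, (pvrh_frame hu hΔ Ym Zl Ym).1, pvrh_S_self, SZ, zero_sub, neg_div, neg_neg]
    exact div_nonneg (by linarith) hΔ.le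
  · rw [← norm_neg, neg_sub]
    linarith
  · have h1 := hSle (Zl + (Δ : ℂ) * u * ((6 : ℕ) + 1 / 2))
    rw [pvrh_S_pl hu, SZ] at h1
    simp at h1
    simp
    linarith
  · intro k hk
    have h1 := hSle (pvccC (pvehZ Δ cu) (Δ : ℂ) lb k)
    have e : pvccC (pvehZ Δ cu) (Δ : ℂ) lb k = ce + (Δ : ℂ) * pvtZ (pvxrUo b 1 + pvehV lb k) := by
      rw [pveh_C_eq, hcu, pvtZ_add]; ring
    rw [e, pvrh_S_add, Sce, pvrh_dot hb] at h1
    rw [e]
    have h2 : (4 : ℝ) ≤ ((pvxrDot (pvxrUo b 1 + pvehV lb k) (pvxrE b) : ℤ) : ℝ) := by exact_mod_cast pvrh_ly_front hb k hk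
    nlinarith
  · rintro _ ⟨v, hv, rfl⟩
    have e : pvehZ Δ cu + (Δ : ℂ) * v = ce + (Δ : ℂ) * (pvtZ (pvxrUo b 1) + 1 / 2 + v) := by
      rw [pvehZ, hcu]; push_cast; ring
    have h1 := hSle (pvehZ Δ cu + (Δ : ℂ) * v)
    rw [e, pvrh_S_add, Sce] at h1
    show 5 * R / 16 - 3 * δ / 100 + Δ / 2 ≤ ‖pvehZ Δ cu + (Δ : ℂ) * v - Ym‖
    rw [e]
    have h2 := pvrh_ly_rect hb (by norm_num) hv
    nlinarith
  · exact union_subset subset_rfl hFb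
  · rw [mul_zero, add_zero]
    linarith
  · simp
  · simp
  · simp; norm_num
  · simp
  · norm_num
  · norm_num
  · exact le_rfl
  · exact le_rfl

section model

variable {τ : Type} {c : ℝ} {𝔓 : PvxPar τ c}

/-- **(Rd) `rY` of 166** -/
theorem pvrh_re_rY (O0 : ℕ → Set ℂ) {m : ℕ} (h : 8 * pvlmDel c m ≤ pvehDl 𝔓 m) : IsPreconnected (pverrY 𝔓 O0 m)ᶜ ∧ Bornology.IsBounded (pverrY 𝔓 O0 m) :=
  ⟨pvrt_star (pver_rY_star O0 h) (pver_rY_bdd O0 m), pver_rY_bdd O0 m⟩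

/-- **(Rd) `eY` of 166** -/
theorem pvrh_re_eY {m : ℕ} {t : τ} (hΓ : 𝔓.Γ m = pvxrGam 𝔓 m) (hL : PvegLev 𝔓 m) (hT : pviwTyOk 𝔓 t) (h : PvxrNdg 𝔓 m t) : IsPreconnected (pvereY 𝔓 m t)ᶜ ∧ Bornology.IsBounded (pvereY 𝔓 m t) := by
  refine ⟨?_, pver_eY_bdd m t⟩
  have H := pveg_door_i hL hT
  obtain ⟨D1, D2, D3⟩ := pvef_Dl_bounds h
  unfold pvereY pvereY0 pverMi pverRu
  rw [hΓ, pvxr_gam_din, neg_neg, pvxr_gam_pin] at H
  have := pvrh_e2_room (b := pvxrB 𝔓 t) (pvxr_side_lt _) H (by linarith) D1 D2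
  rwa [← pvrh_door_ctr, ← (pvxr_geo h).zu'] at this

end model

theorem pvrh_re_eqns_cite : True := by
  trivial

end Claimed.Agent.R289
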