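import Claimed.Agent.R289.Exit.Thick
import Claimed.Agent.R289.Exit.AnaDefs

/-!
# Row 289 (S0537), THE WALL, ROAD E, file Exit/ThickG : THE LAST STEP OF `exit_pvie_thick`      (helper103, post of 7 11:57Z; prefix `pvkt_`)

`PvekDat.At` (7, `Exit/Thick`) at the levels `m0 ≤ m` ONLY  ⟹  `PvnaThick 𝔓 𝔇 𝔊 m0 Ce` (271, `Exit/AnaDefs`) VERBATIM, for ANY analytic data `𝔇` whose `ke` agrees with `D.ke` on the good usable samples (eventually in `ε`), ANY good part `𝔊` inside `D.Gd`.      PROVED (0 sorry).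
* `pvkt_thick_at`   one candidate, one mesh: `D.At .. m ε z t` + mask ⟹ the bound      (`PvekDat.Ok` asks every level; below `m0` nothing is owed: RULING 18 (1))
* **`pvkt_thick_glue`** : the statement of the sub-exit (6);   `pvkt_thick_glue_W` (generic raw summand `W`: `cV_L2` at `pvbeWV`)
-/

set_option autoImplicit false

namespace Claimed.Agent.R289

open Set MeasureTheory Filter Topology Claims.C0465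
open scoped ENNReal

section glue

variable {τ : Type} {c : ℝ}

/-- **ONE CANDIDATE, ONE MESH** -/
theorem pvkt_thick_at {D : PvekDat τ} {𝔓 : PvxPar τ c} {W : Set ℂ → ℂ × ℂ → ℂ} {q q' CB : ℝ≥0∞} {L : ℝ} (hB : PvbeIn W CB) (hCB : CB ≠ ∞) (q0 : q ≠ 0) (q'0 : q' ≠ 0) (q't : q' ≠ ∞)
    {m : ℕ} {ε : ℝ} (hε : 0 < ε) {z : ℂ} {t : τ} (mM : MeasurableSet (D.M m z t)) (sub : D.M m z t ⊆ Metric.closedBall z (L * pvlmH m)) (hA : D.At 𝔓 W q q' m ε z t) :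
    (pvhbUp ε).E ((pvMerge ⁻¹' pvxU 𝔓 m z t ∩ pvMerge ⁻¹' (pvConf ⁻¹' D.Gd m ε z t)).indicator fun x => ‖D.ke m ε z t (pvMerge x)‖ₑ ^ 2) ≤ ENNReal.ofReal (pvktCe q q' CB L * pvlmH m ^ 2) := by
  obtain ⟨Ok, hok, hS⟩ := hA.stop
  have k := pvek_bes (B := D.B 𝔓 m ε z t) hB hε (𝔓.col t) hA.mC hok hS q0 q'0 q't hA.norm hA.bd hA.ins mM (Metric.isBounded_closedBall.subset sub) hA.recog
  refine (((pvhbUp ε).mono fun x => ?_).trans k).trans (pvkt_Ce_le q0 q'0 hCB sub)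
  by_cases hx : x ∈ pvMerge ⁻¹' pvxU 𝔓 m z t ∩ pvMerge ⁻¹' (pvConf ⁻¹' D.Gd m ε z t)
  · have hx' : pvConf (pvMerge x) ∈ D.B 𝔓 m ε z t := ⟨⟨pvMerge x, hx.1, rfl⟩, hx.2⟩
    rw [indicator_of_mem hx, indicator_of_mem hx']
    exact le_rfl
  · rw [indicator_of_notMem hx]; exact zero_le

/-- **THE LAST STEP, GENERIC RAW SUMMAND** -/
theorem pvkt_thick_glue_W {D : PvekDat τ} {𝔓 : PvxPar τ c} {W : Set ℂ → ℂ × ℂ → ℂ} {q q' CB : ℝ≥0∞} {L : ℝ} (hB : PvbeIn W CB) (hCB : CB ≠ ∞) (q0 : q ≠ 0) (q'0 : q' ≠ 0) (q't : q' ≠ ∞) {m0 : ℕ}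
    (mM : ∀ m, m0 ≤ m → ∀ z t, MeasurableSet (D.M m z t)) (sub : ∀ m, m0 ≤ m → ∀ z t, D.M m z t ⊆ Metric.closedBall z (L * pvlmH m))
    (ev : ∀ m, m0 ≤ m → ∀ (p : ℤ × ℤ) (t : τ), ∀ᶠ ε in 𝓝[>] (0 : ℝ), D.At 𝔓 W q q' m ε (l9Pt (pvlmH m) p) t)
    {Gd : ℕ → ℝ → ℂ → τ → Set PVSample} {ke : ℕ → ℝ → ℂ → τ → PVSample → ℂ}
    (hG : ∀ m, m0 ≤ m → ∀ (p : ℤ × ℤ) (t : τ), ∀ᶠ ε in 𝓝[>] (0 : ℝ), pvxU 𝔓 m (l9Pt (pvlmH m) p) t ∩ Gd m ε (l9Pt (pvlmH m) p) t ⊆ pvConf ⁻¹' D.Gd m ε (l9Pt (pvlmH m) p) t)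
    (hke : ∀ m, m0 ≤ m → ∀ (p : ℤ × ℤ) (t : τ), ∀ᶠ ε in 𝓝[>] (0 : ℝ), ∀ ω ∈ pvxU 𝔓 m (l9Pt (pvlmH m) p) t ∩ Gd m ε (l9Pt (pvlmH m) p) t,
      ke m ε (l9Pt (pvlmH m) p) t ω = D.ke m ε (l9Pt (pvlmH m) p) t ω) :
    ∀ (m : ℕ), m0 ≤ m → ∀ (p : ℤ × ℤ) (t : τ), ∀ᶠ ε in 𝓝[>] (0 : ℝ),
    (pvhbUp ε).E ((pvMerge ⁻¹' pvxU 𝔓 m (l9Pt (pvlmH m) p) t ∩ pvMerge ⁻¹' Gd m ε (l9Pt (pvlmH m) p) t).indicator fun x => ‖ke m ε (l9Pt (pvlmH m) p) t (pvMerge x)‖ₑ ^ 2)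
      ≤ ENNReal.ofReal (pvktCe q q' CB L * pvlmH m ^ 2) := by
  intro m hm p t
  filter_upwards [ev m hm p t, hG m hm p t, hke m hm p t, self_mem_nhdsWithin] with ε hA h1 h2 hε
  refine ((pvhbUp ε).mono fun x => ?_).trans (pvkt_thick_at hB hCB q0 q'0 q't hε (mM m hm _ t) (sub m hm _ t) hA)
  by_cases hx : x ∈ pvMerge ⁻¹' pvxU 𝔓 m (l9Pt (pvlmH m) p) t ∩ pvMerge ⁻¹' Gd m ε (l9Pt (pvlmH m) p) t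
  · have hx' : x ∈ pvMerge ⁻¹' pvxU 𝔓 m (l9Pt (pvlmH m) p) t ∩ pvMerge ⁻¹' (pvConf ⁻¹' D.Gd m ε (l9Pt (pvlmH m) p) t) := ⟨hx.1, h1 hx⟩
    rw [indicator_of_mem hx, indicator_of_mem hx', h2 (pvMerge x) hx]
  · rw [indicator_of_notMem hx]; exact zero_le

/-- **THE LAST STEP OF `exit_pvie_thick`**: the leaves of 7 at the levels `m0 ≤ m`, a good part inside `D.Gd`, `𝔇.ke = D.ke` on the good usable samples (ENL)  ⟹  `PvnaThick` -/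
theorem pvkt_thick_glue {D : PvekDat τ} {𝔓 : PvxPar τ c} {𝔇 : PvnaDat τ} {𝔊 : PvnaGd τ} {q q' : ℝ≥0∞} {L : ℝ} (q0 : q ≠ 0) (q'0 : q' ≠ 0) (q't : q' ≠ ∞) {m0 : ℕ}
    (mM : ∀ m, m0 ≤ m → ∀ z t, MeasurableSet (D.M m z t)) (sub : ∀ m, m0 ≤ m → ∀ z t, D.M m z t ⊆ Metric.closedBall z (L * pvlmH m))
    (ev : ∀ m, m0 ≤ m → ∀ (p : ℤ × ℤ) (t : τ), ∀ᶠ ε in 𝓝[>] (0 : ℝ), D.At 𝔓 pvqWQ q q' m ε (l9Pt (pvlmH m) p) t)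
    (hG : ∀ m, m0 ≤ m → ∀ (p : ℤ × ℤ) (t : τ), ∀ᶠ ε in 𝓝[>] (0 : ℝ), pvxU 𝔓 m (l9Pt (pvlmH m) p) t ∩ 𝔊.all m ε (l9Pt (pvlmH m) p) t ⊆ pvConf ⁻¹' D.Gd m ε (l9Pt (pvlmH m) p) t)
    (hke : ∀ m, m0 ≤ m → ∀ (p : ℤ × ℤ) (t : τ), ∀ᶠ ε in 𝓝[>] (0 : ℝ), ∀ ω ∈ pvxU 𝔓 m (l9Pt (pvlmH m) p) t ∩ 𝔊.all m ε (l9Pt (pvlmH m) p) t,
      𝔇.ke m ε (l9Pt (pvlmH m) p) t ω = D.ke m ε (l9Pt (pvlmH m) p) t ω) :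
    PvnaThick 𝔓 𝔇 𝔊 m0 (pvktCe q q' pvbeCB L) :=
  pvkt_thick_glue_W pvbe_in_Q' pvbe_CB_ne_top q0 q'0 q't mM sub ev hG hke

end glue

end Claimed.Agent.R289
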