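-- KEEP
import Claimed.Agent.R289.Exit.ThickL
import Claimed.Agent.R289.Tr.InstEKG

/-!
# Row 289 (S0537), THE WALL, ROAD E, file Exit/ThickLG : THE WINDOWS OF THE TWO THICK LINKS MISS THE ATOM OF THE OTHER ONE, AT THE DATUM `pvjtDat`      (helper192; prefix `pvjq_`)

v2 = PORT TO `Tr/InstL` v2.2.1 (THE FROZEN TEXT).      The geometry itself is `Tr/InstEKG` of 99 (twins: `Exit/ThickLW` of 265, `Tr/CycDI` of 180, `Tr/ThickEnl` of 269): the twin lemmas of v1 are GONE, here only the lines AT THE CONTRACT `PvjtWf` of 223 and at the base data `pvjtBeta .. = some i`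
(hypotheses `d1 d2` of `pvks_Ke_enl`, `pvks_Ke_ins` of 99; window hypotheses of `Exit/ThickGd` of 7).
* `pvjq_disj` : the five atoms, unpacked and placed
* **`pvjq_We_fK`, `pvjq_We_fM`, `pvjq_We_Yf`** : the window `pvilWne` of `e` misses the tile, the mouth, the recoloured sites of the return      [no extra number: the window is cut by the own-level box]
* **`pvjq_Wf_eM`, `pvjq_Wf_Ye`** : the window `pvjtWnf` of the return misses the mouth, the recoloured sites of `e`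
* **`pvjq_Wf_eK`** : it misses the tile of `e`.      `pvjtWnf` (`Defs/GdThick`) carries the UNCUT `Fat Z`, so ONE NUMBER is asked which `PvjtWf` does not have: `hb : (𝔓.ty t).b ≤ 2 b2 + k ρ'` (the frozen core disc lies in the own-level box: form of `pvks_Fo_box` of 99)
* `pvjq_Y_C` : the recoloured sites are off the resampled region
-/

set_option autoImplicit false

namespace Claimed.Agent.R289

open Set MeasureTheory Claims.C0465
open scoped ENNReal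

section model

variable {τ : Type} {c : ℝ} {𝔓 : PvxPar τ c} {𝔈 : PvieEng τ} {𝔯 : PvjtRet τ} {L : ℝ} {b0 : ℝ≥0∞} {m : ℕ} {z : ℂ} {t : τ}

/-- the five atoms, unpacked -/
theorem pvjq_disj (H : PvjtWf 𝔓 𝔈 𝔯 L b0) (hl : pvjtLv 𝔓 m t) (z : ℂ) :
    Disjoint (pvieSh z (𝔈.eM m t)) (pvieSh z (𝔈.eK m t)) ∧ Disjoint (pvieSh z (𝔈.eM m t)) (pvieSh z (𝔯.fM m t)) ∧ Disjoint (pvieSh z (𝔈.eM m t)) (pvieSh z (𝔯.fK m t)) ∧
    Disjoint (pvieSh z (𝔈.eM m t)) (pvieSh (pvieZu 𝔓 m z t) (𝔈.rO m)) ∧ Disjoint (pvieSh z (𝔈.eK m t)) (pvieSh z (𝔯.fM m t)) ∧ Disjoint (pvieSh z (𝔈.eK m t)) (pvieSh z (𝔯.fK m t)) ∧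
    Disjoint (pvieSh z (𝔈.eK m t)) (pvieSh (pvieZu 𝔓 m z t) (𝔈.rO m)) ∧ Disjoint (pvieSh z (𝔯.fM m t)) (pvieSh z (𝔯.fK m t)) ∧ Disjoint (pvieSh z (𝔯.fM m t)) (pvieSh (pvieZu 𝔓 m z t) (𝔈.rO m)) ∧
    Disjoint (pvieSh z (𝔯.fK m t)) (pvieSh (pvieZu 𝔓 m z t) (𝔈.rO m)) := by
  have h := H.disj m t hl
  simp only [List.pairwise_cons, List.mem_cons, List.not_mem_nil, or_false, forall_eq_or_imp, forall_eq, IsEmpty.forall_iff, implies_true, List.Pairwise.nil, and_true] at h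
  obtain ⟨⟨a1, a2, a3, a4⟩, ⟨a5, a6, a7⟩, ⟨a8, a9⟩, a10⟩ := h
  rw [pvjh_ro_sh]
  simp only [pvjh_sh_disj]
  exact ⟨a1, a2, a3, a4, a5, a6, a7, a8, a9, a10⟩

/-- a square with a smaller half side -/
theorem pvjq_sq_mono {z : ℂ} {r R : ℝ} (h : r ≤ R) : pvwSq z r ⊆ pvwSq z R := fun _ hw => ⟨hw.1.trans h, hw.2.trans h⟩

/-- off the collar `3 δ` ⟹ off the box of record (collar `δ`) -/
theorem pvjq_off_box (hδ : 0 ≤ pvlmDel c m) {K : Set ℂ} (hK : Disjoint K (pvwSq 0 (pviwRad 𝔓 m t + 3 * pvlmDel c m))) : Disjoint K (pviwBox 𝔓 m t) :=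
  hK.mono_right (pvjq_sq_mono (by linarith))

/-- the number of the mouths: `ρ h / 2 + 3 δ < 3 ρ h / 4`      (PvjtWf v3 of 223: mouths of radius `ρ h / 2`) -/
theorem pvjq_num (H : PvjtWf 𝔓 𝔈 𝔯 L b0) (hm : 𝔓.m0 ≤ m) : 𝔓.num.rho * pvlmH m / 2 + 3 * pvlmDel c m < 3 * (𝔓.num.rho * pvlmH m) / 4 := by
  obtain ⟨h1, h2⟩ := H.del_le m hm
  linarith

theorem pvjq_rho (H : PvjtWf 𝔓 𝔈 𝔯 L b0) (hm : 𝔓.m0 ≤ m) : 0 ≤ 𝔓.num.rho := by
  obtain ⟨h1, h2⟩ := H.del_le m hm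
  have h3 : 0 < 𝔓.num.rho * pvlmH m := by linarith
  by_contra hn
  push Not at hn
  nlinarith [pvlm_H_pos m]

variable {ω : Conf PvPt} {i : PvjtIx}

/-- **the window of the thick link `e` misses the tile of the return**, ANY hull -/
theorem pvjq_We_fK (H : PvjtWf 𝔓 𝔈 𝔯 L b0) (hl : pvjtLv 𝔓 m t) (z : ℂ) (Z : Set (ℤ × ℤ)) : Disjoint (pvilWne 𝔓 𝔈 m z t Z) (pvieSh z (𝔯.fK m t)) := by
  have h := H.disj m t hl
  simp only [List.pairwise_cons, List.mem_cons, List.not_mem_nil, or_false, forall_eq_or_imp, forall_eq, IsEmpty.forall_iff, implies_true, List.Pairwise.nil, and_true] at h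
  obtain ⟨⟨-, -, a3, -⟩, ⟨-, a6, -⟩, -, a10⟩ := h
  exact pvks_Wne_tile (H.fK_off m t hl) a3 a6 a10.symm z Z

/-- **the window of the thick link `e` misses the exit mouth** -/
theorem pvjq_We_fM (H : PvjtWf 𝔓 𝔈 𝔯 L b0) (hi : pvjtBeta 𝔓 m z t ω = some i) : Disjoint (pvilWne 𝔓 𝔈 m z t i.1.1) (pvieSh z (𝔯.fM m t)) := by
  obtain ⟨hl, hU, rfl⟩ := pvjt_beta_inv hi
  have h := H.disj m t hl
  simp only [List.pairwise_cons, List.mem_cons, List.not_mem_nil, or_false, forall_eq_or_imp, forall_eq, IsEmpty.forall_iff, implies_true, List.Pairwise.nil, and_true] at h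
  obtain ⟨⟨-, a2, -, -⟩, ⟨a5, -, -⟩, ⟨-, a9⟩, -⟩ := h
  exact pvks_Wne_mouth (H.del_le m hl.1).1.le (pvjq_rho H hl.1) hl.2.2.2 hU (pvjq_num H hl.1) (H.fM_cen m t hl) a2 a5 a9.symm

theorem pvjq_We_Yf (H : PvjtWf 𝔓 𝔈 𝔯 L b0) (hi : pvjtBeta 𝔓 m z t ω = some i) : Disjoint (pvilWne 𝔓 𝔈 m z t i.1.1) (pvjtYf 𝔯 m z t i) :=
  (pvjq_We_fM H hi).mono_right sdiff_subset

/-- **the window of the thick return misses the entrance mouth** -/
theorem pvjq_Wf_eM (H : PvjtWf 𝔓 𝔈 𝔯 L b0) (hi : pvjtBeta 𝔓 m z t ω = some i) : Disjoint (pvjtWnf 𝔓 𝔈 𝔯 m z t i.2.1) (pvieSh z (𝔈.eM m t)) := by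
  obtain ⟨hl, hU, rfl⟩ := pvjt_beta_inv hi
  obtain ⟨-, a2, a3, a4, -, -, -, -, -, -⟩ := pvjq_disj H hl z
  unfold pvjtWnf
  exact ((((pvks_fatO_mouth (H.del_le m hl.1).1.le (pvjq_rho H hl.1) hl.2.2.2 hU (pvjq_num H hl.1) (H.eM_cen m t hl)).mono_left inter_subset_left).union_left a2.symm).union_left a3.symm).union_left a4.symm

theorem pvjq_Wf_Ye (H : PvjtWf 𝔓 𝔈 𝔯 L b0) (hi : pvjtBeta 𝔓 m z t ω = some i) : Disjoint (pvjtWnf 𝔓 𝔈 𝔯 m z t i.2.1) (pvjtYe 𝔈 m z t i) :=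
  (pvjq_Wf_eM H hi).mono_right sdiff_subset

/-- the UNCUT fattened hull of `Σ_out` misses a tile which is off the own-level box with the collar `3 δ` and off the ball `closedBall y⁺ (2 ρ h)` -/
theorem pvjq_fatO_tile (hδ : 0 ≤ pvlmDel c m) (h16 : 16 * pvlmDel c m ≤ 𝔓.num.rho * pvlmH m) (hb : (𝔓.ty t).b ≤ 2 * (𝔓.ty t).b2 + (𝔓.ty t).k * 𝔓.num.rho1) {K : Set ℂ}
    (h1 : Disjoint K (pvwSq 0 (pviwRad 𝔓 m t + 3 * pvlmDel c m))) (h2 : Disjoint K (Metric.closedBall ((pvlmH m : ℂ) * (𝔓.ty t).yp) (2 * 𝔓.num.rho * pvlmH m))) (η : Conf PvPt) :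
    Disjoint (pvilFat (pvlmDel c m) (pvilZo 𝔓 m z t η)) (pvieSh z K) := by
  rw [Set.disjoint_left]
  rintro _ hw ⟨x, hx, rfl⟩
  obtain ⟨v, hv, k1, k2⟩ := pvjh_fat_near hδ (pvks_fat_mono _ (pvks_Zo_sub 𝔓 m z t η) hw)
  rcases hv with hv | hv
  · obtain ⟨k3, k4⟩ := pvks_Fo_box hb hv
    refine Set.disjoint_left.1 h1 hx ⟨?_, ?_⟩
    · have e : (x - 0).re = (z + x - v).re + (v - z).re := by simp
      rw [e]
      exact (abs_add_le _ _).trans (by linarith)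
    · have e : (x - 0).im = (z + x - v).im + (v - z).im := by simp
      rw [e]
      exact (abs_add_le _ _).trans (by linarith)
  · refine Set.disjoint_left.1 h2 hx ?_
    rw [mem_closedBall_iff_norm] at hv ⊢
    have e : x - (pvlmH m : ℂ) * (𝔓.ty t).yp = (z + x - v) + (v - (z + (pvlmH m : ℂ) * (𝔓.ty t).yp)) := by ring
    have k5 : ‖z + x - v‖ ≤ 4 * pvlmDel c m := (Complex.norm_le_abs_re_add_abs_im _).trans (by linarith)
    rw [e]
    exact (norm_add_le _ _).trans (by linarith)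

/-- **the window of the thick return misses the tile of `e`**, ANY configuration -/
theorem pvjq_Wf_eK (H : PvjtWf 𝔓 𝔈 𝔯 L b0) (hb : (𝔓.ty t).b ≤ 2 * (𝔓.ty t).b2 + (𝔓.ty t).k * 𝔓.num.rho1) (hl : pvjtLv 𝔓 m t) (z : ℂ) (η : Conf PvPt) :
    Disjoint (pvjtWnf 𝔓 𝔈 𝔯 m z t (pvilZo 𝔓 m z t η)) (pvieSh z (𝔈.eK m t)) := by
  obtain ⟨-, -, -, -, a5, a6, a7, -, -, -⟩ := pvjq_disj H hl z
  unfold pvjtWnf
  exact (((pvks_Wz_tile (H.eK_off m t hl) z _).union_left a5.symm).union_left a6.symm).union_left a7.symm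

/-- the recoloured sites are off the resampled region -/
theorem pvjq_Y_C (H : PvjtWf 𝔓 𝔈 𝔯 L b0) (hl : pvjtLv 𝔓 m t) (z : ℂ) (i : PvjtIx) : Disjoint (pvjtY 𝔈 𝔯 m z t (some i)) (pvjtC 𝔓 𝔈 𝔯 m z t) := by
  obtain ⟨a1, -, a3, a4, a5, -, -, a8, a9, -⟩ := pvjq_disj H hl z
  show Disjoint (pvjtYe 𝔈 m z t i ∪ pvjtYf 𝔯 m z t i) _
  unfold pvjtC pvjtYe pvjtYf
  exact Disjoint.union_left (((a1.mono_left sdiff_subset).union_right (a4.mono_left sdiff_subset)).union_right (a3.mono_left sdiff_subset))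
    (((a5.symm.mono_left sdiff_subset).union_right (a9.mono_left sdiff_subset)).union_right (a8.mono_left sdiff_subset))

end model

end Claimed.Agent.R289
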