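-- KEEP
import Claimed.Agent.R289.Exit.ThickLI
import Claimed.Agent.R289.Exit.ThickS
import Claimed.Agent.R289.Exit.AnaDefs
import Claimed.Agent.R289.Exit.Par

/-!
# Row 289 (S0537, Cardy for Poisson-Voronoi), THE WALL, ROAD E, field `thick`, file Exit/ThickLJ : THE LEAF [R] `exit_pvww_recog` OF `Exit/AnaW` FROM THE COLLAR LINES (Rc) OF THE TWO ROOMS      (helper290; prefix `pvuy`, `Pvuy`: third file of the prefix)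

`Exit/ThickLI` (290): `PvjtRecog` (weights `Q`, `V`) from the record `PvuyRg` of region lines at the centre `0`.      `Exit/ThickS` (55): the set lines `PvuyS` AT THE ENGINE OF RECORD (`pvmd_S_rec`).      HERE: the other fields of `PvuyRg` from the contract of record `PvieEng.Wf` (168) and from
      **(Rc) of R22 / R23 (1') of 234**, relative form of 22 (`pvly_room_e`) and 74 (`pvll_col_e f`):   `∀ v ∈ eY, closedBall v (3 pvilMu) ⊆ eM ∪ eK ∪ pviwRo`,   `∀ v ∈ fY, closedBall v (3 pvilMu) ⊆ fM ∪ fK ∪ pviwRo`.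
* sec. 1  the plug of record in its window: `pvuy_plug_core` (`Tb Zp Zm` lie in the `ρ`-core of the placed window `pvwSq 0 (3 r)`, `ρ ≤ r`), `pvuy_sh0`, `pvuy_We0`, `pvuy_Wf0`
* sec. 2  **`pvuy_ce_of`**, **`pvuy_cf_of`** : `ce`, `cf` of `PvuyRg` from (Rc) + `rp_win` + `3 pvilMu ≤ r_u`
* sec. 3  **`pvuy_bd_of`** : the vertex mask lies in `closedBall 0 ((2 Cth + 2) h - 2 μ)` (from `e_bdd`, `eY_sub`, `rp_win`, `res_off`: the own-level box is smaller than the distance of `u`)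
* sec. 4  **`pvuy_rg_of`** : `PvuyRg` from `PvieEng.Wf` + `PvuyS` at the centre `0` + (Rc) + numbers, any parameters;   `pvuyMu` = the distance tag / vertex of record, `4 pvilMu / 3`
* sec. 5  AT THE PARAMETERS OF RECORD, ANY ENGINE: `pvuy_rg_rec`, **`pvuy_recog_rec`** = the conclusion of `exit_pvww_recog` (`Exit/AnaW`) VERBATIM from [W] (`exit_pvww_jtwf`) + SIX LINES: (Rc) for `eY`, (Rc) for `fY`, and `hrp hrO heY hfY` = the hypotheses of `pvmd_S_rec` of 55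
          (`r_u = Δ / 16`, open square `13 Δ / 64 ⊆ rO`, `eY ⊆ pveheY ∪ pvegIK`, `fY ⊆ pveffY`)
-/

set_option autoImplicit false
set_option linter.unusedSectionVars false
set_option linter.unusedVariables false

namespace Claimed.Agent.R289

open Set Metric MeasureTheory Filter Topology Claims.C0465
open scoped ENNReal

/-! ## 1. the plug of record in its window -/

theorem pvuy_sh0 (S : Set ℂ) : pvieSh 0 S = S := by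
  ext x
  rw [pvuy_sh_mem, sub_zero]

/-- a point of the placed square `2 r` has its `ρ`-ball in the placed window `3 r` -/
theorem pvuy_plug_core {u v : ℂ} {r ρ : ℝ} (hρ : ρ ≤ r) (hv : v - u ∈ pvwSq 0 (2 * r)) : closedBall v ρ ⊆ pvieSh u (pvwSq 0 (3 * r)) := by
  intro y hy
  rw [pvuy_sh_mem]
  rw [mem_closedBall, dist_eq_norm] at hy
  obtain ⟨h1, h2⟩ := hv
  rw [sub_zero] at h1 h2
  have e : y - u - 0 = (y - v) + (v - u) := by ring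
  have h3 := (Complex.abs_re_le_norm (y - v)).trans hy
  have h4 := (Complex.abs_im_le_norm (y - v)).trans hy
  refine ⟨?_, ?_⟩
  · rw [e, Complex.add_re]
    exact (abs_add_le _ _).trans (by linarith)
  · rw [e, Complex.add_im]
    exact (abs_add_le _ _).trans (by linarith)

theorem pvuy_Tb_sq {r : ℝ} (hr : 0 ≤ r) : (pvkdP r).Tb ⊆ pvwSq 0 (2 * r) := by
  rintro w ⟨h1, h2, h3, h4⟩
  refine ⟨?_, ?_⟩ <;> rw [sub_zero, abs_le] <;> constructor <;> linarith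

theorem pvuy_Zp_sq {r : ℝ} (hr : 0 ≤ r) : (pvkdP r).Zp ⊆ pvwSq 0 (2 * r) := by
  rintro w ⟨h1, h2, h3, h4⟩
  refine ⟨?_, ?_⟩ <;> rw [sub_zero, abs_le] <;> constructor <;> linarith

theorem pvuy_Zm_sq {r : ℝ} (hr : 0 ≤ r) : (pvkdP r).Zm ⊆ pvwSq 0 (2 * r) := by
  rintro w ⟨h1, h2, h3, h4⟩
  refine ⟨?_, ?_⟩ <;> rw [sub_zero, abs_le] <;> constructor <;> linarith

section gen

variable {τ : Type} {c : ℝ} {𝔓 : PvxPar τ c} {𝔈 : PvieEng τ} {𝔯 : PvjtRet τ} {m0 m : ℕ} {t : τ} {Cth : ℝ} {r κs : ℕ → ℝ}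

theorem pvuy_Zu0 (𝔓 : PvxPar τ c) (m : ℕ) (t : τ) : pvieZu 𝔓 m 0 t = (𝔓.Γ m).zu t := zero_add _

theorem pvuy_We0 (𝔓 : PvxPar τ c) (𝔈 : PvieEng τ) (m : ℕ) (t : τ) : pvuyWe 𝔓 𝔈 m 0 t = 𝔈.eM m t ∪ 𝔈.eK m t ∪ pviwRo 𝔓 𝔈 m t := by
  unfold pvuyWe pviwRo
  rw [pvuy_sh0, pvuy_sh0, pvuy_Zu0]

theorem pvuy_Wf0 (𝔓 : PvxPar τ c) (𝔈 : PvieEng τ) (𝔯 : PvjtRet τ) (m : ℕ) (t : τ) : pvuyWf 𝔓 𝔈 𝔯 m t 0 = 𝔯.fM m t ∪ 𝔯.fK m t ∪ pviwRo 𝔓 𝔈 m t := by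
  unfold pvuyWf pviwRo
  rw [pvuy_sh0, pvuy_sh0, pvuy_Zu0]

/-- the three rooms of the reference plug, centre `0` of the pin: membership -/
theorem pvuy_Tb0 {v : ℂ} (hv : v ∈ pvuyTb (pvilLe 𝔓 𝔈 m 0 t)) : v - (𝔓.Γ m).zu t ∈ (pvkdP (𝔈.rp m).h).Tb := by
  have h : v ∈ pvkdAt (pvieZu 𝔓 m 0 t) 1 (pvkdP (𝔈.rp m).h).Tb := hv
  rwa [pvuy_at_mem, pvuy_Zu0] at h

theorem pvuy_Zp0 {v : ℂ} (hv : v ∈ pvuyZp (pvilLe 𝔓 𝔈 m 0 t)) : v - (𝔓.Γ m).zu t ∈ (pvkdP (𝔈.rp m).h).Zp := by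
  have h : v ∈ pvkdAt (pvieZu 𝔓 m 0 t) 1 (pvkdP (𝔈.rp m).h).Zp := hv
  rwa [pvuy_at_mem, pvuy_Zu0] at h

theorem pvuy_Zm0 {v : ℂ} (hv : v ∈ pvuyZm (pvilLe 𝔓 𝔈 m 0 t)) : v - (𝔓.Γ m).zu t ∈ (pvkdP (𝔈.rp m).h).Zm := by
  have h : v ∈ pvkdAt (pvieZu 𝔓 m 0 t) 1 (pvkdP (𝔈.rp m).h).Zm := hv
  rwa [pvuy_at_mem, pvuy_Zu0] at h

/-- the placed window of the reference plug lies in its region -/
theorem pvuy_win_Ro (win : pvwSq 0 (3 * (𝔈.rp m).h) ⊆ 𝔈.rO m) (t : τ) : pvieSh ((𝔓.Γ m).zu t) (pvwSq 0 (3 * (𝔈.rp m).h)) ⊆ pviwRo 𝔓 𝔈 m t := Set.image_mono win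

/-! ## 2. the rooms in the cores -/

/-- **`ce` FROM (Rc)** -/
theorem pvuy_ce_of {ρ : ℝ} (hr : 0 ≤ (𝔈.rp m).h) (win : pvwSq 0 (3 * (𝔈.rp m).h) ⊆ 𝔈.rO m) (hu : ρ ≤ (𝔈.rp m).h)
    (rc : ∀ v ∈ 𝔈.eY m t, closedBall v ρ ⊆ 𝔈.eM m t ∪ 𝔈.eK m t ∪ pviwRo 𝔓 𝔈 m t) :
    pvuyTb (pvilLe 𝔓 𝔈 m 0 t) ∪ (pvuyZp (pvilLe 𝔓 𝔈 m 0 t) ∪ pvieSh 0 (𝔈.eY m t)) ⊆ pvtrCore ρ (pvuyWe 𝔓 𝔈 m 0 t) := by
  rw [pvuy_We0, pvuy_sh0]
  rintro v (hv | hv | hv)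
  · exact ((pvuy_plug_core hu (pvuy_Tb_sq hr (pvuy_Tb0 hv))).trans (pvuy_win_Ro win t)).trans subset_union_right
  · exact ((pvuy_plug_core hu (pvuy_Zp_sq hr (pvuy_Zp0 hv))).trans (pvuy_win_Ro win t)).trans subset_union_right
  · exact rc v hv

/-- **`cf` FROM (Rc)** -/
theorem pvuy_cf_of {ρ : ℝ} (hr : 0 ≤ (𝔈.rp m).h) (win : pvwSq 0 (3 * (𝔈.rp m).h) ⊆ 𝔈.rO m) (hu : ρ ≤ (𝔈.rp m).h)
    (rc : ∀ v ∈ 𝔯.fY m t, closedBall v ρ ⊆ 𝔯.fM m t ∪ 𝔯.fK m t ∪ pviwRo 𝔓 𝔈 m t) :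
    pvieSh 0 (𝔯.fY m t) ∪ pvuyZm (pvilLe 𝔓 𝔈 m 0 t) ⊆ pvtrCore ρ (pvuyWf 𝔓 𝔈 𝔯 m t 0) := by
  rw [pvuy_Wf0, pvuy_sh0]
  rintro v (hv | hv)
  · exact rc v hv
  · exact ((pvuy_plug_core hu (pvuy_Zm_sq hr (pvuy_Zm0 hv))).trans (pvuy_win_Ro win t)).trans subset_union_right

/-! ## 3. the mask is bounded -/

/-- a point of the placed square `2 r_u` lies in the region of the reference plug -/
theorem pvuy_sq_Ro (hr : 0 ≤ (𝔈.rp m).h) (win : pvwSq 0 (3 * (𝔈.rp m).h) ⊆ 𝔈.rO m) {v : ℂ} (hv : v - (𝔓.Γ m).zu t ∈ pvwSq 0 (2 * (𝔈.rp m).h)) : v ∈ pviwRo 𝔓 𝔈 m t :=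
  pvuy_win_Ro win t (pvuy_plug_core hr hv (mem_closedBall_self le_rfl))

/-- the own-level box is smaller than the thick link -/
theorem pvuy_rad_le (W : PvieEng.Wf 𝔓 𝔈 m0 Cth r κs) (hm : m0 ≤ m) (hT : pviwTyOk 𝔓 t) (hδ : 0 ≤ pvlmDel c m) : pviwRad 𝔓 m t ≤ Cth * pvlmH m := by
  have hr := (W.rp_h m hm).le
  have hz : (𝔓.Γ m).zu t ∈ pviwRo 𝔓 𝔈 m t := pvuy_sq_Ro hr (W.rp_win m hm) (by
    rw [sub_self]
    refine ⟨?_, ?_⟩ <;> simp <;> linarith)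
  have h1 : (𝔓.Γ m).zu t ∈ closedBall (0 : ℂ) (Cth * pvlmH m) := W.e_bdd m hm t hT (Or.inr hz)
  have h2 : (𝔓.Γ m).zu t ∉ pviwBox 𝔓 m t := fun h => Set.disjoint_left.1 (W.res_off m hm 1 t hT (pviwRo 𝔓 𝔈 m t) (by simp [pviwRes])) hz h
  rw [mem_closedBall, dist_zero_right] at h1
  by_contra hc
  rw [not_le] at hc
  refine h2 ⟨?_, ?_⟩
  · rw [sub_zero]
    exact (Complex.abs_re_le_norm _).trans (by linarith)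
  · rw [sub_zero]
    exact (Complex.abs_im_le_norm _).trans (by linarith)

theorem pvuy_sq_norm {v : ℂ} {R : ℝ} (h : v ∈ pvwSq 0 R) : ‖v‖ ≤ 2 * R := by
  obtain ⟨h1, h2⟩ := h
  rw [sub_zero] at h1 h2
  have := Complex.norm_le_abs_re_add_abs_im v
  linarith

/-- **THE VERTEX MASK OF THE THICK LINK IS BOUNDED**, in units of `h` -/
theorem pvuy_bd_of (W : PvieEng.Wf 𝔓 𝔈 m0 Cth r κs) (hm : m0 ≤ m) (hT : pviwTyOk 𝔓 t) (hδ : 0 ≤ pvlmDel c m) {μ r1 : ℝ} (hμ : μ ≤ pvlmH m) :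
    ∀ a ∈ pvuyA (pvilLe 𝔓 𝔈 m 0 t) (pvuyMm 𝔓 m 0 t r1), ‖a‖ + 2 * μ ≤ (2 * Cth + 2) * pvlmH m := by
  have hr := (W.rp_h m hm).le
  have hh := pvlm_H_pos m
  have hR := pvuy_rad_le W hm hT hδ
  have hb : ∀ a ∈ 𝔈.eM m t ∪ 𝔈.eK m t ∪ pviwRo 𝔓 𝔈 m t, ‖a‖ ≤ Cth * pvlmH m := fun a ha => by
    have := W.e_bdd m hm t hT ha
    rwa [mem_closedBall, dist_zero_right] at this
  have hC : 0 ≤ Cth * pvlmH m := by
    have hz : (𝔓.Γ m).zu t ∈ pviwRo 𝔓 𝔈 m t := pvuy_sq_Ro hr (W.rp_win m hm) (by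
      rw [sub_self]
      refine ⟨?_, ?_⟩ <;> simp <;> linarith)
    exact (norm_nonneg _).trans (hb _ (Or.inr hz))
  rintro a (ha | (ha | ha) | ha)
  · have := hb a (Or.inr (pvuy_sq_Ro hr (W.rp_win m hm) (pvuy_Tb_sq hr (pvuy_Tb0 ha))))
    nlinarith
  · have := hb a (Or.inr (pvuy_sq_Ro hr (W.rp_win m hm) (pvuy_Zp_sq hr (pvuy_Zp0 ha))))
    nlinarith
  · have ha' : a ∈ pvieSh 0 (𝔈.eY m t) := ha
    rw [pvuy_sh0] at ha'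
    have := hb a (W.eY_sub m hm t hT ha')
    nlinarith
  · have := pvuy_sq_norm ha.1.2
    nlinarith

/-! ## 4. the region lines from the contract of record -/

/-- the distance tag / vertex of record -/
noncomputable def pvuyMu (𝔓 : PvxPar τ c) (m : ℕ) : ℝ := 4 * pvilMu 𝔓 m / 3

theorem pvuy_eqns_cite6 : True := by
  have := @pvuyMu.eq_1
  trivial

/-- **THE REGION LINES OF (K4)** from the contract `PvieEng.Wf`, the set lines at the centre `0`, (Rc) for the two rooms, numbers -/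
theorem pvuy_rg_of (W : PvieEng.Wf 𝔓 𝔈 m0 Cth r κs) (hm : m0 ≤ m) (hT : pviwTyOk 𝔓 t)
    (S : PvuyS (pvilLe 𝔓 𝔈 m 0 t) (pvjtLf 𝔓 𝔈 𝔯 m 0 t) 𝔓.num (pvuyMu 𝔓 m) (pvuyMp 𝔓 m 0 t (pvuyR1 𝔓 m)) (pvuyMm 𝔓 m 0 t (pvuyR1 𝔓 m)))
    (hb : (𝔓.ty t).b * pvlmH m ≤ pviwRad 𝔓 m t) (hδ : 0 < pvlmDel c m) (h3 : 0 < 𝔓.num.rho3) (hu : 3 * pvilMu 𝔓 m ≤ (𝔈.rp m).h)
    (rce : ∀ v ∈ 𝔈.eY m t, closedBall v (3 * pvilMu 𝔓 m) ⊆ 𝔈.eM m t ∪ 𝔈.eK m t ∪ pviwRo 𝔓 𝔈 m t)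
    (rcf : ∀ v ∈ 𝔯.fY m t, closedBall v (3 * pvilMu 𝔓 m) ⊆ 𝔯.fM m t ∪ 𝔯.fK m t ∪ pviwRo 𝔓 𝔈 m t) :
    PvuyRg 𝔓 𝔈 𝔯 (pvuyMu 𝔓) (2 * Cth + 2) m t where
  S := S
  hb := hb
  hδ := hδ
  h3 := h3
  hμ := le_rfl
  ce := pvuy_ce_of (W.rp_h m hm).le (W.rp_win m hm) hu rce
  cf := pvuy_cf_of (W.rp_h m hm).le (W.rp_win m hm) hu rcf
  bd := pvuy_bd_of W hm hT hδ.le S.mu_h

end gen

/-! ## 5. at the parameters of record -/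

section rec

variable {c : ℝ}

/-- **THE REGION LINES AT THE PARAMETERS OF RECORD**, any engine with the contract `PvieEng.Wf` and the lines `hrp hrO heY hfY` of `pvmd_S_rec` (55), (Rc) for the two rooms -/
theorem pvuy_rg_rec (c0 : 0 < c) {N : PvxNums} (hN : N.Ok) {𝔈 : PvieEng (pvxTau N)} {Cth : ℝ} {r κs : ℕ → ℝ} (W : PvieEng.Wf (pvxParOf N hN c) 𝔈 (pvxParOf N hN c).m0 Cth r κs)
    (Mk : ℕ → pvxTau N → Set ℂ) {m : ℕ} (hm : (pvxParOf N hN c).m0 ≤ m) (t : pvxTau N) (hrp : (𝔈.rp m).h = pvehDl (pvxParOf N hN c) m / 16)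
    (hrO : pvccSq 0 (13 * pvehDl (pvxParOf N hN c) m / 64) ⊆ 𝔈.rO m)
    (rce : ∀ v ∈ 𝔈.eY m t, closedBall v (3 * pvilMu (pvxParOf N hN c) m) ⊆ 𝔈.eM m t ∪ 𝔈.eK m t ∪ pviwRo (pvxParOf N hN c) 𝔈 m t)
    (rcf : ∀ v ∈ 𝔈.fY m t, closedBall v (3 * pvilMu (pvxParOf N hN c) m) ⊆ 𝔈.fM m t ∪ 𝔈.fK m t ∪ pviwRo (pvxParOf N hN c) 𝔈 m t)
    (heY : 𝔈.eY m t ⊆ pveheY (pvxParOf N hN c) (pvegIM (pvxParOf N hN c)) m t ∪ pvegIK (pvxParOf N hN c) m t)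
    (hfY : 𝔈.fY m t ⊆ pveffY (pvxParOf N hN c) m t) :
    PvuyRg (pvxParOf N hN c) 𝔈 (pvjtRetE 𝔈 Mk) (pvuyMu (pvxParOf N hN c)) (2 * Cth + 2) m t := by
  have hh := pvlm_H_pos m
  have hδ := pvlm_Del_pos c m
  have h3 : 0 < (pvxParOf N hN c).num.rho3 := hN.msk0
  have hμ0 := pvuy_mu_pos (pvxParOf N hN c) m hδ h3
  have hρ : 0 < N.rho := hN.rho0
  have hu : 3 * pvilMu (pvxParOf N hN c) m ≤ (𝔈.rp m).h := by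
    have := (pvmd_ru (𝔓 := pvxParOf N hN c) (m := m) ((pvea_par hN c0).geo m hm t (pvea_tyOk hN t)).n0 (μ := pvilMu (pvxParOf N hN c) m) (by linarith)).1
    rw [hrp]
    linarith
  refine pvuy_rg_of W hm (pvea_tyOk hN t) ?_ ?_ hδ h3 hu rce rcf
  · refine pvmd_S_rec hN c0 hm 0 t ?_ ?_ ?_ hrp hrO heY ⟨rfl, rfl, rfl, rfl, rfl, rfl, rfl⟩ (Set.image_mono hfY)
    · unfold pvuyMu
      linarith
    · unfold pvuyMu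
      linarith
    · show N.rho * pvlmH m / 2 ≤ 5 * N.rho * pvlmH m / 8
      nlinarith [mul_pos hρ hh]
  · have hk : 0 ≤ (((pvxParOf N hN c).ty t).k : ℝ) * (pvxParOf N hN c).num.rho1 := mul_nonneg (Nat.cast_nonneg _) ((pvea_par hN c0).ndg m hm t (pvea_tyOk hN t)).rho1
    have hb : ((pvxParOf N hN c).ty t).b ≤ 2 * ((pvxParOf N hN c).ty t).b2 := by
      show N.b1 ≤ 2 * N.b2
      linarith [hN.gap, hN.ab2, hN.rho_lt_one, hN.b2_pos, hN.rho0]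
    unfold pviwRad pvwRad
    nlinarith

/-- **[R] (K4) RECOGNITION AT THE PARAMETERS OF RECORD** = the conclusion of `exit_pvww_recog` of `Exit/AnaW.lean` VERBATIM, ANY ENGINE with `PvnaWf`, from [W] and SIX LINES on the reference plug and on the two rooms
(no field of the engine is unfolded: a swap of `eY fY rO` in the engine of record does not touch this file) -/
theorem pvuy_recog_rec (c0 : 0 < c) (N : PvxNums) (hN : N.Ok) (𝔈 : PvieEng (pvxTau N)) (hE : PvnaWf (pvxParOf N hN c) 𝔈)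
    (HW : ∃ b0 : ℝ≥0∞, ∀ (Mk : ℕ → pvxTau N → Set ℂ) (L : ℝ), (∀ m t, MeasurableSet (Mk m t)) → PvjtWf (pvxParOf N hN c) 𝔈 (pvjtRetE 𝔈 Mk) L b0)
    (hrp : ∀ m, (pvxParOf N hN c).m0 ≤ m → (𝔈.rp m).h = pvehDl (pvxParOf N hN c) m / 16)
    (hrO : ∀ m, (pvxParOf N hN c).m0 ≤ m → pvccSq 0 (13 * pvehDl (pvxParOf N hN c) m / 64) ⊆ 𝔈.rO m)
    (rce : ∀ m, (pvxParOf N hN c).m0 ≤ m → ∀ t, ∀ v ∈ 𝔈.eY m t, closedBall v (3 * pvilMu (pvxParOf N hN c) m) ⊆ 𝔈.eM m t ∪ 𝔈.eK m t ∪ pviwRo (pvxParOf N hN c) 𝔈 m t)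
    (rcf : ∀ m, (pvxParOf N hN c).m0 ≤ m → ∀ t, ∀ v ∈ 𝔈.fY m t, closedBall v (3 * pvilMu (pvxParOf N hN c) m) ⊆ 𝔈.fM m t ∪ 𝔈.fK m t ∪ pviwRo (pvxParOf N hN c) 𝔈 m t)
    (heY : ∀ m, (pvxParOf N hN c).m0 ≤ m → ∀ t, 𝔈.eY m t ⊆ pveheY (pvxParOf N hN c) (pvegIM (pvxParOf N hN c)) m t ∪ pvegIK (pvxParOf N hN c) m t)
    (hfY : ∀ m, (pvxParOf N hN c).m0 ≤ m → ∀ t, 𝔈.fY m t ⊆ pveffY (pvxParOf N hN c) m t) :
    ∃ (Mk : ℕ → pvxTau N → Set ℂ) (L : ℝ), (∀ m t, MeasurableSet (Mk m t)) ∧ PvjtRecog (pvxParOf N hN c) 𝔈 (pvjtRetE 𝔈 Mk) pvilQ pvqWQ L ∧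
      PvjtRecog (pvxParOf N hN c) 𝔈 (pvjtRetE 𝔈 Mk) pvilV pvbeWV L := by
  obtain ⟨Cth, r, κs, W⟩ := hE.wf
  obtain ⟨b0, HW⟩ := HW
  have mMk := pvuy_Mk_meas (𝔓 := pvxParOf N hN c) W.m_rO (pvuyMu (pvxParOf N hN c))
  have H := HW _ (2 * Cth + 2) mMk
  have hP := (pvxo_wf N hN c).toWfB
  have R : ∀ m t, pvjtLv (pvxParOf N hN c) m t → PvuyRg (pvxParOf N hN c) 𝔈 (pvjtRetE 𝔈 (pvuyMk (pvxParOf N hN c) 𝔈 (pvuyMu (pvxParOf N hN c)))) (pvuyMu (pvxParOf N hN c)) (2 * Cth + 2) m t :=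
    fun m t hl => pvuy_rg_rec c0 hN W _ hl.1 t (hrp m hl.1) (hrO m hl.1) (rce m hl.1 t) (rcf m hl.1 t) (heY m hl.1 t) (hfY m hl.1 t)
  exact ⟨_, _, mMk, pvuy_recog_Q H hP (pvml_engB W) W.m_fY R, pvuy_recog_V H hP (pvml_engB W) W.m_fY R⟩

/-! ## 6. the same, FREE OF THE NUMERALS OF THE REFERENCE PLUG (v3: survives U4 / L2) -/

/-- **THE REGION LINES AT THE PARAMETERS OF RECORD, GENERAL FORM**: the unit of the reference plug lies in `[Δ / 20, Δ / 12]`, its window is `rp_win` of the contract, the rooms lie in the OUTER rooms `pvmdE`, `pveffY0` of `pvmd_S_rec2` (55, `Exit/ThickS` v5) -/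
theorem pvuy_rg_rec2 (c0 : 0 < c) {N : PvxNums} (hN : N.Ok) {𝔈 : PvieEng (pvxTau N)} {Cth : ℝ} {r κs : ℕ → ℝ} (W : PvieEng.Wf (pvxParOf N hN c) 𝔈 (pvxParOf N hN c).m0 Cth r κs)
    (Mk : ℕ → pvxTau N → Set ℂ) {m : ℕ} (hm : (pvxParOf N hN c).m0 ≤ m) (t : pvxTau N) (hru : pvehDl (pvxParOf N hN c) m / 20 ≤ (𝔈.rp m).h) (hru' : (𝔈.rp m).h ≤ pvehDl (pvxParOf N hN c) m / 12)
    (rce : ∀ v ∈ 𝔈.eY m t, closedBall v (3 * pvilMu (pvxParOf N hN c) m) ⊆ 𝔈.eM m t ∪ 𝔈.eK m t ∪ pviwRo (pvxParOf N hN c) 𝔈 m t)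
    (rcf : ∀ v ∈ 𝔈.fY m t, closedBall v (3 * pvilMu (pvxParOf N hN c) m) ⊆ 𝔈.fM m t ∪ 𝔈.fK m t ∪ pviwRo (pvxParOf N hN c) 𝔈 m t)
    (heY : 𝔈.eY m t ⊆ pvmdE (pvxParOf N hN c) m t) (hfY : 𝔈.fY m t ⊆ pveffY0 (pvxParOf N hN c) m t) :
    PvuyRg (pvxParOf N hN c) 𝔈 (pvjtRetE 𝔈 Mk) (pvuyMu (pvxParOf N hN c)) (2 * Cth + 2) m t := by
  have hh := pvlm_H_pos m
  have hδ := pvlm_Del_pos c m
  have h3 : 0 < (pvxParOf N hN c).num.rho3 := hN.msk0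
  have hμ0 := pvuy_mu_pos (pvxParOf N hN c) m hδ h3
  have hρ : 0 < N.rho := hN.rho0
  have hu : 3 * pvilMu (pvxParOf N hN c) m ≤ (𝔈.rp m).h := by
    have := (pvmd_ru2 (𝔓 := pvxParOf N hN c) (m := m) ((pvea_par hN c0).geo m hm t (pvea_tyOk hN t)).n0 (μ := pvilMu (pvxParOf N hN c) m) (by linarith) hru hru').1
    linarith
  refine pvuy_rg_of W hm (pvea_tyOk hN t) ?_ ?_ hδ h3 hu rce rcf
  · refine pvmd_S_rec2 hN c0 hm 0 t ?_ ?_ ?_ hru hru' (W.rp_win m hm) heY ⟨rfl, rfl, rfl, rfl, rfl, rfl, rfl⟩ (Set.image_mono hfY)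
    · unfold pvuyMu
      linarith
    · unfold pvuyMu
      linarith
    · show N.rho * pvlmH m / 2 ≤ 5 * N.rho * pvlmH m / 8
      nlinarith [mul_pos hρ hh]
  · have hk : 0 ≤ (((pvxParOf N hN c).ty t).k : ℝ) * (pvxParOf N hN c).num.rho1 := mul_nonneg (Nat.cast_nonneg _) ((pvea_par hN c0).ndg m hm t (pvea_tyOk hN t)).rho1
    have hb : ((pvxParOf N hN c).ty t).b ≤ 2 * ((pvxParOf N hN c).ty t).b2 := by
      show N.b1 ≤ 2 * N.b2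
      linarith [hN.gap, hN.ab2, hN.rho_lt_one, hN.b2_pos, hN.rho0]
    unfold pviwRad pvwRad
    nlinarith

/-- **[R] (K4) RECOGNITION AT THE PARAMETERS OF RECORD, GENERAL FORM** = the conclusion of `exit_pvww_recog` of `Exit/AnaW.lean` VERBATIM, ANY ENGINE with `PvnaWf`, from [W] and SIX LINES:
`hru hru'` (unit of the reference plug in `[Δ / 20, Δ / 12]`: two `linarith` at `Δ / 16` AND at `Δ / 20`), (Rc) for `eY`, (Rc) for `fY`, `eY ⊆ pvmdE` (old room ∪ room of 166: any core of either), `fY ⊆ pveffY0` (`pvef_fY_sub0`) -/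
theorem pvuy_recog_rec2 (c0 : 0 < c) (N : PvxNums) (hN : N.Ok) (𝔈 : PvieEng (pvxTau N)) (hE : PvnaWf (pvxParOf N hN c) 𝔈)
    (HW : ∃ b0 : ℝ≥0∞, ∀ (Mk : ℕ → pvxTau N → Set ℂ) (L : ℝ), (∀ m t, MeasurableSet (Mk m t)) → PvjtWf (pvxParOf N hN c) 𝔈 (pvjtRetE 𝔈 Mk) L b0)
    (hru : ∀ m, (pvxParOf N hN c).m0 ≤ m → pvehDl (pvxParOf N hN c) m / 20 ≤ (𝔈.rp m).h)
    (hru' : ∀ m, (pvxParOf N hN c).m0 ≤ m → (𝔈.rp m).h ≤ pvehDl (pvxParOf N hN c) m / 12)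
    (rce : ∀ m, (pvxParOf N hN c).m0 ≤ m → ∀ t, ∀ v ∈ 𝔈.eY m t, closedBall v (3 * pvilMu (pvxParOf N hN c) m) ⊆ 𝔈.eM m t ∪ 𝔈.eK m t ∪ pviwRo (pvxParOf N hN c) 𝔈 m t)
    (rcf : ∀ m, (pvxParOf N hN c).m0 ≤ m → ∀ t, ∀ v ∈ 𝔈.fY m t, closedBall v (3 * pvilMu (pvxParOf N hN c) m) ⊆ 𝔈.fM m t ∪ 𝔈.fK m t ∪ pviwRo (pvxParOf N hN c) 𝔈 m t)
    (heY : ∀ m, (pvxParOf N hN c).m0 ≤ m → ∀ t, 𝔈.eY m t ⊆ pvmdE (pvxParOf N hN c) m t)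
    (hfY : ∀ m, (pvxParOf N hN c).m0 ≤ m → ∀ t, 𝔈.fY m t ⊆ pveffY0 (pvxParOf N hN c) m t) :
    ∃ (Mk : ℕ → pvxTau N → Set ℂ) (L : ℝ), (∀ m t, MeasurableSet (Mk m t)) ∧ PvjtRecog (pvxParOf N hN c) 𝔈 (pvjtRetE 𝔈 Mk) pvilQ pvqWQ L ∧
      PvjtRecog (pvxParOf N hN c) 𝔈 (pvjtRetE 𝔈 Mk) pvilV pvbeWV L := by
  obtain ⟨Cth, r, κs, W⟩ := hE.wf
  obtain ⟨b0, HW⟩ := HW
  have mMk := pvuy_Mk_meas (𝔓 := pvxParOf N hN c) W.m_rO (pvuyMu (pvxParOf N hN c))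
  have H := HW _ (2 * Cth + 2) mMk
  have hP := (pvxo_wf N hN c).toWfB
  have R : ∀ m t, pvjtLv (pvxParOf N hN c) m t → PvuyRg (pvxParOf N hN c) 𝔈 (pvjtRetE 𝔈 (pvuyMk (pvxParOf N hN c) 𝔈 (pvuyMu (pvxParOf N hN c)))) (pvuyMu (pvxParOf N hN c)) (2 * Cth + 2) m t :=
    fun m t hl => pvuy_rg_rec2 c0 hN W _ hl.1 t (hru m hl.1) (hru' m hl.1) (rce m hl.1 t) (rcf m hl.1 t) (heY m hl.1 t) (hfY m hl.1 t)
  exact ⟨_, _, mMk, pvuy_recog_Q H hP (pvml_engB W) W.m_fY R, pvuy_recog_V H hP (pvml_engB W) W.m_fY R⟩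

end rec

end Claimed.Agent.R289
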