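-- KEEP
import Claimed.Agent.R289.Exit.ThickL
import Claimed.Agent.R289.Tr.InstEKL
import Claimed.Agent.R289.Tr.InstEKG
import Claimed.Agent.R289.Tr.HookE

/-!
# Row 289 (S0537), THE WALL, ROAD E, file Exit/ThickLK3 : LEAF (K3) `ins` OF `thick` AT THE DATUM `pvjtDat`      (helper99; prefix `pvks_`)

**`pvks_jt_ins`** = the field `PvekDat.At.ins` (UPPER FORM of 87) at `pvjtDat`, one good base: NO measurability of `pvjtA pvjtA' pvjtX`, EVERY mesh `ε`.      Everything PROVED (0 sorry).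
Used of the contract `PvjtWf`: `disj`, `fK_off`, `fM_cen`, `del_le`, `rG_reads`, `m_eK m_rO m_fK`.      The proof does not see the numbers: any collar `≥ δ` in `fK_off`, any radius `r` with `r + 3 δ < 3 ρ h / 4` in `fM_cen`.
* sec. 1  `pvks_fn_ae'` (a.e. seed has one colour per site, EVERY `ε`), `pvks_ins_upQ'`
* sec. 2  the two window lines at the datum `pvks_jt_We_fK`, `pvks_jt_We_Yf`;   readers `pvks_jt_A_reads`, `pvks_jt_X_reads`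
* sec. 3  **`pvks_jt_ins`**
-/

set_option autoImplicit false

namespace Claimed.Agent.R289

open Set MeasureTheory Filter Topology Claims.C0465
open scoped ENNReal

/-! ## 1. every mesh -/

theorem pvks_fn_of_simple {η : Conf PvPt} (h : PvheSimple η) : cfOf (cfSites η) (cfCol η) = η := by
  classical
  ext ⟨z, b⟩
  rw [cfOf_mem]
  constructor
  · rintro ⟨⟨⟨z', b'⟩, hp, rfl⟩, hb⟩
    unfold cfCol at hb
    by_cases ht : ((z', true) : PvPt) ∈ η.pts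
    · rw [decide_eq_true ht] at hb
      rw [hb]; exact ht
    · rw [decide_eq_false ht] at hb
      cases b'
      · rw [hb]; exact hp
      · exact absurd hp ht
  · intro hp
    refine ⟨⟨(z, b), hp, rfl⟩, ?_⟩
    unfold cfCol
    cases b
    · symm
      refine decide_eq_false fun h' => ?_
      have := h _ hp _ h' rfl
      simp at this
    · exact (decide_eq_true hp).symm

theorem pvks_fn_ae' (ε : ℝ) : ∀ᵐ p ∂pvdyNu ε, cfOf (cfSites p.2) (cfCol p.2) = p.2 := by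
  have := (pv_isPpp ε).prob
  have h : ∀ᵐ η ∂pvP ε, cfOf (cfSites η) (cfCol η) = η := (pvhe_nice_ae ε).mono fun η hη => pvks_fn_of_simple hη.2
  exact (Measure.quasiMeasurePreserving_snd (μ := colLaw ℂ) (ν := pvP ε)).ae h

/-- `pvks_ins_upQ` at EVERY mesh -/
theorem pvks_ins_upQ' {C y cK yc Wn : Set ℂ} {Y : Conf PvPt → ℂ} {A A' : Set (Conf PvPt)} {ω : Conf PvPt} {q' : ℝ≥0∞} (ε : ℝ) (hC : MeasurableSet C) (hc : (cfSites ω).Countable) (hK : MeasurableSet cK)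
    (hA : Conf.ReadsSet (Wn ×ˢ univ) A) (hY : Conf.Reads (Wn ×ˢ univ) Y) (d1 : Disjoint Wn cK) (d2 : Disjoint Wn yc) (hKC : cK ⊆ C) (hy : yc ⊆ y) (hd : ∀ z ∈ yc, z ∈ C → z ∈ cK)
    (hq : ∀ᵐ p ∂pvdyNu ε, pvdyR C (fun _ => y) ω p ∈ A → q' ≤ pvdyQ ε cK (fun _ => yc) A' (pvdyR C (fun _ => y) ω p))
    {G : Conf PvPt → ℝ≥0∞} (mG : Measurable G) (hG : ∀ η, η ∈ A → η ∈ A' → ‖Y η‖ₑ ^ 2 ≤ G η) :
    q' * ∫⁻ p, A.indicator (fun η => ‖Y η‖ₑ ^ 2) (pvdyR C (fun _ => y) ω p) ∂pvdyNu ε ≤ ∫⁻ p, G (pvdyR C (fun _ => y) ω p) ∂pvdyNu ε := by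
  refine pvks_ins_up ε hC hc hK hA hY d1 d2 ?_ mG hG
  filter_upwards [hq, pvks_fn_ae' ε] with p h1 h2 h0
  rw [← pvks_Q_mix ε hKC hy hd A' ω h2]
  exact h1 h0

/-! ## 2. at the datum -/

section dat

variable {τ : Type} {c : ℝ} {𝔓 : PvxPar τ c} {𝔈 : PvieEng τ} {𝔯 : PvjtRet τ} {wt : ∀ η : Conf PvPt, (delbPl (pvieY η)).Dart → ℂ} {L : ℝ} {b0 q q' : ℝ≥0∞}
  {m : ℕ} {ε : ℝ} {z : ℂ} {t : τ} {ω : Conf PvPt} {i : PvjtIx}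

theorem pvks_jt_disj (H : PvjtWf 𝔓 𝔈 𝔯 L b0) (hl : pvjtLv 𝔓 m t) :
    Disjoint (𝔈.eM m t) (𝔯.fM m t) ∧ Disjoint (𝔈.eM m t) (𝔯.fK m t) ∧ Disjoint (𝔈.eK m t) (𝔯.fM m t) ∧ Disjoint (𝔈.eK m t) (𝔯.fK m t) ∧ Disjoint (𝔯.fM m t) (𝔯.fK m t) ∧
      Disjoint (𝔯.fM m t) (pviwRo 𝔓 𝔈 m t) ∧ Disjoint (𝔯.fK m t) (pviwRo 𝔓 𝔈 m t) := by
  have h := H.disj m t hl
  simp only [List.pairwise_cons, List.mem_cons, List.not_mem_nil, or_false, forall_eq_or_imp, forall_eq] at h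
  obtain ⟨⟨-, a2, a3, -⟩, ⟨b2, b3, -⟩, ⟨c1, c2⟩, d1, -⟩ := h
  exact ⟨a2, a3, b2, b3, c1, c2, d1⟩

theorem pvks_sq_mono (z : ℂ) {r r' : ℝ} (h : r ≤ r') : pvwSq z r ⊆ pvwSq z r' := fun _ hw => ⟨hw.1.trans h, hw.2.trans h⟩

/-- the window of the thick link misses the tile of the return -/
theorem pvks_jt_We_fK (H : PvjtWf 𝔓 𝔈 𝔯 L b0) (hl : pvjtLv 𝔓 m t) (z : ℂ) (Z : Set (ℤ × ℤ)) : Disjoint (pvilWne 𝔓 𝔈 m z t Z) (pvieSh z (𝔯.fK m t)) := by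
  obtain ⟨-, a3, -, b3, -, -, d1⟩ := pvks_jt_disj H hl
  have hδ := (H.del_le m hl.1).1
  exact pvks_Wne_tile ((H.fK_off m t hl).mono_right (pvks_sq_mono 0 (by linarith))) a3 b3 d1.symm z Z

/-- the window of the thick link at the base data of a usable base misses the recoloured sites of the return -/
theorem pvks_jt_We_Yf (H : PvjtWf 𝔓 𝔈 𝔯 L b0) (hi : pvjtBeta 𝔓 m z t ω = some i) : Disjoint (pvilWne 𝔓 𝔈 m z t i.1.1) (pvjtYf 𝔯 m z t i) := by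
  obtain ⟨hl, hU, rfl⟩ := pvjt_beta_inv hi
  obtain ⟨a2, -, b2, -, -, c2, -⟩ := pvks_jt_disj H hl
  obtain ⟨hδ, h16⟩ := H.del_le m hl.1
  have hh := pvlm_H_pos m
  have hρ : 0 ≤ 𝔓.num.rho := by
    by_contra hn
    have : 𝔓.num.rho * pvlmH m < 0 := mul_neg_of_neg_of_pos (not_le.1 hn) hh
    linarith
  exact (pvks_Wne_mouth hδ.le hρ hl.2.2.2 hU (by linarith) (H.fM_cen m t hl) a2 b2 c2.symm).mono_right sdiff_subset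

theorem pvks_jt_A_reads (H : PvjtWf 𝔓 𝔈 𝔯 L b0) (i : PvjtIx) : Conf.ReadsSet (pvilWne 𝔓 𝔈 m z t i.1.1 ×ˢ univ) (pvjtA 𝔓 𝔈 wt m ε z t (some i)) :=
  Conf.ReadsSet.inter (fun _ => Iff.rfl) ((pvks_Gs_reads 𝔓 z t i.1.1 (H.rG_reads m ε)).inter (pvks_Ee_A_reads 𝔓 𝔈 m ε wt z t i.1.1 ∅))

theorem pvks_jt_X_reads (i : PvjtIx) : Conf.Reads (pvilWne 𝔓 𝔈 m z t i.1.1 ×ˢ univ) (pvjtX 𝔓 𝔈 wt m ε z t (some i)) :=
  pvks_Ee_X_reads 𝔓 𝔈 m ε wt z t i.1.1 i.1.2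

/-! ## 3. the leaf -/

/-- **(K3) INSERTION OF THE RETURN AT THE DATUM, UPPER FORM** -/
theorem pvks_jt_ins (H : PvjtWf 𝔓 𝔈 𝔯 L b0) (ε : ℝ) (hLF : PvLF ω) (hi : pvjtBeta 𝔓 m z t ω = some i) (hG : ω ∈ pvjtGd 𝔓 𝔈 𝔯 wt q q' m ε z t)
    {G : Conf PvPt → ℝ≥0∞} (mG : Measurable G) (hGm : ∀ η, η ∈ pvjtA 𝔓 𝔈 wt m ε z t (some i) → η ∈ pvjtA' 𝔓 𝔈 𝔯 m ε z t (some i) → ‖pvjtX 𝔓 𝔈 wt m ε z t (some i) η‖ₑ ^ 2 ≤ G η) :
    q' * ∫⁻ p, (pvjtA 𝔓 𝔈 wt m ε z t (some i)).indicator (fun η => ‖pvjtX 𝔓 𝔈 wt m ε z t (some i) η‖ₑ ^ 2) (pvjtR 𝔓 𝔈 𝔯 m z t (some i) ω p) ∂pvdyNu ε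
      ≤ ∫⁻ p, G (pvjtR 𝔓 𝔈 𝔯 m z t (some i) ω p) ∂pvdyNu ε := by
  have hl := (pvjt_beta_inv hi).1
  obtain ⟨-, -, b2, -, c1, c2, -⟩ := pvks_jt_disj H hl
  refine pvks_ins_upQ' (C := pvjtC 𝔓 𝔈 𝔯 m z t) (y := pvjtY 𝔈 𝔯 m z t (some i)) (cK := pvieSh z (𝔯.fK m t)) (yc := pvjtYf 𝔯 m z t i) (A' := pvjtA' 𝔓 𝔈 𝔯 m ε z t (some i)) ε
    (((pvjt_sh_meas z (H.m_eK m t)).union (pvjt_sh_meas _ (H.m_rO m))).union (pvjt_sh_meas z (H.m_fK m t))) (pvdy_countable_of_LF hLF) (pvjt_sh_meas z (H.m_fK m t))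
    (pvks_jt_A_reads H i) (pvks_jt_X_reads i) (pvks_jt_We_fK H hl z _) (pvks_jt_We_Yf H hi) subset_union_right subset_union_right ?_ ?_ mG hGm
  · rintro x ⟨hx, -⟩ hC
    rcases hC with (hC | hC) | hC
    · exact absurd hx (Set.disjoint_left.1 ((pvjh_sh_disj z).2 b2) hC)
    · rw [pvjh_ro_sh] at hC
      exact absurd hC (Set.disjoint_left.1 ((pvjh_sh_disj z).2 c2) hx)
    · exact hC
  · filter_upwards [hG.2 i hi] with p hp hA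
    exact (hp hA.2.1).2

end dat

end Claimed.Agent.R289
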