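-- KEEP
import Claimed.Agent.R289.Exit.ThickLR
import Claimed.Agent.R289.Tr.MeasL

/-!
# Row 289 (S0537), THE WALL, ROAD E, file Exit/ThickLM : [MEAS] OF (K4): THE FIELDS `nE`, `nF` OF `PvjkRc`;   `PvjtRecog` FROM THE DETERMINISTIC CLOSING ALONE      (helper103; prefix `pvkt`)

`Exit/ThickLR` (132): (K4) at the datum of 223 = `PvjkRc` = `cl` (deterministic closing: 118 290 55) + `nE` + `nF` ([MEAS]).      HERE `nE`, `nF` ARE PAID by `Tr/MeasL` (289):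
* `pvkt_Lf_B`     the thick return `pvjtLf` is a Borel link (`PvmlLkB`) as soon as its room `fY` is Borel
* **`pvkt_jt_nE`**, **`pvkt_jt_nF`** = the two fields VERBATIM (every `Z`, every level, every mesh `ε > 0`)
* **`pvkt_jt_rc`**     `cl` ⟹ `PvjkRc`
* **`pvkt_jt_recog`**  `PvjtWf` + (`cl` under the guard `pvjtGi`, eventually in `ε`, levels / types of `pvjtLv`, candidates of the grid) ⟹ **`PvjtRecog 𝔓 𝔈 𝔯 wt W L`** = hypothesis `hR` of `pvjt_thick_rec` (223)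
-/

set_option autoImplicit false

namespace Claimed.Agent.R289

open Set MeasureTheory Filter Topology Claims.C0465
open scoped ENNReal

section meas

variable {τ : Type} {c : ℝ} {𝔓 : PvxPar τ c} {𝔈 : PvieEng τ} {𝔯 : PvjtRet τ} {wt : ∀ η : Conf PvPt, (delbPl (pvieY η)).Dart → ℂ} {L : ℝ} {b0 : ℝ≥0∞} {ε : ℝ}

/-- the thick return is a Borel link -/
theorem pvkt_Lf_B (h𝔓 : 𝔓.WfB) (𝔈 : PvieEng τ) {m : ℕ} {t : τ} (hY : MeasurableSet (𝔯.fY m t)) (z : ℂ) : PvmlLkB (pvjtLf 𝔓 𝔈 𝔯 m z t) :=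
  ⟨fun _ => norm_one, fun h => absurd h (by simp [pvjtLf]), pvml_pin_meas h𝔓 m z t, pvzj_plug_meas _ _ _, pvjt_sh_meas z hY, MeasurableSet.univ⟩

/-- **[MEAS] the field `nE` of `PvjkRc`** -/
theorem pvkt_jt_nE (h𝔓 : 𝔓.WfB) (hB : PvmlEngB 𝔈) (H : PvjtWf 𝔓 𝔈 𝔯 L b0) (hε : 0 < ε) (hw : PvmlWm wt) (m : ℕ) (z : ℂ) (t : τ) (Z : Set (ℤ × ℤ)) :
    NullMeasurableSet (pvilMe 𝔓 𝔈 m z t Z ∩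
      {η | (pvilLe 𝔓 𝔈 m z t).X 𝔓.num (𝔓.col t) wt η = pvilLoc ε (pvilWne 𝔓 𝔈 m z t Z) (pvilMe 𝔓 𝔈 m z t Z) ((pvilLe 𝔓 𝔈 m z t).X 𝔓.num (𝔓.col t) wt) η}) (pvP ε) :=
  pvml_SAe_null h𝔓 hB hε hw m z t Z (pvjk_mWne H m z t Z)

/-- **[MEAS] the field `nF` of `PvjkRc`** -/
theorem pvkt_jt_nF (h𝔓 : 𝔓.WfB) (𝔈 : PvieEng τ) (hε : 0 < ε) {m : ℕ} {t : τ} (hY : MeasurableSet (𝔯.fY m t)) (z : ℂ) (Z : Set (ℤ × ℤ)) :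
    NullMeasurableSet (pvjtMf 𝔓 𝔈 𝔯 m z t Z) (pvP ε) :=
  (((pvkt_Lf_B h𝔓 𝔈 hY z).A_null _ _ hε).inter (pvml_Zo_null h𝔓 hε m z t Z)).inter (pvml_Ms_null 𝔓 m _ ε)

/-- **(K4) = THE DETERMINISTIC CLOSING**, one candidate, one mesh -/
theorem pvkt_jt_rc (h𝔓 : 𝔓.WfB) (hB : PvmlEngB 𝔈) (H : PvjtWf 𝔓 𝔈 𝔯 L b0) (hε : 0 < ε) (hw : PvmlWm wt) {m : ℕ} {t : τ} (hY : MeasurableSet (𝔯.fY m t)) {z : ℂ}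
    {M : Set ℂ} {G : Set (ℤ × ℤ) → Set (ℤ × ℤ) → Prop}
    (cl : ∀ Z Z' : Set (ℤ × ℤ), Z.Finite → Z'.Finite → G Z Z' → ∀ᵐ η ∂pvP ε, η ∈ pvilMe 𝔓 𝔈 m z t Z → η ∈ pvjtMf 𝔓 𝔈 𝔯 m z t Z' →
      PvjkCl (pvilLe 𝔓 𝔈 m z t) (pvjtLf 𝔓 𝔈 𝔯 m z t) 𝔓.num (𝔓.col t) M η) :
    PvjkRc 𝔓 𝔈 𝔯 wt M G m ε z t :=
  ⟨cl, fun Z _ => pvkt_jt_nE h𝔓 hB H hε hw m z t Z, fun Z _ => pvkt_jt_nF h𝔓 𝔈 hε hY z Z⟩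

/-- **THE RECOGNITION CONTRACT OF 223 FROM THE DETERMINISTIC CLOSING ALONE** -/
theorem pvkt_jt_recog (h𝔓 : 𝔓.WfB) (hB : PvmlEngB 𝔈) (H : PvjtWf 𝔓 𝔈 𝔯 L b0) (hw : PvmlWm wt) {W : Set ℂ → ℂ × ℂ → ℂ} (hW : PvjtRaw wt W) (hY : ∀ m t, MeasurableSet (𝔯.fY m t))
    (cl : ∀ (m : ℕ) (p : ℤ × ℤ) (t : τ), pvjtLv 𝔓 m t → ∀ᶠ ε in 𝓝[>] (0 : ℝ), ∀ Z Z' : Set (ℤ × ℤ), Z.Finite → Z'.Finite → pvjtGi 𝔓 m (l9Pt (pvlmH m) p) t ((Z, ∅), (Z', ∅)) →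
      ∀ᵐ η ∂pvP ε, η ∈ pvilMe 𝔓 𝔈 m (l9Pt (pvlmH m) p) t Z → η ∈ pvjtMf 𝔓 𝔈 𝔯 m (l9Pt (pvlmH m) p) t Z' →
        PvjkCl (pvilLe 𝔓 𝔈 m (l9Pt (pvlmH m) p) t) (pvjtLf 𝔓 𝔈 𝔯 m (l9Pt (pvlmH m) p) t) 𝔓.num (𝔓.col t)
          (pvieSh (l9Pt (pvlmH m) p) (𝔯.Mk m t ∩ Metric.closedBall 0 (L * pvlmH m))) η) :
    PvjtRecog 𝔓 𝔈 𝔯 wt W L := by
  intro m p t hl
  filter_upwards [cl m p t hl, self_mem_nhdsWithin] with ε h hε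
  exact pvjk_recog_LG H hW hε m _ t (pvkt_jt_rc h𝔓 hB H hε hw (hY m t) h)

end meas

end Claimed.Agent.R289
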