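-- KEEP
import Claimed.Agent.R289.Exit.ThickLT
import Claimed.Agent.R289.Exit.AnaDefs

/-!
# Row 289 (S0537), THE WALL, ROAD E, file Exit/ThickLN : LAST STEP OF THE FIELD `thick`      (helper103; prefix `pvkt`)

`pvjt_thick_Q` of 223 (`Exit/ThickLT.lean`) IS `PvnaThick` of 271 (`Exit/AnaDefs.lean`) at the data of record `pvnaDatE 𝔓 𝔈`:

* **`pvkt_thick_N`** : `PvjtWf 𝔓 𝔈 𝔯 L b0` + `PvjtRecog 𝔓 𝔈 𝔯 pvilQ pvqWQ L` (K4 = a contract, 223 12:55Z) + (`𝔊.all m ε z t ⊆ pvConf ⁻¹' pvjtGd 𝔓 𝔈 𝔯 pvilQ q q' m ε z t`) `⇒ PvnaThick 𝔓 (pvnaDatE 𝔓 𝔈) 𝔊 m0 (pvktCe (b0 * q) q' pvbeCB L)`, ANY first level `m0`;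
* **`pvkt_thick_NL`** : the same with the inclusion owed for `m0 ≤ m` ONLY (`pvjtGd` is empty below `𝔓.m0`, the good part of record is not);
* **`pvkt_thick_ex`** : the body of `exit_pvie_thick` (`Exit/Ana.lean` (6)) from the EXISTENCE of the return data, of the contract and of the two forcing constants;
* `pvkt_thick_NV` : the same bound for the weight `side` (mean `pvilKeW 𝔓 𝔈 pvilV`), shape of `cV_L2`.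
-/

set_option autoImplicit false

namespace Claimed.Agent.R289

open Set MeasureTheory Filter Topology Claims.C0465
open scoped ENNReal

section last

variable {τ : Type} {c : ℝ} {𝔓 : PvxPar τ c} {𝔈 : PvieEng τ} {𝔯 : PvjtRet τ} {L : ℝ} {b0 q q' : ℝ≥0∞}

/-- **THE FIELD `thick` AT THE DATA OF RECORD** -/
theorem pvkt_thick_N (H : PvjtWf 𝔓 𝔈 𝔯 L b0) (hR : PvjtRecog 𝔓 𝔈 𝔯 pvilQ pvqWQ L) (hq : q ≠ 0) (hq0 : q' ≠ 0) (hqt : q' ≠ ∞) {𝔊 : PvnaGd τ}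
    (hG : ∀ m ε z t, 𝔊.all m ε z t ⊆ pvConf ⁻¹' pvjtGd 𝔓 𝔈 𝔯 pvilQ q q' m ε z t) (m0 : ℕ) :
    PvnaThick 𝔓 (pvnaDatE 𝔓 𝔈) 𝔊 m0 (pvktCe (b0 * q) q' pvbeCB L) :=
  fun m _ p t => pvjt_thick_Q H hR hq hq0 hqt hG m p t

open Classical in
/-- **THE FIELD `thick` AT THE DATA OF RECORD, INCLUSION OWED FROM THE LEVEL `m0` ON**      (`pvjtGd` is EMPTY below `𝔓.m0`: the inclusion "for all `m`" is false for the good part of record `pvguGd`) -/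
theorem pvkt_thick_NL (H : PvjtWf 𝔓 𝔈 𝔯 L b0) (hR : PvjtRecog 𝔓 𝔈 𝔯 pvilQ pvqWQ L) (hq : q ≠ 0) (hq0 : q' ≠ 0) (hqt : q' ≠ ∞) {𝔊 : PvnaGd τ} {m0 : ℕ}
    (hG : ∀ m, m0 ≤ m → ∀ ε z t, 𝔊.all m ε z t ⊆ pvConf ⁻¹' pvjtGd 𝔓 𝔈 𝔯 pvilQ q q' m ε z t) :
    PvnaThick 𝔓 (pvnaDatE 𝔓 𝔈) 𝔊 m0 (pvktCe (b0 * q) q' pvbeCB L) := by
  intro m hm p t
  have k := pvjt_thick_Q H hR hq hq0 hqt (Gd := fun m ε z t => if m0 ≤ m then 𝔊.all m ε z t else ∅) (fun m ε z t => by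
    by_cases h : m0 ≤ m
    · simp only [if_pos h]; exact hG m h ε z t
    · simp only [if_neg h]; exact empty_subset _) m p t
  simp only [if_pos hm] at k
  exact k

/-- **the body of `exit_pvie_thick`** -/
theorem pvkt_thick_ex {𝔊 : PvnaGd τ} {m0 : ℕ}
    (h : ∃ (𝔯 : PvjtRet τ) (L : ℝ) (b0 q q' : ℝ≥0∞), PvjtWf 𝔓 𝔈 𝔯 L b0 ∧ PvjtRecog 𝔓 𝔈 𝔯 pvilQ pvqWQ L ∧ q ≠ 0 ∧ q' ≠ 0 ∧ q' ≠ ∞ ∧ ∀ m, m0 ≤ m → ∀ ε z t, 𝔊.all m ε z t ⊆ pvConf ⁻¹' pvjtGd 𝔓 𝔈 𝔯 pvilQ q q' m ε z t) :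
    ∃ Ce : ℝ, PvnaThick 𝔓 (pvnaDatE 𝔓 𝔈) 𝔊 m0 Ce := by
  obtain ⟨𝔯, L, b0, q, q', H, hR, hq, hq0, hqt, hG⟩ := h
  exact ⟨_, pvkt_thick_NL H hR hq hq0 hqt hG⟩

open Classical in
/-- the same for the weight `side` -/
theorem pvkt_thick_NV (H : PvjtWf 𝔓 𝔈 𝔯 L b0) (hR : PvjtRecog 𝔓 𝔈 𝔯 pvilV pvbeWV L) (hq : q ≠ 0) (hq0 : q' ≠ 0) (hqt : q' ≠ ∞) {𝔊 : PvnaGd τ} {m0 : ℕ}
    (hG : ∀ m, m0 ≤ m → ∀ ε z t, 𝔊.all m ε z t ⊆ pvConf ⁻¹' pvjtGd 𝔓 𝔈 𝔯 pvilV q q' m ε z t) (m : ℕ) (hm : m0 ≤ m) (p : ℤ × ℤ) (t : τ) : ∀ᶠ ε in 𝓝[>] (0 : ℝ),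
    (pvhbUp ε).E ((pvMerge ⁻¹' pvxU 𝔓 m (l9Pt (pvlmH m) p) t ∩ pvMerge ⁻¹' 𝔊.all m ε (l9Pt (pvlmH m) p) t).indicator fun x => ‖pvilKeW 𝔓 𝔈 pvilV m ε (l9Pt (pvlmH m) p) t (pvMerge x)‖ₑ ^ 2)
      ≤ ENNReal.ofReal (pvktCe (b0 * q) q' pvbeCB L * pvlmH m ^ 2) := by
  have k := pvjt_thick_V H hR hq hq0 hqt (Gd := fun m ε z t => if m0 ≤ m then 𝔊.all m ε z t else ∅) (fun m ε z t => by
    by_cases h : m0 ≤ m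
    · simp only [if_pos h]; exact hG m h ε z t
    · simp only [if_neg h]; exact empty_subset _) m p t
  simp only [if_pos hm] at k
  exact k

end last

end Claimed.Agent.R289
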