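-- KEEP
import Claimed.Agent.R289.Exit.ThickL
import Claimed.Agent.R289.Tr.StopM

/-!
# Row 289 (S0537), THE WALL, ROAD E, file Exit/ThickLS : LEAF (K1) STOP OF `exit_pvie_thick` AT THE DATUM `pvjtDat`      (helper181; prefix `pvjs_`)      0 sorry

`pvjs_stop` = the statement `exit_pvjt_stop` of `Exit/ThickLT.lean` (223) VERBATIM.
* sec. 1  the seam `Tr/InstL` ↔ `Tr/InstE` for a plug in the STANDARD frame: `pvjs_pos`, `pvjs_zf`, **`pvjs_at_iff`** (`PvilAt N b p.std η 𝔖 ↔ PvieAt N b p η 𝔖`), `pvjs_U` (`pvilU N b p.std = pvieU N b p`)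
* sec. 2  base data on the full state: `pvjs_FzI`, `pvjs_FzO` (frozen positions of the half states = those of THE full state), `pvjs_FrI`, `pvjs_FrO` (`M \ F = pvieFrI / pvieFrO`)
* sec. 3  `pvjs_Y_eq` (the recoloured sites of the datum = the two full-state choices of 161), **`pvjs_stop`** (from `pvsm_stop_full` of 96);   ALSO **`pvjs_seam`** = `exit_pvjt_U` verbatim (`pvjs_U_conf`: equality), `pvjs_HuI`, `pvjs_HuO`, **`pvjs_fin`** = `exit_pvjt_fin` verbatim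
-/

set_option autoImplicit false

namespace Claimed.Agent.R289

open Set MeasureTheory Filter Topology Claims.C0465
open scoped ENNReal ComplexConjugate

/-! ## 1. the standard frame -/

section seam

variable {N : PvwNum} {b : Bool} {p : PviePl} {η : Conf PvPt}

theorem pvjs_pos (p : PviePl) (η : Conf PvPt) : p.std.pos η = pviePos η := by
  funext v
  show conj (1 : ℂ) * pviePos η v = pviePos η v
  rw [map_one, one_mul]

theorem pvjs_zf (p : PviePl) : p.std.zf = p.z := by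
  show conj (1 : ℂ) * p.z = p.z
  rw [map_one, one_mul]

/-- the exit half state of `Tr/InstL` in the standard frame: its `AtOut` is read at the plain positions -/
theorem PvilOut.st' {𝔖 : PvwSt (pvieT η)} (h : PvilOut N b p.std η 𝔖) : 𝔖.AtOut (pviePos η) N p.h p.z p.ty (pvieCol η b) := by
  have := h.st
  rwa [pvjs_pos, pvjs_zf] at this

theorem PvilIn.st' {𝔖 : PvwSt (pvieT η)} (h : PvilIn N b p.std η 𝔖) : 𝔖.AtIn (pviePos η) N p.h p.z p.ty (pvieCol η b) := by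
  have := h.st
  rwa [pvjs_pos, pvjs_zf] at this

/-- **THE SEAM**: the full state of `Tr/InstL` of a plug in the standard frame is the state of `Tr/InstE` -/
theorem pvjs_at_iff (N : PvwNum) (b : Bool) (p : PviePl) (η : Conf PvPt) (𝔖 : PvwSt (pvieT η)) : PvilAt N b p.std η 𝔖 ↔ PvieAt N b p η 𝔖 := by
  constructor
  · intro h
    have f1 := h.far_p
    have f2 := h.far_m
    rw [pvjs_pos, pvjs_zf] at f1 f2
    exact ⟨h.out.good, ⟨h.out.st', h.inn.st', f1, f2⟩, h.out.tip, h.inn.tip, h.out.mask, h.inn.mask, h.out.mask_i, h.inn.mask_i, h.out.lev0⟩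
  · intro h
    refine ⟨⟨h.good, ?_, h.tip_p, h.mask_p, h.inn_p, h.lev0⟩, ⟨h.good, ?_, h.tip_m, h.mask_m, h.inn_m, h.lev0⟩, ?_, ?_⟩
    · rw [pvjs_pos, pvjs_zf]; exact h.st.out
    · rw [pvjs_pos, pvjs_zf]; exact h.st.inn
    · rw [pvjs_pos, pvjs_zf]; exact h.st.far_p
    · rw [pvjs_pos, pvjs_zf]; exact h.st.far_m

theorem pvjs_U (N : PvwNum) (b : Bool) (p : PviePl) : pvilU N b p.std = pvieU N b p := by
  ext η
  exact ⟨fun ⟨𝔖, h⟩ => ⟨𝔖, (pvjs_at_iff N b p η 𝔖).1 h⟩, fun ⟨𝔖, h⟩ => ⟨𝔖, (pvjs_at_iff N b p η 𝔖).2 h⟩⟩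

/-! ## 2. the base data on the full state -/

/-- the positions frozen by `Σ_in` are those of THE full state -/
theorem pvjs_FzI {𝔖 : PvwSt (pvieT η)} (h : PvieAt N b p η 𝔖) : pvilFzI N b p.std η = pviePos η '' 𝔖.fzIn := by
  ext v
  constructor
  · rintro ⟨𝔖', h', u, hu, rfl⟩
    obtain ⟨k1, k2⟩ := pvuq_del_in h.good h'.st' h.st.inn
    have e : 𝔖'.fzIn = 𝔖.fzIn := k1.fzIn k2
    exact ⟨u, e ▸ hu, rfl⟩
  · rintro ⟨u, hu, rfl⟩
    exact ⟨𝔖, ((pvjs_at_iff N b p η 𝔖).2 h).inn, u, hu, rfl⟩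

/-- the positions frozen by `Σ_out` are those of THE full state -/
theorem pvjs_FzO {𝔖 : PvwSt (pvieT η)} (h : PvieAt N b p η 𝔖) : pvilFzO N b p.std η = pviePos η '' 𝔖.fzOut := by
  ext v
  constructor
  · rintro ⟨𝔖', h', u, hu, rfl⟩
    obtain ⟨k1, k2⟩ := pvuq_del_out h.good h'.st' h.st.out
    have e : 𝔖'.fzOut = 𝔖.fzOut := k1.fzOut k2
    exact ⟨u, e ▸ hu, rfl⟩
  · rintro ⟨u, hu, rfl⟩
    exact ⟨𝔖, ((pvjs_at_iff N b p η 𝔖).2 h).out, u, hu, rfl⟩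

/-- on the full state: `M` minus the base datum `F_in` = the fresh sites of 161 -/
theorem pvjs_FrI (M : Set ℂ) (h : η ∈ pvieU N b p) : M \ pvilFzI N b p.std η = pvieFrI N b p M η := by
  obtain ⟨𝔖, hS⟩ := h
  rw [pvjs_FzI hS]
  ext v
  constructor
  · rintro ⟨hv, h2⟩
    exact ⟨hv, 𝔖, hS, fun u hu e => h2 ⟨u, hu, e⟩⟩
  · rintro ⟨hv, 𝔖', h', h2⟩
    refine ⟨hv, ?_⟩
    rintro ⟨u, hu, e⟩
    have k : 𝔖'.fzIn = 𝔖.fzIn := (pvuq_del hS.good h'.st hS.st).fzIn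
    exact h2 u (k ▸ hu) e

/-- on the full state: `M` minus the base datum `F_out` = the fresh sites of 161 -/
theorem pvjs_FrO (M : Set ℂ) (h : η ∈ pvieU N b p) : M \ pvilFzO N b p.std η = pvieFrO N b p M η := by
  obtain ⟨𝔖, hS⟩ := h
  rw [pvjs_FzO hS]
  ext v
  constructor
  · rintro ⟨hv, h2⟩
    exact ⟨hv, 𝔖, hS, fun u hu e => h2 ⟨u, hu, e⟩⟩
  · rintro ⟨hv, 𝔖', h', h2⟩
    refine ⟨hv, ?_⟩
    rintro ⟨u, hu, e⟩
    have k : 𝔖'.fzOut = 𝔖.fzOut := (pvuq_del hS.good h'.st hS.st).fzOut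
    exact h2 u (k ▸ hu) e

end seam

/-! ## 3. the leaf -/

section leaf

variable {τ : Type} {c : ℝ} {𝔓 : PvxPar τ c} {𝔈 : PvieEng τ} {𝔯 : PvjtRet τ} {L : ℝ} {b0 : ℝ≥0∞}

/-- at a level of the engine the recoloured sites of the datum are the two full-state choices of 161 -/
theorem pvjs_Y_eq (𝔈 : PvieEng τ) (𝔯 : PvjtRet τ) {m : ℕ} {t : τ} (hl : pvjtLv 𝔓 m t) (z : ℂ) :
    (fun η => pvjtY 𝔈 𝔯 m z t (pvjtBeta 𝔓 m z t η)) =
      fun η => pvieFrI 𝔓.num (𝔓.col t) (𝔓.pl m z t) (pvieSh z (𝔈.eM m t)) η ∪ pvieFrO 𝔓.num (𝔓.col t) (𝔓.pl m z t) (pvieSh z (𝔯.fM m t)) η := by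
  funext η
  by_cases h : η ∈ pvieU 𝔓.num (𝔓.col t) (𝔓.pl m z t)
  · have h' : η ∈ pvilU 𝔓.num (𝔓.col t) (pvilPin 𝔓 m z t) := by
      show η ∈ pvilU 𝔓.num (𝔓.col t) (𝔓.pl m z t).std
      rw [pvjs_U]; exact h
    rw [pvjt_beta_some hl h', ← pvjs_FrI _ h, ← pvjs_FrO _ h]
    rfl
  · have h' : η ∉ pvilU 𝔓.num (𝔓.col t) (pvilPin 𝔓 m z t) := by
      show η ∉ pvilU 𝔓.num (𝔓.col t) (𝔓.pl m z t).std
      rw [pvjs_U]; exact h
    have e : pvjtBeta 𝔓 m z t η = none := by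
      unfold pvjtBeta
      rw [if_neg fun hh => h' hh.2]
    rw [e, pvsm_FrI_notMem _ h, pvsm_FrO_notMem _ h, union_empty]
    rfl

/-- a translated ball -/
theorem pvjs_sh_ball {S : Set ℂ} {y : ℂ} {r r' : ℝ} (hS : S ⊆ Metric.closedBall y r) (hr : r ≤ r') (z : ℂ) : pvieSh z S ⊆ Metric.closedBall (z + y) r' := by
  rintro _ ⟨w, hw, rfl⟩
  have := hS hw
  rw [Metric.mem_closedBall, dist_eq_norm] at this ⊢
  have e : z + w - (z + y) = w - y := by ring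
  rw [e]
  exact this.trans hr

/-- **(K1) STOP** = `exit_pvjt_stop` of `Exit/ThickLT.lean` verbatim -/
theorem pvjs_stop (H : PvjtWf 𝔓 𝔈 𝔯 L b0) (m : ℕ) (ε : ℝ) (z : ℂ) (t : τ) :
    ∃ Ok : Set ℂ → Prop, (∀ᵐ ω ∂pvP ε, Ok (cfSites ω)) ∧ PvktStop Ok (fun η => pvjtY 𝔈 𝔯 m z t (pvjtBeta 𝔓 m z t η)) := by
  by_cases hl : pvjtLv 𝔓 m t
  · rw [pvjs_Y_eq 𝔈 𝔯 hl z]
    have hh : 0 ≤ 𝔓.num.rho * pvlmH m := by
      have := H.del_le m hl.1
      linarith [this.1, this.2]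
    have hr : 𝔓.num.rho * pvlmH m / 2 ≤ 2 * 𝔓.num.rho * (𝔓.pl m z t).h := by
      show 𝔓.num.rho * pvlmH m / 2 ≤ 2 * 𝔓.num.rho * pvlmH m
      linarith
    refine (pvsm_stop_full 𝔓.num (𝔓.col t) (𝔓.pl m z t) ?_ ?_).leaf ε
    · exact pvjs_sh_ball (H.eM_cen m t hl) hr z
    · exact pvjs_sh_ball (H.fM_cen m t hl) hr z
  · refine ⟨fun _ => True, Eventually.of_forall fun _ => trivial, fun Y _ σ hne => ?_⟩
    exfalso
    obtain ⟨v, -, hv⟩ := hne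
    have e : pvjtBeta 𝔓 m z t (cfOf Y σ) = none := by
      unfold pvjtBeta
      rw [if_neg fun hh => hl hh.1]
    have hv' : v ∈ pvjtY 𝔈 𝔯 m z t (pvjtBeta 𝔓 m z t (cfOf Y σ)) := hv
    rw [e] at hv'
    exact hv'

/-- **(SEAM)** = `exit_pvjt_U` of `Exit/ThickLT.lean` verbatim (an equality in fact) -/
theorem pvjs_U_conf (𝔓 : PvxPar τ c) (m : ℕ) (z : ℂ) (t : τ) : pvxU 𝔓 m z t = pvConf ⁻¹' pvilU 𝔓.num (𝔓.col t) (pvilPin 𝔓 m z t) := by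
  rw [pvie_U_conf]
  show _ = pvConf ⁻¹' pvilU 𝔓.num (𝔓.col t) (𝔓.pl m z t).std
  rw [pvjs_U]

theorem pvjs_seam (𝔓 : PvxPar τ c) (m : ℕ) (z : ℂ) (t : τ) : pvxU 𝔓 m z t ⊆ pvConf ⁻¹' pvilU 𝔓.num (𝔓.col t) (pvilPin 𝔓 m z t) := (pvjs_U_conf 𝔓 m z t).le

/-- the cells of the positions frozen by `Σ_in` are those of THE full state -/
theorem pvjs_HuI {N : PvwNum} {b : Bool} {p : PviePl} {η : Conf PvPt} (δ r : ℝ) {𝔖 : PvwSt (pvieT η)} (h : PvieAt N b p η 𝔖) :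
    pvilHuI δ r N b p.std η = pvtCells δ (pviePos η '' 𝔖.fzIn ∪ Metric.closedBall (p.std.ty.cm p.std.h p.std.z) r) := by
  ext q
  constructor
  · rintro ⟨𝔖', h', hq⟩
    obtain ⟨k1, k2⟩ := pvuq_del_in h.good h'.st' h.st.inn
    have e : 𝔖'.fzIn = 𝔖.fzIn := k1.fzIn k2
    rwa [e] at hq
  · intro hq
    exact ⟨𝔖, ((pvjs_at_iff N b p η 𝔖).2 h).inn, hq⟩

/-- the cells of the positions frozen by `Σ_out` are those of THE full state -/
theorem pvjs_HuO {N : PvwNum} {b : Bool} {p : PviePl} {η : Conf PvPt} (δ r : ℝ) {𝔖 : PvwSt (pvieT η)} (h : PvieAt N b p η 𝔖) :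
    pvilHuO δ r N b p.std η = pvtCells δ (pviePos η '' 𝔖.fzOut ∪ Metric.closedBall (p.std.ty.cp p.std.h p.std.z) r) := by
  ext q
  constructor
  · rintro ⟨𝔖', h', hq⟩
    obtain ⟨k1, k2⟩ := pvuq_del_out h.good h'.st' h.st.out
    have e : 𝔖'.fzOut = 𝔖.fzOut := k1.fzOut k2
    rwa [e] at hq
  · intro hq
    exact ⟨𝔖, ((pvjs_at_iff N b p η 𝔖).2 h).out, hq⟩

/-- **(FIN)** = `exit_pvjt_fin` of `Exit/ThickLT.lean` verbatim -/
theorem pvjs_fin (H : PvjtWf 𝔓 𝔈 𝔯 L b0) {m : ℕ} {z : ℂ} {t : τ} (hl : pvjtLv 𝔓 m t) {η : Conf PvPt} (h : η ∈ pvilU 𝔓.num (𝔓.col t) (pvilPin 𝔓 m z t)) :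
    (pvilZi 𝔓 m z t η).Finite ∧ (pvilZo 𝔓 m z t η).Finite := by
  obtain ⟨𝔖, hS⟩ := h
  have hS' : PvieAt 𝔓.num (𝔓.col t) (𝔓.pl m z t) η 𝔖 := (pvjs_at_iff _ _ _ η 𝔖).1 hS
  have hδ := (H.del_le m hl.1).1
  constructor
  · show (pvilHuI (pvlmDel c m) (𝔓.num.rho * pvlmH m) 𝔓.num (𝔓.col t) (𝔓.pl m z t).std η).Finite
    rw [pvjs_HuI _ _ hS']
    exact pvt_cells_finite hδ (((pvwk_fzIn_finite 𝔖 hS'.st.out.gate.core_fin).image _).isBounded.union Metric.isBounded_closedBall)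
  · show (pvilHuO (pvlmDel c m) (𝔓.num.rho * pvlmH m) 𝔓.num (𝔓.col t) (𝔓.pl m z t).std η).Finite
    rw [pvjs_HuO _ _ hS']
    exact pvt_cells_finite hδ (((pvwk_fzOut_finite 𝔖 hS'.st.out.gate.core_fin).image _).isBounded.union Metric.isBounded_closedBall)

end leaf

end Claimed.Agent.R289
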