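-- KEEP
import Claimed.Agent.R289.Exit.ParEngF
import Claimed.Agent.R289.Exit.EngRec

/-!
# Row 289 (S0537), THE WALL, ROAD E, field `thick`, file Exit/ThickWD : (DISJ) THE FIVE ATOMS OF THE THICK PAIR `u =e=> t =f=> u` ARE PAIRWISE DISJOINT, AT THE ENGINE OF RECORD      (helper1, split of helper13 12:58Z; prefix `pvjiD_`)

`[eM, eK, fM, fK, zu + rO]` with `eM = pvegIM`, `eK = pveheK ∪ pvegIK`, `fM = pvegOM`, `fK = pveffK` (182), `zu + rO = pviwRo`.      Sources: `cyc_disj` of `PvieEng.Wf` at `pvnaEngRec` (`pvnr_wf`), `pvef_fK_*` of 182 (`Exit/ParEngF`).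
-/

set_option autoImplicit false

namespace Claimed.Agent.R289

open Set Metric

variable {N : PvxNums} (hN : N.Ok) {c : ℝ}

/-- the non degeneracy of 182 at the parameters of record -/
theorem pvjiD_ndg (c0 : 0 < c) {m : ℕ} (hm : N.m0 ≤ m) (t : pvxTau N) : PvefNdg (pvxParOf N hN c) m t :=
  pvef_ndg_of (pvxr_ndg_par hN c0 hm t) (pvea_tyOk hN t)

/-- **(DISJ)** -/
theorem pvjiD_disj (c0 : 0 < c) (nb : PvnaNb N) {m : ℕ} (hm : (pvxParOf N hN c).m0 ≤ m) (t : pvxTau N) :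
    [pvegIM (pvxParOf N hN c) m t, pveheK (pvxParOf N hN c) (pvegIM (pvxParOf N hN c)) m t ∪ pvegIK (pvxParOf N hN c) m t, pvegOM (pvxParOf N hN c) m t,
      pveffK (pvxParOf N hN c) m t, pviwRo (pvxParOf N hN c) (pvnaEngRec N hN c nb) m t].Pairwise Disjoint := by
  obtain ⟨Cth, r, κs, H⟩ := (pvnr_wf hN c0 nb).wf
  have hT := pvea_tyOk (c := c) hN t
  have hc := H.cyc_disj m hm 1 t hT
  have hn := pvjiD_ndg hN c0 hm t
  have hΓ : (pvxParOf N hN c).Γ m = pvxrGam (pvxParOf N hN c) m := rfl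
  simp only [pviwCyc, pviwRes, List.cons_append, List.nil_append, List.pairwise_cons, List.mem_cons, List.mem_append, forall_eq_or_imp] at hc
  obtain ⟨⟨h_oe, h_ooK, h_oeK, -, h_oRo, -⟩, ⟨-, h_eeK, -, h_eRo, -⟩, -, ⟨-, h_eKRo, -⟩, -⟩ := hc
  have hfRo : Disjoint (pveffK (pvxParOf N hN c) m t) (pviwRo (pvxParOf N hN c) (pvnaEngRec N hN c nb) m t) := pvef_fK_rO m t
  simp only [List.pairwise_cons, List.mem_cons, forall_eq_or_imp, List.not_mem_nil, IsEmpty.forall_iff, forall_const, List.Pairwise.nil, and_true]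
  refine ⟨⟨h_eeK, h_oe.symm, (pvef_fK_iM hn).symm, h_eRo⟩, ⟨h_oeK.symm, ?_, h_eKRo⟩, ⟨(pvef_fK_fM m t).symm, h_oRo⟩, hfRo⟩
  exact (Set.disjoint_union_right.2 ⟨pvef_fK_eK hn _, pvef_fK_iK hn hΓ⟩).symm

end Claimed.Agent.R289
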