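-- KEEP
import Claimed.Agent.R289.Exit.ParEngF

/-!
# Row 289 (S0537), THE WALL, ROAD E, field `thick`, file Exit/ThickWO : THE LINE `fK_off` OF `PvjtWf` AT THE REGION OF RECORD, COLLAR `3 δ`      (helper135, split of helper13 12:53Z; prefix `pvez_`)

CONSUMER: `Exit/ThickW.lean` (13: producer of `PvjtWf` at `pvxParOf`), field `fK_off : Disjoint (fK m t) (pvwSq 0 (pviwRad 𝔓 m t + 3 * pvlmDel c m))` at `fK := pveffK 𝔓` of 182 (`Exit/ParEngF.lean`).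
`pveffK = (F ∪ blocks of the word ∪ west half of the block of u) \ (zu + rO ∪ fM)`.
* `pvez_cell_off`      a closed cell `q` with `B < |q.1| ∨ B < |q.2|` misses the centred square of half side `< B δ`
* `pvez_Bx`            `Rad + ρ h / 10 ≤ pvxrBx δ`
* **`pvez_blocks_off`**  the blocks of `f` and the block of `u` miss `pvwSq 0 r` for every `r < Rad + ρ h / 10`      (so `pvef_blocks_box` of 182 follows: `pvez_blocks_box`)
* **`pvez_funnel_S`**    a point of the funnel OFF THE MOUTH BALL has `S > 211/1024 ρ h` (the ball `5/16`, the half width `≤ 240/1024`)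
* **`pvez_funnel_off`**  funnel minus mouth misses `pvwSq 0 r` for every `r ≤ Rad + ρ h / 10`
* **`pvez_fK_off`**      `Disjoint (pveffK 𝔓 m t) (pvwSq 0 r)` for every `r < Rad + ρ h / 10`;   **`pvez_fK_off3`** = the field, collar `3 δ`
-/

set_option autoImplicit false

namespace Claimed.Agent.R289

open Complex Set Metric

/-- a closed cell off the box in cells is off the centred square -/
theorem pvez_cell_off {δ : ℝ} (hδ : 0 < δ) {B : ℤ} {q : ℤ × ℤ} (hq : B < |q.1| ∨ B < |q.2|) {r : ℝ} (hr : r < (B : ℝ) * δ) {w : ℂ} (hw : w ∈ pvtSq δ q) : w ∉ pvwSq 0 r := by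
  rintro ⟨h1, h2⟩
  rw [sub_zero, abs_le] at h1 h2
  obtain ⟨a1, a2, a3, a4⟩ := hw
  have key : ∀ (y : ℤ) (x : ℝ), B < |y| → (y : ℝ) * δ ≤ x → x ≤ ((y : ℝ) + 1) * δ → -r ≤ x → x ≤ r → False := by
    intro y x hy b1 b2 b3 b4
    rcases lt_abs.1 hy with h | h
    · have : (B : ℝ) + 1 ≤ y := by exact_mod_cast h
      nlinarith
    · have : (B : ℝ) + 1 ≤ -y := by exact_mod_cast h
      nlinarith
  rcases hq with hq | hq
  · exact key _ _ hq a1 a2 h1.1 h1.2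
  · exact key _ _ hq a3 a4 h2.1 h2.2

section model

variable {τ : Type} {c : ℝ} {𝔓 : PvxPar τ c} {m : ℕ} {t : τ}

/-- the box of helper1 in cells contains the own-level box fattened by `ρ h / 10` -/
theorem pvez_Bx (𝔓 : PvxPar τ c) (m : ℕ) (t : τ) : pviwRad 𝔓 m t + pvegR 𝔓 m / 10 ≤ (pvxrBx 𝔓 m t : ℝ) * pvlmDel c m := by
  have hδ := pvlm_Del_pos c m
  have h1 := Int.le_ceil ((pvlmN c m : ℝ) * (2 * (𝔓.ty t).b2 + (𝔓.ty t).k * 𝔓.num.rho1 + 𝔓.num.rho / 10))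
  have h2 := mul_le_mul_of_nonneg_right h1 hδ.le
  have h3 := pvlm_N_mul_Del c m
  have h5 : (pvlmN c m : ℝ) * (2 * (𝔓.ty t).b2 + (𝔓.ty t).k * 𝔓.num.rho1 + 𝔓.num.rho / 10) * pvlmDel c m = pviwRad 𝔓 m t + pvegR 𝔓 m / 10 := by
    unfold pviwRad pvwRad pvegR
    rw [← h3]
    ring
  unfold pvxrBx
  linarith

/-- a block of the polyline of `f` is off the centred square -/
theorem pvez_block_off (h : PvefNdg 𝔓 m t) {x : ℤ × ℤ} (hx : x ∈ pvefPath (pvxrM 𝔓 m t) (pvxrA 𝔓 t) (pvxrB 𝔓 t) (pvxrEp 𝔓 m t) (pvxrEm 𝔓 m t) (pvxrNw 𝔓 m))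
    {r : ℝ} (hr : r < pviwRad 𝔓 m t + pvegR 𝔓 m / 10) {w : ℂ} (hw : w ∈ pvehSq (pvefCtr (pvlmDel c m) (pvxrNw 𝔓 m) (pvxrEm 𝔓 m t) x) (pvehDl 𝔓 m / 2)) : w ∉ pvwSq 0 r := by
  have hδ := pvlm_Del_pos c m
  have hn := pvef_n0 h
  have hw' : w ∈ pvtU (pvlmDel c m) (pvehCells (pvefCc (pvxrNw 𝔓 m) (pvxrEm 𝔓 m t) x) (pvxrNw 𝔓 m)) := by
    rw [← pvef_block_cells hδ hn]
    exact hw
  simp only [pvtU, mem_iUnion, exists_prop] at hw'
  obtain ⟨q, hq, hwq⟩ := hw'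
  have hb := (pvef_path_box (pvef_ok_of_ndg h) x hx).1
  exact pvez_cell_off hδ (pvef_block_off hn _ hb hq) (lt_of_lt_of_le hr (pvez_Bx 𝔓 m t)) hwq

/-- **the blocks of `f` and the block of the plug are off the own-level box fattened by (less than) `ρ h / 10`** -/
theorem pvez_blocks_off (h : PvefNdg 𝔓 m t) {r : ℝ} (hr : r < pviwRad 𝔓 m t + pvegR 𝔓 m / 10) :
    Disjoint (pvefBlocks (pvehDl 𝔓 m) (pvefZ 𝔓 m t) (pvefD 𝔓 m t) (pvefW 𝔓 m t) ∪ pvehSq ((pvxrGam 𝔓 m).zu t) (pvehDl 𝔓 m / 2)) (pvwSq 0 r) := by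
  have hO := pvef_ok_of_ndg h
  rw [Set.disjoint_left]
  rintro w (hw | hw)
  · simp only [pvefBlocks, mem_iUnion, exists_prop, Finset.mem_range] at hw
    obtain ⟨j, hj, hw⟩ := hw
    unfold pvefBl at hw
    rw [pvef_W_C] at hw
    exact pvez_block_off h (pvef_V_mem hO (le_of_lt hj)) hr hw
  · rw [pvef_zu h, ← pvef_V_last hO] at hw
    exact pvez_block_off h (pvef_V_mem hO le_rfl) hr hw

/-- `pvef_blocks_box` of 182 (collar `δ`) -/
theorem pvez_blocks_box (h : PvefNdg 𝔓 m t) :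
    Disjoint (pvefBlocks (pvehDl 𝔓 m) (pvefZ 𝔓 m t) (pvefD 𝔓 m t) (pvefW 𝔓 m t) ∪ pvefWest (pvehDl 𝔓 m) ((pvxrGam 𝔓 m).zu t)) (pviwBox 𝔓 m t) := by
  have hf := pvef_q217_fine h
  have hd := pvlm_Del_pos c m
  refine (pvez_blocks_off h (r := pviwRad 𝔓 m t + pvlmDel c m) (by linarith)).mono_left ?_
  exact union_subset_union_right _ fun w hw => hw.1

/-- **a point of the funnel off the mouth ball is well in front of the tip cell** -/
theorem pvez_funnel_S (h : PvefNdg 𝔓 m t) {v : ℂ} (hv : v ∈ pvefF 𝔓 m t) (hM : v ∉ pvegOM 𝔓 m t) : 211 / 1024 * pvegR 𝔓 m < pvegS (pvegYp 𝔓 m t) (I ^ pvxrA 𝔓 t) v := by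
  obtain ⟨h1, h2, h3⟩ := hv
  obtain ⟨f1, f2, f3⟩ := pvef_C0_frame h
  have hu := pvef_I_pow (pvxrA 𝔓 t)
  have hf := pvef_q217_fine h
  have hd := pvlm_Del_pos c m
  have hR : 0 < pvegR 𝔓 m := by linarith
  unfold pvegOM at hM
  rw [mem_closedBall_iff_norm, not_le] at hM
  have hs := pveg_sq hu (pvegYp 𝔓 m t) v
  rw [abs_le] at h3 f3
  have s1 : 0 ≤ pvegS (pvegYp 𝔓 m t) (I ^ pvxrA 𝔓 t) v := by linarith
  have l1 : |pvegL (pvegYp 𝔓 m t) (I ^ pvxrA 𝔓 t) v| ≤ 240 / 1024 * pvegR 𝔓 m := by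
    rw [abs_le]; constructor <;> linarith [h3.1, h3.2, f3.1, f3.2]
  have q2 : pvegL (pvegYp 𝔓 m t) (I ^ pvxrA 𝔓 t) v ^ 2 ≤ (240 / 1024 * pvegR 𝔓 m) ^ 2 := by
    rw [← sq_abs]; exact pow_le_pow_left₀ (abs_nonneg _) l1 2
  have q1 : (5 * pvegR 𝔓 m / 16) ^ 2 < ‖v - pvegYp 𝔓 m t‖ ^ 2 := pow_lt_pow_left₀ hM (by positivity) (by norm_num)
  by_contra hc
  rw [not_lt] at hc
  have q3 : pvegS (pvegYp 𝔓 m t) (I ^ pvxrA 𝔓 t) v ^ 2 ≤ (211 / 1024 * pvegR 𝔓 m) ^ 2 := pow_le_pow_left₀ s1 hc 2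
  nlinarith [sq_nonneg (pvegR 𝔓 m), sq_pos_of_pos hR]

/-- **the funnel minus the mouth is off the own-level box fattened by `ρ h / 10`** -/
theorem pvez_funnel_off (h : PvefNdg 𝔓 m t) {r : ℝ} (hr : r ≤ pviwRad 𝔓 m t + pvegR 𝔓 m / 10) {v : ℂ} (hv : v ∈ pvefF 𝔓 m t) (hM : v ∉ pvegOM 𝔓 m t) : v ∉ pvwSq 0 r := by
  intro hb
  have hS := pvez_funnel_S h hv hM
  have hu := pvef_I_pow (pvxrA 𝔓 t)
  have hH := pvlm_H_pos m
  have hf := pvef_q217_fine h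
  have hd := pvlm_Del_pos c m
  have h2 := pveg_sq_zero hu hb
  rw [pveg_S_zero (pvegYp 𝔓 m t)] at h2
  have h3 : (pvegYp 𝔓 m t * (starRingEnd ℂ) (I ^ pvxrA 𝔓 t)).re = pvlmH m * pvccN (𝔓.ty t).yp := by
    have := pvxr_side_dom (𝔓.ty t).yp
    unfold pvegYp
    rw [mul_assoc, Complex.re_ofReal_mul]
    congr 1
  rw [h3] at h2
  have h4 := (abs_le.1 h.nd_p).1
  have h5 : pviwRad 𝔓 m t - pvegR 𝔓 m / 10 ≤ pvlmH m * pvccN (𝔓.ty t).yp := by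
    unfold pviwRad pvwRad pvegR
    nlinarith
  linarith

/-- **`fK` is off the own-level box fattened by (less than) `ρ h / 10`** -/
theorem pvez_fK_off (h : PvefNdg 𝔓 m t) {r : ℝ} (hr : r < pviwRad 𝔓 m t + pvegR 𝔓 m / 10) : Disjoint (pveffK 𝔓 m t) (pvwSq 0 r) := by
  rw [Set.disjoint_left]
  rintro w ⟨(hw | hw) | hw, hn⟩
  · exact pvez_funnel_off h hr.le hw fun hM => hn (Or.inr hM)
  · exact Set.disjoint_left.1 (pvez_blocks_off h hr) (Or.inl hw)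
  · exact Set.disjoint_left.1 (pvez_blocks_off h hr) (Or.inr hw.1)

/-- **THE FIELD `fK_off` OF `PvjtWf` AT `fK := pveffK 𝔓`** (collar `3 δ`) -/
theorem pvez_fK_off3 (h : PvefNdg 𝔓 m t) : Disjoint (pveffK 𝔓 m t) (pvwSq 0 (pviwRad 𝔓 m t + 3 * pvlmDel c m)) := by
  have hf := pvef_q217_fine h
  have hd := pvlm_Del_pos c m
  exact pvez_fK_off h (by linarith)

end model

end Claimed.Agent.R289
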