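-- KEEP
import Claimed.Agent.R289.Exit.PinsP
import Claimed.Agent.R289.Exit.RestP
import Claimed.Agent.R289.Exit.ArcRP
import Claimed.Agent.R289.Exit.GeoTP

/-!
# Row 289 (S0537), Exit/TopP : THE TOP OF ROAD P      (pen helper79, second 186; prefix `pvrx_`, `exit_pvrx_`)

`Exit/TrP.lean` (0 sorry) = records + glue + `pvrx_exit_of : PvrxAll 𝔓 → L9ExitTR c`.      `Exit/ParP.lean` (186, 0 sorry) = THE EXPLICIT PARAMETER `pvrzPar c 𝔤 H Γ m0`, its `Wf`, `WfV`, the two roofs AS STATEMENTS `PvrzPins c`, `PvrzRest c 𝔤 H`, the glue `pvrz_all_of`.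
`Exit/RestP.lean` (79, 0 sorry) = THE CUT OF REST at explicit terms, under the contract `PvrsGeoOk` of the data; its two roofs AS STATEMENTS `PvrsGeoSt c 𝔤 H`, `PvrsArcSt H hG`.
THIS FILE imports the roofs and ends in `pvrx_exit : L9ExitTR c`:
* `exit_pvrz_pins := pvxq_main` (8, `Exit/PinsP.lean`: CLOSED, 0 sorry in its closure);
* `exit_pvrs_geo := pveq_geo` (36, `Exit/GeoP.lean`: PROVED AT THE EXPLICIT TERM from five named sub-roofs `exit_pveq_fun _thick _dj _close _cutV`; fields `doors num kit adm` closed);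
* `exit_pvrs_arc := pvus_arc` (286, `Exit/ArcRP.lean`, 0 sorry: CHAIN proved;   the two sub-exits `exit_pvus_reg`, `exit_pvus_close` = statements `PvusRegR`, `PvusCloseR` of that file, SORRIED HERE until the pens land);
* `exit_pvrz_rest := pvrs_rest` (79).
-/

set_option autoImplicit false

namespace Claimed.Agent.R289

/-- **ROOF PINS OF ROAD P** (8) -/
theorem exit_pvrz_pins (c : ℝ) (c0 : 0 < c) : PvrzPins c := pvxq_main c c0

/-- **ROOF GEO OF ROAD P**: the data `(Γ, m0, 𝔶)` exist, with the contract `PvrsGeoOk`      [pen 36 `Exit/GeoP.lean` (P14 of 273), second 270;  arbiter 205] -/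
theorem exit_pvrs_geo (c : ℝ) (c0 : 0 < c) (𝔤 : PvmhNum) (H : PvrzGood 𝔤) (hβ : 0 < 𝔤.β) : PvrsGeoSt c 𝔤 H := pveq_geo c0 H hβ

/-- **SUB-EXIT REG + RUN OF THE ROOF ARC** (`PvusRegR` of 286, `Exit/ArcRP.lean`): for every live black pattern of the patch the regions of the free side exist, with the contract `PvusReg.Ok`
      [212 `Tr/N1RegQ.lean` (generic construction + glue);   236 `Exit/RegRP.lean` (RUN);   222 `Exit/RingRP.lean` (ring lane), `Exit/GlueP.lean`;   147 (hook);   205]      THE PEN'S FILE IMPORTS `Exit/ArcRP.lean`, PROVES `PvusRegR H hG`; this file imports it and cites -/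
theorem exit_pvus_reg (c : ℝ) (c0 : 0 < c) (𝔤 : PvmhNum) (H : PvrzGood 𝔤) (hβ : 0 < 𝔤.β) (Γ : ℕ → PvtsGeo (PvmhT 𝔤)) (m0 : ℕ) (𝔶 : PvydGeo (PvmhT 𝔤)) (hG : PvrsGeoOk c H Γ m0 𝔶) : PvusRegR H hG := by
  sorry

/-- **SUB-EXIT CLOSE OF THE ROOF ARC** (`PvusCloseR` of 286, `Exit/ArcRP.lean`;   TR13 + TR12 + TR14, CYC form of 59 260)
      [pen 260 `Tr/CloseNQ.lean`, `Tr/CloseNA.lean`;   59 `Tr/N1SysC.lean`;   193 95 113 203 (chain side);   147 (white lane);   212] -/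
theorem exit_pvus_close (c : ℝ) (c0 : 0 < c) (𝔤 : PvmhNum) (H : PvrzGood 𝔤) (hβ : 0 < 𝔤.β) (Γ : ℕ → PvtsGeo (PvmhT 𝔤)) (m0 : ℕ) (𝔶 : PvydGeo (PvmhT 𝔤)) (hG : PvrsGeoOk c H Γ m0 𝔶) : PvusCloseR H hG := by
  sorry

/-- **ROOF ARC OF ROAD P** (286) -/
theorem exit_pvrs_arc (c : ℝ) (c0 : 0 < c) (𝔤 : PvmhNum) (H : PvrzGood 𝔤) (hβ : 0 < 𝔤.β) (Γ : ℕ → PvtsGeo (PvmhT 𝔤)) (m0 : ℕ) (𝔶 : PvydGeo (PvmhT 𝔤)) (hG : PvrsGeoOk c H Γ m0 𝔶) :
    PvrsArcSt H hG := pvus_arc c0 H hβ hG (exit_pvus_reg c c0 𝔤 H hβ Γ m0 𝔶 hG) (exit_pvus_close c c0 𝔤 H hβ Γ m0 𝔶 hG)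

/-- **ROOF REST OF ROAD P** (79 `Exit/RestP.lean`) -/
theorem exit_pvrz_rest (c : ℝ) (c0 : 0 < c) (𝔤 : PvmhNum) (H : PvrzGood 𝔤) : PvrzRest c 𝔤 H := pvrs_rest c c0 𝔤 H (exit_pvrs_geo c c0) (exit_pvrs_arc c c0)

/-- **THE SUB-EXIT OF ROAD P**: ONE existential      = `pvrz_all_of` of `Exit/ParP.lean` (186): the cut at the explicit parameter `pvrzPar c 𝔤 H Γ m0` -/
theorem exit_pvrx_all (c : ℝ) (c0 : 0 < c) : ∃ (τ : Type) (_ : Fintype τ) (_ : Nonempty τ) (𝔓 : PvrxPar τ c), PvrxAll 𝔓 :=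
  pvrz_all_of (exit_pvrz_pins c c0) (exit_pvrz_rest c c0)

/-- **THE WALL, ROAD P** -/
theorem pvrx_exit (c : ℝ) (c0 : 0 < c) : L9ExitTR c := by
  obtain ⟨τ, hτ, hne, 𝔓, H⟩ := exit_pvrx_all c c0
  exact pvrx_exit_of c0 H

end Claimed.Agent.R289
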