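import Claimed.Agent.R289.Defs.TrModel
import Claimed.Agent.R289.Tr.Plug

/-!
# Row 289 (S0537), THE WALL, file Exit/TrNum : THE ROOF OF THE NUMBERS `PvhbNum` (`Tr/Hub.lean`, 73)      (pen helper34, second helper259; post of 243 09:26Z; prefix `pvnu_`, `Pvnu`)

`PvhbNum τ c` is DATA: `PvhbLoc N ..` (187, `Exit/Tr.lean`) is stated FOR THE SAME `N`.      So the roof is a DEFINITION, not an existence statement (warning of 259):

      `PvcnFam.toNum (F : PvcnFam δ) (S : PvnuScale τ c δ) (kin0) : PvhbNum τ c`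

* `F : PvcnFam δ`        the cell kits of all levels and meshes + their fields (chapter E, 52 `Tr/CellNum.lean`): gives `W A CA A_bdd cell_a rel_lim` (PROVED there)
* `S : PvnuScale τ c δ`  menu, scales `h r`, doors `Γ m` with `(Γ m).δ = δ m`: explicit numbers (259, 247; = the fields of `PvxPar` of 187)
* `kin0`                 the constant of the reference plug (129: DEFINED ONCE, no field of `PvhbNum` constrains it)
The projections `toNum_W ..` are `rfl`: every roof of LOC may unfold `N.W m ε a = (F.kit m ε).W (pvP ε) (XQ - a XV)`.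
-/

set_option autoImplicit false

namespace Claimed.Agent.R289

open MeasureTheory Filter Topology Set
open scoped ENNReal

/-- **the explicit numbers of the wall**: menu, scales, doors; `δ m` = the mesh of the cells of level `m` -/
structure PvnuScale (τ : Type) (c : ℝ) (δ : ℕ → ℝ) where
  𝔐 : PvbMenu τ
  h : ℕ → ℝ
  r : ℕ → ℝ
  h0 : ∀ m, 0 < h m
  h_lim : Tendsto h atTop (𝓝 0)
  r_lim : Tendsto r atTop (𝓝 0)
  Lh_r : ∀ᶠ m in atTop, 4 * 𝔐.L * h m ≤ r m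
  lim2 : Tendsto (fun m => r m * h m ^ (-1 + c / 2)) atTop (𝓝 0)
  Γ : ℕ → PvtsGeo τ
  Γδ : ∀ m, (Γ m).δ = δ m

/-- **THE NUMBERS OF THE WALL** from the cell kits of chapter E and the explicit scales -/
noncomputable def PvcnFam.toNum {τ : Type} {c : ℝ} {δ : ℕ → ℝ} (F : PvcnFam δ) (S : PvnuScale τ c δ) (kin0 : ℕ → ℝ → ℂ → ℂ) : PvhbNum τ c where
  𝔐 := S.𝔐
  h := S.h
  r := S.r
  h0 := S.h0
  h_lim := S.h_lim
  r_lim := S.r_lim
  Lh_r := S.Lh_r
  lim2 := S.lim2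
  Γ := S.Γ
  W := F.W
  kin0 := kin0
  A := F.A
  CA := F.CA
  A_bdd := F.A_bdd
  cell_a := fun m => by
    filter_upwards [F.cell_a m] with ε h a
    unfold PvtsGeo.a
    rw [S.Γδ]
    exact h a
  rel_lim := F.rel_lim

section proj

variable {τ : Type} {c : ℝ} {δ : ℕ → ℝ} (F : PvcnFam δ) (S : PvnuScale τ c δ) (kin0 : ℕ → ℝ → ℂ → ℂ)

theorem pvnu_W (m : ℕ) (ε : ℝ) (a : ℂ) : (F.toNum S kin0).W m ε a = (F.kit m ε).W (pvP ε) (pvcnY (F.XQ m ε) (F.XV m ε) a) := rfl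
theorem pvnu_menu : (F.toNum S kin0).𝔐 = S.𝔐 := rfl
theorem pvnu_h : (F.toNum S kin0).h = S.h := rfl
theorem pvnu_r : (F.toNum S kin0).r = S.r := rfl
theorem pvnu_geo : (F.toNum S kin0).Γ = S.Γ := rfl
theorem pvnu_kin0 : (F.toNum S kin0).kin0 = kin0 := rfl
theorem pvnu_CA : (F.toNum S kin0).CA = F.CA := rfl

end proj

/-! ## the three numerical fields of `PvxAna` (187, `Defs/TrModel.lean`) at `W := F.W`, `A := F.A`, `CA := F.CA`, `F : PvcnFam (pvlmDel c)` -/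

section ana

variable {τ : Type} {c : ℝ} {𝔓 : PvxPar τ c} (F : PvcnFam (pvlmDel c))

theorem pvnu_A_bdd (m : ℕ) : ∀ᶠ ε in 𝓝[>] (0 : ℝ), ‖F.A m ε‖ ≤ F.CA := F.A_bdd m

theorem pvnu_cell_a (h : 𝔓.Wf) (m : ℕ) : ∀ᶠ ε in 𝓝[>] (0 : ℝ), ∀ a : ℂ, (𝔓.Γ m).a (F.W m ε a) = F.A m ε - a := by
  filter_upwards [F.cell_a m] with ε h1 a
  unfold PvtsGeo.a
  rw [h.del]
  exact h1 a

theorem pvnu_rel_lim (m : ℕ) (a : ℂ) : Tendsto (fun ε => (F.W m ε a).rel) (𝓝[>] (0 : ℝ)) (𝓝 0) := F.rel_lim m a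

end ana

theorem pvnu_eqns_cite : True := by
  have := @PvcnFam.toNum.eq_1
  trivial

end Claimed.Agent.R289
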