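-- KEEP
import Claimed.Agent.R289.Defs.TrModel
import Claimed.Agent.R289.Tr.Lin

/-!
# Row 289 (S0537, Cardy for Poisson-Voronoi), THE WALL, ROAD E, Exit/TrQ : THE ANALYTIC DATA FROM `Q` ALONE      (helper283; prefix `pvyq_`, `Pvyq`)

`Defs/TrModel.lean` (187) asks, under (S3), for `PvxAna 𝔓` : numbers `W kin0 A CA` and random variables `kout kin ke` for the field `y_a = xQ - a xV`, ALL scalars `a`.
`Tr/Lin.lean` sec. 9 (RULING 12 of 234, RULING H2 of 73): nothing in these records ties the `V`-part of the data to a conditional mean, so it may be CHOSEN (virtual cell means `pvtyWV δ`, cut point `cV`).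
This file is the same statement AT THE DATA OF RECORD, cut in TWO INDEPENDENT ROOFS:

* `PvyqQ 𝔓`      = the fields of `PvxAna 𝔓` for `Q` ALONE (no scalar, no `A`, no `cell_a`, no uniformity in `a`)                    producer: 161 (`Tr/InstE.lean` v2) + the roofs num / n1 / cyc1 / thick
* `PvyqV 𝔓`      = `cV` (cut point of a candidate, a function of `(m, ε, z, t, ω)`), a FREE GLOBAL constant `kV m ε`,               producer: 283 (`Exit/TrV.lean`, `exit_pvyq_V`)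
                   `tel`   : (A4) `I_V(P;s,t) = cV(t) - cV(s)` on the arcs which fit a pattern (asked in probability only;  exact in the model on the mesh event: `pvdc_fit_model` of 195),
                   `cV_L2` : `E[1_U |cV - z - z_u - kV|²] ≤ CV h²` (= `thick` for the weight `side`)
* `PvyqQ.toAna`  : `PvyqQ 𝔓 → PvyqV 𝔓 → PvxAna 𝔓`      PROVED
* `pvyq_ana`     : `Nonempty (PvyqQ 𝔓) → Nonempty (PvyqV 𝔓) → Nonempty (PvxAna 𝔓)`      (one line for `exit_pvx_ana`)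
* `PvxAna.toQ`   : `PvxAna 𝔓 → PvyqQ 𝔓` (the scalar `a := 0`): whoever has typed a producer of the old record loses nothing
* sec. 4  REDUCTIONS OF THE TWO FIELDS OF `PvyqV` (model free):  `pvyq_tel_of_det` (an identity off an event of small upper probability),  `pvyq_up_add_bdd` (`L²` + pointwise `O(h)`),
          `PvyqV.ofDet` (the record from these two)
WHAT DISAPPEARS FROM THE DEBT OF (S3): cell means, kits, `Fld`, `Reads`, integrability and forced weights for `V`;  TR28 (i);  N1' and TR3' for `V` or `y_a`;  the scalar.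
-/

set_option autoImplicit false

namespace Claimed.Agent.R289

open MeasureTheory Filter Topology Set Claims.C0465
open scoped ENNReal

section ana

variable {τ : Type} {c : ℝ}

/-! ## 1. the two records -/

/-- **(S3) FOR `Q` ALONE** -/
structure PvyqQ (𝔓 : PvxPar τ c) where
  /-- the three cell means of `Q` -/
  W : ℕ → ℝ → PvtW
  kin0 : ℕ → ℝ → ℂ
  CA : ℝ
  /-- TR28 (ii) -/
  a_bdd : ∀ m, ∀ᶠ ε in 𝓝[>] (0 : ℝ), ‖(𝔓.Γ m).a (W m ε)‖ ≤ CA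
  /-- TR27 -/
  rel_lim : ∀ m, Tendsto (fun ε => (W m ε).rel) (𝓝[>] (0 : ℝ)) (𝓝 0)
  /-- arguments `m ε z t ω` -/
  kout : ℕ → ℝ → ℂ → τ → PVSample → ℂ
  kin : ℕ → ℝ → ℂ → τ → PVSample → ℂ
  ke : ℕ → ℝ → ℂ → τ → PVSample → ℂ
  n1 : ∀ (x : ℂ) (R : ℝ), 0 < R → ∀ (m : ℕ), ∀ π ∈ pvxPatSet 𝔓 x R m, ∀ u : ℝ, 0 < u →
    Tendsto (fun ε => ((pvhbUp ε).P {q | ∃ P ∈ pvhbAll x R (pvMerge q), ∃ s ∈ pvxPins 𝔓 x R m (pvMerge q) P, ∃ t ∈ pvxPins 𝔓 x R m (pvMerge q) P, pvxFit 𝔓 x R m (pvMerge q) P s t π ∧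
      u < ‖pvbArcI 𝔓.𝔐 (pvlmH m) P P.xQ s t +
        (kout m ε t.ctr t.typ (pvMerge q) + pvtSum (W m ε) ((𝔓.Γ m).dout π.p.tt) π.p.l + kin m ε s.ctr s.typ (pvMerge q))‖}).toReal) (𝓝[>] (0 : ℝ)) (𝓝 0)
  cyc1 : ∀ (m : ℕ) (p : ℤ × ℤ) (t : τ), Tendsto (fun ε => (pvhbUp ε).E ((pvMerge ⁻¹' pvxU 𝔓 m (l9Pt (pvlmH m) p) t).indicator fun q =>
    ‖kout m ε (l9Pt (pvlmH m) p) t (pvMerge q) + pvtSum (W m ε) ((𝔓.Γ m).dout t) ((𝔓.Γ m).l1 t) + kin0 m ε + ke m ε (l9Pt (pvlmH m) p) t (pvMerge q)‖ₑ ^ 2)) (𝓝[>] (0 : ℝ)) (𝓝 0)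
  Ce : ℝ
  thick : ∀ (m : ℕ) (p : ℤ × ℤ) (t : τ), ∀ᶠ ε in 𝓝[>] (0 : ℝ),
    (pvhbUp ε).E ((pvMerge ⁻¹' pvxU 𝔓 m (l9Pt (pvlmH m) p) t).indicator fun q => ‖ke m ε (l9Pt (pvlmH m) p) t (pvMerge q)‖ₑ ^ 2) ≤ ENNReal.ofReal (Ce * pvlmH m ^ 2)

/-- **(A4) : THE WHOLE DEBT OF THE WALL FOR `V`** -/
structure PvyqV (𝔓 : PvxPar τ c) where
  /-- the CUT POINT of the candidate `(z,t)` : (marked vertex) − (`V`-mass of the cut-off disc before the pin);   arguments `m ε z t ω` -/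
  cV : ℕ → ℝ → ℂ → τ → PVSample → ℂ
  /-- a free global constant (e.g. the mean of `cV - z - z_u` at the reference plug) -/
  kV : ℕ → ℝ → ℂ
  /-- (A4) -/
  tel : ∀ (x : ℂ) (R : ℝ), 0 < R → ∀ (m : ℕ), ∀ π ∈ pvxPatSet 𝔓 x R m, ∀ u : ℝ, 0 < u →
    Tendsto (fun ε => ((pvhbUp ε).P {q | ∃ P ∈ pvhbAll x R (pvMerge q), ∃ s ∈ pvxPins 𝔓 x R m (pvMerge q) P, ∃ t ∈ pvxPins 𝔓 x R m (pvMerge q) P, pvxFit 𝔓 x R m (pvMerge q) P s t π ∧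
      u < ‖pvbArcI 𝔓.𝔐 (pvlmH m) P P.xV s t - (cV m ε t.ctr t.typ (pvMerge q) - cV m ε s.ctr s.typ (pvMerge q))‖}).toReal) (𝓝[>] (0 : ℝ)) (𝓝 0)
  CV : ℝ
  cV_L2 : ∀ (m : ℕ) (p : ℤ × ℤ) (t : τ), ∀ᶠ ε in 𝓝[>] (0 : ℝ),
    (pvhbUp ε).E ((pvMerge ⁻¹' pvxU 𝔓 m (l9Pt (pvlmH m) p) t).indicator fun q => ‖cV m ε (l9Pt (pvlmH m) p) t (pvMerge q) - l9Pt (pvlmH m) p - (𝔓.Γ m).zu t - kV m ε‖ₑ ^ 2)
      ≤ ENNReal.ofReal (CV * pvlmH m ^ 2)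

/-! ## 2. the glue -/

namespace PvyqQ

variable {𝔓 : PvxPar τ c} (𝔄 : PvyqQ 𝔓) (𝔅 : PvyqV 𝔓)

/-- the cell means of `y_a` -/
noncomputable def WY (m : ℕ) (ε : ℝ) (a : ℂ) : PvtW := (𝔄.W m ε).lin (pvtyWV ((𝔓.Γ m).δ : ℂ)) a

end PvyqQ

namespace PvyqV

variable {𝔓 : PvxPar τ c} (𝔅 : PvyqV 𝔓)

/-- `κ_out` of the virtual `V` -/
def kout (m : ℕ) (ε : ℝ) (z : ℂ) (t : τ) (ω : PVSample) : ℂ := z + (𝔓.Γ m).pout t - 𝔅.cV m ε z t ω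

/-- `κ_in` of the virtual `V` -/
def kin (m : ℕ) (ε : ℝ) (z : ℂ) (t : τ) (ω : PVSample) : ℂ := 𝔅.cV m ε z t ω - z - (𝔓.Γ m).pin t

/-- the thick short link of the virtual `V` -/
def ke (m : ℕ) (ε : ℝ) (z : ℂ) (t : τ) (ω : PVSample) : ℂ := 𝔅.cV m ε z t ω - z - (𝔓.Γ m).zu t - 𝔅.kV m ε

/-- the last link into the reference plug of the virtual `V` -/
def kin0 (m : ℕ) (ε : ℝ) : ℂ := - (𝔓.Γ m).pin0 + 𝔅.kV m ε

end PvyqV

namespace PvyqQ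

variable {𝔓 : PvxPar τ c} (𝔄 : PvyqQ 𝔓) (𝔅 : PvyqV 𝔓)

/-- the defect of (H3) for `y_a` = (defect for `Q`) − `a` (defect of (A4)) -/
theorem n1_eq {x : ℂ} {R : ℝ} {m : ℕ} {ε : ℝ} {ω : PVSample} {P : PvbRim} {s t : PvbPin τ} {π : PvxIx τ} (hok : (𝔓.Γ m).Ok π.p) (hF : pvxFit 𝔓 x R m ω P s t π) (a : ℂ) :
    pvbArcI 𝔓.𝔐 (pvlmH m) P (fun k => P.xQ k - a * P.xV k) s t +
      ((𝔄.kout m ε t.ctr t.typ ω - a * 𝔅.kout m ε t.ctr t.typ ω) + pvtSum (𝔄.WY m ε a) ((𝔓.Γ m).dout π.p.tt) π.p.l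
        + (𝔄.kin m ε s.ctr s.typ ω - a * 𝔅.kin m ε s.ctr s.typ ω))
    = (pvbArcI 𝔓.𝔐 (pvlmH m) P P.xQ s t + (𝔄.kout m ε t.ctr t.typ ω + pvtSum (𝔄.W m ε) ((𝔓.Γ m).dout π.p.tt) π.p.l + 𝔄.kin m ε s.ctr s.typ ω))
      - a * (pvbArcI 𝔓.𝔐 (pvlmH m) P P.xV s t - (𝔅.cV m ε t.ctr t.typ ω - 𝔅.cV m ε s.ctr s.typ ω)) := by
  obtain ⟨⟨hs1, hs2⟩, ⟨ht1, ht2⟩, -⟩ := hF
  rw [pvty_arcI_lin, WY, pvty_lin_sum, pvty_WV_sum, hok.1, PvyqV.kout, PvyqV.kin, ← hs1, ← hs2, ← ht1, ← ht2]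
  ring

/-- the `Σ₁` cycle mean of `y_a` is the one of `Q` -/
theorem cyc1_eq (m : ℕ) (ε : ℝ) (a z : ℂ) (t : τ) (ω : PVSample) :
    (𝔄.kout m ε z t ω - a * 𝔅.kout m ε z t ω) + pvtSum (𝔄.WY m ε a) ((𝔓.Γ m).dout t) ((𝔓.Γ m).l1 t) + (𝔄.kin0 m ε - a * 𝔅.kin0 m ε)
        + (𝔄.ke m ε z t ω - a * 𝔅.ke m ε z t ω)
      = 𝔄.kout m ε z t ω + pvtSum (𝔄.W m ε) ((𝔓.Γ m).dout t) ((𝔓.Γ m).l1 t) + 𝔄.kin0 m ε + 𝔄.ke m ε z t ω := by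
  rw [WY, pvty_lin_sum, pvty_WV_sum, (𝔓.Γ m).l1_disp t, PvyqV.kout, PvyqV.ke, PvyqV.kin0]
  ring

/-- **THE ANALYTIC DATA OF RECORD FROM `Q` ALONE + (A4)** -/
noncomputable def toAna : PvxAna 𝔓 where
  W := 𝔄.WY
  kin0 := fun m ε a => 𝔄.kin0 m ε - a * 𝔅.kin0 m ε
  A := fun m ε => (𝔓.Γ m).a (𝔄.W m ε)
  CA := 𝔄.CA
  A_bdd := 𝔄.a_bdd
  cell_a := fun m => Eventually.of_forall fun ε a => by
    rw [WY, pvty_geo_a, pvty_geo_a_one (𝔓.Γ m) (pvty_WV_a _), mul_one]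
  rel_lim := fun m a => by
    refine (𝔄.rel_lim m).congr fun ε => ?_
    rw [WY, pvty_lin_rel, pvty_WV_rel, mul_zero, sub_zero]
  kout := fun m ε a z t ω => 𝔄.kout m ε z t ω - a * 𝔅.kout m ε z t ω
  kin := fun m ε a z t ω => 𝔄.kin m ε z t ω - a * 𝔅.kin m ε z t ω
  ke := fun m ε a z t ω => 𝔄.ke m ε z t ω - a * 𝔅.ke m ε z t ω
  n1 := fun x R hR a m π hπ u hu => by
    refine pvty_up_tendsto_union pvhbUp (fun ε => ?_) (𝔄.n1 x R hR m π hπ (u / 2) (by positivity)) (𝔅.tel x R hR m π hπ (u / (2 * (‖a‖ + 1))) (by positivity))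
    rintro q ⟨P, hP, s, hs, t, ht, hF, hlt⟩
    rw [𝔄.n1_eq 𝔅 hπ.1.1 hF] at hlt
    rcases pvty_split hlt with h | h
    · exact Or.inl ⟨P, hP, s, hs, t, ht, hF, h⟩
    · exact Or.inr ⟨P, hP, s, hs, t, ht, hF, h⟩
  cyc1 := fun a m p t => by
    simp only [𝔄.cyc1_eq 𝔅]
    exact 𝔄.cyc1 m p t
  Ce := 2 * (1 + 𝔄.CA ^ 2) * |max 𝔄.Ce 𝔅.CV|
  thick := fun a ha m p t => by
    have hh : 0 ≤ pvlmH m ^ 2 := sq_nonneg _
    filter_upwards [𝔄.thick m p t, 𝔅.cV_L2 m p t] with ε h1 h2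
    exact pvty_up_bound_sq _ _ _ _ ha hh
      (h1.trans (ENNReal.ofReal_le_ofReal (mul_le_mul_of_nonneg_right (le_max_left _ _) hh)))
      (h2.trans (ENNReal.ofReal_le_ofReal (mul_le_mul_of_nonneg_right (le_max_right _ _) hh)))

end PvyqQ

/-- **one line for `exit_pvx_ana`** -/
theorem pvyq_ana {𝔓 : PvxPar τ c} (hQ : Nonempty (PvyqQ 𝔓)) (hV : Nonempty (PvyqV 𝔓)) : Nonempty (PvxAna 𝔓) := by
  obtain ⟨𝔄⟩ := hQ
  obtain ⟨𝔅⟩ := hV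
  exact ⟨𝔄.toAna 𝔅⟩

/-! ## 3. the old record at the scalar `0` -/

/-- the `Q`-record contained in a record for all `y_a` -/
noncomputable def PvxAna.toQ {𝔓 : PvxPar τ c} (𝔄 : PvxAna 𝔓) : PvyqQ 𝔓 where
  W := fun m ε => 𝔄.W m ε 0
  kin0 := fun m ε => 𝔄.kin0 m ε 0
  CA := 𝔄.CA
  a_bdd := fun m => by
    filter_upwards [𝔄.A_bdd m, 𝔄.cell_a m] with ε h1 h2
    rw [h2 0, sub_zero]
    exact h1
  rel_lim := fun m => 𝔄.rel_lim m 0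
  kout := fun m ε => 𝔄.kout m ε 0
  kin := fun m ε => 𝔄.kin m ε 0
  ke := fun m ε => 𝔄.ke m ε 0
  n1 := fun x R hR m π hπ u hu => by
    have h := 𝔄.n1 x R hR 0 m π hπ u hu
    simp only [zero_mul, sub_zero] at h
    exact h
  cyc1 := fun m p t => 𝔄.cyc1 0 m p t
  Ce := 𝔄.Ce
  thick := fun m p t => by
    have hCA : 0 ≤ 𝔄.CA := by
      obtain ⟨ε, hε⟩ := (𝔄.A_bdd 0).exists
      exact (norm_nonneg _).trans hε
    exact 𝔄.thick 0 (by rw [norm_zero]; exact hCA) m p t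

/-! ## 4. reductions of the two fields of `PvyqV` -/

/-- **`tel` FROM A DETERMINISTIC IDENTITY OFF A SMALL EVENT** : `Bad x R m ε` has upper probability `→ 0` as `ε → 0` at fixed `m`, and off it every arc which fits a pattern telescopes EXACTLY -/
theorem pvyq_tel_of_det {𝔓 : PvxPar τ c} (cV : ℕ → ℝ → ℂ → τ → PVSample → ℂ) {x : ℂ} {R : ℝ} {m : ℕ} {π : PvxIx τ} (Bad : ℝ → Set (PvGeoT × PvColT))
    (hBad : Tendsto (fun ε => ((pvhbUp ε).P (Bad ε)).toReal) (𝓝[>] (0 : ℝ)) (𝓝 0))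
    (hdet : ∀ ε q, q ∉ Bad ε → ∀ P ∈ pvhbAll x R (pvMerge q), ∀ s ∈ pvxPins 𝔓 x R m (pvMerge q) P, ∀ t ∈ pvxPins 𝔓 x R m (pvMerge q) P, pvxFit 𝔓 x R m (pvMerge q) P s t π →
      pvbArcI 𝔓.𝔐 (pvlmH m) P P.xV s t = cV m ε t.ctr t.typ (pvMerge q) - cV m ε s.ctr s.typ (pvMerge q))
    (u : ℝ) (hu : 0 < u) :
    Tendsto (fun ε => ((pvhbUp ε).P {q | ∃ P ∈ pvhbAll x R (pvMerge q), ∃ s ∈ pvxPins 𝔓 x R m (pvMerge q) P, ∃ t ∈ pvxPins 𝔓 x R m (pvMerge q) P, pvxFit 𝔓 x R m (pvMerge q) P s t π ∧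
      u < ‖pvbArcI 𝔓.𝔐 (pvlmH m) P P.xV s t - (cV m ε t.ctr t.typ (pvMerge q) - cV m ε s.ctr s.typ (pvMerge q))‖}).toReal) (𝓝[>] (0 : ℝ)) (𝓝 0) := by
  refine squeeze_zero (fun ε => ENNReal.toReal_nonneg) (fun ε => ENNReal.toReal_mono (PvUp.P_ne_top _ _) (PvUp.P_mono _ ?_)) hBad
  rintro q ⟨P, hP, s, hs, t, ht, hF, hlt⟩
  by_contra hq
  rw [hdet ε q hq P hP s hs t ht hF, sub_self, norm_zero] at hlt
  exact absurd hlt (not_lt.2 hu.le)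

/-- a constant under an upper expectation -/
theorem pvyq_up_const {Ω : Type} (U : PvUp Ω) (S : Set Ω) (b : ℝ≥0∞) (hb : b ≠ ⊤) : U.E (S.indicator fun _ => b) ≤ b := by
  have h1 : U.E (fun o => b * (S.indicator (fun _ => (1 : ℝ≥0∞)) o)) ≤ b * U.P S := U.smul_le b _ hb
  have h2 : (S.indicator fun _ => b) = fun o => b * (S.indicator (fun _ => (1 : ℝ≥0∞)) o) := by
    funext o
    by_cases ho : o ∈ S
    · rw [indicator_of_mem ho, indicator_of_mem ho, mul_one]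
    · rw [indicator_of_notMem ho, indicator_of_notMem ho, mul_zero]
  rw [h2]
  exact h1.trans ((mul_le_mul_right (U.P_le_one S) b).trans (le_of_eq (mul_one b)))

/-- **`L²` + BOUNDED**: a term which is `O(√s)` pointwise on the event does not spoil an `L²` bound of order `s` -/
theorem pvyq_up_add_bdd {Ω : Type} (U : PvUp Ω) (S : Set Ω) (f g : Ω → ℂ) {C B s : ℝ} (hs : 0 ≤ s) (hg : ∀ o ∈ S, ‖g o‖ ^ 2 ≤ B * s)
    (hf : U.E (S.indicator fun o => ‖f o‖ₑ ^ 2) ≤ ENNReal.ofReal (C * s)) :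
    U.E (S.indicator fun o => ‖f o + g o‖ₑ ^ 2) ≤ ENNReal.ofReal ((2 * |C| + 2 * |B|) * s) := by
  have h1 : ∀ o, (S.indicator fun o => ‖f o + g o‖ₑ ^ 2) o ≤ 2 * (S.indicator fun o => ‖f o‖ₑ ^ 2) o + (S.indicator fun _ => 2 * ENNReal.ofReal (|B| * s)) o := by
    intro o
    by_cases ho : o ∈ S
    · rw [indicator_of_mem ho, indicator_of_mem ho, indicator_of_mem ho]
      have h2 : ‖f o + g o‖ₑ ^ 2 ≤ 2 * ‖f o‖ₑ ^ 2 + 2 * ‖(-1 : ℂ)‖ₑ ^ 2 * ‖g o‖ₑ ^ 2 := by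
        have := pvty_sq_le (f o) (g o) (-1)
        rwa [neg_one_mul, sub_neg_eq_add] at this
      refine h2.trans (add_le_add le_rfl ?_)
      have h3 : ‖(-1 : ℂ)‖ₑ = 1 := by rw [enorm_neg, enorm_one]
      rw [h3, one_pow, mul_one]
      refine mul_le_mul_right ?_ 2
      rw [← ofReal_norm, ← ENNReal.ofReal_pow (norm_nonneg _)]
      exact ENNReal.ofReal_le_ofReal ((hg o ho).trans (mul_le_mul_of_nonneg_right (le_abs_self B) hs))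
    · rw [indicator_of_notMem ho]; exact zero_le
  refine (U.mono h1).trans ((U.add_le _ _).trans ?_)
  have h4 : U.E (fun o => 2 * (S.indicator fun o => ‖f o‖ₑ ^ 2) o) ≤ 2 * ENNReal.ofReal (|C| * s) :=
    (U.smul_le 2 _ (by norm_num)).trans (mul_le_mul_right (hf.trans (ENNReal.ofReal_le_ofReal (mul_le_mul_of_nonneg_right (le_abs_self C) hs))) 2)
  have h5 : U.E (S.indicator fun _ => 2 * ENNReal.ofReal (|B| * s)) ≤ 2 * ENNReal.ofReal (|B| * s) :=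
    pvyq_up_const U S _ (ENNReal.mul_ne_top (by norm_num) ENNReal.ofReal_ne_top)
  refine (add_le_add h4 h5).trans (le_of_eq ?_)
  have e2 : (2 : ℝ≥0∞) = ENNReal.ofReal 2 := by norm_num
  rw [e2, ← ENNReal.ofReal_mul (by norm_num), ← ENNReal.ofReal_mul (by norm_num), ← ENNReal.ofReal_add (by positivity) (by positivity)]
  congr 1
  ring

/-- **THE RECORD `PvyqV` FROM A DETERMINISTIC TELESCOPING OFF SMALL EVENTS AND AN `L²` BOUND UP TO BOUNDED TERMS**.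
`c₀` = the cut point read from the state (no `ε`);   `Bad` = mesh / regularity failure in the patch;   `g` = whatever is `O(h)` pointwise on `U` (e.g. `- z_u`, or the entrance vertex minus the centre). -/
noncomputable def PvyqV.ofDet {𝔓 : PvxPar τ c} (c₀ : ℕ → ℂ → τ → PVSample → ℂ) (kV : ℕ → ℝ → ℂ)
    (Bad : ℂ → ℝ → ℕ → ℝ → Set (PvGeoT × PvColT))
    (hBad : ∀ (x : ℂ) (R : ℝ), 0 < R → ∀ (m : ℕ), (pvxPatSet 𝔓 x R m).Nonempty → Tendsto (fun ε => ((pvhbUp ε).P (Bad x R m ε)).toReal) (𝓝[>] (0 : ℝ)) (𝓝 0))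
    (hdet : ∀ (x : ℂ) (R : ℝ), 0 < R → ∀ (m : ℕ), ∀ π ∈ pvxPatSet 𝔓 x R m, ∀ ε q, q ∉ Bad x R m ε → ∀ P ∈ pvhbAll x R (pvMerge q),
      ∀ s ∈ pvxPins 𝔓 x R m (pvMerge q) P, ∀ t ∈ pvxPins 𝔓 x R m (pvMerge q) P, pvxFit 𝔓 x R m (pvMerge q) P s t π →
      pvbArcI 𝔓.𝔐 (pvlmH m) P P.xV s t = c₀ m t.ctr t.typ (pvMerge q) - c₀ m s.ctr s.typ (pvMerge q))
    (g : ℕ → ℂ → τ → PVSample → ℂ) (C B : ℝ)
    (hg : ∀ (m : ℕ) (p : ℤ × ℤ) (t : τ), ∀ ω ∈ pvxU 𝔓 m (l9Pt (pvlmH m) p) t, ‖g m (l9Pt (pvlmH m) p) t ω‖ ^ 2 ≤ B * pvlmH m ^ 2)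
    (hL2 : ∀ (m : ℕ) (p : ℤ × ℤ) (t : τ), ∀ᶠ ε in 𝓝[>] (0 : ℝ),
      (pvhbUp ε).E ((pvMerge ⁻¹' pvxU 𝔓 m (l9Pt (pvlmH m) p) t).indicator fun q =>
        ‖c₀ m (l9Pt (pvlmH m) p) t (pvMerge q) - l9Pt (pvlmH m) p - (𝔓.Γ m).zu t - kV m ε - g m (l9Pt (pvlmH m) p) t (pvMerge q)‖ₑ ^ 2) ≤ ENNReal.ofReal (C * pvlmH m ^ 2)) :
    PvyqV 𝔓 where
  cV := fun m _ => c₀ m
  kV := kV
  tel := fun x R hR m π hπ u hu => pvyq_tel_of_det (fun m _ => c₀ m) (Bad x R m) (hBad x R hR m ⟨π, hπ⟩) (hdet x R hR m π hπ) u hu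
  CV := 2 * |C| + 2 * |B|
  cV_L2 := fun m p t => by
    filter_upwards [hL2 m p t] with ε h
    have h2 := pvyq_up_add_bdd (pvhbUp ε) (pvMerge ⁻¹' pvxU 𝔓 m (l9Pt (pvlmH m) p) t) _ (fun q => g m (l9Pt (pvlmH m) p) t (pvMerge q)) (sq_nonneg (pvlmH m))
      (fun q hq => hg m p t (pvMerge q) hq) h
    simpa only [sub_add_cancel] using h2

end ana

theorem pvyq_eqns_cite : True := by
  have := @PvyqQ.WY.eq_1; have := @PvyqV.kout.eq_1; have := @PvyqV.kin.eq_1; have := @PvyqV.ke.eq_1; have := @PvyqV.kin0.eq_1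
  have := @PvyqQ.toAna.eq_1; have := @PvxAna.toQ.eq_1; have := @PvyqV.ofDet.eq_1
  trivial

end Claimed.Agent.R289
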