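-- KEEP
import Claimed.Agent.R289.Exit.AnaDefs
import Claimed.Agent.R289.Exit.Par
import Claimed.Agent.R289.Exit.Thick
import Claimed.Agent.R289.Exit.TrQ
import Claimed.Agent.R289.Tr.Dict

/-!
# Row 289 (S0537), THE WALL, ROAD E, file Exit/TrVB : THE FIELD `V` = sub-exit (7) `exit_pvyq_V`, CUT INTO LEAVES, GLUE PROVED      (helper61, second of BOX:TR-V, post of 24 11:13Z; prefix `pvvb`, `Pvvb`)

RECORD TO PRODUCE (271, `Exit/AnaDefs.lean`): `PvnaVL 𝔓 m0 Gd` = `cV kV tel CV cV_L2`.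
* `cV := fun m _ => pvdcCVm 𝔓 m` = the cut point of THE state (195, `Tr/Dict.lean` sec. 13);   `tel := pvdc_tel_prob_b` (195, PROVED, all levels, any good part).
* `cV_L2` is NOT deterministic (RULING 19 (6) of 234): it is `thick` for the weight `side`.      THE TRAP: the identity `ke^side = cV - z - z_u - kV` is an identity of BOCHNER integrals; it is FALSE at a base where the cut point of the reference plug is not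
  integrable along the experiment (then `ke = 0`).      THIS FILE AVOIDS IT: lower integrals only, no integrability, no Jensen, `kV` := a NEAR MINIMISER of the second moment of the reference plug (no bound on `kV` is needed: free constant of the record).
THE ARGUMENT (one candidate `(z,t)`, one mesh; vocabulary of `Exit/Thick.lean` sec. 1 of 7).      `X ω = cV(ω) - z - z_u`;   `ξ η` = (cut point of the reference plug in the virtual configuration `η`) `- z - z_u`;   `R p` = the experiment at the base `ω`;   `w Y` at the base data `β ω`;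
`J ω = ∫⁻ w (R p) |Y (R p)|²`.      At a good base:
      (mass) `∫⁻ w (R p) = 1`      (tele) `w (R p) ≠ 0 → Y (R p) = X ω - ξ (R p)`      (ref) `∫⁻ w (R p) |ξ (R p) - k|² = Vf k` for ALL `k`, `Vf` FREE OF THE BASE AND OF `(z,t)`      (meas) `p ↦ w (R p) |ξ (R p) - k|²` a.e. measurable.
Choose `k₀` with `Vf k₀ ≤ Vf k + s` for all `k` (`pvvb_near_min`).      Then `|X ω - k₀|² = ∫⁻ w |X ω - k₀|² ≤ 2 J ω + 2 Vf k₀ ≤ 2 J ω + 2 (Vf (X ω) + s) = 4 J ω + 2 s`      (`pvvb_point`),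
and `E[1_B F] ≤ q'⁻¹ q⁻¹ C_B |M|` for EVERY `F ≤ J` on `B` is the chain of 7 WITHOUT Jensen (`pvek_besF`, `Exit/Thick.lean` v3: `bd`, `ins`, `rec` + I.BES, invariance of the law): take `F = (|X - k₀|² - 2 s) / 4`.
* sec. 1  measure theory: `pvvb_near_min`, `pvvb_sq_add`, `pvvb_meas_of` ((meas) from the sections of `w`, `Y`), **`pvvb_point`**, `pvvb_unF` (upper expectations)
* sec. 2  one candidate, one mesh, model free: **`pvvb_F_le`**, **`pvvb_bes`**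
* sec. 3  at the model: `pvvbCV` (the cut point on `Conf PvPt`; `pvvb_CV_conf`), `PvvbDat τ` (`D : PvekDat τ` of 7 + `xi Vf`), THE LEAVES `PvvbDat.At`, `PvvbDat.Ok`, `PvvbDat.kV`, **`pvvb_cV_L2`**, **`PvvbDat.toV : PvnaVL 𝔓 m0 Gd`**, `PvvbEx`, `pvvb_exit` (at `pvxParOf N hN c`)
THE REFERENCE PLUG IS ABSTRACT HERE (`xi` = ANY function of the virtual configuration with (tele), (ref)): marked plug (cut point at the mark) or door type plug cut in space (RULING 20 (2): `xi = pos g⁻(u) + ` mass of `inn(u)` in the dropped half of `rO` `- z - z_u`).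
OWNERS OF THE LEAVES.   `D.At 𝔓 pvbeWV ..` = the leaves of `thick` at the weight `side` (7 223 103 99 96 118 132).      `mass` = TR1 with EQUALITY (forced on `Gd`: 103 141 256).      `tele` = `pvdc_val_side` (195) + the state of `t` is frozen + Sure / Loc ⟹ plain (189).
`ref` = marginal of the weighted experiment on the plug region + translation / flip covariance (150 `Tr/InvL`, 193 `DomCov`).      `mw mY` = sections of the weight and of the value (free for `pvilSure`, `pvilLoc`: measurable on `Conf PvPt` + `pvdy_measurable_R`).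
-/

set_option autoImplicit false

namespace Claimed.Agent.R289

open Set MeasureTheory Filter Topology Claims.C0465
open scoped ENNReal

/-! ## 1. measure theory -/

section abs

/-- a near minimiser -/
theorem pvvb_near_min {κ : Type} [Nonempty κ] (Vf : κ → ℝ≥0∞) {s : ℝ≥0∞} (hs : s ≠ 0) : ∃ k₀, ∀ k, Vf k₀ ≤ Vf k + s := by
  by_cases hI : (⨅ k, Vf k) = ⊤
  · obtain ⟨k₀⟩ := ‹Nonempty κ›
    refine ⟨k₀, fun k => ?_⟩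
    rw [iInf_eq_top] at hI
    rw [hI k, top_add]
    exact le_top
  · obtain ⟨k₀, hk₀⟩ := iInf_lt_iff.1 (ENNReal.lt_add_right hI hs)
    exact ⟨k₀, fun k => hk₀.le.trans (add_le_add (iInf_le _ k) le_rfl)⟩

theorem pvvb_sq_add (a b : ℂ) : ‖a + b‖ₑ ^ 2 ≤ 2 * ‖a‖ₑ ^ 2 + 2 * ‖b‖ₑ ^ 2 := by
  have h := pvty_sq_le a b (-1)
  rw [neg_one_mul, sub_neg_eq_add, enorm_neg, enorm_one, one_pow, mul_one] at h
  exact h

/-- **THE POINTWISE STEP**: a number `X` which differs from a random `ξ` by `Y` under a weight of mass one is within `4 ∫ w |Y|² + 2 s` of every `s`-near minimiser of `k ↦ ∫ w |ξ - k|²`.      Lower integrals; nothing is asked of `Y`. -/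
theorem pvvb_point {α : Type} [MeasurableSpace α] {ν : Measure α} (w : α → ℝ≥0∞) (Y ξ : α → ℂ) (X k₀ : ℂ) (s : ℝ≥0∞)
    (mξ : AEMeasurable (fun p => w p * ‖ξ p - k₀‖ₑ ^ 2) ν) (mass : ∫⁻ p, w p ∂ν = 1) (tele : ∀ᵐ p ∂ν, w p ≠ 0 → Y p = X - ξ p)
    (hk : ∫⁻ p, w p * ‖ξ p - k₀‖ₑ ^ 2 ∂ν ≤ ∫⁻ p, w p * ‖ξ p - X‖ₑ ^ 2 ∂ν + s) :
    ‖X - k₀‖ₑ ^ 2 ≤ 4 * ∫⁻ p, w p * ‖Y p‖ₑ ^ 2 ∂ν + 2 * s := by
  have hfin : ‖X - k₀‖ₑ ^ 2 ≠ ∞ := ENNReal.pow_ne_top enorm_ne_top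
  have e1 : ‖X - k₀‖ₑ ^ 2 = ∫⁻ p, ‖X - k₀‖ₑ ^ 2 * w p ∂ν := by rw [lintegral_const_mul' _ _ hfin, mass, mul_one]
  have e2 : ∫⁻ p, w p * ‖ξ p - X‖ₑ ^ 2 ∂ν = ∫⁻ p, w p * ‖Y p‖ₑ ^ 2 ∂ν := by
    refine lintegral_congr_ae ?_
    filter_upwards [tele] with p hp
    by_cases h0 : w p = 0
    · rw [h0, zero_mul, zero_mul]
    · rw [hp h0, ← enorm_neg (X - ξ p), neg_sub]
  have e3 : ∫⁻ p, ‖X - k₀‖ₑ ^ 2 * w p ∂ν ≤ ∫⁻ p, (2 * (w p * ‖Y p‖ₑ ^ 2) + 2 * (w p * ‖ξ p - k₀‖ₑ ^ 2)) ∂ν := by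
    refine lintegral_mono_ae ?_
    filter_upwards [tele] with p hp
    by_cases h0 : w p = 0
    · rw [h0, mul_zero]; exact zero_le
    · have h1 : X - k₀ = Y p + (ξ p - k₀) := by rw [hp h0]; ring
      rw [h1]
      calc ‖Y p + (ξ p - k₀)‖ₑ ^ 2 * w p ≤ (2 * ‖Y p‖ₑ ^ 2 + 2 * ‖ξ p - k₀‖ₑ ^ 2) * w p := mul_le_mul' (pvvb_sq_add _ _) le_rfl
        _ = 2 * (w p * ‖Y p‖ₑ ^ 2) + 2 * (w p * ‖ξ p - k₀‖ₑ ^ 2) := by ring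
  rw [e1]
  refine e3.trans ?_
  rw [lintegral_add_right' _ (mξ.const_mul 2), lintegral_const_mul' _ _ (by norm_num), lintegral_const_mul' _ _ (by norm_num)]
  rw [e2] at hk
  calc 2 * ∫⁻ p, w p * ‖Y p‖ₑ ^ 2 ∂ν + 2 * ∫⁻ p, w p * ‖ξ p - k₀‖ₑ ^ 2 ∂ν
      ≤ 2 * ∫⁻ p, w p * ‖Y p‖ₑ ^ 2 ∂ν + 2 * (∫⁻ p, w p * ‖Y p‖ₑ ^ 2 ∂ν + s) := by gcongr
    _ = 4 * ∫⁻ p, w p * ‖Y p‖ₑ ^ 2 ∂ν + 2 * s := by ring

/-- (meas) from the sections of the weight and of the value -/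
theorem pvvb_meas_of {α : Type} [MeasurableSpace α] {ν : Measure α} {w : α → ℝ≥0∞} {Y ξ : α → ℂ} {X : ℂ} (mw : AEMeasurable w ν) (mY : AEMeasurable Y ν)
    (tele : ∀ᵐ p ∂ν, w p ≠ 0 → Y p = X - ξ p) (k : ℂ) : AEMeasurable (fun p => w p * ‖ξ p - k‖ₑ ^ 2) ν := by
  have h1 : AEMeasurable (fun p => w p * ‖X - Y p - k‖ₑ ^ 2) ν := mw.mul (((aemeasurable_const.sub mY).sub aemeasurable_const).enorm.pow_const 2)
  refine h1.congr ?_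
  filter_upwards [tele] with p hp
  by_cases h0 : w p = 0
  · rw [h0, zero_mul, zero_mul]
  · rw [hp h0, sub_sub_cancel]

/-- from `E[1_S (a - 2 s) / 4] ≤ K` to `E[1_S a] ≤ 4 K + 2 s` -/
theorem pvvb_unF {Ω : Type} (U : PvUp Ω) (S : Set Ω) (a : Ω → ℝ≥0∞) {s K : ℝ≥0∞} (hs : s ≠ ∞) (h : U.E (S.indicator fun o => (a o - 2 * s) / 4) ≤ K) :
    U.E (S.indicator a) ≤ 4 * K + 2 * s := by
  have h1 : ∀ o, S.indicator a o ≤ 4 * (S.indicator fun o => (a o - 2 * s) / 4) o + (S.indicator fun _ => 2 * s) o := by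
    intro o
    by_cases ho : o ∈ S
    · rw [indicator_of_mem ho, indicator_of_mem ho, indicator_of_mem ho, ENNReal.mul_div_cancel (by norm_num) (by norm_num)]
      exact le_tsub_add
    · rw [indicator_of_notMem ho]; exact zero_le
  refine (U.mono h1).trans ((U.add_le _ _).trans (add_le_add ?_ ?_))
  · exact (U.smul_le 4 _ (by norm_num)).trans (mul_le_mul' le_rfl h)
  · exact pvyq_up_const U S _ (ENNReal.mul_ne_top (by norm_num) hs)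

end abs

/-! ## 2. one candidate, one mesh -/

section one

variable {ι : Type} {Ok : Set ℂ → Prop} {C : Set ℂ} {ε : ℝ} {β : Conf PvPt → ι} {y : ι → Set ℂ} {w : ι → Conf PvPt → ℝ≥0∞} {Y : ι → Conf PvPt → ℂ}
  {A A' : ι → Set (Conf PvPt)} {B : Set (Conf PvPt)} {q q' CB : ℝ≥0∞} {W : Set ℂ → ℂ × ℂ → ℂ} {M : Set ℂ}

/-- **THE POINTWISE STEP IN THE VOCABULARY OF 7**: `(|X - k₀|² - 2 s) / 4 ≤ pvekJ` at almost every good base.      `X` = (cut point of the candidate) − (centre of its reference plug), a function of the base;   `ξ` = the same for the reference plug, read on the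
virtual configuration;   `Vf` = the second moments of the reference plug;   `k₀` = an `s`-near minimiser of `Vf`. -/
theorem pvvb_F_le (X ξ : Conf PvPt → ℂ) (Vf : ℂ → ℝ≥0∞) (k₀ : ℂ) (s : ℝ≥0∞) (hk₀ : ∀ k, Vf k₀ ≤ Vf k + s)
    (hmw : ∀ᵐ ω ∂pvP ε, ω ∈ B → AEMeasurable (fun p => w (β ω) (pvdyR C (fun _ => y (β ω)) ω p)) (pvdyNu ε))
    (hmY : ∀ᵐ ω ∂pvP ε, ω ∈ B → AEMeasurable (fun p => Y (β ω) (pvdyR C (fun _ => y (β ω)) ω p)) (pvdyNu ε))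
    (hmass : ∀ᵐ ω ∂pvP ε, ω ∈ B → ∫⁻ p, w (β ω) (pvdyR C (fun _ => y (β ω)) ω p) ∂pvdyNu ε = 1)
    (htele : ∀ᵐ ω ∂pvP ε, ω ∈ B → ∀ᵐ p ∂pvdyNu ε, w (β ω) (pvdyR C (fun _ => y (β ω)) ω p) ≠ 0 → Y (β ω) (pvdyR C (fun _ => y (β ω)) ω p) = X ω - ξ (pvdyR C (fun _ => y (β ω)) ω p))
    (href : ∀ᵐ ω ∂pvP ε, ω ∈ B → ∀ k, ∫⁻ p, w (β ω) (pvdyR C (fun _ => y (β ω)) ω p) * ‖ξ (pvdyR C (fun _ => y (β ω)) ω p) - k‖ₑ ^ 2 ∂pvdyNu ε = Vf k) :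
    ∀ᵐ ω ∂pvP ε, ω ∈ B → (‖X ω - k₀‖ₑ ^ 2 - 2 * s) / 4 ≤ pvekJ ε C β y w Y ω := by
  filter_upwards [hmw, hmY, hmass, htele, href] with ω h1 h2 h3 h4 h5 hω
  have hp := pvvb_point _ _ _ (X ω) k₀ s (pvvb_meas_of (h1 hω) (h2 hω) (h4 hω) k₀) (h3 hω) (h4 hω) (by rw [h5 hω, h5 hω]; exact hk₀ _)
  rw [ENNReal.div_le_iff (by norm_num) (by norm_num), tsub_le_iff_right, mul_comm]
  exact hp

/-- **`cV_L2`, ONE CANDIDATE, ONE MESH, MODEL FREE** (chain of 7 + I.BES) -/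
theorem pvvb_bes (hB : PvbeIn W CB) (hε : 0 < ε) (b : Bool) (hC : MeasurableSet C) (hok : ∀ᵐ ω ∂pvP ε, Ok (cfSites ω)) (hS : PvktStop Ok (fun η => y (β η)))
    (hq : q ≠ 0) (hq0 : q' ≠ 0) (hqt : q' ≠ ∞)
    (hbd : ∀ᵐ ω ∂pvP ε, ω ∈ B → ∀ᵐ p ∂pvdyNu ε, w (β ω) (pvdyR C (fun _ => y (β ω)) ω p) ≤ q⁻¹ * (A (β ω)).indicator 1 (pvdyR C (fun _ => y (β ω)) ω p))
    (hins : ∀ᵐ ω ∂pvP ε, ω ∈ B → ∀ G : Conf PvPt → ℝ≥0∞, Measurable G → (∀ η, η ∈ A (β ω) → η ∈ A' (β ω) → ‖Y (β ω) η‖ₑ ^ 2 ≤ G η) →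
      q' * ∫⁻ p, (A (β ω)).indicator (fun η => ‖Y (β ω) η‖ₑ ^ 2) (pvdyR C (fun _ => y (β ω)) ω p) ∂pvdyNu ε ≤ ∫⁻ p, G (pvdyR C (fun _ => y (β ω)) ω p) ∂pvdyNu ε)
    (hM : MeasurableSet M) (hb : Bornology.IsBounded M)
    (hrec : ∀ᵐ η ∂pvP ε, ∀ i, η ∈ A i → η ∈ A' i → ∃ x, pvbeTag (pvktFl b η) x ∧ Y i η = pvbeLab W (M.indicator 1) (pvktFl b η) x)
    (X ξ : Conf PvPt → ℂ) (Vf : ℂ → ℝ≥0∞) (k₀ : ℂ) (s : ℝ≥0∞) (hk₀ : ∀ k, Vf k₀ ≤ Vf k + s)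
    (hmw : ∀ᵐ ω ∂pvP ε, ω ∈ B → AEMeasurable (fun p => w (β ω) (pvdyR C (fun _ => y (β ω)) ω p)) (pvdyNu ε))
    (hmY : ∀ᵐ ω ∂pvP ε, ω ∈ B → AEMeasurable (fun p => Y (β ω) (pvdyR C (fun _ => y (β ω)) ω p)) (pvdyNu ε))
    (hmass : ∀ᵐ ω ∂pvP ε, ω ∈ B → ∫⁻ p, w (β ω) (pvdyR C (fun _ => y (β ω)) ω p) ∂pvdyNu ε = 1)
    (htele : ∀ᵐ ω ∂pvP ε, ω ∈ B → ∀ᵐ p ∂pvdyNu ε, w (β ω) (pvdyR C (fun _ => y (β ω)) ω p) ≠ 0 → Y (β ω) (pvdyR C (fun _ => y (β ω)) ω p) = X ω - ξ (pvdyR C (fun _ => y (β ω)) ω p))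
    (href : ∀ᵐ ω ∂pvP ε, ω ∈ B → ∀ k, ∫⁻ p, w (β ω) (pvdyR C (fun _ => y (β ω)) ω p) * ‖ξ (pvdyR C (fun _ => y (β ω)) ω p) - k‖ₑ ^ 2 ∂pvdyNu ε = Vf k) :
    (pvhbUp ε).E (fun x => B.indicator (fun ω => (‖X ω - k₀‖ₑ ^ 2 - 2 * s) / 4) (pvConf (pvMerge x))) ≤ q'⁻¹ * (q⁻¹ * (CB * volume M)) :=
  pvek_besF hB hε b hC hok hS hq hq0 hqt (pvvb_F_le X ξ Vf k₀ s hk₀ hmw hmY hmass htele href) hbd hins hM hb hrec

end one

/-! ## 3. at the model -/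

section model

variable {τ : Type} {c : ℝ}

open Classical in
/-- **THE CUT POINT OF THE CANDIDATE `(z,t)` ON CONFIGURATIONS** (`0` if the candidate is not usable);   `= pvdcCVm` of 195 on samples (`pvvb_CV_conf`) -/
noncomputable def pvvbCV (𝔓 : PvxPar τ c) (m : ℕ) (z : ℂ) (t : τ) (η : Conf PvPt) : ℂ :=
  if h : ∃ 𝔖 : PvwSt (pvieT η), PvieAt 𝔓.num (𝔓.col t) (𝔓.pl m z t) η 𝔖 then pvdcCV h.choose (pviePos η) z (𝔓.num.m * pvlmH m) else 0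

/-- the cut point of record is a function of the configuration -/
theorem pvvb_CV_conf (𝔓 : PvxPar τ c) (m : ℕ) (z : ℂ) (t : τ) (ω : PVSample) : pvdcCVm 𝔓 m z t ω = pvvbCV 𝔓 m z t (pvConf ω) := by
  by_cases h : ∃ 𝔖 : PvwSt (pvieT (pvConf ω)), PvieAt 𝔓.num (𝔓.col t) (𝔓.pl m z t) (pvConf ω) 𝔖
  · rw [pvvbCV, dif_pos h]
    exact pvdc_CVm_eq ((pvie_at_iff 𝔓 m ω z t h.choose).2 h.choose_spec)
  · have h' : ¬ ∃ 𝔖 : PvwSt (pvxT ω), PvxAt 𝔓 m ω z t 𝔖 := fun ⟨𝔖, h𝔖⟩ => h ⟨𝔖, (pvie_at_iff 𝔓 m ω z t 𝔖).1 h𝔖⟩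
    rw [pvvbCV, dif_neg h, pvdcCVm, dif_neg h']

/-- the cut point on configurations is read on ANY state -/
theorem pvvb_CV_eq {𝔓 : PvxPar τ c} {m : ℕ} {z : ℂ} {t : τ} {ω : PVSample} {𝔖 : PvwSt (pvxT ω)} (hA : PvxAt 𝔓 m ω z t 𝔖) :
    pvvbCV 𝔓 m z t (pvConf ω) = pvdcCV 𝔖 (pvxPos ω) z (𝔓.num.m * pvlmH m) := by
  rw [← pvvb_CV_conf, pvdc_CVm_eq hA]

/-- **THE DATA OF `cV_L2`**: the data of the thick short link of 7 (at the weight `side`) + the reference plug seen by `V` -/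
structure PvvbDat (τ : Type) where
  /-- the experiment of the thick short link, base indexed (`Y` = its value for the weight `side`) -/
  D : PvekDat τ
  /-- arguments `m ε z t η`: (cut point of the reference plug of the candidate `(z,t)` in the VIRTUAL configuration `η`) `- z - z_u(t)` -/
  xi : ℕ → ℝ → ℂ → τ → Conf PvPt → ℂ
  /-- arguments `m ε k`: the second moment of `xi - k` under the reference law.      NO base, NO `(z,t)` -/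
  Vf : ℕ → ℝ → ℂ → ℝ≥0∞

/-- **THE LEAVES OF `cV_L2` WHICH ARE NOT LEAVES OF `thick`**, one candidate, one mesh -/
structure PvvbDat.At (𝔙 : PvvbDat τ) (𝔓 : PvxPar τ c) (m : ℕ) (ε : ℝ) (z : ℂ) (t : τ) : Prop where
  /-- the sections of the weight and of the value along the experiment of a good base -/
  mw : ∀ᵐ ω ∂pvP ε, ω ∈ 𝔙.D.B 𝔓 m ε z t → AEMeasurable (fun p => 𝔙.D.w m ε z t (𝔙.D.β m ε z t ω) (𝔙.D.R m ε z t ω p)) (pvdyNu ε)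
  mY : ∀ᵐ ω ∂pvP ε, ω ∈ 𝔙.D.B 𝔓 m ε z t → AEMeasurable (fun p => 𝔙.D.Y m ε z t (𝔙.D.β m ε z t ω) (𝔙.D.R m ε z t ω p)) (pvdyNu ε)
  /-- TR1 with EQUALITY (the reference plug is admitted, the thick link is forced at a good base) -/
  mass : ∀ᵐ ω ∂pvP ε, ω ∈ 𝔙.D.B 𝔓 m ε z t → ∫⁻ p, 𝔙.D.w m ε z t (𝔙.D.β m ε z t ω) (𝔙.D.R m ε z t ω p) ∂pvdyNu ε = 1
  /-- TELESCOPING along the thick link at the virtual configuration; the cut point of the candidate is FROZEN along the experiment -/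
  tele : ∀ᵐ ω ∂pvP ε, ω ∈ 𝔙.D.B 𝔓 m ε z t → ∀ᵐ p ∂pvdyNu ε, 𝔙.D.w m ε z t (𝔙.D.β m ε z t ω) (𝔙.D.R m ε z t ω p) ≠ 0 →
    𝔙.D.Y m ε z t (𝔙.D.β m ε z t ω) (𝔙.D.R m ε z t ω p) = (pvvbCV 𝔓 m z t ω - z - (𝔓.Γ m).zu t) - 𝔙.xi m ε z t (𝔙.D.R m ε z t ω p)
  /-- THE REFERENCE LAW: the law of `xi` under the weighted experiment depends neither on the base nor on the candidate -/
  ref : ∀ᵐ ω ∂pvP ε, ω ∈ 𝔙.D.B 𝔓 m ε z t → ∀ k : ℂ,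
    ∫⁻ p, 𝔙.D.w m ε z t (𝔙.D.β m ε z t ω) (𝔙.D.R m ε z t ω p) * ‖𝔙.xi m ε z t (𝔙.D.R m ε z t ω p) - k‖ₑ ^ 2 ∂pvdyNu ε = 𝔙.Vf m ε k

/-- **THE LEAVES OF `cV_L2`**, levels `m0 ≤ m` -/
structure PvvbDat.Ok (𝔙 : PvvbDat τ) (𝔓 : PvxPar τ c) (m0 : ℕ) (q q' : ℝ≥0∞) (L : ℝ) : Prop where
  q0 : q ≠ 0
  q'0 : q' ≠ 0
  q't : q' ≠ ∞
  mM : ∀ m z t, MeasurableSet (𝔙.D.M m z t)
  sub : ∀ m z t, 𝔙.D.M m z t ⊆ Metric.closedBall z (L * pvlmH m)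
  /-- the leaves of `thick` at the weight `side` -/
  thk : ∀ (m : ℕ), m0 ≤ m → ∀ (p : ℤ × ℤ) (t : τ), ∀ᶠ ε in 𝓝[>] (0 : ℝ), 𝔙.D.At 𝔓 pvbeWV q q' m ε (l9Pt (pvlmH m) p) t
  ev : ∀ (m : ℕ), m0 ≤ m → ∀ (p : ℤ × ℤ) (t : τ), ∀ᶠ ε in 𝓝[>] (0 : ℝ), 𝔙.At 𝔓 m ε (l9Pt (pvlmH m) p) t

theorem pvvb_h2_ne (m : ℕ) : ENNReal.ofReal (pvlmH m ^ 2) ≠ 0 := by
  have := pvlm_H_pos m
  simp only [ne_eq, ENNReal.ofReal_eq_zero, not_le]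
  positivity

/-- **THE FREE CONSTANT** := an `h²`-near minimiser of the second moment of the reference plug -/
noncomputable def PvvbDat.kV (𝔙 : PvvbDat τ) (m : ℕ) (ε : ℝ) : ℂ := (pvvb_near_min (𝔙.Vf m ε) (pvvb_h2_ne m)).choose

theorem PvvbDat.kV_spec (𝔙 : PvvbDat τ) (m : ℕ) (ε : ℝ) (k : ℂ) : 𝔙.Vf m ε (𝔙.kV m ε) ≤ 𝔙.Vf m ε k + ENNReal.ofReal (pvlmH m ^ 2) :=
  (pvvb_near_min (𝔙.Vf m ε) (pvvb_h2_ne m)).choose_spec k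

theorem pvvb_eqns_cite : True := by
  have := @pvvbCV.eq_1; have := @PvvbDat.kV.eq_1
  trivial

/-- **THE FIELD `cV_L2` OF `PvnaVL`, VERBATIM**, over any good part inside the good configurations of the datum -/
theorem pvvb_cV_L2 {𝔙 : PvvbDat τ} {𝔓 : PvxPar τ c} {m0 : ℕ} {q q' : ℝ≥0∞} {L : ℝ} (h : 𝔙.Ok 𝔓 m0 q q' L)
    {Gd : ℕ → ℝ → ℂ → τ → Set PVSample} (hG : ∀ m ε z t, Gd m ε z t ⊆ pvConf ⁻¹' 𝔙.D.Gd m ε z t) :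
    ∀ (m : ℕ), m0 ≤ m → ∀ (p : ℤ × ℤ) (t : τ), ∀ᶠ ε in 𝓝[>] (0 : ℝ),
    (pvhbUp ε).E ((pvMerge ⁻¹' pvxU 𝔓 m (l9Pt (pvlmH m) p) t ∩ pvMerge ⁻¹' Gd m ε (l9Pt (pvlmH m) p) t).indicator fun x =>
      ‖pvdcCVm 𝔓 m (l9Pt (pvlmH m) p) t (pvMerge x) - l9Pt (pvlmH m) p - (𝔓.Γ m).zu t - 𝔙.kV m ε‖ₑ ^ 2) ≤ ENNReal.ofReal ((4 * pvktCe q q' pvbeCB L + 2) * pvlmH m ^ 2) := by
  intro m hm p t
  filter_upwards [h.thk m hm p t, h.ev m hm p t, self_mem_nhdsWithin] with ε hA hV hε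
  obtain ⟨Ok, hok, hS⟩ := hA.stop
  have k := pvvb_bes (B := 𝔙.D.B 𝔓 m ε (l9Pt (pvlmH m) p) t) pvbe_in_V hε (𝔓.col t) hA.mC hok hS h.q0 h.q'0 h.q't hA.bd hA.ins
    (h.mM m _ t) (Metric.isBounded_closedBall.subset (h.sub m _ t)) hA.recog
    (fun ω => pvvbCV 𝔓 m (l9Pt (pvlmH m) p) t ω - l9Pt (pvlmH m) p - (𝔓.Γ m).zu t) (𝔙.xi m ε (l9Pt (pvlmH m) p) t) (𝔙.Vf m ε) (𝔙.kV m ε) (ENNReal.ofReal (pvlmH m ^ 2))
    (𝔙.kV_spec m ε) hV.mw hV.mY hV.mass hV.tele hV.ref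
  have k2 := k.trans (pvkt_Ce_le h.q0 h.q'0 pvbe_CB_ne_top (h.sub m _ t))
  have k3 : (pvhbUp ε).E ((pvMerge ⁻¹' pvxU 𝔓 m (l9Pt (pvlmH m) p) t ∩ pvMerge ⁻¹' Gd m ε (l9Pt (pvlmH m) p) t).indicator fun x =>
      (‖pvdcCVm 𝔓 m (l9Pt (pvlmH m) p) t (pvMerge x) - l9Pt (pvlmH m) p - (𝔓.Γ m).zu t - 𝔙.kV m ε‖ₑ ^ 2 - 2 * ENNReal.ofReal (pvlmH m ^ 2)) / 4)
      ≤ ENNReal.ofReal (pvktCe q q' pvbeCB L * pvlmH m ^ 2) := by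
    refine ((pvhbUp ε).mono fun x => ?_).trans k2
    by_cases hx : x ∈ pvMerge ⁻¹' pvxU 𝔓 m (l9Pt (pvlmH m) p) t ∩ pvMerge ⁻¹' Gd m ε (l9Pt (pvlmH m) p) t
    · have hx' : pvConf (pvMerge x) ∈ 𝔙.D.B 𝔓 m ε (l9Pt (pvlmH m) p) t := ⟨⟨pvMerge x, hx.1, rfl⟩, hG _ _ _ _ hx.2⟩
      rw [indicator_of_mem hx, indicator_of_mem hx', pvvb_CV_conf]
    · rw [indicator_of_notMem hx]; exact zero_le
  refine (pvvb_unF (pvhbUp ε) _ _ ENNReal.ofReal_ne_top k3).trans (le_of_eq ?_)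
  have hCe : 0 ≤ pvktCe q q' pvbeCB L := ENNReal.toReal_nonneg
  have hh : 0 ≤ pvlmH m ^ 2 := sq_nonneg _
  have e4 : (4 : ℝ≥0∞) = ENNReal.ofReal 4 := by norm_num
  have e2 : (2 : ℝ≥0∞) = ENNReal.ofReal 2 := by norm_num
  rw [e4, e2, ← ENNReal.ofReal_mul (by norm_num), ← ENNReal.ofReal_mul (by norm_num), ← ENNReal.ofReal_add (by positivity) (by positivity)]
  congr 1
  ring

/-- **THE RECORD OF 271 FOR THE FIELD `V`**: cut point of THE state, `tel` of 195, `cV_L2` from the leaves -/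
noncomputable def PvvbDat.toV (𝔙 : PvvbDat τ) {𝔓 : PvxPar τ c} {m0 : ℕ} {q q' : ℝ≥0∞} {L : ℝ} (hW : 𝔓.Wf) (hb : ∀ t, (𝔓.ty t).b ≤ (𝔓.ty t).b2) (h : 𝔙.Ok 𝔓 m0 q q' L)
    {Gd : ℕ → ℝ → ℂ → τ → Set PVSample} (hG : ∀ m ε z t, Gd m ε z t ⊆ pvConf ⁻¹' 𝔙.D.Gd m ε z t) : PvnaVL 𝔓 m0 Gd where
  kV := 𝔙.kV
  cV := fun m _ => pvdcCVm 𝔓 m
  tel := fun x R hR m _ π hπ u hu => pvdc_tel_prob_b 𝔓 hW hb Gd x R hR m π hπ u hu
  CV := 4 * pvktCe q q' pvbeCB L + 2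
  cV_L2 := pvvb_cV_L2 h hG

/-- **THE ONE NAMED SUB-EXIT UNDER (7)**: a datum with its leaves, whose good configurations contain the good part -/
def PvvbEx (𝔓 : PvxPar τ c) (m0 : ℕ) (Gd : ℕ → ℝ → ℂ → τ → Set PVSample) : Prop :=
  ∃ (𝔙 : PvvbDat τ) (q q' : ℝ≥0∞) (L : ℝ), 𝔙.Ok 𝔓 m0 q q' L ∧ ∀ m ε z t, Gd m ε z t ⊆ pvConf ⁻¹' 𝔙.D.Gd m ε z t

theorem pvvb_eqns_cite2 : True := by
  have := @PvvbDat.toV.eq_1; have := @PvvbEx.eq_1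
  trivial

/-- (7) for every parameter with `Wf` -/
theorem pvvb_V {𝔓 : PvxPar τ c} {m0 : ℕ} {Gd : ℕ → ℝ → ℂ → τ → Set PVSample} (hW : 𝔓.Wf) (hb : ∀ t, (𝔓.ty t).b ≤ (𝔓.ty t).b2) (h : PvvbEx 𝔓 m0 Gd) : Nonempty (PvnaVL 𝔓 m0 Gd) := by
  obtain ⟨𝔙, q, q', L, hOk, hG⟩ := h
  exact ⟨𝔙.toV hW hb hOk hG⟩

/-- **(7) `exit_pvyq_V` AT THE PARAMETER OF RECORD**, from the one named sub-exit -/
theorem pvvb_exit (N : PvxNums) (hN : N.Ok) (𝔊 : PvnaGd (pvxTau N)) (h : PvvbEx (pvxParOf N hN c) (pvxParOf N hN c).m0 𝔊.all) :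
    Nonempty (PvnaVL (pvxParOf N hN c) (pvxParOf N hN c).m0 𝔊.all) :=
  pvvb_V (pvxo_wf N hN c) (fun _ => by
    show N.b1 ≤ N.b2
    linarith [hN.gap, hN.ab2]) h

end model

end Claimed.Agent.R289
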