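-- KEEP
import Claimed.Agent.R289.Tr.DictL
import Claimed.Agent.R289.Exit.RoomRE
import Claimed.Agent.R289.Exit.EngRec

/-!
# Row 289 (S0537), THE WALL, ROAD E, file Exit/TrVL : ROOF `V`, THE LEAF `exit_pvyu_reg` OF `Exit/AnaV` (142) = THE FOUR METRIC LINES `PvvdReg` (`Tr/DictL`) AT THE PARAMETERS OF RECORD      (helper195; prefix `pvvd_`, continuation of `Tr/DictL`)

0 sorry.      NOTHING HERE UNFOLDS A FIELD OF THE ENGINE: robust to the patches (Rc) of R22 (rooms of 166 / 285), U4 of R23 / R26 (unit `Δ / 20`, smaller region `rO`), L2.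
* sec. 1  THE CUT LINE.      Room v2 (`pveheY ∪ pvegIK`, 166 / 124), STRONG FORM: a point of the room lies `Δ / 64` in front of the plane of the reference plug OR off the closed BLOCK of the plug: `pvvd_EY_front`, `pvvd_front_v2`
          [W-7 in the form `e_front` speaks of the points of the room INSIDE the region only: a point of the room just outside the region, behind the line, would be allowed];      room v3 (`pvereY`, 166 `Exit/RoomRE`): `pver_eY_cut`;
          **`pvvd_front_room`** : the line `front` of `PvvdReg` for the union of the two rooms, region `pvehrO` (open square `Δ / 4`: every smaller region is allowed)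
* sec. 2  AT THE PARAMETERS OF RECORD, ANY ENGINE WITH `PvieEng.Wf`: `pvvd_pin_rec` (`PvllPin`), **`pvvd_reg_rec`** : `PvvdReg (pvxParOf N hN c) 𝔈 m t` from TWO INCLUSIONS ON THE ENGINE:
          `he` : `eY m t ⊆ room v2 ∪ room v3`   |   `hrO` : `rO m ⊆ pvehrO`      (antitone in both)
-/

set_option autoImplicit false

namespace Claimed.Agent.R289

open Set Metric Complex

/-! ## 1. the cut line -/

/-- a point of the room v2 of the thick link, off the mouth: `Δ / 64` in front of the plane of the plug, or off the closed block of the plug -/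
theorem pvvd_EY_front {Δ : ℝ} (hΔ : 0 < Δ) (cu : ℂ) {lb : List PvtTurn} (hW : PvehW lb) {Mi : Set ℂ} {w : ℂ} (hw : w ∈ pvehEY Δ cu lb Mi) (hM : w ∉ Mi) :
    cu.re + Δ / 64 ≤ w.re ∨ Δ / 2 < pvccN (w - cu) := by
  rcases hw with (h | h) | h
  · exact Or.inl h.1
  · unfold pvfeLanes at h
    simp only [mem_iUnion, exists_prop] at h
    obtain ⟨j, hj, hw⟩ := h
    have hj' : j < lb.length := Finset.mem_range.1 hj
    have hb := pveh_lane_sub hΔ cu lb j (by norm_num) (by norm_num) hw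
    unfold pvehB at hb
    rw [pveh_C_eq, pveh_mem_sq] at hb
    have e1 : (cu + (Δ : ℂ) * pvtZ (pvehV lb j)).re = cu.re + Δ * ((pvehV lb j).1 : ℝ) := by simp [pvtZ]
    have e2 : (cu + (Δ : ℂ) * pvtZ (pvehV lb j)).im = cu.im + Δ * ((pvehV lb j).2 : ℝ) := by simp [pvtZ]
    rw [e1, e2] at hb
    obtain ⟨⟨b1, b2⟩, b3, b4⟩ := hb
    rcases hW j hj' with hv | hv | hv
    · left
      rw [hv] at b1
      push_cast at b1
      linarith
    · right
      refine lt_of_lt_of_le ?_ (le_max_left _ _)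
      rw [sub_re, lt_abs]
      rcases le_abs'.1 hv with hv | hv
      · have : ((pvehV lb j).1 : ℝ) ≤ -2 := by exact_mod_cast hv
        right
        nlinarith
      · have : (2 : ℝ) ≤ ((pvehV lb j).1 : ℝ) := by exact_mod_cast hv
        left
        nlinarith
    · right
      refine lt_of_lt_of_le ?_ (le_max_right _ _)
      rw [sub_im, lt_abs]
      rcases le_abs'.1 hv with hv | hv
      · have : ((pvehV lb j).2 : ℝ) ≤ -2 := by exact_mod_cast hv
        right
        nlinarith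
      · have : (2 : ℝ) ≤ ((pvehV lb j).2 : ℝ) := by exact_mod_cast hv
        left
        nlinarith
  · exact absurd h hM

section par

variable {τ : Type} {c : ℝ} {𝔓 : PvxPar τ c} {m : ℕ} {t : τ}

/-- **THE CUT LINE AT THE ROOM v2** (`pveheY ∪ pvegIK` of 166 / 124), strong form -/
theorem pvvd_front_v2 (hL : PvegLev 𝔓 m) (hf : 1000 * pvlmDel c m ≤ 𝔓.num.rho * pvlmH m) (hT : pviwTyOk 𝔓 t) (Z : PvehGeo 𝔓 m t) {a : ℂ} (ha : a ∈ pveheY 𝔓 (pvegIM 𝔓) m t ∪ pvegIK 𝔓 m t) :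
    pvehDl 𝔓 m / 64 ≤ (a - (pvxrGam 𝔓 m).zu t).re ∨ pvehDl 𝔓 m / 2 < pvccN (a - (pvxrGam 𝔓 m).zu t) := by
  have J := pvej_geo_at (m := m) hL.rho0 hf hT
  have key : a ∈ closedBall (pvegYm 𝔓 m t) (pvegR 𝔓 m / 2) → pvehDl 𝔓 m / 2 < pvccN (a - (pvxrGam 𝔓 m).zu t) := by
    intro hB
    by_contra hc
    rw [not_lt] at hc
    have hb : a ∈ pvehSq ((pvxrGam 𝔓 m).zu t) (pvehDl 𝔓 m / 2) := hc
    rw [Z.zu'] at hb
    exact pvej_plug_off2 J hb hB
  by_cases hM : a ∈ pvegIM 𝔓 m t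
  · exact Or.inr (key (pveg_M_ball (pveg_door_i hL hT) hM))
  rcases ha with ha | ha
  · rcases pvvd_EY_front (pveh_Dl_pos Z.n0) _ (pveh_W_le _) ha hM with h | h
    · left
      rw [sub_re]
      linarith
    · exact Or.inr h
  · exact Or.inr (key (pveg_K_ball (pveg_door_i hL hT) ha))

/-- **THE LINE `front` OF `PvvdReg`** for the union of the room v2 and of the room v3 of 166, region = the open square `Δ / 4` -/
theorem pvvd_front_room (hL : PvegLev 𝔓 m) (hf : 1000 * pvlmDel c m ≤ 𝔓.num.rho * pvlmH m) (hT : pviwTyOk 𝔓 t) (Z : PvehGeo 𝔓 m t) {a x : ℂ}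
    (ha : a ∈ pveheY 𝔓 (pvegIM 𝔓) m t ∪ pvegIK 𝔓 m t ∪ pvereY 𝔓 m t) (hx : x ∈ pvieSh ((pvxrGam 𝔓 m).zu t) (pvehrO 𝔓 m)) (hre : (x - (pvxrGam 𝔓 m).zu t).re < 0) :
    4 * pvilMu 𝔓 m / 3 < ‖x - a‖ := by
  have hδ := pvlm_Del_pos c m
  have h1 := pvll_mu_del 𝔓 m
  have hΔ := pveh_Del_le_Dl Z.n0
  rcases ha with ha | ha
  · have hx' : pvccN (x - (pvxrGam 𝔓 m).zu t) < pvehDl 𝔓 m / 4 := by
      rw [pveh_sh_rO] at hx
      exact hx
    rcases pvvd_front_v2 hL hf hT Z ha with h | h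
    · have h4 : (a - x).re ≤ ‖x - a‖ := by
        rw [norm_sub_rev]
        exact (le_abs_self _).trans (abs_re_le_norm _)
      have e : (a - x).re = (a - (pvxrGam 𝔓 m).zu t).re - (x - (pvxrGam 𝔓 m).zu t).re := by
        simp only [sub_re]
        ring
      linarith
    · have h4 := pvccN_add_le (a - x) (x - (pvxrGam 𝔓 m).zu t)
      rw [sub_add_sub_cancel] at h4
      have h5 := pvvd_N_le (a - x)
      rw [norm_sub_rev] at h5
      linarith
  · by_contra hc
    rw [not_lt] at hc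
    have := pver_eY_cut hL.rho0 hf hT Z (s := 4 * pvilMu 𝔓 m / 3) (by linarith) ha hc hx
    rw [sub_re] at hre
    linarith

end par

/-! ## 2. at the parameters of record -/

section rec

variable {N : PvxNums} (hN : N.Ok) {c : ℝ}

/-- `PvllPin` of 74 at the parameters of record -/
theorem pvvd_pin_rec (m : ℕ) (t : pvxTau N) : PvllPin (pvxParOf N hN c) m t := by
  refine pvll_pin_mk (𝔓 := pvxParOf N hN c) (t := t) hN.msk0 ?_ ?_ m
  · show 1 + N.rho3 / 500 ≤ N.b1
    have h1 : (0 : ℝ) ≤ N.g := Nat.cast_nonneg _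
    have h2 := hN.msk
    have h3 := hN.msk0
    have h4 : N.rho3 ≤ N.rho := by nlinarith
    linarith [hN.m_gt, hN.m_lt, hN.B_lt, hN.ab1, hN.rho1, hN.rho2, hN.rho3, hN.rho0]
  · show N.b1 ≤ 2 * N.b2 + _ * N.rho1
    have h1 : 0 ≤ ((((pvxParOf N hN c).ty t).k : ℕ) : ℝ) * N.rho1 := mul_nonneg (Nat.cast_nonneg _) (by linarith [hN.rho1, hN.rho0])
    have h2 : 0 < N.b2 := by linarith [hN.m_gt, hN.m_lt, hN.B_lt, hN.ab1, hN.gap, hN.ab2]
    linarith [hN.gap, hN.ab2]

/-- **`PvvdReg` AT THE PARAMETERS OF RECORD**, any engine with the contract `PvieEng.Wf` whose room lies in the rooms of 166 / 124 and whose region lies in the open square `Δ / 4` -/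
theorem pvvd_reg_rec (c0 : 0 < c) {𝔈 : PvieEng (pvxTau N)} {Cth : ℝ} {r κs : ℕ → ℝ} (W : PvieEng.Wf (pvxParOf N hN c) 𝔈 N.m0 Cth r κs) {m : ℕ} (hm : N.m0 ≤ m) (t : pvxTau N)
    (he : 𝔈.eY m t ⊆ pveheY (pvxParOf N hN c) (pvegIM (pvxParOf N hN c)) m t ∪ pvegIK (pvxParOf N hN c) m t ∪ pvereY (pvxParOf N hN c) m t)
    (hrO : 𝔈.rO m ⊆ pvehrO (pvxParOf N hN c) m) : PvvdReg (pvxParOf N hN c) 𝔈 m t := by
  have H := pvea_par hN c0
  have hT := pvea_tyOk (c := c) hN t
  have hh := pvlm_H_pos m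
  refine pvvd_reg_wf W hm hT ?_ ?_ fun a ha x hx hre => ?_
  · show N.m * pvlmH m + 4 * pvilMu (pvxParOf N hN c) m / 3 < N.a1 * pvlmH m
    have h1 : 1000 * pvilMu (pvxParOf N hN c) m ≤ N.rho3 * pvlmH m := pvll_mu_h (pvxParOf N hN c) m
    have h2 : (0 : ℝ) ≤ N.g := Nat.cast_nonneg _
    have h3 := hN.msk
    have h4 := hN.msk0
    have h5 : N.rho3 ≤ 1 := by nlinarith [hN.rho1, hN.rho2, hN.rho3, hN.rho0]
    have h6 : N.m + 1 < N.a1 := by linarith [hN.m_gt, hN.m_lt, hN.B_lt]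
    nlinarith
  · show N.a1 + 6 * N.rho / 10 ≤ 2 * N.b2 + _ * N.rho1
    have h1 : 0 ≤ ((((pvxParOf N hN c).ty t).k : ℕ) : ℝ) * N.rho1 := mul_nonneg (Nat.cast_nonneg _) (by linarith [hN.rho1, hN.rho0])
    linarith [hN.gap, hN.ab2, hN.ab1, hN.rho1, hN.rho2, hN.rho3, hN.rho0, hN.m_gt, hN.m_lt, hN.B_lt]
  · exact pvvd_front_room (H.lev hm) (by linarith [H.fine m hm, pvlm_Del_pos c m]) hT (H.geo m hm t hT) (he ha) (Set.image_mono hrO hx) hre

end rec

end Claimed.Agent.R289
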