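-- KEEP
import Claimed.Agent.R289.Exit.TrVA
import Claimed.Agent.R289.Exit.ThickLM
import Claimed.Agent.R289.Tr.NullG
import Claimed.Agent.R289.Tr.TeleV

/-!
# Row 289 (S0537), THE WALL, ROAD E, file Exit/TrVT : ROOF `V`, THE LEAF (T) `PvyuT` CUT INTO TWO DETERMINISTIC LEAVES, AT THE EXPERIMENT ITSELF      (helper142, cutter of `exit_pvyq_pair`; prefix `pvyu`, `Pvyu`)

`Exit/TrVA.lean`: (7) `V` from `PvjtWf` + `PvjtRecog` at `V` + `PvguRec` + (T) `PvyuT`.      HERE (T) is reduced to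
      **(T2)** `PvyuLk 𝔓 𝔈 m z t η`   the masks of the thick link at a plain success (`PvvfLk` of 85 for EVERY arc of `pvilLe` in `η`): a property of `η` ALONE, asked ALMOST SURELY under `pvP ε` on `pvilMe Z` (mesh of the window available)
      **(T3)** `PvyuFix 𝔓 m z t ω η`  the cut point of the pin read on ANY entrance half state of `η = ex(ω, x, p)` is the cut point of record of `ω`
by   soft `⟹` plain AT `ex` ITSELF (no completion):   `pvsu_sure_sub` + [MEAS] (`pvkt_jt_nE`, `pvkt_jt_nF` of 103 / 289) + **NULL AVOIDANCE FOR GLOBAL PROPERTIES** (`pvyu_ae_exp`, `Tr/NullG`) + `pvyq_emb_ae` (283);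
     (T-det) `pvvf_val` (85);   (T4) `pvvu_T4` (61).      0 sorry.      [second rope of `pvyv_T` of 189 (completion `ζ`, `Tr/GenP`): first green wins]
* sec. 1  `pvyu_soft_fin`, `pvyu_sure_fin` : a.s., for ALL hulls, soft success `⟹` plain event (and plain value `=` soft value)
* sec. 2  `pvyuW`, `PvyuLk`, `PvyuFix`, `pvyu_ex_plug` (the experiment shows the placed plug), **`pvyu_det`** (deterministic core)
* sec. 3  **`pvyu_T_of`** : (T2) a.s. + (T3) along the experiment `⟹ PvyuT`;   `Nc` = ANY a.s. property, available at `ex` to the producer of (T3)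
-/

set_option autoImplicit false

namespace Claimed.Agent.R289

open Set MeasureTheory Filter Topology Claims.C0465
open scoped ENNReal

/-! ## 1. soft ⟹ plain, all the hulls at once -/

section soft

variable {ε : ℝ} {Wn : Set (ℤ × ℤ) → Set ℂ} {M : Set (ℤ × ℤ) → Set (Conf PvPt)}

/-- form of record of an end with a value -/
theorem pvyu_soft_fin {F : Conf PvPt → ℂ} (hW : ∀ Z : Set (ℤ × ℤ), Z.Finite → MeasurableSet (Wn Z))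
    (nE : ∀ Z : Set (ℤ × ℤ), Z.Finite → NullMeasurableSet (M Z ∩ {η | F η = pvilLoc ε (Wn Z) (M Z) F η}) (pvP ε)) :
    ∀ᵐ η ∂pvP ε, ∀ Z, η ∈ pvilFin Z (pvilSA ε (Wn Z) (M Z) F) → η ∈ M Z ∧ F η = pvilLoc ε (Wn Z) (M Z) F η := by
  have key : ∀ᵐ η ∂pvP ε, ∀ Z : Finset (ℤ × ℤ), η ∈ pvilSA ε (Wn ↑Z) (M ↑Z) F → η ∈ M ↑Z ∩ {η | F η = pvilLoc ε (Wn ↑Z) (M ↑Z) F η} :=
    ae_all_iff.2 fun Z => pvsu_sure_sub (pv_isPpp ε) ((hW _ Z.finite_toSet).prod MeasurableSet.univ) (nE _ Z.finite_toSet)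
  filter_upwards [key] with η h Z hA
  unfold pvilFin at hA
  by_cases hZ : Z.Finite
  · rw [if_pos hZ] at hA
    have := h hZ.toFinset
    simp only [Set.Finite.coe_toFinset] at this
    exact this hA
  · rw [if_neg hZ] at hA
    exact absurd hA (notMem_empty η)

/-- form of record of an end without value -/
theorem pvyu_sure_fin (hW : ∀ Z : Set (ℤ × ℤ), Z.Finite → MeasurableSet (Wn Z)) (nF : ∀ Z : Set (ℤ × ℤ), Z.Finite → NullMeasurableSet (M Z) (pvP ε)) :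
    ∀ᵐ η ∂pvP ε, ∀ Z, η ∈ pvilFin Z (pvilSure ε (Wn Z) (M Z)) → η ∈ M Z := by
  have key : ∀ᵐ η ∂pvP ε, ∀ Z : Finset (ℤ × ℤ), η ∈ pvilSure ε (Wn ↑Z) (M ↑Z) → η ∈ M ↑Z :=
    ae_all_iff.2 fun Z => pvsu_sure_sub (pv_isPpp ε) ((hW _ Z.finite_toSet).prod MeasurableSet.univ) (nF _ Z.finite_toSet)
  filter_upwards [key] with η h Z hA
  unfold pvilFin at hA
  by_cases hZ : Z.Finite
  · rw [if_pos hZ] at hA
    have := h hZ.toFinset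
    simp only [Set.Finite.coe_toFinset] at this
    exact this hA
  · rw [if_neg hZ] at hA
    exact absurd hA (notMem_empty η)

end soft

/-! ## 2. the two deterministic leaves, the deterministic core -/

section det

variable {τ : Type} {c : ℝ} (𝔓 : PvxPar τ c) (𝔈 : PvieEng τ)

/-- the dropped region of the thick link: the part of the region of the reference plug BEHIND the line through its centre -/
def pvyuW (m : ℕ) (z : ℂ) (t : τ) : Set ℂ := pvieSh (pvieZu 𝔓 m z t) (𝔈.rO m) \ pvilHp (pvieZu 𝔓 m z t) 1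

/-- **(T2) THE MASKS OF THE THICK LINK** in `η`: every arc of `pvilLe` satisfies the record `PvvfLk` of 85 (`Tr/TeleV`) -/
def PvyuLk (m : ℕ) (z : ℂ) (t : τ) (η : Conf PvPt) : Prop :=
  ∀ (𝔖 𝔖' : PvwSt (pvieT η)) (y : (pvieT η).Pth), (pvilLe 𝔓 𝔈 m z t).Arc 𝔓.num (𝔓.col t) η 𝔖 𝔖' y →
    PvvfLk (pviePos η) (pvyuW 𝔓 𝔈 m z t) (Metric.closedBall z (𝔓.num.m * pvlmH m)) 𝔖 𝔖' y

/-- **(T3) THE PIN IS NOT MOVED**: the cut point read on any entrance half state of the pin in `η` is the cut point of record of `ω` -/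
def PvyuFix (m : ℕ) (z : ℂ) (t : τ) (ω η : Conf PvPt) : Prop :=
  ∀ 𝔖' : PvwSt (pvieT η), PvilIn 𝔓.num (𝔓.col t) (pvilPin 𝔓 m z t) η 𝔖' → pvdcCV 𝔖' (pviePos η) z (𝔓.num.m * pvlmH m) = pvyqC 𝔓.num (𝔓.col t) (𝔓.pl m z t) ω

theorem pvyu_eqns_cite2 : True := by
  have := @pvyuW.eq_1; have := @PvyuLk.eq_1; have := @PvyuFix.eq_1
  trivial

variable {𝔓 𝔈} {𝔯 : PvjtRet τ} {m : ℕ} {ε : ℝ} {z : ℂ} {t : τ}

/-- the experiment shows the placed plug in its region -/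
theorem pvyu_ex_plug (i : PvjtIx) (ω x : Conf PvPt) (p : (ℂ → Bool) × Conf PvPt) :
    Conf.restr (pvieSh (pvieZu 𝔓 m z t) (𝔈.rO m) ×ˢ univ) (pvyuEx 𝔓 𝔈 𝔯 m ε z t i ω x p) = Conf.restr (pvieSh (pvieZu 𝔓 m z t) (𝔈.rO m) ×ˢ univ) ((pvvuPlug 𝔓 𝔈).θ m ε z t x) := by
  have hs : pvieSh (pvieZu 𝔓 m z t) (𝔈.rO m) ⊆ pvjtC 𝔓 𝔈 𝔯 m z t := fun _ h => Or.inl (Or.inr h)
  unfold pvyuEx pvjtR
  rw [pvky_restr_R hs]
  exact Conf.restr_spl _ _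

/-- **THE DETERMINISTIC CORE OF (T)**: `η` = ANY configuration with one colour per site which shows the placed plug `θ x` in `zu + rO`, where the thick link succeeds (plain), with (T2) and (T3) -/
theorem pvyu_det (hr : 0 < pvilRu 𝔈 m) (mO : MeasurableSet (𝔈.rO m)) (hw : pvwSq 0 (3 * pvilRu 𝔈 m) ⊆ 𝔈.rO m) {ω x η : Conf PvPt} (h1 : PviqOne η)
    (hη : Conf.restr (pvieSh (pvieZu 𝔓 m z t) (𝔈.rO m) ×ˢ univ) η = Conf.restr (pvieSh (pvieZu 𝔓 m z t) (𝔈.rO m) ×ˢ univ) ((pvvuPlug 𝔓 𝔈).θ m ε z t x))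
    (hA : η ∈ (pvilLe 𝔓 𝔈 m z t).A 𝔓.num (𝔓.col t)) (h2 : PvyuLk 𝔓 𝔈 m z t η) (h3 : PvyuFix 𝔓 m z t ω η) :
    (pvilLe 𝔓 𝔈 m z t).X 𝔓.num (𝔓.col t) pvilV η = pvyqX 𝔓 m z t ω - (pvvuPlug 𝔓 𝔈).F m ε x := by
  obtain ⟨𝔖, 𝔖', y, hArc, hX⟩ := pvjk_X_eq (pvilLe 𝔓 𝔈 m z t) 𝔓.num (𝔓.col t) hA
  have e2 := pvvf_val (L := pvilLe 𝔓 𝔈 m z t) rfl rfl (W := pvyuW 𝔓 𝔈 m z t) rfl 𝔓.num (h2 𝔖 𝔖' y hArc)
  have e3 := h3 𝔖' ((PvilLk.atP'_pin (L := pvilLe 𝔓 𝔈 m z t) rfl _ _ _ _).1 hArc.at_p')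
  have e4 := pvvu_T4 (𝔓 := 𝔓) (ε := ε) (z := z) (t := t) hr mO hw h1 hη ((PvilLk.atP_door (L := pvilLe 𝔓 𝔈 m z t) rfl _ _ _ _).1 hArc.at_p)
  have e5 : pvvfCut 𝔖 (pviePos η) (pvyuW 𝔓 𝔈 m z t) = pvieZu 𝔓 m z t + (pvvuPlug 𝔓 𝔈).F m ε x := e4
  have e6 : pvdcCV 𝔖' (pviePos η) (pvilLe 𝔓 𝔈 m z t).p'.z (𝔓.num.m * (pvilLe 𝔓 𝔈 m z t).p'.h) = pvyqC 𝔓.num (𝔓.col t) (𝔓.pl m z t) ω := e3
  rw [hX pvilV, e2, e5, e6]
  unfold pvyqX pvieZu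
  ring

end det

/-! ## 3. (T) -/

section T

variable {τ : Type} {c : ℝ} {𝔓 : PvxPar τ c} {𝔈 : PvieEng τ} {𝔯 : PvjtRet τ} {L : ℝ} {b0 q q' : ℝ≥0∞} {m : ℕ} {ε : ℝ} {z : ℂ} {t : τ}

theorem pvyu_sh_bdd (z : ℂ) {S : Set ℂ} (h : Bornology.IsBounded S) : Bornology.IsBounded (pvieSh z S) := by
  obtain ⟨R, hR⟩ := h.subset_closedBall (0 : ℂ)
  refine (Metric.isBounded_closedBall (x := z) (r := R)).subset ?_
  rintro _ ⟨w, hw, rfl⟩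
  have := hR hw
  rw [mem_closedBall_zero_iff] at this
  rw [Metric.mem_closedBall, dist_eq_norm]
  simpa using this

/-- **(T) FROM (T2) ALMOST SURELY AND (T3) ALONG THE EXPERIMENT** -/
theorem pvyu_T_of (h𝔓 : 𝔓.WfB) (hB : PvmlEngB 𝔈) (H : PvjtWf 𝔓 𝔈 𝔯 L b0) (hε : 0 < ε) (hl : pvjtLv 𝔓 m t) (hY : MeasurableSet (𝔯.fY m t))
    (hr : 0 < pvilRu 𝔈 m) (hw : pvwSq 0 (3 * pvilRu 𝔈 m) ⊆ 𝔈.rO m) {Nc : Conf PvPt → Prop} (hNc : ∀ᵐ η ∂pvP ε, Nc η)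
    (h2 : ∀ᵐ η ∂pvP ε, ∀ Z : Set (ℤ × ℤ), η ∈ pvilMe 𝔓 𝔈 m z t Z → PvyuLk 𝔓 𝔈 m z t η)
    (h3 : ∀ᵐ ω ∂pvP ε, ω ∈ pvConf '' pvxU 𝔓 m z t → ω ∈ pvjtGd 𝔓 𝔈 𝔯 pvilV q q' m ε z t → ∀ i, pvjtBeta 𝔓 m z t ω = some i → ∀ᵐ x ∂pvP ε, x ∈ 𝔈.rG m ε → ∀ᵐ p ∂pvdyNu ε,
      Nc (pvyuEx 𝔓 𝔈 𝔯 m ε z t i ω x p) → pvyuEx 𝔓 𝔈 𝔯 m ε z t i ω x p ∈ pvilMe 𝔓 𝔈 m z t i.1.1 → pvyuEx 𝔓 𝔈 𝔯 m ε z t i ω x p ∈ pvjtMf 𝔓 𝔈 𝔯 m z t i.2.1 →
        PvyuFix 𝔓 m z t ω (pvyuEx 𝔓 𝔈 𝔯 m ε z t i ω x p)) :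
    PvyuT 𝔓 𝔈 𝔯 q q' m ε z t := by
  have s1 := pvyu_soft_fin (ε := ε) (Wn := pvilWne 𝔓 𝔈 m z t) (M := pvilMe 𝔓 𝔈 m z t) (F := (pvilLe 𝔓 𝔈 m z t).X 𝔓.num (𝔓.col t) pvilV)
    (fun Z _ => pvjk_mWne H m z t Z) fun Z _ => pvkt_jt_nE h𝔓 hB H hε pvml_wm_V m z t Z
  have s2 := pvyu_sure_fin (ε := ε) (Wn := pvjtWnf 𝔓 𝔈 𝔯 m z t) (M := pvjtMf 𝔓 𝔈 𝔯 m z t) (fun Z _ => pvjk_mWnf H m z t Z) fun Z _ => pvkt_jt_nF h𝔓 𝔈 hε hY z Z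
  have hP := ((s1.and s2).and ((pviq_ae_one ε).and h2)).and hNc
  have mU : MeasurableSet (pvieSh z (𝔈.eM m t) ∪ pvieSh z (𝔯.fM m t)) := (pvjt_sh_meas z (H.m_eM m t)).union (pvjt_sh_meas z (H.m_fM m t))
  have bU : Bornology.IsBounded (pvieSh z (𝔈.eM m t) ∪ pvieSh z (𝔯.fM m t)) :=
    (pvyu_sh_bdd z (Metric.isBounded_closedBall.subset (H.eM_cen m t hl))).union (pvyu_sh_bdd z (Metric.isBounded_closedBall.subset (H.fM_cen m t hl)))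
  have mC : MeasurableSet (pvjtC 𝔓 𝔈 𝔯 m z t) := ((pvjt_sh_meas z (H.m_eK m t)).union (pvjt_sh_meas _ (H.m_rO m))).union (pvjt_sh_meas z (H.m_fK m t))
  filter_upwards [pvyu_ae_exp ε mC mU bU hP, h3] with ω a1 a3 hU hG i hi
  have hsub : pvjtY 𝔈 𝔯 m z t (some i) ⊆ pvieSh z (𝔈.eM m t) ∪ pvieSh z (𝔯.fM m t) := union_subset_union sdiff_subset sdiff_subset
  filter_upwards [pvyq_emb_ae ε (pvvu_mO 𝔓 𝔈 (H.m_rO m) ε z t) (pvvu_mθ 𝔓 𝔈 m ε z t) (pvvu_law 𝔓 𝔈 m ε z t) (a1 _ hsub), a3 hU hG i hi] with x c1 c3 hx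
  filter_upwards [c1, c3 hx] with p d1 d3 hAe hAf
  obtain ⟨⟨⟨k1, k2⟩, k3, k4⟩, k5⟩ := d1
  obtain ⟨hMe, hX⟩ := k1 i.1.1 hAe
  have hMf := k2 i.2.1 hAf
  have key := pvyu_det (ε := ε) hr (H.m_rO m) hw k3 (pvyu_ex_plug i ω x p) hMe.1.1 (k4 _ hMe) (d3 k5 hMe hMf)
  exact hX.symm.trans key

end T

end Claimed.Agent.R289
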